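import Vale.Agent.Lib.P154.PChain.BC.R3_0

set_option linter.all false

namespace Vale.Agent.Lib.P154.PChain.BC.S4

open Vale.Agent.Lib.P154.Chain

noncomputable def pc0 : PT := (PT.nd (nat_lit 8202948) (PT.nd (nat_lit 8015514) (PT.nd (nat_lit 7890714) (PT.nd (nat_lit 7828314) (PT.nd (nat_lit 7828236) (PT.nd (nat_lit 7765836) PT.nil (PT.lf (nat_lit 76) (nat_lit 3) (nat_lit 1) (nat_lit 1) (nat_lit 238) (nat_lit 124) (nat_lit 238))) (PT.lf (nat_lit 152) (nat_lit 6) (nat_lit 2) (nat_lit 3) (nat_lit 237) (nat_lit 125) (nat_lit 238))) (PT.nd (nat_lit 62322) (PT.lf (nat_lit 152) (nat_lit 6) (nat_lit 2) (nat_lit 1) (nat_lit 238) (nat_lit 125) (nat_lit 237)) (PT.lf (nat_lit 228) (nat_lit 6) (nat_lit 3) (nat_lit 3) (nat_lit 236) (nat_lit 126) (nat_lit 238)))) (PT.nd (nat_lit 62400) (PT.nd (nat_lit 78) (PT.lf (nat_lit 304) (nat_lit 3) (nat_lit 4) (nat_lit 1) (nat_lit 237) (nat_lit 126) (nat_lit 237)) (PT.lf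 (nat_lit 228) (nat_lit 6) (nat_lit 3) (nat_lit 1) (nat_lit 238) (nat_lit 126) (nat_lit 236))) (PT.nd (nat_lit 78) (PT.lf (nat_lit 380) (nat_lit 6) (nat_lit 5) (nat_lit 3) (nat_lit 236) (nat_lit 127) (nat_lit 237)) (PT.lf (nat_lit 380) (nat_lit 6) (nat_lit 5) (nat_lit 1) (nat_lit 237) (nat_lit 127) (nat_lit 236))))) (PT.nd (nat_lit 62556) (PT.nd (nat_lit 156) (PT.nd (nat_lit 78) (PT.lf (nat_lit 456) (nat_lit 6) (nat_lit 6) (nat_lit 3) (nat_lit 235) (nat_lit 128) (nat_lit 237)) (PT.lf (nat_lit 532) (nat_lit 3) (nat_lit 7) (nat_lit 1) (nat_lit 236) (nat_lit 128) (nat_lit 236))) (PT.nd (nat_lit 62322) (PT.lf (nat_lit 456) (nat_lit 6) (nat_lit 6) (nat_lit 1) (nat_lit 237) (nat_lit 128) (nat_lit 235)) (PT.lf (nat_lit 608) (nat_lit 6) (nat_lit 8) (nat_lit 3) (nat_lit 235) (nat_lit 129) (nat_lit 236)))) (PT.nd (nat_lit 62400) (PT.nd (nat_lit 62322) (PT.lf (nat_lit 608) (nat_lit 6) (nat_lit 8) (nat_lit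 1) (nat_lit 236) (nat_lit 129) (nat_lit 235)) (PT.lf (nat_lit 684) (nat_lit 6) (nat_lit 9) (nat_lit 3) (nat_lit 234) (nat_lit 130) (nat_lit 236))) (PT.nd (nat_lit 78) (PT.lf (nat_lit 760) (nat_lit 3) (nat_lit 10) (nat_lit 1) (nat_lit 235) (nat_lit 130) (nat_lit 235)) (PT.nd (nat_lit 62322) (PT.lf (nat_lit 684) (nat_lit 6) (nat_lit 9) (nat_lit 1) (nat_lit 236) (nat_lit 130) (nat_lit 234)) (PT.lf (nat_lit 836) (nat_lit 6) (nat_lit 11) (nat_lit 3) (nat_lit 234) (nat_lit 131) (nat_lit 235))))))) (PT.nd (nat_lit 187356) (PT.nd (nat_lit 124800) (PT.nd (nat_lit 62400) (PT.nd (nat_lit 62322) (PT.lf (nat_lit 836) (nat_lit 6) (nat_lit 11) (nat_lit 1) (nat_lit 235) (nat_lit 131) (nat_lit 234)) (PT.lf (nat_lit 912) (nat_lit 6) (nat_lit 12) (nat_lit 3) (nat_lit 233) (nat_lit 132) (nat_lit 235))) (PT.nd (nat_lit 78) (PT.lf (nat_lit 988) (nat_lit 3) (nat_lit 13) (nat_lit 1) (nat_lit 234) (nat_lit 132) (nat_lit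 234)) (PT.lf (nat_lit 912) (nat_lit 6) (nat_lit 12) (nat_lit 1) (nat_lit 235) (nat_lit 132) (nat_lit 233)))) (PT.nd (nat_lit 62400) (PT.nd (nat_lit 78) (PT.lf (nat_lit 1064) (nat_lit 6) (nat_lit 14) (nat_lit 3) (nat_lit 233) (nat_lit 133) (nat_lit 234)) (PT.lf (nat_lit 1064) (nat_lit 6) (nat_lit 14) (nat_lit 1) (nat_lit 234) (nat_lit 133) (nat_lit 233))) (PT.nd (nat_lit 78) (PT.lf (nat_lit 1140) (nat_lit 6) (nat_lit 15) (nat_lit 3) (nat_lit 232) (nat_lit 134) (nat_lit 234)) (PT.lf (nat_lit 1216) (nat_lit 3) (nat_lit 16) (nat_lit 1) (nat_lit 233) (nat_lit 134) (nat_lit 233))))) (PT.nd (nat_lit 124800) (PT.nd (nat_lit 62400) (PT.nd (nat_lit 62322) (PT.lf (nat_lit 1140) (nat_lit 6) (nat_lit 15) (nat_lit 1) (nat_lit 234) (nat_lit 134) (nat_lit 232)) (PT.lf (nat_lit 1292) (nat_lit 6) (nat_lit 17) (nat_lit 3) (nat_lit 232) (nat_lit 135) (nat_lit 233))) (PT.nd (nat_lit 62322) (PT.lf (nat_lit 1292) (nat_lit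 6) (nat_lit 17) (nat_lit 1) (nat_lit 233) (nat_lit 135) (nat_lit 232)) (PT.lf (nat_lit 1368) (nat_lit 6) (nat_lit 18) (nat_lit 3) (nat_lit 231) (nat_lit 136) (nat_lit 233)))) (PT.nd (nat_lit 62400) (PT.nd (nat_lit 78) (PT.lf (nat_lit 1444) (nat_lit 3) (nat_lit 19) (nat_lit 1) (nat_lit 232) (nat_lit 136) (nat_lit 232)) (PT.lf (nat_lit 1368) (nat_lit 6) (nat_lit 18) (nat_lit 1) (nat_lit 233) (nat_lit 136) (nat_lit 231))) (PT.nd (nat_lit 78) (PT.lf (nat_lit 1520) (nat_lit 6) (nat_lit 20) (nat_lit 3) (nat_lit 231) (nat_lit 137) (nat_lit 232)) (PT.nd (nat_lit 62322) (PT.lf (nat_lit 1520) (nat_lit 6) (nat_lit 20) (nat_lit 1) (nat_lit 232) (nat_lit 137) (nat_lit 231)) (PT.lf (nat_lit 1596) (nat_lit 6) (nat_lit 21) (nat_lit 3) (nat_lit 230) (nat_lit 138) (nat_lit 232))))))))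
noncomputable def pc1 : PT := (PT.nd (nat_lit 437034) (PT.nd (nat_lit 187356) (PT.nd (nat_lit 124800) (PT.nd (nat_lit 62400) (PT.nd (nat_lit 78) (PT.lf (nat_lit 1672) (nat_lit 3) (nat_lit 22) (nat_lit 1) (nat_lit 231) (nat_lit 138) (nat_lit 231)) (PT.lf (nat_lit 1596) (nat_lit 6) (nat_lit 21) (nat_lit 1) (nat_lit 232) (nat_lit 138) (nat_lit 230))) (PT.nd (nat_lit 78) (PT.lf (nat_lit 1748) (nat_lit 6) (nat_lit 23) (nat_lit 3) (nat_lit 230) (nat_lit 139) (nat_lit 231)) (PT.lf (nat_lit 1748) (nat_lit 6) (nat_lit 23) (nat_lit 1) (nat_lit 231) (nat_lit 139) (nat_lit 230)))) (PT.nd (nat_lit 156) (PT.nd (nat_lit 78) (PT.lf (nat_lit 1824) (nat_lit 6) (nat_lit 24) (nat_lit 3) (nat_lit 229) (nat_lit 140) (nat_lit 231)) (PT.lf (nat_lit 1900) (nat_lit 3) (nat_lit 25) (nat_lit 1) (nat_lit 230) (nat_lit 140) (nat_lit 230))) (PT.nd (nat_lit 62322) (PT.lf (nat_lit 1824) (nat_lit 6) (nat_lit 24) (nat_lit 1) (nat_lit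 231) (nat_lit 140) (nat_lit 229)) (PT.lf (nat_lit 1976) (nat_lit 6) (nat_lit 26) (nat_lit 3) (nat_lit 229) (nat_lit 141) (nat_lit 230))))) (PT.nd (nat_lit 124800) (PT.nd (nat_lit 62400) (PT.nd (nat_lit 62322) (PT.lf (nat_lit 1976) (nat_lit 6) (nat_lit 26) (nat_lit 1) (nat_lit 230) (nat_lit 141) (nat_lit 229)) (PT.lf (nat_lit 2052) (nat_lit 6) (nat_lit 27) (nat_lit 3) (nat_lit 228) (nat_lit 142) (nat_lit 230))) (PT.nd (nat_lit 78) (PT.lf (nat_lit 2128) (nat_lit 3) (nat_lit 28) (nat_lit 1) (nat_lit 229) (nat_lit 142) (nat_lit 229)) (PT.lf (nat_lit 2052) (nat_lit 6) (nat_lit 27) (nat_lit 1) (nat_lit 230) (nat_lit 142) (nat_lit 228)))) (PT.nd (nat_lit 62400) (PT.nd (nat_lit 78) (PT.lf (nat_lit 2204) (nat_lit 6) (nat_lit 29) (nat_lit 3) (nat_lit 228) (nat_lit 143) (nat_lit 229)) (PT.lf (nat_lit 2204) (nat_lit 6) (nat_lit 29) (nat_lit 1) (nat_lit 229) (nat_lit 143) (nat_lit 228))) (PT.nd (nat_lit 78)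 (PT.lf (nat_lit 2280) (nat_lit 6) (nat_lit 30) (nat_lit 3) (nat_lit 227) (nat_lit 144) (nat_lit 229)) (PT.nd (nat_lit 78) (PT.lf (nat_lit 2356) (nat_lit 3) (nat_lit 31) (nat_lit 1) (nat_lit 228) (nat_lit 144) (nat_lit 228)) (PT.lf (nat_lit 2280) (nat_lit 6) (nat_lit 30) (nat_lit 1) (nat_lit 229) (nat_lit 144) (nat_lit 227))))))) (PT.nd (nat_lit 187434) (PT.nd (nat_lit 62556) (PT.nd (nat_lit 62400) (PT.nd (nat_lit 78) (PT.lf (nat_lit 2432) (nat_lit 6) (nat_lit 32) (nat_lit 3) (nat_lit 227) (nat_lit 145) (nat_lit 228)) (PT.lf (nat_lit 2432) (nat_lit 6) (nat_lit 32) (nat_lit 1) (nat_lit 228) (nat_lit 145) (nat_lit 227))) (PT.nd (nat_lit 78) (PT.lf (nat_lit 2508) (nat_lit 6) (nat_lit 33) (nat_lit 3) (nat_lit 226) (nat_lit 146) (nat_lit 228)) (PT.lf (nat_lit 2584) (nat_lit 3) (nat_lit 34) (nat_lit 1) (nat_lit 227) (nat_lit 146) (nat_lit 227)))) (PT.nd (nat_lit 62400) (PT.nd (nat_lit 62322) (PT.lf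 (nat_lit 2508) (nat_lit 6) (nat_lit 33) (nat_lit 1) (nat_lit 228) (nat_lit 146) (nat_lit 226)) (PT.lf (nat_lit 2660) (nat_lit 6) (nat_lit 35) (nat_lit 3) (nat_lit 226) (nat_lit 147) (nat_lit 227))) (PT.nd (nat_lit 62322) (PT.lf (nat_lit 2660) (nat_lit 6) (nat_lit 35) (nat_lit 1) (nat_lit 227) (nat_lit 147) (nat_lit 226)) (PT.nd (nat_lit 78) (PT.lf (nat_lit 2736) (nat_lit 6) (nat_lit 36) (nat_lit 3) (nat_lit 225) (nat_lit 148) (nat_lit 227)) (PT.lf (nat_lit 2812) (nat_lit 3) (nat_lit 37) (nat_lit 1) (nat_lit 226) (nat_lit 148) (nat_lit 226)))))) (PT.nd (nat_lit 124800) (PT.nd (nat_lit 62400) (PT.nd (nat_lit 62322) (PT.lf (nat_lit 2736) (nat_lit 6) (nat_lit 36) (nat_lit 1) (nat_lit 227) (nat_lit 148) (nat_lit 225)) (PT.lf (nat_lit 2888) (nat_lit 6) (nat_lit 38) (nat_lit 3) (nat_lit 225) (nat_lit 149) (nat_lit 226))) (PT.nd (nat_lit 62322) (PT.lf (nat_lit 2888) (nat_lit 6) (nat_lit 38) (nat_lit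 1) (nat_lit 226) (nat_lit 149) (nat_lit 225)) (PT.lf (nat_lit 2964) (nat_lit 6) (nat_lit 39) (nat_lit 3) (nat_lit 224) (nat_lit 150) (nat_lit 226)))) (PT.nd (nat_lit 62400) (PT.nd (nat_lit 78) (PT.lf (nat_lit 3040) (nat_lit 3) (nat_lit 40) (nat_lit 1) (nat_lit 225) (nat_lit 150) (nat_lit 225)) (PT.lf (nat_lit 2964) (nat_lit 6) (nat_lit 39) (nat_lit 1) (nat_lit 226) (nat_lit 150) (nat_lit 224))) (PT.nd (nat_lit 78) (PT.lf (nat_lit 3116) (nat_lit 6) (nat_lit 41) (nat_lit 3) (nat_lit 224) (nat_lit 151) (nat_lit 225)) (PT.nd (nat_lit 62322) (PT.lf (nat_lit 3116) (nat_lit 6) (nat_lit 41) (nat_lit 1) (nat_lit 225) (nat_lit 151) (nat_lit 224)) (PT.lf (nat_lit 3192) (nat_lit 6) (nat_lit 42) (nat_lit 3) (nat_lit 223) (nat_lit 152) (nat_lit 225))))))))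
noncomputable def pc2 : PT := (PT.nd (nat_lit 437034) (PT.nd (nat_lit 187356) (PT.nd (nat_lit 124800) (PT.nd (nat_lit 62400) (PT.nd (nat_lit 78) (PT.lf (nat_lit 3268) (nat_lit 3) (nat_lit 43) (nat_lit 1) (nat_lit 224) (nat_lit 152) (nat_lit 224)) (PT.lf (nat_lit 3192) (nat_lit 6) (nat_lit 42) (nat_lit 1) (nat_lit 225) (nat_lit 152) (nat_lit 223))) (PT.nd (nat_lit 78) (PT.lf (nat_lit 3344) (nat_lit 6) (nat_lit 44) (nat_lit 3) (nat_lit 223) (nat_lit 153) (nat_lit 224)) (PT.lf (nat_lit 3344) (nat_lit 6) (nat_lit 44) (nat_lit 1) (nat_lit 224) (nat_lit 153) (nat_lit 223)))) (PT.nd (nat_lit 156) (PT.nd (nat_lit 78) (PT.lf (nat_lit 3420) (nat_lit 6) (nat_lit 45) (nat_lit 3) (nat_lit 222) (nat_lit 154) (nat_lit 224)) (PT.lf (nat_lit 3496) (nat_lit 3) (nat_lit 46) (nat_lit 1) (nat_lit 223) (nat_lit 154) (nat_lit 223))) (PT.nd (nat_lit 62322) (PT.lf (nat_lit 3420) (nat_lit 6) (nat_lit 45) (nat_lit 1) (nat_lit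 224) (nat_lit 154) (nat_lit 222)) (PT.lf (nat_lit 3572) (nat_lit 6) (nat_lit 47) (nat_lit 3) (nat_lit 222) (nat_lit 155) (nat_lit 223))))) (PT.nd (nat_lit 124800) (PT.nd (nat_lit 62400) (PT.nd (nat_lit 62322) (PT.lf (nat_lit 3572) (nat_lit 6) (nat_lit 47) (nat_lit 1) (nat_lit 223) (nat_lit 155) (nat_lit 222)) (PT.lf (nat_lit 3648) (nat_lit 6) (nat_lit 48) (nat_lit 3) (nat_lit 221) (nat_lit 156) (nat_lit 223))) (PT.nd (nat_lit 78) (PT.lf (nat_lit 3724) (nat_lit 3) (nat_lit 49) (nat_lit 1) (nat_lit 222) (nat_lit 156) (nat_lit 222)) (PT.lf (nat_lit 3648) (nat_lit 6) (nat_lit 48) (nat_lit 1) (nat_lit 223) (nat_lit 156) (nat_lit 221)))) (PT.nd (nat_lit 62400) (PT.nd (nat_lit 78) (PT.lf (nat_lit 3800) (nat_lit 6) (nat_lit 50) (nat_lit 3) (nat_lit 221) (nat_lit 157) (nat_lit 222)) (PT.lf (nat_lit 3800) (nat_lit 6) (nat_lit 50) (nat_lit 1) (nat_lit 222) (nat_lit 157) (nat_lit 221))) (PT.nd (nat_lit 78)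 (PT.lf (nat_lit 3876) (nat_lit 6) (nat_lit 51) (nat_lit 3) (nat_lit 220) (nat_lit 158) (nat_lit 222)) (PT.nd (nat_lit 78) (PT.lf (nat_lit 3952) (nat_lit 3) (nat_lit 52) (nat_lit 1) (nat_lit 221) (nat_lit 158) (nat_lit 221)) (PT.lf (nat_lit 3876) (nat_lit 6) (nat_lit 51) (nat_lit 1) (nat_lit 222) (nat_lit 158) (nat_lit 220))))))) (PT.nd (nat_lit 125034) (PT.nd (nat_lit 62556) (PT.nd (nat_lit 62400) (PT.nd (nat_lit 78) (PT.lf (nat_lit 4028) (nat_lit 6) (nat_lit 53) (nat_lit 3) (nat_lit 220) (nat_lit 159) (nat_lit 221)) (PT.lf (nat_lit 4028) (nat_lit 6) (nat_lit 53) (nat_lit 1) (nat_lit 221) (nat_lit 159) (nat_lit 220))) (PT.nd (nat_lit 78) (PT.lf (nat_lit 4104) (nat_lit 6) (nat_lit 54) (nat_lit 3) (nat_lit 219) (nat_lit 160) (nat_lit 221)) (PT.lf (nat_lit 4180) (nat_lit 3) (nat_lit 55) (nat_lit 1) (nat_lit 220) (nat_lit 160) (nat_lit 220)))) (PT.nd (nat_lit 62322) (PT.nd (nat_lit 62244) (PT.lf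 (nat_lit 4104) (nat_lit 6) (nat_lit 54) (nat_lit 1) (nat_lit 221) (nat_lit 160) (nat_lit 219)) (PT.lf (nat_lit 4256) (nat_lit 6) (nat_lit 56) (nat_lit 3) (nat_lit 218) (nat_lit 161) (nat_lit 221))) (PT.nd (nat_lit 78) (PT.lf (nat_lit 4332) (nat_lit 6) (nat_lit 57) (nat_lit 3) (nat_lit 219) (nat_lit 161) (nat_lit 220)) (PT.lf (nat_lit 4332) (nat_lit 6) (nat_lit 57) (nat_lit 1) (nat_lit 220) (nat_lit 161) (nat_lit 219))))) (PT.nd (nat_lit 124644) (PT.nd (nat_lit 62322) (PT.nd (nat_lit 62244) (PT.lf (nat_lit 4256) (nat_lit 6) (nat_lit 56) (nat_lit 1) (nat_lit 221) (nat_lit 161) (nat_lit 218)) (PT.lf (nat_lit 4408) (nat_lit 6) (nat_lit 58) (nat_lit 3) (nat_lit 218) (nat_lit 162) (nat_lit 220))) (PT.nd (nat_lit 78) (PT.lf (nat_lit 4484) (nat_lit 3) (nat_lit 59) (nat_lit 1) (nat_lit 219) (nat_lit 162) (nat_lit 219)) (PT.lf (nat_lit 4408) (nat_lit 6) (nat_lit 58) (nat_lit 1) (nat_lit 220) (nat_lit 162)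 (nat_lit 218)))) (PT.nd (nat_lit 156) (PT.nd (nat_lit 78) (PT.lf (nat_lit 4560) (nat_lit 6) (nat_lit 60) (nat_lit 3) (nat_lit 217) (nat_lit 163) (nat_lit 220)) (PT.lf (nat_lit 4636) (nat_lit 6) (nat_lit 61) (nat_lit 3) (nat_lit 218) (nat_lit 163) (nat_lit 219))) (PT.nd (nat_lit 78) (PT.lf (nat_lit 4636) (nat_lit 6) (nat_lit 61) (nat_lit 1) (nat_lit 219) (nat_lit 163) (nat_lit 218)) (PT.nd (nat_lit 62244) (PT.lf (nat_lit 4560) (nat_lit 6) (nat_lit 60) (nat_lit 1) (nat_lit 220) (nat_lit 163) (nat_lit 217)) (PT.lf (nat_lit 4712) (nat_lit 6) (nat_lit 62) (nat_lit 3) (nat_lit 217) (nat_lit 164) (nat_lit 219))))))))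
noncomputable def pc3 : PT := (PT.nd (nat_lit 312156) (PT.nd (nat_lit 124956) (PT.nd (nat_lit 62478) (PT.nd (nat_lit 62322) (PT.nd (nat_lit 78) (PT.lf (nat_lit 4788) (nat_lit 3) (nat_lit 63) (nat_lit 1) (nat_lit 218) (nat_lit 164) (nat_lit 218)) (PT.lf (nat_lit 4712) (nat_lit 6) (nat_lit 62) (nat_lit 1) (nat_lit 219) (nat_lit 164) (nat_lit 217))) (PT.nd (nat_lit 78) (PT.lf (nat_lit 4864) (nat_lit 6) (nat_lit 64) (nat_lit 3) (nat_lit 216) (nat_lit 165) (nat_lit 219)) (PT.lf (nat_lit 4940) (nat_lit 6) (nat_lit 65) (nat_lit 3) (nat_lit 217) (nat_lit 165) (nat_lit 218)))) (PT.nd (nat_lit 62322) (PT.nd (nat_lit 78) (PT.lf (nat_lit 4940) (nat_lit 6) (nat_lit 65) (nat_lit 1) (nat_lit 218) (nat_lit 165) (nat_lit 217)) (PT.lf (nat_lit 4864) (nat_lit 6) (nat_lit 64) (nat_lit 1) (nat_lit 219) (nat_lit 165) (nat_lit 216))) (PT.nd (nat_lit 78) (PT.lf (nat_lit 5016) (nat_lit 6) (nat_lit 66) (nat_lit 3) (nat_lit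 216) (nat_lit 166) (nat_lit 218)) (PT.lf (nat_lit 5092) (nat_lit 3) (nat_lit 67) (nat_lit 1) (nat_lit 217) (nat_lit 166) (nat_lit 217))))) (PT.nd (nat_lit 62478) (PT.nd (nat_lit 62322) (PT.nd (nat_lit 62244) (PT.lf (nat_lit 5016) (nat_lit 6) (nat_lit 66) (nat_lit 1) (nat_lit 218) (nat_lit 166) (nat_lit 216)) (PT.lf (nat_lit 5168) (nat_lit 6) (nat_lit 68) (nat_lit 3) (nat_lit 215) (nat_lit 167) (nat_lit 218))) (PT.nd (nat_lit 78) (PT.lf (nat_lit 5244) (nat_lit 6) (nat_lit 69) (nat_lit 3) (nat_lit 216) (nat_lit 167) (nat_lit 217)) (PT.lf (nat_lit 5244) (nat_lit 6) (nat_lit 69) (nat_lit 1) (nat_lit 217) (nat_lit 167) (nat_lit 216)))) (PT.nd (nat_lit 62322) (PT.nd (nat_lit 62244) (PT.lf (nat_lit 5168) (nat_lit 6) (nat_lit 68) (nat_lit 1) (nat_lit 218) (nat_lit 167) (nat_lit 215)) (PT.lf (nat_lit 5320) (nat_lit 6) (nat_lit 70) (nat_lit 3) (nat_lit 215) (nat_lit 168) (nat_lit 217))) (PT.nd (nat_lit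 78) (PT.lf (nat_lit 5396) (nat_lit 3) (nat_lit 71) (nat_lit 1) (nat_lit 216) (nat_lit 168) (nat_lit 216)) (PT.nd (nat_lit 62244) (PT.lf (nat_lit 5320) (nat_lit 6) (nat_lit 70) (nat_lit 1) (nat_lit 217) (nat_lit 168) (nat_lit 215)) (PT.lf (nat_lit 5472) (nat_lit 6) (nat_lit 72) (nat_lit 3) (nat_lit 214) (nat_lit 169) (nat_lit 217))))))) (PT.nd (nat_lit 124878) (PT.nd (nat_lit 62400) (PT.nd (nat_lit 156) (PT.nd (nat_lit 78) (PT.lf (nat_lit 5548) (nat_lit 6) (nat_lit 73) (nat_lit 3) (nat_lit 215) (nat_lit 169) (nat_lit 216)) (PT.lf (nat_lit 5548) (nat_lit 6) (nat_lit 73) (nat_lit 1) (nat_lit 216) (nat_lit 169) (nat_lit 215))) (PT.nd (nat_lit 62166) (PT.lf (nat_lit 5472) (nat_lit 6) (nat_lit 72) (nat_lit 1) (nat_lit 217) (nat_lit 169) (nat_lit 214)) (PT.lf (nat_lit 5624) (nat_lit 6) (nat_lit 74) (nat_lit 3) (nat_lit 213) (nat_lit 170) (nat_lit 217)))) (PT.nd (nat_lit 156) (PT.nd (nat_lit 78) (PT.lf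 (nat_lit 5700) (nat_lit 6) (nat_lit 75) (nat_lit 3) (nat_lit 214) (nat_lit 170) (nat_lit 216)) (PT.lf (nat_lit 5776) (nat_lit 3) (nat_lit 76) (nat_lit 1) (nat_lit 215) (nat_lit 170) (nat_lit 215))) (PT.nd (nat_lit 78) (PT.lf (nat_lit 5700) (nat_lit 6) (nat_lit 75) (nat_lit 1) (nat_lit 216) (nat_lit 170) (nat_lit 214)) (PT.nd (nat_lit 62166) (PT.lf (nat_lit 5624) (nat_lit 6) (nat_lit 74) (nat_lit 1) (nat_lit 217) (nat_lit 170) (nat_lit 213)) (PT.lf (nat_lit 5852) (nat_lit 6) (nat_lit 77) (nat_lit 3) (nat_lit 213) (nat_lit 171) (nat_lit 216)))))) (PT.nd (nat_lit 62400) (PT.nd (nat_lit 156) (PT.nd (nat_lit 78) (PT.lf (nat_lit 5928) (nat_lit 6) (nat_lit 78) (nat_lit 3) (nat_lit 214) (nat_lit 171) (nat_lit 215)) (PT.lf (nat_lit 5928) (nat_lit 6) (nat_lit 78) (nat_lit 1) (nat_lit 215) (nat_lit 171) (nat_lit 214))) (PT.nd (nat_lit 62166) (PT.lf (nat_lit 5852) (nat_lit 6) (nat_lit 77) (nat_lit 1) (nat_lit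 216) (nat_lit 171) (nat_lit 213)) (PT.lf (nat_lit 6004) (nat_lit 6) (nat_lit 79) (nat_lit 3) (nat_lit 212) (nat_lit 172) (nat_lit 216)))) (PT.nd (nat_lit 156) (PT.nd (nat_lit 78) (PT.lf (nat_lit 6080) (nat_lit 6) (nat_lit 80) (nat_lit 3) (nat_lit 213) (nat_lit 172) (nat_lit 215)) (PT.lf (nat_lit 6156) (nat_lit 3) (nat_lit 81) (nat_lit 1) (nat_lit 214) (nat_lit 172) (nat_lit 214))) (PT.nd (nat_lit 78) (PT.lf (nat_lit 6080) (nat_lit 6) (nat_lit 80) (nat_lit 1) (nat_lit 215) (nat_lit 172) (nat_lit 213)) (PT.nd (nat_lit 62166) (PT.lf (nat_lit 6004) (nat_lit 6) (nat_lit 79) (nat_lit 1) (nat_lit 216) (nat_lit 172) (nat_lit 212)) (PT.lf (nat_lit 6232) (nat_lit 6) (nat_lit 82) (nat_lit 3) (nat_lit 212) (nat_lit 173) (nat_lit 215))))))))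
noncomputable def pc4 : PT := (PT.nd (nat_lit 187434) (PT.nd (nat_lit 124722) (PT.nd (nat_lit 62400) (PT.nd (nat_lit 156) (PT.nd (nat_lit 78) (PT.lf (nat_lit 6308) (nat_lit 6) (nat_lit 83) (nat_lit 3) (nat_lit 213) (nat_lit 173) (nat_lit 214)) (PT.lf (nat_lit 6308) (nat_lit 6) (nat_lit 83) (nat_lit 1) (nat_lit 214) (nat_lit 173) (nat_lit 213))) (PT.nd (nat_lit 62166) (PT.lf (nat_lit 6232) (nat_lit 6) (nat_lit 82) (nat_lit 1) (nat_lit 215) (nat_lit 173) (nat_lit 212)) (PT.lf (nat_lit 6384) (nat_lit 6) (nat_lit 84) (nat_lit 3) (nat_lit 211) (nat_lit 174) (nat_lit 215)))) (PT.nd (nat_lit 156) (PT.nd (nat_lit 78) (PT.lf (nat_lit 6460) (nat_lit 6) (nat_lit 85) (nat_lit 3) (nat_lit 212) (nat_lit 174) (nat_lit 214)) (PT.lf (nat_lit 6536) (nat_lit 3) (nat_lit 86) (nat_lit 1) (nat_lit 213) (nat_lit 174) (nat_lit 213))) (PT.nd (nat_lit 78) (PT.lf (nat_lit 6460) (nat_lit 6) (nat_lit 85) (nat_lit 1) (nat_lit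 214) (nat_lit 174) (nat_lit 212)) (PT.lf (nat_lit 6384) (nat_lit 6) (nat_lit 84) (nat_lit 1) (nat_lit 215) (nat_lit 174) (nat_lit 211))))) (PT.nd (nat_lit 312) (PT.nd (nat_lit 156) (PT.nd (nat_lit 78) (PT.lf (nat_lit 6612) (nat_lit 6) (nat_lit 87) (nat_lit 3) (nat_lit 210) (nat_lit 175) (nat_lit 215)) (PT.lf (nat_lit 6688) (nat_lit 6) (nat_lit 88) (nat_lit 3) (nat_lit 211) (nat_lit 175) (nat_lit 214))) (PT.nd (nat_lit 78) (PT.lf (nat_lit 6764) (nat_lit 6) (nat_lit 89) (nat_lit 3) (nat_lit 212) (nat_lit 175) (nat_lit 213)) (PT.lf (nat_lit 6764) (nat_lit 6) (nat_lit 89) (nat_lit 1) (nat_lit 213) (nat_lit 175) (nat_lit 212)))) (PT.nd (nat_lit 62166) (PT.nd (nat_lit 78) (PT.lf (nat_lit 6688) (nat_lit 6) (nat_lit 88) (nat_lit 1) (nat_lit 214) (nat_lit 175) (nat_lit 211)) (PT.lf (nat_lit 6612) (nat_lit 6) (nat_lit 87) (nat_lit 1) (nat_lit 215) (nat_lit 175) (nat_lit 210))) (PT.nd (nat_lit 78) (PT.lf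 (nat_lit 6840) (nat_lit 6) (nat_lit 90) (nat_lit 3) (nat_lit 210) (nat_lit 176) (nat_lit 214)) (PT.nd (nat_lit 78) (PT.lf (nat_lit 6916) (nat_lit 6) (nat_lit 91) (nat_lit 3) (nat_lit 211) (nat_lit 176) (nat_lit 213)) (PT.lf (nat_lit 6992) (nat_lit 3) (nat_lit 92) (nat_lit 1) (nat_lit 212) (nat_lit 176) (nat_lit 212))))))) (PT.nd (nat_lit 124644) (PT.nd (nat_lit 62322) (PT.nd (nat_lit 62166) (PT.nd (nat_lit 78) (PT.lf (nat_lit 6916) (nat_lit 6) (nat_lit 91) (nat_lit 1) (nat_lit 213) (nat_lit 176) (nat_lit 211)) (PT.lf (nat_lit 6840) (nat_lit 6) (nat_lit 90) (nat_lit 1) (nat_lit 214) (nat_lit 176) (nat_lit 210))) (PT.nd (nat_lit 78) (PT.lf (nat_lit 7068) (nat_lit 6) (nat_lit 93) (nat_lit 3) (nat_lit 209) (nat_lit 177) (nat_lit 214)) (PT.lf (nat_lit 7144) (nat_lit 6) (nat_lit 94) (nat_lit 3) (nat_lit 210) (nat_lit 177) (nat_lit 213)))) (PT.nd (nat_lit 156) (PT.nd (nat_lit 78) (PT.lf (nat_lit 7220)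 (nat_lit 6) (nat_lit 95) (nat_lit 3) (nat_lit 211) (nat_lit 177) (nat_lit 212)) (PT.lf (nat_lit 7220) (nat_lit 6) (nat_lit 95) (nat_lit 1) (nat_lit 212) (nat_lit 177) (nat_lit 211))) (PT.nd (nat_lit 78) (PT.lf (nat_lit 7144) (nat_lit 6) (nat_lit 94) (nat_lit 1) (nat_lit 213) (nat_lit 177) (nat_lit 210)) (PT.lf (nat_lit 7068) (nat_lit 6) (nat_lit 93) (nat_lit 1) (nat_lit 214) (nat_lit 177) (nat_lit 209))))) (PT.nd (nat_lit 312) (PT.nd (nat_lit 156) (PT.nd (nat_lit 78) (PT.lf (nat_lit 7296) (nat_lit 6) (nat_lit 96) (nat_lit 3) (nat_lit 209) (nat_lit 178) (nat_lit 213)) (PT.lf (nat_lit 7372) (nat_lit 6) (nat_lit 97) (nat_lit 3) (nat_lit 210) (nat_lit 178) (nat_lit 212))) (PT.nd (nat_lit 78) (PT.lf (nat_lit 7448) (nat_lit 3) (nat_lit 98) (nat_lit 1) (nat_lit 211) (nat_lit 178) (nat_lit 211)) (PT.lf (nat_lit 7372) (nat_lit 6) (nat_lit 97) (nat_lit 1) (nat_lit 212) (nat_lit 178) (nat_lit 210)))) (PT.nd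 (nat_lit 62166) (PT.nd (nat_lit 62088) (PT.lf (nat_lit 7296) (nat_lit 6) (nat_lit 96) (nat_lit 1) (nat_lit 213) (nat_lit 178) (nat_lit 209)) (PT.lf (nat_lit 7524) (nat_lit 6) (nat_lit 99) (nat_lit 3) (nat_lit 208) (nat_lit 179) (nat_lit 213))) (PT.nd (nat_lit 78) (PT.lf (nat_lit 7600) (nat_lit 6) (nat_lit 100) (nat_lit 3) (nat_lit 209) (nat_lit 179) (nat_lit 212)) (PT.nd (nat_lit 78) (PT.lf (nat_lit 7676) (nat_lit 6) (nat_lit 101) (nat_lit 3) (nat_lit 210) (nat_lit 179) (nat_lit 211)) (PT.lf (nat_lit 7676) (nat_lit 6) (nat_lit 101) (nat_lit 1) (nat_lit 211) (nat_lit 179) (nat_lit 210))))))))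
noncomputable def pc5 : PT := (PT.nd (nat_lit 187122) (PT.nd (nat_lit 62556) (PT.nd (nat_lit 62244) (PT.nd (nat_lit 62088) (PT.nd (nat_lit 78) (PT.lf (nat_lit 7600) (nat_lit 6) (nat_lit 100) (nat_lit 1) (nat_lit 212) (nat_lit 179) (nat_lit 209)) (PT.lf (nat_lit 7524) (nat_lit 6) (nat_lit 99) (nat_lit 1) (nat_lit 213) (nat_lit 179) (nat_lit 208))) (PT.nd (nat_lit 78) (PT.lf (nat_lit 7752) (nat_lit 6) (nat_lit 102) (nat_lit 3) (nat_lit 207) (nat_lit 180) (nat_lit 213)) (PT.lf (nat_lit 7828) (nat_lit 6) (nat_lit 103) (nat_lit 3) (nat_lit 208) (nat_lit 180) (nat_lit 212)))) (PT.nd (nat_lit 156) (PT.nd (nat_lit 78) (PT.lf (nat_lit 7904) (nat_lit 6) (nat_lit 104) (nat_lit 3) (nat_lit 209) (nat_lit 180) (nat_lit 211)) (PT.lf (nat_lit 7980) (nat_lit 3) (nat_lit 105) (nat_lit 1) (nat_lit 210) (nat_lit 180) (nat_lit 210))) (PT.nd (nat_lit 78) (PT.lf (nat_lit 7904) (nat_lit 6) (nat_lit 104) (nat_lit 1)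 (nat_lit 211) (nat_lit 180) (nat_lit 209)) (PT.lf (nat_lit 7828) (nat_lit 6) (nat_lit 103) (nat_lit 1) (nat_lit 212) (nat_lit 180) (nat_lit 208))))) (PT.nd (nat_lit 62244) (PT.nd (nat_lit 62088) (PT.nd (nat_lit 62010) (PT.lf (nat_lit 7752) (nat_lit 6) (nat_lit 102) (nat_lit 1) (nat_lit 213) (nat_lit 180) (nat_lit 207)) (PT.lf (nat_lit 8056) (nat_lit 6) (nat_lit 106) (nat_lit 3) (nat_lit 207) (nat_lit 181) (nat_lit 212))) (PT.nd (nat_lit 78) (PT.lf (nat_lit 8132) (nat_lit 6) (nat_lit 107) (nat_lit 3) (nat_lit 208) (nat_lit 181) (nat_lit 211)) (PT.lf (nat_lit 8208) (nat_lit 6) (nat_lit 108) (nat_lit 3) (nat_lit 209) (nat_lit 181) (nat_lit 210)))) (PT.nd (nat_lit 156) (PT.nd (nat_lit 78) (PT.lf (nat_lit 8208) (nat_lit 6) (nat_lit 108) (nat_lit 1) (nat_lit 210) (nat_lit 181) (nat_lit 209)) (PT.lf (nat_lit 8132) (nat_lit 6) (nat_lit 107) (nat_lit 1) (nat_lit 211) (nat_lit 181) (nat_lit 208))) (PT.nd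 (nat_lit 62010) (PT.lf (nat_lit 8056) (nat_lit 6) (nat_lit 106) (nat_lit 1) (nat_lit 212) (nat_lit 181) (nat_lit 207)) (PT.nd (nat_lit 78) (PT.lf (nat_lit 8284) (nat_lit 6) (nat_lit 109) (nat_lit 3) (nat_lit 206) (nat_lit 182) (nat_lit 212)) (PT.lf (nat_lit 8360) (nat_lit 6) (nat_lit 110) (nat_lit 3) (nat_lit 207) (nat_lit 182) (nat_lit 211))))))) (PT.nd (nat_lit 62556) (PT.nd (nat_lit 312) (PT.nd (nat_lit 156) (PT.nd (nat_lit 78) (PT.lf (nat_lit 8436) (nat_lit 6) (nat_lit 111) (nat_lit 3) (nat_lit 208) (nat_lit 182) (nat_lit 210)) (PT.lf (nat_lit 8512) (nat_lit 3) (nat_lit 112) (nat_lit 1) (nat_lit 209) (nat_lit 182) (nat_lit 209))) (PT.nd (nat_lit 78) (PT.lf (nat_lit 8436) (nat_lit 6) (nat_lit 111) (nat_lit 1) (nat_lit 210) (nat_lit 182) (nat_lit 208)) (PT.lf (nat_lit 8360) (nat_lit 6) (nat_lit 110) (nat_lit 1) (nat_lit 211) (nat_lit 182) (nat_lit 207)))) (PT.nd (nat_lit 62010) (PT.nd (nat_lit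 61932) (PT.lf (nat_lit 8284) (nat_lit 6) (nat_lit 109) (nat_lit 1) (nat_lit 212) (nat_lit 182) (nat_lit 206)) (PT.lf (nat_lit 8588) (nat_lit 6) (nat_lit 113) (nat_lit 3) (nat_lit 205) (nat_lit 183) (nat_lit 212))) (PT.nd (nat_lit 78) (PT.lf (nat_lit 8664) (nat_lit 6) (nat_lit 114) (nat_lit 3) (nat_lit 206) (nat_lit 183) (nat_lit 211)) (PT.nd (nat_lit 78) (PT.lf (nat_lit 8740) (nat_lit 6) (nat_lit 115) (nat_lit 3) (nat_lit 207) (nat_lit 183) (nat_lit 210)) (PT.lf (nat_lit 8816) (nat_lit 6) (nat_lit 116) (nat_lit 3) (nat_lit 208) (nat_lit 183) (nat_lit 209)))))) (PT.nd (nat_lit 62088) (PT.nd (nat_lit 156) (PT.nd (nat_lit 78) (PT.lf (nat_lit 8816) (nat_lit 6) (nat_lit 116) (nat_lit 1) (nat_lit 209) (nat_lit 183) (nat_lit 208)) (PT.lf (nat_lit 8740) (nat_lit 6) (nat_lit 115) (nat_lit 1) (nat_lit 210) (nat_lit 183) (nat_lit 207))) (PT.nd (nat_lit 78) (PT.lf (nat_lit 8664) (nat_lit 6) (nat_lit 114)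 (nat_lit 1) (nat_lit 211) (nat_lit 183) (nat_lit 206)) (PT.lf (nat_lit 8588) (nat_lit 6) (nat_lit 113) (nat_lit 1) (nat_lit 212) (nat_lit 183) (nat_lit 205)))) (PT.nd (nat_lit 156) (PT.nd (nat_lit 78) (PT.lf (nat_lit 8892) (nat_lit 6) (nat_lit 117) (nat_lit 3) (nat_lit 204) (nat_lit 184) (nat_lit 212)) (PT.lf (nat_lit 8968) (nat_lit 6) (nat_lit 118) (nat_lit 3) (nat_lit 205) (nat_lit 184) (nat_lit 211))) (PT.nd (nat_lit 78) (PT.lf (nat_lit 9044) (nat_lit 6) (nat_lit 119) (nat_lit 3) (nat_lit 206) (nat_lit 184) (nat_lit 210)) (PT.nd (nat_lit 78) (PT.lf (nat_lit 9120) (nat_lit 6) (nat_lit 120) (nat_lit 3) (nat_lit 207) (nat_lit 184) (nat_lit 209)) (PT.lf (nat_lit 9196) (nat_lit 3) (nat_lit 121) (nat_lit 1) (nat_lit 208) (nat_lit 184) (nat_lit 208))))))))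
noncomputable def pc6 : PT := (PT.nd (nat_lit 124878) (PT.nd (nat_lit 62400) (PT.nd (nat_lit 62088) (PT.nd (nat_lit 156) (PT.nd (nat_lit 78) (PT.lf (nat_lit 9120) (nat_lit 6) (nat_lit 120) (nat_lit 1) (nat_lit 209) (nat_lit 184) (nat_lit 207)) (PT.lf (nat_lit 9044) (nat_lit 6) (nat_lit 119) (nat_lit 1) (nat_lit 210) (nat_lit 184) (nat_lit 206))) (PT.nd (nat_lit 78) (PT.lf (nat_lit 8968) (nat_lit 6) (nat_lit 118) (nat_lit 1) (nat_lit 211) (nat_lit 184) (nat_lit 205)) (PT.lf (nat_lit 8892) (nat_lit 6) (nat_lit 117) (nat_lit 1) (nat_lit 212) (nat_lit 184) (nat_lit 204)))) (PT.nd (nat_lit 156) (PT.nd (nat_lit 78) (PT.lf (nat_lit 9272) (nat_lit 6) (nat_lit 122) (nat_lit 3) (nat_lit 204) (nat_lit 185) (nat_lit 211)) (PT.lf (nat_lit 9348) (nat_lit 6) (nat_lit 123) (nat_lit 3) (nat_lit 205) (nat_lit 185) (nat_lit 210))) (PT.nd (nat_lit 78) (PT.lf (nat_lit 9424) (nat_lit 6) (nat_lit 124) (nat_lit 3) (nat_lit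 206) (nat_lit 185) (nat_lit 209)) (PT.lf (nat_lit 9500) (nat_lit 6) (nat_lit 125) (nat_lit 3) (nat_lit 207) (nat_lit 185) (nat_lit 208))))) (PT.nd (nat_lit 62088) (PT.nd (nat_lit 156) (PT.nd (nat_lit 78) (PT.lf (nat_lit 9500) (nat_lit 6) (nat_lit 125) (nat_lit 1) (nat_lit 208) (nat_lit 185) (nat_lit 207)) (PT.lf (nat_lit 9424) (nat_lit 6) (nat_lit 124) (nat_lit 1) (nat_lit 209) (nat_lit 185) (nat_lit 206))) (PT.nd (nat_lit 78) (PT.lf (nat_lit 9348) (nat_lit 6) (nat_lit 123) (nat_lit 1) (nat_lit 210) (nat_lit 185) (nat_lit 205)) (PT.lf (nat_lit 9272) (nat_lit 6) (nat_lit 122) (nat_lit 1) (nat_lit 211) (nat_lit 185) (nat_lit 204)))) (PT.nd (nat_lit 156) (PT.nd (nat_lit 78) (PT.lf (nat_lit 9576) (nat_lit 6) (nat_lit 126) (nat_lit 3) (nat_lit 203) (nat_lit 186) (nat_lit 211)) (PT.lf (nat_lit 9652) (nat_lit 6) (nat_lit 127) (nat_lit 3) (nat_lit 204) (nat_lit 186) (nat_lit 210))) (PT.nd (nat_lit 78)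 (PT.lf (nat_lit 9728) (nat_lit 6) (nat_lit 128) (nat_lit 3) (nat_lit 205) (nat_lit 186) (nat_lit 209)) (PT.nd (nat_lit 78) (PT.lf (nat_lit 9804) (nat_lit 6) (nat_lit 129) (nat_lit 3) (nat_lit 206) (nat_lit 186) (nat_lit 208)) (PT.lf (nat_lit 9880) (nat_lit 3) (nat_lit 130) (nat_lit 1) (nat_lit 207) (nat_lit 186) (nat_lit 207))))))) (PT.nd (nat_lit 62400) (PT.nd (nat_lit 62010) (PT.nd (nat_lit 156) (PT.nd (nat_lit 78) (PT.lf (nat_lit 9804) (nat_lit 6) (nat_lit 129) (nat_lit 1) (nat_lit 208) (nat_lit 186) (nat_lit 206)) (PT.lf (nat_lit 9728) (nat_lit 6) (nat_lit 128) (nat_lit 1) (nat_lit 209) (nat_lit 186) (nat_lit 205))) (PT.nd (nat_lit 78) (PT.lf (nat_lit 9652) (nat_lit 6) (nat_lit 127) (nat_lit 1) (nat_lit 210) (nat_lit 186) (nat_lit 204)) (PT.lf (nat_lit 9576) (nat_lit 6) (nat_lit 126) (nat_lit 1) (nat_lit 211) (nat_lit 186) (nat_lit 203)))) (PT.nd (nat_lit 156) (PT.nd (nat_lit 78) (PT.lf (nat_lit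 9956) (nat_lit 6) (nat_lit 131) (nat_lit 3) (nat_lit 202) (nat_lit 187) (nat_lit 211)) (PT.lf (nat_lit 10032) (nat_lit 6) (nat_lit 132) (nat_lit 3) (nat_lit 203) (nat_lit 187) (nat_lit 210))) (PT.nd (nat_lit 78) (PT.lf (nat_lit 10108) (nat_lit 6) (nat_lit 133) (nat_lit 3) (nat_lit 204) (nat_lit 187) (nat_lit 209)) (PT.nd (nat_lit 78) (PT.lf (nat_lit 10184) (nat_lit 6) (nat_lit 134) (nat_lit 3) (nat_lit 205) (nat_lit 187) (nat_lit 208)) (PT.lf (nat_lit 10260) (nat_lit 6) (nat_lit 135) (nat_lit 3) (nat_lit 206) (nat_lit 187) (nat_lit 207)))))) (PT.nd (nat_lit 312) (PT.nd (nat_lit 156) (PT.nd (nat_lit 78) (PT.lf (nat_lit 10260) (nat_lit 6) (nat_lit 135) (nat_lit 1) (nat_lit 207) (nat_lit 187) (nat_lit 206)) (PT.lf (nat_lit 10184) (nat_lit 6) (nat_lit 134) (nat_lit 1) (nat_lit 208) (nat_lit 187) (nat_lit 205))) (PT.nd (nat_lit 78) (PT.lf (nat_lit 10108) (nat_lit 6) (nat_lit 133) (nat_lit 1) (nat_lit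 209) (nat_lit 187) (nat_lit 204)) (PT.lf (nat_lit 10032) (nat_lit 6) (nat_lit 132) (nat_lit 1) (nat_lit 210) (nat_lit 187) (nat_lit 203)))) (PT.nd (nat_lit 61776) (PT.nd (nat_lit 61698) (PT.lf (nat_lit 9956) (nat_lit 6) (nat_lit 131) (nat_lit 1) (nat_lit 211) (nat_lit 187) (nat_lit 202)) (PT.lf (nat_lit 10336) (nat_lit 6) (nat_lit 136) (nat_lit 3) (nat_lit 201) (nat_lit 188) (nat_lit 211))) (PT.nd (nat_lit 78) (PT.lf (nat_lit 10412) (nat_lit 6) (nat_lit 137) (nat_lit 3) (nat_lit 202) (nat_lit 188) (nat_lit 210)) (PT.nd (nat_lit 78) (PT.lf (nat_lit 10488) (nat_lit 6) (nat_lit 138) (nat_lit 3) (nat_lit 203) (nat_lit 188) (nat_lit 209)) (PT.lf (nat_lit 10564) (nat_lit 6) (nat_lit 139) (nat_lit 3) (nat_lit 204) (nat_lit 188) (nat_lit 208))))))))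
noncomputable def pc7 : PT := (PT.nd (nat_lit 124566) (PT.nd (nat_lit 62244) (PT.nd (nat_lit 312) (PT.nd (nat_lit 156) (PT.nd (nat_lit 78) (PT.lf (nat_lit 10640) (nat_lit 6) (nat_lit 140) (nat_lit 3) (nat_lit 205) (nat_lit 188) (nat_lit 207)) (PT.lf (nat_lit 10716) (nat_lit 3) (nat_lit 141) (nat_lit 1) (nat_lit 206) (nat_lit 188) (nat_lit 206))) (PT.nd (nat_lit 78) (PT.lf (nat_lit 10640) (nat_lit 6) (nat_lit 140) (nat_lit 1) (nat_lit 207) (nat_lit 188) (nat_lit 205)) (PT.lf (nat_lit 10564) (nat_lit 6) (nat_lit 139) (nat_lit 1) (nat_lit 208) (nat_lit 188) (nat_lit 204)))) (PT.nd (nat_lit 156) (PT.nd (nat_lit 78) (PT.lf (nat_lit 10488) (nat_lit 6) (nat_lit 138) (nat_lit 1) (nat_lit 209) (nat_lit 188) (nat_lit 203)) (PT.lf (nat_lit 10412) (nat_lit 6) (nat_lit 137) (nat_lit 1) (nat_lit 210) (nat_lit 188) (nat_lit 202))) (PT.nd (nat_lit 61698) (PT.lf (nat_lit 10336) (nat_lit 6) (nat_lit 136) (nat_lit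 1) (nat_lit 211) (nat_lit 188) (nat_lit 201)) (PT.lf (nat_lit 10792) (nat_lit 6) (nat_lit 142) (nat_lit 3) (nat_lit 201) (nat_lit 189) (nat_lit 210))))) (PT.nd (nat_lit 312) (PT.nd (nat_lit 156) (PT.nd (nat_lit 78) (PT.lf (nat_lit 10868) (nat_lit 6) (nat_lit 143) (nat_lit 3) (nat_lit 202) (nat_lit 189) (nat_lit 209)) (PT.lf (nat_lit 10944) (nat_lit 6) (nat_lit 144) (nat_lit 3) (nat_lit 203) (nat_lit 189) (nat_lit 208))) (PT.nd (nat_lit 78) (PT.lf (nat_lit 11020) (nat_lit 6) (nat_lit 145) (nat_lit 3) (nat_lit 204) (nat_lit 189) (nat_lit 207)) (PT.lf (nat_lit 11096) (nat_lit 6) (nat_lit 146) (nat_lit 3) (nat_lit 205) (nat_lit 189) (nat_lit 206)))) (PT.nd (nat_lit 156) (PT.nd (nat_lit 78) (PT.lf (nat_lit 11096) (nat_lit 6) (nat_lit 146) (nat_lit 1) (nat_lit 206) (nat_lit 189) (nat_lit 205)) (PT.lf (nat_lit 11020) (nat_lit 6) (nat_lit 145) (nat_lit 1) (nat_lit 207) (nat_lit 189) (nat_lit 204))) (PT.nd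 (nat_lit 78) (PT.lf (nat_lit 10944) (nat_lit 6) (nat_lit 144) (nat_lit 1) (nat_lit 208) (nat_lit 189) (nat_lit 203)) (PT.nd (nat_lit 78) (PT.lf (nat_lit 10868) (nat_lit 6) (nat_lit 143) (nat_lit 1) (nat_lit 209) (nat_lit 189) (nat_lit 202)) (PT.lf (nat_lit 10792) (nat_lit 6) (nat_lit 142) (nat_lit 1) (nat_lit 210) (nat_lit 189) (nat_lit 201))))))) (PT.nd (nat_lit 702) (PT.nd (nat_lit 312) (PT.nd (nat_lit 156) (PT.nd (nat_lit 78) (PT.lf (nat_lit 11552) (nat_lit 6) (nat_lit 152) (nat_lit 3) (nat_lit 200) (nat_lit 190) (nat_lit 210)) (PT.lf (nat_lit 11628) (nat_lit 6) (nat_lit 153) (nat_lit 3) (nat_lit 201) (nat_lit 190) (nat_lit 209))) (PT.nd (nat_lit 78) (PT.lf (nat_lit 11704) (nat_lit 6) (nat_lit 154) (nat_lit 3) (nat_lit 202) (nat_lit 190) (nat_lit 208)) (PT.lf (nat_lit 11780) (nat_lit 6) (nat_lit 155) (nat_lit 3) (nat_lit 203) (nat_lit 190) (nat_lit 207)))) (PT.nd (nat_lit 156) (PT.nd (nat_lit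 78) (PT.lf (nat_lit 11856) (nat_lit 6) (nat_lit 156) (nat_lit 3) (nat_lit 204) (nat_lit 190) (nat_lit 206)) (PT.lf (nat_lit 11932) (nat_lit 3) (nat_lit 157) (nat_lit 1) (nat_lit 205) (nat_lit 190) (nat_lit 205))) (PT.nd (nat_lit 78) (PT.lf (nat_lit 11856) (nat_lit 6) (nat_lit 156) (nat_lit 1) (nat_lit 206) (nat_lit 190) (nat_lit 204)) (PT.nd (nat_lit 78) (PT.lf (nat_lit 11780) (nat_lit 6) (nat_lit 155) (nat_lit 1) (nat_lit 207) (nat_lit 190) (nat_lit 203)) (PT.lf (nat_lit 11704) (nat_lit 6) (nat_lit 154) (nat_lit 1) (nat_lit 208) (nat_lit 190) (nat_lit 202)))))) (PT.nd (nat_lit 61854) (PT.nd (nat_lit 61698) (PT.nd (nat_lit 78) (PT.lf (nat_lit 11628) (nat_lit 6) (nat_lit 153) (nat_lit 1) (nat_lit 209) (nat_lit 190) (nat_lit 201)) (PT.lf (nat_lit 11552) (nat_lit 6) (nat_lit 152) (nat_lit 1) (nat_lit 210) (nat_lit 190) (nat_lit 200))) (PT.nd (nat_lit 78) (PT.lf (nat_lit 11476) (nat_lit 6) (nat_lit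 151) (nat_lit 3) (nat_lit 199) (nat_lit 191) (nat_lit 210)) (PT.lf (nat_lit 12312) (nat_lit 6) (nat_lit 162) (nat_lit 3) (nat_lit 200) (nat_lit 191) (nat_lit 209)))) (PT.nd (nat_lit 156) (PT.nd (nat_lit 78) (PT.lf (nat_lit 12388) (nat_lit 6) (nat_lit 163) (nat_lit 3) (nat_lit 201) (nat_lit 191) (nat_lit 208)) (PT.lf (nat_lit 12464) (nat_lit 6) (nat_lit 164) (nat_lit 3) (nat_lit 202) (nat_lit 191) (nat_lit 207))) (PT.nd (nat_lit 78) (PT.lf (nat_lit 12540) (nat_lit 6) (nat_lit 165) (nat_lit 3) (nat_lit 203) (nat_lit 191) (nat_lit 206)) (PT.nd (nat_lit 78) (PT.lf (nat_lit 12616) (nat_lit 6) (nat_lit 166) (nat_lit 3) (nat_lit 204) (nat_lit 191) (nat_lit 205)) (PT.lf (nat_lit 12616) (nat_lit 6) (nat_lit 166) (nat_lit 1) (nat_lit 205) (nat_lit 191) (nat_lit 204))))))))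
noncomputable def pc8 : PT := (PT.nd (nat_lit 62790) (PT.nd (nat_lit 62088) (PT.nd (nat_lit 312) (PT.nd (nat_lit 156) (PT.nd (nat_lit 78) (PT.lf (nat_lit 12540) (nat_lit 6) (nat_lit 165) (nat_lit 1) (nat_lit 206) (nat_lit 191) (nat_lit 203)) (PT.lf (nat_lit 12464) (nat_lit 6) (nat_lit 164) (nat_lit 1) (nat_lit 207) (nat_lit 191) (nat_lit 202))) (PT.nd (nat_lit 78) (PT.lf (nat_lit 12388) (nat_lit 6) (nat_lit 163) (nat_lit 1) (nat_lit 208) (nat_lit 191) (nat_lit 201)) (PT.lf (nat_lit 12312) (nat_lit 6) (nat_lit 162) (nat_lit 1) (nat_lit 209) (nat_lit 191) (nat_lit 200)))) (PT.nd (nat_lit 61620) (PT.nd (nat_lit 61542) (PT.lf (nat_lit 11476) (nat_lit 6) (nat_lit 151) (nat_lit 1) (nat_lit 210) (nat_lit 191) (nat_lit 199)) (PT.lf (nat_lit 11400) (nat_lit 6) (nat_lit 150) (nat_lit 3) (nat_lit 198) (nat_lit 192) (nat_lit 210))) (PT.nd (nat_lit 78) (PT.lf (nat_lit 12236) (nat_lit 6) (nat_lit 161) (nat_lit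 3) (nat_lit 199) (nat_lit 192) (nat_lit 209)) (PT.lf (nat_lit 12996) (nat_lit 6) (nat_lit 171) (nat_lit 3) (nat_lit 200) (nat_lit 192) (nat_lit 208))))) (PT.nd (nat_lit 312) (PT.nd (nat_lit 156) (PT.nd (nat_lit 78) (PT.lf (nat_lit 13072) (nat_lit 6) (nat_lit 172) (nat_lit 3) (nat_lit 201) (nat_lit 192) (nat_lit 207)) (PT.lf (nat_lit 13148) (nat_lit 6) (nat_lit 173) (nat_lit 3) (nat_lit 202) (nat_lit 192) (nat_lit 206))) (PT.nd (nat_lit 78) (PT.lf (nat_lit 13224) (nat_lit 6) (nat_lit 174) (nat_lit 3) (nat_lit 203) (nat_lit 192) (nat_lit 205)) (PT.lf (nat_lit 13300) (nat_lit 3) (nat_lit 175) (nat_lit 1) (nat_lit 204) (nat_lit 192) (nat_lit 204)))) (PT.nd (nat_lit 156) (PT.nd (nat_lit 78) (PT.lf (nat_lit 13224) (nat_lit 6) (nat_lit 174) (nat_lit 1) (nat_lit 205) (nat_lit 192) (nat_lit 203)) (PT.lf (nat_lit 13148) (nat_lit 6) (nat_lit 173) (nat_lit 1) (nat_lit 206) (nat_lit 192) (nat_lit 202))) (PT.nd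 (nat_lit 78) (PT.lf (nat_lit 13072) (nat_lit 6) (nat_lit 172) (nat_lit 1) (nat_lit 207) (nat_lit 192) (nat_lit 201)) (PT.nd (nat_lit 78) (PT.lf (nat_lit 12996) (nat_lit 6) (nat_lit 171) (nat_lit 1) (nat_lit 208) (nat_lit 192) (nat_lit 200)) (PT.lf (nat_lit 12236) (nat_lit 6) (nat_lit 161) (nat_lit 1) (nat_lit 209) (nat_lit 192) (nat_lit 199))))))) (PT.nd (nat_lit 62010) (PT.nd (nat_lit 61698) (PT.nd (nat_lit 61542) (PT.nd (nat_lit 61464) (PT.lf (nat_lit 11400) (nat_lit 6) (nat_lit 150) (nat_lit 1) (nat_lit 210) (nat_lit 192) (nat_lit 198)) (PT.lf (nat_lit 11324) (nat_lit 6) (nat_lit 149) (nat_lit 3) (nat_lit 197) (nat_lit 193) (nat_lit 210))) (PT.nd (nat_lit 78) (PT.lf (nat_lit 12160) (nat_lit 6) (nat_lit 160) (nat_lit 3) (nat_lit 198) (nat_lit 193) (nat_lit 209)) (PT.lf (nat_lit 12920) (nat_lit 6) (nat_lit 170) (nat_lit 3) (nat_lit 199) (nat_lit 193) (nat_lit 208)))) (PT.nd (nat_lit 156) (PT.nd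 (nat_lit 78) (PT.lf (nat_lit 13604) (nat_lit 6) (nat_lit 179) (nat_lit 3) (nat_lit 200) (nat_lit 193) (nat_lit 207)) (PT.lf (nat_lit 13680) (nat_lit 6) (nat_lit 180) (nat_lit 3) (nat_lit 201) (nat_lit 193) (nat_lit 206))) (PT.nd (nat_lit 78) (PT.lf (nat_lit 13756) (nat_lit 6) (nat_lit 181) (nat_lit 3) (nat_lit 202) (nat_lit 193) (nat_lit 205)) (PT.lf (nat_lit 13832) (nat_lit 6) (nat_lit 182) (nat_lit 3) (nat_lit 203) (nat_lit 193) (nat_lit 204))))) (PT.nd (nat_lit 312) (PT.nd (nat_lit 156) (PT.nd (nat_lit 78) (PT.lf (nat_lit 13832) (nat_lit 6) (nat_lit 182) (nat_lit 1) (nat_lit 204) (nat_lit 193) (nat_lit 203)) (PT.lf (nat_lit 13756) (nat_lit 6) (nat_lit 181) (nat_lit 1) (nat_lit 205) (nat_lit 193) (nat_lit 202))) (PT.nd (nat_lit 78) (PT.lf (nat_lit 13680) (nat_lit 6) (nat_lit 180) (nat_lit 1) (nat_lit 206) (nat_lit 193) (nat_lit 201)) (PT.lf (nat_lit 13604) (nat_lit 6) (nat_lit 179) (nat_lit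 1) (nat_lit 207) (nat_lit 193) (nat_lit 200)))) (PT.nd (nat_lit 156) (PT.nd (nat_lit 78) (PT.lf (nat_lit 12920) (nat_lit 6) (nat_lit 170) (nat_lit 1) (nat_lit 208) (nat_lit 193) (nat_lit 199)) (PT.lf (nat_lit 12160) (nat_lit 6) (nat_lit 160) (nat_lit 1) (nat_lit 209) (nat_lit 193) (nat_lit 198))) (PT.nd (nat_lit 61386) (PT.lf (nat_lit 11324) (nat_lit 6) (nat_lit 149) (nat_lit 1) (nat_lit 210) (nat_lit 193) (nat_lit 197)) (PT.nd (nat_lit 78) (PT.lf (nat_lit 11248) (nat_lit 6) (nat_lit 148) (nat_lit 3) (nat_lit 196) (nat_lit 194) (nat_lit 210)) (PT.lf (nat_lit 12084) (nat_lit 6) (nat_lit 159) (nat_lit 3) (nat_lit 197) (nat_lit 194) (nat_lit 209))))))))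
noncomputable def pc9 : PT := (PT.nd (nat_lit 62556) (PT.nd (nat_lit 624) (PT.nd (nat_lit 312) (PT.nd (nat_lit 156) (PT.nd (nat_lit 78) (PT.lf (nat_lit 12844) (nat_lit 6) (nat_lit 169) (nat_lit 3) (nat_lit 198) (nat_lit 194) (nat_lit 208)) (PT.lf (nat_lit 13528) (nat_lit 6) (nat_lit 178) (nat_lit 3) (nat_lit 199) (nat_lit 194) (nat_lit 207))) (PT.nd (nat_lit 78) (PT.lf (nat_lit 14136) (nat_lit 6) (nat_lit 186) (nat_lit 3) (nat_lit 200) (nat_lit 194) (nat_lit 206)) (PT.lf (nat_lit 14212) (nat_lit 6) (nat_lit 187) (nat_lit 3) (nat_lit 201) (nat_lit 194) (nat_lit 205)))) (PT.nd (nat_lit 156) (PT.nd (nat_lit 78) (PT.lf (nat_lit 14288) (nat_lit 6) (nat_lit 188) (nat_lit 3) (nat_lit 202) (nat_lit 194) (nat_lit 204)) (PT.lf (nat_lit 14364) (nat_lit 3) (nat_lit 189) (nat_lit 1) (nat_lit 203) (nat_lit 194) (nat_lit 203))) (PT.nd (nat_lit 78) (PT.lf (nat_lit 14288) (nat_lit 6) (nat_lit 188) (nat_lit 1)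 (nat_lit 204) (nat_lit 194) (nat_lit 202)) (PT.lf (nat_lit 14212) (nat_lit 6) (nat_lit 187) (nat_lit 1) (nat_lit 205) (nat_lit 194) (nat_lit 201))))) (PT.nd (nat_lit 312) (PT.nd (nat_lit 156) (PT.nd (nat_lit 78) (PT.lf (nat_lit 14136) (nat_lit 6) (nat_lit 186) (nat_lit 1) (nat_lit 206) (nat_lit 194) (nat_lit 200)) (PT.lf (nat_lit 13528) (nat_lit 6) (nat_lit 178) (nat_lit 1) (nat_lit 207) (nat_lit 194) (nat_lit 199))) (PT.nd (nat_lit 78) (PT.lf (nat_lit 12844) (nat_lit 6) (nat_lit 169) (nat_lit 1) (nat_lit 208) (nat_lit 194) (nat_lit 198)) (PT.lf (nat_lit 12084) (nat_lit 6) (nat_lit 159) (nat_lit 1) (nat_lit 209) (nat_lit 194) (nat_lit 197)))) (PT.nd (nat_lit 61386) (PT.nd (nat_lit 61308) (PT.lf (nat_lit 11248) (nat_lit 6) (nat_lit 148) (nat_lit 1) (nat_lit 210) (nat_lit 194) (nat_lit 196)) (PT.lf (nat_lit 11172) (nat_lit 3) (nat_lit 147) (nat_lit 3) (nat_lit 195) (nat_lit 195) (nat_lit 210)))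 (PT.nd (nat_lit 78) (PT.lf (nat_lit 12008) (nat_lit 6) (nat_lit 158) (nat_lit 3) (nat_lit 196) (nat_lit 195) (nat_lit 209)) (PT.nd (nat_lit 78) (PT.lf (nat_lit 12768) (nat_lit 6) (nat_lit 168) (nat_lit 3) (nat_lit 197) (nat_lit 195) (nat_lit 208)) (PT.lf (nat_lit 13452) (nat_lit 6) (nat_lit 177) (nat_lit 3) (nat_lit 198) (nat_lit 195) (nat_lit 207))))))) (PT.nd (nat_lit 702) (PT.nd (nat_lit 312) (PT.nd (nat_lit 156) (PT.nd (nat_lit 78) (PT.lf (nat_lit 14060) (nat_lit 6) (nat_lit 185) (nat_lit 3) (nat_lit 199) (nat_lit 195) (nat_lit 206)) (PT.lf (nat_lit 14592) (nat_lit 6) (nat_lit 192) (nat_lit 3) (nat_lit 200) (nat_lit 195) (nat_lit 205))) (PT.nd (nat_lit 78) (PT.lf (nat_lit 14668) (nat_lit 6) (nat_lit 193) (nat_lit 3) (nat_lit 201) (nat_lit 195) (nat_lit 204)) (PT.lf (nat_lit 14744) (nat_lit 6) (nat_lit 194) (nat_lit 3) (nat_lit 202) (nat_lit 195) (nat_lit 203)))) (PT.nd (nat_lit 156) (PT.nd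 (nat_lit 78) (PT.lf (nat_lit 14744) (nat_lit 6) (nat_lit 194) (nat_lit 1) (nat_lit 203) (nat_lit 195) (nat_lit 202)) (PT.lf (nat_lit 14668) (nat_lit 6) (nat_lit 193) (nat_lit 1) (nat_lit 204) (nat_lit 195) (nat_lit 201))) (PT.nd (nat_lit 78) (PT.lf (nat_lit 14592) (nat_lit 6) (nat_lit 192) (nat_lit 1) (nat_lit 205) (nat_lit 195) (nat_lit 200)) (PT.nd (nat_lit 78) (PT.lf (nat_lit 14060) (nat_lit 6) (nat_lit 185) (nat_lit 1) (nat_lit 206) (nat_lit 195) (nat_lit 199)) (PT.lf (nat_lit 13452) (nat_lit 6) (nat_lit 177) (nat_lit 1) (nat_lit 207) (nat_lit 195) (nat_lit 198)))))) (PT.nd (nat_lit 61464) (PT.nd (nat_lit 156) (PT.nd (nat_lit 78) (PT.lf (nat_lit 12768) (nat_lit 6) (nat_lit 168) (nat_lit 1) (nat_lit 208) (nat_lit 195) (nat_lit 197)) (PT.lf (nat_lit 12008) (nat_lit 6) (nat_lit 158) (nat_lit 1) (nat_lit 209) (nat_lit 195) (nat_lit 196))) (PT.nd (nat_lit 61230) (PT.lf (nat_lit 11172) (nat_lit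 3) (nat_lit 147) (nat_lit 0) (nat_lit 210) (nat_lit 195) (nat_lit 195)) (PT.lf (nat_lit 11248) (nat_lit 6) (nat_lit 148) (nat_lit 5) (nat_lit 194) (nat_lit 196) (nat_lit 210)))) (PT.nd (nat_lit 156) (PT.nd (nat_lit 78) (PT.lf (nat_lit 12008) (nat_lit 6) (nat_lit 158) (nat_lit 5) (nat_lit 195) (nat_lit 196) (nat_lit 209)) (PT.lf (nat_lit 12692) (nat_lit 3) (nat_lit 167) (nat_lit 3) (nat_lit 196) (nat_lit 196) (nat_lit 208))) (PT.nd (nat_lit 78) (PT.lf (nat_lit 13376) (nat_lit 6) (nat_lit 176) (nat_lit 3) (nat_lit 197) (nat_lit 196) (nat_lit 207)) (PT.nd (nat_lit 78) (PT.lf (nat_lit 13984) (nat_lit 6) (nat_lit 184) (nat_lit 3) (nat_lit 198) (nat_lit 196) (nat_lit 206)) (PT.lf (nat_lit 14516) (nat_lit 6) (nat_lit 191) (nat_lit 3) (nat_lit 199) (nat_lit 196) (nat_lit 205))))))))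
noncomputable def pc10 : PT := (PT.nd (nat_lit 62400) (PT.nd (nat_lit 624) (PT.nd (nat_lit 312) (PT.nd (nat_lit 156) (PT.nd (nat_lit 78) (PT.lf (nat_lit 14972) (nat_lit 6) (nat_lit 197) (nat_lit 3) (nat_lit 200) (nat_lit 196) (nat_lit 204)) (PT.lf (nat_lit 15048) (nat_lit 6) (nat_lit 198) (nat_lit 3) (nat_lit 201) (nat_lit 196) (nat_lit 203))) (PT.nd (nat_lit 78) (PT.lf (nat_lit 15124) (nat_lit 3) (nat_lit 199) (nat_lit 1) (nat_lit 202) (nat_lit 196) (nat_lit 202)) (PT.lf (nat_lit 15048) (nat_lit 6) (nat_lit 198) (nat_lit 1) (nat_lit 203) (nat_lit 196) (nat_lit 201)))) (PT.nd (nat_lit 156) (PT.nd (nat_lit 78) (PT.lf (nat_lit 14972) (nat_lit 6) (nat_lit 197) (nat_lit 1) (nat_lit 204) (nat_lit 196) (nat_lit 200)) (PT.lf (nat_lit 14516) (nat_lit 6) (nat_lit 191) (nat_lit 1) (nat_lit 205) (nat_lit 196) (nat_lit 199))) (PT.nd (nat_lit 78) (PT.lf (nat_lit 13984) (nat_lit 6) (nat_lit 184) (nat_lit 1)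 (nat_lit 206) (nat_lit 196) (nat_lit 198)) (PT.lf (nat_lit 13376) (nat_lit 6) (nat_lit 176) (nat_lit 1) (nat_lit 207) (nat_lit 196) (nat_lit 197))))) (PT.nd (nat_lit 61386) (PT.nd (nat_lit 156) (PT.nd (nat_lit 78) (PT.lf (nat_lit 12692) (nat_lit 3) (nat_lit 167) (nat_lit 0) (nat_lit 208) (nat_lit 196) (nat_lit 196)) (PT.lf (nat_lit 12008) (nat_lit 6) (nat_lit 158) (nat_lit 0) (nat_lit 209) (nat_lit 196) (nat_lit 195))) (PT.nd (nat_lit 61152) (PT.lf (nat_lit 11248) (nat_lit 6) (nat_lit 148) (nat_lit 0) (nat_lit 210) (nat_lit 196) (nat_lit 194)) (PT.lf (nat_lit 11324) (nat_lit 6) (nat_lit 149) (nat_lit 5) (nat_lit 193) (nat_lit 197) (nat_lit 210)))) (PT.nd (nat_lit 156) (PT.nd (nat_lit 78) (PT.lf (nat_lit 12084) (nat_lit 6) (nat_lit 159) (nat_lit 5) (nat_lit 194) (nat_lit 197) (nat_lit 209)) (PT.lf (nat_lit 12768) (nat_lit 6) (nat_lit 168) (nat_lit 5) (nat_lit 195) (nat_lit 197) (nat_lit 208)))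 (PT.nd (nat_lit 78) (PT.lf (nat_lit 13376) (nat_lit 6) (nat_lit 176) (nat_lit 5) (nat_lit 196) (nat_lit 197) (nat_lit 207)) (PT.nd (nat_lit 78) (PT.lf (nat_lit 13908) (nat_lit 3) (nat_lit 183) (nat_lit 3) (nat_lit 197) (nat_lit 197) (nat_lit 206)) (PT.lf (nat_lit 14440) (nat_lit 6) (nat_lit 190) (nat_lit 3) (nat_lit 198) (nat_lit 197) (nat_lit 205))))))) (PT.nd (nat_lit 624) (PT.nd (nat_lit 312) (PT.nd (nat_lit 156) (PT.nd (nat_lit 78) (PT.lf (nat_lit 14896) (nat_lit 6) (nat_lit 196) (nat_lit 3) (nat_lit 199) (nat_lit 197) (nat_lit 204)) (PT.lf (nat_lit 15276) (nat_lit 6) (nat_lit 201) (nat_lit 3) (nat_lit 200) (nat_lit 197) (nat_lit 203))) (PT.nd (nat_lit 78) (PT.lf (nat_lit 15352) (nat_lit 6) (nat_lit 202) (nat_lit 3) (nat_lit 201) (nat_lit 197) (nat_lit 202)) (PT.lf (nat_lit 15352) (nat_lit 6) (nat_lit 202) (nat_lit 1) (nat_lit 202) (nat_lit 197) (nat_lit 201)))) (PT.nd (nat_lit 156) (PT.nd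 (nat_lit 78) (PT.lf (nat_lit 15276) (nat_lit 6) (nat_lit 201) (nat_lit 1) (nat_lit 203) (nat_lit 197) (nat_lit 200)) (PT.lf (nat_lit 14896) (nat_lit 6) (nat_lit 196) (nat_lit 1) (nat_lit 204) (nat_lit 197) (nat_lit 199))) (PT.nd (nat_lit 78) (PT.lf (nat_lit 14440) (nat_lit 6) (nat_lit 190) (nat_lit 1) (nat_lit 205) (nat_lit 197) (nat_lit 198)) (PT.lf (nat_lit 13908) (nat_lit 3) (nat_lit 183) (nat_lit 0) (nat_lit 206) (nat_lit 197) (nat_lit 197))))) (PT.nd (nat_lit 61308) (PT.nd (nat_lit 156) (PT.nd (nat_lit 78) (PT.lf (nat_lit 13376) (nat_lit 6) (nat_lit 176) (nat_lit 0) (nat_lit 207) (nat_lit 197) (nat_lit 196)) (PT.lf (nat_lit 12768) (nat_lit 6) (nat_lit 168) (nat_lit 0) (nat_lit 208) (nat_lit 197) (nat_lit 195))) (PT.nd (nat_lit 78) (PT.lf (nat_lit 12084) (nat_lit 6) (nat_lit 159) (nat_lit 0) (nat_lit 209) (nat_lit 197) (nat_lit 194)) (PT.lf (nat_lit 11324) (nat_lit 6) (nat_lit 149) (nat_lit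 0) (nat_lit 210) (nat_lit 197) (nat_lit 193)))) (PT.nd (nat_lit 156) (PT.nd (nat_lit 78) (PT.lf (nat_lit 11400) (nat_lit 6) (nat_lit 150) (nat_lit 5) (nat_lit 192) (nat_lit 198) (nat_lit 210)) (PT.lf (nat_lit 12160) (nat_lit 6) (nat_lit 160) (nat_lit 5) (nat_lit 193) (nat_lit 198) (nat_lit 209))) (PT.nd (nat_lit 78) (PT.lf (nat_lit 12844) (nat_lit 6) (nat_lit 169) (nat_lit 5) (nat_lit 194) (nat_lit 198) (nat_lit 208)) (PT.nd (nat_lit 78) (PT.lf (nat_lit 13452) (nat_lit 6) (nat_lit 177) (nat_lit 5) (nat_lit 195) (nat_lit 198) (nat_lit 207)) (PT.lf (nat_lit 13984) (nat_lit 6) (nat_lit 184) (nat_lit 5) (nat_lit 196) (nat_lit 198) (nat_lit 206))))))))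
noncomputable def pc11 : PT := (PT.nd (nat_lit 62244) (PT.nd (nat_lit 624) (PT.nd (nat_lit 312) (PT.nd (nat_lit 156) (PT.nd (nat_lit 78) (PT.lf (nat_lit 14440) (nat_lit 6) (nat_lit 190) (nat_lit 5) (nat_lit 197) (nat_lit 198) (nat_lit 205)) (PT.lf (nat_lit 14820) (nat_lit 3) (nat_lit 195) (nat_lit 3) (nat_lit 198) (nat_lit 198) (nat_lit 204))) (PT.nd (nat_lit 78) (PT.lf (nat_lit 15200) (nat_lit 6) (nat_lit 200) (nat_lit 3) (nat_lit 199) (nat_lit 198) (nat_lit 203)) (PT.lf (nat_lit 15504) (nat_lit 6) (nat_lit 204) (nat_lit 3) (nat_lit 200) (nat_lit 198) (nat_lit 202)))) (PT.nd (nat_lit 156) (PT.nd (nat_lit 78) (PT.lf (nat_lit 15580) (nat_lit 3) (nat_lit 205) (nat_lit 1) (nat_lit 201) (nat_lit 198) (nat_lit 201)) (PT.lf (nat_lit 15504) (nat_lit 6) (nat_lit 204) (nat_lit 1) (nat_lit 202) (nat_lit 198) (nat_lit 200))) (PT.nd (nat_lit 78) (PT.lf (nat_lit 15200) (nat_lit 6) (nat_lit 200) (nat_lit 1)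 (nat_lit 203) (nat_lit 198) (nat_lit 199)) (PT.lf (nat_lit 14820) (nat_lit 3) (nat_lit 195) (nat_lit 0) (nat_lit 204) (nat_lit 198) (nat_lit 198))))) (PT.nd (nat_lit 312) (PT.nd (nat_lit 156) (PT.nd (nat_lit 78) (PT.lf (nat_lit 14440) (nat_lit 6) (nat_lit 190) (nat_lit 0) (nat_lit 205) (nat_lit 198) (nat_lit 197)) (PT.lf (nat_lit 13984) (nat_lit 6) (nat_lit 184) (nat_lit 0) (nat_lit 206) (nat_lit 198) (nat_lit 196))) (PT.nd (nat_lit 78) (PT.lf (nat_lit 13452) (nat_lit 6) (nat_lit 177) (nat_lit 0) (nat_lit 207) (nat_lit 198) (nat_lit 195)) (PT.lf (nat_lit 12844) (nat_lit 6) (nat_lit 169) (nat_lit 0) (nat_lit 208) (nat_lit 198) (nat_lit 194)))) (PT.nd (nat_lit 61074) (PT.nd (nat_lit 78) (PT.lf (nat_lit 12160) (nat_lit 6) (nat_lit 160) (nat_lit 0) (nat_lit 209) (nat_lit 198) (nat_lit 193)) (PT.lf (nat_lit 11400) (nat_lit 6) (nat_lit 150) (nat_lit 0) (nat_lit 210) (nat_lit 198) (nat_lit 192))) (PT.nd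 (nat_lit 78) (PT.lf (nat_lit 11476) (nat_lit 6) (nat_lit 151) (nat_lit 5) (nat_lit 191) (nat_lit 199) (nat_lit 210)) (PT.nd (nat_lit 78) (PT.lf (nat_lit 12236) (nat_lit 6) (nat_lit 161) (nat_lit 5) (nat_lit 192) (nat_lit 199) (nat_lit 209)) (PT.lf (nat_lit 12920) (nat_lit 6) (nat_lit 170) (nat_lit 5) (nat_lit 193) (nat_lit 199) (nat_lit 208))))))) (PT.nd (nat_lit 702) (PT.nd (nat_lit 312) (PT.nd (nat_lit 156) (PT.nd (nat_lit 78) (PT.lf (nat_lit 13528) (nat_lit 6) (nat_lit 178) (nat_lit 5) (nat_lit 194) (nat_lit 199) (nat_lit 207)) (PT.lf (nat_lit 14060) (nat_lit 6) (nat_lit 185) (nat_lit 5) (nat_lit 195) (nat_lit 199) (nat_lit 206))) (PT.nd (nat_lit 78) (PT.lf (nat_lit 14516) (nat_lit 6) (nat_lit 191) (nat_lit 5) (nat_lit 196) (nat_lit 199) (nat_lit 205)) (PT.lf (nat_lit 14896) (nat_lit 6) (nat_lit 196) (nat_lit 5) (nat_lit 197) (nat_lit 199) (nat_lit 204)))) (PT.nd (nat_lit 156) (PT.nd (nat_lit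 78) (PT.lf (nat_lit 15200) (nat_lit 6) (nat_lit 200) (nat_lit 5) (nat_lit 198) (nat_lit 199) (nat_lit 203)) (PT.lf (nat_lit 15428) (nat_lit 3) (nat_lit 203) (nat_lit 3) (nat_lit 199) (nat_lit 199) (nat_lit 202))) (PT.nd (nat_lit 78) (PT.lf (nat_lit 15656) (nat_lit 6) (nat_lit 206) (nat_lit 3) (nat_lit 200) (nat_lit 199) (nat_lit 201)) (PT.nd (nat_lit 78) (PT.lf (nat_lit 15656) (nat_lit 6) (nat_lit 206) (nat_lit 1) (nat_lit 201) (nat_lit 199) (nat_lit 200)) (PT.lf (nat_lit 15428) (nat_lit 3) (nat_lit 203) (nat_lit 0) (nat_lit 202) (nat_lit 199) (nat_lit 199)))))) (PT.nd (nat_lit 312) (PT.nd (nat_lit 156) (PT.nd (nat_lit 78) (PT.lf (nat_lit 15200) (nat_lit 6) (nat_lit 200) (nat_lit 0) (nat_lit 203) (nat_lit 199) (nat_lit 198)) (PT.lf (nat_lit 14896) (nat_lit 6) (nat_lit 196) (nat_lit 0) (nat_lit 204) (nat_lit 199) (nat_lit 197))) (PT.nd (nat_lit 78) (PT.lf (nat_lit 14516) (nat_lit 6) (nat_lit 191)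 (nat_lit 0) (nat_lit 205) (nat_lit 199) (nat_lit 196)) (PT.lf (nat_lit 14060) (nat_lit 6) (nat_lit 185) (nat_lit 0) (nat_lit 206) (nat_lit 199) (nat_lit 195)))) (PT.nd (nat_lit 156) (PT.nd (nat_lit 78) (PT.lf (nat_lit 13528) (nat_lit 6) (nat_lit 178) (nat_lit 0) (nat_lit 207) (nat_lit 199) (nat_lit 194)) (PT.lf (nat_lit 12920) (nat_lit 6) (nat_lit 170) (nat_lit 0) (nat_lit 208) (nat_lit 199) (nat_lit 193))) (PT.nd (nat_lit 78) (PT.lf (nat_lit 12236) (nat_lit 6) (nat_lit 161) (nat_lit 0) (nat_lit 209) (nat_lit 199) (nat_lit 192)) (PT.nd (nat_lit 60918) (PT.lf (nat_lit 11476) (nat_lit 6) (nat_lit 151) (nat_lit 0) (nat_lit 210) (nat_lit 199) (nat_lit 191)) (PT.lf (nat_lit 11552) (nat_lit 6) (nat_lit 152) (nat_lit 5) (nat_lit 190) (nat_lit 200) (nat_lit 210))))))))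
noncomputable def pc12 : PT := (PT.nd (nat_lit 1326) (PT.nd (nat_lit 624) (PT.nd (nat_lit 312) (PT.nd (nat_lit 156) (PT.nd (nat_lit 78) (PT.lf (nat_lit 12312) (nat_lit 6) (nat_lit 162) (nat_lit 5) (nat_lit 191) (nat_lit 200) (nat_lit 209)) (PT.lf (nat_lit 12996) (nat_lit 6) (nat_lit 171) (nat_lit 5) (nat_lit 192) (nat_lit 200) (nat_lit 208))) (PT.nd (nat_lit 78) (PT.lf (nat_lit 13604) (nat_lit 6) (nat_lit 179) (nat_lit 5) (nat_lit 193) (nat_lit 200) (nat_lit 207)) (PT.lf (nat_lit 14136) (nat_lit 6) (nat_lit 186) (nat_lit 5) (nat_lit 194) (nat_lit 200) (nat_lit 206)))) (PT.nd (nat_lit 156) (PT.nd (nat_lit 78) (PT.lf (nat_lit 14592) (nat_lit 6) (nat_lit 192) (nat_lit 5) (nat_lit 195) (nat_lit 200) (nat_lit 205)) (PT.lf (nat_lit 14972) (nat_lit 6) (nat_lit 197) (nat_lit 5) (nat_lit 196) (nat_lit 200) (nat_lit 204))) (PT.nd (nat_lit 78) (PT.lf (nat_lit 15276) (nat_lit 6) (nat_lit 201) (nat_lit 5)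 (nat_lit 197) (nat_lit 200) (nat_lit 203)) (PT.lf (nat_lit 15504) (nat_lit 6) (nat_lit 204) (nat_lit 5) (nat_lit 198) (nat_lit 200) (nat_lit 202))))) (PT.nd (nat_lit 312) (PT.nd (nat_lit 156) (PT.nd (nat_lit 78) (PT.lf (nat_lit 15656) (nat_lit 6) (nat_lit 206) (nat_lit 5) (nat_lit 199) (nat_lit 200) (nat_lit 201)) (PT.lf (nat_lit 15732) (nat_lit 1) (nat_lit 207) (nat_lit 0) (nat_lit 200) (nat_lit 200) (nat_lit 200))) (PT.nd (nat_lit 78) (PT.lf (nat_lit 15656) (nat_lit 6) (nat_lit 206) (nat_lit 0) (nat_lit 201) (nat_lit 200) (nat_lit 199)) (PT.lf (nat_lit 15504) (nat_lit 6) (nat_lit 204) (nat_lit 0) (nat_lit 202) (nat_lit 200) (nat_lit 198)))) (PT.nd (nat_lit 156) (PT.nd (nat_lit 78) (PT.lf (nat_lit 15276) (nat_lit 6) (nat_lit 201) (nat_lit 0) (nat_lit 203) (nat_lit 200) (nat_lit 197)) (PT.lf (nat_lit 14972) (nat_lit 6) (nat_lit 197) (nat_lit 0) (nat_lit 204) (nat_lit 200) (nat_lit 196))) (PT.nd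 (nat_lit 78) (PT.lf (nat_lit 14592) (nat_lit 6) (nat_lit 192) (nat_lit 0) (nat_lit 205) (nat_lit 200) (nat_lit 195)) (PT.nd (nat_lit 78) (PT.lf (nat_lit 14136) (nat_lit 6) (nat_lit 186) (nat_lit 0) (nat_lit 206) (nat_lit 200) (nat_lit 194)) (PT.lf (nat_lit 13604) (nat_lit 6) (nat_lit 179) (nat_lit 0) (nat_lit 207) (nat_lit 200) (nat_lit 193))))))) (PT.nd (nat_lit 61308) (PT.nd (nat_lit 60996) (PT.nd (nat_lit 156) (PT.nd (nat_lit 78) (PT.lf (nat_lit 12996) (nat_lit 6) (nat_lit 171) (nat_lit 0) (nat_lit 208) (nat_lit 200) (nat_lit 192)) (PT.lf (nat_lit 12312) (nat_lit 6) (nat_lit 162) (nat_lit 0) (nat_lit 209) (nat_lit 200) (nat_lit 191))) (PT.nd (nat_lit 60762) (PT.lf (nat_lit 11552) (nat_lit 6) (nat_lit 152) (nat_lit 0) (nat_lit 210) (nat_lit 200) (nat_lit 190)) (PT.lf (nat_lit 10336) (nat_lit 6) (nat_lit 136) (nat_lit 5) (nat_lit 188) (nat_lit 201) (nat_lit 211)))) (PT.nd (nat_lit 156) (PT.nd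 (nat_lit 78) (PT.lf (nat_lit 10792) (nat_lit 6) (nat_lit 142) (nat_lit 5) (nat_lit 189) (nat_lit 201) (nat_lit 210)) (PT.lf (nat_lit 11628) (nat_lit 6) (nat_lit 153) (nat_lit 5) (nat_lit 190) (nat_lit 201) (nat_lit 209))) (PT.nd (nat_lit 78) (PT.lf (nat_lit 12388) (nat_lit 6) (nat_lit 163) (nat_lit 5) (nat_lit 191) (nat_lit 201) (nat_lit 208)) (PT.lf (nat_lit 13072) (nat_lit 6) (nat_lit 172) (nat_lit 5) (nat_lit 192) (nat_lit 201) (nat_lit 207))))) (PT.nd (nat_lit 312) (PT.nd (nat_lit 156) (PT.nd (nat_lit 78) (PT.lf (nat_lit 13680) (nat_lit 6) (nat_lit 180) (nat_lit 5) (nat_lit 193) (nat_lit 201) (nat_lit 206)) (PT.lf (nat_lit 14212) (nat_lit 6) (nat_lit 187) (nat_lit 5) (nat_lit 194) (nat_lit 201) (nat_lit 205))) (PT.nd (nat_lit 78) (PT.lf (nat_lit 14668) (nat_lit 6) (nat_lit 193) (nat_lit 5) (nat_lit 195) (nat_lit 201) (nat_lit 204)) (PT.lf (nat_lit 15048) (nat_lit 6) (nat_lit 198) (nat_lit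 5) (nat_lit 196) (nat_lit 201) (nat_lit 203)))) (PT.nd (nat_lit 156) (PT.nd (nat_lit 78) (PT.lf (nat_lit 15352) (nat_lit 6) (nat_lit 202) (nat_lit 5) (nat_lit 197) (nat_lit 201) (nat_lit 202)) (PT.lf (nat_lit 15580) (nat_lit 3) (nat_lit 205) (nat_lit 4) (nat_lit 198) (nat_lit 201) (nat_lit 201))) (PT.nd (nat_lit 78) (PT.lf (nat_lit 15656) (nat_lit 6) (nat_lit 206) (nat_lit 4) (nat_lit 199) (nat_lit 201) (nat_lit 200)) (PT.nd (nat_lit 78) (PT.lf (nat_lit 15656) (nat_lit 6) (nat_lit 206) (nat_lit 2) (nat_lit 200) (nat_lit 201) (nat_lit 199)) (PT.lf (nat_lit 15580) (nat_lit 3) (nat_lit 205) (nat_lit 0) (nat_lit 201) (nat_lit 201) (nat_lit 198))))))))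
noncomputable def pc13 : PT := (PT.nd (nat_lit 61854) (PT.nd (nat_lit 624) (PT.nd (nat_lit 312) (PT.nd (nat_lit 156) (PT.nd (nat_lit 78) (PT.lf (nat_lit 15352) (nat_lit 6) (nat_lit 202) (nat_lit 0) (nat_lit 202) (nat_lit 201) (nat_lit 197)) (PT.lf (nat_lit 15048) (nat_lit 6) (nat_lit 198) (nat_lit 0) (nat_lit 203) (nat_lit 201) (nat_lit 196))) (PT.nd (nat_lit 78) (PT.lf (nat_lit 14668) (nat_lit 6) (nat_lit 193) (nat_lit 0) (nat_lit 204) (nat_lit 201) (nat_lit 195)) (PT.lf (nat_lit 14212) (nat_lit 6) (nat_lit 187) (nat_lit 0) (nat_lit 205) (nat_lit 201) (nat_lit 194)))) (PT.nd (nat_lit 156) (PT.nd (nat_lit 78) (PT.lf (nat_lit 13680) (nat_lit 6) (nat_lit 180) (nat_lit 0) (nat_lit 206) (nat_lit 201) (nat_lit 193)) (PT.lf (nat_lit 13072) (nat_lit 6) (nat_lit 172) (nat_lit 0) (nat_lit 207) (nat_lit 201) (nat_lit 192))) (PT.nd (nat_lit 78) (PT.lf (nat_lit 12388) (nat_lit 6) (nat_lit 163) (nat_lit 0)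 (nat_lit 208) (nat_lit 201) (nat_lit 191)) (PT.lf (nat_lit 11628) (nat_lit 6) (nat_lit 153) (nat_lit 0) (nat_lit 209) (nat_lit 201) (nat_lit 190))))) (PT.nd (nat_lit 60840) (PT.nd (nat_lit 60684) (PT.nd (nat_lit 78) (PT.lf (nat_lit 10792) (nat_lit 6) (nat_lit 142) (nat_lit 0) (nat_lit 210) (nat_lit 201) (nat_lit 189)) (PT.lf (nat_lit 10336) (nat_lit 6) (nat_lit 136) (nat_lit 0) (nat_lit 211) (nat_lit 201) (nat_lit 188))) (PT.nd (nat_lit 78) (PT.lf (nat_lit 9956) (nat_lit 6) (nat_lit 131) (nat_lit 5) (nat_lit 187) (nat_lit 202) (nat_lit 211)) (PT.lf (nat_lit 10412) (nat_lit 6) (nat_lit 137) (nat_lit 5) (nat_lit 188) (nat_lit 202) (nat_lit 210)))) (PT.nd (nat_lit 156) (PT.nd (nat_lit 78) (PT.lf (nat_lit 10868) (nat_lit 6) (nat_lit 143) (nat_lit 5) (nat_lit 189) (nat_lit 202) (nat_lit 209)) (PT.lf (nat_lit 11704) (nat_lit 6) (nat_lit 154) (nat_lit 5) (nat_lit 190) (nat_lit 202) (nat_lit 208))) (PT.nd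 (nat_lit 78) (PT.lf (nat_lit 12464) (nat_lit 6) (nat_lit 164) (nat_lit 5) (nat_lit 191) (nat_lit 202) (nat_lit 207)) (PT.nd (nat_lit 78) (PT.lf (nat_lit 13148) (nat_lit 6) (nat_lit 173) (nat_lit 5) (nat_lit 192) (nat_lit 202) (nat_lit 206)) (PT.lf (nat_lit 13756) (nat_lit 6) (nat_lit 181) (nat_lit 5) (nat_lit 193) (nat_lit 202) (nat_lit 205))))))) (PT.nd (nat_lit 702) (PT.nd (nat_lit 312) (PT.nd (nat_lit 156) (PT.nd (nat_lit 78) (PT.lf (nat_lit 14288) (nat_lit 6) (nat_lit 188) (nat_lit 5) (nat_lit 194) (nat_lit 202) (nat_lit 204)) (PT.lf (nat_lit 14744) (nat_lit 6) (nat_lit 194) (nat_lit 5) (nat_lit 195) (nat_lit 202) (nat_lit 203))) (PT.nd (nat_lit 78) (PT.lf (nat_lit 15124) (nat_lit 3) (nat_lit 199) (nat_lit 4) (nat_lit 196) (nat_lit 202) (nat_lit 202)) (PT.lf (nat_lit 15352) (nat_lit 6) (nat_lit 202) (nat_lit 4) (nat_lit 197) (nat_lit 202) (nat_lit 201)))) (PT.nd (nat_lit 156) (PT.nd (nat_lit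 78) (PT.lf (nat_lit 15504) (nat_lit 6) (nat_lit 204) (nat_lit 4) (nat_lit 198) (nat_lit 202) (nat_lit 200)) (PT.lf (nat_lit 15428) (nat_lit 3) (nat_lit 203) (nat_lit 2) (nat_lit 199) (nat_lit 202) (nat_lit 199))) (PT.nd (nat_lit 78) (PT.lf (nat_lit 15504) (nat_lit 6) (nat_lit 204) (nat_lit 2) (nat_lit 200) (nat_lit 202) (nat_lit 198)) (PT.nd (nat_lit 78) (PT.lf (nat_lit 15352) (nat_lit 6) (nat_lit 202) (nat_lit 2) (nat_lit 201) (nat_lit 202) (nat_lit 197)) (PT.lf (nat_lit 15124) (nat_lit 3) (nat_lit 199) (nat_lit 0) (nat_lit 202) (nat_lit 202) (nat_lit 196)))))) (PT.nd (nat_lit 312) (PT.nd (nat_lit 156) (PT.nd (nat_lit 78) (PT.lf (nat_lit 14744) (nat_lit 6) (nat_lit 194) (nat_lit 0) (nat_lit 203) (nat_lit 202) (nat_lit 195)) (PT.lf (nat_lit 14288) (nat_lit 6) (nat_lit 188) (nat_lit 0) (nat_lit 204) (nat_lit 202) (nat_lit 194))) (PT.nd (nat_lit 78) (PT.lf (nat_lit 13756) (nat_lit 6) (nat_lit 181)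 (nat_lit 0) (nat_lit 205) (nat_lit 202) (nat_lit 193)) (PT.lf (nat_lit 13148) (nat_lit 6) (nat_lit 173) (nat_lit 0) (nat_lit 206) (nat_lit 202) (nat_lit 192)))) (PT.nd (nat_lit 156) (PT.nd (nat_lit 78) (PT.lf (nat_lit 12464) (nat_lit 6) (nat_lit 164) (nat_lit 0) (nat_lit 207) (nat_lit 202) (nat_lit 191)) (PT.lf (nat_lit 11704) (nat_lit 6) (nat_lit 154) (nat_lit 0) (nat_lit 208) (nat_lit 202) (nat_lit 190))) (PT.nd (nat_lit 78) (PT.lf (nat_lit 10868) (nat_lit 6) (nat_lit 143) (nat_lit 0) (nat_lit 209) (nat_lit 202) (nat_lit 189)) (PT.nd (nat_lit 78) (PT.lf (nat_lit 10412) (nat_lit 6) (nat_lit 137) (nat_lit 0) (nat_lit 210) (nat_lit 202) (nat_lit 188)) (PT.lf (nat_lit 9956) (nat_lit 6) (nat_lit 131) (nat_lit 0) (nat_lit 211) (nat_lit 202) (nat_lit 187))))))))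
noncomputable def pc14 : PT := (PT.nd (nat_lit 1326) (PT.nd (nat_lit 624) (PT.nd (nat_lit 312) (PT.nd (nat_lit 156) (PT.nd (nat_lit 78) (PT.lf (nat_lit 9576) (nat_lit 6) (nat_lit 126) (nat_lit 5) (nat_lit 186) (nat_lit 203) (nat_lit 211)) (PT.lf (nat_lit 10032) (nat_lit 6) (nat_lit 132) (nat_lit 5) (nat_lit 187) (nat_lit 203) (nat_lit 210))) (PT.nd (nat_lit 78) (PT.lf (nat_lit 10488) (nat_lit 6) (nat_lit 138) (nat_lit 5) (nat_lit 188) (nat_lit 203) (nat_lit 209)) (PT.lf (nat_lit 10944) (nat_lit 6) (nat_lit 144) (nat_lit 5) (nat_lit 189) (nat_lit 203) (nat_lit 208)))) (PT.nd (nat_lit 156) (PT.nd (nat_lit 78) (PT.lf (nat_lit 11780) (nat_lit 6) (nat_lit 155) (nat_lit 5) (nat_lit 190) (nat_lit 203) (nat_lit 207)) (PT.lf (nat_lit 12540) (nat_lit 6) (nat_lit 165) (nat_lit 5) (nat_lit 191) (nat_lit 203) (nat_lit 206))) (PT.nd (nat_lit 78) (PT.lf (nat_lit 13224) (nat_lit 6) (nat_lit 174) (nat_lit 5)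 (nat_lit 192) (nat_lit 203) (nat_lit 205)) (PT.lf (nat_lit 13832) (nat_lit 6) (nat_lit 182) (nat_lit 5) (nat_lit 193) (nat_lit 203) (nat_lit 204))))) (PT.nd (nat_lit 312) (PT.nd (nat_lit 156) (PT.nd (nat_lit 78) (PT.lf (nat_lit 14364) (nat_lit 3) (nat_lit 189) (nat_lit 4) (nat_lit 194) (nat_lit 203) (nat_lit 203)) (PT.lf (nat_lit 14744) (nat_lit 6) (nat_lit 194) (nat_lit 4) (nat_lit 195) (nat_lit 203) (nat_lit 202))) (PT.nd (nat_lit 78) (PT.lf (nat_lit 15048) (nat_lit 6) (nat_lit 198) (nat_lit 4) (nat_lit 196) (nat_lit 203) (nat_lit 201)) (PT.lf (nat_lit 15276) (nat_lit 6) (nat_lit 201) (nat_lit 4) (nat_lit 197) (nat_lit 203) (nat_lit 200)))) (PT.nd (nat_lit 156) (PT.nd (nat_lit 78) (PT.lf (nat_lit 15200) (nat_lit 6) (nat_lit 200) (nat_lit 4) (nat_lit 198) (nat_lit 203) (nat_lit 199)) (PT.lf (nat_lit 15200) (nat_lit 6) (nat_lit 200) (nat_lit 2) (nat_lit 199) (nat_lit 203) (nat_lit 198))) (PT.nd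 (nat_lit 78) (PT.lf (nat_lit 15276) (nat_lit 6) (nat_lit 201) (nat_lit 2) (nat_lit 200) (nat_lit 203) (nat_lit 197)) (PT.nd (nat_lit 78) (PT.lf (nat_lit 15048) (nat_lit 6) (nat_lit 198) (nat_lit 2) (nat_lit 201) (nat_lit 203) (nat_lit 196)) (PT.lf (nat_lit 14744) (nat_lit 6) (nat_lit 194) (nat_lit 2) (nat_lit 202) (nat_lit 203) (nat_lit 195))))))) (PT.nd (nat_lit 60996) (PT.nd (nat_lit 312) (PT.nd (nat_lit 156) (PT.nd (nat_lit 78) (PT.lf (nat_lit 14364) (nat_lit 3) (nat_lit 189) (nat_lit 0) (nat_lit 203) (nat_lit 203) (nat_lit 194)) (PT.lf (nat_lit 13832) (nat_lit 6) (nat_lit 182) (nat_lit 0) (nat_lit 204) (nat_lit 203) (nat_lit 193))) (PT.nd (nat_lit 78) (PT.lf (nat_lit 13224) (nat_lit 6) (nat_lit 174) (nat_lit 0) (nat_lit 205) (nat_lit 203) (nat_lit 192)) (PT.lf (nat_lit 12540) (nat_lit 6) (nat_lit 165) (nat_lit 0) (nat_lit 206) (nat_lit 203) (nat_lit 191)))) (PT.nd (nat_lit 156) (PT.nd (nat_lit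 78) (PT.lf (nat_lit 11780) (nat_lit 6) (nat_lit 155) (nat_lit 0) (nat_lit 207) (nat_lit 203) (nat_lit 190)) (PT.lf (nat_lit 10944) (nat_lit 6) (nat_lit 144) (nat_lit 0) (nat_lit 208) (nat_lit 203) (nat_lit 189))) (PT.nd (nat_lit 78) (PT.lf (nat_lit 10488) (nat_lit 6) (nat_lit 138) (nat_lit 0) (nat_lit 209) (nat_lit 203) (nat_lit 188)) (PT.nd (nat_lit 78) (PT.lf (nat_lit 10032) (nat_lit 6) (nat_lit 132) (nat_lit 0) (nat_lit 210) (nat_lit 203) (nat_lit 187)) (PT.lf (nat_lit 9576) (nat_lit 6) (nat_lit 126) (nat_lit 0) (nat_lit 211) (nat_lit 203) (nat_lit 186)))))) (PT.nd (nat_lit 312) (PT.nd (nat_lit 156) (PT.nd (nat_lit 78) (PT.lf (nat_lit 8892) (nat_lit 6) (nat_lit 117) (nat_lit 5) (nat_lit 184) (nat_lit 204) (nat_lit 212)) (PT.lf (nat_lit 9272) (nat_lit 6) (nat_lit 122) (nat_lit 5) (nat_lit 185) (nat_lit 204) (nat_lit 211))) (PT.nd (nat_lit 78) (PT.lf (nat_lit 9652) (nat_lit 6) (nat_lit 127)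 (nat_lit 5) (nat_lit 186) (nat_lit 204) (nat_lit 210)) (PT.lf (nat_lit 10108) (nat_lit 6) (nat_lit 133) (nat_lit 5) (nat_lit 187) (nat_lit 204) (nat_lit 209)))) (PT.nd (nat_lit 156) (PT.nd (nat_lit 78) (PT.lf (nat_lit 10564) (nat_lit 6) (nat_lit 139) (nat_lit 5) (nat_lit 188) (nat_lit 204) (nat_lit 208)) (PT.lf (nat_lit 11020) (nat_lit 6) (nat_lit 145) (nat_lit 5) (nat_lit 189) (nat_lit 204) (nat_lit 207))) (PT.nd (nat_lit 78) (PT.lf (nat_lit 11856) (nat_lit 6) (nat_lit 156) (nat_lit 5) (nat_lit 190) (nat_lit 204) (nat_lit 206)) (PT.nd (nat_lit 78) (PT.lf (nat_lit 12616) (nat_lit 6) (nat_lit 166) (nat_lit 5) (nat_lit 191) (nat_lit 204) (nat_lit 205)) (PT.lf (nat_lit 13300) (nat_lit 3) (nat_lit 175) (nat_lit 4) (nat_lit 192) (nat_lit 204) (nat_lit 204))))))))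
noncomputable def pc15 : PT := (PT.nd (nat_lit 1326) (PT.nd (nat_lit 624) (PT.nd (nat_lit 312) (PT.nd (nat_lit 156) (PT.nd (nat_lit 78) (PT.lf (nat_lit 13832) (nat_lit 6) (nat_lit 182) (nat_lit 4) (nat_lit 193) (nat_lit 204) (nat_lit 203)) (PT.lf (nat_lit 14288) (nat_lit 6) (nat_lit 188) (nat_lit 4) (nat_lit 194) (nat_lit 204) (nat_lit 202))) (PT.nd (nat_lit 78) (PT.lf (nat_lit 14668) (nat_lit 6) (nat_lit 193) (nat_lit 4) (nat_lit 195) (nat_lit 204) (nat_lit 201)) (PT.lf (nat_lit 14972) (nat_lit 6) (nat_lit 197) (nat_lit 4) (nat_lit 196) (nat_lit 204) (nat_lit 200)))) (PT.nd (nat_lit 156) (PT.nd (nat_lit 78) (PT.lf (nat_lit 14896) (nat_lit 6) (nat_lit 196) (nat_lit 4) (nat_lit 197) (nat_lit 204) (nat_lit 199)) (PT.lf (nat_lit 14820) (nat_lit 3) (nat_lit 195) (nat_lit 2) (nat_lit 198) (nat_lit 204) (nat_lit 198))) (PT.nd (nat_lit 78) (PT.lf (nat_lit 14896) (nat_lit 6) (nat_lit 196) (nat_lit 2)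 (nat_lit 199) (nat_lit 204) (nat_lit 197)) (PT.lf (nat_lit 14972) (nat_lit 6) (nat_lit 197) (nat_lit 2) (nat_lit 200) (nat_lit 204) (nat_lit 196))))) (PT.nd (nat_lit 312) (PT.nd (nat_lit 156) (PT.nd (nat_lit 78) (PT.lf (nat_lit 14668) (nat_lit 6) (nat_lit 193) (nat_lit 2) (nat_lit 201) (nat_lit 204) (nat_lit 195)) (PT.lf (nat_lit 14288) (nat_lit 6) (nat_lit 188) (nat_lit 2) (nat_lit 202) (nat_lit 204) (nat_lit 194))) (PT.nd (nat_lit 78) (PT.lf (nat_lit 13832) (nat_lit 6) (nat_lit 182) (nat_lit 2) (nat_lit 203) (nat_lit 204) (nat_lit 193)) (PT.lf (nat_lit 13300) (nat_lit 3) (nat_lit 175) (nat_lit 0) (nat_lit 204) (nat_lit 204) (nat_lit 192)))) (PT.nd (nat_lit 156) (PT.nd (nat_lit 78) (PT.lf (nat_lit 12616) (nat_lit 6) (nat_lit 166) (nat_lit 0) (nat_lit 205) (nat_lit 204) (nat_lit 191)) (PT.lf (nat_lit 11856) (nat_lit 6) (nat_lit 156) (nat_lit 0) (nat_lit 206) (nat_lit 204) (nat_lit 190))) (PT.nd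 (nat_lit 78) (PT.lf (nat_lit 11020) (nat_lit 6) (nat_lit 145) (nat_lit 0) (nat_lit 207) (nat_lit 204) (nat_lit 189)) (PT.nd (nat_lit 78) (PT.lf (nat_lit 10564) (nat_lit 6) (nat_lit 139) (nat_lit 0) (nat_lit 208) (nat_lit 204) (nat_lit 188)) (PT.lf (nat_lit 10108) (nat_lit 6) (nat_lit 133) (nat_lit 0) (nat_lit 209) (nat_lit 204) (nat_lit 187))))))) (PT.nd (nat_lit 60840) (PT.nd (nat_lit 60450) (PT.nd (nat_lit 156) (PT.nd (nat_lit 78) (PT.lf (nat_lit 9652) (nat_lit 6) (nat_lit 127) (nat_lit 0) (nat_lit 210) (nat_lit 204) (nat_lit 186)) (PT.lf (nat_lit 9272) (nat_lit 6) (nat_lit 122) (nat_lit 0) (nat_lit 211) (nat_lit 204) (nat_lit 185))) (PT.nd (nat_lit 60216) (PT.lf (nat_lit 8892) (nat_lit 6) (nat_lit 117) (nat_lit 0) (nat_lit 212) (nat_lit 204) (nat_lit 184)) (PT.lf (nat_lit 8588) (nat_lit 6) (nat_lit 113) (nat_lit 5) (nat_lit 183) (nat_lit 205) (nat_lit 212)))) (PT.nd (nat_lit 156) (PT.nd (nat_lit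 78) (PT.lf (nat_lit 8968) (nat_lit 6) (nat_lit 118) (nat_lit 5) (nat_lit 184) (nat_lit 205) (nat_lit 211)) (PT.lf (nat_lit 9348) (nat_lit 6) (nat_lit 123) (nat_lit 5) (nat_lit 185) (nat_lit 205) (nat_lit 210))) (PT.nd (nat_lit 78) (PT.lf (nat_lit 9728) (nat_lit 6) (nat_lit 128) (nat_lit 5) (nat_lit 186) (nat_lit 205) (nat_lit 209)) (PT.nd (nat_lit 78) (PT.lf (nat_lit 10184) (nat_lit 6) (nat_lit 134) (nat_lit 5) (nat_lit 187) (nat_lit 205) (nat_lit 208)) (PT.lf (nat_lit 10640) (nat_lit 6) (nat_lit 140) (nat_lit 5) (nat_lit 188) (nat_lit 205) (nat_lit 207)))))) (PT.nd (nat_lit 312) (PT.nd (nat_lit 156) (PT.nd (nat_lit 78) (PT.lf (nat_lit 11096) (nat_lit 6) (nat_lit 146) (nat_lit 5) (nat_lit 189) (nat_lit 205) (nat_lit 206)) (PT.lf (nat_lit 11932) (nat_lit 3) (nat_lit 157) (nat_lit 4) (nat_lit 190) (nat_lit 205) (nat_lit 205))) (PT.nd (nat_lit 78) (PT.lf (nat_lit 12616) (nat_lit 6) (nat_lit 166)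 (nat_lit 4) (nat_lit 191) (nat_lit 205) (nat_lit 204)) (PT.lf (nat_lit 13224) (nat_lit 6) (nat_lit 174) (nat_lit 4) (nat_lit 192) (nat_lit 205) (nat_lit 203)))) (PT.nd (nat_lit 156) (PT.nd (nat_lit 78) (PT.lf (nat_lit 13756) (nat_lit 6) (nat_lit 181) (nat_lit 4) (nat_lit 193) (nat_lit 205) (nat_lit 202)) (PT.lf (nat_lit 14212) (nat_lit 6) (nat_lit 187) (nat_lit 4) (nat_lit 194) (nat_lit 205) (nat_lit 201))) (PT.nd (nat_lit 78) (PT.lf (nat_lit 14592) (nat_lit 6) (nat_lit 192) (nat_lit 4) (nat_lit 195) (nat_lit 205) (nat_lit 200)) (PT.nd (nat_lit 78) (PT.lf (nat_lit 14516) (nat_lit 6) (nat_lit 191) (nat_lit 4) (nat_lit 196) (nat_lit 205) (nat_lit 199)) (PT.lf (nat_lit 14440) (nat_lit 6) (nat_lit 190) (nat_lit 4) (nat_lit 197) (nat_lit 205) (nat_lit 198))))))))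
noncomputable def pc16 : PT := (PT.nd (nat_lit 61386) (PT.nd (nat_lit 624) (PT.nd (nat_lit 312) (PT.nd (nat_lit 156) (PT.nd (nat_lit 78) (PT.lf (nat_lit 14440) (nat_lit 6) (nat_lit 190) (nat_lit 2) (nat_lit 198) (nat_lit 205) (nat_lit 197)) (PT.lf (nat_lit 14516) (nat_lit 6) (nat_lit 191) (nat_lit 2) (nat_lit 199) (nat_lit 205) (nat_lit 196))) (PT.nd (nat_lit 78) (PT.lf (nat_lit 14592) (nat_lit 6) (nat_lit 192) (nat_lit 2) (nat_lit 200) (nat_lit 205) (nat_lit 195)) (PT.lf (nat_lit 14212) (nat_lit 6) (nat_lit 187) (nat_lit 2) (nat_lit 201) (nat_lit 205) (nat_lit 194)))) (PT.nd (nat_lit 156) (PT.nd (nat_lit 78) (PT.lf (nat_lit 13756) (nat_lit 6) (nat_lit 181) (nat_lit 2) (nat_lit 202) (nat_lit 205) (nat_lit 193)) (PT.lf (nat_lit 13224) (nat_lit 6) (nat_lit 174) (nat_lit 2) (nat_lit 203) (nat_lit 205) (nat_lit 192))) (PT.nd (nat_lit 78) (PT.lf (nat_lit 12616) (nat_lit 6) (nat_lit 166) (nat_lit 2)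 (nat_lit 204) (nat_lit 205) (nat_lit 191)) (PT.lf (nat_lit 11932) (nat_lit 3) (nat_lit 157) (nat_lit 0) (nat_lit 205) (nat_lit 205) (nat_lit 190))))) (PT.nd (nat_lit 312) (PT.nd (nat_lit 156) (PT.nd (nat_lit 78) (PT.lf (nat_lit 11096) (nat_lit 6) (nat_lit 146) (nat_lit 0) (nat_lit 206) (nat_lit 205) (nat_lit 189)) (PT.lf (nat_lit 10640) (nat_lit 6) (nat_lit 140) (nat_lit 0) (nat_lit 207) (nat_lit 205) (nat_lit 188))) (PT.nd (nat_lit 78) (PT.lf (nat_lit 10184) (nat_lit 6) (nat_lit 134) (nat_lit 0) (nat_lit 208) (nat_lit 205) (nat_lit 187)) (PT.lf (nat_lit 9728) (nat_lit 6) (nat_lit 128) (nat_lit 0) (nat_lit 209) (nat_lit 205) (nat_lit 186)))) (PT.nd (nat_lit 156) (PT.nd (nat_lit 78) (PT.lf (nat_lit 9348) (nat_lit 6) (nat_lit 123) (nat_lit 0) (nat_lit 210) (nat_lit 205) (nat_lit 185)) (PT.lf (nat_lit 8968) (nat_lit 6) (nat_lit 118) (nat_lit 0) (nat_lit 211) (nat_lit 205) (nat_lit 184))) (PT.nd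 (nat_lit 60138) (PT.lf (nat_lit 8588) (nat_lit 6) (nat_lit 113) (nat_lit 0) (nat_lit 212) (nat_lit 205) (nat_lit 183)) (PT.nd (nat_lit 78) (PT.lf (nat_lit 8284) (nat_lit 6) (nat_lit 109) (nat_lit 5) (nat_lit 182) (nat_lit 206) (nat_lit 212)) (PT.lf (nat_lit 8664) (nat_lit 6) (nat_lit 114) (nat_lit 5) (nat_lit 183) (nat_lit 206) (nat_lit 211))))))) (PT.nd (nat_lit 624) (PT.nd (nat_lit 312) (PT.nd (nat_lit 156) (PT.nd (nat_lit 78) (PT.lf (nat_lit 9044) (nat_lit 6) (nat_lit 119) (nat_lit 5) (nat_lit 184) (nat_lit 206) (nat_lit 210)) (PT.lf (nat_lit 9424) (nat_lit 6) (nat_lit 124) (nat_lit 5) (nat_lit 185) (nat_lit 206) (nat_lit 209))) (PT.nd (nat_lit 78) (PT.lf (nat_lit 9804) (nat_lit 6) (nat_lit 129) (nat_lit 5) (nat_lit 186) (nat_lit 206) (nat_lit 208)) (PT.lf (nat_lit 10260) (nat_lit 6) (nat_lit 135) (nat_lit 5) (nat_lit 187) (nat_lit 206) (nat_lit 207)))) (PT.nd (nat_lit 156) (PT.nd (nat_lit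 78) (PT.lf (nat_lit 10716) (nat_lit 3) (nat_lit 141) (nat_lit 4) (nat_lit 188) (nat_lit 206) (nat_lit 206)) (PT.lf (nat_lit 11096) (nat_lit 6) (nat_lit 146) (nat_lit 4) (nat_lit 189) (nat_lit 206) (nat_lit 205))) (PT.nd (nat_lit 78) (PT.lf (nat_lit 11856) (nat_lit 6) (nat_lit 156) (nat_lit 4) (nat_lit 190) (nat_lit 206) (nat_lit 204)) (PT.lf (nat_lit 12540) (nat_lit 6) (nat_lit 165) (nat_lit 4) (nat_lit 191) (nat_lit 206) (nat_lit 203))))) (PT.nd (nat_lit 312) (PT.nd (nat_lit 156) (PT.nd (nat_lit 78) (PT.lf (nat_lit 13148) (nat_lit 6) (nat_lit 173) (nat_lit 4) (nat_lit 192) (nat_lit 206) (nat_lit 202)) (PT.lf (nat_lit 13680) (nat_lit 6) (nat_lit 180) (nat_lit 4) (nat_lit 193) (nat_lit 206) (nat_lit 201))) (PT.nd (nat_lit 78) (PT.lf (nat_lit 14136) (nat_lit 6) (nat_lit 186) (nat_lit 4) (nat_lit 194) (nat_lit 206) (nat_lit 200)) (PT.lf (nat_lit 14060) (nat_lit 6) (nat_lit 185) (nat_lit 4) (nat_lit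 195) (nat_lit 206) (nat_lit 199)))) (PT.nd (nat_lit 156) (PT.nd (nat_lit 78) (PT.lf (nat_lit 13984) (nat_lit 6) (nat_lit 184) (nat_lit 4) (nat_lit 196) (nat_lit 206) (nat_lit 198)) (PT.lf (nat_lit 13908) (nat_lit 3) (nat_lit 183) (nat_lit 2) (nat_lit 197) (nat_lit 206) (nat_lit 197))) (PT.nd (nat_lit 78) (PT.lf (nat_lit 13984) (nat_lit 6) (nat_lit 184) (nat_lit 2) (nat_lit 198) (nat_lit 206) (nat_lit 196)) (PT.nd (nat_lit 78) (PT.lf (nat_lit 14060) (nat_lit 6) (nat_lit 185) (nat_lit 2) (nat_lit 199) (nat_lit 206) (nat_lit 195)) (PT.lf (nat_lit 14136) (nat_lit 6) (nat_lit 186) (nat_lit 2) (nat_lit 200) (nat_lit 206) (nat_lit 194))))))))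
noncomputable def pc17 : PT := (PT.nd (nat_lit 61230) (PT.nd (nat_lit 624) (PT.nd (nat_lit 312) (PT.nd (nat_lit 156) (PT.nd (nat_lit 78) (PT.lf (nat_lit 13680) (nat_lit 6) (nat_lit 180) (nat_lit 2) (nat_lit 201) (nat_lit 206) (nat_lit 193)) (PT.lf (nat_lit 13148) (nat_lit 6) (nat_lit 173) (nat_lit 2) (nat_lit 202) (nat_lit 206) (nat_lit 192))) (PT.nd (nat_lit 78) (PT.lf (nat_lit 12540) (nat_lit 6) (nat_lit 165) (nat_lit 2) (nat_lit 203) (nat_lit 206) (nat_lit 191)) (PT.lf (nat_lit 11856) (nat_lit 6) (nat_lit 156) (nat_lit 2) (nat_lit 204) (nat_lit 206) (nat_lit 190)))) (PT.nd (nat_lit 156) (PT.nd (nat_lit 78) (PT.lf (nat_lit 11096) (nat_lit 6) (nat_lit 146) (nat_lit 2) (nat_lit 205) (nat_lit 206) (nat_lit 189)) (PT.lf (nat_lit 10716) (nat_lit 3) (nat_lit 141) (nat_lit 0) (nat_lit 206) (nat_lit 206) (nat_lit 188))) (PT.nd (nat_lit 78) (PT.lf (nat_lit 10260) (nat_lit 6) (nat_lit 135) (nat_lit 0)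 (nat_lit 207) (nat_lit 206) (nat_lit 187)) (PT.lf (nat_lit 9804) (nat_lit 6) (nat_lit 129) (nat_lit 0) (nat_lit 208) (nat_lit 206) (nat_lit 186))))) (PT.nd (nat_lit 60216) (PT.nd (nat_lit 156) (PT.nd (nat_lit 78) (PT.lf (nat_lit 9424) (nat_lit 6) (nat_lit 124) (nat_lit 0) (nat_lit 209) (nat_lit 206) (nat_lit 185)) (PT.lf (nat_lit 9044) (nat_lit 6) (nat_lit 119) (nat_lit 0) (nat_lit 210) (nat_lit 206) (nat_lit 184))) (PT.nd (nat_lit 78) (PT.lf (nat_lit 8664) (nat_lit 6) (nat_lit 114) (nat_lit 0) (nat_lit 211) (nat_lit 206) (nat_lit 183)) (PT.lf (nat_lit 8284) (nat_lit 6) (nat_lit 109) (nat_lit 0) (nat_lit 212) (nat_lit 206) (nat_lit 182)))) (PT.nd (nat_lit 156) (PT.nd (nat_lit 78) (PT.lf (nat_lit 7752) (nat_lit 6) (nat_lit 102) (nat_lit 5) (nat_lit 180) (nat_lit 207) (nat_lit 213)) (PT.lf (nat_lit 8056) (nat_lit 6) (nat_lit 106) (nat_lit 5) (nat_lit 181) (nat_lit 207) (nat_lit 212))) (PT.nd (nat_lit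 78) (PT.lf (nat_lit 8360) (nat_lit 6) (nat_lit 110) (nat_lit 5) (nat_lit 182) (nat_lit 207) (nat_lit 211)) (PT.nd (nat_lit 78) (PT.lf (nat_lit 8740) (nat_lit 6) (nat_lit 115) (nat_lit 5) (nat_lit 183) (nat_lit 207) (nat_lit 210)) (PT.lf (nat_lit 9120) (nat_lit 6) (nat_lit 120) (nat_lit 5) (nat_lit 184) (nat_lit 207) (nat_lit 209))))))) (PT.nd (nat_lit 702) (PT.nd (nat_lit 312) (PT.nd (nat_lit 156) (PT.nd (nat_lit 78) (PT.lf (nat_lit 9500) (nat_lit 6) (nat_lit 125) (nat_lit 5) (nat_lit 185) (nat_lit 207) (nat_lit 208)) (PT.lf (nat_lit 9880) (nat_lit 3) (nat_lit 130) (nat_lit 4) (nat_lit 186) (nat_lit 207) (nat_lit 207))) (PT.nd (nat_lit 78) (PT.lf (nat_lit 10260) (nat_lit 6) (nat_lit 135) (nat_lit 4) (nat_lit 187) (nat_lit 207) (nat_lit 206)) (PT.lf (nat_lit 10640) (nat_lit 6) (nat_lit 140) (nat_lit 4) (nat_lit 188) (nat_lit 207) (nat_lit 205)))) (PT.nd (nat_lit 156) (PT.nd (nat_lit 78) (PT.lf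 (nat_lit 11020) (nat_lit 6) (nat_lit 145) (nat_lit 4) (nat_lit 189) (nat_lit 207) (nat_lit 204)) (PT.lf (nat_lit 11780) (nat_lit 6) (nat_lit 155) (nat_lit 4) (nat_lit 190) (nat_lit 207) (nat_lit 203))) (PT.nd (nat_lit 78) (PT.lf (nat_lit 12464) (nat_lit 6) (nat_lit 164) (nat_lit 4) (nat_lit 191) (nat_lit 207) (nat_lit 202)) (PT.nd (nat_lit 78) (PT.lf (nat_lit 13072) (nat_lit 6) (nat_lit 172) (nat_lit 4) (nat_lit 192) (nat_lit 207) (nat_lit 201)) (PT.lf (nat_lit 13604) (nat_lit 6) (nat_lit 179) (nat_lit 4) (nat_lit 193) (nat_lit 207) (nat_lit 200)))))) (PT.nd (nat_lit 312) (PT.nd (nat_lit 156) (PT.nd (nat_lit 78) (PT.lf (nat_lit 13528) (nat_lit 6) (nat_lit 178) (nat_lit 4) (nat_lit 194) (nat_lit 207) (nat_lit 199)) (PT.lf (nat_lit 13452) (nat_lit 6) (nat_lit 177) (nat_lit 4) (nat_lit 195) (nat_lit 207) (nat_lit 198))) (PT.nd (nat_lit 78) (PT.lf (nat_lit 13376) (nat_lit 6) (nat_lit 176) (nat_lit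 4) (nat_lit 196) (nat_lit 207) (nat_lit 197)) (PT.lf (nat_lit 13376) (nat_lit 6) (nat_lit 176) (nat_lit 2) (nat_lit 197) (nat_lit 207) (nat_lit 196)))) (PT.nd (nat_lit 156) (PT.nd (nat_lit 78) (PT.lf (nat_lit 13452) (nat_lit 6) (nat_lit 177) (nat_lit 2) (nat_lit 198) (nat_lit 207) (nat_lit 195)) (PT.lf (nat_lit 13528) (nat_lit 6) (nat_lit 178) (nat_lit 2) (nat_lit 199) (nat_lit 207) (nat_lit 194))) (PT.nd (nat_lit 78) (PT.lf (nat_lit 13604) (nat_lit 6) (nat_lit 179) (nat_lit 2) (nat_lit 200) (nat_lit 207) (nat_lit 193)) (PT.nd (nat_lit 78) (PT.lf (nat_lit 13072) (nat_lit 6) (nat_lit 172) (nat_lit 2) (nat_lit 201) (nat_lit 207) (nat_lit 192)) (PT.lf (nat_lit 12464) (nat_lit 6) (nat_lit 164) (nat_lit 2) (nat_lit 202) (nat_lit 207) (nat_lit 191))))))))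
noncomputable def pc18 : PT := (PT.nd (nat_lit 61074) (PT.nd (nat_lit 624) (PT.nd (nat_lit 312) (PT.nd (nat_lit 156) (PT.nd (nat_lit 78) (PT.lf (nat_lit 11780) (nat_lit 6) (nat_lit 155) (nat_lit 2) (nat_lit 203) (nat_lit 207) (nat_lit 190)) (PT.lf (nat_lit 11020) (nat_lit 6) (nat_lit 145) (nat_lit 2) (nat_lit 204) (nat_lit 207) (nat_lit 189))) (PT.nd (nat_lit 78) (PT.lf (nat_lit 10640) (nat_lit 6) (nat_lit 140) (nat_lit 2) (nat_lit 205) (nat_lit 207) (nat_lit 188)) (PT.lf (nat_lit 10260) (nat_lit 6) (nat_lit 135) (nat_lit 2) (nat_lit 206) (nat_lit 207) (nat_lit 187)))) (PT.nd (nat_lit 156) (PT.nd (nat_lit 78) (PT.lf (nat_lit 9880) (nat_lit 3) (nat_lit 130) (nat_lit 0) (nat_lit 207) (nat_lit 207) (nat_lit 186)) (PT.lf (nat_lit 9500) (nat_lit 6) (nat_lit 125) (nat_lit 0) (nat_lit 208) (nat_lit 207) (nat_lit 185))) (PT.nd (nat_lit 78) (PT.lf (nat_lit 9120) (nat_lit 6) (nat_lit 120) (nat_lit 0) (nat_lit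 209) (nat_lit 207) (nat_lit 184)) (PT.lf (nat_lit 8740) (nat_lit 6) (nat_lit 115) (nat_lit 0) (nat_lit 210) (nat_lit 207) (nat_lit 183))))) (PT.nd (nat_lit 60060) (PT.nd (nat_lit 156) (PT.nd (nat_lit 78) (PT.lf (nat_lit 8360) (nat_lit 6) (nat_lit 110) (nat_lit 0) (nat_lit 211) (nat_lit 207) (nat_lit 182)) (PT.lf (nat_lit 8056) (nat_lit 6) (nat_lit 106) (nat_lit 0) (nat_lit 212) (nat_lit 207) (nat_lit 181))) (PT.nd (nat_lit 59826) (PT.lf (nat_lit 7752) (nat_lit 6) (nat_lit 102) (nat_lit 0) (nat_lit 213) (nat_lit 207) (nat_lit 180)) (PT.lf (nat_lit 7524) (nat_lit 6) (nat_lit 99) (nat_lit 5) (nat_lit 179) (nat_lit 208) (nat_lit 213)))) (PT.nd (nat_lit 156) (PT.nd (nat_lit 78) (PT.lf (nat_lit 7828) (nat_lit 6) (nat_lit 103) (nat_lit 5) (nat_lit 180) (nat_lit 208) (nat_lit 212)) (PT.lf (nat_lit 8132) (nat_lit 6) (nat_lit 107) (nat_lit 5) (nat_lit 181) (nat_lit 208) (nat_lit 211))) (PT.nd (nat_lit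 78) (PT.lf (nat_lit 8436) (nat_lit 6) (nat_lit 111) (nat_lit 5) (nat_lit 182) (nat_lit 208) (nat_lit 210)) (PT.nd (nat_lit 78) (PT.lf (nat_lit 8816) (nat_lit 6) (nat_lit 116) (nat_lit 5) (nat_lit 183) (nat_lit 208) (nat_lit 209)) (PT.lf (nat_lit 9196) (nat_lit 3) (nat_lit 121) (nat_lit 4) (nat_lit 184) (nat_lit 208) (nat_lit 208))))))) (PT.nd (nat_lit 624) (PT.nd (nat_lit 312) (PT.nd (nat_lit 156) (PT.nd (nat_lit 78) (PT.lf (nat_lit 9500) (nat_lit 6) (nat_lit 125) (nat_lit 4) (nat_lit 185) (nat_lit 208) (nat_lit 207)) (PT.lf (nat_lit 9804) (nat_lit 6) (nat_lit 129) (nat_lit 4) (nat_lit 186) (nat_lit 208) (nat_lit 206))) (PT.nd (nat_lit 78) (PT.lf (nat_lit 10184) (nat_lit 6) (nat_lit 134) (nat_lit 4) (nat_lit 187) (nat_lit 208) (nat_lit 205)) (PT.lf (nat_lit 10564) (nat_lit 6) (nat_lit 139) (nat_lit 4) (nat_lit 188) (nat_lit 208) (nat_lit 204)))) (PT.nd (nat_lit 156) (PT.nd (nat_lit 78) (PT.lf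 (nat_lit 10944) (nat_lit 6) (nat_lit 144) (nat_lit 4) (nat_lit 189) (nat_lit 208) (nat_lit 203)) (PT.lf (nat_lit 11704) (nat_lit 6) (nat_lit 154) (nat_lit 4) (nat_lit 190) (nat_lit 208) (nat_lit 202))) (PT.nd (nat_lit 78) (PT.lf (nat_lit 12388) (nat_lit 6) (nat_lit 163) (nat_lit 4) (nat_lit 191) (nat_lit 208) (nat_lit 201)) (PT.lf (nat_lit 12996) (nat_lit 6) (nat_lit 171) (nat_lit 4) (nat_lit 192) (nat_lit 208) (nat_lit 200))))) (PT.nd (nat_lit 312) (PT.nd (nat_lit 156) (PT.nd (nat_lit 78) (PT.lf (nat_lit 12920) (nat_lit 6) (nat_lit 170) (nat_lit 4) (nat_lit 193) (nat_lit 208) (nat_lit 199)) (PT.lf (nat_lit 12844) (nat_lit 6) (nat_lit 169) (nat_lit 4) (nat_lit 194) (nat_lit 208) (nat_lit 198))) (PT.nd (nat_lit 78) (PT.lf (nat_lit 12768) (nat_lit 6) (nat_lit 168) (nat_lit 4) (nat_lit 195) (nat_lit 208) (nat_lit 197)) (PT.lf (nat_lit 12692) (nat_lit 3) (nat_lit 167) (nat_lit 2) (nat_lit 196) (nat_lit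 208) (nat_lit 196)))) (PT.nd (nat_lit 156) (PT.nd (nat_lit 78) (PT.lf (nat_lit 12768) (nat_lit 6) (nat_lit 168) (nat_lit 2) (nat_lit 197) (nat_lit 208) (nat_lit 195)) (PT.lf (nat_lit 12844) (nat_lit 6) (nat_lit 169) (nat_lit 2) (nat_lit 198) (nat_lit 208) (nat_lit 194))) (PT.nd (nat_lit 78) (PT.lf (nat_lit 12920) (nat_lit 6) (nat_lit 170) (nat_lit 2) (nat_lit 199) (nat_lit 208) (nat_lit 193)) (PT.nd (nat_lit 78) (PT.lf (nat_lit 12996) (nat_lit 6) (nat_lit 171) (nat_lit 2) (nat_lit 200) (nat_lit 208) (nat_lit 192)) (PT.lf (nat_lit 12388) (nat_lit 6) (nat_lit 163) (nat_lit 2) (nat_lit 201) (nat_lit 208) (nat_lit 191))))))))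
noncomputable def pc19 : PT := (PT.nd (nat_lit 60918) (PT.nd (nat_lit 624) (PT.nd (nat_lit 312) (PT.nd (nat_lit 156) (PT.nd (nat_lit 78) (PT.lf (nat_lit 11704) (nat_lit 6) (nat_lit 154) (nat_lit 2) (nat_lit 202) (nat_lit 208) (nat_lit 190)) (PT.lf (nat_lit 10944) (nat_lit 6) (nat_lit 144) (nat_lit 2) (nat_lit 203) (nat_lit 208) (nat_lit 189))) (PT.nd (nat_lit 78) (PT.lf (nat_lit 10564) (nat_lit 6) (nat_lit 139) (nat_lit 2) (nat_lit 204) (nat_lit 208) (nat_lit 188)) (PT.lf (nat_lit 10184) (nat_lit 6) (nat_lit 134) (nat_lit 2) (nat_lit 205) (nat_lit 208) (nat_lit 187)))) (PT.nd (nat_lit 156) (PT.nd (nat_lit 78) (PT.lf (nat_lit 9804) (nat_lit 6) (nat_lit 129) (nat_lit 2) (nat_lit 206) (nat_lit 208) (nat_lit 186)) (PT.lf (nat_lit 9500) (nat_lit 6) (nat_lit 125) (nat_lit 2) (nat_lit 207) (nat_lit 208) (nat_lit 185))) (PT.nd (nat_lit 78) (PT.lf (nat_lit 9196) (nat_lit 3) (nat_lit 121) (nat_lit 0) (nat_lit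 208) (nat_lit 208) (nat_lit 184)) (PT.lf (nat_lit 8816) (nat_lit 6) (nat_lit 116) (nat_lit 0) (nat_lit 209) (nat_lit 208) (nat_lit 183))))) (PT.nd (nat_lit 59904) (PT.nd (nat_lit 156) (PT.nd (nat_lit 78) (PT.lf (nat_lit 8436) (nat_lit 6) (nat_lit 111) (nat_lit 0) (nat_lit 210) (nat_lit 208) (nat_lit 182)) (PT.lf (nat_lit 8132) (nat_lit 6) (nat_lit 107) (nat_lit 0) (nat_lit 211) (nat_lit 208) (nat_lit 181))) (PT.nd (nat_lit 78) (PT.lf (nat_lit 7828) (nat_lit 6) (nat_lit 103) (nat_lit 0) (nat_lit 212) (nat_lit 208) (nat_lit 180)) (PT.lf (nat_lit 7524) (nat_lit 6) (nat_lit 99) (nat_lit 0) (nat_lit 213) (nat_lit 208) (nat_lit 179)))) (PT.nd (nat_lit 156) (PT.nd (nat_lit 78) (PT.lf (nat_lit 7068) (nat_lit 6) (nat_lit 93) (nat_lit 5) (nat_lit 177) (nat_lit 209) (nat_lit 214)) (PT.lf (nat_lit 7296) (nat_lit 6) (nat_lit 96) (nat_lit 5) (nat_lit 178) (nat_lit 209) (nat_lit 213))) (PT.nd (nat_lit 78) (PT.lf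 (nat_lit 7600) (nat_lit 6) (nat_lit 100) (nat_lit 5) (nat_lit 179) (nat_lit 209) (nat_lit 212)) (PT.nd (nat_lit 78) (PT.lf (nat_lit 7904) (nat_lit 6) (nat_lit 104) (nat_lit 5) (nat_lit 180) (nat_lit 209) (nat_lit 211)) (PT.lf (nat_lit 8208) (nat_lit 6) (nat_lit 108) (nat_lit 5) (nat_lit 181) (nat_lit 209) (nat_lit 210))))))) (PT.nd (nat_lit 702) (PT.nd (nat_lit 312) (PT.nd (nat_lit 156) (PT.nd (nat_lit 78) (PT.lf (nat_lit 8512) (nat_lit 3) (nat_lit 112) (nat_lit 4) (nat_lit 182) (nat_lit 209) (nat_lit 209)) (PT.lf (nat_lit 8816) (nat_lit 6) (nat_lit 116) (nat_lit 4) (nat_lit 183) (nat_lit 209) (nat_lit 208))) (PT.nd (nat_lit 78) (PT.lf (nat_lit 9120) (nat_lit 6) (nat_lit 120) (nat_lit 4) (nat_lit 184) (nat_lit 209) (nat_lit 207)) (PT.lf (nat_lit 9424) (nat_lit 6) (nat_lit 124) (nat_lit 4) (nat_lit 185) (nat_lit 209) (nat_lit 206)))) (PT.nd (nat_lit 156) (PT.nd (nat_lit 78) (PT.lf (nat_lit 9728)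 (nat_lit 6) (nat_lit 128) (nat_lit 4) (nat_lit 186) (nat_lit 209) (nat_lit 205)) (PT.lf (nat_lit 10108) (nat_lit 6) (nat_lit 133) (nat_lit 4) (nat_lit 187) (nat_lit 209) (nat_lit 204))) (PT.nd (nat_lit 78) (PT.lf (nat_lit 10488) (nat_lit 6) (nat_lit 138) (nat_lit 4) (nat_lit 188) (nat_lit 209) (nat_lit 203)) (PT.nd (nat_lit 78) (PT.lf (nat_lit 10868) (nat_lit 6) (nat_lit 143) (nat_lit 4) (nat_lit 189) (nat_lit 209) (nat_lit 202)) (PT.lf (nat_lit 11628) (nat_lit 6) (nat_lit 153) (nat_lit 4) (nat_lit 190) (nat_lit 209) (nat_lit 201)))))) (PT.nd (nat_lit 312) (PT.nd (nat_lit 156) (PT.nd (nat_lit 78) (PT.lf (nat_lit 12312) (nat_lit 6) (nat_lit 162) (nat_lit 4) (nat_lit 191) (nat_lit 209) (nat_lit 200)) (PT.lf (nat_lit 12236) (nat_lit 6) (nat_lit 161) (nat_lit 4) (nat_lit 192) (nat_lit 209) (nat_lit 199))) (PT.nd (nat_lit 78) (PT.lf (nat_lit 12160) (nat_lit 6) (nat_lit 160) (nat_lit 4) (nat_lit 193)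 (nat_lit 209) (nat_lit 198)) (PT.lf (nat_lit 12084) (nat_lit 6) (nat_lit 159) (nat_lit 4) (nat_lit 194) (nat_lit 209) (nat_lit 197)))) (PT.nd (nat_lit 156) (PT.nd (nat_lit 78) (PT.lf (nat_lit 12008) (nat_lit 6) (nat_lit 158) (nat_lit 4) (nat_lit 195) (nat_lit 209) (nat_lit 196)) (PT.lf (nat_lit 12008) (nat_lit 6) (nat_lit 158) (nat_lit 2) (nat_lit 196) (nat_lit 209) (nat_lit 195))) (PT.nd (nat_lit 78) (PT.lf (nat_lit 12084) (nat_lit 6) (nat_lit 159) (nat_lit 2) (nat_lit 197) (nat_lit 209) (nat_lit 194)) (PT.nd (nat_lit 78) (PT.lf (nat_lit 12160) (nat_lit 6) (nat_lit 160) (nat_lit 2) (nat_lit 198) (nat_lit 209) (nat_lit 193)) (PT.lf (nat_lit 12236) (nat_lit 6) (nat_lit 161) (nat_lit 2) (nat_lit 199) (nat_lit 209) (nat_lit 192))))))))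
noncomputable def pc20 : PT := (PT.nd (nat_lit 60684) (PT.nd (nat_lit 624) (PT.nd (nat_lit 312) (PT.nd (nat_lit 156) (PT.nd (nat_lit 78) (PT.lf (nat_lit 12312) (nat_lit 6) (nat_lit 162) (nat_lit 2) (nat_lit 200) (nat_lit 209) (nat_lit 191)) (PT.lf (nat_lit 11628) (nat_lit 6) (nat_lit 153) (nat_lit 2) (nat_lit 201) (nat_lit 209) (nat_lit 190))) (PT.nd (nat_lit 78) (PT.lf (nat_lit 10868) (nat_lit 6) (nat_lit 143) (nat_lit 2) (nat_lit 202) (nat_lit 209) (nat_lit 189)) (PT.lf (nat_lit 10488) (nat_lit 6) (nat_lit 138) (nat_lit 2) (nat_lit 203) (nat_lit 209) (nat_lit 188)))) (PT.nd (nat_lit 156) (PT.nd (nat_lit 78) (PT.lf (nat_lit 10108) (nat_lit 6) (nat_lit 133) (nat_lit 2) (nat_lit 204) (nat_lit 209) (nat_lit 187)) (PT.lf (nat_lit 9728) (nat_lit 6) (nat_lit 128) (nat_lit 2) (nat_lit 205) (nat_lit 209) (nat_lit 186))) (PT.nd (nat_lit 78) (PT.lf (nat_lit 9424) (nat_lit 6) (nat_lit 124) (nat_lit 2)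 (nat_lit 206) (nat_lit 209) (nat_lit 185)) (PT.lf (nat_lit 9120) (nat_lit 6) (nat_lit 120) (nat_lit 2) (nat_lit 207) (nat_lit 209) (nat_lit 184))))) (PT.nd (nat_lit 312) (PT.nd (nat_lit 156) (PT.nd (nat_lit 78) (PT.lf (nat_lit 8816) (nat_lit 6) (nat_lit 116) (nat_lit 2) (nat_lit 208) (nat_lit 209) (nat_lit 183)) (PT.lf (nat_lit 8512) (nat_lit 3) (nat_lit 112) (nat_lit 0) (nat_lit 209) (nat_lit 209) (nat_lit 182))) (PT.nd (nat_lit 78) (PT.lf (nat_lit 8208) (nat_lit 6) (nat_lit 108) (nat_lit 0) (nat_lit 210) (nat_lit 209) (nat_lit 181)) (PT.lf (nat_lit 7904) (nat_lit 6) (nat_lit 104) (nat_lit 0) (nat_lit 211) (nat_lit 209) (nat_lit 180)))) (PT.nd (nat_lit 156) (PT.nd (nat_lit 78) (PT.lf (nat_lit 7600) (nat_lit 6) (nat_lit 100) (nat_lit 0) (nat_lit 212) (nat_lit 209) (nat_lit 179)) (PT.lf (nat_lit 7296) (nat_lit 6) (nat_lit 96) (nat_lit 0) (nat_lit 213) (nat_lit 209) (nat_lit 178))) (PT.nd (nat_lit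 59436) (PT.lf (nat_lit 7068) (nat_lit 6) (nat_lit 93) (nat_lit 0) (nat_lit 214) (nat_lit 209) (nat_lit 177)) (PT.nd (nat_lit 78) (PT.lf (nat_lit 6612) (nat_lit 6) (nat_lit 87) (nat_lit 5) (nat_lit 175) (nat_lit 210) (nat_lit 215)) (PT.lf (nat_lit 6840) (nat_lit 6) (nat_lit 90) (nat_lit 5) (nat_lit 176) (nat_lit 210) (nat_lit 214))))))) (PT.nd (nat_lit 624) (PT.nd (nat_lit 312) (PT.nd (nat_lit 156) (PT.nd (nat_lit 78) (PT.lf (nat_lit 7144) (nat_lit 6) (nat_lit 94) (nat_lit 5) (nat_lit 177) (nat_lit 210) (nat_lit 213)) (PT.lf (nat_lit 7372) (nat_lit 6) (nat_lit 97) (nat_lit 5) (nat_lit 178) (nat_lit 210) (nat_lit 212))) (PT.nd (nat_lit 78) (PT.lf (nat_lit 7676) (nat_lit 6) (nat_lit 101) (nat_lit 5) (nat_lit 179) (nat_lit 210) (nat_lit 211)) (PT.lf (nat_lit 7980) (nat_lit 3) (nat_lit 105) (nat_lit 4) (nat_lit 180) (nat_lit 210) (nat_lit 210)))) (PT.nd (nat_lit 156) (PT.nd (nat_lit 78) (PT.lf (nat_lit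 8208) (nat_lit 6) (nat_lit 108) (nat_lit 4) (nat_lit 181) (nat_lit 210) (nat_lit 209)) (PT.lf (nat_lit 8436) (nat_lit 6) (nat_lit 111) (nat_lit 4) (nat_lit 182) (nat_lit 210) (nat_lit 208))) (PT.nd (nat_lit 78) (PT.lf (nat_lit 8740) (nat_lit 6) (nat_lit 115) (nat_lit 4) (nat_lit 183) (nat_lit 210) (nat_lit 207)) (PT.lf (nat_lit 9044) (nat_lit 6) (nat_lit 119) (nat_lit 4) (nat_lit 184) (nat_lit 210) (nat_lit 206))))) (PT.nd (nat_lit 312) (PT.nd (nat_lit 156) (PT.nd (nat_lit 78) (PT.lf (nat_lit 9348) (nat_lit 6) (nat_lit 123) (nat_lit 4) (nat_lit 185) (nat_lit 210) (nat_lit 205)) (PT.lf (nat_lit 9652) (nat_lit 6) (nat_lit 127) (nat_lit 4) (nat_lit 186) (nat_lit 210) (nat_lit 204))) (PT.nd (nat_lit 78) (PT.lf (nat_lit 10032) (nat_lit 6) (nat_lit 132) (nat_lit 4) (nat_lit 187) (nat_lit 210) (nat_lit 203)) (PT.lf (nat_lit 10412) (nat_lit 6) (nat_lit 137) (nat_lit 4) (nat_lit 188) (nat_lit 210) (nat_lit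 202)))) (PT.nd (nat_lit 156) (PT.nd (nat_lit 78) (PT.lf (nat_lit 10792) (nat_lit 6) (nat_lit 142) (nat_lit 4) (nat_lit 189) (nat_lit 210) (nat_lit 201)) (PT.lf (nat_lit 11552) (nat_lit 6) (nat_lit 152) (nat_lit 4) (nat_lit 190) (nat_lit 210) (nat_lit 200))) (PT.nd (nat_lit 78) (PT.lf (nat_lit 11476) (nat_lit 6) (nat_lit 151) (nat_lit 4) (nat_lit 191) (nat_lit 210) (nat_lit 199)) (PT.nd (nat_lit 78) (PT.lf (nat_lit 11400) (nat_lit 6) (nat_lit 150) (nat_lit 4) (nat_lit 192) (nat_lit 210) (nat_lit 198)) (PT.lf (nat_lit 11324) (nat_lit 6) (nat_lit 149) (nat_lit 4) (nat_lit 193) (nat_lit 210) (nat_lit 197))))))))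
noncomputable def pc21 : PT := (PT.nd (nat_lit 1326) (PT.nd (nat_lit 624) (PT.nd (nat_lit 312) (PT.nd (nat_lit 156) (PT.nd (nat_lit 78) (PT.lf (nat_lit 11248) (nat_lit 6) (nat_lit 148) (nat_lit 4) (nat_lit 194) (nat_lit 210) (nat_lit 196)) (PT.lf (nat_lit 11172) (nat_lit 3) (nat_lit 147) (nat_lit 2) (nat_lit 195) (nat_lit 210) (nat_lit 195))) (PT.nd (nat_lit 78) (PT.lf (nat_lit 11248) (nat_lit 6) (nat_lit 148) (nat_lit 2) (nat_lit 196) (nat_lit 210) (nat_lit 194)) (PT.lf (nat_lit 11324) (nat_lit 6) (nat_lit 149) (nat_lit 2) (nat_lit 197) (nat_lit 210) (nat_lit 193)))) (PT.nd (nat_lit 156) (PT.nd (nat_lit 78) (PT.lf (nat_lit 11400) (nat_lit 6) (nat_lit 150) (nat_lit 2) (nat_lit 198) (nat_lit 210) (nat_lit 192)) (PT.lf (nat_lit 11476) (nat_lit 6) (nat_lit 151) (nat_lit 2) (nat_lit 199) (nat_lit 210) (nat_lit 191))) (PT.nd (nat_lit 78) (PT.lf (nat_lit 11552) (nat_lit 6) (nat_lit 152) (nat_lit 2)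 (nat_lit 200) (nat_lit 210) (nat_lit 190)) (PT.lf (nat_lit 10792) (nat_lit 6) (nat_lit 142) (nat_lit 2) (nat_lit 201) (nat_lit 210) (nat_lit 189))))) (PT.nd (nat_lit 312) (PT.nd (nat_lit 156) (PT.nd (nat_lit 78) (PT.lf (nat_lit 10412) (nat_lit 6) (nat_lit 137) (nat_lit 2) (nat_lit 202) (nat_lit 210) (nat_lit 188)) (PT.lf (nat_lit 10032) (nat_lit 6) (nat_lit 132) (nat_lit 2) (nat_lit 203) (nat_lit 210) (nat_lit 187))) (PT.nd (nat_lit 78) (PT.lf (nat_lit 9652) (nat_lit 6) (nat_lit 127) (nat_lit 2) (nat_lit 204) (nat_lit 210) (nat_lit 186)) (PT.lf (nat_lit 9348) (nat_lit 6) (nat_lit 123) (nat_lit 2) (nat_lit 205) (nat_lit 210) (nat_lit 185)))) (PT.nd (nat_lit 156) (PT.nd (nat_lit 78) (PT.lf (nat_lit 9044) (nat_lit 6) (nat_lit 119) (nat_lit 2) (nat_lit 206) (nat_lit 210) (nat_lit 184)) (PT.lf (nat_lit 8740) (nat_lit 6) (nat_lit 115) (nat_lit 2) (nat_lit 207) (nat_lit 210) (nat_lit 183))) (PT.nd (nat_lit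 78) (PT.lf (nat_lit 8436) (nat_lit 6) (nat_lit 111) (nat_lit 2) (nat_lit 208) (nat_lit 210) (nat_lit 182)) (PT.nd (nat_lit 78) (PT.lf (nat_lit 8208) (nat_lit 6) (nat_lit 108) (nat_lit 2) (nat_lit 209) (nat_lit 210) (nat_lit 181)) (PT.lf (nat_lit 7980) (nat_lit 3) (nat_lit 105) (nat_lit 0) (nat_lit 210) (nat_lit 210) (nat_lit 180))))))) (PT.nd (nat_lit 59904) (PT.nd (nat_lit 312) (PT.nd (nat_lit 156) (PT.nd (nat_lit 78) (PT.lf (nat_lit 7676) (nat_lit 6) (nat_lit 101) (nat_lit 0) (nat_lit 211) (nat_lit 210) (nat_lit 179)) (PT.lf (nat_lit 7372) (nat_lit 6) (nat_lit 97) (nat_lit 0) (nat_lit 212) (nat_lit 210) (nat_lit 178))) (PT.nd (nat_lit 78) (PT.lf (nat_lit 7144) (nat_lit 6) (nat_lit 94) (nat_lit 0) (nat_lit 213) (nat_lit 210) (nat_lit 177)) (PT.lf (nat_lit 6840) (nat_lit 6) (nat_lit 90) (nat_lit 0) (nat_lit 214) (nat_lit 210) (nat_lit 176)))) (PT.nd (nat_lit 59358) (PT.nd (nat_lit 59280) (PT.lf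 (nat_lit 6612) (nat_lit 6) (nat_lit 87) (nat_lit 0) (nat_lit 215) (nat_lit 210) (nat_lit 175)) (PT.lf (nat_lit 6384) (nat_lit 6) (nat_lit 84) (nat_lit 5) (nat_lit 174) (nat_lit 211) (nat_lit 215))) (PT.nd (nat_lit 78) (PT.lf (nat_lit 6688) (nat_lit 6) (nat_lit 88) (nat_lit 5) (nat_lit 175) (nat_lit 211) (nat_lit 214)) (PT.nd (nat_lit 78) (PT.lf (nat_lit 6916) (nat_lit 6) (nat_lit 91) (nat_lit 5) (nat_lit 176) (nat_lit 211) (nat_lit 213)) (PT.lf (nat_lit 7220) (nat_lit 6) (nat_lit 95) (nat_lit 5) (nat_lit 177) (nat_lit 211) (nat_lit 212)))))) (PT.nd (nat_lit 312) (PT.nd (nat_lit 156) (PT.nd (nat_lit 78) (PT.lf (nat_lit 7448) (nat_lit 3) (nat_lit 98) (nat_lit 4) (nat_lit 178) (nat_lit 211) (nat_lit 211)) (PT.lf (nat_lit 7676) (nat_lit 6) (nat_lit 101) (nat_lit 4) (nat_lit 179) (nat_lit 211) (nat_lit 210))) (PT.nd (nat_lit 78) (PT.lf (nat_lit 7904) (nat_lit 6) (nat_lit 104) (nat_lit 4) (nat_lit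 180) (nat_lit 211) (nat_lit 209)) (PT.lf (nat_lit 8132) (nat_lit 6) (nat_lit 107) (nat_lit 4) (nat_lit 181) (nat_lit 211) (nat_lit 208)))) (PT.nd (nat_lit 156) (PT.nd (nat_lit 78) (PT.lf (nat_lit 8360) (nat_lit 6) (nat_lit 110) (nat_lit 4) (nat_lit 182) (nat_lit 211) (nat_lit 207)) (PT.lf (nat_lit 8664) (nat_lit 6) (nat_lit 114) (nat_lit 4) (nat_lit 183) (nat_lit 211) (nat_lit 206))) (PT.nd (nat_lit 78) (PT.lf (nat_lit 8968) (nat_lit 6) (nat_lit 118) (nat_lit 4) (nat_lit 184) (nat_lit 211) (nat_lit 205)) (PT.nd (nat_lit 78) (PT.lf (nat_lit 9272) (nat_lit 6) (nat_lit 122) (nat_lit 4) (nat_lit 185) (nat_lit 211) (nat_lit 204)) (PT.lf (nat_lit 9576) (nat_lit 6) (nat_lit 126) (nat_lit 4) (nat_lit 186) (nat_lit 211) (nat_lit 203))))))))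
noncomputable def pc22 : PT := (PT.nd (nat_lit 61308) (PT.nd (nat_lit 1560) (PT.nd (nat_lit 1248) (PT.nd (nat_lit 1092) (PT.nd (nat_lit 78) (PT.lf (nat_lit 9956) (nat_lit 6) (nat_lit 131) (nat_lit 4) (nat_lit 187) (nat_lit 211) (nat_lit 202)) (PT.lf (nat_lit 10336) (nat_lit 6) (nat_lit 136) (nat_lit 4) (nat_lit 188) (nat_lit 211) (nat_lit 201))) (PT.nd (nat_lit 78) (PT.lf (nat_lit 10336) (nat_lit 6) (nat_lit 136) (nat_lit 2) (nat_lit 201) (nat_lit 211) (nat_lit 188)) (PT.lf (nat_lit 9956) (nat_lit 6) (nat_lit 131) (nat_lit 2) (nat_lit 202) (nat_lit 211) (nat_lit 187)))) (PT.nd (nat_lit 156) (PT.nd (nat_lit 78) (PT.lf (nat_lit 9576) (nat_lit 6) (nat_lit 126) (nat_lit 2) (nat_lit 203) (nat_lit 211) (nat_lit 186)) (PT.lf (nat_lit 9272) (nat_lit 6) (nat_lit 122) (nat_lit 2) (nat_lit 204) (nat_lit 211) (nat_lit 185))) (PT.nd (nat_lit 78) (PT.lf (nat_lit 8968) (nat_lit 6) (nat_lit 118) (nat_lit 2)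 (nat_lit 205) (nat_lit 211) (nat_lit 184)) (PT.lf (nat_lit 8664) (nat_lit 6) (nat_lit 114) (nat_lit 2) (nat_lit 206) (nat_lit 211) (nat_lit 183))))) (PT.nd (nat_lit 312) (PT.nd (nat_lit 156) (PT.nd (nat_lit 78) (PT.lf (nat_lit 8360) (nat_lit 6) (nat_lit 110) (nat_lit 2) (nat_lit 207) (nat_lit 211) (nat_lit 182)) (PT.lf (nat_lit 8132) (nat_lit 6) (nat_lit 107) (nat_lit 2) (nat_lit 208) (nat_lit 211) (nat_lit 181))) (PT.nd (nat_lit 78) (PT.lf (nat_lit 7904) (nat_lit 6) (nat_lit 104) (nat_lit 2) (nat_lit 209) (nat_lit 211) (nat_lit 180)) (PT.lf (nat_lit 7676) (nat_lit 6) (nat_lit 101) (nat_lit 2) (nat_lit 210) (nat_lit 211) (nat_lit 179)))) (PT.nd (nat_lit 156) (PT.nd (nat_lit 78) (PT.lf (nat_lit 7448) (nat_lit 3) (nat_lit 98) (nat_lit 0) (nat_lit 211) (nat_lit 211) (nat_lit 178)) (PT.lf (nat_lit 7220) (nat_lit 6) (nat_lit 95) (nat_lit 0) (nat_lit 212) (nat_lit 211) (nat_lit 177))) (PT.nd (nat_lit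 78) (PT.lf (nat_lit 6916) (nat_lit 6) (nat_lit 91) (nat_lit 0) (nat_lit 213) (nat_lit 211) (nat_lit 176)) (PT.nd (nat_lit 78) (PT.lf (nat_lit 6688) (nat_lit 6) (nat_lit 88) (nat_lit 0) (nat_lit 214) (nat_lit 211) (nat_lit 175)) (PT.lf (nat_lit 6384) (nat_lit 6) (nat_lit 84) (nat_lit 0) (nat_lit 215) (nat_lit 211) (nat_lit 174))))))) (PT.nd (nat_lit 702) (PT.nd (nat_lit 312) (PT.nd (nat_lit 156) (PT.nd (nat_lit 78) (PT.lf (nat_lit 6004) (nat_lit 6) (nat_lit 79) (nat_lit 5) (nat_lit 172) (nat_lit 212) (nat_lit 216)) (PT.lf (nat_lit 6232) (nat_lit 6) (nat_lit 82) (nat_lit 5) (nat_lit 173) (nat_lit 212) (nat_lit 215))) (PT.nd (nat_lit 78) (PT.lf (nat_lit 6460) (nat_lit 6) (nat_lit 85) (nat_lit 5) (nat_lit 174) (nat_lit 212) (nat_lit 214)) (PT.lf (nat_lit 6764) (nat_lit 6) (nat_lit 89) (nat_lit 5) (nat_lit 175) (nat_lit 212) (nat_lit 213)))) (PT.nd (nat_lit 156) (PT.nd (nat_lit 78) (PT.lf (nat_lit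 6992) (nat_lit 3) (nat_lit 92) (nat_lit 4) (nat_lit 176) (nat_lit 212) (nat_lit 212)) (PT.lf (nat_lit 7220) (nat_lit 6) (nat_lit 95) (nat_lit 4) (nat_lit 177) (nat_lit 212) (nat_lit 211))) (PT.nd (nat_lit 78) (PT.lf (nat_lit 7372) (nat_lit 6) (nat_lit 97) (nat_lit 4) (nat_lit 178) (nat_lit 212) (nat_lit 210)) (PT.nd (nat_lit 78) (PT.lf (nat_lit 7600) (nat_lit 6) (nat_lit 100) (nat_lit 4) (nat_lit 179) (nat_lit 212) (nat_lit 209)) (PT.lf (nat_lit 7828) (nat_lit 6) (nat_lit 103) (nat_lit 4) (nat_lit 180) (nat_lit 212) (nat_lit 208)))))) (PT.nd (nat_lit 1794) (PT.nd (nat_lit 156) (PT.nd (nat_lit 78) (PT.lf (nat_lit 8056) (nat_lit 6) (nat_lit 106) (nat_lit 4) (nat_lit 181) (nat_lit 212) (nat_lit 207)) (PT.lf (nat_lit 8284) (nat_lit 6) (nat_lit 109) (nat_lit 4) (nat_lit 182) (nat_lit 212) (nat_lit 206))) (PT.nd (nat_lit 78) (PT.lf (nat_lit 8588) (nat_lit 6) (nat_lit 113) (nat_lit 4) (nat_lit 183)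 (nat_lit 212) (nat_lit 205)) (PT.lf (nat_lit 8892) (nat_lit 6) (nat_lit 117) (nat_lit 4) (nat_lit 184) (nat_lit 212) (nat_lit 204)))) (PT.nd (nat_lit 156) (PT.nd (nat_lit 78) (PT.lf (nat_lit 8892) (nat_lit 6) (nat_lit 117) (nat_lit 2) (nat_lit 204) (nat_lit 212) (nat_lit 184)) (PT.lf (nat_lit 8588) (nat_lit 6) (nat_lit 113) (nat_lit 2) (nat_lit 205) (nat_lit 212) (nat_lit 183))) (PT.nd (nat_lit 78) (PT.lf (nat_lit 8284) (nat_lit 6) (nat_lit 109) (nat_lit 2) (nat_lit 206) (nat_lit 212) (nat_lit 182)) (PT.nd (nat_lit 78) (PT.lf (nat_lit 8056) (nat_lit 6) (nat_lit 106) (nat_lit 2) (nat_lit 207) (nat_lit 212) (nat_lit 181)) (PT.lf (nat_lit 7828) (nat_lit 6) (nat_lit 103) (nat_lit 2) (nat_lit 208) (nat_lit 212) (nat_lit 180))))))))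
noncomputable def pc23 : PT := (PT.nd (nat_lit 60138) (PT.nd (nat_lit 59436) (PT.nd (nat_lit 312) (PT.nd (nat_lit 156) (PT.nd (nat_lit 78) (PT.lf (nat_lit 7600) (nat_lit 6) (nat_lit 100) (nat_lit 2) (nat_lit 209) (nat_lit 212) (nat_lit 179)) (PT.lf (nat_lit 7372) (nat_lit 6) (nat_lit 97) (nat_lit 2) (nat_lit 210) (nat_lit 212) (nat_lit 178))) (PT.nd (nat_lit 78) (PT.lf (nat_lit 7220) (nat_lit 6) (nat_lit 95) (nat_lit 2) (nat_lit 211) (nat_lit 212) (nat_lit 177)) (PT.lf (nat_lit 6992) (nat_lit 3) (nat_lit 92) (nat_lit 0) (nat_lit 212) (nat_lit 212) (nat_lit 176)))) (PT.nd (nat_lit 156) (PT.nd (nat_lit 78) (PT.lf (nat_lit 6764) (nat_lit 6) (nat_lit 89) (nat_lit 0) (nat_lit 213) (nat_lit 212) (nat_lit 175)) (PT.lf (nat_lit 6460) (nat_lit 6) (nat_lit 85) (nat_lit 0) (nat_lit 214) (nat_lit 212) (nat_lit 174))) (PT.nd (nat_lit 78) (PT.lf (nat_lit 6232) (nat_lit 6) (nat_lit 82) (nat_lit 0) (nat_lit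 215) (nat_lit 212) (nat_lit 173)) (PT.lf (nat_lit 6004) (nat_lit 6) (nat_lit 79) (nat_lit 0) (nat_lit 216) (nat_lit 212) (nat_lit 172))))) (PT.nd (nat_lit 312) (PT.nd (nat_lit 156) (PT.nd (nat_lit 78) (PT.lf (nat_lit 5624) (nat_lit 6) (nat_lit 74) (nat_lit 5) (nat_lit 170) (nat_lit 213) (nat_lit 217)) (PT.lf (nat_lit 5852) (nat_lit 6) (nat_lit 77) (nat_lit 5) (nat_lit 171) (nat_lit 213) (nat_lit 216))) (PT.nd (nat_lit 78) (PT.lf (nat_lit 6080) (nat_lit 6) (nat_lit 80) (nat_lit 5) (nat_lit 172) (nat_lit 213) (nat_lit 215)) (PT.lf (nat_lit 6308) (nat_lit 6) (nat_lit 83) (nat_lit 5) (nat_lit 173) (nat_lit 213) (nat_lit 214)))) (PT.nd (nat_lit 156) (PT.nd (nat_lit 78) (PT.lf (nat_lit 6536) (nat_lit 3) (nat_lit 86) (nat_lit 4) (nat_lit 174) (nat_lit 213) (nat_lit 213)) (PT.lf (nat_lit 6764) (nat_lit 6) (nat_lit 89) (nat_lit 4) (nat_lit 175) (nat_lit 213) (nat_lit 212))) (PT.nd (nat_lit 78) (PT.lf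 (nat_lit 6916) (nat_lit 6) (nat_lit 91) (nat_lit 4) (nat_lit 176) (nat_lit 213) (nat_lit 211)) (PT.nd (nat_lit 78) (PT.lf (nat_lit 7144) (nat_lit 6) (nat_lit 94) (nat_lit 4) (nat_lit 177) (nat_lit 213) (nat_lit 210)) (PT.lf (nat_lit 7296) (nat_lit 6) (nat_lit 96) (nat_lit 4) (nat_lit 178) (nat_lit 213) (nat_lit 209))))))) (PT.nd (nat_lit 2730) (PT.nd (nat_lit 2340) (PT.nd (nat_lit 2184) (PT.nd (nat_lit 78) (PT.lf (nat_lit 7524) (nat_lit 6) (nat_lit 99) (nat_lit 4) (nat_lit 179) (nat_lit 213) (nat_lit 208)) (PT.lf (nat_lit 7752) (nat_lit 6) (nat_lit 102) (nat_lit 4) (nat_lit 180) (nat_lit 213) (nat_lit 207))) (PT.nd (nat_lit 78) (PT.lf (nat_lit 7752) (nat_lit 6) (nat_lit 102) (nat_lit 2) (nat_lit 207) (nat_lit 213) (nat_lit 180)) (PT.lf (nat_lit 7524) (nat_lit 6) (nat_lit 99) (nat_lit 2) (nat_lit 208) (nat_lit 213) (nat_lit 179)))) (PT.nd (nat_lit 156) (PT.nd (nat_lit 78) (PT.lf (nat_lit 7296)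 (nat_lit 6) (nat_lit 96) (nat_lit 2) (nat_lit 209) (nat_lit 213) (nat_lit 178)) (PT.lf (nat_lit 7144) (nat_lit 6) (nat_lit 94) (nat_lit 2) (nat_lit 210) (nat_lit 213) (nat_lit 177))) (PT.nd (nat_lit 78) (PT.lf (nat_lit 6916) (nat_lit 6) (nat_lit 91) (nat_lit 2) (nat_lit 211) (nat_lit 213) (nat_lit 176)) (PT.nd (nat_lit 78) (PT.lf (nat_lit 6764) (nat_lit 6) (nat_lit 89) (nat_lit 2) (nat_lit 212) (nat_lit 213) (nat_lit 175)) (PT.lf (nat_lit 6536) (nat_lit 3) (nat_lit 86) (nat_lit 0) (nat_lit 213) (nat_lit 213) (nat_lit 174)))))) (PT.nd (nat_lit 58968) (PT.nd (nat_lit 156) (PT.nd (nat_lit 78) (PT.lf (nat_lit 6308) (nat_lit 6) (nat_lit 83) (nat_lit 0) (nat_lit 214) (nat_lit 213) (nat_lit 173)) (PT.lf (nat_lit 6080) (nat_lit 6) (nat_lit 80) (nat_lit 0) (nat_lit 215) (nat_lit 213) (nat_lit 172))) (PT.nd (nat_lit 78) (PT.lf (nat_lit 5852) (nat_lit 6) (nat_lit 77) (nat_lit 0) (nat_lit 216) (nat_lit 213)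 (nat_lit 171)) (PT.lf (nat_lit 5624) (nat_lit 6) (nat_lit 74) (nat_lit 0) (nat_lit 217) (nat_lit 213) (nat_lit 170)))) (PT.nd (nat_lit 156) (PT.nd (nat_lit 78) (PT.lf (nat_lit 5472) (nat_lit 6) (nat_lit 72) (nat_lit 5) (nat_lit 169) (nat_lit 214) (nat_lit 217)) (PT.lf (nat_lit 5700) (nat_lit 6) (nat_lit 75) (nat_lit 5) (nat_lit 170) (nat_lit 214) (nat_lit 216))) (PT.nd (nat_lit 78) (PT.lf (nat_lit 5928) (nat_lit 6) (nat_lit 78) (nat_lit 5) (nat_lit 171) (nat_lit 214) (nat_lit 215)) (PT.nd (nat_lit 78) (PT.lf (nat_lit 6156) (nat_lit 3) (nat_lit 81) (nat_lit 4) (nat_lit 172) (nat_lit 214) (nat_lit 214)) (PT.lf (nat_lit 6308) (nat_lit 6) (nat_lit 83) (nat_lit 4) (nat_lit 173) (nat_lit 214) (nat_lit 213))))))))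
noncomputable def pc24 : PT := (PT.nd (nat_lit 62244) (PT.nd (nat_lit 3042) (PT.nd (nat_lit 2730) (PT.nd (nat_lit 156) (PT.nd (nat_lit 78) (PT.lf (nat_lit 6460) (nat_lit 6) (nat_lit 85) (nat_lit 4) (nat_lit 174) (nat_lit 214) (nat_lit 212)) (PT.lf (nat_lit 6688) (nat_lit 6) (nat_lit 88) (nat_lit 4) (nat_lit 175) (nat_lit 214) (nat_lit 211))) (PT.nd (nat_lit 78) (PT.lf (nat_lit 6840) (nat_lit 6) (nat_lit 90) (nat_lit 4) (nat_lit 176) (nat_lit 214) (nat_lit 210)) (PT.lf (nat_lit 7068) (nat_lit 6) (nat_lit 93) (nat_lit 4) (nat_lit 177) (nat_lit 214) (nat_lit 209)))) (PT.nd (nat_lit 156) (PT.nd (nat_lit 78) (PT.lf (nat_lit 7068) (nat_lit 6) (nat_lit 93) (nat_lit 2) (nat_lit 209) (nat_lit 214) (nat_lit 177)) (PT.lf (nat_lit 6840) (nat_lit 6) (nat_lit 90) (nat_lit 2) (nat_lit 210) (nat_lit 214) (nat_lit 176))) (PT.nd (nat_lit 78) (PT.lf (nat_lit 6688) (nat_lit 6) (nat_lit 88) (nat_lit 2) (nat_lit 211)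 (nat_lit 214) (nat_lit 175)) (PT.lf (nat_lit 6460) (nat_lit 6) (nat_lit 85) (nat_lit 2) (nat_lit 212) (nat_lit 214) (nat_lit 174))))) (PT.nd (nat_lit 312) (PT.nd (nat_lit 156) (PT.nd (nat_lit 78) (PT.lf (nat_lit 6308) (nat_lit 6) (nat_lit 83) (nat_lit 2) (nat_lit 213) (nat_lit 214) (nat_lit 173)) (PT.lf (nat_lit 6156) (nat_lit 3) (nat_lit 81) (nat_lit 0) (nat_lit 214) (nat_lit 214) (nat_lit 172))) (PT.nd (nat_lit 78) (PT.lf (nat_lit 5928) (nat_lit 6) (nat_lit 78) (nat_lit 0) (nat_lit 215) (nat_lit 214) (nat_lit 171)) (PT.lf (nat_lit 5700) (nat_lit 6) (nat_lit 75) (nat_lit 0) (nat_lit 216) (nat_lit 214) (nat_lit 170)))) (PT.nd (nat_lit 58656) (PT.nd (nat_lit 58578) (PT.lf (nat_lit 5472) (nat_lit 6) (nat_lit 72) (nat_lit 0) (nat_lit 217) (nat_lit 214) (nat_lit 169)) (PT.lf (nat_lit 5168) (nat_lit 6) (nat_lit 68) (nat_lit 5) (nat_lit 167) (nat_lit 215) (nat_lit 218))) (PT.nd (nat_lit 78) (PT.lf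 (nat_lit 5320) (nat_lit 6) (nat_lit 70) (nat_lit 5) (nat_lit 168) (nat_lit 215) (nat_lit 217)) (PT.nd (nat_lit 78) (PT.lf (nat_lit 5548) (nat_lit 6) (nat_lit 73) (nat_lit 5) (nat_lit 169) (nat_lit 215) (nat_lit 216)) (PT.lf (nat_lit 5776) (nat_lit 3) (nat_lit 76) (nat_lit 4) (nat_lit 170) (nat_lit 215) (nat_lit 215))))))) (PT.nd (nat_lit 3276) (PT.nd (nat_lit 312) (PT.nd (nat_lit 156) (PT.nd (nat_lit 78) (PT.lf (nat_lit 5928) (nat_lit 6) (nat_lit 78) (nat_lit 4) (nat_lit 171) (nat_lit 215) (nat_lit 214)) (PT.lf (nat_lit 6080) (nat_lit 6) (nat_lit 80) (nat_lit 4) (nat_lit 172) (nat_lit 215) (nat_lit 213))) (PT.nd (nat_lit 78) (PT.lf (nat_lit 6232) (nat_lit 6) (nat_lit 82) (nat_lit 4) (nat_lit 173) (nat_lit 215) (nat_lit 212)) (PT.lf (nat_lit 6384) (nat_lit 6) (nat_lit 84) (nat_lit 4) (nat_lit 174) (nat_lit 215) (nat_lit 211)))) (PT.nd (nat_lit 2808) (PT.nd (nat_lit 2730) (PT.lf (nat_lit 6612)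 (nat_lit 6) (nat_lit 87) (nat_lit 4) (nat_lit 175) (nat_lit 215) (nat_lit 210)) (PT.lf (nat_lit 6612) (nat_lit 6) (nat_lit 87) (nat_lit 2) (nat_lit 210) (nat_lit 215) (nat_lit 175))) (PT.nd (nat_lit 78) (PT.lf (nat_lit 6384) (nat_lit 6) (nat_lit 84) (nat_lit 2) (nat_lit 211) (nat_lit 215) (nat_lit 174)) (PT.lf (nat_lit 6232) (nat_lit 6) (nat_lit 82) (nat_lit 2) (nat_lit 212) (nat_lit 215) (nat_lit 173))))) (PT.nd (nat_lit 312) (PT.nd (nat_lit 156) (PT.nd (nat_lit 78) (PT.lf (nat_lit 6080) (nat_lit 6) (nat_lit 80) (nat_lit 2) (nat_lit 213) (nat_lit 215) (nat_lit 172)) (PT.lf (nat_lit 5928) (nat_lit 6) (nat_lit 78) (nat_lit 2) (nat_lit 214) (nat_lit 215) (nat_lit 171))) (PT.nd (nat_lit 78) (PT.lf (nat_lit 5776) (nat_lit 3) (nat_lit 76) (nat_lit 0) (nat_lit 215) (nat_lit 215) (nat_lit 170)) (PT.lf (nat_lit 5548) (nat_lit 6) (nat_lit 73) (nat_lit 0) (nat_lit 216) (nat_lit 215) (nat_lit 169)))) (PT.nd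 (nat_lit 58422) (PT.nd (nat_lit 78) (PT.lf (nat_lit 5320) (nat_lit 6) (nat_lit 70) (nat_lit 0) (nat_lit 217) (nat_lit 215) (nat_lit 168)) (PT.lf (nat_lit 5168) (nat_lit 6) (nat_lit 68) (nat_lit 0) (nat_lit 218) (nat_lit 215) (nat_lit 167))) (PT.nd (nat_lit 78) (PT.lf (nat_lit 4864) (nat_lit 6) (nat_lit 64) (nat_lit 5) (nat_lit 165) (nat_lit 216) (nat_lit 219)) (PT.nd (nat_lit 78) (PT.lf (nat_lit 5016) (nat_lit 6) (nat_lit 66) (nat_lit 5) (nat_lit 166) (nat_lit 216) (nat_lit 218)) (PT.lf (nat_lit 5244) (nat_lit 6) (nat_lit 69) (nat_lit 5) (nat_lit 167) (nat_lit 216) (nat_lit 217))))))))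
noncomputable def pc25 : PT := (PT.nd (nat_lit 62400) (PT.nd (nat_lit 3666) (PT.nd (nat_lit 312) (PT.nd (nat_lit 156) (PT.nd (nat_lit 78) (PT.lf (nat_lit 5396) (nat_lit 3) (nat_lit 71) (nat_lit 4) (nat_lit 168) (nat_lit 216) (nat_lit 216)) (PT.lf (nat_lit 5548) (nat_lit 6) (nat_lit 73) (nat_lit 4) (nat_lit 169) (nat_lit 216) (nat_lit 215))) (PT.nd (nat_lit 78) (PT.lf (nat_lit 5700) (nat_lit 6) (nat_lit 75) (nat_lit 4) (nat_lit 170) (nat_lit 216) (nat_lit 214)) (PT.lf (nat_lit 5852) (nat_lit 6) (nat_lit 77) (nat_lit 4) (nat_lit 171) (nat_lit 216) (nat_lit 213)))) (PT.nd (nat_lit 3198) (PT.nd (nat_lit 3120) (PT.lf (nat_lit 6004) (nat_lit 6) (nat_lit 79) (nat_lit 4) (nat_lit 172) (nat_lit 216) (nat_lit 212)) (PT.lf (nat_lit 6004) (nat_lit 6) (nat_lit 79) (nat_lit 2) (nat_lit 212) (nat_lit 216) (nat_lit 172))) (PT.nd (nat_lit 78) (PT.lf (nat_lit 5852) (nat_lit 6) (nat_lit 77) (nat_lit 2) (nat_lit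 213) (nat_lit 216) (nat_lit 171)) (PT.lf (nat_lit 5700) (nat_lit 6) (nat_lit 75) (nat_lit 2) (nat_lit 214) (nat_lit 216) (nat_lit 170))))) (PT.nd (nat_lit 312) (PT.nd (nat_lit 156) (PT.nd (nat_lit 78) (PT.lf (nat_lit 5548) (nat_lit 6) (nat_lit 73) (nat_lit 2) (nat_lit 215) (nat_lit 216) (nat_lit 169)) (PT.lf (nat_lit 5396) (nat_lit 3) (nat_lit 71) (nat_lit 0) (nat_lit 216) (nat_lit 216) (nat_lit 168))) (PT.nd (nat_lit 78) (PT.lf (nat_lit 5244) (nat_lit 6) (nat_lit 69) (nat_lit 0) (nat_lit 217) (nat_lit 216) (nat_lit 167)) (PT.lf (nat_lit 5016) (nat_lit 6) (nat_lit 66) (nat_lit 0) (nat_lit 218) (nat_lit 216) (nat_lit 166)))) (PT.nd (nat_lit 58188) (PT.nd (nat_lit 58110) (PT.lf (nat_lit 4864) (nat_lit 6) (nat_lit 64) (nat_lit 0) (nat_lit 219) (nat_lit 216) (nat_lit 165)) (PT.lf (nat_lit 4560) (nat_lit 6) (nat_lit 60) (nat_lit 5) (nat_lit 163) (nat_lit 217) (nat_lit 220))) (PT.nd (nat_lit 78) (PT.lf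 (nat_lit 4712) (nat_lit 6) (nat_lit 62) (nat_lit 5) (nat_lit 164) (nat_lit 217) (nat_lit 219)) (PT.nd (nat_lit 78) (PT.lf (nat_lit 4940) (nat_lit 6) (nat_lit 65) (nat_lit 5) (nat_lit 165) (nat_lit 217) (nat_lit 218)) (PT.lf (nat_lit 5092) (nat_lit 3) (nat_lit 67) (nat_lit 4) (nat_lit 166) (nat_lit 217) (nat_lit 217))))))) (PT.nd (nat_lit 3978) (PT.nd (nat_lit 3588) (PT.nd (nat_lit 156) (PT.nd (nat_lit 78) (PT.lf (nat_lit 5244) (nat_lit 6) (nat_lit 69) (nat_lit 4) (nat_lit 167) (nat_lit 217) (nat_lit 216)) (PT.lf (nat_lit 5320) (nat_lit 6) (nat_lit 70) (nat_lit 4) (nat_lit 168) (nat_lit 217) (nat_lit 215))) (PT.nd (nat_lit 78) (PT.lf (nat_lit 5472) (nat_lit 6) (nat_lit 72) (nat_lit 4) (nat_lit 169) (nat_lit 217) (nat_lit 214)) (PT.lf (nat_lit 5624) (nat_lit 6) (nat_lit 74) (nat_lit 4) (nat_lit 170) (nat_lit 217) (nat_lit 213)))) (PT.nd (nat_lit 156) (PT.nd (nat_lit 78) (PT.lf (nat_lit 5624) (nat_lit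 6) (nat_lit 74) (nat_lit 2) (nat_lit 213) (nat_lit 217) (nat_lit 170)) (PT.lf (nat_lit 5472) (nat_lit 6) (nat_lit 72) (nat_lit 2) (nat_lit 214) (nat_lit 217) (nat_lit 169))) (PT.nd (nat_lit 78) (PT.lf (nat_lit 5320) (nat_lit 6) (nat_lit 70) (nat_lit 2) (nat_lit 215) (nat_lit 217) (nat_lit 168)) (PT.nd (nat_lit 78) (PT.lf (nat_lit 5244) (nat_lit 6) (nat_lit 69) (nat_lit 2) (nat_lit 216) (nat_lit 217) (nat_lit 167)) (PT.lf (nat_lit 5092) (nat_lit 3) (nat_lit 67) (nat_lit 0) (nat_lit 217) (nat_lit 217) (nat_lit 166)))))) (PT.nd (nat_lit 58110) (PT.nd (nat_lit 156) (PT.nd (nat_lit 78) (PT.lf (nat_lit 4940) (nat_lit 6) (nat_lit 65) (nat_lit 0) (nat_lit 218) (nat_lit 217) (nat_lit 165)) (PT.lf (nat_lit 4712) (nat_lit 6) (nat_lit 62) (nat_lit 0) (nat_lit 219) (nat_lit 217) (nat_lit 164))) (PT.nd (nat_lit 57876) (PT.lf (nat_lit 4560) (nat_lit 6) (nat_lit 60) (nat_lit 0) (nat_lit 220) (nat_lit 217) (nat_lit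 163)) (PT.lf (nat_lit 4256) (nat_lit 6) (nat_lit 56) (nat_lit 5) (nat_lit 161) (nat_lit 218) (nat_lit 221)))) (PT.nd (nat_lit 156) (PT.nd (nat_lit 78) (PT.lf (nat_lit 4408) (nat_lit 6) (nat_lit 58) (nat_lit 5) (nat_lit 162) (nat_lit 218) (nat_lit 220)) (PT.lf (nat_lit 4636) (nat_lit 6) (nat_lit 61) (nat_lit 5) (nat_lit 163) (nat_lit 218) (nat_lit 219))) (PT.nd (nat_lit 78) (PT.lf (nat_lit 4788) (nat_lit 3) (nat_lit 63) (nat_lit 4) (nat_lit 164) (nat_lit 218) (nat_lit 218)) (PT.nd (nat_lit 78) (PT.lf (nat_lit 4940) (nat_lit 6) (nat_lit 65) (nat_lit 4) (nat_lit 165) (nat_lit 218) (nat_lit 217)) (PT.lf (nat_lit 5016) (nat_lit 6) (nat_lit 66) (nat_lit 4) (nat_lit 166) (nat_lit 218) (nat_lit 216))))))))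
noncomputable def pc26 : PT := (PT.nd (nat_lit 66534) (PT.nd (nat_lit 61932) (PT.nd (nat_lit 3978) (PT.nd (nat_lit 3822) (PT.nd (nat_lit 3744) (PT.lf (nat_lit 5168) (nat_lit 6) (nat_lit 68) (nat_lit 4) (nat_lit 167) (nat_lit 218) (nat_lit 215)) (PT.lf (nat_lit 5168) (nat_lit 6) (nat_lit 68) (nat_lit 2) (nat_lit 215) (nat_lit 218) (nat_lit 167))) (PT.nd (nat_lit 78) (PT.lf (nat_lit 5016) (nat_lit 6) (nat_lit 66) (nat_lit 2) (nat_lit 216) (nat_lit 218) (nat_lit 166)) (PT.lf (nat_lit 4940) (nat_lit 6) (nat_lit 65) (nat_lit 2) (nat_lit 217) (nat_lit 218) (nat_lit 165)))) (PT.nd (nat_lit 156) (PT.nd (nat_lit 78) (PT.lf (nat_lit 4788) (nat_lit 3) (nat_lit 63) (nat_lit 0) (nat_lit 218) (nat_lit 218) (nat_lit 164)) (PT.lf (nat_lit 4636) (nat_lit 6) (nat_lit 61) (nat_lit 0) (nat_lit 219) (nat_lit 218) (nat_lit 163))) (PT.nd (nat_lit 78) (PT.lf (nat_lit 4408) (nat_lit 6) (nat_lit 58) (nat_lit 0) (nat_lit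 220) (nat_lit 218) (nat_lit 162)) (PT.lf (nat_lit 4256) (nat_lit 6) (nat_lit 56) (nat_lit 0) (nat_lit 221) (nat_lit 218) (nat_lit 161))))) (PT.nd (nat_lit 312) (PT.nd (nat_lit 156) (PT.nd (nat_lit 78) (PT.lf (nat_lit 4104) (nat_lit 6) (nat_lit 54) (nat_lit 5) (nat_lit 160) (nat_lit 219) (nat_lit 221)) (PT.lf (nat_lit 4332) (nat_lit 6) (nat_lit 57) (nat_lit 5) (nat_lit 161) (nat_lit 219) (nat_lit 220))) (PT.nd (nat_lit 78) (PT.lf (nat_lit 4484) (nat_lit 3) (nat_lit 59) (nat_lit 4) (nat_lit 162) (nat_lit 219) (nat_lit 219)) (PT.lf (nat_lit 4636) (nat_lit 6) (nat_lit 61) (nat_lit 4) (nat_lit 163) (nat_lit 219) (nat_lit 218)))) (PT.nd (nat_lit 4056) (PT.nd (nat_lit 78) (PT.lf (nat_lit 4712) (nat_lit 6) (nat_lit 62) (nat_lit 4) (nat_lit 164) (nat_lit 219) (nat_lit 217)) (PT.lf (nat_lit 4864) (nat_lit 6) (nat_lit 64) (nat_lit 4) (nat_lit 165) (nat_lit 219) (nat_lit 216))) (PT.nd (nat_lit 78) (PT.lf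 (nat_lit 4864) (nat_lit 6) (nat_lit 64) (nat_lit 2) (nat_lit 216) (nat_lit 219) (nat_lit 165)) (PT.nd (nat_lit 78) (PT.lf (nat_lit 4712) (nat_lit 6) (nat_lit 62) (nat_lit 2) (nat_lit 217) (nat_lit 219) (nat_lit 164)) (PT.lf (nat_lit 4636) (nat_lit 6) (nat_lit 61) (nat_lit 2) (nat_lit 218) (nat_lit 219) (nat_lit 163))))))) (PT.nd (nat_lit 58110) (PT.nd (nat_lit 57798) (PT.nd (nat_lit 156) (PT.nd (nat_lit 78) (PT.lf (nat_lit 4484) (nat_lit 3) (nat_lit 59) (nat_lit 0) (nat_lit 219) (nat_lit 219) (nat_lit 162)) (PT.lf (nat_lit 4332) (nat_lit 6) (nat_lit 57) (nat_lit 0) (nat_lit 220) (nat_lit 219) (nat_lit 161))) (PT.nd (nat_lit 57564) (PT.lf (nat_lit 4104) (nat_lit 6) (nat_lit 54) (nat_lit 0) (nat_lit 221) (nat_lit 219) (nat_lit 160)) (PT.lf (nat_lit 3876) (nat_lit 6) (nat_lit 51) (nat_lit 5) (nat_lit 158) (nat_lit 220) (nat_lit 222)))) (PT.nd (nat_lit 156) (PT.nd (nat_lit 78) (PT.lf (nat_lit 4028)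 (nat_lit 6) (nat_lit 53) (nat_lit 5) (nat_lit 159) (nat_lit 220) (nat_lit 221)) (PT.lf (nat_lit 4180) (nat_lit 3) (nat_lit 55) (nat_lit 4) (nat_lit 160) (nat_lit 220) (nat_lit 220))) (PT.nd (nat_lit 78) (PT.lf (nat_lit 4332) (nat_lit 6) (nat_lit 57) (nat_lit 4) (nat_lit 161) (nat_lit 220) (nat_lit 219)) (PT.lf (nat_lit 4408) (nat_lit 6) (nat_lit 58) (nat_lit 4) (nat_lit 162) (nat_lit 220) (nat_lit 218))))) (PT.nd (nat_lit 4446) (PT.nd (nat_lit 4290) (PT.nd (nat_lit 4212) (PT.lf (nat_lit 4560) (nat_lit 6) (nat_lit 60) (nat_lit 4) (nat_lit 163) (nat_lit 220) (nat_lit 217)) (PT.lf (nat_lit 4560) (nat_lit 6) (nat_lit 60) (nat_lit 2) (nat_lit 217) (nat_lit 220) (nat_lit 163))) (PT.nd (nat_lit 78) (PT.lf (nat_lit 4408) (nat_lit 6) (nat_lit 58) (nat_lit 2) (nat_lit 218) (nat_lit 220) (nat_lit 162)) (PT.lf (nat_lit 4332) (nat_lit 6) (nat_lit 57) (nat_lit 2) (nat_lit 219) (nat_lit 220) (nat_lit 161))))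 (PT.nd (nat_lit 156) (PT.nd (nat_lit 78) (PT.lf (nat_lit 4180) (nat_lit 3) (nat_lit 55) (nat_lit 0) (nat_lit 220) (nat_lit 220) (nat_lit 160)) (PT.lf (nat_lit 4028) (nat_lit 6) (nat_lit 53) (nat_lit 0) (nat_lit 221) (nat_lit 220) (nat_lit 159))) (PT.nd (nat_lit 57330) (PT.lf (nat_lit 3876) (nat_lit 6) (nat_lit 51) (nat_lit 0) (nat_lit 222) (nat_lit 220) (nat_lit 158)) (PT.nd (nat_lit 78) (PT.lf (nat_lit 3648) (nat_lit 6) (nat_lit 48) (nat_lit 5) (nat_lit 156) (nat_lit 221) (nat_lit 223)) (PT.lf (nat_lit 3800) (nat_lit 6) (nat_lit 50) (nat_lit 5) (nat_lit 157) (nat_lit 221) (nat_lit 222))))))))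
noncomputable def pc27 : PT := (PT.nd (nat_lit 67470) (PT.nd (nat_lit 4992) (PT.nd (nat_lit 4680) (PT.nd (nat_lit 156) (PT.nd (nat_lit 78) (PT.lf (nat_lit 3952) (nat_lit 3) (nat_lit 52) (nat_lit 4) (nat_lit 158) (nat_lit 221) (nat_lit 221)) (PT.lf (nat_lit 4028) (nat_lit 6) (nat_lit 53) (nat_lit 4) (nat_lit 159) (nat_lit 221) (nat_lit 220))) (PT.nd (nat_lit 78) (PT.lf (nat_lit 4104) (nat_lit 6) (nat_lit 54) (nat_lit 4) (nat_lit 160) (nat_lit 221) (nat_lit 219)) (PT.lf (nat_lit 4256) (nat_lit 6) (nat_lit 56) (nat_lit 4) (nat_lit 161) (nat_lit 221) (nat_lit 218)))) (PT.nd (nat_lit 156) (PT.nd (nat_lit 78) (PT.lf (nat_lit 4256) (nat_lit 6) (nat_lit 56) (nat_lit 2) (nat_lit 218) (nat_lit 221) (nat_lit 161)) (PT.lf (nat_lit 4104) (nat_lit 6) (nat_lit 54) (nat_lit 2) (nat_lit 219) (nat_lit 221) (nat_lit 160))) (PT.nd (nat_lit 78) (PT.lf (nat_lit 4028) (nat_lit 6) (nat_lit 53) (nat_lit 2) (nat_lit 220)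 (nat_lit 221) (nat_lit 159)) (PT.lf (nat_lit 3952) (nat_lit 3) (nat_lit 52) (nat_lit 0) (nat_lit 221) (nat_lit 221) (nat_lit 158))))) (PT.nd (nat_lit 57330) (PT.nd (nat_lit 57174) (PT.nd (nat_lit 78) (PT.lf (nat_lit 3800) (nat_lit 6) (nat_lit 50) (nat_lit 0) (nat_lit 222) (nat_lit 221) (nat_lit 157)) (PT.lf (nat_lit 3648) (nat_lit 6) (nat_lit 48) (nat_lit 0) (nat_lit 223) (nat_lit 221) (nat_lit 156))) (PT.nd (nat_lit 78) (PT.lf (nat_lit 3420) (nat_lit 6) (nat_lit 45) (nat_lit 5) (nat_lit 154) (nat_lit 222) (nat_lit 224)) (PT.lf (nat_lit 3572) (nat_lit 6) (nat_lit 47) (nat_lit 5) (nat_lit 155) (nat_lit 222) (nat_lit 223)))) (PT.nd (nat_lit 156) (PT.nd (nat_lit 78) (PT.lf (nat_lit 3724) (nat_lit 3) (nat_lit 49) (nat_lit 4) (nat_lit 156) (nat_lit 222) (nat_lit 222)) (PT.lf (nat_lit 3800) (nat_lit 6) (nat_lit 50) (nat_lit 4) (nat_lit 157) (nat_lit 222) (nat_lit 221))) (PT.nd (nat_lit 4836) (PT.lf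 (nat_lit 3876) (nat_lit 6) (nat_lit 51) (nat_lit 4) (nat_lit 158) (nat_lit 222) (nat_lit 220)) (PT.nd (nat_lit 78) (PT.lf (nat_lit 3876) (nat_lit 6) (nat_lit 51) (nat_lit 2) (nat_lit 220) (nat_lit 222) (nat_lit 158)) (PT.lf (nat_lit 3800) (nat_lit 6) (nat_lit 50) (nat_lit 2) (nat_lit 221) (nat_lit 222) (nat_lit 157))))))) (PT.nd (nat_lit 62478) (PT.nd (nat_lit 57096) (PT.nd (nat_lit 156) (PT.nd (nat_lit 78) (PT.lf (nat_lit 3724) (nat_lit 3) (nat_lit 49) (nat_lit 0) (nat_lit 222) (nat_lit 222) (nat_lit 156)) (PT.lf (nat_lit 3572) (nat_lit 6) (nat_lit 47) (nat_lit 0) (nat_lit 223) (nat_lit 222) (nat_lit 155))) (PT.nd (nat_lit 56862) (PT.lf (nat_lit 3420) (nat_lit 6) (nat_lit 45) (nat_lit 0) (nat_lit 224) (nat_lit 222) (nat_lit 154)) (PT.lf (nat_lit 3192) (nat_lit 6) (nat_lit 42) (nat_lit 5) (nat_lit 152) (nat_lit 223) (nat_lit 225)))) (PT.nd (nat_lit 156) (PT.nd (nat_lit 78) (PT.lf (nat_lit 3344)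 (nat_lit 6) (nat_lit 44) (nat_lit 5) (nat_lit 153) (nat_lit 223) (nat_lit 224)) (PT.lf (nat_lit 3496) (nat_lit 3) (nat_lit 46) (nat_lit 4) (nat_lit 154) (nat_lit 223) (nat_lit 223))) (PT.nd (nat_lit 78) (PT.lf (nat_lit 3572) (nat_lit 6) (nat_lit 47) (nat_lit 4) (nat_lit 155) (nat_lit 223) (nat_lit 222)) (PT.nd (nat_lit 5070) (PT.lf (nat_lit 3648) (nat_lit 6) (nat_lit 48) (nat_lit 4) (nat_lit 156) (nat_lit 223) (nat_lit 221)) (PT.lf (nat_lit 3648) (nat_lit 6) (nat_lit 48) (nat_lit 2) (nat_lit 221) (nat_lit 223) (nat_lit 156)))))) (PT.nd (nat_lit 56862) (PT.nd (nat_lit 156) (PT.nd (nat_lit 78) (PT.lf (nat_lit 3572) (nat_lit 6) (nat_lit 47) (nat_lit 2) (nat_lit 222) (nat_lit 223) (nat_lit 155)) (PT.lf (nat_lit 3496) (nat_lit 3) (nat_lit 46) (nat_lit 0) (nat_lit 223) (nat_lit 223) (nat_lit 154))) (PT.nd (nat_lit 78) (PT.lf (nat_lit 3344) (nat_lit 6) (nat_lit 44) (nat_lit 0) (nat_lit 224) (nat_lit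 223) (nat_lit 153)) (PT.lf (nat_lit 3192) (nat_lit 6) (nat_lit 42) (nat_lit 0) (nat_lit 225) (nat_lit 223) (nat_lit 152)))) (PT.nd (nat_lit 156) (PT.nd (nat_lit 78) (PT.lf (nat_lit 2964) (nat_lit 6) (nat_lit 39) (nat_lit 5) (nat_lit 150) (nat_lit 224) (nat_lit 226)) (PT.lf (nat_lit 3116) (nat_lit 6) (nat_lit 41) (nat_lit 5) (nat_lit 151) (nat_lit 224) (nat_lit 225))) (PT.nd (nat_lit 78) (PT.lf (nat_lit 3268) (nat_lit 3) (nat_lit 43) (nat_lit 4) (nat_lit 152) (nat_lit 224) (nat_lit 224)) (PT.nd (nat_lit 78) (PT.lf (nat_lit 3344) (nat_lit 6) (nat_lit 44) (nat_lit 4) (nat_lit 153) (nat_lit 224) (nat_lit 223)) (PT.lf (nat_lit 3420) (nat_lit 6) (nat_lit 45) (nat_lit 4) (nat_lit 154) (nat_lit 224) (nat_lit 222))))))))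
noncomputable def pc28 : PT := (PT.nd (nat_lit 119184) (PT.nd (nat_lit 56940) (PT.nd (nat_lit 312) (PT.nd (nat_lit 156) (PT.nd (nat_lit 78) (PT.lf (nat_lit 3420) (nat_lit 6) (nat_lit 45) (nat_lit 2) (nat_lit 222) (nat_lit 224) (nat_lit 154)) (PT.lf (nat_lit 3344) (nat_lit 6) (nat_lit 44) (nat_lit 2) (nat_lit 223) (nat_lit 224) (nat_lit 153))) (PT.nd (nat_lit 78) (PT.lf (nat_lit 3268) (nat_lit 3) (nat_lit 43) (nat_lit 0) (nat_lit 224) (nat_lit 224) (nat_lit 152)) (PT.lf (nat_lit 3116) (nat_lit 6) (nat_lit 41) (nat_lit 0) (nat_lit 225) (nat_lit 224) (nat_lit 151)))) (PT.nd (nat_lit 56472) (PT.nd (nat_lit 56394) (PT.lf (nat_lit 2964) (nat_lit 6) (nat_lit 39) (nat_lit 0) (nat_lit 226) (nat_lit 224) (nat_lit 150)) (PT.lf (nat_lit 2736) (nat_lit 6) (nat_lit 36) (nat_lit 5) (nat_lit 148) (nat_lit 225) (nat_lit 227))) (PT.nd (nat_lit 78) (PT.lf (nat_lit 2888) (nat_lit 6) (nat_lit 38) (nat_lit 5) (nat_lit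 149) (nat_lit 225) (nat_lit 226)) (PT.lf (nat_lit 3040) (nat_lit 3) (nat_lit 40) (nat_lit 4) (nat_lit 150) (nat_lit 225) (nat_lit 225))))) (PT.nd (nat_lit 5772) (PT.nd (nat_lit 5616) (PT.nd (nat_lit 78) (PT.lf (nat_lit 3116) (nat_lit 6) (nat_lit 41) (nat_lit 4) (nat_lit 151) (nat_lit 225) (nat_lit 224)) (PT.lf (nat_lit 3192) (nat_lit 6) (nat_lit 42) (nat_lit 4) (nat_lit 152) (nat_lit 225) (nat_lit 223))) (PT.nd (nat_lit 78) (PT.lf (nat_lit 3192) (nat_lit 6) (nat_lit 42) (nat_lit 2) (nat_lit 223) (nat_lit 225) (nat_lit 152)) (PT.lf (nat_lit 3116) (nat_lit 6) (nat_lit 41) (nat_lit 2) (nat_lit 224) (nat_lit 225) (nat_lit 151)))) (PT.nd (nat_lit 156) (PT.nd (nat_lit 78) (PT.lf (nat_lit 3040) (nat_lit 3) (nat_lit 40) (nat_lit 0) (nat_lit 225) (nat_lit 225) (nat_lit 150)) (PT.lf (nat_lit 2888) (nat_lit 6) (nat_lit 38) (nat_lit 0) (nat_lit 226) (nat_lit 225) (nat_lit 149))) (PT.nd (nat_lit 56160) (PT.lf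 (nat_lit 2736) (nat_lit 6) (nat_lit 36) (nat_lit 0) (nat_lit 227) (nat_lit 225) (nat_lit 148)) (PT.nd (nat_lit 78) (PT.lf (nat_lit 2508) (nat_lit 6) (nat_lit 33) (nat_lit 5) (nat_lit 146) (nat_lit 226) (nat_lit 228)) (PT.lf (nat_lit 2660) (nat_lit 6) (nat_lit 35) (nat_lit 5) (nat_lit 147) (nat_lit 226) (nat_lit 227))))))) (PT.nd (nat_lit 62166) (PT.nd (nat_lit 6006) (PT.nd (nat_lit 156) (PT.nd (nat_lit 78) (PT.lf (nat_lit 2812) (nat_lit 3) (nat_lit 37) (nat_lit 4) (nat_lit 148) (nat_lit 226) (nat_lit 226)) (PT.lf (nat_lit 2888) (nat_lit 6) (nat_lit 38) (nat_lit 4) (nat_lit 149) (nat_lit 226) (nat_lit 225))) (PT.nd (nat_lit 5772) (PT.lf (nat_lit 2964) (nat_lit 6) (nat_lit 39) (nat_lit 4) (nat_lit 150) (nat_lit 226) (nat_lit 224)) (PT.lf (nat_lit 2964) (nat_lit 6) (nat_lit 39) (nat_lit 2) (nat_lit 224) (nat_lit 226) (nat_lit 150)))) (PT.nd (nat_lit 156) (PT.nd (nat_lit 78) (PT.lf (nat_lit 2888)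 (nat_lit 6) (nat_lit 38) (nat_lit 2) (nat_lit 225) (nat_lit 226) (nat_lit 149)) (PT.lf (nat_lit 2812) (nat_lit 3) (nat_lit 37) (nat_lit 0) (nat_lit 226) (nat_lit 226) (nat_lit 148))) (PT.nd (nat_lit 78) (PT.lf (nat_lit 2660) (nat_lit 6) (nat_lit 35) (nat_lit 0) (nat_lit 227) (nat_lit 226) (nat_lit 147)) (PT.lf (nat_lit 2508) (nat_lit 6) (nat_lit 33) (nat_lit 0) (nat_lit 228) (nat_lit 226) (nat_lit 146))))) (PT.nd (nat_lit 312) (PT.nd (nat_lit 156) (PT.nd (nat_lit 78) (PT.lf (nat_lit 2280) (nat_lit 6) (nat_lit 30) (nat_lit 5) (nat_lit 144) (nat_lit 227) (nat_lit 229)) (PT.lf (nat_lit 2432) (nat_lit 6) (nat_lit 32) (nat_lit 5) (nat_lit 145) (nat_lit 227) (nat_lit 228))) (PT.nd (nat_lit 78) (PT.lf (nat_lit 2584) (nat_lit 3) (nat_lit 34) (nat_lit 4) (nat_lit 146) (nat_lit 227) (nat_lit 227)) (PT.lf (nat_lit 2660) (nat_lit 6) (nat_lit 35) (nat_lit 4) (nat_lit 147) (nat_lit 227) (nat_lit 226)))) (PT.nd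 (nat_lit 6084) (PT.nd (nat_lit 6006) (PT.lf (nat_lit 2736) (nat_lit 6) (nat_lit 36) (nat_lit 4) (nat_lit 148) (nat_lit 227) (nat_lit 225)) (PT.lf (nat_lit 2736) (nat_lit 6) (nat_lit 36) (nat_lit 2) (nat_lit 225) (nat_lit 227) (nat_lit 148))) (PT.nd (nat_lit 78) (PT.lf (nat_lit 2660) (nat_lit 6) (nat_lit 35) (nat_lit 2) (nat_lit 226) (nat_lit 227) (nat_lit 147)) (PT.nd (nat_lit 78) (PT.lf (nat_lit 2584) (nat_lit 3) (nat_lit 34) (nat_lit 0) (nat_lit 227) (nat_lit 227) (nat_lit 146)) (PT.lf (nat_lit 2432) (nat_lit 6) (nat_lit 32) (nat_lit 0) (nat_lit 228) (nat_lit 227) (nat_lit 145))))))))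
noncomputable def pc29 : PT := (PT.nd (nat_lit 124878) (PT.nd (nat_lit 62400) (PT.nd (nat_lit 55926) (PT.nd (nat_lit 55770) (PT.nd (nat_lit 55692) (PT.lf (nat_lit 2280) (nat_lit 6) (nat_lit 30) (nat_lit 0) (nat_lit 229) (nat_lit 227) (nat_lit 144)) (PT.lf (nat_lit 2052) (nat_lit 6) (nat_lit 27) (nat_lit 5) (nat_lit 142) (nat_lit 228) (nat_lit 230))) (PT.nd (nat_lit 78) (PT.lf (nat_lit 2204) (nat_lit 6) (nat_lit 29) (nat_lit 5) (nat_lit 143) (nat_lit 228) (nat_lit 229)) (PT.lf (nat_lit 2356) (nat_lit 3) (nat_lit 31) (nat_lit 4) (nat_lit 144) (nat_lit 228) (nat_lit 228)))) (PT.nd (nat_lit 6318) (PT.nd (nat_lit 78) (PT.lf (nat_lit 2432) (nat_lit 6) (nat_lit 32) (nat_lit 4) (nat_lit 145) (nat_lit 228) (nat_lit 227)) (PT.lf (nat_lit 2508) (nat_lit 6) (nat_lit 33) (nat_lit 4) (nat_lit 146) (nat_lit 228) (nat_lit 226))) (PT.nd (nat_lit 78) (PT.lf (nat_lit 2508) (nat_lit 6) (nat_lit 33) (nat_lit 2) (nat_lit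 226) (nat_lit 228) (nat_lit 146)) (PT.lf (nat_lit 2432) (nat_lit 6) (nat_lit 32) (nat_lit 2) (nat_lit 227) (nat_lit 228) (nat_lit 145))))) (PT.nd (nat_lit 55692) (PT.nd (nat_lit 156) (PT.nd (nat_lit 78) (PT.lf (nat_lit 2356) (nat_lit 3) (nat_lit 31) (nat_lit 0) (nat_lit 228) (nat_lit 228) (nat_lit 144)) (PT.lf (nat_lit 2204) (nat_lit 6) (nat_lit 29) (nat_lit 0) (nat_lit 229) (nat_lit 228) (nat_lit 143))) (PT.nd (nat_lit 55458) (PT.lf (nat_lit 2052) (nat_lit 6) (nat_lit 27) (nat_lit 0) (nat_lit 230) (nat_lit 228) (nat_lit 142)) (PT.lf (nat_lit 1824) (nat_lit 6) (nat_lit 24) (nat_lit 5) (nat_lit 140) (nat_lit 229) (nat_lit 231)))) (PT.nd (nat_lit 156) (PT.nd (nat_lit 78) (PT.lf (nat_lit 1976) (nat_lit 6) (nat_lit 26) (nat_lit 5) (nat_lit 141) (nat_lit 229) (nat_lit 230)) (PT.lf (nat_lit 2128) (nat_lit 3) (nat_lit 28) (nat_lit 4) (nat_lit 142) (nat_lit 229) (nat_lit 229))) (PT.nd (nat_lit 78) (PT.lf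 (nat_lit 2204) (nat_lit 6) (nat_lit 29) (nat_lit 4) (nat_lit 143) (nat_lit 229) (nat_lit 228)) (PT.nd (nat_lit 6474) (PT.lf (nat_lit 2280) (nat_lit 6) (nat_lit 30) (nat_lit 4) (nat_lit 144) (nat_lit 229) (nat_lit 227)) (PT.lf (nat_lit 2280) (nat_lit 6) (nat_lit 30) (nat_lit 2) (nat_lit 227) (nat_lit 229) (nat_lit 144))))))) (PT.nd (nat_lit 62478) (PT.nd (nat_lit 55458) (PT.nd (nat_lit 156) (PT.nd (nat_lit 78) (PT.lf (nat_lit 2204) (nat_lit 6) (nat_lit 29) (nat_lit 2) (nat_lit 228) (nat_lit 229) (nat_lit 143)) (PT.lf (nat_lit 2128) (nat_lit 3) (nat_lit 28) (nat_lit 0) (nat_lit 229) (nat_lit 229) (nat_lit 142))) (PT.nd (nat_lit 78) (PT.lf (nat_lit 1976) (nat_lit 6) (nat_lit 26) (nat_lit 0) (nat_lit 230) (nat_lit 229) (nat_lit 141)) (PT.lf (nat_lit 1824) (nat_lit 6) (nat_lit 24) (nat_lit 0) (nat_lit 231) (nat_lit 229) (nat_lit 140)))) (PT.nd (nat_lit 156) (PT.nd (nat_lit 78) (PT.lf (nat_lit 1596)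 (nat_lit 6) (nat_lit 21) (nat_lit 5) (nat_lit 138) (nat_lit 230) (nat_lit 232)) (PT.lf (nat_lit 1748) (nat_lit 6) (nat_lit 23) (nat_lit 5) (nat_lit 139) (nat_lit 230) (nat_lit 231))) (PT.nd (nat_lit 78) (PT.lf (nat_lit 1900) (nat_lit 3) (nat_lit 25) (nat_lit 4) (nat_lit 140) (nat_lit 230) (nat_lit 230)) (PT.nd (nat_lit 78) (PT.lf (nat_lit 1976) (nat_lit 6) (nat_lit 26) (nat_lit 4) (nat_lit 141) (nat_lit 230) (nat_lit 229)) (PT.lf (nat_lit 2052) (nat_lit 6) (nat_lit 27) (nat_lit 4) (nat_lit 142) (nat_lit 230) (nat_lit 228)))))) (PT.nd (nat_lit 312) (PT.nd (nat_lit 156) (PT.nd (nat_lit 78) (PT.lf (nat_lit 2052) (nat_lit 6) (nat_lit 27) (nat_lit 2) (nat_lit 228) (nat_lit 230) (nat_lit 142)) (PT.lf (nat_lit 1976) (nat_lit 6) (nat_lit 26) (nat_lit 2) (nat_lit 229) (nat_lit 230) (nat_lit 141))) (PT.nd (nat_lit 78) (PT.lf (nat_lit 1900) (nat_lit 3) (nat_lit 25) (nat_lit 0) (nat_lit 230) (nat_lit 230)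 (nat_lit 140)) (PT.lf (nat_lit 1748) (nat_lit 6) (nat_lit 23) (nat_lit 0) (nat_lit 231) (nat_lit 230) (nat_lit 139)))) (PT.nd (nat_lit 55068) (PT.nd (nat_lit 54990) (PT.lf (nat_lit 1596) (nat_lit 6) (nat_lit 21) (nat_lit 0) (nat_lit 232) (nat_lit 230) (nat_lit 138)) (PT.lf (nat_lit 1368) (nat_lit 6) (nat_lit 18) (nat_lit 5) (nat_lit 136) (nat_lit 231) (nat_lit 233))) (PT.nd (nat_lit 78) (PT.lf (nat_lit 1520) (nat_lit 6) (nat_lit 20) (nat_lit 5) (nat_lit 137) (nat_lit 231) (nat_lit 232)) (PT.nd (nat_lit 78) (PT.lf (nat_lit 1672) (nat_lit 3) (nat_lit 22) (nat_lit 4) (nat_lit 138) (nat_lit 231) (nat_lit 231)) (PT.lf (nat_lit 1748) (nat_lit 6) (nat_lit 23) (nat_lit 4) (nat_lit 139) (nat_lit 231) (nat_lit 230))))))))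
noncomputable def pc30 : PT := (PT.nd (nat_lit 124410) (PT.nd (nat_lit 62166) (PT.nd (nat_lit 7176) (PT.nd (nat_lit 7020) (PT.nd (nat_lit 6942) (PT.lf (nat_lit 1824) (nat_lit 6) (nat_lit 24) (nat_lit 4) (nat_lit 140) (nat_lit 231) (nat_lit 229)) (PT.lf (nat_lit 1824) (nat_lit 6) (nat_lit 24) (nat_lit 2) (nat_lit 229) (nat_lit 231) (nat_lit 140))) (PT.nd (nat_lit 78) (PT.lf (nat_lit 1748) (nat_lit 6) (nat_lit 23) (nat_lit 2) (nat_lit 230) (nat_lit 231) (nat_lit 139)) (PT.lf (nat_lit 1672) (nat_lit 3) (nat_lit 22) (nat_lit 0) (nat_lit 231) (nat_lit 231) (nat_lit 138)))) (PT.nd (nat_lit 54834) (PT.nd (nat_lit 78) (PT.lf (nat_lit 1520) (nat_lit 6) (nat_lit 20) (nat_lit 0) (nat_lit 232) (nat_lit 231) (nat_lit 137)) (PT.lf (nat_lit 1368) (nat_lit 6) (nat_lit 18) (nat_lit 0) (nat_lit 233) (nat_lit 231) (nat_lit 136))) (PT.nd (nat_lit 78) (PT.lf (nat_lit 1140) (nat_lit 6) (nat_lit 15) (nat_lit 5) (nat_lit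 134) (nat_lit 232) (nat_lit 234)) (PT.lf (nat_lit 1292) (nat_lit 6) (nat_lit 17) (nat_lit 5) (nat_lit 135) (nat_lit 232) (nat_lit 233))))) (PT.nd (nat_lit 7410) (PT.nd (nat_lit 156) (PT.nd (nat_lit 78) (PT.lf (nat_lit 1444) (nat_lit 3) (nat_lit 19) (nat_lit 4) (nat_lit 136) (nat_lit 232) (nat_lit 232)) (PT.lf (nat_lit 1520) (nat_lit 6) (nat_lit 20) (nat_lit 4) (nat_lit 137) (nat_lit 232) (nat_lit 231))) (PT.nd (nat_lit 7176) (PT.lf (nat_lit 1596) (nat_lit 6) (nat_lit 21) (nat_lit 4) (nat_lit 138) (nat_lit 232) (nat_lit 230)) (PT.lf (nat_lit 1596) (nat_lit 6) (nat_lit 21) (nat_lit 2) (nat_lit 230) (nat_lit 232) (nat_lit 138)))) (PT.nd (nat_lit 156) (PT.nd (nat_lit 78) (PT.lf (nat_lit 1520) (nat_lit 6) (nat_lit 20) (nat_lit 2) (nat_lit 231) (nat_lit 232) (nat_lit 137)) (PT.lf (nat_lit 1444) (nat_lit 3) (nat_lit 19) (nat_lit 0) (nat_lit 232) (nat_lit 232) (nat_lit 136))) (PT.nd (nat_lit 78) (PT.lf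 (nat_lit 1292) (nat_lit 6) (nat_lit 17) (nat_lit 0) (nat_lit 233) (nat_lit 232) (nat_lit 135)) (PT.nd (nat_lit 54522) (PT.lf (nat_lit 1140) (nat_lit 6) (nat_lit 15) (nat_lit 0) (nat_lit 234) (nat_lit 232) (nat_lit 134)) (PT.lf (nat_lit 912) (nat_lit 6) (nat_lit 12) (nat_lit 5) (nat_lit 132) (nat_lit 233) (nat_lit 235))))))) (PT.nd (nat_lit 62244) (PT.nd (nat_lit 7644) (PT.nd (nat_lit 156) (PT.nd (nat_lit 78) (PT.lf (nat_lit 1064) (nat_lit 6) (nat_lit 14) (nat_lit 5) (nat_lit 133) (nat_lit 233) (nat_lit 234)) (PT.lf (nat_lit 1216) (nat_lit 3) (nat_lit 16) (nat_lit 4) (nat_lit 134) (nat_lit 233) (nat_lit 233))) (PT.nd (nat_lit 78) (PT.lf (nat_lit 1292) (nat_lit 6) (nat_lit 17) (nat_lit 4) (nat_lit 135) (nat_lit 233) (nat_lit 232)) (PT.lf (nat_lit 1368) (nat_lit 6) (nat_lit 18) (nat_lit 4) (nat_lit 136) (nat_lit 233) (nat_lit 231)))) (PT.nd (nat_lit 156) (PT.nd (nat_lit 78) (PT.lf (nat_lit 1368)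 (nat_lit 6) (nat_lit 18) (nat_lit 2) (nat_lit 231) (nat_lit 233) (nat_lit 136)) (PT.lf (nat_lit 1292) (nat_lit 6) (nat_lit 17) (nat_lit 2) (nat_lit 232) (nat_lit 233) (nat_lit 135))) (PT.nd (nat_lit 78) (PT.lf (nat_lit 1216) (nat_lit 3) (nat_lit 16) (nat_lit 0) (nat_lit 233) (nat_lit 233) (nat_lit 134)) (PT.nd (nat_lit 78) (PT.lf (nat_lit 1064) (nat_lit 6) (nat_lit 14) (nat_lit 0) (nat_lit 234) (nat_lit 233) (nat_lit 133)) (PT.lf (nat_lit 912) (nat_lit 6) (nat_lit 12) (nat_lit 0) (nat_lit 235) (nat_lit 233) (nat_lit 132)))))) (PT.nd (nat_lit 312) (PT.nd (nat_lit 156) (PT.nd (nat_lit 78) (PT.lf (nat_lit 684) (nat_lit 6) (nat_lit 9) (nat_lit 5) (nat_lit 130) (nat_lit 234) (nat_lit 236)) (PT.lf (nat_lit 836) (nat_lit 6) (nat_lit 11) (nat_lit 5) (nat_lit 131) (nat_lit 234) (nat_lit 235))) (PT.nd (nat_lit 78) (PT.lf (nat_lit 988) (nat_lit 3) (nat_lit 13) (nat_lit 4) (nat_lit 132) (nat_lit 234) (nat_lit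 234)) (PT.lf (nat_lit 1064) (nat_lit 6) (nat_lit 14) (nat_lit 4) (nat_lit 133) (nat_lit 234) (nat_lit 233)))) (PT.nd (nat_lit 7722) (PT.nd (nat_lit 7644) (PT.lf (nat_lit 1140) (nat_lit 6) (nat_lit 15) (nat_lit 4) (nat_lit 134) (nat_lit 234) (nat_lit 232)) (PT.lf (nat_lit 1140) (nat_lit 6) (nat_lit 15) (nat_lit 2) (nat_lit 232) (nat_lit 234) (nat_lit 134))) (PT.nd (nat_lit 78) (PT.lf (nat_lit 1064) (nat_lit 6) (nat_lit 14) (nat_lit 2) (nat_lit 233) (nat_lit 234) (nat_lit 133)) (PT.nd (nat_lit 78) (PT.lf (nat_lit 988) (nat_lit 3) (nat_lit 13) (nat_lit 0) (nat_lit 234) (nat_lit 234) (nat_lit 132)) (PT.lf (nat_lit 836) (nat_lit 6) (nat_lit 11) (nat_lit 0) (nat_lit 235) (nat_lit 234) (nat_lit 131))))))))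
noncomputable def pc31 : PT := (PT.nd (nat_lit 124878) (PT.nd (nat_lit 62400) (PT.nd (nat_lit 54288) (PT.nd (nat_lit 54132) (PT.nd (nat_lit 54054) (PT.lf (nat_lit 684) (nat_lit 6) (nat_lit 9) (nat_lit 0) (nat_lit 236) (nat_lit 234) (nat_lit 130)) (PT.lf (nat_lit 456) (nat_lit 6) (nat_lit 6) (nat_lit 5) (nat_lit 128) (nat_lit 235) (nat_lit 237))) (PT.nd (nat_lit 78) (PT.lf (nat_lit 608) (nat_lit 6) (nat_lit 8) (nat_lit 5) (nat_lit 129) (nat_lit 235) (nat_lit 236)) (PT.lf (nat_lit 760) (nat_lit 3) (nat_lit 10) (nat_lit 4) (nat_lit 130) (nat_lit 235) (nat_lit 235)))) (PT.nd (nat_lit 7956) (PT.nd (nat_lit 78) (PT.lf (nat_lit 836) (nat_lit 6) (nat_lit 11) (nat_lit 4) (nat_lit 131) (nat_lit 235) (nat_lit 234)) (PT.lf (nat_lit 912) (nat_lit 6) (nat_lit 12) (nat_lit 4) (nat_lit 132) (nat_lit 235) (nat_lit 233))) (PT.nd (nat_lit 78) (PT.lf (nat_lit 912) (nat_lit 6) (nat_lit 12) (nat_lit 2) (nat_lit 233)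 (nat_lit 235) (nat_lit 132)) (PT.lf (nat_lit 836) (nat_lit 6) (nat_lit 11) (nat_lit 2) (nat_lit 234) (nat_lit 235) (nat_lit 131))))) (PT.nd (nat_lit 54054) (PT.nd (nat_lit 156) (PT.nd (nat_lit 78) (PT.lf (nat_lit 760) (nat_lit 3) (nat_lit 10) (nat_lit 0) (nat_lit 235) (nat_lit 235) (nat_lit 130)) (PT.lf (nat_lit 608) (nat_lit 6) (nat_lit 8) (nat_lit 0) (nat_lit 236) (nat_lit 235) (nat_lit 129))) (PT.nd (nat_lit 53820) (PT.lf (nat_lit 456) (nat_lit 6) (nat_lit 6) (nat_lit 0) (nat_lit 237) (nat_lit 235) (nat_lit 128)) (PT.lf (nat_lit 228) (nat_lit 6) (nat_lit 3) (nat_lit 5) (nat_lit 126) (nat_lit 236) (nat_lit 238)))) (PT.nd (nat_lit 156) (PT.nd (nat_lit 78) (PT.lf (nat_lit 380) (nat_lit 6) (nat_lit 5) (nat_lit 5) (nat_lit 127) (nat_lit 236) (nat_lit 237)) (PT.lf (nat_lit 532) (nat_lit 3) (nat_lit 7) (nat_lit 4) (nat_lit 128) (nat_lit 236) (nat_lit 236))) (PT.nd (nat_lit 78) (PT.lf (nat_lit 608)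 (nat_lit 6) (nat_lit 8) (nat_lit 4) (nat_lit 129) (nat_lit 236) (nat_lit 235)) (PT.nd (nat_lit 8112) (PT.lf (nat_lit 684) (nat_lit 6) (nat_lit 9) (nat_lit 4) (nat_lit 130) (nat_lit 236) (nat_lit 234)) (PT.lf (nat_lit 684) (nat_lit 6) (nat_lit 9) (nat_lit 2) (nat_lit 234) (nat_lit 236) (nat_lit 130))))))) (PT.nd (nat_lit 62556) (PT.nd (nat_lit 53898) (PT.nd (nat_lit 156) (PT.nd (nat_lit 78) (PT.lf (nat_lit 608) (nat_lit 6) (nat_lit 8) (nat_lit 2) (nat_lit 235) (nat_lit 236) (nat_lit 129)) (PT.lf (nat_lit 532) (nat_lit 3) (nat_lit 7) (nat_lit 0) (nat_lit 236) (nat_lit 236) (nat_lit 128))) (PT.nd (nat_lit 78) (PT.lf (nat_lit 380) (nat_lit 6) (nat_lit 5) (nat_lit 0) (nat_lit 237) (nat_lit 236) (nat_lit 127)) (PT.lf (nat_lit 228) (nat_lit 6) (nat_lit 3) (nat_lit 0) (nat_lit 238) (nat_lit 236) (nat_lit 126)))) (PT.nd (nat_lit 156) (PT.nd (nat_lit 78) (PT.lf (nat_lit 152) (nat_lit 6) (nat_lit 2) (nat_lit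 5) (nat_lit 125) (nat_lit 237) (nat_lit 238)) (PT.lf (nat_lit 304) (nat_lit 3) (nat_lit 4) (nat_lit 4) (nat_lit 126) (nat_lit 237) (nat_lit 237))) (PT.nd (nat_lit 78) (PT.lf (nat_lit 380) (nat_lit 6) (nat_lit 5) (nat_lit 4) (nat_lit 127) (nat_lit 237) (nat_lit 236)) (PT.nd (nat_lit 8346) (PT.lf (nat_lit 456) (nat_lit 6) (nat_lit 6) (nat_lit 4) (nat_lit 128) (nat_lit 237) (nat_lit 235)) (PT.lf (nat_lit 456) (nat_lit 6) (nat_lit 6) (nat_lit 2) (nat_lit 235) (nat_lit 237) (nat_lit 128)))))) (PT.nd (nat_lit 53820) (PT.nd (nat_lit 156) (PT.nd (nat_lit 78) (PT.lf (nat_lit 380) (nat_lit 6) (nat_lit 5) (nat_lit 2) (nat_lit 236) (nat_lit 237) (nat_lit 127)) (PT.lf (nat_lit 304) (nat_lit 3) (nat_lit 4) (nat_lit 0) (nat_lit 237) (nat_lit 237) (nat_lit 126))) (PT.nd (nat_lit 53586) (PT.lf (nat_lit 152) (nat_lit 6) (nat_lit 2) (nat_lit 0) (nat_lit 238) (nat_lit 237) (nat_lit 125)) (PT.lf (nat_lit 76) (nat_lit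 3) (nat_lit 1) (nat_lit 4) (nat_lit 124) (nat_lit 238) (nat_lit 238)))) (PT.nd (nat_lit 8658) (PT.nd (nat_lit 78) (PT.lf (nat_lit 152) (nat_lit 6) (nat_lit 2) (nat_lit 4) (nat_lit 125) (nat_lit 238) (nat_lit 237)) (PT.lf (nat_lit 228) (nat_lit 6) (nat_lit 3) (nat_lit 4) (nat_lit 126) (nat_lit 238) (nat_lit 236))) (PT.nd (nat_lit 78) (PT.lf (nat_lit 228) (nat_lit 6) (nat_lit 3) (nat_lit 2) (nat_lit 236) (nat_lit 238) (nat_lit 126)) (PT.nd (nat_lit 78) (PT.lf (nat_lit 152) (nat_lit 6) (nat_lit 2) (nat_lit 2) (nat_lit 237) (nat_lit 238) (nat_lit 125)) (PT.lf (nat_lit 76) (nat_lit 3) (nat_lit 1) (nat_lit 0) (nat_lit 238) (nat_lit 238) (nat_lit 124))))))))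
noncomputable def xc0 : XT := (XT.nd (nat_lit 311688) (nat_lit 0) (nat_lit 0) (XT.nd (nat_lit 187200) (nat_lit 0) (nat_lit 0) (XT.nd (nat_lit 124722) (nat_lit 0) (nat_lit 0) (XT.nd (nat_lit 62400) (nat_lit 0) (nat_lit 0) (XT.nd (nat_lit 78) (nat_lit 0) (nat_lit 0) (XT.lf (nat_lit 0) (nat_lit 135072858641) (nat_lit 76) (nat_lit 145176284453) (nat_lit 76) (nat_lit 145176284453) (nat_lit 1) (nat_lit 4) (nat_lit 2) (nat_lit 5) (nat_lit 2) (nat_lit 4) (nat_lit 552) (nat_lit 324) (nat_lit 324)) (XT.nd (nat_lit 62244) (nat_lit 0) (nat_lit 0) (XT.lf (nat_lit 0) (nat_lit 289916467668) (nat_lit 76) (nat_lit 301667761618) (nat_lit 76) (nat_lit 301655463819) (nat_lit 1) (nat_lit 4) (nat_lit 2) (nat_lit 5) (nat_lit 2) (nat_lit 4) (nat_lit 553) (nat_lit 324) (nat_lit 323)) (XT.lf (nat_lit 0) (nat_lit 116448836599) (nat_lit 76) (nat_lit 134786715825) (nat_lit 76) (nat_lit 134786715825) (nat_lit 1) (nat_lit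 4) (nat_lit 2) (nat_lit 5) (nat_lit 2) (nat_lit 4) (nat_lit 550) (nat_lit 325) (nat_lit 325)))) (XT.nd (nat_lit 156) (nat_lit 0) (nat_lit 0) (XT.nd (nat_lit 78) (nat_lit 0) (nat_lit 0) (XT.lf (nat_lit 0) (nat_lit 251119194606) (nat_lit 76) (nat_lit 279689545714) (nat_lit 76) (nat_lit 279676633024) (nat_lit 1) (nat_lit 4) (nat_lit 2) (nat_lit 5) (nat_lit 2) (nat_lit 4) (nat_lit 551) (nat_lit 325) (nat_lit 324)) (XT.lf (nat_lit 0) (nat_lit 270044693661) (nat_lit 76) (nat_lit 290416925516) (nat_lit 76) (nat_lit 290391715027) (nat_lit 1) (nat_lit 4) (nat_lit 2) (nat_lit 5) (nat_lit 2) (nat_lit 4) (nat_lit 552) (nat_lit 325) (nat_lit 323))) (XT.nd (nat_lit 62088) (nat_lit 0) (nat_lit 0) (XT.lf (nat_lit 0) (nat_lit 289719231074) (nat_lit 76) (nat_lit 301781112438) (nat_lit 76) (nat_lit 301744189758) (nat_lit 1) (nat_lit 4) (nat_lit 2) (nat_lit 5) (nat_lit 2) (nat_lit 4) (nat_lit 553) (nat_lit 325)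 (nat_lit 322)) (XT.lf (nat_lit 0) (nat_lit 99252988204) (nat_lit 76) (nat_lit 125518448124) (nat_lit 76) (nat_lit 125518448124) (nat_lit 1) (nat_lit 4) (nat_lit 2) (nat_lit 5) (nat_lit 2) (nat_lit 4) (nat_lit 548) (nat_lit 326) (nat_lit 326))))) (XT.nd (nat_lit 312) (nat_lit 0) (nat_lit 0) (XT.nd (nat_lit 156) (nat_lit 0) (nat_lit 0) (XT.nd (nat_lit 78) (nat_lit 0) (nat_lit 0) (XT.lf (nat_lit 0) (nat_lit 215336744863) (nat_lit 76) (nat_lit 260058055666) (nat_lit 76) (nat_lit 260044497342) (nat_lit 1) (nat_lit 4) (nat_lit 2) (nat_lit 5) (nat_lit 2) (nat_lit 4) (nat_lit 549) (nat_lit 326) (nat_lit 325)) (XT.lf (nat_lit 0) (nat_lit 232791598396) (nat_lit 76) (nat_lit 269641006091) (nat_lit 76) (nat_lit 269614535078) (nat_lit 1) (nat_lit 4) (nat_lit 2) (nat_lit 5) (nat_lit 2) (nat_lit 4) (nat_lit 550) (nat_lit 326) (nat_lit 324))) (XT.nd (nat_lit 78) (nat_lit 0) (nat_lit 0) (XT.lf (nat_lit 0) (nat_lit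 250912096183) (nat_lit 76) (nat_lit 279808564074) (nat_lit 76) (nat_lit 279769795261) (nat_lit 1) (nat_lit 4) (nat_lit 2) (nat_lit 5) (nat_lit 2) (nat_lit 4) (nat_lit 551) (nat_lit 326) (nat_lit 323)) (XT.lf (nat_lit 0) (nat_lit 269741382264) (nat_lit 76) (nat_lit 290584938086) (nat_lit 76) (nat_lit 290534457082) (nat_lit 1) (nat_lit 4) (nat_lit 2) (nat_lit 5) (nat_lit 2) (nat_lit 4) (nat_lit 552) (nat_lit 326) (nat_lit 322)))) (XT.nd (nat_lit 62010) (nat_lit 0) (nat_lit 0) (XT.nd (nat_lit 61932) (nat_lit 0) (nat_lit 0) (XT.lf (nat_lit 0) (nat_lit 289324288275) (nat_lit 76) (nat_lit 301995786160) (nat_lit 76) (nat_lit 301934150689) (nat_lit 1) (nat_lit 4) (nat_lit 2) (nat_lit 5) (nat_lit 2) (nat_lit 4) (nat_lit 553) (nat_lit 326) (nat_lit 321)) (XT.lf (nat_lit 0) (nat_lit 83337369836) (nat_lit 76) (nat_lit 117275002284) (nat_lit 76) (nat_lit 117275002284) (nat_lit 1) (nat_lit 4) (nat_lit 2) (nat_lit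 5) (nat_lit 2) (nat_lit 4) (nat_lit 546) (nat_lit 327) (nat_lit 327))) (XT.nd (nat_lit 78) (nat_lit 0) (nat_lit 0) (XT.lf (nat_lit 0) (nat_lit 182259219772) (nat_lit 76) (nat_lit 242570285131) (nat_lit 76) (nat_lit 242556048891) (nat_lit 1) (nat_lit 4) (nat_lit 2) (nat_lit 5) (nat_lit 2) (nat_lit 4) (nat_lit 547) (nat_lit 327) (nat_lit 326)) (XT.lf (nat_lit 0) (nat_lit 198394597865) (nat_lit 76) (nat_lit 251107849412) (nat_lit 76) (nat_lit 251080054847) (nat_lit 1) (nat_lit 4) (nat_lit 2) (nat_lit 5) (nat_lit 2) (nat_lit 4) (nat_lit 548) (nat_lit 327) (nat_lit 325)))))) (XT.nd (nat_lit 62322) (nat_lit 0) (nat_lit 0) (XT.nd (nat_lit 312) (nat_lit 0) (nat_lit 0) (XT.nd (nat_lit 156) (nat_lit 0) (nat_lit 0) (XT.nd (nat_lit 78) (nat_lit 0) (nat_lit 0) (XT.lf (nat_lit 0) (nat_lit 215119291518) (nat_lit 76) (nat_lit 260183024944) (nat_lit 76) (nat_lit 260142317690) (nat_lit 1) (nat_lit 4) (nat_lit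 2) (nat_lit 5) (nat_lit 2) (nat_lit 4) (nat_lit 549) (nat_lit 327) (nat_lit 324)) (XT.lf (nat_lit 0) (nat_lit 232473121430) (nat_lit 76) (nat_lit 269817419290) (nat_lit 76) (nat_lit 269764414236) (nat_lit 1) (nat_lit 4) (nat_lit 2) (nat_lit 5) (nat_lit 2) (nat_lit 4) (nat_lit 550) (nat_lit 327) (nat_lit 323))) (XT.nd (nat_lit 78) (nat_lit 0) (nat_lit 0) (XT.lf (nat_lit 0) (nat_lit 250497406244) (nat_lit 76) (nat_lit 280033971482) (nat_lit 76) (nat_lit 279969254238) (nat_lit 1) (nat_lit 4) (nat_lit 2) (nat_lit 5) (nat_lit 2) (nat_lit 4) (nat_lit 551) (nat_lit 327) (nat_lit 322)) (XT.lf (nat_lit 0) (nat_lit 269235060923) (nat_lit 76) (nat_lit 290857006646) (nat_lit 76) (nat_lit 290781134935) (nat_lit 1) (nat_lit 4) (nat_lit 2) (nat_lit 5) (nat_lit 2) (nat_lit 4) (nat_lit 552) (nat_lit 327) (nat_lit 321)))) (XT.nd (nat_lit 61854) (nat_lit 0) (nat_lit 0) (XT.nd (nat_lit 61776) (nat_lit 0) (nat_lit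 0) (XT.lf (nat_lit 0) (nat_lit 288730698931) (nat_lit 76) (nat_lit 302312293912) (nat_lit 76) (nat_lit 302225798899) (nat_lit 1) (nat_lit 4) (nat_lit 2) (nat_lit 5) (nat_lit 2) (nat_lit 4) (nat_lit 553) (nat_lit 327) (nat_lit 320)) (XT.lf (nat_lit 0) (nat_lit 68567033993) (nat_lit 76) (nat_lit 109969257390) (nat_lit 76) (nat_lit 109969257390) (nat_lit 1) (nat_lit 4) (nat_lit 2) (nat_lit 5) (nat_lit 2) (nat_lit 4) (nat_lit 544) (nat_lit 328) (nat_lit 328))) (XT.nd (nat_lit 78) (nat_lit 0) (nat_lit 0) (XT.lf (nat_lit 0) (nat_lit 151604051659) (nat_lit 76) (nat_lit 227042859870) (nat_lit 76) (nat_lit 227027911817) (nat_lit 1) (nat_lit 4) (nat_lit 2) (nat_lit 5) (nat_lit 2) (nat_lit 4) (nat_lit 545) (nat_lit 328) (nat_lit 327)) (XT.lf (nat_lit 0) (nat_lit 166557792202) (nat_lit 76) (nat_lit 234624505388) (nat_lit 76) (nat_lit 234595321096) (nat_lit 1) (nat_lit 4) (nat_lit 2) (nat_lit 5) (nat_lit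 2) (nat_lit 4) (nat_lit 546) (nat_lit 328) (nat_lit 326))))) (XT.nd (nat_lit 312) (nat_lit 0) (nat_lit 0) (XT.nd (nat_lit 156) (nat_lit 0) (nat_lit 0) (XT.nd (nat_lit 78) (nat_lit 0) (nat_lit 0) (XT.lf (nat_lit 0) (nat_lit 182030893760) (nat_lit 76) (nat_lit 242701502873) (nat_lit 76) (nat_lit 242658760256) (nat_lit 1) (nat_lit 4) (nat_lit 2) (nat_lit 5) (nat_lit 2) (nat_lit 4) (nat_lit 547) (nat_lit 328) (nat_lit 325)) (XT.lf (nat_lit 0) (nat_lit 198060197051) (nat_lit 76) (nat_lit 251293083270) (nat_lit 76) (nat_lit 251237427963) (nat_lit 1) (nat_lit 4) (nat_lit 2) (nat_lit 5) (nat_lit 2) (nat_lit 4) (nat_lit 548) (nat_lit 328) (nat_lit 324))) (XT.nd (nat_lit 78) (nat_lit 0) (nat_lit 0) (XT.lf (nat_lit 0) (nat_lit 214683867082) (nat_lit 76) (nat_lit 260419702723) (nat_lit 76) (nat_lit 260351749616) (nat_lit 1) (nat_lit 4) (nat_lit 2) (nat_lit 5) (nat_lit 2) (nat_lit 4) (nat_lit 549) (nat_lit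 328) (nat_lit 323)) (XT.lf (nat_lit 0) (nat_lit 231941484022) (nat_lit 76) (nat_lit 270103091278) (nat_lit 76) (nat_lit 270023425981) (nat_lit 1) (nat_lit 4) (nat_lit 2) (nat_lit 5) (nat_lit 2) (nat_lit 4) (nat_lit 550) (nat_lit 328) (nat_lit 322)))) (XT.nd (nat_lit 156) (nat_lit 0) (nat_lit 0) (XT.nd (nat_lit 78) (nat_lit 0) (nat_lit 0) (XT.lf (nat_lit 0) (nat_lit 249874137433) (nat_lit 76) (nat_lit 280366304622) (nat_lit 76) (nat_lit 280275484859) (nat_lit 1) (nat_lit 4) (nat_lit 2) (nat_lit 5) (nat_lit 2) (nat_lit 4) (nat_lit 551) (nat_lit 328) (nat_lit 321)) (XT.lf (nat_lit 0) (nat_lit 268524524109) (nat_lit 76) (nat_lit 291233778978) (nat_lit 76) (nat_lit 291132335913) (nat_lit 1) (nat_lit 4) (nat_lit 2) (nat_lit 5) (nat_lit 2) (nat_lit 4) (nat_lit 552) (nat_lit 328) (nat_lit 320))) (XT.nd (nat_lit 61620) (nat_lit 0) (nat_lit 0) (XT.lf (nat_lit 0) (nat_lit 287937049734) (nat_lit 76) (nat_lit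 302731389284) (nat_lit 76) (nat_lit 302619828789) (nat_lit 1) (nat_lit 4) (nat_lit 2) (nat_lit 5) (nat_lit 2) (nat_lit 4) (nat_lit 553) (nat_lit 328) (nat_lit 319)) (XT.lf (nat_lit 0) (nat_lit 54818783123) (nat_lit 76) (nat_lit 103522600070) (nat_lit 76) (nat_lit 103522600070) (nat_lit 1) (nat_lit 4) (nat_lit 2) (nat_lit 5) (nat_lit 2) (nat_lit 4) (nat_lit 542) (nat_lit 329) (nat_lit 329))))))) (XT.nd (nat_lit 62556) (nat_lit 0) (nat_lit 0) (XT.nd (nat_lit 546) (nat_lit 0) (nat_lit 0) (XT.nd (nat_lit 234) (nat_lit 0) (nat_lit 0) (XT.nd (nat_lit 78) (nat_lit 0) (nat_lit 0) (XT.lf (nat_lit 0) (nat_lit 123113388844) (nat_lit 76) (nat_lit 213310250466) (nat_lit 76) (nat_lit 213294555011) (nat_lit 1) (nat_lit 4) (nat_lit 2) (nat_lit 5) (nat_lit 2) (nat_lit 4) (nat_lit 543) (nat_lit 329) (nat_lit 328)) (XT.nd (nat_lit 78) (nat_lit 0) (nat_lit 0) (XT.lf (nat_lit 0) (nat_lit 137011273144) (nat_lit 76)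 (nat_lit 220016740641) (nat_lit 76) (nat_lit 219986097133) (nat_lit 1) (nat_lit 4) (nat_lit 2) (nat_lit 5) (nat_lit 2) (nat_lit 4) (nat_lit 544) (nat_lit 329) (nat_lit 327)) (XT.lf (nat_lit 0) (nat_lit 151364309346) (nat_lit 76) (nat_lit 227180638499) (nat_lit 76) (nat_lit 227135758751) (nat_lit 1) (nat_lit 4) (nat_lit 2) (nat_lit 5) (nat_lit 2) (nat_lit 4) (nat_lit 545) (nat_lit 329) (nat_lit 326)))) (XT.nd (nat_lit 156) (nat_lit 0) (nat_lit 0) (XT.nd (nat_lit 78) (nat_lit 0) (nat_lit 0) (XT.lf (nat_lit 0) (nat_lit 166206671347) (nat_lit 76) (nat_lit 234819000940) (nat_lit 76) (nat_lit 234760562868) (nat_lit 1) (nat_lit 4) (nat_lit 2) (nat_lit 5) (nat_lit 2) (nat_lit 4) (nat_lit 546) (nat_lit 329) (nat_lit 325)) (XT.lf (nat_lit 0) (nat_lit 181573698102) (nat_lit 76) (nat_lit 242950014540) (nat_lit 76) (nat_lit 242878663779) (nat_lit 1) (nat_lit 4) (nat_lit 2) (nat_lit 5) (nat_lit 2) (nat_lit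 4) (nat_lit 547) (nat_lit 329) (nat_lit 324))) (XT.nd (nat_lit 78) (nat_lit 0) (nat_lit 0) (XT.lf (nat_lit 0) (nat_lit 197501977772) (nat_lit 76) (nat_lit 251593038857) (nat_lit 76) (nat_lit 251509390296) (nat_lit 1) (nat_lit 4) (nat_lit 2) (nat_lit 5) (nat_lit 2) (nat_lit 4) (nat_lit 548) (nat_lit 329) (nat_lit 323)) (XT.lf (nat_lit 0) (nat_lit 214029434831) (nat_lit 76) (nat_lit 260768652520) (nat_lit 76) (nat_lit 260673291768) (nat_lit 1) (nat_lit 4) (nat_lit 2) (nat_lit 5) (nat_lit 2) (nat_lit 4) (nat_lit 549) (nat_lit 329) (nat_lit 322))))) (XT.nd (nat_lit 61698) (nat_lit 0) (nat_lit 0) (XT.nd (nat_lit 156) (nat_lit 0) (nat_lit 0) (XT.nd (nat_lit 78) (nat_lit 0) (nat_lit 0) (XT.lf (nat_lit 0) (nat_lit 231195420368) (nat_lit 76) (nat_lit 270498702227) (nat_lit 76) (nat_lit 270392187008) (nat_lit 1) (nat_lit 4) (nat_lit 2) (nat_lit 5) (nat_lit 2) (nat_lit 4) (nat_lit 550) (nat_lit 329) (nat_lit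 321)) (XT.lf (nat_lit 0) (nat_lit 249040805776) (nat_lit 76) (nat_lit 280806354763) (nat_lit 76) (nat_lit 280689216243) (nat_lit 1) (nat_lit 4) (nat_lit 2) (nat_lit 5) (nat_lit 2) (nat_lit 4) (nat_lit 551) (nat_lit 329) (nat_lit 320))) (XT.nd (nat_lit 78) (nat_lit 0) (nat_lit 0) (XT.lf (nat_lit 0) (nat_lit 267608080069) (nat_lit 76) (nat_lit 291716152160) (nat_lit 76) (nat_lit 291588896209) (nat_lit 1) (nat_lit 4) (nat_lit 2) (nat_lit 5) (nat_lit 2) (nat_lit 4) (nat_lit 552) (nat_lit 329) (nat_lit 319)) (XT.lf (nat_lit 0) (nat_lit 286941451043) (nat_lit 76) (nat_lit 303254070123) (nat_lit 76) (nat_lit 303117178525) (nat_lit 1) (nat_lit 4) (nat_lit 2) (nat_lit 5) (nat_lit 2) (nat_lit 4) (nat_lit 553) (nat_lit 329) (nat_lit 318)))) (XT.nd (nat_lit 156) (nat_lit 0) (nat_lit 0) (XT.nd (nat_lit 78) (nat_lit 0) (nat_lit 0) (XT.lf (nat_lit 0) (nat_lit 41980037407) (nat_lit 76) (nat_lit 97864153938)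 (nat_lit 76) (nat_lit 97864153938) (nat_lit 1) (nat_lit 4) (nat_lit 2) (nat_lit 5) (nat_lit 2) (nat_lit 4) (nat_lit 540) (nat_lit 330) (nat_lit 330)) (XT.lf (nat_lit 0) (nat_lit 96551720057) (nat_lit 76) (nat_lit 201223153105) (nat_lit 76) (nat_lit 201206672877) (nat_lit 1) (nat_lit 4) (nat_lit 2) (nat_lit 5) (nat_lit 2) (nat_lit 4) (nat_lit 541) (nat_lit 330) (nat_lit 329))) (XT.nd (nat_lit 78) (nat_lit 0) (nat_lit 0) (XT.lf (nat_lit 0) (nat_lit 109508631660) (nat_lit 76) (nat_lit 207127337295) (nat_lit 76) (nat_lit 207095161612) (nat_lit 1) (nat_lit 4) (nat_lit 2) (nat_lit 5) (nat_lit 2) (nat_lit 4) (nat_lit 542) (nat_lit 330) (nat_lit 328)) (XT.lf (nat_lit 0) (nat_lit 122861659416) (nat_lit 76) (nat_lit 213454918027) (nat_lit 76) (nat_lit 213407794292) (nat_lit 1) (nat_lit 4) (nat_lit 2) (nat_lit 5) (nat_lit 2) (nat_lit 4) (nat_lit 543) (nat_lit 330) (nat_lit 327)))))) (XT.nd (nat_lit 624)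 (nat_lit 0) (nat_lit 0) (XT.nd (nat_lit 312) (nat_lit 0) (nat_lit 0) (XT.nd (nat_lit 156) (nat_lit 0) (nat_lit 0) (XT.nd (nat_lit 78) (nat_lit 0) (nat_lit 0) (XT.lf (nat_lit 0) (nat_lit 136642596246) (nat_lit 76) (nat_lit 220220960970) (nat_lit 76) (nat_lit 220159600994) (nat_lit 1) (nat_lit 4) (nat_lit 2) (nat_lit 5) (nat_lit 2) (nat_lit 4) (nat_lit 544) (nat_lit 330) (nat_lit 326)) (XT.lf (nat_lit 0) (nat_lit 150884253906) (nat_lit 76) (nat_lit 227441575750) (nat_lit 76) (nat_lit 227366657450) (nat_lit 1) (nat_lit 4) (nat_lit 2) (nat_lit 5) (nat_lit 2) (nat_lit 4) (nat_lit 545) (nat_lit 330) (nat_lit 325))) (XT.nd (nat_lit 78) (nat_lit 0) (nat_lit 0) (XT.lf (nat_lit 0) (nat_lit 165620541104) (nat_lit 76) (nat_lit 235133954306) (nat_lit 76) (nat_lit 235046123317) (nat_lit 1) (nat_lit 4) (nat_lit 2) (nat_lit 5) (nat_lit 2) (nat_lit 4) (nat_lit 546) (nat_lit 330) (nat_lit 324)) (XT.lf (nat_lit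 0) (nat_lit 180886544238) (nat_lit 76) (nat_lit 243316411827) (nat_lit 76) (nat_lit 243216283038) (nat_lit 1) (nat_lit 4) (nat_lit 2) (nat_lit 5) (nat_lit 2) (nat_lit 4) (nat_lit 547) (nat_lit 330) (nat_lit 323)))) (XT.nd (nat_lit 156) (nat_lit 0) (nat_lit 0) (XT.nd (nat_lit 78) (nat_lit 0) (nat_lit 0) (XT.lf (nat_lit 0) (nat_lit 196718610935) (nat_lit 76) (nat_lit 252008430354) (nat_lit 76) (nat_lit 251896589374) (nat_lit 1) (nat_lit 4) (nat_lit 2) (nat_lit 5) (nat_lit 2) (nat_lit 4) (nat_lit 548) (nat_lit 330) (nat_lit 322)) (XT.lf (nat_lit 0) (nat_lit 213154436591) (nat_lit 76) (nat_lit 261230705168) (nat_lit 76) (nat_lit 261107709722) (nat_lit 1) (nat_lit 4) (nat_lit 2) (nat_lit 5) (nat_lit 2) (nat_lit 4) (nat_lit 549) (nat_lit 330) (nat_lit 321))) (XT.nd (nat_lit 78) (nat_lit 0) (nat_lit 0) (XT.lf (nat_lit 0) (nat_lit 230233154126) (nat_lit 76) (nat_lit 271005194067) (nat_lit 76) (nat_lit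 270871575319) (nat_lit 1) (nat_lit 4) (nat_lit 2) (nat_lit 5) (nat_lit 2) (nat_lit 4) (nat_lit 550) (nat_lit 330) (nat_lit 320)) (XT.lf (nat_lit 0) (nat_lit 247995427151) (nat_lit 76) (nat_lit 281355169644) (nat_lit 76) (nat_lit 281211433466) (nat_lit 1) (nat_lit 4) (nat_lit 2) (nat_lit 5) (nat_lit 2) (nat_lit 4) (nat_lit 551) (nat_lit 330) (nat_lit 319))))) (XT.nd (nat_lit 61542) (nat_lit 0) (nat_lit 0) (XT.nd (nat_lit 61386) (nat_lit 0) (nat_lit 0) (XT.nd (nat_lit 78) (nat_lit 0) (nat_lit 0) (XT.lf (nat_lit 0) (nat_lit 266483546794) (nat_lit 76) (nat_lit 292305274698) (nat_lit 76) (nat_lit 292151902872) (nat_lit 1) (nat_lit 4) (nat_lit 2) (nat_lit 5) (nat_lit 2) (nat_lit 4) (nat_lit 552) (nat_lit 330) (nat_lit 318)) (XT.lf (nat_lit 0) (nat_lit 285741532386) (nat_lit 76) (nat_lit 303881580907) (nat_lit 76) (nat_lit 303719032274) (nat_lit 1) (nat_lit 4) (nat_lit 2) (nat_lit 5) (nat_lit 2) (nat_lit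 4) (nat_lit 553) (nat_lit 330) (nat_lit 317))) (XT.nd (nat_lit 78) (nat_lit 0) (nat_lit 0) (XT.lf (nat_lit 0) (nat_lit 29947805835) (nat_lit 76) (nat_lit 92930081694) (nat_lit 76) (nat_lit 92930081694) (nat_lit 1) (nat_lit 4) (nat_lit 2) (nat_lit 5) (nat_lit 2) (nat_lit 4) (nat_lit 538) (nat_lit 331) (nat_lit 331)) (XT.lf (nat_lit 0) (nat_lit 71703715829) (nat_lit 76) (nat_lit 190647022884) (nat_lit 76) (nat_lit 190629718645) (nat_lit 1) (nat_lit 4) (nat_lit 2) (nat_lit 5) (nat_lit 2) (nat_lit 4) (nat_lit 539) (nat_lit 331) (nat_lit 330)))) (XT.nd (nat_lit 156) (nat_lit 0) (nat_lit 0) (XT.nd (nat_lit 78) (nat_lit 0) (nat_lit 0) (XT.lf (nat_lit 0) (nat_lit 83824693501) (nat_lit 76) (nat_lit 195814551889) (nat_lit 76) (nat_lit 195780767422) (nat_lit 1) (nat_lit 4) (nat_lit 2) (nat_lit 5) (nat_lit 2) (nat_lit 4) (nat_lit 540) (nat_lit 331) (nat_lit 329)) (XT.lf (nat_lit 0) (nat_lit 96287404157)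 (nat_lit 76) (nat_lit 201375054044) (nat_lit 76) (nat_lit 201325574122) (nat_lit 1) (nat_lit 4) (nat_lit 2) (nat_lit 5) (nat_lit 2) (nat_lit 4) (nat_lit 541) (nat_lit 331) (nat_lit 328))) (XT.nd (nat_lit 78) (nat_lit 0) (nat_lit 0) (XT.lf (nat_lit 0) (nat_lit 109121520917) (nat_lit 76) (nat_lit 207341768640) (nat_lit 76) (nat_lit 207277340666) (nat_lit 1) (nat_lit 4) (nat_lit 2) (nat_lit 5) (nat_lit 2) (nat_lit 4) (nat_lit 542) (nat_lit 331) (nat_lit 327)) (XT.lf (nat_lit 0) (nat_lit 122357601203) (nat_lit 76) (nat_lit 213728902140) (nat_lit 76) (nat_lit 213650237925) (nat_lit 1) (nat_lit 4) (nat_lit 2) (nat_lit 5) (nat_lit 2) (nat_lit 4) (nat_lit 543) (nat_lit 331) (nat_lit 326))))))))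
noncomputable def xc1 : XT := (XT.nd (nat_lit 124410) (nat_lit 0) (nat_lit 0) (XT.nd (nat_lit 62244) (nat_lit 0) (nat_lit 0) (XT.nd (nat_lit 546) (nat_lit 0) (nat_lit 0) (XT.nd (nat_lit 234) (nat_lit 0) (nat_lit 0) (XT.nd (nat_lit 78) (nat_lit 0) (nat_lit 0) (XT.lf (nat_lit 0) (nat_lit 136027159491) (nat_lit 76) (nat_lit 220551662005) (nat_lit 76) (nat_lit 220459439466) (nat_lit 1) (nat_lit 4) (nat_lit 2) (nat_lit 5) (nat_lit 2) (nat_lit 4) (nat_lit 544) (nat_lit 331) (nat_lit 325)) (XT.nd (nat_lit 78) (nat_lit 0) (nat_lit 0) (XT.lf (nat_lit 0) (nat_lit 150162742349) (nat_lit 76) (nat_lit 227826292901) (nat_lit 76) (nat_lit 227721157672) (nat_lit 1) (nat_lit 4) (nat_lit 2) (nat_lit 5) (nat_lit 2) (nat_lit 4) (nat_lit 545) (nat_lit 331) (nat_lit 324)) (XT.lf (nat_lit 0) (nat_lit 164798005925) (nat_lit 76) (nat_lit 235570115377) (nat_lit 76) (nat_lit 235452682349) (nat_lit 1) (nat_lit 4) (nat_lit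 2) (nat_lit 5) (nat_lit 2) (nat_lit 4) (nat_lit 546) (nat_lit 331) (nat_lit 323)))) (XT.nd (nat_lit 156) (nat_lit 0) (nat_lit 0) (XT.nd (nat_lit 78) (nat_lit 0) (nat_lit 0) (XT.lf (nat_lit 0) (nat_lit 179967796087) (nat_lit 76) (nat_lit 243801567108) (nat_lit 76) (nat_lit 243672421889) (nat_lit 1) (nat_lit 4) (nat_lit 2) (nat_lit 5) (nat_lit 2) (nat_lit 4) (nat_lit 547) (nat_lit 331) (nat_lit 322)) (XT.lf (nat_lit 0) (nat_lit 195708231381) (nat_lit 76) (nat_lit 252540246786) (nat_lit 76) (nat_lit 252399947101) (nat_lit 1) (nat_lit 4) (nat_lit 2) (nat_lit 5) (nat_lit 2) (nat_lit 4) (nat_lit 548) (nat_lit 331) (nat_lit 321))) (XT.nd (nat_lit 78) (nat_lit 0) (nat_lit 0) (XT.lf (nat_lit 0) (nat_lit 212056789035) (nat_lit 76) (nat_lit 261806960793) (nat_lit 76) (nat_lit 261656037806) (nat_lit 1) (nat_lit 4) (nat_lit 2) (nat_lit 5) (nat_lit 2) (nat_lit 4) (nat_lit 549) (nat_lit 331) (nat_lit 320))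 (XT.lf (nat_lit 0) (nat_lit 229052394186) (nat_lit 76) (nat_lit 271623772733) (nat_lit 76) (nat_lit 271462732315) (nat_lit 1) (nat_lit 4) (nat_lit 2) (nat_lit 5) (nat_lit 2) (nat_lit 4) (nat_lit 550) (nat_lit 331) (nat_lit 319))))) (XT.nd (nat_lit 61386) (nat_lit 0) (nat_lit 0) (XT.nd (nat_lit 156) (nat_lit 0) (nat_lit 0) (XT.nd (nat_lit 78) (nat_lit 0) (nat_lit 0) (XT.lf (nat_lit 0) (nat_lit 246735512561) (nat_lit 76) (nat_lit 282014055967) (nat_lit 76) (nat_lit 281843379902) (nat_lit 1) (nat_lit 4) (nat_lit 2) (nat_lit 5) (nat_lit 2) (nat_lit 4) (nat_lit 551) (nat_lit 331) (nat_lit 318)) (XT.lf (nat_lit 0) (nat_lit 265148246822) (nat_lit 76) (nat_lit 293002549266) (nat_lit 76) (nat_lit 292822696393) (nat_lit 1) (nat_lit 4) (nat_lit 2) (nat_lit 5) (nat_lit 2) (nat_lit 4) (nat_lit 552) (nat_lit 331) (nat_lit 317))) (XT.nd (nat_lit 61152) (nat_lit 0) (nat_lit 0) (XT.lf (nat_lit 0) (nat_lit 284334436812)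 (nat_lit 76) (nat_lit 304615415709) (nat_lit 76) (nat_lit 304426823019) (nat_lit 1) (nat_lit 4) (nat_lit 2) (nat_lit 5) (nat_lit 2) (nat_lit 4) (nat_lit 553) (nat_lit 331) (nat_lit 316)) (XT.lf (nat_lit 0) (nat_lit 18627750826) (nat_lit 76) (nat_lit 88662953179) (nat_lit 76) (nat_lit 88662953179) (nat_lit 1) (nat_lit 4) (nat_lit 2) (nat_lit 5) (nat_lit 2) (nat_lit 4) (nat_lit 536) (nat_lit 332) (nat_lit 332)))) (XT.nd (nat_lit 156) (nat_lit 0) (nat_lit 0) (XT.nd (nat_lit 78) (nat_lit 0) (nat_lit 0) (XT.lf (nat_lit 0) (nat_lit 48372266490) (nat_lit 76) (nat_lit 181460745568) (nat_lit 76) (nat_lit 181442576117) (nat_lit 1) (nat_lit 4) (nat_lit 2) (nat_lit 5) (nat_lit 2) (nat_lit 4) (nat_lit 537) (nat_lit 332) (nat_lit 331)) (XT.lf (nat_lit 0) (nat_lit 59753461289) (nat_lit 76) (nat_lit 185950719601) (nat_lit 76) (nat_lit 185915245911) (nat_lit 1) (nat_lit 4) (nat_lit 2) (nat_lit 5) (nat_lit 2)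 (nat_lit 4) (nat_lit 538) (nat_lit 332) (nat_lit 330))) (XT.nd (nat_lit 78) (nat_lit 0) (nat_lit 0) (XT.lf (nat_lit 0) (nat_lit 71426184134) (nat_lit 76) (nat_lit 190806518870) (nat_lit 76) (nat_lit 190754564952) (nat_lit 1) (nat_lit 4) (nat_lit 2) (nat_lit 5) (nat_lit 2) (nat_lit 4) (nat_lit 539) (nat_lit 332) (nat_lit 329)) (XT.lf (nat_lit 0) (nat_lit 83418227221) (nat_lit 76) (nat_lit 196039704801) (nat_lit 76) (nat_lit 195972055428) (nat_lit 1) (nat_lit 4) (nat_lit 2) (nat_lit 5) (nat_lit 2) (nat_lit 4) (nat_lit 540) (nat_lit 332) (nat_lit 328)))))) (XT.nd (nat_lit 624) (nat_lit 0) (nat_lit 0) (XT.nd (nat_lit 312) (nat_lit 0) (nat_lit 0) (XT.nd (nat_lit 156) (nat_lit 0) (nat_lit 0) (XT.nd (nat_lit 78) (nat_lit 0) (nat_lit 0) (XT.lf (nat_lit 0) (nat_lit 95758143034) (nat_lit 76) (nat_lit 201662737363) (nat_lit 76) (nat_lit 201580139937) (nat_lit 1) (nat_lit 4) (nat_lit 2) (nat_lit 5) (nat_lit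 2) (nat_lit 4) (nat_lit 541) (nat_lit 332) (nat_lit 327)) (XT.lf (nat_lit 0) (nat_lit 108475312325) (nat_lit 76) (nat_lit 207689004727) (nat_lit 76) (nat_lit 207592171061) (nat_lit 1) (nat_lit 4) (nat_lit 2) (nat_lit 5) (nat_lit 2) (nat_lit 4) (nat_lit 542) (nat_lit 332) (nat_lit 326))) (XT.nd (nat_lit 78) (nat_lit 0) (nat_lit 0) (XT.lf (nat_lit 0) (nat_lit 121600014068) (nat_lit 76) (nat_lit 214132855148) (nat_lit 76) (nat_lit 214022463158) (nat_lit 1) (nat_lit 4) (nat_lit 2) (nat_lit 5) (nat_lit 2) (nat_lit 4) (nat_lit 543) (nat_lit 332) (nat_lit 325)) (XT.lf (nat_lit 0) (nat_lit 135163497553) (nat_lit 76) (nat_lit 221009631129) (nat_lit 76) (nat_lit 220886326450) (nat_lit 1) (nat_lit 4) (nat_lit 2) (nat_lit 5) (nat_lit 2) (nat_lit 4) (nat_lit 544) (nat_lit 332) (nat_lit 324)))) (XT.nd (nat_lit 156) (nat_lit 0) (nat_lit 0) (XT.nd (nat_lit 78) (nat_lit 0) (nat_lit 0) (XT.lf (nat_lit 0) (nat_lit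 149198056790) (nat_lit 76) (nat_lit 228335705945) (nat_lit 76) (nat_lit 228200103466) (nat_lit 1) (nat_lit 4) (nat_lit 2) (nat_lit 5) (nat_lit 2) (nat_lit 4) (nat_lit 545) (nat_lit 332) (nat_lit 323)) (XT.lf (nat_lit 0) (nat_lit 163737107394) (nat_lit 76) (nat_lit 236128522632) (nat_lit 76) (nat_lit 235981207962) (nat_lit 1) (nat_lit 4) (nat_lit 2) (nat_lit 5) (nat_lit 2) (nat_lit 4) (nat_lit 546) (nat_lit 332) (nat_lit 322))) (XT.nd (nat_lit 78) (nat_lit 0) (nat_lit 0) (XT.lf (nat_lit 0) (nat_lit 178815266152) (nat_lit 76) (nat_lit 244406635514) (nat_lit 76) (nat_lit 244248166378) (nat_lit 1) (nat_lit 4) (nat_lit 2) (nat_lit 5) (nat_lit 2) (nat_lit 4) (nat_lit 547) (nat_lit 332) (nat_lit 321)) (XT.lf (nat_lit 0) (nat_lit 194468433444) (nat_lit 76) (nat_lit 253189754385) (nat_lit 76) (nat_lit 253020661947) (nat_lit 1) (nat_lit 4) (nat_lit 2) (nat_lit 5) (nat_lit 2) (nat_lit 4) (nat_lit 548) (nat_lit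 332) (nat_lit 320))))) (XT.nd (nat_lit 312) (nat_lit 0) (nat_lit 0) (XT.nd (nat_lit 156) (nat_lit 0) (nat_lit 0) (XT.nd (nat_lit 78) (nat_lit 0) (nat_lit 0) (XT.lf (nat_lit 0) (nat_lit 210733878715) (nat_lit 76) (nat_lit 262498791432) (nat_lit 76) (nat_lit 262319581564) (nat_lit 1) (nat_lit 4) (nat_lit 2) (nat_lit 5) (nat_lit 2) (nat_lit 4) (nat_lit 549) (nat_lit 332) (nat_lit 319)) (XT.lf (nat_lit 0) (nat_lit 227650329215) (nat_lit 76) (nat_lit 272355911029) (nat_lit 76) (nat_lit 272167065513) (nat_lit 1) (nat_lit 4) (nat_lit 2) (nat_lit 5) (nat_lit 2) (nat_lit 4) (nat_lit 550) (nat_lit 332) (nat_lit 318))) (XT.nd (nat_lit 78) (nat_lit 0) (nat_lit 0) (XT.lf (nat_lit 0) (nat_lit 245258062208) (nat_lit 76) (nat_lit 282784582509) (nat_lit 76) (nat_lit 282586560185) (nat_lit 1) (nat_lit 4) (nat_lit 2) (nat_lit 5) (nat_lit 2) (nat_lit 4) (nat_lit 551) (nat_lit 332) (nat_lit 317)) (XT.lf (nat_lit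 0) (nat_lit 263599000868) (nat_lit 76) (nat_lit 293809636041) (nat_lit 76) (nat_lit 293602873901) (nat_lit 1) (nat_lit 4) (nat_lit 2) (nat_lit 5) (nat_lit 2) (nat_lit 4) (nat_lit 552) (nat_lit 332) (nat_lit 316)))) (XT.nd (nat_lit 61074) (nat_lit 0) (nat_lit 0) (XT.nd (nat_lit 60996) (nat_lit 0) (nat_lit 0) (XT.lf (nat_lit 0) (nat_lit 282716814095) (nat_lit 76) (nat_lit 305457321754) (nat_lit 76) (nat_lit 305242235979) (nat_lit 1) (nat_lit 4) (nat_lit 2) (nat_lit 5) (nat_lit 2) (nat_lit 4) (nat_lit 553) (nat_lit 332) (nat_lit 315)) (XT.lf (nat_lit 0) (nat_lit 7933337642) (nat_lit 76) (nat_lit 85011173309) (nat_lit 76) (nat_lit 85011173309) (nat_lit 1) (nat_lit 4) (nat_lit 2) (nat_lit 5) (nat_lit 2) (nat_lit 4) (nat_lit 534) (nat_lit 333) (nat_lit 333))) (XT.nd (nat_lit 78) (nat_lit 0) (nat_lit 0) (XT.lf (nat_lit 0) (nat_lit 26376698291) (nat_lit 76) (nat_lit 173555435038) (nat_lit 76) (nat_lit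 173536357114) (nat_lit 1) (nat_lit 4) (nat_lit 2) (nat_lit 5) (nat_lit 2) (nat_lit 4) (nat_lit 535) (nat_lit 333) (nat_lit 332)) (XT.lf (nat_lit 0) (nat_lit 37106243754) (nat_lit 76) (nat_lit 177420990381) (nat_lit 76) (nat_lit 177383743006) (nat_lit 1) (nat_lit 4) (nat_lit 2) (nat_lit 5) (nat_lit 2) (nat_lit 4) (nat_lit 536) (nat_lit 333) (nat_lit 331))))))) (XT.nd (nat_lit 1170) (nat_lit 0) (nat_lit 0) (XT.nd (nat_lit 546) (nat_lit 0) (nat_lit 0) (XT.nd (nat_lit 234) (nat_lit 0) (nat_lit 0) (XT.nd (nat_lit 78) (nat_lit 0) (nat_lit 0) (XT.lf (nat_lit 0) (nat_lit 48080858210) (nat_lit 76) (nat_lit 181628216353) (nat_lit 76) (nat_lit 181573664740) (nat_lit 1) (nat_lit 4) (nat_lit 2) (nat_lit 5) (nat_lit 2) (nat_lit 4) (nat_lit 537) (nat_lit 333) (nat_lit 330)) (XT.nd (nat_lit 78) (nat_lit 0) (nat_lit 0) (XT.lf (nat_lit 0) (nat_lit 59326671695) (nat_lit 76) (nat_lit 186187130159) (nat_lit 76) (nat_lit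 186116098317) (nat_lit 1) (nat_lit 4) (nat_lit 2) (nat_lit 5) (nat_lit 2) (nat_lit 4) (nat_lit 538) (nat_lit 333) (nat_lit 329)) (XT.lf (nat_lit 0) (nat_lit 70870459955) (nat_lit 76) (nat_lit 191108586354) (nat_lit 76) (nat_lit 191021859058) (nat_lit 1) (nat_lit 4) (nat_lit 2) (nat_lit 5) (nat_lit 2) (nat_lit 4) (nat_lit 539) (nat_lit 333) (nat_lit 328)))) (XT.nd (nat_lit 156) (nat_lit 0) (nat_lit 0) (XT.nd (nat_lit 78) (nat_lit 0) (nat_lit 0) (XT.lf (nat_lit 0) (nat_lit 82739708198) (nat_lit 76) (nat_lit 196404302692) (nat_lit 76) (nat_lit 196302627343) (nat_lit 1) (nat_lit 4) (nat_lit 2) (nat_lit 5) (nat_lit 2) (nat_lit 4) (nat_lit 540) (nat_lit 333) (nat_lit 327)) (XT.lf (nat_lit 0) (nat_lit 94962676542) (nat_lit 76) (nat_lit 202086888022) (nat_lit 76) (nat_lit 201970976432) (nat_lit 1) (nat_lit 4) (nat_lit 2) (nat_lit 5) (nat_lit 2) (nat_lit 4) (nat_lit 541) (nat_lit 333) (nat_lit 326)))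 (XT.nd (nat_lit 78) (nat_lit 0) (nat_lit 0) (XT.lf (nat_lit 0) (nat_lit 107568467290) (nat_lit 76) (nat_lit 208169872308) (nat_lit 76) (nat_lit 208040402394) (nat_lit 1) (nat_lit 4) (nat_lit 2) (nat_lit 5) (nat_lit 2) (nat_lit 4) (nat_lit 542) (nat_lit 333) (nat_lit 325)) (XT.lf (nat_lit 0) (nat_lit 120587094231) (nat_lit 76) (nat_lit 214667738845) (nat_lit 76) (nat_lit 214525356242) (nat_lit 1) (nat_lit 4) (nat_lit 2) (nat_lit 5) (nat_lit 2) (nat_lit 4) (nat_lit 543) (nat_lit 333) (nat_lit 324))))) (XT.nd (nat_lit 312) (nat_lit 0) (nat_lit 0) (XT.nd (nat_lit 156) (nat_lit 0) (nat_lit 0) (XT.nd (nat_lit 78) (nat_lit 0) (nat_lit 0) (XT.lf (nat_lit 0) (nat_lit 134049554095) (nat_lit 76) (nat_lit 221595958746) (nat_lit 76) (nat_lit 221441278343) (nat_lit 1) (nat_lit 4) (nat_lit 2) (nat_lit 5) (nat_lit 2) (nat_lit 4) (nat_lit 544) (nat_lit 333) (nat_lit 323)) (XT.lf (nat_lit 0) (nat_lit 147987900359)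 (nat_lit 76) (nat_lit 228971027772) (nat_lit 76) (nat_lit 228804635179) (nat_lit 1) (nat_lit 4) (nat_lit 2) (nat_lit 5) (nat_lit 2) (nat_lit 4) (nat_lit 545) (nat_lit 333) (nat_lit 322))) (XT.nd (nat_lit 78) (nat_lit 0) (nat_lit 0) (XT.lf (nat_lit 0) (nat_lit 162435319560) (nat_lit 76) (nat_lit 236810505610) (nat_lit 76) (nat_lit 236632958550) (nat_lit 1) (nat_lit 4) (nat_lit 2) (nat_lit 5) (nat_lit 2) (nat_lit 4) (nat_lit 546) (nat_lit 333) (nat_lit 321)) (XT.lf (nat_lit 0) (nat_lit 177426210317) (nat_lit 76) (nat_lit 245133057685) (nat_lit 76) (nat_lit 244944887323) (nat_lit 1) (nat_lit 4) (nat_lit 2) (nat_lit 5) (nat_lit 2) (nat_lit 4) (nat_lit 547) (nat_lit 333) (nat_lit 320)))) (XT.nd (nat_lit 156) (nat_lit 0) (nat_lit 0) (XT.nd (nat_lit 78) (nat_lit 0) (nat_lit 0) (XT.lf (nat_lit 0) (nat_lit 192996265225) (nat_lit 76) (nat_lit 253958499596) (nat_lit 76) (nat_lit 253760211804) (nat_lit 1)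 (nat_lit 4) (nat_lit 2) (nat_lit 5) (nat_lit 2) (nat_lit 4) (nat_lit 548) (nat_lit 333) (nat_lit 319)) (XT.lf (nat_lit 0) (nat_lit 209182555845) (nat_lit 76) (nat_lit 263307844301) (nat_lit 76) (nat_lit 263099920861) (nat_lit 1) (nat_lit 4) (nat_lit 2) (nat_lit 5) (nat_lit 2) (nat_lit 4) (nat_lit 549) (nat_lit 333) (nat_lit 318))) (XT.nd (nat_lit 78) (nat_lit 0) (nat_lit 0) (XT.lf (nat_lit 0) (nat_lit 226023620964) (nat_lit 76) (nat_lit 273203352143) (nat_lit 76) (nat_lit 272986251896) (nat_lit 1) (nat_lit 4) (nat_lit 2) (nat_lit 5) (nat_lit 2) (nat_lit 4) (nat_lit 550) (nat_lit 333) (nat_lit 317)) (XT.lf (nat_lit 0) (nat_lit 243559558355) (nat_lit 76) (nat_lit 283668583856) (nat_lit 76) (nat_lit 283442743792) (nat_lit 1) (nat_lit 4) (nat_lit 2) (nat_lit 5) (nat_lit 2) (nat_lit 4) (nat_lit 551) (nat_lit 333) (nat_lit 316)))))) (XT.nd (nat_lit 61386) (nat_lit 0) (nat_lit 0) (XT.nd (nat_lit 61074)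 (nat_lit 0) (nat_lit 0) (XT.nd (nat_lit 60918) (nat_lit 0) (nat_lit 0) (XT.nd (nat_lit 78) (nat_lit 0) (nat_lit 0) (XT.lf (nat_lit 0) (nat_lit 261832120251) (nat_lit 76) (nat_lit 294728456659) (nat_lit 76) (nat_lit 294494292960) (nat_lit 1) (nat_lit 4) (nat_lit 2) (nat_lit 5) (nat_lit 2) (nat_lit 4) (nat_lit 552) (nat_lit 333) (nat_lit 315)) (XT.lf (nat_lit 0) (nat_lit 280884812752) (nat_lit 76) (nat_lit 306409303581) (nat_lit 76) (nat_lit 306167212611) (nat_lit 1) (nat_lit 4) (nat_lit 2) (nat_lit 5) (nat_lit 2) (nat_lit 4) (nat_lit 553) (nat_lit 333) (nat_lit 314))) (XT.nd (nat_lit 78) (nat_lit 76) (nat_lit 0) (XT.lf (nat_lit 0) (nat_lit 79748106343) (nat_lit 152) (nat_lit 2144047549) (nat_lit 0) (nat_lit 79748106343) (nat_lit 2) (nat_lit 5) (nat_lit 4) (nat_lit 4) (nat_lit 2) (nat_lit 4) (nat_lit 532) (nat_lit 334) (nat_lit 334)) (XT.lf (nat_lit 0) (nat_lit 5551150871) (nat_lit 76) (nat_lit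 166833344831) (nat_lit 76) (nat_lit 166813313011) (nat_lit 1) (nat_lit 4) (nat_lit 2) (nat_lit 5) (nat_lit 2) (nat_lit 4) (nat_lit 533) (nat_lit 334) (nat_lit 333)))) (XT.nd (nat_lit 156) (nat_lit 0) (nat_lit 0) (XT.nd (nat_lit 78) (nat_lit 0) (nat_lit 0) (XT.lf (nat_lit 0) (nat_lit 15709954490) (nat_lit 76) (nat_lit 170122184844) (nat_lit 76) (nat_lit 170083075100) (nat_lit 1) (nat_lit 4) (nat_lit 2) (nat_lit 5) (nat_lit 2) (nat_lit 4) (nat_lit 534) (nat_lit 334) (nat_lit 332)) (XT.lf (nat_lit 0) (nat_lit 26070719597) (nat_lit 76) (nat_lit 173731279362) (nat_lit 76) (nat_lit 173674000167) (nat_lit 1) (nat_lit 4) (nat_lit 2) (nat_lit 5) (nat_lit 2) (nat_lit 4) (nat_lit 535) (nat_lit 334) (nat_lit 331))) (XT.nd (nat_lit 78) (nat_lit 0) (nat_lit 0) (XT.lf (nat_lit 0) (nat_lit 36658114680) (nat_lit 76) (nat_lit 177669221467) (nat_lit 76) (nat_lit 177594638033) (nat_lit 1) (nat_lit 4) (nat_lit 2)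 (nat_lit 5) (nat_lit 2) (nat_lit 4) (nat_lit 536) (nat_lit 334) (nat_lit 330)) (XT.lf (nat_lit 0) (nat_lit 47497347822) (nat_lit 76) (nat_lit 181945387212) (nat_lit 76) (nat_lit 181854323551) (nat_lit 1) (nat_lit 4) (nat_lit 2) (nat_lit 5) (nat_lit 2) (nat_lit 4) (nat_lit 537) (nat_lit 334) (nat_lit 329))))) (XT.nd (nat_lit 312) (nat_lit 0) (nat_lit 0) (XT.nd (nat_lit 156) (nat_lit 0) (nat_lit 0) (XT.nd (nat_lit 78) (nat_lit 0) (nat_lit 0) (XT.lf (nat_lit 0) (nat_lit 58614226722) (nat_lit 76) (nat_lit 186569957945) (nat_lit 76) (nat_lit 186463198828) (nat_lit 1) (nat_lit 4) (nat_lit 2) (nat_lit 5) (nat_lit 2) (nat_lit 4) (nat_lit 538) (nat_lit 334) (nat_lit 328)) (XT.lf (nat_lit 0) (nat_lit 70035220138) (nat_lit 76) (nat_lit 191553944546) (nat_lit 76) (nat_lit 191432237377) (nat_lit 1) (nat_lit 4) (nat_lit 2) (nat_lit 5) (nat_lit 2) (nat_lit 4) (nat_lit 539) (nat_lit 334) (nat_lit 327))) (XT.nd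 (nat_lit 78) (nat_lit 0) (nat_lit 0) (XT.lf (nat_lit 0) (nat_lit 81787520912) (nat_lit 76) (nat_lit 196909213652) (nat_lit 76) (nat_lit 196773270243) (nat_lit 1) (nat_lit 4) (nat_lit 2) (nat_lit 5) (nat_lit 2) (nat_lit 4) (nat_lit 540) (nat_lit 334) (nat_lit 326)) (XT.lf (nat_lit 0) (nat_lit 93899110713) (nat_lit 76) (nat_lit 202648515904) (nat_lit 76) (nat_lit 202499014170) (nat_lit 1) (nat_lit 4) (nat_lit 2) (nat_lit 5) (nat_lit 2) (nat_lit 4) (nat_lit 541) (nat_lit 334) (nat_lit 325)))) (XT.nd (nat_lit 156) (nat_lit 0) (nat_lit 0) (XT.nd (nat_lit 78) (nat_lit 0) (nat_lit 0) (XT.lf (nat_lit 0) (nat_lit 106398826659) (nat_lit 76) (nat_lit 208785516305) (nat_lit 76) (nat_lit 208623101882) (nat_lit 1) (nat_lit 4) (nat_lit 2) (nat_lit 5) (nat_lit 2) (nat_lit 4) (nat_lit 542) (nat_lit 334) (nat_lit 324)) (XT.lf (nat_lit 0) (nat_lit 119316429979) (nat_lit 76) (nat_lit 215334826763) (nat_lit 76) (nat_lit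 215160114540) (nat_lit 1) (nat_lit 4) (nat_lit 2) (nat_lit 5) (nat_lit 2) (nat_lit 4) (nat_lit 543) (nat_lit 334) (nat_lit 323))) (XT.nd (nat_lit 78) (nat_lit 0) (nat_lit 0) (XT.lf (nat_lit 0) (nat_lit 132682676870) (nat_lit 76) (nat_lit 222312040874) (nat_lit 76) (nat_lit 222125616461) (nat_lit 1) (nat_lit 4) (nat_lit 2) (nat_lit 5) (nat_lit 2) (nat_lit 4) (nat_lit 544) (nat_lit 334) (nat_lit 322)) (XT.lf (nat_lit 0) (nat_lit 146529391731) (nat_lit 76) (nat_lit 229733771051) (nat_lit 76) (nat_lit 229536192172) (nat_lit 1) (nat_lit 4) (nat_lit 2) (nat_lit 5) (nat_lit 2) (nat_lit 4) (nat_lit 545) (nat_lit 334) (nat_lit 321))))))))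
noncomputable def xc2 : XT := (XT.nd (nat_lit 63024) (nat_lit 0) (nat_lit 0) (XT.nd (nat_lit 61776) (nat_lit 0) (nat_lit 0) (XT.nd (nat_lit 546) (nat_lit 0) (nat_lit 0) (XT.nd (nat_lit 234) (nat_lit 0) (nat_lit 0) (XT.nd (nat_lit 78) (nat_lit 0) (nat_lit 0) (XT.lf (nat_lit 0) (nat_lit 160889542930) (nat_lit 76) (nat_lit 237617688082) (nat_lit 76) (nat_lit 237409485901) (nat_lit 1) (nat_lit 4) (nat_lit 2) (nat_lit 5) (nat_lit 2) (nat_lit 4) (nat_lit 546) (nat_lit 334) (nat_lit 320)) (XT.nd (nat_lit 78) (nat_lit 0) (nat_lit 0) (XT.lf (nat_lit 0) (nat_lit 175797321303) (nat_lit 76) (nat_lit 245982563197) (nat_lit 76) (nat_lit 245764243585) (nat_lit 1) (nat_lit 4) (nat_lit 2) (nat_lit 5) (nat_lit 2) (nat_lit 4) (nat_lit 547) (nat_lit 334) (nat_lit 319)) (XT.lf (nat_lit 0) (nat_lit 191288221561) (nat_lit 76) (nat_lit 254848312766) (nat_lit 76) (nat_lit 254620357506) (nat_lit 1) (nat_lit 4) (nat_lit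 2) (nat_lit 5) (nat_lit 2) (nat_lit 4) (nat_lit 548) (nat_lit 334) (nat_lit 318)))) (XT.nd (nat_lit 156) (nat_lit 0) (nat_lit 0) (XT.nd (nat_lit 78) (nat_lit 0) (nat_lit 0) (XT.lf (nat_lit 0) (nat_lit 207399126799) (nat_lit 76) (nat_lit 264236045715) (nat_lit 76) (nat_lit 263998913648) (nat_lit 1) (nat_lit 4) (nat_lit 2) (nat_lit 5) (nat_lit 2) (nat_lit 4) (nat_lit 549) (nat_lit 334) (nat_lit 317)) (XT.lf (nat_lit 0) (nat_lit 224168396317) (nat_lit 76) (nat_lit 274168113791) (nat_lit 76) (nat_lit 273922241908) (nat_lit 1) (nat_lit 4) (nat_lit 2) (nat_lit 5) (nat_lit 2) (nat_lit 4) (nat_lit 550) (nat_lit 334) (nat_lit 316))) (XT.nd (nat_lit 78) (nat_lit 0) (nat_lit 0) (XT.lf (nat_lit 0) (nat_lit 241635956945) (nat_lit 76) (nat_lit 284668164775) (nat_lit 76) (nat_lit 284413969256) (nat_lit 1) (nat_lit 4) (nat_lit 2) (nat_lit 5) (nat_lit 2) (nat_lit 4) (nat_lit 551) (nat_lit 334) (nat_lit 315))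 (XT.lf (nat_lit 0) (nat_lit 259843398113) (nat_lit 76) (nat_lit 295761198787) (nat_lit 76) (nat_lit 295499075997) (nat_lit 1) (nat_lit 4) (nat_lit 2) (nat_lit 5) (nat_lit 2) (nat_lit 4) (nat_lit 552) (nat_lit 334) (nat_lit 314))))) (XT.nd (nat_lit 60918) (nat_lit 0) (nat_lit 0) (XT.nd (nat_lit 60762) (nat_lit 0) (nat_lit 76) (XT.nd (nat_lit 60684) (nat_lit 0) (nat_lit 76) (XT.lf (nat_lit 0) (nat_lit 278834070874) (nat_lit 76) (nat_lit 307473627813) (nat_lit 76) (nat_lit 307203955241) (nat_lit 1) (nat_lit 4) (nat_lit 2) (nat_lit 5) (nat_lit 2) (nat_lit 4) (nat_lit 553) (nat_lit 334) (nat_lit 313)) (XT.lf (nat_lit 0) (nat_lit 67668776567) (nat_lit 152) (nat_lit 11509698822) (nat_lit 0) (nat_lit 67668776567) (nat_lit 2) (nat_lit 5) (nat_lit 4) (nat_lit 4) (nat_lit 2) (nat_lit 4) (nat_lit 530) (nat_lit 335) (nat_lit 335))) (XT.nd (nat_lit 78) (nat_lit 0) (nat_lit 0) (XT.lf (nat_lit 0) (nat_lit 147172574318)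 (nat_lit 152) (nat_lit 13800589336) (nat_lit 0) (nat_lit 147151540907) (nat_lit 2) (nat_lit 5) (nat_lit 4) (nat_lit 4) (nat_lit 2) (nat_lit 4) (nat_lit 531) (nat_lit 335) (nat_lit 334)) (XT.lf (nat_lit 0) (nat_lit 159439055183) (nat_lit 152) (nat_lit 4447385086) (nat_lit 0) (nat_lit 159397989952) (nat_lit 2) (nat_lit 5) (nat_lit 4) (nat_lit 4) (nat_lit 2) (nat_lit 4) (nat_lit 532) (nat_lit 335) (nat_lit 333)))) (XT.nd (nat_lit 156) (nat_lit 0) (nat_lit 0) (XT.nd (nat_lit 78) (nat_lit 0) (nat_lit 0) (XT.lf (nat_lit 0) (nat_lit 5229873242) (nat_lit 76) (nat_lit 167017981372) (nat_lit 76) (nat_lit 166957838217) (nat_lit 1) (nat_lit 4) (nat_lit 2) (nat_lit 5) (nat_lit 2) (nat_lit 4) (nat_lit 533) (nat_lit 335) (nat_lit 332)) (XT.lf (nat_lit 0) (nat_lit 15239418963) (nat_lit 76) (nat_lit 170382827484) (nat_lit 76) (nat_lit 170304514879) (nat_lit 1) (nat_lit 4) (nat_lit 2) (nat_lit 5) (nat_lit 2) (nat_lit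 4) (nat_lit 534) (nat_lit 335) (nat_lit 331))) (XT.nd (nat_lit 78) (nat_lit 0) (nat_lit 0) (XT.lf (nat_lit 0) (nat_lit 25458033689) (nat_lit 76) (nat_lit 174064308764) (nat_lit 76) (nat_lit 173968691919) (nat_lit 1) (nat_lit 4) (nat_lit 2) (nat_lit 5) (nat_lit 2) (nat_lit 4) (nat_lit 535) (nat_lit 335) (nat_lit 330)) (XT.lf (nat_lit 0) (nat_lit 35910047458) (nat_lit 76) (nat_lit 178071190642) (nat_lit 76) (nat_lit 177959093570) (nat_lit 1) (nat_lit 4) (nat_lit 2) (nat_lit 5) (nat_lit 2) (nat_lit 4) (nat_lit 536) (nat_lit 335) (nat_lit 329)))))) (XT.nd (nat_lit 624) (nat_lit 0) (nat_lit 0) (XT.nd (nat_lit 312) (nat_lit 0) (nat_lit 0) (XT.nd (nat_lit 156) (nat_lit 0) (nat_lit 0) (XT.nd (nat_lit 78) (nat_lit 0) (nat_lit 0) (XT.lf (nat_lit 0) (nat_lit 46620346015) (nat_lit 76) (nat_lit 182413013314) (nat_lit 76) (nat_lit 182285220787) (nat_lit 1) (nat_lit 4) (nat_lit 2) (nat_lit 5) (nat_lit 2) (nat_lit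 4) (nat_lit 537) (nat_lit 335) (nat_lit 328)) (XT.lf (nat_lit 0) (nat_lit 57614430071) (nat_lit 76) (nat_lit 187100114452) (nat_lit 76) (nat_lit 186957373873) (nat_lit 1) (nat_lit 4) (nat_lit 2) (nat_lit 5) (nat_lit 2) (nat_lit 4) (nat_lit 538) (nat_lit 335) (nat_lit 327))) (XT.nd (nat_lit 78) (nat_lit 0) (nat_lit 0) (XT.lf (nat_lit 0) (nat_lit 68918476018) (nat_lit 76) (nat_lit 192143653822) (nat_lit 76) (nat_lit 191986677002) (nat_lit 1) (nat_lit 4) (nat_lit 2) (nat_lit 5) (nat_lit 2) (nat_lit 4) (nat_lit 539) (nat_lit 335) (nat_lit 326)) (XT.lf (nat_lit 0) (nat_lit 80559398249) (nat_lit 76) (nat_lit 197555639850) (nat_lit 76) (nat_lit 197385104706) (nat_lit 1) (nat_lit 4) (nat_lit 2) (nat_lit 5) (nat_lit 2) (nat_lit 4) (nat_lit 540) (nat_lit 335) (nat_lit 325)))) (XT.nd (nat_lit 156) (nat_lit 0) (nat_lit 0) (XT.nd (nat_lit 78) (nat_lit 0) (nat_lit 0) (XT.lf (nat_lit 0) (nat_lit 92564913248)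 (nat_lit 76) (nat_lit 203348958217) (nat_lit 76) (nat_lit 203165510383) (nat_lit 1) (nat_lit 4) (nat_lit 2) (nat_lit 5) (nat_lit 2) (nat_lit 4) (nat_lit 541) (nat_lit 335) (nat_lit 324)) (XT.lf (nat_lit 0) (nat_lit 104963605573) (nat_lit 76) (nat_lit 209537402539) (nat_lit 76) (nat_lit 209341656906) (nat_lit 1) (nat_lit 4) (nat_lit 2) (nat_lit 5) (nat_lit 2) (nat_lit 4) (nat_lit 542) (nat_lit 335) (nat_lit 323))) (XT.nd (nat_lit 78) (nat_lit 0) (nat_lit 0) (XT.lf (nat_lit 0) (nat_lit 117784995919) (nat_lit 76) (nat_lit 216135707207) (nat_lit 76) (nat_lit 215928249383) (nat_lit 1) (nat_lit 4) (nat_lit 2) (nat_lit 5) (nat_lit 2) (nat_lit 4) (nat_lit 543) (nat_lit 335) (nat_lit 322)) (XT.lf (nat_lit 0) (nat_lit 131059611408) (nat_lit 76) (nat_lit 223159582469) (nat_lit 76) (nat_lit 222940970179) (nat_lit 1) (nat_lit 4) (nat_lit 2) (nat_lit 5) (nat_lit 2) (nat_lit 4) (nat_lit 544) (nat_lit 335) (nat_lit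 321))))) (XT.nd (nat_lit 312) (nat_lit 0) (nat_lit 0) (XT.nd (nat_lit 156) (nat_lit 0) (nat_lit 0) (XT.nd (nat_lit 78) (nat_lit 0) (nat_lit 0) (XT.lf (nat_lit 0) (nat_lit 144819058267) (nat_lit 76) (nat_lit 230625751839) (nat_lit 76) (nat_lit 230396516247) (nat_lit 1) (nat_lit 4) (nat_lit 2) (nat_lit 5) (nat_lit 2) (nat_lit 4) (nat_lit 545) (nat_lit 335) (nat_lit 320)) (XT.lf (nat_lit 0) (nat_lit 159096097083) (nat_lit 76) (nat_lit 238551991910) (nat_lit 76) (nat_lit 238312638888) (nat_lit 1) (nat_lit 4) (nat_lit 2) (nat_lit 5) (nat_lit 2) (nat_lit 4) (nat_lit 546) (nat_lit 335) (nat_lit 319))) (XT.nd (nat_lit 78) (nat_lit 0) (nat_lit 0) (XT.lf (nat_lit 0) (nat_lit 173924720805) (nat_lit 76) (nat_lit 246957174683) (nat_lit 76) (nat_lit 246708186012) (nat_lit 1) (nat_lit 4) (nat_lit 2) (nat_lit 5) (nat_lit 2) (nat_lit 4) (nat_lit 547) (nat_lit 335) (nat_lit 318)) (XT.lf (nat_lit 0) (nat_lit 189340235681)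 (nat_lit 76) (nat_lit 255861312497) (nat_lit 76) (nat_lit 255603147019) (nat_lit 1) (nat_lit 4) (nat_lit 2) (nat_lit 5) (nat_lit 2) (nat_lit 4) (nat_lit 548) (nat_lit 335) (nat_lit 317)))) (XT.nd (nat_lit 156) (nat_lit 0) (nat_lit 0) (XT.nd (nat_lit 78) (nat_lit 0) (nat_lit 0) (XT.lf (nat_lit 0) (nat_lit 205379345318) (nat_lit 76) (nat_lit 265285605680) (nat_lit 76) (nat_lit 265018700385) (nat_lit 1) (nat_lit 4) (nat_lit 2) (nat_lit 5) (nat_lit 2) (nat_lit 4) (nat_lit 549) (nat_lit 335) (nat_lit 316)) (XT.lf (nat_lit 0) (nat_lit 222080238072) (nat_lit 76) (nat_lit 275252493026) (nat_lit 76) (nat_lit 274977264096) (nat_lit 1) (nat_lit 4) (nat_lit 2) (nat_lit 5) (nat_lit 2) (nat_lit 4) (nat_lit 550) (nat_lit 335) (nat_lit 315))) (XT.nd (nat_lit 78) (nat_lit 0) (nat_lit 0) (XT.lf (nat_lit 0) (nat_lit 239482677973) (nat_lit 76) (nat_lit 285785705219) (nat_lit 76) (nat_lit 285502549018) (nat_lit 1)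 (nat_lit 4) (nat_lit 2) (nat_lit 5) (nat_lit 2) (nat_lit 4) (nat_lit 551) (nat_lit 335) (nat_lit 314)) (XT.lf (nat_lit 0) (nat_lit 257628099402) (nat_lit 76) (nat_lit 296910321335) (nat_lit 76) (nat_lit 296619615352) (nat_lit 1) (nat_lit 4) (nat_lit 2) (nat_lit 5) (nat_lit 2) (nat_lit 4) (nat_lit 552) (nat_lit 335) (nat_lit 313))))))) (XT.nd (nat_lit 61620) (nat_lit 0) (nat_lit 0) (XT.nd (nat_lit 60996) (nat_lit 0) (nat_lit 0) (XT.nd (nat_lit 60684) (nat_lit 0) (nat_lit 0) (XT.nd (nat_lit 60528) (nat_lit 0) (nat_lit 76) (XT.lf (nat_lit 0) (nat_lit 276559705743) (nat_lit 76) (nat_lit 308652828556) (nat_lit 76) (nat_lit 308354932304) (nat_lit 1) (nat_lit 4) (nat_lit 2) (nat_lit 5) (nat_lit 2) (nat_lit 4) (nat_lit 553) (nat_lit 335) (nat_lit 312)) (XT.nd (nat_lit 78) (nat_lit 0) (nat_lit 0) (XT.lf (nat_lit 0) (nat_lit 56479213043) (nat_lit 152) (nat_lit 20482869836) (nat_lit 0) (nat_lit 56479213043)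 (nat_lit 2) (nat_lit 5) (nat_lit 4) (nat_lit 4) (nat_lit 2) (nat_lit 4) (nat_lit 528) (nat_lit 336) (nat_lit 336)) (XT.lf (nat_lit 0) (nat_lit 123927898094) (nat_lit 152) (nat_lit 32125759556) (nat_lit 0) (nat_lit 123905813012) (nat_lit 2) (nat_lit 5) (nat_lit 4) (nat_lit 4) (nat_lit 2) (nat_lit 4) (nat_lit 529) (nat_lit 336) (nat_lit 335)))) (XT.nd (nat_lit 156) (nat_lit 76) (nat_lit 0) (XT.nd (nat_lit 78) (nat_lit 0) (nat_lit 0) (XT.lf (nat_lit 0) (nat_lit 135277537755) (nat_lit 152) (nat_lit 23186652132) (nat_lit 0) (nat_lit 135234419263) (nat_lit 2) (nat_lit 5) (nat_lit 4) (nat_lit 4) (nat_lit 2) (nat_lit 4) (nat_lit 530) (nat_lit 336) (nat_lit 334)) (XT.lf (nat_lit 0) (nat_lit 147034368022) (nat_lit 152) (nat_lit 14127133810) (nat_lit 0) (nat_lit 146971217710) (nat_lit 2) (nat_lit 5) (nat_lit 4) (nat_lit 4) (nat_lit 2) (nat_lit 4) (nat_lit 531) (nat_lit 336) (nat_lit 333))) (XT.nd (nat_lit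 78) (nat_lit 76) (nat_lit 0) (XT.lf (nat_lit 0) (nat_lit 159226381348) (nat_lit 152) (nat_lit 4925634311) (nat_lit 0) (nat_lit 159144153113) (nat_lit 2) (nat_lit 5) (nat_lit 4) (nat_lit 4) (nat_lit 2) (nat_lit 4) (nat_lit 532) (nat_lit 336) (nat_lit 332)) (XT.lf (nat_lit 0) (nat_lit 4586553039) (nat_lit 76) (nat_lit 167367662244) (nat_lit 76) (nat_lit 167267264557) (nat_lit 1) (nat_lit 4) (nat_lit 2) (nat_lit 5) (nat_lit 2) (nat_lit 4) (nat_lit 533) (nat_lit 336) (nat_lit 331))))) (XT.nd (nat_lit 312) (nat_lit 0) (nat_lit 0) (XT.nd (nat_lit 156) (nat_lit 0) (nat_lit 0) (XT.nd (nat_lit 78) (nat_lit 0) (nat_lit 0) (XT.lf (nat_lit 0) (nat_lit 14453948379) (nat_lit 76) (nat_lit 170804895118) (nat_lit 76) (nat_lit 170687193192) (nat_lit 1) (nat_lit 4) (nat_lit 2) (nat_lit 5) (nat_lit 2) (nat_lit 4) (nat_lit 534) (nat_lit 336) (nat_lit 330)) (XT.lf (nat_lit 0) (nat_lit 24537181792) (nat_lit 76) (nat_lit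 174555316171) (nat_lit 76) (nat_lit 174421134017) (nat_lit 1) (nat_lit 4) (nat_lit 2) (nat_lit 5) (nat_lit 2) (nat_lit 4) (nat_lit 535) (nat_lit 336) (nat_lit 329))) (XT.nd (nat_lit 78) (nat_lit 0) (nat_lit 0) (XT.lf (nat_lit 0) (nat_lit 34860260975) (nat_lit 76) (nat_lit 178627854975) (nat_lit 76) (nat_lit 178477977367) (nat_lit 1) (nat_lit 4) (nat_lit 2) (nat_lit 5) (nat_lit 2) (nat_lit 4) (nat_lit 536) (nat_lit 336) (nat_lit 328)) (XT.lf (nat_lit 0) (nat_lit 45447764689) (nat_lit 76) (nat_lit 183032208054) (nat_lit 76) (nat_lit 182867382393) (nat_lit 1) (nat_lit 4) (nat_lit 2) (nat_lit 5) (nat_lit 2) (nat_lit 4) (nat_lit 537) (nat_lit 336) (nat_lit 327)))) (XT.nd (nat_lit 156) (nat_lit 0) (nat_lit 0) (XT.nd (nat_lit 78) (nat_lit 0) (nat_lit 0) (XT.lf (nat_lit 0) (nat_lit 56324901275) (nat_lit 76) (nat_lit 187778861960) (nat_lit 76) (nat_lit 187599800059) (nat_lit 1) (nat_lit 4) (nat_lit 2)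 (nat_lit 5) (nat_lit 2) (nat_lit 4) (nat_lit 538) (nat_lit 336) (nat_lit 326)) (XT.lf (nat_lit 0) (nat_lit 67517568679) (nat_lit 76) (nat_lit 192879118252) (nat_lit 76) (nat_lit 192686498026) (nat_lit 1) (nat_lit 4) (nat_lit 2) (nat_lit 5) (nat_lit 2) (nat_lit 4) (nat_lit 539) (nat_lit 336) (nat_lit 325))) (XT.nd (nat_lit 78) (nat_lit 0) (nat_lit 0) (XT.lf (nat_lit 0) (nat_lit 79052416109) (nat_lit 76) (nat_lit 198345120396) (nat_lit 76) (nat_lit 198139587480) (nat_lit 1) (nat_lit 4) (nat_lit 2) (nat_lit 5) (nat_lit 2) (nat_lit 4) (nat_lit 540) (nat_lit 336) (nat_lit 324)) (XT.lf (nat_lit 0) (nat_lit 90956907486) (nat_lit 76) (nat_lit 204189882683) (nat_lit 76) (nat_lit 203972051968) (nat_lit 1) (nat_lit 4) (nat_lit 2) (nat_lit 5) (nat_lit 2) (nat_lit 4) (nat_lit 541) (nat_lit 336) (nat_lit 323)))))) (XT.nd (nat_lit 624) (nat_lit 0) (nat_lit 0) (XT.nd (nat_lit 312) (nat_lit 0) (nat_lit 0) (XT.nd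 (nat_lit 156) (nat_lit 0) (nat_lit 0) (XT.nd (nat_lit 78) (nat_lit 0) (nat_lit 0) (XT.lf (nat_lit 0) (nat_lit 103259386838) (nat_lit 76) (nat_lit 210427321214) (nat_lit 76) (nat_lit 210197778309) (nat_lit 1) (nat_lit 4) (nat_lit 2) (nat_lit 5) (nat_lit 2) (nat_lit 4) (nat_lit 542) (nat_lit 336) (nat_lit 322)) (XT.lf (nat_lit 0) (nat_lit 115989145782) (nat_lit 76) (nat_lit 217072287034) (nat_lit 76) (nat_lit 216831589662) (nat_lit 1) (nat_lit 4) (nat_lit 2) (nat_lit 5) (nat_lit 2) (nat_lit 4) (nat_lit 543) (nat_lit 336) (nat_lit 321))) (XT.nd (nat_lit 78) (nat_lit 0) (nat_lit 0) (XT.lf (nat_lit 0) (nat_lit 129176493269) (nat_lit 76) (nat_lit 224140601489) (nat_lit 76) (nat_lit 223889280815) (nat_lit 1) (nat_lit 4) (nat_lit 2) (nat_lit 5) (nat_lit 2) (nat_lit 4) (nat_lit 544) (nat_lit 336) (nat_lit 320)) (XT.lf (nat_lit 0) (nat_lit 142852827744) (nat_lit 76) (nat_lit 231649093899) (nat_lit 76)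 (nat_lit 231387655795) (nat_lit 1) (nat_lit 4) (nat_lit 2) (nat_lit 5) (nat_lit 2) (nat_lit 4) (nat_lit 545) (nat_lit 336) (nat_lit 319)))) (XT.nd (nat_lit 156) (nat_lit 0) (nat_lit 0) (XT.nd (nat_lit 78) (nat_lit 0) (nat_lit 0) (XT.lf (nat_lit 0) (nat_lit 157050711909) (nat_lit 76) (nat_lit 239615641628) (nat_lit 76) (nat_lit 239344567876) (nat_lit 1) (nat_lit 4) (nat_lit 2) (nat_lit 5) (nat_lit 2) (nat_lit 4) (nat_lit 546) (nat_lit 336) (nat_lit 318)) (XT.lf (nat_lit 0) (nat_lit 171803950250) (nat_lit 76) (nat_lit 248059212645) (nat_lit 76) (nat_lit 247778962086) (nat_lit 1) (nat_lit 4) (nat_lit 2) (nat_lit 5) (nat_lit 2) (nat_lit 4) (nat_lit 547) (nat_lit 336) (nat_lit 317))) (XT.nd (nat_lit 78) (nat_lit 0) (nat_lit 0) (XT.lf (nat_lit 0) (nat_lit 187147669524) (nat_lit 76) (nat_lit 256999910693) (nat_lit 76) (nat_lit 256710920317) (nat_lit 1) (nat_lit 4) (nat_lit 2) (nat_lit 5) (nat_lit 2)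 (nat_lit 4) (nat_lit 548) (nat_lit 336) (nat_lit 316)) (XT.lf (nat_lit 0) (nat_lit 203118402398) (nat_lit 76) (nat_lit 266459023146) (nat_lit 76) (nat_lit 266161709135) (nat_lit 1) (nat_lit 4) (nat_lit 2) (nat_lit 5) (nat_lit 2) (nat_lit 4) (nat_lit 549) (nat_lit 336) (nat_lit 315))))) (XT.nd (nat_lit 60606) (nat_lit 0) (nat_lit 76) (XT.nd (nat_lit 156) (nat_lit 0) (nat_lit 0) (XT.nd (nat_lit 78) (nat_lit 0) (nat_lit 0) (XT.lf (nat_lit 0) (nat_lit 219754174425) (nat_lit 76) (nat_lit 276459071701) (nat_lit 76) (nat_lit 276153830419) (nat_lit 1) (nat_lit 4) (nat_lit 2) (nat_lit 5) (nat_lit 2) (nat_lit 4) (nat_lit 550) (nat_lit 336) (nat_lit 314)) (XT.lf (nat_lit 0) (nat_lit 237094594585) (nat_lit 76) (nat_lit 287023865999) (nat_lit 76) (nat_lit 286711074934) (nat_lit 1) (nat_lit 4) (nat_lit 2) (nat_lit 5) (nat_lit 2) (nat_lit 4) (nat_lit 551) (nat_lit 336) (nat_lit 313))) (XT.nd (nat_lit 78) (nat_lit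 0) (nat_lit 0) (XT.lf (nat_lit 0) (nat_lit 255180949595) (nat_lit 76) (nat_lit 298178560310) (nat_lit 76) (nat_lit 297858578976) (nat_lit 1) (nat_lit 4) (nat_lit 2) (nat_lit 5) (nat_lit 2) (nat_lit 4) (nat_lit 552) (nat_lit 336) (nat_lit 312)) (XT.lf (nat_lit 0) (nat_lit 274056302204) (nat_lit 76) (nat_lit 309949713430) (nat_lit 76) (nat_lit 309622884222) (nat_lit 1) (nat_lit 4) (nat_lit 2) (nat_lit 5) (nat_lit 2) (nat_lit 4) (nat_lit 553) (nat_lit 336) (nat_lit 311)))) (XT.nd (nat_lit 156) (nat_lit 0) (nat_lit 0) (XT.nd (nat_lit 78) (nat_lit 0) (nat_lit 0) (XT.lf (nat_lit 0) (nat_lit 46085030972) (nat_lit 152) (nat_lit 29123962147) (nat_lit 0) (nat_lit 46085030972) (nat_lit 2) (nat_lit 5) (nat_lit 4) (nat_lit 4) (nat_lit 2) (nat_lit 4) (nat_lit 526) (nat_lit 337) (nat_lit 337)) (XT.lf (nat_lit 0) (nat_lit 102366193280) (nat_lit 152) (nat_lit 49727640054) (nat_lit 0) (nat_lit 102343003944) (nat_lit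 2) (nat_lit 5) (nat_lit 4) (nat_lit 4) (nat_lit 2) (nat_lit 4) (nat_lit 527) (nat_lit 337) (nat_lit 336))) (XT.nd (nat_lit 78) (nat_lit 0) (nat_lit 0) (XT.lf (nat_lit 0) (nat_lit 112895409938) (nat_lit 152) (nat_lit 41141356885) (nat_lit 0) (nat_lit 112850135521) (nat_lit 2) (nat_lit 5) (nat_lit 4) (nat_lit 4) (nat_lit 2) (nat_lit 4) (nat_lit 528) (nat_lit 337) (nat_lit 335)) (XT.lf (nat_lit 0) (nat_lit 123782781483) (nat_lit 152) (nat_lit 32468631254) (nat_lit 0) (nat_lit 123716473656) (nat_lit 2) (nat_lit 5) (nat_lit 4) (nat_lit 4) (nat_lit 2) (nat_lit 4) (nat_lit 529) (nat_lit 337) (nat_lit 334))))))))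
noncomputable def xc3 : XT := (XT.nd (nat_lit 62556) (nat_lit 0) (nat_lit 0) (XT.nd (nat_lit 1170) (nat_lit 0) (nat_lit 0) (XT.nd (nat_lit 546) (nat_lit 0) (nat_lit 0) (XT.nd (nat_lit 234) (nat_lit 76) (nat_lit 0) (XT.nd (nat_lit 78) (nat_lit 0) (nat_lit 0) (XT.lf (nat_lit 0) (nat_lit 135054230229) (nat_lit 152) (nat_lit 23688813818) (nat_lit 0) (nat_lit 134967890581) (nat_lit 2) (nat_lit 5) (nat_lit 4) (nat_lit 4) (nat_lit 2) (nat_lit 4) (nat_lit 530) (nat_lit 337) (nat_lit 333)) (XT.nd (nat_lit 78) (nat_lit 0) (nat_lit 0) (XT.lf (nat_lit 0) (nat_lit 146736592957) (nat_lit 152) (nat_lit 14781000246) (nat_lit 0) (nat_lit 146631175386) (nat_lit 2) (nat_lit 5) (nat_lit 4) (nat_lit 4) (nat_lit 2) (nat_lit 4) (nat_lit 531) (nat_lit 337) (nat_lit 332)) (XT.lf (nat_lit 0) (nat_lit 158857684818) (nat_lit 152) (nat_lit 5723981461) (nat_lit 0) (nat_lit 158734097796) (nat_lit 2) (nat_lit 5) (nat_lit 4)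 (nat_lit 4) (nat_lit 2) (nat_lit 4) (nat_lit 532) (nat_lit 337) (nat_lit 331)))) (XT.nd (nat_lit 156) (nat_lit 0) (nat_lit 0) (XT.nd (nat_lit 78) (nat_lit 0) (nat_lit 0) (XT.lf (nat_lit 0) (nat_lit 3619658547) (nat_lit 76) (nat_lit 167883220021) (nat_lit 76) (nat_lit 167742328759) (nat_lit 1) (nat_lit 4) (nat_lit 2) (nat_lit 5) (nat_lit 2) (nat_lit 4) (nat_lit 533) (nat_lit 337) (nat_lit 330)) (XT.lf (nat_lit 0) (nat_lit 13351672572) (nat_lit 76) (nat_lit 171389392668) (nat_lit 76) (nat_lit 171232021179) (nat_lit 1) (nat_lit 4) (nat_lit 2) (nat_lit 5) (nat_lit 2) (nat_lit 4) (nat_lit 534) (nat_lit 337) (nat_lit 329))) (XT.nd (nat_lit 78) (nat_lit 0) (nat_lit 0) (XT.lf (nat_lit 0) (nat_lit 23305971399) (nat_lit 76) (nat_lit 175205470647) (nat_lit 76) (nat_lit 175032403703) (nat_lit 1) (nat_lit 4) (nat_lit 2) (nat_lit 5) (nat_lit 2) (nat_lit 4) (nat_lit 535) (nat_lit 337) (nat_lit 328)) (XT.lf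 (nat_lit 0) (nat_lit 33506255739) (nat_lit 76) (nat_lit 179340539859) (nat_lit 76) (nat_lit 179152524862) (nat_lit 1) (nat_lit 4) (nat_lit 2) (nat_lit 5) (nat_lit 2) (nat_lit 4) (nat_lit 536) (nat_lit 337) (nat_lit 327))))) (XT.nd (nat_lit 312) (nat_lit 0) (nat_lit 0) (XT.nd (nat_lit 156) (nat_lit 0) (nat_lit 0) (XT.nd (nat_lit 78) (nat_lit 0) (nat_lit 0) (XT.lf (nat_lit 0) (nat_lit 43976811983) (nat_lit 76) (nat_lit 183804445705) (nat_lit 76) (nat_lit 183602194468) (nat_lit 1) (nat_lit 4) (nat_lit 2) (nat_lit 5) (nat_lit 2) (nat_lit 4) (nat_lit 537) (nat_lit 337) (nat_lit 326)) (XT.lf (nat_lit 0) (nat_lit 54742570028) (nat_lit 76) (nat_lit 188607816533) (nat_lit 76) (nat_lit 188392006972) (nat_lit 1) (nat_lit 4) (nat_lit 2) (nat_lit 5) (nat_lit 2) (nat_lit 4) (nat_lit 538) (nat_lit 337) (nat_lit 325))) (XT.nd (nat_lit 78) (nat_lit 0) (nat_lit 0) (XT.lf (nat_lit 0) (nat_lit 65829162629) (nat_lit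 76) (nat_lit 193762088941) (nat_lit 76) (nat_lit 193533366690) (nat_lit 1) (nat_lit 4) (nat_lit 2) (nat_lit 5) (nat_lit 2) (nat_lit 4) (nat_lit 539) (nat_lit 337) (nat_lit 324)) (XT.lf (nat_lit 0) (nat_lit 77262986437) (nat_lit 76) (nat_lit 199279535005) (nat_lit 76) (nat_lit 199038514954) (nat_lit 1) (nat_lit 4) (nat_lit 2) (nat_lit 5) (nat_lit 2) (nat_lit 4) (nat_lit 540) (nat_lit 337) (nat_lit 323)))) (XT.nd (nat_lit 156) (nat_lit 0) (nat_lit 0) (XT.nd (nat_lit 78) (nat_lit 0) (nat_lit 0) (XT.lf (nat_lit 0) (nat_lit 89071264842) (nat_lit 76) (nat_lit 205173291502) (nat_lit 76) (nat_lit 204920559261) (nat_lit 1) (nat_lit 4) (nat_lit 2) (nat_lit 5) (nat_lit 2) (nat_lit 4) (nat_lit 541) (nat_lit 337) (nat_lit 322)) (XT.lf (nat_lit 0) (nat_lit 101282112791) (nat_lit 76) (nat_lit 211457391185) (nat_lit 76) (nat_lit 211193504477) (nat_lit 1) (nat_lit 4) (nat_lit 2) (nat_lit 5) (nat_lit 2) (nat_lit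 4) (nat_lit 542) (nat_lit 337) (nat_lit 321))) (XT.nd (nat_lit 78) (nat_lit 0) (nat_lit 0) (XT.lf (nat_lit 0) (nat_lit 113924603733) (nat_lit 76) (nat_lit 218146796197) (nat_lit 76) (nat_lit 217872286188) (nat_lit 1) (nat_lit 4) (nat_lit 2) (nat_lit 5) (nat_lit 2) (nat_lit 4) (nat_lit 543) (nat_lit 337) (nat_lit 320)) (XT.lf (nat_lit 0) (nat_lit 127028838836) (nat_lit 76) (nat_lit 225257433692) (nat_lit 76) (nat_lit 224972806252) (nat_lit 1) (nat_lit 4) (nat_lit 2) (nat_lit 5) (nat_lit 2) (nat_lit 4) (nat_lit 544) (nat_lit 337) (nat_lit 319)))))) (XT.nd (nat_lit 624) (nat_lit 0) (nat_lit 0) (XT.nd (nat_lit 312) (nat_lit 0) (nat_lit 0) (XT.nd (nat_lit 156) (nat_lit 0) (nat_lit 0) (XT.nd (nat_lit 78) (nat_lit 0) (nat_lit 0) (XT.lf (nat_lit 0) (nat_lit 140626018661) (nat_lit 76) (nat_lit 232806233760) (nat_lit 76) (nat_lit 232511970672) (nat_lit 1) (nat_lit 4) (nat_lit 2) (nat_lit 5) (nat_lit 2)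 (nat_lit 4) (nat_lit 545) (nat_lit 337) (nat_lit 318)) (XT.lf (nat_lit 0) (nat_lit 154748517444) (nat_lit 76) (nat_lit 240811169734) (nat_lit 76) (nat_lit 240507729839) (nat_lit 1) (nat_lit 4) (nat_lit 2) (nat_lit 5) (nat_lit 2) (nat_lit 4) (nat_lit 546) (nat_lit 337) (nat_lit 317))) (XT.nd (nat_lit 78) (nat_lit 0) (nat_lit 0) (XT.lf (nat_lit 0) (nat_lit 169429960183) (nat_lit 76) (nat_lit 249291300985) (nat_lit 76) (nat_lit 248979121273) (nat_lit 1) (nat_lit 4) (nat_lit 2) (nat_lit 5) (nat_lit 2) (nat_lit 4) (nat_lit 547) (nat_lit 337) (nat_lit 316)) (XT.lf (nat_lit 0) (nat_lit 184705302695) (nat_lit 76) (nat_lit 258266818302) (nat_lit 76) (nat_lit 257946314956) (nat_lit 1) (nat_lit 4) (nat_lit 2) (nat_lit 5) (nat_lit 2) (nat_lit 4) (nat_lit 548) (nat_lit 337) (nat_lit 315)))) (XT.nd (nat_lit 156) (nat_lit 0) (nat_lit 0) (XT.nd (nat_lit 78) (nat_lit 0) (nat_lit 0) (XT.lf (nat_lit 0) (nat_lit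 200610914841) (nat_lit 76) (nat_lit 267759091965) (nat_lit 76) (nat_lit 267430661347) (nat_lit 1) (nat_lit 4) (nat_lit 2) (nat_lit 5) (nat_lit 2) (nat_lit 4) (nat_lit 549) (nat_lit 337) (nat_lit 314)) (XT.lf (nat_lit 0) (nat_lit 217184667128) (nat_lit 76) (nat_lit 277790722625) (nat_lit 76) (nat_lit 277454742225) (nat_lit 1) (nat_lit 4) (nat_lit 2) (nat_lit 5) (nat_lit 2) (nat_lit 4) (nat_lit 550) (nat_lit 337) (nat_lit 313))) (XT.nd (nat_lit 78) (nat_lit 0) (nat_lit 0) (XT.lf (nat_lit 0) (nat_lit 234466020869) (nat_lit 76) (nat_lit 288385595117) (nat_lit 76) (nat_lit 288042424448) (nat_lit 1) (nat_lit 4) (nat_lit 2) (nat_lit 5) (nat_lit 2) (nat_lit 4) (nat_lit 551) (nat_lit 337) (nat_lit 312)) (XT.lf (nat_lit 0) (nat_lit 252496122147) (nat_lit 76) (nat_lit 299568935327) (nat_lit 76) (nat_lit 299218916783) (nat_lit 1) (nat_lit 4) (nat_lit 2) (nat_lit 5) (nat_lit 2) (nat_lit 4) (nat_lit 552) (nat_lit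 337) (nat_lit 311))))) (XT.nd (nat_lit 60450) (nat_lit 0) (nat_lit 76) (XT.nd (nat_lit 60294) (nat_lit 0) (nat_lit 76) (XT.nd (nat_lit 60216) (nat_lit 0) (nat_lit 76) (XT.lf (nat_lit 0) (nat_lit 271317899772) (nat_lit 76) (nat_lit 311367370257) (nat_lit 76) (nat_lit 311010829928) (nat_lit 1) (nat_lit 4) (nat_lit 2) (nat_lit 5) (nat_lit 2) (nat_lit 4) (nat_lit 553) (nat_lit 337) (nat_lit 310)) (XT.lf (nat_lit 0) (nat_lit 36400037420) (nat_lit 152) (nat_lit 37488957370) (nat_lit 0) (nat_lit 36400037420) (nat_lit 2) (nat_lit 5) (nat_lit 4) (nat_lit 4) (nat_lit 2) (nat_lit 4) (nat_lit 524) (nat_lit 338) (nat_lit 338))) (XT.nd (nat_lit 78) (nat_lit 0) (nat_lit 0) (XT.lf (nat_lit 0) (nat_lit 82307088233) (nat_lit 152) (nat_lit 66722495998) (nat_lit 0) (nat_lit 82282739430) (nat_lit 2) (nat_lit 5) (nat_lit 4) (nat_lit 4) (nat_lit 2) (nat_lit 4) (nat_lit 525) (nat_lit 338) (nat_lit 337)) (XT.lf (nat_lit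 0) (nat_lit 92103894988) (nat_lit 152) (nat_lit 58432322367) (nat_lit 0) (nat_lit 92056356851) (nat_lit 2) (nat_lit 5) (nat_lit 4) (nat_lit 4) (nat_lit 2) (nat_lit 4) (nat_lit 526) (nat_lit 338) (nat_lit 336)))) (XT.nd (nat_lit 156) (nat_lit 0) (nat_lit 0) (XT.nd (nat_lit 78) (nat_lit 0) (nat_lit 0) (XT.lf (nat_lit 0) (nat_lit 102213820839) (nat_lit 152) (nat_lit 50087655337) (nat_lit 0) (nat_lit 102144197620) (nat_lit 2) (nat_lit 5) (nat_lit 4) (nat_lit 4) (nat_lit 2) (nat_lit 4) (nat_lit 527) (nat_lit 338) (nat_lit 335)) (XT.lf (nat_lit 0) (nat_lit 112660937036) (nat_lit 152) (nat_lit 41668626655) (nat_lit 0) (nat_lit 112570280406) (nat_lit 2) (nat_lit 5) (nat_lit 4) (nat_lit 4) (nat_lit 2) (nat_lit 4) (nat_lit 528) (nat_lit 338) (nat_lit 334))) (XT.nd (nat_lit 78) (nat_lit 0) (nat_lit 0) (XT.lf (nat_lit 0) (nat_lit 123470117665) (nat_lit 152) (nat_lit 33155191012) (nat_lit 0) (nat_lit 123359429216)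 (nat_lit 2) (nat_lit 5) (nat_lit 4) (nat_lit 4) (nat_lit 2) (nat_lit 4) (nat_lit 529) (nat_lit 338) (nat_lit 333)) (XT.lf (nat_lit 0) (nat_lit 134667098872) (nat_lit 152) (nat_lit 24527078325) (nat_lit 0) (nat_lit 134537332499) (nat_lit 2) (nat_lit 5) (nat_lit 4) (nat_lit 4) (nat_lit 2) (nat_lit 4) (nat_lit 530) (nat_lit 338) (nat_lit 332))))))) (XT.nd (nat_lit 1170) (nat_lit 0) (nat_lit 0) (XT.nd (nat_lit 546) (nat_lit 0) (nat_lit 0) (XT.nd (nat_lit 234) (nat_lit 0) (nat_lit 0) (XT.nd (nat_lit 78) (nat_lit 76) (nat_lit 0) (XT.lf (nat_lit 0) (nat_lit 146278540135) (nat_lit 152) (nat_lit 15763745468) (nat_lit 0) (nat_lit 146130604311) (nat_lit 2) (nat_lit 5) (nat_lit 4) (nat_lit 4) (nat_lit 2) (nat_lit 4) (nat_lit 531) (nat_lit 338) (nat_lit 331)) (XT.nd (nat_lit 78) (nat_lit 76) (nat_lit 0) (XT.lf (nat_lit 0) (nat_lit 158332087743) (nat_lit 152) (nat_lit 6844327363) (nat_lit 0) (nat_lit 158166847680)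 (nat_lit 2) (nat_lit 5) (nat_lit 4) (nat_lit 4) (nat_lit 2) (nat_lit 4) (nat_lit 532) (nat_lit 338) (nat_lit 330)) (XT.lf (nat_lit 0) (nat_lit 2326887634) (nat_lit 76) (nat_lit 168565882221) (nat_lit 76) (nat_lit 168384161930) (nat_lit 1) (nat_lit 4) (nat_lit 2) (nat_lit 5) (nat_lit 2) (nat_lit 4) (nat_lit 533) (nat_lit 338) (nat_lit 329)))) (XT.nd (nat_lit 156) (nat_lit 0) (nat_lit 0) (XT.nd (nat_lit 78) (nat_lit 0) (nat_lit 0) (XT.lf (nat_lit 0) (nat_lit 11929967075) (nat_lit 76) (nat_lit 172137711795) (nat_lit 76) (nat_lit 171940296049) (nat_lit 1) (nat_lit 4) (nat_lit 2) (nat_lit 5) (nat_lit 2) (nat_lit 4) (nat_lit 534) (nat_lit 338) (nat_lit 328)) (XT.lf (nat_lit 0) (nat_lit 21761471059) (nat_lit 76) (nat_lit 176016320181) (nat_lit 76) (nat_lit 175803956382) (nat_lit 1) (nat_lit 4) (nat_lit 2) (nat_lit 5) (nat_lit 2) (nat_lit 4) (nat_lit 535) (nat_lit 338) (nat_lit 327))) (XT.nd (nat_lit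 78) (nat_lit 0) (nat_lit 0) (XT.lf (nat_lit 0) (nat_lit 31844807929) (nat_lit 76) (nat_lit 180210942160) (nat_lit 76) (nat_lit 179984342121) (nat_lit 1) (nat_lit 4) (nat_lit 2) (nat_lit 5) (nat_lit 2) (nat_lit 4) (nat_lit 536) (nat_lit 338) (nat_lit 326)) (XT.lf (nat_lit 0) (nat_lit 42203985631) (nat_lit 76) (nat_lit 184731564928) (nat_lit 76) (nat_lit 184491406565) (nat_lit 1) (nat_lit 4) (nat_lit 2) (nat_lit 5) (nat_lit 2) (nat_lit 4) (nat_lit 537) (nat_lit 338) (nat_lit 325))))) (XT.nd (nat_lit 312) (nat_lit 0) (nat_lit 0) (XT.nd (nat_lit 156) (nat_lit 0) (nat_lit 0) (XT.nd (nat_lit 78) (nat_lit 0) (nat_lit 0) (XT.lf (nat_lit 0) (nat_lit 52863668873) (nat_lit 76) (nat_lit 189588951872) (nat_lit 76) (nat_lit 189335880819) (nat_lit 1) (nat_lit 4) (nat_lit 2) (nat_lit 5) (nat_lit 2) (nat_lit 4) (nat_lit 538) (nat_lit 338) (nat_lit 324)) (XT.lf (nat_lit 0) (nat_lit 63849237853) (nat_lit 76) (nat_lit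 194794668200) (nat_lit 76) (nat_lit 194529299347) (nat_lit 1) (nat_lit 4) (nat_lit 2) (nat_lit 5) (nat_lit 2) (nat_lit 4) (nat_lit 539) (nat_lit 338) (nat_lit 323))) (XT.nd (nat_lit 78) (nat_lit 0) (nat_lit 0) (XT.lf (nat_lit 0) (nat_lit 75186848688) (nat_lit 76) (nat_lit 200361108474) (nat_lit 76) (nat_lit 200084027431) (nat_lit 1) (nat_lit 4) (nat_lit 2) (nat_lit 5) (nat_lit 2) (nat_lit 4) (nat_lit 540) (nat_lit 338) (nat_lit 322)) (XT.lf (nat_lit 0) (nat_lit 86903495690) (nat_lit 76) (nat_lit 206301526123) (nat_lit 76) (nat_lit 206013290613) (nat_lit 1) (nat_lit 4) (nat_lit 2) (nat_lit 5) (nat_lit 2) (nat_lit 4) (nat_lit 541) (nat_lit 338) (nat_lit 321)))) (XT.nd (nat_lit 156) (nat_lit 0) (nat_lit 0) (XT.nd (nat_lit 78) (nat_lit 0) (nat_lit 0) (XT.lf (nat_lit 0) (nat_lit 99027075637) (nat_lit 76) (nat_lit 212630064998) (nat_lit 76) (nat_lit 212331206187) (nat_lit 1) (nat_lit 4) (nat_lit 2)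 (nat_lit 5) (nat_lit 2) (nat_lit 4) (nat_lit 542) (nat_lit 338) (nat_lit 320)) (XT.lf (nat_lit 0) (nat_lit 111586454196) (nat_lit 76) (nat_lit 219361793051) (nat_lit 76) (nat_lit 219052816809) (nat_lit 1) (nat_lit 4) (nat_lit 2) (nat_lit 5) (nat_lit 2) (nat_lit 4) (nat_lit 543) (nat_lit 338) (nat_lit 319))) (XT.nd (nat_lit 78) (nat_lit 0) (nat_lit 0) (XT.lf (nat_lit 0) (nat_lit 124611534648) (nat_lit 76) (nat_lit 226512738203) (nat_lit 76) (nat_lit 226194126314) (nat_lit 1) (nat_lit 4) (nat_lit 2) (nat_lit 5) (nat_lit 2) (nat_lit 4) (nat_lit 544) (nat_lit 338) (nat_lit 318)) (XT.lf (nat_lit 0) (nat_lit 138133329091) (nat_lit 76) (nat_lit 234099926516) (nat_lit 76) (nat_lit 233772137819) (nat_lit 1) (nat_lit 4) (nat_lit 2) (nat_lit 5) (nat_lit 2) (nat_lit 4) (nat_lit 545) (nat_lit 338) (nat_lit 317)))))) (XT.nd (nat_lit 60606) (nat_lit 0) (nat_lit 76) (XT.nd (nat_lit 312) (nat_lit 0) (nat_lit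 0) (XT.nd (nat_lit 156) (nat_lit 0) (nat_lit 0) (XT.nd (nat_lit 78) (nat_lit 0) (nat_lit 0) (XT.lf (nat_lit 0) (nat_lit 152184032273) (nat_lit 76) (nat_lit 242141422724) (nat_lit 76) (nat_lit 241804894210) (nat_lit 1) (nat_lit 4) (nat_lit 2) (nat_lit 5) (nat_lit 2) (nat_lit 4) (nat_lit 546) (nat_lit 338) (nat_lit 316)) (XT.lf (nat_lit 0) (nat_lit 166797098249) (nat_lit 76) (nat_lit 250656373245) (nat_lit 76) (nat_lit 250311521096) (nat_lit 1) (nat_lit 4) (nat_lit 2) (nat_lit 5) (nat_lit 2) (nat_lit 4) (nat_lit 547) (nat_lit 338) (nat_lit 315))) (XT.nd (nat_lit 78) (nat_lit 0) (nat_lit 0) (XT.lf (nat_lit 0) (nat_lit 182007320033) (nat_lit 76) (nat_lit 259665051772) (nat_lit 76) (nat_lit 259312272352) (nat_lit 1) (nat_lit 4) (nat_lit 2) (nat_lit 5) (nat_lit 2) (nat_lit 4) (nat_lit 548) (nat_lit 338) (nat_lit 314)) (XT.lf (nat_lit 0) (nat_lit 197850912439) (nat_lit 76) (nat_lit 269188907539) (nat_lit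 76) (nat_lit 268828578337) (nat_lit 1) (nat_lit 4) (nat_lit 2) (nat_lit 5) (nat_lit 2) (nat_lit 4) (nat_lit 549) (nat_lit 338) (nat_lit 313)))) (XT.nd (nat_lit 156) (nat_lit 0) (nat_lit 0) (XT.nd (nat_lit 78) (nat_lit 0) (nat_lit 0) (XT.lf (nat_lit 0) (nat_lit 214365598307) (nat_lit 76) (nat_lit 279250616393) (nat_lit 76) (nat_lit 278883096922) (nat_lit 1) (nat_lit 4) (nat_lit 2) (nat_lit 5) (nat_lit 2) (nat_lit 4) (nat_lit 550) (nat_lit 338) (nat_lit 312)) (XT.lf (nat_lit 0) (nat_lit 231590698316) (nat_lit 76) (nat_lit 289874134785) (nat_lit 76) (nat_lit 289499767439) (nat_lit 1) (nat_lit 4) (nat_lit 2) (nat_lit 5) (nat_lit 2) (nat_lit 4) (nat_lit 551) (nat_lit 338) (nat_lit 311))) (XT.nd (nat_lit 78) (nat_lit 0) (nat_lit 0) (XT.lf (nat_lit 0) (nat_lit 249567224610) (nat_lit 76) (nat_lit 301084756805) (nat_lit 76) (nat_lit 300703867673) (nat_lit 1) (nat_lit 4) (nat_lit 2) (nat_lit 5) (nat_lit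 2) (nat_lit 4) (nat_lit 552) (nat_lit 338) (nat_lit 310)) (XT.lf (nat_lit 0) (nat_lit 268337978442) (nat_lit 76) (nat_lit 312909174410) (nat_lit 76) (nat_lit 312522074054) (nat_lit 1) (nat_lit 4) (nat_lit 2) (nat_lit 5) (nat_lit 2) (nat_lit 4) (nat_lit 553) (nat_lit 338) (nat_lit 309))))) (XT.nd (nat_lit 312) (nat_lit 0) (nat_lit 0) (XT.nd (nat_lit 156) (nat_lit 0) (nat_lit 0) (XT.nd (nat_lit 78) (nat_lit 0) (nat_lit 0) (XT.lf (nat_lit 0) (nat_lit 27345440561) (nat_lit 152) (nat_lit 45629887882) (nat_lit 0) (nat_lit 27345440561) (nat_lit 2) (nat_lit 5) (nat_lit 4) (nat_lit 4) (nat_lit 2) (nat_lit 4) (nat_lit 522) (nat_lit 339) (nat_lit 339)) (XT.lf (nat_lit 0) (nat_lit 63585785310) (nat_lit 152) (nat_lit 83218234350) (nat_lit 0) (nat_lit 63560219068) (nat_lit 2) (nat_lit 5) (nat_lit 4) (nat_lit 4) (nat_lit 2) (nat_lit 4) (nat_lit 523) (nat_lit 339) (nat_lit 338))) (XT.nd (nat_lit 78) (nat_lit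 0) (nat_lit 0) (XT.lf (nat_lit 0) (nat_lit 72730599537) (nat_lit 152) (nat_lit 75171532715) (nat_lit 0) (nat_lit 72680684492) (nat_lit 2) (nat_lit 5) (nat_lit 4) (nat_lit 4) (nat_lit 2) (nat_lit 4) (nat_lit 524) (nat_lit 339) (nat_lit 337)) (XT.lf (nat_lit 0) (nat_lit 82147097170) (nat_lit 152) (nat_lit 67100512046) (nat_lit 0) (nat_lit 82073992790) (nat_lit 2) (nat_lit 5) (nat_lit 4) (nat_lit 4) (nat_lit 2) (nat_lit 4) (nat_lit 525) (nat_lit 339) (nat_lit 336)))) (XT.nd (nat_lit 156) (nat_lit 0) (nat_lit 0) (XT.nd (nat_lit 78) (nat_lit 0) (nat_lit 0) (XT.lf (nat_lit 0) (nat_lit 91857698441) (nat_lit 152) (nat_lit 58985955626) (nat_lit 0) (nat_lit 91762508979) (nat_lit 2) (nat_lit 5) (nat_lit 4) (nat_lit 4) (nat_lit 2) (nat_lit 4) (nat_lit 526) (nat_lit 339) (nat_lit 335)) (XT.lf (nat_lit 0) (nat_lit 101885523830) (nat_lit 152) (nat_lit 50808543083) (nat_lit 0) (nat_lit 101769300958) (nat_lit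 2) (nat_lit 5) (nat_lit 4) (nat_lit 4) (nat_lit 2) (nat_lit 4) (nat_lit 527) (nat_lit 339) (nat_lit 334))) (XT.nd (nat_lit 78) (nat_lit 0) (nat_lit 0) (XT.lf (nat_lit 0) (nat_lit 112254449111) (nat_lit 152) (nat_lit 42548804388) (nat_lit 0) (nat_lit 112118194419) (nat_lit 2) (nat_lit 5) (nat_lit 4) (nat_lit 4) (nat_lit 2) (nat_lit 4) (nat_lit 528) (nat_lit 339) (nat_lit 333)) (XT.lf (nat_lit 0) (nat_lit 122989162202) (nat_lit 152) (nat_lit 34187073495) (nat_lit 0) (nat_lit 122833829586) (nat_lit 2) (nat_lit 5) (nat_lit 4) (nat_lit 4) (nat_lit 2) (nat_lit 4) (nat_lit 529) (nat_lit 339) (nat_lit 332))))))))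
noncomputable def xc4 : XT := (XT.nd (nat_lit 62244) (nat_lit 0) (nat_lit 0) (XT.nd (nat_lit 1170) (nat_lit 0) (nat_lit 0) (XT.nd (nat_lit 546) (nat_lit 0) (nat_lit 0) (XT.nd (nat_lit 234) (nat_lit 76) (nat_lit 0) (XT.nd (nat_lit 78) (nat_lit 0) (nat_lit 0) (XT.lf (nat_lit 0) (nat_lit 134115221943) (nat_lit 152) (nat_lit 25703441523) (nat_lit 0) (nat_lit 133941719877) (nat_lit 2) (nat_lit 5) (nat_lit 4) (nat_lit 4) (nat_lit 2) (nat_lit 4) (nat_lit 530) (nat_lit 339) (nat_lit 331)) (XT.nd (nat_lit 78) (nat_lit 0) (nat_lit 0) (XT.lf (nat_lit 0) (nat_lit 145659118954) (nat_lit 152) (nat_lit 17077709346) (nat_lit 0) (nat_lit 145468312648) (nat_lit 2) (nat_lit 5) (nat_lit 4) (nat_lit 4) (nat_lit 2) (nat_lit 4) (nat_lit 531) (nat_lit 339) (nat_lit 330)) (XT.lf (nat_lit 0) (nat_lit 157648338702) (nat_lit 152) (nat_lit 8289339508) (nat_lit 0) (nat_lit 157441052168) (nat_lit 2) (nat_lit 5) (nat_lit 4)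 (nat_lit 4) (nat_lit 2) (nat_lit 4) (nat_lit 532) (nat_lit 339) (nat_lit 329)))) (XT.nd (nat_lit 156) (nat_lit 0) (nat_lit 0) (XT.nd (nat_lit 78) (nat_lit 0) (nat_lit 0) (XT.lf (nat_lit 0) (nat_lit 705162277) (nat_lit 76) (nat_lit 169417274231) (nat_lit 76) (nat_lit 169194292243) (nat_lit 1) (nat_lit 4) (nat_lit 2) (nat_lit 5) (nat_lit 2) (nat_lit 4) (nat_lit 533) (nat_lit 339) (nat_lit 328)) (XT.lf (nat_lit 0) (nat_lit 10185446874) (nat_lit 76) (nat_lit 173051634212) (nat_lit 76) (nat_lit 172813704171) (nat_lit 1) (nat_lit 4) (nat_lit 2) (nat_lit 5) (nat_lit 2) (nat_lit 4) (nat_lit 534) (nat_lit 339) (nat_lit 327))) (XT.nd (nat_lit 78) (nat_lit 0) (nat_lit 0) (XT.lf (nat_lit 0) (nat_lit 19900003388) (nat_lit 76) (nat_lit 176989795365) (nat_lit 76) (nat_lit 176737629084) (nat_lit 1) (nat_lit 4) (nat_lit 2) (nat_lit 5) (nat_lit 2) (nat_lit 4) (nat_lit 535) (nat_lit 339) (nat_lit 326)) (XT.lf (nat_lit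 0) (nat_lit 29871961716) (nat_lit 76) (nat_lit 181241134266) (nat_lit 76) (nat_lit 180975409661) (nat_lit 1) (nat_lit 4) (nat_lit 2) (nat_lit 5) (nat_lit 2) (nat_lit 4) (nat_lit 536) (nat_lit 339) (nat_lit 325))))) (XT.nd (nat_lit 312) (nat_lit 0) (nat_lit 0) (XT.nd (nat_lit 156) (nat_lit 0) (nat_lit 0) (XT.nd (nat_lit 78) (nat_lit 0) (nat_lit 0) (XT.lf (nat_lit 0) (nat_lit 40125064615) (nat_lit 76) (nat_lit 185815773150) (nat_lit 76) (nat_lit 185537135855) (nat_lit 1) (nat_lit 4) (nat_lit 2) (nat_lit 5) (nat_lit 2) (nat_lit 4) (nat_lit 537) (nat_lit 339) (nat_lit 324)) (XT.lf (nat_lit 0) (nat_lit 50683724236) (nat_lit 76) (nat_lit 190724604015) (nat_lit 76) (nat_lit 190433668920) (nat_lit 1) (nat_lit 4) (nat_lit 2) (nat_lit 5) (nat_lit 2) (nat_lit 4) (nat_lit 538) (nat_lit 339) (nat_lit 323))) (XT.nd (nat_lit 78) (nat_lit 0) (nat_lit 0) (XT.lf (nat_lit 0) (nat_lit 61573080244) (nat_lit 76) (nat_lit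 195979314552) (nat_lit 76) (nat_lit 195676667267) (nat_lit 1) (nat_lit 4) (nat_lit 2) (nat_lit 5) (nat_lit 2) (nat_lit 4) (nat_lit 539) (nat_lit 339) (nat_lit 322)) (XT.lf (nat_lit 0) (nat_lit 72819059677) (nat_lit 76) (nat_lit 201592415978) (nat_lit 76) (nat_lit 201278614226) (nat_lit 1) (nat_lit 4) (nat_lit 2) (nat_lit 5) (nat_lit 2) (nat_lit 4) (nat_lit 540) (nat_lit 339) (nat_lit 321)))) (XT.nd (nat_lit 156) (nat_lit 0) (nat_lit 0) (XT.nd (nat_lit 78) (nat_lit 0) (nat_lit 0) (XT.lf (nat_lit 0) (nat_lit 84448438676) (nat_lit 76) (nat_lit 207577272819) (nat_lit 76) (nat_lit 207252847765) (nat_lit 1) (nat_lit 4) (nat_lit 2) (nat_lit 5) (nat_lit 2) (nat_lit 4) (nat_lit 541) (nat_lit 339) (nat_lit 320)) (XT.lf (nat_lit 0) (nat_lit 96488906240) (nat_lit 76) (nat_lit 213948134735) (nat_lit 76) (nat_lit 213613592251) (nat_lit 1) (nat_lit 4) (nat_lit 2) (nat_lit 5) (nat_lit 2) (nat_lit 4) (nat_lit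 542) (nat_lit 339) (nat_lit 319))) (XT.nd (nat_lit 78) (nat_lit 0) (nat_lit 0) (XT.lf (nat_lit 0) (nat_lit 108969130148) (nat_lit 76) (nat_lit 220720170445) (nat_lit 76) (nat_lit 220375992313) (nat_lit 1) (nat_lit 4) (nat_lit 2) (nat_lit 5) (nat_lit 2) (nat_lit 4) (nat_lit 543) (nat_lit 339) (nat_lit 318)) (XT.lf (nat_lit 0) (nat_lit 121918825219) (nat_lit 76) (nat_lit 227909503843) (nat_lit 76) (nat_lit 227556148903) (nat_lit 1) (nat_lit 4) (nat_lit 2) (nat_lit 5) (nat_lit 2) (nat_lit 4) (nat_lit 544) (nat_lit 339) (nat_lit 317)))))) (XT.nd (nat_lit 624) (nat_lit 0) (nat_lit 0) (XT.nd (nat_lit 312) (nat_lit 0) (nat_lit 0) (XT.nd (nat_lit 156) (nat_lit 0) (nat_lit 0) (XT.nd (nat_lit 78) (nat_lit 0) (nat_lit 0) (XT.lf (nat_lit 0) (nat_lit 135368824060) (nat_lit 76) (nat_lit 235533252389) (nat_lit 76) (nat_lit 235171157633) (nat_lit 1) (nat_lit 4) (nat_lit 2) (nat_lit 5) (nat_lit 2) (nat_lit 4)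 (nat_lit 545) (nat_lit 339) (nat_lit 316)) (XT.lf (nat_lit 0) (nat_lit 149351150478) (nat_lit 76) (nat_lit 243609567867) (nat_lit 76) (nat_lit 243239149476) (nat_lit 1) (nat_lit 4) (nat_lit 2) (nat_lit 5) (nat_lit 2) (nat_lit 4) (nat_lit 546) (nat_lit 339) (nat_lit 315))) (XT.nd (nat_lit 78) (nat_lit 0) (nat_lit 0) (XT.lf (nat_lit 0) (nat_lit 163899095727) (nat_lit 76) (nat_lit 252157679597) (nat_lit 76) (nat_lit 251779333935) (nat_lit 1) (nat_lit 4) (nat_lit 2) (nat_lit 5) (nat_lit 2) (nat_lit 4) (nat_lit 547) (nat_lit 339) (nat_lit 314)) (XT.lf (nat_lit 0) (nat_lit 179047297771) (nat_lit 76) (nat_lit 261197940229) (nat_lit 76) (nat_lit 260812044784) (nat_lit 1) (nat_lit 4) (nat_lit 2) (nat_lit 5) (nat_lit 2) (nat_lit 4) (nat_lit 548) (nat_lit 339) (nat_lit 313)))) (XT.nd (nat_lit 156) (nat_lit 0) (nat_lit 0) (XT.nd (nat_lit 78) (nat_lit 0) (nat_lit 0) (XT.lf (nat_lit 0) (nat_lit 194831823758)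 (nat_lit 76) (nat_lit 270751874190) (nat_lit 76) (nat_lit 270358788477) (nat_lit 1) (nat_lit 4) (nat_lit 2) (nat_lit 5) (nat_lit 2) (nat_lit 4) (nat_lit 549) (nat_lit 339) (nat_lit 312)) (XT.lf (nat_lit 0) (nat_lit 211290255893) (nat_lit 76) (nat_lit 280842228944) (nat_lit 76) (nat_lit 280442295356) (nat_lit 1) (nat_lit 4) (nat_lit 2) (nat_lit 5) (nat_lit 2) (nat_lit 4) (nat_lit 550) (nat_lit 339) (nat_lit 311))) (XT.nd (nat_lit 78) (nat_lit 0) (nat_lit 0) (XT.lf (nat_lit 0) (nat_lit 228461780920) (nat_lit 76) (nat_lit 291493029145) (nat_lit 76) (nat_lit 291086573771) (nat_lit 1) (nat_lit 4) (nat_lit 2) (nat_lit 5) (nat_lit 2) (nat_lit 4) (nat_lit 551) (nat_lit 339) (nat_lit 310)) (XT.lf (nat_lit 0) (nat_lit 246387283420) (nat_lit 76) (nat_lit 302729633840) (nat_lit 76) (nat_lit 302316967242) (nat_lit 1) (nat_lit 4) (nat_lit 2) (nat_lit 5) (nat_lit 2) (nat_lit 4) (nat_lit 552) (nat_lit 339) (nat_lit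 309))))) (XT.nd (nat_lit 60138) (nat_lit 0) (nat_lit 76) (XT.nd (nat_lit 59982) (nat_lit 0) (nat_lit 76) (XT.nd (nat_lit 59904) (nat_lit 0) (nat_lit 76) (XT.lf (nat_lit 0) (nat_lit 265109443163) (nat_lit 76) (nat_lit 314578796851) (nat_lit 76) (nat_lit 314160214800) (nat_lit 1) (nat_lit 4) (nat_lit 2) (nat_lit 5) (nat_lit 2) (nat_lit 4) (nat_lit 553) (nat_lit 339) (nat_lit 308)) (XT.lf (nat_lit 0) (nat_lit 18849130974) (nat_lit 152) (nat_lit 53595266760) (nat_lit 0) (nat_lit 18849130974) (nat_lit 2) (nat_lit 5) (nat_lit 4) (nat_lit 4) (nat_lit 2) (nat_lit 4) (nat_lit 520) (nat_lit 340) (nat_lit 340))) (XT.nd (nat_lit 78) (nat_lit 0) (nat_lit 0) (XT.lf (nat_lit 0) (nat_lit 46051553184) (nat_lit 152) (nat_lit 99315303485) (nat_lit 0) (nat_lit 46024708630) (nat_lit 2) (nat_lit 5) (nat_lit 4) (nat_lit 4) (nat_lit 2) (nat_lit 4) (nat_lit 521) (nat_lit 340) (nat_lit 339)) (XT.lf (nat_lit 0) (nat_lit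 54617932053) (nat_lit 152) (nat_lit 91463074639) (nat_lit 0) (nat_lit 54565521256) (nat_lit 2) (nat_lit 5) (nat_lit 4) (nat_lit 4) (nat_lit 2) (nat_lit 4) (nat_lit 522) (nat_lit 340) (nat_lit 338)))) (XT.nd (nat_lit 156) (nat_lit 0) (nat_lit 0) (XT.nd (nat_lit 78) (nat_lit 0) (nat_lit 0) (XT.lf (nat_lit 0) (nat_lit 63417794694) (nat_lit 152) (nat_lit 83615151200) (nat_lit 0) (nat_lit 63341035095) (nat_lit 2) (nat_lit 5) (nat_lit 4) (nat_lit 4) (nat_lit 2) (nat_lit 4) (nat_lit 523) (nat_lit 340) (nat_lit 337)) (XT.lf (nat_lit 0) (nat_lit 72472093162) (nat_lit 152) (nat_lit 75752847637) (nat_lit 0) (nat_lit 72372144228) (nat_lit 2) (nat_lit 5) (nat_lit 4) (nat_lit 4) (nat_lit 2) (nat_lit 4) (nat_lit 524) (nat_lit 340) (nat_lit 336))) (XT.nd (nat_lit 78) (nat_lit 0) (nat_lit 0) (XT.lf (nat_lit 0) (nat_lit 81802385310) (nat_lit 152) (nat_lit 67857444178) (nat_lit 0) (nat_lit 81680351295) (nat_lit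 2) (nat_lit 5) (nat_lit 4) (nat_lit 4) (nat_lit 2) (nat_lit 4) (nat_lit 525) (nat_lit 340) (nat_lit 335)) (XT.lf (nat_lit 0) (nat_lit 91430886120) (nat_lit 152) (nat_lit 59910142245) (nat_lit 0) (nat_lit 91287818693) (nat_lit 2) (nat_lit 5) (nat_lit 4) (nat_lit 4) (nat_lit 2) (nat_lit 4) (nat_lit 526) (nat_lit 340) (nat_lit 334))))))) (XT.nd (nat_lit 1170) (nat_lit 0) (nat_lit 0) (XT.nd (nat_lit 546) (nat_lit 76) (nat_lit 0) (XT.nd (nat_lit 234) (nat_lit 0) (nat_lit 0) (XT.nd (nat_lit 78) (nat_lit 0) (nat_lit 0) (XT.lf (nat_lit 0) (nat_lit 101380520593) (nat_lit 152) (nat_lit 51892019690) (nat_lit 0) (nat_lit 101217421347) (nat_lit 2) (nat_lit 5) (nat_lit 4) (nat_lit 4) (nat_lit 2) (nat_lit 4) (nat_lit 527) (nat_lit 340) (nat_lit 333)) (XT.nd (nat_lit 78) (nat_lit 0) (nat_lit 0) (XT.lf (nat_lit 0) (nat_lit 111674978336) (nat_lit 152) (nat_lit 43783985745) (nat_lit 0) (nat_lit 111492801166) (nat_lit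 2) (nat_lit 5) (nat_lit 4) (nat_lit 4) (nat_lit 2) (nat_lit 4) (nat_lit 528) (nat_lit 340) (nat_lit 332)) (XT.lf (nat_lit 0) (nat_lit 122338769962) (nat_lit 152) (nat_lit 35566735567) (nat_lit 0) (nat_lit 122138423340) (nat_lit 2) (nat_lit 5) (nat_lit 4) (nat_lit 4) (nat_lit 2) (nat_lit 4) (nat_lit 529) (nat_lit 340) (nat_lit 331)))) (XT.nd (nat_lit 156) (nat_lit 0) (nat_lit 0) (XT.nd (nat_lit 78) (nat_lit 0) (nat_lit 0) (XT.lf (nat_lit 0) (nat_lit 133397285450) (nat_lit 152) (nat_lit 27220704275) (nat_lit 0) (nat_lit 133179634590) (nat_lit 2) (nat_lit 5) (nat_lit 4) (nat_lit 4) (nat_lit 2) (nat_lit 4) (nat_lit 530) (nat_lit 340) (nat_lit 330)) (XT.lf (nat_lit 0) (nat_lit 144876854601) (nat_lit 152) (nat_lit 18726020365) (nat_lit 0) (nat_lit 144642723512) (nat_lit 2) (nat_lit 5) (nat_lit 4) (nat_lit 4) (nat_lit 2) (nat_lit 4) (nat_lit 531) (nat_lit 340) (nat_lit 329))) (XT.nd (nat_lit 78) (nat_lit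 0) (nat_lit 0) (XT.lf (nat_lit 0) (nat_lit 156804809721) (nat_lit 152) (nat_lit 10062458401) (nat_lit 0) (nat_lit 156554983177) (nat_lit 2) (nat_lit 5) (nat_lit 4) (nat_lit 4) (nat_lit 2) (nat_lit 4) (nat_lit 532) (nat_lit 340) (nat_lit 328)) (XT.lf (nat_lit 0) (nat_lit 169209550703) (nat_lit 152) (nat_lit 1209390852) (nat_lit 0) (nat_lit 168944776107) (nat_lit 2) (nat_lit 5) (nat_lit 4) (nat_lit 4) (nat_lit 2) (nat_lit 4) (nat_lit 533) (nat_lit 340) (nat_lit 327))))) (XT.nd (nat_lit 312) (nat_lit 0) (nat_lit 0) (XT.nd (nat_lit 156) (nat_lit 0) (nat_lit 0) (XT.nd (nat_lit 78) (nat_lit 0) (nat_lit 0) (XT.lf (nat_lit 0) (nat_lit 8113958351) (nat_lit 76) (nat_lit 174133335923) (nat_lit 76) (nat_lit 173854325087) (nat_lit 1) (nat_lit 4) (nat_lit 2) (nat_lit 5) (nat_lit 2) (nat_lit 4) (nat_lit 534) (nat_lit 340) (nat_lit 326)) (XT.lf (nat_lit 0) (nat_lit 17717136322) (nat_lit 76) (nat_lit 178128213999)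 (nat_lit 76) (nat_lit 177835644839) (nat_lit 1) (nat_lit 4) (nat_lit 2) (nat_lit 5) (nat_lit 2) (nat_lit 4) (nat_lit 535) (nat_lit 340) (nat_lit 325))) (XT.nd (nat_lit 78) (nat_lit 0) (nat_lit 0) (XT.lf (nat_lit 0) (nat_lit 27583019848) (nat_lit 76) (nat_lit 182433569016) (nat_lit 76) (nat_lit 182128087166) (nat_lit 1) (nat_lit 4) (nat_lit 2) (nat_lit 5) (nat_lit 2) (nat_lit 4) (nat_lit 536) (nat_lit 340) (nat_lit 324)) (XT.lf (nat_lit 0) (nat_lit 37735099126) (nat_lit 76) (nat_lit 187059651820) (nat_lit 76) (nat_lit 186741872171) (nat_lit 1) (nat_lit 4) (nat_lit 2) (nat_lit 5) (nat_lit 2) (nat_lit 4) (nat_lit 537) (nat_lit 340) (nat_lit 323)))) (XT.nd (nat_lit 156) (nat_lit 0) (nat_lit 0) (XT.nd (nat_lit 78) (nat_lit 0) (nat_lit 0) (XT.lf (nat_lit 0) (nat_lit 48197545774) (nat_lit 76) (nat_lit 192017476894) (nat_lit 76) (nat_lit 191687985054) (nat_lit 1) (nat_lit 4) (nat_lit 2) (nat_lit 5) (nat_lit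 2) (nat_lit 4) (nat_lit 538) (nat_lit 340) (nat_lit 322)) (XT.lf (nat_lit 0) (nat_lit 58995270379) (nat_lit 76) (nat_lit 197318848583) (nat_lit 76) (nat_lit 196978202277) (nat_lit 1) (nat_lit 4) (nat_lit 2) (nat_lit 5) (nat_lit 2) (nat_lit 4) (nat_lit 539) (nat_lit 340) (nat_lit 321))) (XT.nd (nat_lit 78) (nat_lit 0) (nat_lit 0) (XT.lf (nat_lit 0) (nat_lit 70153981809) (nat_lit 76) (nat_lit 202976389201) (nat_lit 76) (nat_lit 202625119593) (nat_lit 1) (nat_lit 4) (nat_lit 2) (nat_lit 5) (nat_lit 2) (nat_lit 4) (nat_lit 540) (nat_lit 340) (nat_lit 320)) (XT.lf (nat_lit 0) (nat_lit 81700248426) (nat_lit 76) (nat_lit 209003569083) (nat_lit 76) (nat_lit 208642182045) (nat_lit 1) (nat_lit 4) (nat_lit 2) (nat_lit 5) (nat_lit 2) (nat_lit 4) (nat_lit 541) (nat_lit 340) (nat_lit 319)))))) (XT.nd (nat_lit 624) (nat_lit 0) (nat_lit 0) (XT.nd (nat_lit 312) (nat_lit 0) (nat_lit 0) (XT.nd (nat_lit 156) (nat_lit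 0) (nat_lit 0) (XT.nd (nat_lit 78) (nat_lit 0) (nat_lit 0) (XT.lf (nat_lit 0) (nat_lit 93661561339) (nat_lit 76) (nat_lit 215414738657) (nat_lit 76) (nat_lit 215043715970) (nat_lit 1) (nat_lit 4) (nat_lit 2) (nat_lit 5) (nat_lit 2) (nat_lit 4) (nat_lit 542) (nat_lit 340) (nat_lit 318)) (XT.lf (nat_lit 0) (nat_lit 106066399865) (nat_lit 76) (nat_lit 222225162611) (nat_lit 76) (nat_lit 221844963118) (nat_lit 1) (nat_lit 4) (nat_lit 2) (nat_lit 5) (nat_lit 2) (nat_lit 4) (nat_lit 543) (nat_lit 340) (nat_lit 317))) (XT.nd (nat_lit 78) (nat_lit 0) (nat_lit 0) (XT.lf (nat_lit 0) (nat_lit 118944299334) (nat_lit 76) (nat_lit 229451056243) (nat_lit 76) (nat_lit 229062116932) (nat_lit 1) (nat_lit 4) (nat_lit 2) (nat_lit 5) (nat_lit 2) (nat_lit 4) (nat_lit 544) (nat_lit 340) (nat_lit 316)) (XT.lf (nat_lit 0) (nat_lit 132325921412) (nat_lit 76) (nat_lit 237109624059) (nat_lit 76) (nat_lit 236712361114) (nat_lit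 1) (nat_lit 4) (nat_lit 2) (nat_lit 5) (nat_lit 2) (nat_lit 4) (nat_lit 545) (nat_lit 340) (nat_lit 315)))) (XT.nd (nat_lit 156) (nat_lit 0) (nat_lit 0) (XT.nd (nat_lit 78) (nat_lit 0) (nat_lit 0) (XT.lf (nat_lit 0) (nat_lit 146243127103) (nat_lit 76) (nat_lit 245219100746) (nat_lit 76) (nat_lit 244813910530) (nat_lit 1) (nat_lit 4) (nat_lit 2) (nat_lit 5) (nat_lit 2) (nat_lit 4) (nat_lit 546) (nat_lit 340) (nat_lit 314)) (XT.lf (nat_lit 0) (nat_lit 160729052612) (nat_lit 76) (nat_lit 253798794581) (nat_lit 76) (nat_lit 253386054582) (nat_lit 1) (nat_lit 4) (nat_lit 2) (nat_lit 5) (nat_lit 2) (nat_lit 4) (nat_lit 547) (nat_lit 340) (nat_lit 313))) (XT.nd (nat_lit 78) (nat_lit 0) (nat_lit 0) (XT.lf (nat_lit 0) (nat_lit 175818188237) (nat_lit 76) (nat_lit 262869133407) (nat_lit 76) (nat_lit 262449203140) (nat_lit 1) (nat_lit 4) (nat_lit 2) (nat_lit 5) (nat_lit 2) (nat_lit 4) (nat_lit 548) (nat_lit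 340) (nat_lit 312)) (XT.lf (nat_lit 0) (nat_lit 191546460492) (nat_lit 76) (nat_lit 272451713269) (nat_lit 76) (nat_lit 272024935126) (nat_lit 1) (nat_lit 4) (nat_lit 2) (nat_lit 5) (nat_lit 2) (nat_lit 4) (nat_lit 549) (nat_lit 340) (nat_lit 311))))) (XT.nd (nat_lit 59982) (nat_lit 0) (nat_lit 76) (XT.nd (nat_lit 156) (nat_lit 0) (nat_lit 0) (XT.nd (nat_lit 78) (nat_lit 0) (nat_lit 0) (XT.lf (nat_lit 0) (nat_lit 207951317644) (nat_lit 76) (nat_lit 282569349832) (nat_lit 76) (nat_lit 282136049903) (nat_lit 1) (nat_lit 4) (nat_lit 2) (nat_lit 5) (nat_lit 2) (nat_lit 4) (nat_lit 550) (nat_lit 340) (nat_lit 310)) (XT.lf (nat_lit 0) (nat_lit 225071818876) (nat_lit 76) (nat_lit 293246132708) (nat_lit 76) (nat_lit 292806621555) (nat_lit 1) (nat_lit 4) (nat_lit 2) (nat_lit 5) (nat_lit 2) (nat_lit 4) (nat_lit 551) (nat_lit 340) (nat_lit 309))) (XT.nd (nat_lit 78) (nat_lit 0) (nat_lit 0) (XT.lf (nat_lit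 0) (nat_lit 242948727287) (nat_lit 76) (nat_lit 304507482808) (nat_lit 76) (nat_lit 304062056203) (nat_lit 1) (nat_lit 4) (nat_lit 2) (nat_lit 5) (nat_lit 2) (nat_lit 4) (nat_lit 552) (nat_lit 340) (nat_lit 308)) (XT.lf (nat_lit 0) (nat_lit 261624606945) (nat_lit 76) (nat_lit 316380212871) (nat_lit 76) (nat_lit 315929152503) (nat_lit 1) (nat_lit 4) (nat_lit 2) (nat_lit 5) (nat_lit 2) (nat_lit 4) (nat_lit 553) (nat_lit 340) (nat_lit 307)))) (XT.nd (nat_lit 156) (nat_lit 0) (nat_lit 0) (XT.nd (nat_lit 78) (nat_lit 0) (nat_lit 0) (XT.lf (nat_lit 0) (nat_lit 10845028235) (nat_lit 152) (nat_lit 61430480878) (nat_lit 0) (nat_lit 10845028235) (nat_lit 2) (nat_lit 5) (nat_lit 4) (nat_lit 4) (nat_lit 2) (nat_lit 4) (nat_lit 518) (nat_lit 341) (nat_lit 341)) (XT.lf (nat_lit 0) (nat_lit 29566356339) (nat_lit 152) (nat_lit 115107515296) (nat_lit 0) (nat_lit 29538169556) (nat_lit 2) (nat_lit 5) (nat_lit 4)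 (nat_lit 4) (nat_lit 2) (nat_lit 4) (nat_lit 519) (nat_lit 341) (nat_lit 340))) (XT.nd (nat_lit 78) (nat_lit 0) (nat_lit 0) (XT.lf (nat_lit 0) (nat_lit 37621665425) (nat_lit 152) (nat_lit 107403997339) (nat_lit 0) (nat_lit 37566634089) (nat_lit 2) (nat_lit 5) (nat_lit 4) (nat_lit 4) (nat_lit 2) (nat_lit 4) (nat_lit 520) (nat_lit 341) (nat_lit 339)) (XT.lf (nat_lit 0) (nat_lit 45875163037) (nat_lit 152) (nat_lit 99732066177) (nat_lit 0) (nat_lit 45794565458) (nat_lit 2) (nat_lit 5) (nat_lit 4) (nat_lit 4) (nat_lit 2) (nat_lit 4) (nat_lit 521) (nat_lit 341) (nat_lit 338))))))))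
noncomputable def xc5 : XT := (XT.nd (nat_lit 2418) (nat_lit 0) (nat_lit 0) (XT.nd (nat_lit 1170) (nat_lit 0) (nat_lit 0) (XT.nd (nat_lit 546) (nat_lit 76) (nat_lit 0) (XT.nd (nat_lit 234) (nat_lit 0) (nat_lit 0) (XT.nd (nat_lit 78) (nat_lit 0) (nat_lit 0) (XT.lf (nat_lit 0) (nat_lit 54346500359) (nat_lit 152) (nat_lit 92073455306) (nat_lit 0) (nat_lit 54241553978) (nat_lit 2) (nat_lit 5) (nat_lit 4) (nat_lit 4) (nat_lit 2) (nat_lit 4) (nat_lit 522) (nat_lit 341) (nat_lit 337)) (XT.nd (nat_lit 78) (nat_lit 0) (nat_lit 0) (XT.lf (nat_lit 0) (nat_lit 63055847242) (nat_lit 152) (nat_lit 84409929940) (nat_lit 0) (nat_lit 62927711525) (nat_lit 2) (nat_lit 5) (nat_lit 4) (nat_lit 4) (nat_lit 2) (nat_lit 4) (nat_lit 523) (nat_lit 341) (nat_lit 336)) (XT.lf (nat_lit 0) (nat_lit 72023940225) (nat_lit 152) (nat_lit 76723243588) (nat_lit 0) (nat_lit 71873719427) (nat_lit 2) (nat_lit 5) (nat_lit 4) (nat_lit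 4) (nat_lit 2) (nat_lit 4) (nat_lit 524) (nat_lit 341) (nat_lit 335)))) (XT.nd (nat_lit 156) (nat_lit 0) (nat_lit 0) (XT.nd (nat_lit 78) (nat_lit 0) (nat_lit 0) (XT.lf (nat_lit 0) (nat_lit 81272131912) (nat_lit 152) (nat_lit 68995094616) (nat_lit 0) (nat_lit 81100877703) (nat_lit 2) (nat_lit 5) (nat_lit 4) (nat_lit 4) (nat_lit 2) (nat_lit 4) (nat_lit 525) (nat_lit 341) (nat_lit 334)) (XT.lf (nat_lit 0) (nat_lit 90822441806) (nat_lit 152) (nat_lit 61207082671) (nat_lit 0) (nat_lit 90631155778) (nat_lit 2) (nat_lit 5) (nat_lit 4) (nat_lit 4) (nat_lit 2) (nat_lit 4) (nat_lit 526) (nat_lit 341) (nat_lit 333))) (XT.nd (nat_lit 78) (nat_lit 0) (nat_lit 0) (XT.lf (nat_lit 0) (nat_lit 100697608741) (nat_lit 152) (nat_lit 53340664866) (nat_lit 0) (nat_lit 100487244788) (nat_lit 2) (nat_lit 5) (nat_lit 4) (nat_lit 4) (nat_lit 2) (nat_lit 4) (nat_lit 527) (nat_lit 341) (nat_lit 332)) (XT.lf (nat_lit 0)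 (nat_lit 110921145018) (nat_lit 152) (nat_lit 45377111635) (nat_lit 0) (nat_lit 110692611615) (nat_lit 2) (nat_lit 5) (nat_lit 4) (nat_lit 4) (nat_lit 2) (nat_lit 4) (nat_lit 528) (nat_lit 341) (nat_lit 331))))) (XT.nd (nat_lit 312) (nat_lit 76) (nat_lit 0) (XT.nd (nat_lit 156) (nat_lit 0) (nat_lit 0) (XT.nd (nat_lit 78) (nat_lit 0) (nat_lit 0) (XT.lf (nat_lit 0) (nat_lit 121517392391) (nat_lit 152) (nat_lit 37297462137) (nat_lit 0) (nat_lit 121271554748) (nat_lit 2) (nat_lit 5) (nat_lit 4) (nat_lit 4) (nat_lit 2) (nat_lit 4) (nat_lit 529) (nat_lit 341) (nat_lit 330)) (XT.lf (nat_lit 0) (nat_lit 132511580020) (nat_lit 152) (nat_lit 29082479112) (nat_lit 0) (nat_lit 132249262149) (nat_lit 2) (nat_lit 5) (nat_lit 4) (nat_lit 4) (nat_lit 2) (nat_lit 4) (nat_lit 530) (nat_lit 341) (nat_lit 329))) (XT.nd (nat_lit 78) (nat_lit 0) (nat_lit 0) (XT.lf (nat_lit 0) (nat_lit 143929884542) (nat_lit 152) (nat_lit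 20712603076) (nat_lit 0) (nat_lit 143651871216) (nat_lit 2) (nat_lit 5) (nat_lit 4) (nat_lit 4) (nat_lit 2) (nat_lit 4) (nat_lit 531) (nat_lit 341) (nat_lit 328)) (XT.lf (nat_lit 0) (nat_lit 155799492397) (nat_lit 152) (nat_lit 12167905752) (nat_lit 0) (nat_lit 155506531019) (nat_lit 2) (nat_lit 5) (nat_lit 4) (nat_lit 4) (nat_lit 2) (nat_lit 4) (nat_lit 532) (nat_lit 341) (nat_lit 327)))) (XT.nd (nat_lit 156) (nat_lit 0) (nat_lit 0) (XT.nd (nat_lit 78) (nat_lit 76) (nat_lit 0) (XT.lf (nat_lit 0) (nat_lit 168148664555) (nat_lit 152) (nat_lit 3428042624) (nat_lit 0) (nat_lit 167841466937) (nat_lit 2) (nat_lit 5) (nat_lit 4) (nat_lit 4) (nat_lit 2) (nat_lit 4) (nat_lit 533) (nat_lit 341) (nat_lit 326)) (XT.lf (nat_lit 0) (nat_lit 5710569389) (nat_lit 76) (nat_lit 175385392411) (nat_lit 76) (nat_lit 175064636468) (nat_lit 1) (nat_lit 4) (nat_lit 2) (nat_lit 5) (nat_lit 2) (nat_lit 4) (nat_lit 534)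 (nat_lit 341) (nat_lit 325))) (XT.nd (nat_lit 78) (nat_lit 0) (nat_lit 0) (XT.lf (nat_lit 0) (nat_lit 15207672558) (nat_lit 76) (nat_lit 179434286602) (nat_lit 76) (nat_lit 179100617970) (nat_lit 1) (nat_lit 4) (nat_lit 2) (nat_lit 5) (nat_lit 2) (nat_lit 4) (nat_lit 535) (nat_lit 341) (nat_lit 324)) (XT.lf (nat_lit 0) (nat_lit 24972532462) (nat_lit 76) (nat_lit 183791085539) (nat_lit 76) (nat_lit 183445119108) (nat_lit 1) (nat_lit 4) (nat_lit 2) (nat_lit 5) (nat_lit 2) (nat_lit 4) (nat_lit 536) (nat_lit 341) (nat_lit 323)))))) (XT.nd (nat_lit 624) (nat_lit 0) (nat_lit 0) (XT.nd (nat_lit 312) (nat_lit 0) (nat_lit 0) (XT.nd (nat_lit 156) (nat_lit 0) (nat_lit 0) (XT.nd (nat_lit 78) (nat_lit 0) (nat_lit 0) (XT.lf (nat_lit 0) (nat_lit 35028398768) (nat_lit 76) (nat_lit 188466162553) (nat_lit 76) (nat_lit 188108483931) (nat_lit 1) (nat_lit 4) (nat_lit 2) (nat_lit 5) (nat_lit 2) (nat_lit 4) (nat_lit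 537) (nat_lit 341) (nat_lit 322)) (XT.lf (nat_lit 0) (nat_lit 45399214013) (nat_lit 76) (nat_lit 193470648779) (nat_lit 76) (nat_lit 193101815690) (nat_lit 1) (nat_lit 4) (nat_lit 2) (nat_lit 5) (nat_lit 2) (nat_lit 4) (nat_lit 538) (nat_lit 341) (nat_lit 321))) (XT.nd (nat_lit 78) (nat_lit 0) (nat_lit 0) (XT.lf (nat_lit 0) (nat_lit 56109670616) (nat_lit 76) (nat_lit 198816459661) (nat_lit 76) (nat_lit 198437003270) (nat_lit 1) (nat_lit 4) (nat_lit 2) (nat_lit 5) (nat_lit 2) (nat_lit 4) (nat_lit 539) (nat_lit 341) (nat_lit 320)) (XT.lf (nat_lit 0) (nat_lit 67185269663) (nat_lit 76) (nat_lit 204516323319) (nat_lit 76) (nat_lit 204126749498) (nat_lit 1) (nat_lit 4) (nat_lit 2) (nat_lit 5) (nat_lit 2) (nat_lit 4) (nat_lit 540) (nat_lit 341) (nat_lit 319)))) (XT.nd (nat_lit 156) (nat_lit 0) (nat_lit 0) (XT.nd (nat_lit 78) (nat_lit 0) (nat_lit 0) (XT.lf (nat_lit 0) (nat_lit 78652381628) (nat_lit 76)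 (nat_lit 210583810858) (nat_lit 76) (nat_lit 210184601389) (nat_lit 1) (nat_lit 4) (nat_lit 2) (nat_lit 5) (nat_lit 2) (nat_lit 4) (nat_lit 541) (nat_lit 341) (nat_lit 318)) (XT.lf (nat_lit 0) (nat_lit 90538309160) (nat_lit 76) (nat_lit 217033368677) (nat_lit 76) (nat_lit 216624982401) (nat_lit 1) (nat_lit 4) (nat_lit 2) (nat_lit 5) (nat_lit 2) (nat_lit 4) (nat_lit 542) (nat_lit 341) (nat_lit 317))) (XT.nd (nat_lit 78) (nat_lit 0) (nat_lit 0) (XT.lf (nat_lit 0) (nat_lit 102871352084) (nat_lit 76) (nat_lit 223880352865) (nat_lit 76) (nat_lit 223463226772) (nat_lit 1) (nat_lit 4) (nat_lit 2) (nat_lit 5) (nat_lit 2) (nat_lit 4) (nat_lit 543) (nat_lit 341) (nat_lit 316)) (XT.lf (nat_lit 0) (nat_lit 115680874790) (nat_lit 76) (nat_lit 231141065767) (nat_lit 76) (nat_lit 230715616039) (nat_lit 1) (nat_lit 4) (nat_lit 2) (nat_lit 5) (nat_lit 2) (nat_lit 4) (nat_lit 544) (nat_lit 341) (nat_lit 315)))))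 (XT.nd (nat_lit 312) (nat_lit 0) (nat_lit 0) (XT.nd (nat_lit 156) (nat_lit 0) (nat_lit 0) (XT.nd (nat_lit 78) (nat_lit 0) (nat_lit 0) (XT.lf (nat_lit 0) (nat_lit 128997376141) (nat_lit 76) (nat_lit 238832794793) (nat_lit 76) (nat_lit 238399417794) (nat_lit 1) (nat_lit 4) (nat_lit 2) (nat_lit 5) (nat_lit 2) (nat_lit 4) (nat_lit 545) (nat_lit 341) (nat_lit 314)) (XT.lf (nat_lit 0) (nat_lit 142852562093) (nat_lit 76) (nat_lit 246973853584) (nat_lit 76) (nat_lit 246532926803) (nat_lit 1) (nat_lit 4) (nat_lit 2) (nat_lit 5) (nat_lit 2) (nat_lit 4) (nat_lit 546) (nat_lit 341) (nat_lit 313))) (XT.nd (nat_lit 78) (nat_lit 0) (nat_lit 0) (XT.lf (nat_lit 0) (nat_lit 157279421182) (nat_lit 76) (nat_lit 255583625614) (nat_lit 76) (nat_lit 255135508564) (nat_lit 1) (nat_lit 4) (nat_lit 2) (nat_lit 5) (nat_lit 2) (nat_lit 4) (nat_lit 547) (nat_lit 341) (nat_lit 312)) (XT.lf (nat_lit 0) (nat_lit 172312303075)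 (nat_lit 76) (nat_lit 264682610339) (nat_lit 76) (nat_lit 264227645414) (nat_lit 1) (nat_lit 4) (nat_lit 2) (nat_lit 5) (nat_lit 2) (nat_lit 4) (nat_lit 548) (nat_lit 341) (nat_lit 311)))) (XT.nd (nat_lit 156) (nat_lit 0) (nat_lit 0) (XT.nd (nat_lit 78) (nat_lit 0) (nat_lit 0) (XT.lf (nat_lit 0) (nat_lit 187987000346) (nat_lit 76) (nat_lit 274292472010) (nat_lit 76) (nat_lit 273830985299) (nat_lit 1) (nat_lit 4) (nat_lit 2) (nat_lit 5) (nat_lit 2) (nat_lit 4) (nat_lit 549) (nat_lit 341) (nat_lit 310)) (XT.lf (nat_lit 0) (nat_lit 204340833704) (nat_lit 76) (nat_lit 284436091248) (nat_lit 76) (nat_lit 283968393313) (nat_lit 1) (nat_lit 4) (nat_lit 2) (nat_lit 5) (nat_lit 2) (nat_lit 4) (nat_lit 550) (nat_lit 341) (nat_lit 309))) (XT.nd (nat_lit 78) (nat_lit 0) (nat_lit 0) (XT.lf (nat_lit 0) (nat_lit 221412740848) (nat_lit 76) (nat_lit 295137619529) (nat_lit 76) (nat_lit 294664006142) (nat_lit 1)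 (nat_lit 4) (nat_lit 2) (nat_lit 5) (nat_lit 2) (nat_lit 4) (nat_lit 551) (nat_lit 341) (nat_lit 308)) (XT.lf (nat_lit 0) (nat_lit 239243369174) (nat_lit 76) (nat_lit 306422536682) (nat_lit 76) (nat_lit 305943289531) (nat_lit 1) (nat_lit 4) (nat_lit 2) (nat_lit 5) (nat_lit 2) (nat_lit 4) (nat_lit 552) (nat_lit 341) (nat_lit 307))))))) (XT.nd (nat_lit 60684) (nat_lit 0) (nat_lit 0) (XT.nd (nat_lit 60060) (nat_lit 0) (nat_lit 76) (XT.nd (nat_lit 59748) (nat_lit 0) (nat_lit 76) (XT.nd (nat_lit 59592) (nat_lit 0) (nat_lit 76) (XT.lf (nat_lit 0) (nat_lit 257875172560) (nat_lit 76) (nat_lit 318317711557) (nat_lit 76) (nat_lit 317833098917) (nat_lit 1) (nat_lit 4) (nat_lit 2) (nat_lit 5) (nat_lit 2) (nat_lit 4) (nat_lit 553) (nat_lit 341) (nat_lit 306)) (XT.nd (nat_lit 78) (nat_lit 0) (nat_lit 0) (XT.lf (nat_lit 0) (nat_lit 3272486641) (nat_lit 152) (nat_lit 69178150753) (nat_lit 0) (nat_lit 3272486641)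 (nat_lit 2) (nat_lit 5) (nat_lit 4) (nat_lit 4) (nat_lit 2) (nat_lit 4) (nat_lit 516) (nat_lit 342) (nat_lit 342)) (XT.lf (nat_lit 0) (nat_lit 14003608845) (nat_lit 152) (nat_lit 130682797307) (nat_lit 0) (nat_lit 13974012724) (nat_lit 2) (nat_lit 5) (nat_lit 4) (nat_lit 4) (nat_lit 2) (nat_lit 4) (nat_lit 517) (nat_lit 342) (nat_lit 341)))) (XT.nd (nat_lit 156) (nat_lit 0) (nat_lit 0) (XT.nd (nat_lit 78) (nat_lit 0) (nat_lit 0) (XT.lf (nat_lit 0) (nat_lit 21609630121) (nat_lit 152) (nat_lit 123085098765) (nat_lit 0) (nat_lit 21551847217) (nat_lit 2) (nat_lit 5) (nat_lit 4) (nat_lit 4) (nat_lit 2) (nat_lit 4) (nat_lit 518) (nat_lit 342) (nat_lit 340)) (XT.lf (nat_lit 0) (nat_lit 29381146684) (nat_lit 152) (nat_lit 115545116122) (nat_lit 0) (nat_lit 29296519226) (nat_lit 2) (nat_lit 5) (nat_lit 4) (nat_lit 4) (nat_lit 2) (nat_lit 4) (nat_lit 519) (nat_lit 342) (nat_lit 339))) (XT.nd (nat_lit 78)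 (nat_lit 0) (nat_lit 0) (XT.lf (nat_lit 0) (nat_lit 37336662147) (nat_lit 152) (nat_lit 108044897040) (nat_lit 0) (nat_lit 37226468447) (nat_lit 2) (nat_lit 5) (nat_lit 4) (nat_lit 4) (nat_lit 2) (nat_lit 4) (nat_lit 520) (nat_lit 342) (nat_lit 338)) (XT.lf (nat_lit 0) (nat_lit 45495118212) (nat_lit 152) (nat_lit 100566583853) (nat_lit 0) (nat_lit 45360575710) (nat_lit 2) (nat_lit 5) (nat_lit 4) (nat_lit 4) (nat_lit 2) (nat_lit 4) (nat_lit 521) (nat_lit 342) (nat_lit 337))))) (XT.nd (nat_lit 312) (nat_lit 0) (nat_lit 0) (XT.nd (nat_lit 156) (nat_lit 0) (nat_lit 0) (XT.nd (nat_lit 78) (nat_lit 0) (nat_lit 0) (XT.lf (nat_lit 0) (nat_lit 53875939775) (nat_lit 152) (nat_lit 93092371055) (nat_lit 0) (nat_lit 53718207938) (nat_lit 2) (nat_lit 5) (nat_lit 4) (nat_lit 4) (nat_lit 2) (nat_lit 4) (nat_lit 522) (nat_lit 342) (nat_lit 336)) (XT.lf (nat_lit 0) (nat_lit 62499081174) (nat_lit 152) (nat_lit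 85604462899) (nat_lit 0) (nat_lit 62319264254) (nat_lit 2) (nat_lit 5) (nat_lit 4) (nat_lit 4) (nat_lit 2) (nat_lit 4) (nat_lit 523) (nat_lit 342) (nat_lit 335))) (XT.nd (nat_lit 78) (nat_lit 0) (nat_lit 0) (XT.lf (nat_lit 0) (nat_lit 71385073696) (nat_lit 152) (nat_lit 78085031034) (nat_lit 0) (nat_lit 71184223366) (nat_lit 2) (nat_lit 5) (nat_lit 4) (nat_lit 4) (nat_lit 2) (nat_lit 4) (nat_lit 524) (nat_lit 342) (nat_lit 334)) (XT.lf (nat_lit 0) (nat_lit 80555074467) (nat_lit 152) (nat_lit 70516172050) (nat_lit 0) (nat_lit 80334192317) (nat_lit 2) (nat_lit 5) (nat_lit 4) (nat_lit 4) (nat_lit 2) (nat_lit 4) (nat_lit 525) (nat_lit 342) (nat_lit 333)))) (XT.nd (nat_lit 156) (nat_lit 0) (nat_lit 0) (XT.nd (nat_lit 78) (nat_lit 0) (nat_lit 0) (XT.lf (nat_lit 0) (nat_lit 90030916822) (nat_lit 152) (nat_lit 62879864855) (nat_lit 0) (nat_lit 89790956749) (nat_lit 2) (nat_lit 5) (nat_lit 4) (nat_lit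 4) (nat_lit 2) (nat_lit 4) (nat_lit 526) (nat_lit 342) (nat_lit 332)) (XT.lf (nat_lit 0) (nat_lit 99835162292) (nat_lit 152) (nat_lit 55157927764) (nat_lit 0) (nat_lit 99577032767) (nat_lit 2) (nat_lit 5) (nat_lit 4) (nat_lit 4) (nat_lit 2) (nat_lit 4) (nat_lit 527) (nat_lit 342) (nat_lit 331))) (XT.nd (nat_lit 78) (nat_lit 0) (nat_lit 0) (XT.lf (nat_lit 0) (nat_lit 109991154316) (nat_lit 152) (nat_lit 47331975214) (nat_lit 0) (nat_lit 109715720552) (nat_lit 2) (nat_lit 5) (nat_lit 4) (nat_lit 4) (nat_lit 2) (nat_lit 4) (nat_lit 528) (nat_lit 342) (nat_lit 330)) (XT.lf (nat_lit 0) (nat_lit 120523073829) (nat_lit 152) (nat_lit 39383373983) (nat_lit 0) (nat_lit 120231159837) (nat_lit 2) (nat_lit 5) (nat_lit 4) (nat_lit 4) (nat_lit 2) (nat_lit 4) (nat_lit 529) (nat_lit 342) (nat_lit 329)))))) (XT.nd (nat_lit 624) (nat_lit 0) (nat_lit 0) (XT.nd (nat_lit 312) (nat_lit 76) (nat_lit 0) (XT.nd (nat_lit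 156) (nat_lit 0) (nat_lit 0) (XT.nd (nat_lit 78) (nat_lit 0) (nat_lit 0) (XT.lf (nat_lit 0) (nat_lit 131455996829) (nat_lit 152) (nat_lit 31293198831) (nat_lit 0) (nat_lit 131148387383) (nat_lit 2) (nat_lit 5) (nat_lit 4) (nat_lit 4) (nat_lit 2) (nat_lit 4) (nat_lit 530) (nat_lit 342) (nat_lit 328)) (XT.lf (nat_lit 0) (nat_lit 142815954086) (nat_lit 152) (nat_lit 23042187436) (nat_lit 0) (nat_lit 142493396587) (nat_lit 2) (nat_lit 5) (nat_lit 4) (nat_lit 4) (nat_lit 2) (nat_lit 4) (nat_lit 531) (nat_lit 342) (nat_lit 327))) (XT.nd (nat_lit 78) (nat_lit 0) (nat_lit 0) (XT.lf (nat_lit 0) (nat_lit 154629993117) (nat_lit 152) (nat_lit 14610694533) (nat_lit 0) (nat_lit 154293199378) (nat_lit 2) (nat_lit 5) (nat_lit 4) (nat_lit 4) (nat_lit 2) (nat_lit 4) (nat_lit 532) (nat_lit 342) (nat_lit 326)) (XT.lf (nat_lit 0) (nat_lit 166926242586) (nat_lit 152) (nat_lit 5978645139) (nat_lit 0) (nat_lit 166575890523)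 (nat_lit 2) (nat_lit 5) (nat_lit 4) (nat_lit 4) (nat_lit 2) (nat_lit 4) (nat_lit 533) (nat_lit 342) (nat_lit 325)))) (XT.nd (nat_lit 156) (nat_lit 0) (nat_lit 0) (XT.nd (nat_lit 78) (nat_lit 0) (nat_lit 0) (XT.lf (nat_lit 0) (nat_lit 2969557634) (nat_lit 76) (nat_lit 176810784760) (nat_lit 76) (nat_lit 176447520007) (nat_lit 1) (nat_lit 4) (nat_lit 2) (nat_lit 5) (nat_lit 2) (nat_lit 4) (nat_lit 534) (nat_lit 342) (nat_lit 324)) (XT.lf (nat_lit 0) (nat_lit 12365637182) (nat_lit 76) (nat_lit 180911122871) (nat_lit 76) (nat_lit 180535560319) (nat_lit 1) (nat_lit 4) (nat_lit 2) (nat_lit 5) (nat_lit 2) (nat_lit 4) (nat_lit 535) (nat_lit 342) (nat_lit 323))) (XT.nd (nat_lit 78) (nat_lit 0) (nat_lit 0) (XT.lf (nat_lit 0) (nat_lit 22034284114) (nat_lit 76) (nat_lit 185316916018) (nat_lit 76) (nat_lit 184929641275) (nat_lit 1) (nat_lit 4) (nat_lit 2) (nat_lit 5) (nat_lit 2) (nat_lit 4) (nat_lit 536)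 (nat_lit 342) (nat_lit 322)) (XT.lf (nat_lit 0) (nat_lit 31998519017) (nat_lit 76) (nat_lit 190038654184) (nat_lit 76) (nat_lit 189640224974) (nat_lit 1) (nat_lit 4) (nat_lit 2) (nat_lit 5) (nat_lit 2) (nat_lit 4) (nat_lit 537) (nat_lit 342) (nat_lit 321))))) (XT.nd (nat_lit 312) (nat_lit 0) (nat_lit 0) (XT.nd (nat_lit 156) (nat_lit 0) (nat_lit 0) (XT.nd (nat_lit 78) (nat_lit 0) (nat_lit 0) (XT.lf (nat_lit 0) (nat_lit 42282066260) (nat_lit 76) (nat_lit 195087579602) (nat_lit 76) (nat_lit 194678527091) (nat_lit 1) (nat_lit 4) (nat_lit 2) (nat_lit 5) (nat_lit 2) (nat_lit 4) (nat_lit 538) (nat_lit 342) (nat_lit 320)) (XT.lf (nat_lit 0) (nat_lit 52909410479) (nat_lit 76) (nat_lit 200475713524) (nat_lit 76) (nat_lit 200056543582) (nat_lit 1) (nat_lit 4) (nat_lit 2) (nat_lit 5) (nat_lit 2) (nat_lit 4) (nat_lit 539) (nat_lit 342) (nat_lit 319))) (XT.nd (nat_lit 78) (nat_lit 0) (nat_lit 0) (XT.lf (nat_lit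 0) (nat_lit 63905854875) (nat_lit 76) (nat_lit 206215884840) (nat_lit 76) (nat_lit 205787079250) (nat_lit 1) (nat_lit 4) (nat_lit 2) (nat_lit 5) (nat_lit 2) (nat_lit 4) (nat_lit 540) (nat_lit 342) (nat_lit 318)) (XT.lf (nat_lit 0) (nat_lit 75297581459) (nat_lit 76) (nat_lit 212321760624) (nat_lit 76) (nat_lit 211883778227) (nat_lit 1) (nat_lit 4) (nat_lit 2) (nat_lit 5) (nat_lit 2) (nat_lit 4) (nat_lit 541) (nat_lit 342) (nat_lit 317)))) (XT.nd (nat_lit 156) (nat_lit 0) (nat_lit 0) (XT.nd (nat_lit 78) (nat_lit 0) (nat_lit 0) (XT.lf (nat_lit 0) (nat_lit 87111713389) (nat_lit 76) (nat_lit 218807878677) (nat_lit 76) (nat_lit 218361156463) (nat_lit 1) (nat_lit 4) (nat_lit 2) (nat_lit 5) (nat_lit 2) (nat_lit 4) (nat_lit 542) (nat_lit 342) (nat_lit 316)) (XT.lf (nat_lit 0) (nat_lit 99376379550) (nat_lit 76) (nat_lit 225689682135) (nat_lit 76) (nat_lit 225234636286) (nat_lit 1) (nat_lit 4) (nat_lit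 2) (nat_lit 5) (nat_lit 2) (nat_lit 4) (nat_lit 543) (nat_lit 342) (nat_lit 315))) (XT.nd (nat_lit 78) (nat_lit 0) (nat_lit 0) (XT.lf (nat_lit 0) (nat_lit 112120781529) (nat_lit 76) (nat_lit 232983556246) (nat_lit 76) (nat_lit 232520583126) (nat_lit 1) (nat_lit 4) (nat_lit 2) (nat_lit 5) (nat_lit 2) (nat_lit 4) (nat_lit 544) (nat_lit 342) (nat_lit 314)) (XT.lf (nat_lit 0) (nat_lit 125375263140) (nat_lit 76) (nat_lit 240706867376) (nat_lit 76) (nat_lit 240236344474) (nat_lit 1) (nat_lit 4) (nat_lit 2) (nat_lit 5) (nat_lit 2) (nat_lit 4) (nat_lit 545) (nat_lit 342) (nat_lit 313))))))))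
noncomputable def xc6 : XT := (XT.nd (nat_lit 61776) (nat_lit 0) (nat_lit 0) (XT.nd (nat_lit 60528) (nat_lit 0) (nat_lit 0) (XT.nd (nat_lit 546) (nat_lit 0) (nat_lit 0) (XT.nd (nat_lit 234) (nat_lit 0) (nat_lit 0) (XT.nd (nat_lit 78) (nat_lit 0) (nat_lit 0) (XT.lf (nat_lit 0) (nat_lit 139171382672) (nat_lit 76) (nat_lit 248878004362) (nat_lit 76) (nat_lit 248400291191) (nat_lit 1) (nat_lit 4) (nat_lit 2) (nat_lit 5) (nat_lit 2) (nat_lit 4) (nat_lit 546) (nat_lit 342) (nat_lit 312)) (XT.nd (nat_lit 78) (nat_lit 0) (nat_lit 0) (XT.lf (nat_lit 0) (nat_lit 153541988029) (nat_lit 76) (nat_lit 257516422292) (nat_lit 76) (nat_lit 257031861246) (nat_lit 1) (nat_lit 4) (nat_lit 2) (nat_lit 5) (nat_lit 2) (nat_lit 4) (nat_lit 547) (nat_lit 342) (nat_lit 311)) (XT.lf (nat_lit 0) (nat_lit 168521294939) (nat_lit 76) (nat_lit 266642688826) (nat_lit 76) (nat_lit 266151605994) (nat_lit 1) (nat_lit 4) (nat_lit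 2) (nat_lit 5) (nat_lit 2) (nat_lit 4) (nat_lit 548) (nat_lit 342) (nat_lit 310)))) (XT.nd (nat_lit 156) (nat_lit 0) (nat_lit 0) (XT.nd (nat_lit 78) (nat_lit 0) (nat_lit 0) (XT.lf (nat_lit 0) (nat_lit 184144968416) (nat_lit 76) (nat_lit 276278533172) (nat_lit 76) (nat_lit 275781239116) (nat_lit 1) (nat_lit 4) (nat_lit 2) (nat_lit 5) (nat_lit 2) (nat_lit 4) (nat_lit 549) (nat_lit 342) (nat_lit 309)) (XT.lf (nat_lit 0) (nat_lit 200450207685) (nat_lit 76) (nat_lit 286446897816) (nat_lit 76) (nat_lit 285943688308) (nat_lit 1) (nat_lit 4) (nat_lit 2) (nat_lit 5) (nat_lit 2) (nat_lit 4) (nat_lit 550) (nat_lit 342) (nat_lit 308))) (XT.nd (nat_lit 78) (nat_lit 0) (nat_lit 0) (XT.lf (nat_lit 0) (nat_lit 217475834744) (nat_lit 76) (nat_lit 297171993150) (nat_lit 76) (nat_lit 296663149878) (nat_lit 1) (nat_lit 4) (nat_lit 2) (nat_lit 5) (nat_lit 2) (nat_lit 4) (nat_lit 551) (nat_lit 342) (nat_lit 307))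 (XT.lf (nat_lit 0) (nat_lit 235262386799) (nat_lit 76) (nat_lit 308479355115) (nat_lit 76) (nat_lit 307965146353) (nat_lit 1) (nat_lit 4) (nat_lit 2) (nat_lit 5) (nat_lit 2) (nat_lit 4) (nat_lit 552) (nat_lit 342) (nat_lit 306))))) (XT.nd (nat_lit 59670) (nat_lit 0) (nat_lit 76) (XT.nd (nat_lit 59514) (nat_lit 0) (nat_lit 76) (XT.nd (nat_lit 59436) (nat_lit 0) (nat_lit 228) (XT.lf (nat_lit 0) (nat_lit 253852212784) (nat_lit 76) (nat_lit 320395906001) (nat_lit 76) (nat_lit 319876587250) (nat_lit 1) (nat_lit 4) (nat_lit 2) (nat_lit 5) (nat_lit 2) (nat_lit 4) (nat_lit 553) (nat_lit 342) (nat_lit 305)) (XT.lf (nat_lit 0) (nat_lit 61295709543) (nat_lit 76) (nat_lit 3860951210) (nat_lit 76) (nat_lit 3860951210) (nat_lit 4) (nat_lit 4) (nat_lit 5) (nat_lit 5) (nat_lit 5) (nat_lit 4) (nat_lit 514) (nat_lit 343) (nat_lit 343))) (XT.nd (nat_lit 78) (nat_lit 152) (nat_lit 0) (XT.lf (nat_lit 0) (nat_lit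 143072262822) (nat_lit 76) (nat_lit 772417001) (nat_lit 76) (nat_lit 739787277) (nat_lit 4) (nat_lit 4) (nat_lit 5) (nat_lit 5) (nat_lit 5) (nat_lit 4) (nat_lit 515) (nat_lit 343) (nat_lit 342)) (XT.lf (nat_lit 0) (nat_lit 6460525617) (nat_lit 152) (nat_lit 138591645366) (nat_lit 0) (nat_lit 6399853568) (nat_lit 2) (nat_lit 5) (nat_lit 4) (nat_lit 4) (nat_lit 2) (nat_lit 4) (nat_lit 516) (nat_lit 343) (nat_lit 341)))) (XT.nd (nat_lit 156) (nat_lit 0) (nat_lit 0) (XT.nd (nat_lit 78) (nat_lit 0) (nat_lit 0) (XT.lf (nat_lit 0) (nat_lit 13809138708) (nat_lit 152) (nat_lit 131142278175) (nat_lit 0) (nat_lit 13720279877) (nat_lit 2) (nat_lit 5) (nat_lit 4) (nat_lit 4) (nat_lit 2) (nat_lit 4) (nat_lit 517) (nat_lit 343) (nat_lit 340)) (XT.lf (nat_lit 0) (nat_lit 21310376678) (nat_lit 152) (nat_lit 123758043451) (nat_lit 0) (nat_lit 21194673293) (nat_lit 2) (nat_lit 5) (nat_lit 4) (nat_lit 4) (nat_lit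 2) (nat_lit 4) (nat_lit 518) (nat_lit 343) (nat_lit 339))) (XT.nd (nat_lit 78) (nat_lit 0) (nat_lit 0) (XT.lf (nat_lit 0) (nat_lit 28982099618) (nat_lit 152) (nat_lit 116421359683) (nat_lit 0) (nat_lit 28840829991) (nat_lit 2) (nat_lit 5) (nat_lit 4) (nat_lit 4) (nat_lit 2) (nat_lit 4) (nat_lit 519) (nat_lit 343) (nat_lit 338)) (XT.lf (nat_lit 0) (nat_lit 36842573534) (nat_lit 152) (nat_lit 109114758576) (nat_lit 0) (nat_lit 36676955104) (nat_lit 2) (nat_lit 5) (nat_lit 4) (nat_lit 4) (nat_lit 2) (nat_lit 4) (nat_lit 520) (nat_lit 343) (nat_lit 337)))))) (XT.nd (nat_lit 624) (nat_lit 76) (nat_lit 0) (XT.nd (nat_lit 312) (nat_lit 0) (nat_lit 0) (XT.nd (nat_lit 156) (nat_lit 0) (nat_lit 0) (XT.nd (nat_lit 78) (nat_lit 0) (nat_lit 0) (XT.lf (nat_lit 0) (nat_lit 44910513841) (nat_lit 152) (nat_lit 101820843461) (nat_lit 0) (nat_lit 44721706076) (nat_lit 2) (nat_lit 5) (nat_lit 4) (nat_lit 4) (nat_lit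 2) (nat_lit 4) (nat_lit 521) (nat_lit 343) (nat_lit 336)) (XT.lf (nat_lit 0) (nat_lit 53205129919) (nat_lit 152) (nat_lit 94522247874) (nat_lit 0) (nat_lit 52994237073) (nat_lit 2) (nat_lit 5) (nat_lit 4) (nat_lit 4) (nat_lit 2) (nat_lit 4) (nat_lit 522) (nat_lit 343) (nat_lit 335))) (XT.nd (nat_lit 78) (nat_lit 0) (nat_lit 0) (XT.lf (nat_lit 0) (nat_lit 61746170856) (nat_lit 152) (nat_lit 87201594205) (nat_lit 0) (nat_lit 61514244599) (nat_lit 2) (nat_lit 5) (nat_lit 4) (nat_lit 4) (nat_lit 2) (nat_lit 4) (nat_lit 523) (nat_lit 343) (nat_lit 334)) (XT.lf (nat_lit 0) (nat_lit 70553972463) (nat_lit 152) (nat_lit 79841452328) (nat_lit 0) (nat_lit 70302014385) (nat_lit 2) (nat_lit 5) (nat_lit 4) (nat_lit 4) (nat_lit 2) (nat_lit 4) (nat_lit 524) (nat_lit 343) (nat_lit 333)))) (XT.nd (nat_lit 156) (nat_lit 0) (nat_lit 0) (XT.nd (nat_lit 78) (nat_lit 0) (nat_lit 0) (XT.lf (nat_lit 0) (nat_lit 79649505695)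 (nat_lit 152) (nat_lit 72424298094) (nat_lit 0) (nat_lit 79378469694) (nat_lit 2) (nat_lit 5) (nat_lit 4) (nat_lit 4) (nat_lit 2) (nat_lit 4) (nat_lit 525) (nat_lit 343) (nat_lit 332)) (XT.lf (nat_lit 0) (nat_lit 89054426585) (nat_lit 152) (nat_lit 64932471613) (nat_lit 0) (nat_lit 88765221133) (nat_lit 2) (nat_lit 5) (nat_lit 4) (nat_lit 4) (nat_lit 2) (nat_lit 4) (nat_lit 526) (nat_lit 343) (nat_lit 331))) (XT.nd (nat_lit 78) (nat_lit 0) (nat_lit 0) (XT.lf (nat_lit 0) (nat_lit 98791127802) (nat_lit 152) (nat_lit 57348135203) (nat_lit 0) (nat_lit 98484618110) (nat_lit 2) (nat_lit 5) (nat_lit 4) (nat_lit 4) (nat_lit 2) (nat_lit 4) (nat_lit 527) (nat_lit 343) (nat_lit 330)) (XT.lf (nat_lit 0) (nat_lit 108882791966) (nat_lit 152) (nat_lit 49653230919) (nat_lit 0) (nat_lit 108559802047) (nat_lit 2) (nat_lit 5) (nat_lit 4) (nat_lit 4) (nat_lit 2) (nat_lit 4) (nat_lit 528) (nat_lit 343) (nat_lit 329)))))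 (XT.nd (nat_lit 312) (nat_lit 76) (nat_lit 0) (XT.nd (nat_lit 156) (nat_lit 0) (nat_lit 0) (XT.nd (nat_lit 78) (nat_lit 0) (nat_lit 0) (XT.lf (nat_lit 0) (nat_lit 119353446851) (nat_lit 152) (nat_lit 41829437562) (nat_lit 0) (nat_lit 119014761477) (nat_lit 2) (nat_lit 5) (nat_lit 4) (nat_lit 4) (nat_lit 2) (nat_lit 4) (nat_lit 529) (nat_lit 343) (nat_lit 328)) (XT.lf (nat_lit 0) (nat_lit 130228022586) (nat_lit 152) (nat_lit 33858127051) (nat_lit 0) (nat_lit 129874389160) (nat_lit 2) (nat_lit 5) (nat_lit 4) (nat_lit 4) (nat_lit 2) (nat_lit 4) (nat_lit 530) (nat_lit 343) (nat_lit 327))) (XT.nd (nat_lit 78) (nat_lit 0) (nat_lit 0) (XT.lf (nat_lit 0) (nat_lit 141532411019) (nat_lit 152) (nat_lit 25720320076) (nat_lit 0) (nat_lit 141164541352) (nat_lit 2) (nat_lit 5) (nat_lit 4) (nat_lit 4) (nat_lit 2) (nat_lit 4) (nat_lit 531) (nat_lit 343) (nat_lit 326)) (XT.lf (nat_lit 0) (nat_lit 153293527361)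 (nat_lit 152) (nat_lit 17396640907) (nat_lit 0) (nat_lit 152912099370) (nat_lit 2) (nat_lit 5) (nat_lit 4) (nat_lit 4) (nat_lit 2) (nat_lit 4) (nat_lit 532) (nat_lit 343) (nat_lit 325)))) (XT.nd (nat_lit 156) (nat_lit 76) (nat_lit 0) (XT.nd (nat_lit 78) (nat_lit 0) (nat_lit 0) (XT.lf (nat_lit 0) (nat_lit 165539374268) (nat_lit 152) (nat_lit 8867271259) (nat_lit 0) (nat_lit 165145033588) (nat_lit 2) (nat_lit 5) (nat_lit 4) (nat_lit 4) (nat_lit 2) (nat_lit 4) (nat_lit 533) (nat_lit 343) (nat_lit 324)) (XT.lf (nat_lit 0) (nat_lit 178299108520) (nat_lit 152) (nat_lit 111903109) (nat_lit 0) (nat_lit 177892470040) (nat_lit 2) (nat_lit 5) (nat_lit 4) (nat_lit 4) (nat_lit 2) (nat_lit 4) (nat_lit 534) (nat_lit 343) (nat_lit 323))) (XT.nd (nat_lit 78) (nat_lit 0) (nat_lit 0) (XT.lf (nat_lit 0) (nat_lit 9184263444) (nat_lit 76) (nat_lit 182562239084) (nat_lit 76) (nat_lit 182143888414) (nat_lit 1) (nat_lit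 4) (nat_lit 2) (nat_lit 5) (nat_lit 2) (nat_lit 4) (nat_lit 535) (nat_lit 343) (nat_lit 322)) (XT.lf (nat_lit 0) (nat_lit 18761278972) (nat_lit 76) (nat_lit 187014693383) (nat_lit 76) (nat_lit 186585188245) (nat_lit 1) (nat_lit 4) (nat_lit 2) (nat_lit 5) (nat_lit 2) (nat_lit 4) (nat_lit 536) (nat_lit 343) (nat_lit 321))))))) (XT.nd (nat_lit 1170) (nat_lit 0) (nat_lit 0) (XT.nd (nat_lit 546) (nat_lit 0) (nat_lit 0) (XT.nd (nat_lit 234) (nat_lit 0) (nat_lit 0) (XT.nd (nat_lit 78) (nat_lit 0) (nat_lit 0) (XT.lf (nat_lit 0) (nat_lit 28638245873) (nat_lit 76) (nat_lit 191780870741) (nat_lit 76) (nat_lit 191340742302) (nat_lit 1) (nat_lit 4) (nat_lit 2) (nat_lit 5) (nat_lit 2) (nat_lit 4) (nat_lit 537) (nat_lit 343) (nat_lit 320)) (XT.nd (nat_lit 78) (nat_lit 0) (nat_lit 0) (XT.lf (nat_lit 0) (nat_lit 38838680733) (nat_lit 76) (nat_lit 196872119200) (nat_lit 76) (nat_lit 196421873330) (nat_lit 1) (nat_lit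 4) (nat_lit 2) (nat_lit 5) (nat_lit 2) (nat_lit 4) (nat_lit 538) (nat_lit 343) (nat_lit 319)) (XT.lf (nat_lit 0) (nat_lit 49386870301) (nat_lit 76) (nat_lit 202300560779) (nat_lit 76) (nat_lit 201840679262) (nat_lit 1) (nat_lit 4) (nat_lit 2) (nat_lit 5) (nat_lit 2) (nat_lit 4) (nat_lit 539) (nat_lit 343) (nat_lit 318)))) (XT.nd (nat_lit 156) (nat_lit 0) (nat_lit 0) (XT.nd (nat_lit 78) (nat_lit 0) (nat_lit 0) (XT.lf (nat_lit 0) (nat_lit 60307929316) (nat_lit 76) (nat_lit 208079120340) (nat_lit 76) (nat_lit 207610062015) (nat_lit 1) (nat_lit 4) (nat_lit 2) (nat_lit 5) (nat_lit 2) (nat_lit 4) (nat_lit 540) (nat_lit 343) (nat_lit 317)) (XT.lf (nat_lit 0) (nat_lit 71627860298) (nat_lit 76) (nat_lit 214221556358) (nat_lit 76) (nat_lit 213743758217) (nat_lit 1) (nat_lit 4) (nat_lit 2) (nat_lit 5) (nat_lit 2) (nat_lit 4) (nat_lit 541) (nat_lit 343) (nat_lit 316))) (XT.nd (nat_lit 78) (nat_lit 0) (nat_lit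 0) (XT.lf (nat_lit 0) (nat_lit 83373615465) (nat_lit 76) (nat_lit 220742493680) (nat_lit 76) (nat_lit 220256371904) (nat_lit 1) (nat_lit 4) (nat_lit 2) (nat_lit 5) (nat_lit 2) (nat_lit 4) (nat_lit 542) (nat_lit 343) (nat_lit 315)) (XT.lf (nat_lit 0) (nat_lit 95573160899) (nat_lit 76) (nat_lit 227657458348) (nat_lit 76) (nat_lit 227163409301) (nat_lit 1) (nat_lit 4) (nat_lit 2) (nat_lit 5) (nat_lit 2) (nat_lit 4) (nat_lit 543) (nat_lit 343) (nat_lit 314))))) (XT.nd (nat_lit 312) (nat_lit 0) (nat_lit 0) (XT.nd (nat_lit 156) (nat_lit 0) (nat_lit 0) (XT.nd (nat_lit 78) (nat_lit 0) (nat_lit 0) (XT.lf (nat_lit 0) (nat_lit 108255543138) (nat_lit 76) (nat_lit 234982914563) (nat_lit 76) (nat_lit 234481315734) (nat_lit 1) (nat_lit 4) (nat_lit 2) (nat_lit 5) (nat_lit 2) (nat_lit 4) (nat_lit 544) (nat_lit 343) (nat_lit 313)) (XT.lf (nat_lit 0) (nat_lit 121450958329) (nat_lit 76) (nat_lit 242736303888) (nat_lit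 76) (nat_lit 242227514790) (nat_lit 1) (nat_lit 4) (nat_lit 2) (nat_lit 5) (nat_lit 2) (nat_lit 4) (nat_lit 545) (nat_lit 343) (nat_lit 312))) (XT.nd (nat_lit 78) (nat_lit 0) (nat_lit 0) (XT.lf (nat_lit 0) (nat_lit 135190824129) (nat_lit 76) (nat_lit 250936086774) (nat_lit 76) (nat_lit 250420449800) (nat_lit 1) (nat_lit 4) (nat_lit 2) (nat_lit 5) (nat_lit 2) (nat_lit 4) (nat_lit 546) (nat_lit 343) (nat_lit 311)) (XT.lf (nat_lit 0) (nat_lit 149507854503) (nat_lit 76) (nat_lit 259601786513) (nat_lit 76) (nat_lit 259079627753) (nat_lit 1) (nat_lit 4) (nat_lit 2) (nat_lit 5) (nat_lit 2) (nat_lit 4) (nat_lit 547) (nat_lit 343) (nat_lit 310)))) (XT.nd (nat_lit 156) (nat_lit 0) (nat_lit 0) (XT.nd (nat_lit 78) (nat_lit 0) (nat_lit 0) (XT.lf (nat_lit 0) (nat_lit 164436137619) (nat_lit 76) (nat_lit 268754035723) (nat_lit 76) (nat_lit 268225665739) (nat_lit 1) (nat_lit 4) (nat_lit 2) (nat_lit 5) (nat_lit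 2) (nat_lit 4) (nat_lit 548) (nat_lit 343) (nat_lit 309)) (XT.lf (nat_lit 0) (nat_lit 180011217007) (nat_lit 76) (nat_lit 278414625474) (nat_lit 76) (nat_lit 277880340038) (nat_lit 1) (nat_lit 4) (nat_lit 2) (nat_lit 5) (nat_lit 2) (nat_lit 4) (nat_lit 549) (nat_lit 343) (nat_lit 308))) (XT.nd (nat_lit 78) (nat_lit 0) (nat_lit 0) (XT.lf (nat_lit 0) (nat_lit 196270176191) (nat_lit 76) (nat_lit 288606557170) (nat_lit 76) (nat_lit 288066637970) (nat_lit 1) (nat_lit 4) (nat_lit 2) (nat_lit 5) (nat_lit 2) (nat_lit 4) (nat_lit 550) (nat_lit 343) (nat_lit 307)) (XT.lf (nat_lit 0) (nat_lit 213251726978) (nat_lit 76) (nat_lit 299354097316) (nat_lit 76) (nat_lit 298808812627) (nat_lit 1) (nat_lit 4) (nat_lit 2) (nat_lit 5) (nat_lit 2) (nat_lit 4) (nat_lit 551) (nat_lit 343) (nat_lit 306)))))) (XT.nd (nat_lit 59826) (nat_lit 0) (nat_lit 76) (XT.nd (nat_lit 59514) (nat_lit 0) (nat_lit 76) (XT.nd (nat_lit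 59358) (nat_lit 0) (nat_lit 228) (XT.nd (nat_lit 78) (nat_lit 0) (nat_lit 0) (XT.lf (nat_lit 0) (nat_lit 230996301632) (nat_lit 76) (nat_lit 310682835292) (nat_lit 76) (nat_lit 310132440613) (nat_lit 1) (nat_lit 4) (nat_lit 2) (nat_lit 5) (nat_lit 2) (nat_lit 4) (nat_lit 552) (nat_lit 343) (nat_lit 305)) (XT.lf (nat_lit 0) (nat_lit 249546149140) (nat_lit 76) (nat_lit 322619744284) (nat_lit 76) (nat_lit 322064482948) (nat_lit 1) (nat_lit 4) (nat_lit 2) (nat_lit 5) (nat_lit 2) (nat_lit 4) (nat_lit 553) (nat_lit 343) (nat_lit 304))) (XT.nd (nat_lit 78) (nat_lit 0) (nat_lit 0) (XT.lf (nat_lit 0) (nat_lit 41697664477) (nat_lit 76) (nat_lit 10622380667) (nat_lit 76) (nat_lit 10622380667) (nat_lit 4) (nat_lit 4) (nat_lit 5) (nat_lit 5) (nat_lit 5) (nat_lit 4) (nat_lit 512) (nat_lit 344) (nat_lit 344)) (XT.lf (nat_lit 0) (nat_lit 102633931823) (nat_lit 76) (nat_lit 14604639832) (nat_lit 76) (nat_lit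 14570378623) (nat_lit 4) (nat_lit 4) (nat_lit 5) (nat_lit 5) (nat_lit 5) (nat_lit 4) (nat_lit 513) (nat_lit 344) (nat_lit 343)))) (XT.nd (nat_lit 156) (nat_lit 152) (nat_lit 0) (XT.nd (nat_lit 78) (nat_lit 0) (nat_lit 0) (XT.lf (nat_lit 0) (nat_lit 122359946944) (nat_lit 76) (nat_lit 7873926846) (nat_lit 76) (nat_lit 7807035913) (nat_lit 4) (nat_lit 4) (nat_lit 5) (nat_lit 5) (nat_lit 5) (nat_lit 4) (nat_lit 514) (nat_lit 344) (nat_lit 342)) (XT.lf (nat_lit 0) (nat_lit 142620341021) (nat_lit 76) (nat_lit 1036596869) (nat_lit 76) (nat_lit 938630008) (nat_lit 4) (nat_lit 4) (nat_lit 5) (nat_lit 5) (nat_lit 5) (nat_lit 4) (nat_lit 515) (nat_lit 344) (nat_lit 341))) (XT.nd (nat_lit 78) (nat_lit 0) (nat_lit 0) (XT.lf (nat_lit 0) (nat_lit 6146309502) (nat_lit 152) (nat_lit 139298237287) (nat_lit 0) (nat_lit 6024820948) (nat_lit 2) (nat_lit 5) (nat_lit 4) (nat_lit 4) (nat_lit 2) (nat_lit 4) (nat_lit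 516) (nat_lit 344) (nat_lit 340)) (XT.lf (nat_lit 0) (nat_lit 13390139289) (nat_lit 152) (nat_lit 132062333913) (nat_lit 0) (nat_lit 13241806180) (nat_lit 2) (nat_lit 5) (nat_lit 4) (nat_lit 4) (nat_lit 2) (nat_lit 4) (nat_lit 517) (nat_lit 344) (nat_lit 339))))) (XT.nd (nat_lit 312) (nat_lit 0) (nat_lit 0) (XT.nd (nat_lit 156) (nat_lit 0) (nat_lit 0) (XT.nd (nat_lit 78) (nat_lit 0) (nat_lit 0) (XT.lf (nat_lit 0) (nat_lit 20791583635) (nat_lit 152) (nat_lit 124881398063) (nat_lit 0) (nat_lit 20617684284) (nat_lit 2) (nat_lit 5) (nat_lit 4) (nat_lit 4) (nat_lit 2) (nat_lit 4) (nat_lit 518) (nat_lit 344) (nat_lit 338)) (XT.lf (nat_lit 0) (nat_lit 28368265028) (nat_lit 152) (nat_lit 117738332271) (nat_lit 0) (nat_lit 28170016875) (nat_lit 2) (nat_lit 5) (nat_lit 4) (nat_lit 4) (nat_lit 2) (nat_lit 4) (nat_lit 519) (nat_lit 344) (nat_lit 337))) (XT.nd (nat_lit 78) (nat_lit 0) (nat_lit 0) (XT.lf (nat_lit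 0) (nat_lit 36138223185) (nat_lit 152) (nat_lit 110616129236) (nat_lit 0) (nat_lit 35916785696) (nat_lit 2) (nat_lit 5) (nat_lit 4) (nat_lit 4) (nat_lit 2) (nat_lit 4) (nat_lit 520) (nat_lit 344) (nat_lit 336)) (XT.lf (nat_lit 0) (nat_lit 44119958007) (nat_lit 152) (nat_lit 103497831332) (nat_lit 0) (nat_lit 43876435437) (nat_lit 2) (nat_lit 5) (nat_lit 4) (nat_lit 4) (nat_lit 2) (nat_lit 4) (nat_lit 521) (nat_lit 344) (nat_lit 335)))) (XT.nd (nat_lit 156) (nat_lit 0) (nat_lit 0) (XT.nd (nat_lit 78) (nat_lit 0) (nat_lit 0) (XT.lf (nat_lit 0) (nat_lit 52332473625) (nat_lit 152) (nat_lit 96366490232) (nat_lit 0) (nat_lit 52067917644) (nat_lit 2) (nat_lit 5) (nat_lit 4) (nat_lit 4) (nat_lit 2) (nat_lit 4) (nat_lit 522) (nat_lit 344) (nat_lit 334)) (XT.lf (nat_lit 0) (nat_lit 60795323646) (nat_lit 152) (nat_lit 89205126551) (nat_lit 0) (nat_lit 60510735845) (nat_lit 2) (nat_lit 5) (nat_lit 4) (nat_lit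 4) (nat_lit 2) (nat_lit 4) (nat_lit 523) (nat_lit 344) (nat_lit 333))) (XT.nd (nat_lit 78) (nat_lit 0) (nat_lit 0) (XT.lf (nat_lit 0) (nat_lit 69528657714) (nat_lit 152) (nat_lit 81996689423) (nat_lit 0) (nat_lit 69224991989) (nat_lit 2) (nat_lit 5) (nat_lit 4) (nat_lit 4) (nat_lit 2) (nat_lit 4) (nat_lit 524) (nat_lit 344) (nat_lit 332)) (XT.lf (nat_lit 0) (nat_lit 78553269481) (nat_lit 152) (nat_lit 74724015904) (nat_lit 0) (nat_lit 78231434305) (nat_lit 2) (nat_lit 5) (nat_lit 4) (nat_lit 4) (nat_lit 2) (nat_lit 4) (nat_lit 525) (nat_lit 344) (nat_lit 331))))))))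
noncomputable def xc7 : XT := (XT.nd (nat_lit 61464) (nat_lit 0) (nat_lit 0) (XT.nd (nat_lit 1170) (nat_lit 0) (nat_lit 0) (XT.nd (nat_lit 546) (nat_lit 76) (nat_lit 0) (XT.nd (nat_lit 234) (nat_lit 0) (nat_lit 0) (XT.nd (nat_lit 78) (nat_lit 0) (nat_lit 0) (XT.lf (nat_lit 0) (nat_lit 87890646118) (nat_lit 152) (nat_lit 67369790103) (nat_lit 0) (nat_lit 87551506703) (nat_lit 2) (nat_lit 5) (nat_lit 4) (nat_lit 4) (nat_lit 2) (nat_lit 4) (nat_lit 526) (nat_lit 344) (nat_lit 330)) (XT.nd (nat_lit 78) (nat_lit 0) (nat_lit 0) (XT.lf (nat_lit 0) (nat_lit 97563019475) (nat_lit 152) (nat_lit 59916501960) (nat_lit 0) (nat_lit 97207399832) (nat_lit 2) (nat_lit 5) (nat_lit 4) (nat_lit 4) (nat_lit 2) (nat_lit 4) (nat_lit 527) (nat_lit 344) (nat_lit 329)) (XT.lf (nat_lit 0) (nat_lit 107593419011) (nat_lit 152) (nat_lit 52346405550) (nat_lit 0) (nat_lit 107222103913) (nat_lit 2) (nat_lit 5) (nat_lit 4) (nat_lit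 4) (nat_lit 2) (nat_lit 4) (nat_lit 528) (nat_lit 344) (nat_lit 328)))) (XT.nd (nat_lit 156) (nat_lit 0) (nat_lit 0) (XT.nd (nat_lit 78) (nat_lit 0) (nat_lit 0) (XT.lf (nat_lit 0) (nat_lit 118005726630) (nat_lit 152) (nat_lit 44641476834) (nat_lit 0) (nat_lit 117619463480) (nat_lit 2) (nat_lit 5) (nat_lit 4) (nat_lit 4) (nat_lit 2) (nat_lit 4) (nat_lit 529) (nat_lit 344) (nat_lit 327)) (XT.lf (nat_lit 0) (nat_lit 128824733542) (nat_lit 152) (nat_lit 36783370743) (nat_lit 0) (nat_lit 128424234151) (nat_lit 2) (nat_lit 5) (nat_lit 4) (nat_lit 4) (nat_lit 2) (nat_lit 4) (nat_lit 530) (nat_lit 344) (nat_lit 326))) (XT.nd (nat_lit 78) (nat_lit 0) (nat_lit 0) (XT.lf (nat_lit 0) (nat_lit 140076199285) (nat_lit 152) (nat_lit 28753377502) (nat_lit 0) (nat_lit 139662141571) (nat_lit 2) (nat_lit 5) (nat_lit 4) (nat_lit 4) (nat_lit 2) (nat_lit 4) (nat_lit 531) (nat_lit 344) (nat_lit 325)) (XT.lf (nat_lit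 0) (nat_lit 151786913065) (nat_lit 152) (nat_lit 20532378079) (nat_lit 0) (nat_lit 151359942661) (nat_lit 2) (nat_lit 5) (nat_lit 4) (nat_lit 4) (nat_lit 2) (nat_lit 4) (nat_lit 532) (nat_lit 344) (nat_lit 324))))) (XT.nd (nat_lit 312) (nat_lit 0) (nat_lit 0) (XT.nd (nat_lit 156) (nat_lit 76) (nat_lit 0) (XT.nd (nat_lit 78) (nat_lit 0) (nat_lit 0) (XT.lf (nat_lit 0) (nat_lit 163984757534) (nat_lit 152) (nat_lit 12100798665) (nat_lit 0) (nat_lit 163545489330) (nat_lit 2) (nat_lit 5) (nat_lit 4) (nat_lit 4) (nat_lit 2) (nat_lit 4) (nat_lit 533) (nat_lit 344) (nat_lit 323)) (XT.lf (nat_lit 0) (nat_lit 176698775177) (nat_lit 152) (nat_lit 3438564072) (nat_lit 0) (nat_lit 176247794783) (nat_lit 2) (nat_lit 5) (nat_lit 4) (nat_lit 4) (nat_lit 2) (nat_lit 4) (nat_lit 534) (nat_lit 344) (nat_lit 322))) (XT.nd (nat_lit 78) (nat_lit 0) (nat_lit 0) (XT.lf (nat_lit 0) (nat_lit 5655976643) (nat_lit 76) (nat_lit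 184391566469) (nat_lit 76) (nat_lit 183929431608) (nat_lit 1) (nat_lit 4) (nat_lit 2) (nat_lit 5) (nat_lit 2) (nat_lit 4) (nat_lit 535) (nat_lit 344) (nat_lit 321)) (XT.lf (nat_lit 0) (nat_lit 15145724169) (nat_lit 76) (nat_lit 188888459960) (nat_lit 76) (nat_lit 188415701797) (nat_lit 1) (nat_lit 4) (nat_lit 2) (nat_lit 5) (nat_lit 2) (nat_lit 4) (nat_lit 536) (nat_lit 344) (nat_lit 320)))) (XT.nd (nat_lit 156) (nat_lit 0) (nat_lit 0) (XT.nd (nat_lit 78) (nat_lit 0) (nat_lit 0) (XT.lf (nat_lit 0) (nat_lit 24939578686) (nat_lit 76) (nat_lit 193696960358) (nat_lit 76) (nat_lit 193214084765) (nat_lit 1) (nat_lit 4) (nat_lit 2) (nat_lit 5) (nat_lit 2) (nat_lit 4) (nat_lit 537) (nat_lit 344) (nat_lit 319)) (XT.lf (nat_lit 0) (nat_lit 35060858895) (nat_lit 76) (nat_lit 198828516474) (nat_lit 76) (nat_lit 198336005234) (nat_lit 1) (nat_lit 4) (nat_lit 2) (nat_lit 5) (nat_lit 2) (nat_lit 4) (nat_lit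 538) (nat_lit 344) (nat_lit 318))) (XT.nd (nat_lit 78) (nat_lit 0) (nat_lit 0) (XT.lf (nat_lit 0) (nat_lit 45533663082) (nat_lit 76) (nat_lit 204295346299) (nat_lit 76) (nat_lit 203793658251) (nat_lit 1) (nat_lit 4) (nat_lit 2) (nat_lit 5) (nat_lit 2) (nat_lit 4) (nat_lit 539) (nat_lit 344) (nat_lit 317)) (XT.lf (nat_lit 0) (nat_lit 56382926495) (nat_lit 76) (nat_lit 210110466094) (nat_lit 76) (nat_lit 209600038229) (nat_lit 1) (nat_lit 4) (nat_lit 2) (nat_lit 5) (nat_lit 2) (nat_lit 4) (nat_lit 540) (nat_lit 344) (nat_lit 316)))))) (XT.nd (nat_lit 624) (nat_lit 0) (nat_lit 0) (XT.nd (nat_lit 312) (nat_lit 0) (nat_lit 0) (XT.nd (nat_lit 156) (nat_lit 0) (nat_lit 0) (XT.nd (nat_lit 78) (nat_lit 0) (nat_lit 0) (XT.lf (nat_lit 0) (nat_lit 67634480714) (nat_lit 76) (nat_lit 216287721382) (nat_lit 76) (nat_lit 215768969882) (nat_lit 1) (nat_lit 4) (nat_lit 2) (nat_lit 5) (nat_lit 2) (nat_lit 4) (nat_lit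 541) (nat_lit 344) (nat_lit 315)) (XT.lf (nat_lit 0) (nat_lit 79315115153) (nat_lit 76) (nat_lit 222841819913) (nat_lit 76) (nat_lit 222315141142) (nat_lit 1) (nat_lit 4) (nat_lit 2) (nat_lit 5) (nat_lit 2) (nat_lit 4) (nat_lit 542) (nat_lit 344) (nat_lit 314))) (XT.nd (nat_lit 78) (nat_lit 0) (nat_lit 0) (XT.lf (nat_lit 0) (nat_lit 91452640848) (nat_lit 76) (nat_lit 229788366686) (nat_lit 76) (nat_lit 229254138132) (nat_lit 1) (nat_lit 4) (nat_lit 2) (nat_lit 5) (nat_lit 2) (nat_lit 4) (nat_lit 543) (nat_lit 344) (nat_lit 313)) (XT.lf (nat_lit 0) (nat_lit 104075956667) (nat_lit 76) (nat_lit 237143901096) (nat_lit 76) (nat_lit 236602482273) (nat_lit 1) (nat_lit 4) (nat_lit 2) (nat_lit 5) (nat_lit 2) (nat_lit 4) (nat_lit 544) (nat_lit 344) (nat_lit 312)))) (XT.nd (nat_lit 156) (nat_lit 0) (nat_lit 0) (XT.nd (nat_lit 78) (nat_lit 0) (nat_lit 0) (XT.lf (nat_lit 0) (nat_lit 117215118127) (nat_lit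 76) (nat_lit 244925936320) (nat_lit 76) (nat_lit 244377669623) (nat_lit 1) (nat_lit 4) (nat_lit 2) (nat_lit 5) (nat_lit 2) (nat_lit 4) (nat_lit 545) (nat_lit 344) (nat_lit 311)) (XT.lf (nat_lit 0) (nat_lit 130901408943) (nat_lit 76) (nat_lit 253153001015) (nat_lit 76) (nat_lit 252598212532) (nat_lit 1) (nat_lit 4) (nat_lit 2) (nat_lit 5) (nat_lit 2) (nat_lit 4) (nat_lit 546) (nat_lit 344) (nat_lit 310))) (XT.nd (nat_lit 78) (nat_lit 0) (nat_lit 0) (XT.lf (nat_lit 0) (nat_lit 145167415523) (nat_lit 76) (nat_lit 261844683429) (nat_lit 76) (nat_lit 261283683721) (nat_lit 1) (nat_lit 4) (nat_lit 2) (nat_lit 5) (nat_lit 2) (nat_lit 4) (nat_lit 547) (nat_lit 344) (nat_lit 309)) (XT.lf (nat_lit 0) (nat_lit 160047104550) (nat_lit 76) (nat_lit 271021678044) (nat_lit 76) (nat_lit 270454762885) (nat_lit 1) (nat_lit 4) (nat_lit 2) (nat_lit 5) (nat_lit 2) (nat_lit 4) (nat_lit 548) (nat_lit 344) (nat_lit 308)))))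 (XT.nd (nat_lit 312) (nat_lit 0) (nat_lit 0) (XT.nd (nat_lit 156) (nat_lit 0) (nat_lit 0) (XT.nd (nat_lit 78) (nat_lit 0) (nat_lit 0) (XT.lf (nat_lit 0) (nat_lit 175575903854) (nat_lit 76) (nat_lit 280705834848) (nat_lit 76) (nat_lit 280133285924) (nat_lit 1) (nat_lit 4) (nat_lit 2) (nat_lit 5) (nat_lit 2) (nat_lit 4) (nat_lit 549) (nat_lit 344) (nat_lit 307)) (XT.lf (nat_lit 0) (nat_lit 191790786766) (nat_lit 76) (nat_lit 290920211356) (nat_lit 76) (nat_lit 290342296943) (nat_lit 1) (nat_lit 4) (nat_lit 2) (nat_lit 5) (nat_lit 2) (nat_lit 4) (nat_lit 550) (nat_lit 344) (nat_lit 306))) (XT.nd (nat_lit 78) (nat_lit 0) (nat_lit 0) (XT.lf (nat_lit 0) (nat_lit 208730360152) (nat_lit 76) (nat_lit 301689127513) (nat_lit 76) (nat_lit 301106103111) (nat_lit 1) (nat_lit 4) (nat_lit 2) (nat_lit 5) (nat_lit 2) (nat_lit 4) (nat_lit 551) (nat_lit 344) (nat_lit 305)) (XT.lf (nat_lit 0) (nat_lit 226434956328)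 (nat_lit 76) (nat_lit 313038223595) (nat_lit 76) (nat_lit 312450332536) (nat_lit 1) (nat_lit 4) (nat_lit 2) (nat_lit 5) (nat_lit 2) (nat_lit 4) (nat_lit 552) (nat_lit 344) (nat_lit 304)))) (XT.nd (nat_lit 59202) (nat_lit 0) (nat_lit 228) (XT.nd (nat_lit 59124) (nat_lit 0) (nat_lit 228) (XT.lf (nat_lit 0) (nat_lit 244946729096) (nat_lit 76) (nat_lit 324994521260) (nat_lit 76) (nat_lit 324401995289) (nat_lit 1) (nat_lit 4) (nat_lit 2) (nat_lit 5) (nat_lit 2) (nat_lit 4) (nat_lit 553) (nat_lit 344) (nat_lit 303)) (XT.lf (nat_lit 0) (nat_lit 23226692333) (nat_lit 76) (nat_lit 17111215706) (nat_lit 76) (nat_lit 17111215706) (nat_lit 4) (nat_lit 4) (nat_lit 5) (nat_lit 5) (nat_lit 5) (nat_lit 4) (nat_lit 510) (nat_lit 345) (nat_lit 345))) (XT.nd (nat_lit 78) (nat_lit 0) (nat_lit 0) (XT.lf (nat_lit 0) (nat_lit 64598332141) (nat_lit 76) (nat_lit 27846075435) (nat_lit 76) (nat_lit 27810101165) (nat_lit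 4) (nat_lit 4) (nat_lit 5) (nat_lit 5) (nat_lit 5) (nat_lit 4) (nat_lit 511) (nat_lit 345) (nat_lit 344)) (XT.lf (nat_lit 0) (nat_lit 83152283205) (nat_lit 76) (nat_lit 21404386980) (nat_lit 76) (nat_lit 21334151500) (nat_lit 4) (nat_lit 4) (nat_lit 5) (nat_lit 5) (nat_lit 5) (nat_lit 4) (nat_lit 512) (nat_lit 345) (nat_lit 343))))))) (XT.nd (nat_lit 1248) (nat_lit 76) (nat_lit 0) (XT.nd (nat_lit 624) (nat_lit 0) (nat_lit 0) (XT.nd (nat_lit 312) (nat_lit 0) (nat_lit 0) (XT.nd (nat_lit 156) (nat_lit 152) (nat_lit 0) (XT.nd (nat_lit 78) (nat_lit 0) (nat_lit 0) (XT.lf (nat_lit 0) (nat_lit 102159413932) (nat_lit 76) (nat_lit 14882028694) (nat_lit 76) (nat_lit 14779163490) (nat_lit 4) (nat_lit 4) (nat_lit 5) (nat_lit 5) (nat_lit 5) (nat_lit 4) (nat_lit 513) (nat_lit 345) (nat_lit 342)) (XT.lf (nat_lit 0) (nat_lit 121664979395) (nat_lit 76) (nat_lit 8263471150) (nat_lit 76) (nat_lit 8129530019) (nat_lit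 4) (nat_lit 4) (nat_lit 5) (nat_lit 5) (nat_lit 5) (nat_lit 4) (nat_lit 514) (nat_lit 345) (nat_lit 341))) (XT.nd (nat_lit 78) (nat_lit 152) (nat_lit 0) (XT.lf (nat_lit 0) (nat_lit 141715421416) (nat_lit 76) (nat_lit 1532955880) (nat_lit 76) (nat_lit 1369418628) (nat_lit 4) (nat_lit 4) (nat_lit 5) (nat_lit 5) (nat_lit 5) (nat_lit 4) (nat_lit 515) (nat_lit 345) (nat_lit 340)) (XT.lf (nat_lit 0) (nat_lit 5601576807) (nat_lit 152) (nat_lit 140477759630) (nat_lit 0) (nat_lit 5418982488) (nat_lit 2) (nat_lit 5) (nat_lit 4) (nat_lit 4) (nat_lit 2) (nat_lit 4) (nat_lit 516) (nat_lit 345) (nat_lit 339)))) (XT.nd (nat_lit 156) (nat_lit 0) (nat_lit 0) (XT.nd (nat_lit 78) (nat_lit 0) (nat_lit 0) (XT.lf (nat_lit 0) (nat_lit 12745612969) (nat_lit 152) (nat_lit 133445155131) (nat_lit 0) (nat_lit 12537452408) (nat_lit 2) (nat_lit 5) (nat_lit 4) (nat_lit 4) (nat_lit 2) (nat_lit 4) (nat_lit 517) (nat_lit 345)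 (nat_lit 338)) (XT.lf (nat_lit 0) (nat_lit 20052015769) (nat_lit 152) (nat_lit 126457837256) (nat_lit 0) (nat_lit 19819506405) (nat_lit 2) (nat_lit 5) (nat_lit 4) (nat_lit 4) (nat_lit 2) (nat_lit 4) (nat_lit 518) (nat_lit 345) (nat_lit 337))) (XT.nd (nat_lit 78) (nat_lit 0) (nat_lit 0) (XT.lf (nat_lit 0) (nat_lit 27538181403) (nat_lit 152) (nat_lit 119499169535) (nat_lit 0) (nat_lit 27282482704) (nat_lit 2) (nat_lit 5) (nat_lit 4) (nat_lit 4) (nat_lit 2) (nat_lit 4) (nat_lit 519) (nat_lit 345) (nat_lit 336)) (XT.lf (nat_lit 0) (nat_lit 35221934076) (nat_lit 152) (nat_lit 112552583712) (nat_lit 0) (nat_lit 34944150296) (nat_lit 2) (nat_lit 5) (nat_lit 4) (nat_lit 4) (nat_lit 2) (nat_lit 4) (nat_lit 520) (nat_lit 345) (nat_lit 335))))) (XT.nd (nat_lit 312) (nat_lit 0) (nat_lit 0) (XT.nd (nat_lit 156) (nat_lit 0) (nat_lit 0) (XT.nd (nat_lit 78) (nat_lit 0) (nat_lit 0) (XT.lf (nat_lit 0) (nat_lit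 43121568437) (nat_lit 152) (nat_lit 105601540295) (nat_lit 0) (nat_lit 42822751246) (nat_lit 2) (nat_lit 5) (nat_lit 4) (nat_lit 4) (nat_lit 2) (nat_lit 4) (nat_lit 521) (nat_lit 345) (nat_lit 334)) (XT.lf (nat_lit 0) (nat_lit 51255893138) (nat_lit 152) (nat_lit 98629489182) (nat_lit 0) (nat_lit 50937044127) (nat_lit 2) (nat_lit 5) (nat_lit 4) (nat_lit 4) (nat_lit 2) (nat_lit 4) (nat_lit 522) (nat_lit 345) (nat_lit 333))) (XT.nd (nat_lit 78) (nat_lit 0) (nat_lit 0) (XT.lf (nat_lit 0) (nat_lit 59644275621) (nat_lit 152) (nat_lit 91619830251) (nat_lit 0) (nat_lit 59306348686) (nat_lit 2) (nat_lit 5) (nat_lit 4) (nat_lit 4) (nat_lit 2) (nat_lit 4) (nat_lit 523) (nat_lit 345) (nat_lit 332)) (XT.lf (nat_lit 0) (nat_lit 68306688223) (nat_lit 152) (nat_lit 84555873838) (nat_lit 0) (nat_lit 67950591837) (nat_lit 2) (nat_lit 5) (nat_lit 4) (nat_lit 4) (nat_lit 2) (nat_lit 4) (nat_lit 524) (nat_lit 345)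 (nat_lit 331)))) (XT.nd (nat_lit 156) (nat_lit 0) (nat_lit 0) (XT.nd (nat_lit 78) (nat_lit 0) (nat_lit 0) (XT.lf (nat_lit 0) (nat_lit 77263755737) (nat_lit 152) (nat_lit 77420800999) (nat_lit 0) (nat_lit 76890355113) (nat_lit 2) (nat_lit 5) (nat_lit 4) (nat_lit 4) (nat_lit 2) (nat_lit 4) (nat_lit 525) (nat_lit 345) (nat_lit 330)) (XT.lf (nat_lit 0) (nat_lit 86536804515) (nat_lit 152) (nat_lit 70197623466) (nat_lit 0) (nat_lit 86146923662) (nat_lit 2) (nat_lit 5) (nat_lit 4) (nat_lit 4) (nat_lit 2) (nat_lit 4) (nat_lit 526) (nat_lit 345) (nat_lit 329))) (XT.nd (nat_lit 78) (nat_lit 0) (nat_lit 0) (XT.lf (nat_lit 0) (nat_lit 96147913243) (nat_lit 152) (nat_lit 62869143196) (nat_lit 0) (nat_lit 95742336935) (nat_lit 2) (nat_lit 5) (nat_lit 4) (nat_lit 4) (nat_lit 2) (nat_lit 4) (nat_lit 527) (nat_lit 345) (nat_lit 328)) (XT.lf (nat_lit 0) (nat_lit 106119965514) (nat_lit 152) (nat_lit 55417911427)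 (nat_lit 0) (nat_lit 105699441154) (nat_lit 2) (nat_lit 5) (nat_lit 4) (nat_lit 4) (nat_lit 2) (nat_lit 4) (nat_lit 528) (nat_lit 345) (nat_lit 327)))))) (XT.nd (nat_lit 624) (nat_lit 0) (nat_lit 0) (XT.nd (nat_lit 312) (nat_lit 76) (nat_lit 0) (XT.nd (nat_lit 156) (nat_lit 0) (nat_lit 0) (XT.nd (nat_lit 78) (nat_lit 0) (nat_lit 0) (XT.lf (nat_lit 0) (nat_lit 116476704310) (nat_lit 152) (nat_lit 47826187131) (nat_lit 0) (nat_lit 116041943709) (nat_lit 2) (nat_lit 5) (nat_lit 4) (nat_lit 4) (nat_lit 2) (nat_lit 4) (nat_lit 529) (nat_lit 345) (nat_lit 326)) (XT.lf (nat_lit 0) (nat_lit 127242788532) (nat_lit 152) (nat_lit 40075894774) (nat_lit 0) (nat_lit 126794469607) (nat_lit 2) (nat_lit 5) (nat_lit 4) (nat_lit 4) (nat_lit 2) (nat_lit 4) (nat_lit 530) (nat_lit 345) (nat_lit 325))) (XT.nd (nat_lit 78) (nat_lit 0) (nat_lit 0) (XT.lf (nat_lit 0) (nat_lit 138443851714) (nat_lit 152) (nat_lit 32148581279)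 (nat_lit 0) (nat_lit 137982620100) (nat_lit 2) (nat_lit 5) (nat_lit 4) (nat_lit 4) (nat_lit 2) (nat_lit 4) (nat_lit 531) (nat_lit 345) (nat_lit 324)) (XT.lf (nat_lit 0) (nat_lit 150106563055) (nat_lit 152) (nat_lit 24025372090) (nat_lit 0) (nat_lit 149633033641) (nat_lit 2) (nat_lit 5) (nat_lit 4) (nat_lit 4) (nat_lit 2) (nat_lit 4) (nat_lit 532) (nat_lit 345) (nat_lit 323)))) (XT.nd (nat_lit 156) (nat_lit 76) (nat_lit 0) (XT.nd (nat_lit 78) (nat_lit 0) (nat_lit 0) (XT.lf (nat_lit 0) (nat_lit 162258690914) (nat_lit 152) (nat_lit 15686926233) (nat_lit 0) (nat_lit 161773449310) (nat_lit 2) (nat_lit 5) (nat_lit 4) (nat_lit 4) (nat_lit 2) (nat_lit 4) (nat_lit 533) (nat_lit 345) (nat_lit 322)) (XT.lf (nat_lit 0) (nat_lit 174929168929) (nat_lit 152) (nat_lit 7113390266) (nat_lit 0) (nat_lit 174432772858) (nat_lit 2) (nat_lit 5) (nat_lit 4) (nat_lit 4) (nat_lit 2) (nat_lit 4) (nat_lit 534) (nat_lit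 345) (nat_lit 321))) (XT.nd (nat_lit 78) (nat_lit 0) (nat_lit 0) (XT.lf (nat_lit 0) (nat_lit 1772376097) (nat_lit 76) (nat_lit 186403460567) (nat_lit 76) (nat_lit 185896441194) (nat_lit 1) (nat_lit 4) (nat_lit 2) (nat_lit 5) (nat_lit 2) (nat_lit 4) (nat_lit 535) (nat_lit 345) (nat_lit 320)) (XT.lf (nat_lit 0) (nat_lit 11179011240) (nat_lit 76) (nat_lit 190942677099) (nat_lit 76) (nat_lit 190425540296) (nat_lit 1) (nat_lit 4) (nat_lit 2) (nat_lit 5) (nat_lit 2) (nat_lit 4) (nat_lit 536) (nat_lit 345) (nat_lit 319))))) (XT.nd (nat_lit 312) (nat_lit 0) (nat_lit 0) (XT.nd (nat_lit 156) (nat_lit 0) (nat_lit 0) (XT.nd (nat_lit 78) (nat_lit 0) (nat_lit 0) (XT.lf (nat_lit 0) (nat_lit 20893711106) (nat_lit 76) (nat_lit 195791485154) (nat_lit 76) (nat_lit 195264712704) (nat_lit 1) (nat_lit 4) (nat_lit 2) (nat_lit 5) (nat_lit 2) (nat_lit 4) (nat_lit 537) (nat_lit 345) (nat_lit 318)) (XT.lf (nat_lit 0) (nat_lit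 30939605934) (nat_lit 76) (nat_lit 200961429516) (nat_lit 76) (nat_lit 200425480258) (nat_lit 1) (nat_lit 4) (nat_lit 2) (nat_lit 5) (nat_lit 2) (nat_lit 4) (nat_lit 538) (nat_lit 345) (nat_lit 317))) (XT.nd (nat_lit 78) (nat_lit 0) (nat_lit 0) (XT.lf (nat_lit 0) (nat_lit 41340614519) (nat_lit 76) (nat_lit 206464819574) (nat_lit 76) (nat_lit 205920130499) (nat_lit 1) (nat_lit 4) (nat_lit 2) (nat_lit 5) (nat_lit 2) (nat_lit 4) (nat_lit 539) (nat_lit 345) (nat_lit 316)) (XT.lf (nat_lit 0) (nat_lit 52121501169) (nat_lit 76) (nat_lit 212314758639) (nat_lit 76) (nat_lit 211761745929) (nat_lit 1) (nat_lit 4) (nat_lit 2) (nat_lit 5) (nat_lit 2) (nat_lit 4) (nat_lit 540) (nat_lit 345) (nat_lit 315)))) (XT.nd (nat_lit 156) (nat_lit 0) (nat_lit 0) (XT.nd (nat_lit 78) (nat_lit 0) (nat_lit 0) (XT.lf (nat_lit 0) (nat_lit 63307934661) (nat_lit 76) (nat_lit 218525175136) (nat_lit 76) (nat_lit 217964235155)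 (nat_lit 1) (nat_lit 4) (nat_lit 2) (nat_lit 5) (nat_lit 2) (nat_lit 4) (nat_lit 541) (nat_lit 345) (nat_lit 314)) (XT.lf (nat_lit 0) (nat_lit 74926549360) (nat_lit 76) (nat_lit 225110855772) (nat_lit 76) (nat_lit 224542366009) (nat_lit 1) (nat_lit 4) (nat_lit 2) (nat_lit 5) (nat_lit 2) (nat_lit 4) (nat_lit 542) (nat_lit 345) (nat_lit 313))) (XT.nd (nat_lit 78) (nat_lit 0) (nat_lit 0) (XT.lf (nat_lit 0) (nat_lit 87005008635) (nat_lit 76) (nat_lit 232087480739) (nat_lit 76) (nat_lit 231511800707) (nat_lit 1) (nat_lit 4) (nat_lit 2) (nat_lit 5) (nat_lit 2) (nat_lit 4) (nat_lit 543) (nat_lit 345) (nat_lit 312)) (XT.lf (nat_lit 0) (nat_lit 99572070722) (nat_lit 76) (nat_lit 239471661049) (nat_lit 76) (nat_lit 238889133141) (nat_lit 1) (nat_lit 4) (nat_lit 2) (nat_lit 5) (nat_lit 2) (nat_lit 4) (nat_lit 544) (nat_lit 345) (nat_lit 311))))))))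
noncomputable def xc8 : XT := (XT.nd (nat_lit 61308) (nat_lit 0) (nat_lit 0) (XT.nd (nat_lit 60060) (nat_lit 0) (nat_lit 76) (XT.nd (nat_lit 546) (nat_lit 0) (nat_lit 0) (XT.nd (nat_lit 234) (nat_lit 0) (nat_lit 0) (XT.nd (nat_lit 78) (nat_lit 0) (nat_lit 0) (XT.lf (nat_lit 0) (nat_lit 112657657198) (nat_lit 76) (nat_lit 247280978082) (nat_lit 76) (nat_lit 246691928390) (nat_lit 1) (nat_lit 4) (nat_lit 2) (nat_lit 5) (nat_lit 2) (nat_lit 4) (nat_lit 545) (nat_lit 345) (nat_lit 310)) (XT.nd (nat_lit 78) (nat_lit 0) (nat_lit 0) (XT.lf (nat_lit 0) (nat_lit 126292924221) (nat_lit 76) (nat_lit 255534025453) (nat_lit 76) (nat_lit 254938764535) (nat_lit 1) (nat_lit 4) (nat_lit 2) (nat_lit 5) (nat_lit 2) (nat_lit 4) (nat_lit 546) (nat_lit 345) (nat_lit 309)) (XT.lf (nat_lit 0) (nat_lit 140510336712) (nat_lit 76) (nat_lit 264250453272) (nat_lit 76) (nat_lit 263649276902) (nat_lit 1) (nat_lit 4) (nat_lit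 2) (nat_lit 5) (nat_lit 2) (nat_lit 4) (nat_lit 547) (nat_lit 345) (nat_lit 308)))) (XT.nd (nat_lit 156) (nat_lit 0) (nat_lit 0) (XT.nd (nat_lit 78) (nat_lit 0) (nat_lit 0) (XT.lf (nat_lit 0) (nat_lit 155343745654) (nat_lit 76) (nat_lit 273451014939) (nat_lit 76) (nat_lit 272844204806) (nat_lit 1) (nat_lit 4) (nat_lit 2) (nat_lit 5) (nat_lit 2) (nat_lit 4) (nat_lit 548) (nat_lit 345) (nat_lit 307)) (XT.lf (nat_lit 0) (nat_lit 170828468686) (nat_lit 76) (nat_lit 283157616555) (nat_lit 76) (nat_lit 282545440932) (nat_lit 1) (nat_lit 4) (nat_lit 2) (nat_lit 5) (nat_lit 2) (nat_lit 4) (nat_lit 549) (nat_lit 345) (nat_lit 306))) (XT.nd (nat_lit 78) (nat_lit 0) (nat_lit 0) (XT.lf (nat_lit 0) (nat_lit 187001374197) (nat_lit 76) (nat_lit 293393369074) (nat_lit 76) (nat_lit 292776083462) (nat_lit 1) (nat_lit 4) (nat_lit 2) (nat_lit 5) (nat_lit 2) (nat_lit 4) (nat_lit 550) (nat_lit 345) (nat_lit 305))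 (XT.lf (nat_lit 0) (nat_lit 203900969106) (nat_lit 76) (nat_lit 304182643337) (nat_lit 76) (nat_lit 303560491068) (nat_lit 1) (nat_lit 4) (nat_lit 2) (nat_lit 5) (nat_lit 2) (nat_lit 4) (nat_lit 551) (nat_lit 345) (nat_lit 304))))) (XT.nd (nat_lit 59202) (nat_lit 0) (nat_lit 228) (XT.nd (nat_lit 59046) (nat_lit 0) (nat_lit 228) (XT.nd (nat_lit 78) (nat_lit 0) (nat_lit 0) (XT.lf (nat_lit 0) (nat_lit 221567490542) (nat_lit 76) (nat_lit 315551128092) (nat_lit 76) (nat_lit 314924340911) (nat_lit 1) (nat_lit 4) (nat_lit 2) (nat_lit 5) (nat_lit 2) (nat_lit 4) (nat_lit 552) (nat_lit 345) (nat_lit 303)) (XT.lf (nat_lit 0) (nat_lit 240043001651) (nat_lit 76) (nat_lit 327525891159) (nat_lit 76) (nat_lit 326894689777) (nat_lit 1) (nat_lit 4) (nat_lit 2) (nat_lit 5) (nat_lit 2) (nat_lit 4) (nat_lit 553) (nat_lit 345) (nat_lit 302))) (XT.nd (nat_lit 78) (nat_lit 0) (nat_lit 0) (XT.lf (nat_lit 0) (nat_lit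 5743260176) (nat_lit 76) (nat_lit 23370600532) (nat_lit 76) (nat_lit 23370600532) (nat_lit 4) (nat_lit 4) (nat_lit 5) (nat_lit 5) (nat_lit 5) (nat_lit 4) (nat_lit 508) (nat_lit 346) (nat_lit 346)) (XT.lf (nat_lit 0) (nat_lit 28674238524) (nat_lit 76) (nat_lit 40586409693) (nat_lit 76) (nat_lit 40548636710) (nat_lit 4) (nat_lit 4) (nat_lit 5) (nat_lit 5) (nat_lit 5) (nat_lit 4) (nat_lit 509) (nat_lit 346) (nat_lit 345)))) (XT.nd (nat_lit 156) (nat_lit 0) (nat_lit 0) (XT.nd (nat_lit 78) (nat_lit 0) (nat_lit 0) (XT.lf (nat_lit 0) (nat_lit 46198186630) (nat_lit 76) (nat_lit 34390038340) (nat_lit 76) (nat_lit 34316291086) (nat_lit 4) (nat_lit 4) (nat_lit 5) (nat_lit 5) (nat_lit 5) (nat_lit 4) (nat_lit 510) (nat_lit 346) (nat_lit 344)) (XT.lf (nat_lit 0) (nat_lit 64100088356) (nat_lit 76) (nat_lit 28137333740) (nat_lit 76) (nat_lit 28029325275) (nat_lit 4) (nat_lit 4) (nat_lit 5) (nat_lit 5) (nat_lit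 5) (nat_lit 4) (nat_lit 511) (nat_lit 346) (nat_lit 343))) (XT.nd (nat_lit 78) (nat_lit 0) (nat_lit 0) (XT.lf (nat_lit 0) (nat_lit 82422567279) (nat_lit 76) (nat_lit 21813408500) (nat_lit 76) (nat_lit 21672770312) (nat_lit 4) (nat_lit 4) (nat_lit 5) (nat_lit 5) (nat_lit 5) (nat_lit 4) (nat_lit 512) (nat_lit 346) (nat_lit 342)) (XT.lf (nat_lit 0) (nat_lit 101209248347) (nat_lit 76) (nat_lit 15403205656) (nat_lit 76) (nat_lit 15231491541) (nat_lit 4) (nat_lit 4) (nat_lit 5) (nat_lit 5) (nat_lit 5) (nat_lit 4) (nat_lit 513) (nat_lit 346) (nat_lit 341)))))) (XT.nd (nat_lit 624) (nat_lit 0) (nat_lit 0) (XT.nd (nat_lit 312) (nat_lit 0) (nat_lit 0) (XT.nd (nat_lit 156) (nat_lit 152) (nat_lit 0) (XT.nd (nat_lit 78) (nat_lit 0) (nat_lit 0) (XT.lf (nat_lit 0) (nat_lit 120504861754) (nat_lit 76) (nat_lit 8891462820) (nat_lit 76) (nat_lit 8690152584) (nat_lit 4) (nat_lit 4) (nat_lit 5) (nat_lit 5) (nat_lit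 5) (nat_lit 4) (nat_lit 514) (nat_lit 346) (nat_lit 340)) (XT.lf (nat_lit 0) (nat_lit 140355349436) (nat_lit 76) (nat_lit 2262675843) (nat_lit 76) (nat_lit 2033178824) (nat_lit 4) (nat_lit 4) (nat_lit 5) (nat_lit 5) (nat_lit 5) (nat_lit 4) (nat_lit 515) (nat_lit 346) (nat_lit 339))) (XT.nd (nat_lit 78) (nat_lit 0) (nat_lit 0) (XT.lf (nat_lit 0) (nat_lit 4825030547) (nat_lit 152) (nat_lit 142133020782) (nat_lit 0) (nat_lit 4580895716) (nat_lit 2) (nat_lit 5) (nat_lit 4) (nat_lit 4) (nat_lit 2) (nat_lit 4) (nat_lit 516) (nat_lit 346) (nat_lit 338)) (XT.lf (nat_lit 0) (nat_lit 11874025163) (nat_lit 152) (nat_lit 135294034259) (nat_lit 0) (nat_lit 11605541529) (nat_lit 2) (nat_lit 5) (nat_lit 4) (nat_lit 4) (nat_lit 2) (nat_lit 4) (nat_lit 517) (nat_lit 346) (nat_lit 337)))) (XT.nd (nat_lit 156) (nat_lit 0) (nat_lit 0) (XT.nd (nat_lit 78) (nat_lit 0) (nat_lit 0) (XT.lf (nat_lit 0) (nat_lit 19089912204)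 (nat_lit 152) (nat_lit 128491114456) (nat_lit 0) (nat_lit 18798239235) (nat_lit 2) (nat_lit 5) (nat_lit 4) (nat_lit 4) (nat_lit 2) (nat_lit 4) (nat_lit 518) (nat_lit 346) (nat_lit 336)) (XT.lf (nat_lit 0) (nat_lit 26489872354) (nat_lit 152) (nat_lit 121708063947) (nat_lit 0) (nat_lit 26176114303) (nat_lit 2) (nat_lit 5) (nat_lit 4) (nat_lit 4) (nat_lit 2) (nat_lit 4) (nat_lit 519) (nat_lit 346) (nat_lit 335))) (XT.nd (nat_lit 78) (nat_lit 0) (nat_lit 0) (XT.lf (nat_lit 0) (nat_lit 34091524565) (nat_lit 152) (nat_lit 114928732610) (nat_lit 0) (nat_lit 33756733104) (nat_lit 2) (nat_lit 5) (nat_lit 4) (nat_lit 4) (nat_lit 2) (nat_lit 4) (nat_lit 520) (nat_lit 346) (nat_lit 334)) (XT.lf (nat_lit 0) (nat_lit 41912968010) (nat_lit 152) (nat_lit 108136979181) (nat_lit 0) (nat_lit 41558144729) (nat_lit 2) (nat_lit 5) (nat_lit 4) (nat_lit 4) (nat_lit 2) (nat_lit 4) (nat_lit 521) (nat_lit 346) (nat_lit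 333))))) (XT.nd (nat_lit 312) (nat_lit 0) (nat_lit 0) (XT.nd (nat_lit 156) (nat_lit 0) (nat_lit 0) (XT.nd (nat_lit 78) (nat_lit 0) (nat_lit 0) (XT.lf (nat_lit 0) (nat_lit 49972825173) (nat_lit 152) (nat_lit 101316632818) (nat_lit 0) (nat_lit 49598923968) (nat_lit 2) (nat_lit 5) (nat_lit 4) (nat_lit 4) (nat_lit 2) (nat_lit 4) (nat_lit 522) (nat_lit 346) (nat_lit 332)) (XT.lf (nat_lit 0) (nat_lit 58290286190) (nat_lit 152) (nat_lit 94451454601) (nat_lit 0) (nat_lit 57898215534) (nat_lit 2) (nat_lit 5) (nat_lit 4) (nat_lit 4) (nat_lit 2) (nat_lit 4) (nat_lit 523) (nat_lit 346) (nat_lit 331))) (XT.nd (nat_lit 78) (nat_lit 0) (nat_lit 0) (XT.lf (nat_lit 0) (nat_lit 66885154540) (nat_lit 152) (nat_lit 87525098869) (nat_lit 0) (nat_lit 66475779645) (nat_lit 2) (nat_lit 5) (nat_lit 4) (nat_lit 4) (nat_lit 2) (nat_lit 4) (nat_lit 524) (nat_lit 346) (nat_lit 330)) (XT.lf (nat_lit 0) (nat_lit 75777894194)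 (nat_lit 152) (nat_lit 80521074297) (nat_lit 0) (nat_lit 75352039071) (nat_lit 2) (nat_lit 5) (nat_lit 4) (nat_lit 4) (nat_lit 2) (nat_lit 4) (nat_lit 525) (nat_lit 346) (nat_lit 329)))) (XT.nd (nat_lit 156) (nat_lit 0) (nat_lit 0) (XT.nd (nat_lit 78) (nat_lit 0) (nat_lit 0) (XT.lf (nat_lit 0) (nat_lit 84989678343) (nat_lit 152) (nat_lit 73422704636) (nat_lit 0) (nat_lit 84548127765) (nat_lit 2) (nat_lit 5) (nat_lit 4) (nat_lit 4) (nat_lit 2) (nat_lit 4) (nat_lit 526) (nat_lit 346) (nat_lit 328)) (XT.lf (nat_lit 0) (nat_lit 94542439806) (nat_lit 152) (nat_lit 66213089008) (nat_lit 0) (nat_lit 94085941176) (nat_lit 2) (nat_lit 5) (nat_lit 4) (nat_lit 4) (nat_lit 2) (nat_lit 4) (nat_lit 527) (nat_lit 346) (nat_lit 327))) (XT.nd (nat_lit 78) (nat_lit 0) (nat_lit 0) (XT.lf (nat_lit 0) (nat_lit 104458923254) (nat_lit 152) (nat_lit 58875061659) (nat_lit 0) (nat_lit 103988188383) (nat_lit 2) (nat_lit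 5) (nat_lit 4) (nat_lit 4) (nat_lit 2) (nat_lit 4) (nat_lit 528) (nat_lit 346) (nat_lit 326)) (XT.lf (nat_lit 0) (nat_lit 114762739360) (nat_lit 152) (nat_lit 51391151097) (nat_lit 0) (nat_lit 114278446165) (nat_lit 2) (nat_lit 5) (nat_lit 4) (nat_lit 4) (nat_lit 2) (nat_lit 4) (nat_lit 529) (nat_lit 346) (nat_lit 325))))))) (XT.nd (nat_lit 1170) (nat_lit 0) (nat_lit 0) (XT.nd (nat_lit 546) (nat_lit 0) (nat_lit 0) (XT.nd (nat_lit 234) (nat_lit 76) (nat_lit 0) (XT.nd (nat_lit 78) (nat_lit 0) (nat_lit 0) (XT.lf (nat_lit 0) (nat_lit 125478421020) (nat_lit 152) (nat_lit 43743538486) (nat_lit 0) (nat_lit 124981215136) (nat_lit 2) (nat_lit 5) (nat_lit 4) (nat_lit 4) (nat_lit 2) (nat_lit 4) (nat_lit 530) (nat_lit 346) (nat_lit 324)) (XT.nd (nat_lit 78) (nat_lit 0) (nat_lit 0) (XT.lf (nat_lit 0) (nat_lit 136631481763) (nat_lit 152) (nat_lit 35914015226) (nat_lit 0) (nat_lit 136121978079) (nat_lit 2)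 (nat_lit 5) (nat_lit 4) (nat_lit 4) (nat_lit 2) (nat_lit 4) (nat_lit 531) (nat_lit 346) (nat_lit 323)) (XT.lf (nat_lit 0) (nat_lit 148248476495) (nat_lit 152) (nat_lit 27883939594) (nat_lit 0) (nat_lit 147727260620) (nat_lit 2) (nat_lit 5) (nat_lit 4) (nat_lit 4) (nat_lit 2) (nat_lit 4) (nat_lit 532) (nat_lit 346) (nat_lit 322)))) (XT.nd (nat_lit 156) (nat_lit 76) (nat_lit 0) (XT.nd (nat_lit 78) (nat_lit 0) (nat_lit 0) (XT.lf (nat_lit 0) (nat_lit 160357064726) (nat_lit 152) (nat_lit 19634192362) (nat_lit 0) (nat_lit 159824694385) (nat_lit 2) (nat_lit 5) (nat_lit 4) (nat_lit 4) (nat_lit 2) (nat_lit 4) (nat_lit 533) (nat_lit 346) (nat_lit 321)) (XT.lf (nat_lit 0) (nat_lit 172986076430) (nat_lit 152) (nat_lit 11145131276) (nat_lit 0) (nat_lit 172443082787) (nat_lit 2) (nat_lit 5) (nat_lit 4) (nat_lit 4) (nat_lit 2) (nat_lit 4) (nat_lit 534) (nat_lit 346) (nat_lit 320))) (XT.nd (nat_lit 78) (nat_lit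 76) (nat_lit 0) (XT.lf (nat_lit 0) (nat_lit 186165580681) (nat_lit 152) (nat_lit 2396544284) (nat_lit 0) (nat_lit 185612469608) (nat_lit 2) (nat_lit 5) (nat_lit 4) (nat_lit 4) (nat_lit 2) (nat_lit 4) (nat_lit 535) (nat_lit 346) (nat_lit 319)) (XT.lf (nat_lit 0) (nat_lit 6851695630) (nat_lit 76) (nat_lit 193182235792) (nat_lit 76) (nat_lit 192619489071) (nat_lit 1) (nat_lit 4) (nat_lit 2) (nat_lit 5) (nat_lit 2) (nat_lit 4) (nat_lit 536) (nat_lit 346) (nat_lit 318))))) (XT.nd (nat_lit 312) (nat_lit 0) (nat_lit 0) (XT.nd (nat_lit 156) (nat_lit 0) (nat_lit 0) (XT.nd (nat_lit 78) (nat_lit 0) (nat_lit 0) (XT.lf (nat_lit 0) (nat_lit 16491010115) (nat_lit 76) (nat_lit 198069432093) (nat_lit 76) (nat_lit 197497508564) (nat_lit 1) (nat_lit 4) (nat_lit 2) (nat_lit 5) (nat_lit 2) (nat_lit 4) (nat_lit 537) (nat_lit 346) (nat_lit 317)) (XT.lf (nat_lit 0) (nat_lit 26465109341) (nat_lit 76) (nat_lit 203275936688)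 (nat_lit 76) (nat_lit 202695273343) (nat_lit 1) (nat_lit 4) (nat_lit 2) (nat_lit 5) (nat_lit 2) (nat_lit 4) (nat_lit 538) (nat_lit 346) (nat_lit 316))) (XT.nd (nat_lit 78) (nat_lit 0) (nat_lit 0) (XT.lf (nat_lit 0) (nat_lit 36797741163) (nat_lit 76) (nat_lit 208814146016) (nat_lit 76) (nat_lit 208225159036) (nat_lit 1) (nat_lit 4) (nat_lit 2) (nat_lit 5) (nat_lit 2) (nat_lit 4) (nat_lit 539) (nat_lit 346) (nat_lit 315)) (XT.lf (nat_lit 0) (nat_lit 47513507085) (nat_lit 76) (nat_lit 214697246290) (nat_lit 76) (nat_lit 214100332039) (nat_lit 1) (nat_lit 4) (nat_lit 2) (nat_lit 5) (nat_lit 2) (nat_lit 4) (nat_lit 540) (nat_lit 346) (nat_lit 314)))) (XT.nd (nat_lit 156) (nat_lit 0) (nat_lit 0) (XT.nd (nat_lit 78) (nat_lit 0) (nat_lit 0) (XT.lf (nat_lit 0) (nat_lit 58637920837) (nat_lit 76) (nat_lit 220939244892) (nat_lit 76) (nat_lit 220334780858) (nat_lit 1) (nat_lit 4) (nat_lit 2) (nat_lit 5) (nat_lit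 2) (nat_lit 4) (nat_lit 541) (nat_lit 346) (nat_lit 313)) (XT.lf (nat_lit 0) (nat_lit 70197469117) (nat_lit 76) (nat_lit 227555003723) (nat_lit 76) (nat_lit 226943349420) (nat_lit 1) (nat_lit 4) (nat_lit 2) (nat_lit 5) (nat_lit 2) (nat_lit 4) (nat_lit 542) (nat_lit 346) (nat_lit 312))) (XT.nd (nat_lit 78) (nat_lit 0) (nat_lit 0) (XT.lf (nat_lit 0) (nat_lit 82219674660) (nat_lit 76) (nat_lit 234560274589) (nat_lit 76) (nat_lit 233941772412) (nat_lit 1) (nat_lit 4) (nat_lit 2) (nat_lit 5) (nat_lit 2) (nat_lit 4) (nat_lit 543) (nat_lit 346) (nat_lit 311)) (XT.lf (nat_lit 0) (nat_lit 94733161764) (nat_lit 76) (nat_lit 241971736708) (nat_lit 76) (nat_lit 241346712745) (nat_lit 1) (nat_lit 4) (nat_lit 2) (nat_lit 5) (nat_lit 2) (nat_lit 4) (nat_lit 544) (nat_lit 346) (nat_lit 310)))))) (XT.nd (nat_lit 624) (nat_lit 0) (nat_lit 0) (XT.nd (nat_lit 312) (nat_lit 0) (nat_lit 0) (XT.nd (nat_lit 156) (nat_lit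 0) (nat_lit 0) (XT.nd (nat_lit 78) (nat_lit 0) (nat_lit 0) (XT.lf (nat_lit 0) (nat_lit 107767724446) (nat_lit 76) (nat_lit 249807036417) (nat_lit 76) (nat_lit 249175801229) (nat_lit 1) (nat_lit 4) (nat_lit 2) (nat_lit 5) (nat_lit 2) (nat_lit 4) (nat_lit 545) (nat_lit 346) (nat_lit 309)) (XT.lf (nat_lit 0) (nat_lit 121354397380) (nat_lit 76) (nat_lit 258084829193) (nat_lit 76) (nat_lit 257447678553) (nat_lit 1) (nat_lit 4) (nat_lit 2) (nat_lit 5) (nat_lit 2) (nat_lit 4) (nat_lit 546) (nat_lit 346) (nat_lit 308))) (XT.nd (nat_lit 78) (nat_lit 0) (nat_lit 0) (XT.lf (nat_lit 0) (nat_lit 135525529786) (nat_lit 76) (nat_lit 266824824064) (nat_lit 76) (nat_lit 266182039661) (nat_lit 1) (nat_lit 4) (nat_lit 2) (nat_lit 5) (nat_lit 2) (nat_lit 4) (nat_lit 547) (nat_lit 346) (nat_lit 307)) (XT.lf (nat_lit 0) (nat_lit 150314862456) (nat_lit 76) (nat_lit 276047830544) (nat_lit 76) (nat_lit 275399680651)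 (nat_lit 1) (nat_lit 4) (nat_lit 2) (nat_lit 5) (nat_lit 2) (nat_lit 4) (nat_lit 548) (nat_lit 346) (nat_lit 306)))) (XT.nd (nat_lit 156) (nat_lit 0) (nat_lit 0) (XT.nd (nat_lit 78) (nat_lit 0) (nat_lit 0) (XT.lf (nat_lit 0) (nat_lit 165757608087) (nat_lit 76) (nat_lit 285775808171) (nat_lit 76) (nat_lit 285122548288) (nat_lit 1) (nat_lit 4) (nat_lit 2) (nat_lit 5) (nat_lit 2) (nat_lit 4) (nat_lit 549) (nat_lit 346) (nat_lit 305)) (XT.lf (nat_lit 0) (nat_lit 181890535121) (nat_lit 76) (nat_lit 296031918796) (nat_lit 76) (nat_lit 295373792257) (nat_lit 1) (nat_lit 4) (nat_lit 2) (nat_lit 5) (nat_lit 2) (nat_lit 4) (nat_lit 550) (nat_lit 346) (nat_lit 304))) (XT.nd (nat_lit 78) (nat_lit 0) (nat_lit 0) (XT.lf (nat_lit 0) (nat_lit 198752055289) (nat_lit 76) (nat_lit 306840581732) (nat_lit 76) (nat_lit 306177820281) (nat_lit 1) (nat_lit 4) (nat_lit 2) (nat_lit 5) (nat_lit 2) (nat_lit 4) (nat_lit 551)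 (nat_lit 346) (nat_lit 303)) (XT.lf (nat_lit 0) (nat_lit 216382315068) (nat_lit 76) (nat_lit 318227531889) (nat_lit 76) (nat_lit 317560356236) (nat_lit 1) (nat_lit 4) (nat_lit 2) (nat_lit 5) (nat_lit 2) (nat_lit 4) (nat_lit 552) (nat_lit 346) (nat_lit 302))))) (XT.nd (nat_lit 59046) (nat_lit 0) (nat_lit 228) (XT.nd (nat_lit 58890) (nat_lit 0) (nat_lit 228) (XT.nd (nat_lit 58812) (nat_lit 0) (nat_lit 304) (XT.lf (nat_lit 0) (nat_lit 234823291265) (nat_lit 76) (nat_lit 330219881053) (nat_lit 76) (nat_lit 329548501400) (nat_lit 1) (nat_lit 4) (nat_lit 2) (nat_lit 5) (nat_lit 2) (nat_lit 4) (nat_lit 553) (nat_lit 346) (nat_lit 301)) (XT.lf (nat_lit 0) (nat_lit 18729510173) (nat_lit 152) (nat_lit 10532672187) (nat_lit 0) (nat_lit 18729510173) (nat_lit 5) (nat_lit 5) (nat_lit 7) (nat_lit 4) (nat_lit 5) (nat_lit 4) (nat_lit 506) (nat_lit 347) (nat_lit 347))) (XT.nd (nat_lit 78) (nat_lit 76) (nat_lit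 0) (XT.lf (nat_lit 0) (nat_lit 47587238438) (nat_lit 152) (nat_lit 5232868749) (nat_lit 0) (nat_lit 47547576805) (nat_lit 5) (nat_lit 5) (nat_lit 7) (nat_lit 4) (nat_lit 5) (nat_lit 4) (nat_lit 507) (nat_lit 347) (nat_lit 346)) (XT.lf (nat_lit 0) (nat_lit 11218562415) (nat_lit 76) (nat_lit 46917188339) (nat_lit 76) (nat_lit 46839753722) (nat_lit 4) (nat_lit 4) (nat_lit 5) (nat_lit 5) (nat_lit 5) (nat_lit 4) (nat_lit 508) (nat_lit 347) (nat_lit 345)))) (XT.nd (nat_lit 156) (nat_lit 0) (nat_lit 0) (XT.nd (nat_lit 78) (nat_lit 0) (nat_lit 0) (XT.lf (nat_lit 0) (nat_lit 28151082550) (nat_lit 76) (nat_lit 40892230913) (nat_lit 76) (nat_lit 40778822026) (nat_lit 4) (nat_lit 4) (nat_lit 5) (nat_lit 5) (nat_lit 5) (nat_lit 4) (nat_lit 509) (nat_lit 347) (nat_lit 344)) (XT.lf (nat_lit 0) (nat_lit 45431984907) (nat_lit 76) (nat_lit 34819510935) (nat_lit 76) (nat_lit 34671840838) (nat_lit 4) (nat_lit 4)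 (nat_lit 5) (nat_lit 5) (nat_lit 5) (nat_lit 4) (nat_lit 510) (nat_lit 347) (nat_lit 343))) (XT.nd (nat_lit 78) (nat_lit 0) (nat_lit 0) (XT.lf (nat_lit 0) (nat_lit 63102414492) (nat_lit 76) (nat_lit 28684569550) (nat_lit 76) (nat_lit 28504269729) (nat_lit 4) (nat_lit 4) (nat_lit 5) (nat_lit 5) (nat_lit 5) (nat_lit 4) (nat_lit 511) (nat_lit 347) (nat_lit 342)) (XT.lf (nat_lit 0) (nat_lit 81204443756) (nat_lit 76) (nat_lit 22472799753) (nat_lit 76) (nat_lit 22261424005) (nat_lit 4) (nat_lit 4) (nat_lit 5) (nat_lit 5) (nat_lit 5) (nat_lit 4) (nat_lit 512) (nat_lit 347) (nat_lit 341))))))))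
noncomputable def xc9 : XT := (XT.nd (nat_lit 2418) (nat_lit 0) (nat_lit 0) (XT.nd (nat_lit 1170) (nat_lit 76) (nat_lit 0) (XT.nd (nat_lit 546) (nat_lit 0) (nat_lit 0) (XT.nd (nat_lit 234) (nat_lit 152) (nat_lit 0) (XT.nd (nat_lit 78) (nat_lit 0) (nat_lit 0) (XT.lf (nat_lit 0) (nat_lit 99781172768) (nat_lit 76) (nat_lit 16169411616) (nat_lit 76) (nat_lit 15928439747) (nat_lit 4) (nat_lit 4) (nat_lit 5) (nat_lit 5) (nat_lit 5) (nat_lit 4) (nat_lit 513) (nat_lit 347) (nat_lit 340)) (XT.nd (nat_lit 78) (nat_lit 0) (nat_lit 0) (XT.lf (nat_lit 0) (nat_lit 118876831836) (nat_lit 76) (nat_lit 9759397074) (nat_lit 76) (nat_lit 9490238422) (nat_lit 4) (nat_lit 4) (nat_lit 5) (nat_lit 5) (nat_lit 5) (nat_lit 4) (nat_lit 514) (nat_lit 347) (nat_lit 339)) (XT.lf (nat_lit 0) (nat_lit 138536886814) (nat_lit 76) (nat_lit 3227494185) (nat_lit 76) (nat_lit 2931490979) (nat_lit 4) (nat_lit 4) (nat_lit 5) (nat_lit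 5) (nat_lit 5) (nat_lit 4) (nat_lit 515) (nat_lit 347) (nat_lit 338)))) (XT.nd (nat_lit 156) (nat_lit 0) (nat_lit 0) (XT.nd (nat_lit 78) (nat_lit 0) (nat_lit 0) (XT.lf (nat_lit 0) (nat_lit 3814821804) (nat_lit 152) (nat_lit 144267961842) (nat_lit 0) (nat_lit 3508565186) (nat_lit 2) (nat_lit 5) (nat_lit 4) (nat_lit 4) (nat_lit 2) (nat_lit 4) (nat_lit 516) (nat_lit 347) (nat_lit 337)) (XT.lf (nat_lit 0) (nat_lit 10773300661) (nat_lit 152) (nat_lit 137613373390) (nat_lit 0) (nat_lit 10443854708) (nat_lit 2) (nat_lit 5) (nat_lit 4) (nat_lit 4) (nat_lit 2) (nat_lit 4) (nat_lit 517) (nat_lit 347) (nat_lit 336))) (XT.nd (nat_lit 78) (nat_lit 0) (nat_lit 0) (XT.lf (nat_lit 0) (nat_lit 17902982217) (nat_lit 152) (nat_lit 130986070799) (nat_lit 0) (nat_lit 17551451183) (nat_lit 2) (nat_lit 5) (nat_lit 4) (nat_lit 4) (nat_lit 2) (nat_lit 4) (nat_lit 518) (nat_lit 347) (nat_lit 335)) (XT.lf (nat_lit 0) (nat_lit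 25220841906) (nat_lit 152) (nat_lit 124370274777) (nat_lit 0) (nat_lit 24848277461) (nat_lit 2) (nat_lit 5) (nat_lit 4) (nat_lit 4) (nat_lit 2) (nat_lit 4) (nat_lit 519) (nat_lit 347) (nat_lit 334))))) (XT.nd (nat_lit 312) (nat_lit 0) (nat_lit 0) (XT.nd (nat_lit 156) (nat_lit 0) (nat_lit 0) (XT.nd (nat_lit 78) (nat_lit 0) (nat_lit 0) (XT.lf (nat_lit 0) (nat_lit 32744303202) (nat_lit 152) (nat_lit 117750233427) (nat_lit 0) (nat_lit 32351706937) (nat_lit 2) (nat_lit 5) (nat_lit 4) (nat_lit 4) (nat_lit 2) (nat_lit 4) (nat_lit 520) (nat_lit 347) (nat_lit 333)) (XT.lf (nat_lit 0) (nat_lit 40491279108) (nat_lit 152) (nat_lit 111110184748) (nat_lit 0) (nat_lit 40079604919) (nat_lit 2) (nat_lit 5) (nat_lit 4) (nat_lit 4) (nat_lit 2) (nat_lit 4) (nat_lit 521) (nat_lit 347) (nat_lit 332))) (XT.nd (nat_lit 78) (nat_lit 0) (nat_lit 0) (XT.lf (nat_lit 0) (nat_lit 48480214806) (nat_lit 152) (nat_lit 104434319100)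 (nat_lit 0) (nat_lit 48050371166) (nat_lit 2) (nat_lit 5) (nat_lit 4) (nat_lit 4) (nat_lit 2) (nat_lit 4) (nat_lit 522) (nat_lit 347) (nat_lit 331)) (XT.lf (nat_lit 0) (nat_lit 56730131570) (nat_lit 152) (nat_lit 97706741564) (nat_lit 0) (nat_lit 56282983691) (nat_lit 2) (nat_lit 5) (nat_lit 4) (nat_lit 4) (nat_lit 2) (nat_lit 4) (nat_lit 523) (nat_lit 347) (nat_lit 330)))) (XT.nd (nat_lit 156) (nat_lit 0) (nat_lit 0) (XT.nd (nat_lit 78) (nat_lit 0) (nat_lit 0) (XT.lf (nat_lit 0) (nat_lit 65260672060) (nat_lit 152) (nat_lit 90911434098) (nat_lit 0) (nat_lit 64797043953) (nat_lit 2) (nat_lit 5) (nat_lit 4) (nat_lit 4) (nat_lit 2) (nat_lit 4) (nat_lit 524) (nat_lit 347) (nat_lit 329)) (XT.lf (nat_lit 0) (nat_lit 74092147086) (nat_lit 152) (nat_lit 84032217399) (nat_lit 0) (nat_lit 73612823524) (nat_lit 2) (nat_lit 5) (nat_lit 4) (nat_lit 4) (nat_lit 2) (nat_lit 4) (nat_lit 525) (nat_lit 347) (nat_lit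 328))) (XT.nd (nat_lit 78) (nat_lit 0) (nat_lit 0) (XT.lf (nat_lit 0) (nat_lit 83245583970) (nat_lit 152) (nat_lit 77052712380) (nat_lit 0) (nat_lit 82751312356) (nat_lit 2) (nat_lit 5) (nat_lit 4) (nat_lit 4) (nat_lit 2) (nat_lit 4) (nat_lit 526) (nat_lit 347) (nat_lit 327)) (XT.lf (nat_lit 0) (nat_lit 92742776609) (nat_lit 152) (nat_lit 69956301172) (nat_lit 0) (nat_lit 92234268754) (nat_lit 2) (nat_lit 5) (nat_lit 4) (nat_lit 4) (nat_lit 2) (nat_lit 4) (nat_lit 527) (nat_lit 347) (nat_lit 326)))))) (XT.nd (nat_lit 624) (nat_lit 76) (nat_lit 0) (XT.nd (nat_lit 312) (nat_lit 0) (nat_lit 0) (XT.nd (nat_lit 156) (nat_lit 0) (nat_lit 0) (XT.nd (nat_lit 78) (nat_lit 0) (nat_lit 0) (XT.lf (nat_lit 0) (nat_lit 102606337367) (nat_lit 152) (nat_lit 62726087557) (nat_lit 0) (nat_lit 102084271188) (nat_lit 2) (nat_lit 5) (nat_lit 4) (nat_lit 4) (nat_lit 2) (nat_lit 4) (nat_lit 528) (nat_lit 347) (nat_lit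 325)) (XT.lf (nat_lit 0) (nat_lit 112859750911) (nat_lit 152) (nat_lit 55344856741) (nat_lit 0) (nat_lit 112324772043) (nat_lit 2) (nat_lit 5) (nat_lit 4) (nat_lit 4) (nat_lit 2) (nat_lit 4) (nat_lit 529) (nat_lit 347) (nat_lit 324))) (XT.nd (nat_lit 78) (nat_lit 0) (nat_lit 0) (XT.lf (nat_lit 0) (nat_lit 123527430133) (nat_lit 152) (nat_lit 47795034365) (nat_lit 0) (nat_lit 122980153464) (nat_lit 2) (nat_lit 5) (nat_lit 4) (nat_lit 4) (nat_lit 2) (nat_lit 4) (nat_lit 530) (nat_lit 347) (nat_lit 323)) (XT.lf (nat_lit 0) (nat_lit 134634774266) (nat_lit 152) (nat_lit 40058644661) (nat_lit 0) (nat_lit 134075785408) (nat_lit 2) (nat_lit 5) (nat_lit 4) (nat_lit 4) (nat_lit 2) (nat_lit 4) (nat_lit 531) (nat_lit 347) (nat_lit 322)))) (XT.nd (nat_lit 156) (nat_lit 0) (nat_lit 0) (XT.nd (nat_lit 78) (nat_lit 0) (nat_lit 0) (XT.lf (nat_lit 0) (nat_lit 146208229371) (nat_lit 152) (nat_lit 32117267654) (nat_lit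 0) (nat_lit 145638086045) (nat_lit 2) (nat_lit 5) (nat_lit 4) (nat_lit 4) (nat_lit 2) (nat_lit 4) (nat_lit 532) (nat_lit 347) (nat_lit 321)) (XT.lf (nat_lit 0) (nat_lit 158275351290) (nat_lit 152) (nat_lit 23951995304) (nat_lit 0) (nat_lit 157694584663) (nat_lit 2) (nat_lit 5) (nat_lit 4) (nat_lit 4) (nat_lit 2) (nat_lit 4) (nat_lit 533) (nat_lit 347) (nat_lit 320))) (XT.nd (nat_lit 78) (nat_lit 0) (nat_lit 0) (XT.lf (nat_lit 0) (nat_lit 170864871268) (nat_lit 152) (nat_lit 15543386485) (nat_lit 0) (nat_lit 170273987211) (nat_lit 2) (nat_lit 5) (nat_lit 4) (nat_lit 4) (nat_lit 2) (nat_lit 4) (nat_lit 534) (nat_lit 347) (nat_lit 319)) (XT.lf (nat_lit 0) (nat_lit 184006764352) (nat_lit 152) (nat_lit 6871420702) (nat_lit 0) (nat_lit 183406244647) (nat_lit 2) (nat_lit 5) (nat_lit 4) (nat_lit 4) (nat_lit 2) (nat_lit 4) (nat_lit 535) (nat_lit 347) (nat_lit 318))))) (XT.nd (nat_lit 312) (nat_lit 0)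 (nat_lit 0) (XT.nd (nat_lit 156) (nat_lit 0) (nat_lit 0) (XT.nd (nat_lit 78) (nat_lit 0) (nat_lit 0) (XT.lf (nat_lit 0) (nat_lit 2153474208) (nat_lit 76) (nat_lit 195612468323) (nat_lit 76) (nat_lit 195002771810) (nat_lit 1) (nat_lit 4) (nat_lit 2) (nat_lit 5) (nat_lit 2) (nat_lit 4) (nat_lit 536) (nat_lit 347) (nat_lit 317)) (XT.lf (nat_lit 0) (nat_lit 11720993091) (nat_lit 76) (nat_lit 200536224857) (nat_lit 76) (nat_lit 199917788528) (nat_lit 1) (nat_lit 4) (nat_lit 2) (nat_lit 5) (nat_lit 2) (nat_lit 4) (nat_lit 537) (nat_lit 347) (nat_lit 316))) (XT.nd (nat_lit 78) (nat_lit 0) (nat_lit 0) (XT.lf (nat_lit 0) (nat_lit 21626715553) (nat_lit 76) (nat_lit 205777548722) (nat_lit 76) (nat_lit 205150788758) (nat_lit 1) (nat_lit 4) (nat_lit 2) (nat_lit 5) (nat_lit 2) (nat_lit 4) (nat_lit 538) (nat_lit 347) (nat_lit 315)) (XT.lf (nat_lit 0) (nat_lit 31894226648) (nat_lit 76) (nat_lit 211348919260)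 (nat_lit 76) (nat_lit 210714232025) (nat_lit 1) (nat_lit 4) (nat_lit 2) (nat_lit 5) (nat_lit 2) (nat_lit 4) (nat_lit 539) (nat_lit 347) (nat_lit 314)))) (XT.nd (nat_lit 156) (nat_lit 0) (nat_lit 0) (XT.nd (nat_lit 78) (nat_lit 0) (nat_lit 0) (XT.lf (nat_lit 0) (nat_lit 42547972831) (nat_lit 76) (nat_lit 217263601638) (nat_lit 76) (nat_lit 216621364621) (nat_lit 1) (nat_lit 4) (nat_lit 2) (nat_lit 5) (nat_lit 2) (nat_lit 4) (nat_lit 540) (nat_lit 347) (nat_lit 313)) (XT.lf (nat_lit 0) (nat_lit 53613320163) (nat_lit 76) (nat_lit 223535678435) (nat_lit 76) (nat_lit 222886251148) (nat_lit 1) (nat_lit 4) (nat_lit 2) (nat_lit 5) (nat_lit 2) (nat_lit 4) (nat_lit 541) (nat_lit 347) (nat_lit 312))) (XT.nd (nat_lit 78) (nat_lit 0) (nat_lit 0) (XT.lf (nat_lit 0) (nat_lit 65116614711) (nat_lit 76) (nat_lit 230180083165) (nat_lit 76) (nat_lit 229523808004) (nat_lit 1) (nat_lit 4) (nat_lit 2) (nat_lit 5) (nat_lit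 2) (nat_lit 4) (nat_lit 542) (nat_lit 347) (nat_lit 311)) (XT.lf (nat_lit 0) (nat_lit 77085245270) (nat_lit 76) (nat_lit 237212635841) (nat_lit 76) (nat_lit 236549838894) (nat_lit 1) (nat_lit 4) (nat_lit 2) (nat_lit 5) (nat_lit 2) (nat_lit 4) (nat_lit 543) (nat_lit 347) (nat_lit 310))))))) (XT.nd (nat_lit 59748) (nat_lit 0) (nat_lit 76) (XT.nd (nat_lit 546) (nat_lit 0) (nat_lit 0) (XT.nd (nat_lit 234) (nat_lit 0) (nat_lit 0) (XT.nd (nat_lit 78) (nat_lit 0) (nat_lit 0) (XT.lf (nat_lit 0) (nat_lit 89547708581) (nat_lit 76) (nat_lit 244650080635) (nat_lit 76) (nat_lit 243981072463) (nat_lit 1) (nat_lit 4) (nat_lit 2) (nat_lit 5) (nat_lit 2) (nat_lit 4) (nat_lit 544) (nat_lit 347) (nat_lit 309)) (XT.nd (nat_lit 78) (nat_lit 0) (nat_lit 0) (XT.lf (nat_lit 0) (nat_lit 102533677174) (nat_lit 76) (nat_lit 252510125749) (nat_lit 76) (nat_lit 251835202126) (nat_lit 1) (nat_lit 4) (nat_lit 2) (nat_lit 5)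 (nat_lit 2) (nat_lit 4) (nat_lit 545) (nat_lit 347) (nat_lit 308)) (XT.lf (nat_lit 0) (nat_lit 116074070023) (nat_lit 76) (nat_lit 260811485577) (nat_lit 76) (nat_lit 260130928190) (nat_lit 1) (nat_lit 4) (nat_lit 2) (nat_lit 5) (nat_lit 2) (nat_lit 4) (nat_lit 546) (nat_lit 347) (nat_lit 307)))) (XT.nd (nat_lit 156) (nat_lit 0) (nat_lit 0) (XT.nd (nat_lit 78) (nat_lit 0) (nat_lit 0) (XT.lf (nat_lit 0) (nat_lit 130201126157) (nat_lit 76) (nat_lit 269573925261) (nat_lit 76) (nat_lit 268888002384) (nat_lit 1) (nat_lit 4) (nat_lit 2) (nat_lit 5) (nat_lit 2) (nat_lit 4) (nat_lit 547) (nat_lit 347) (nat_lit 306)) (XT.lf (nat_lit 0) (nat_lit 144948481426) (nat_lit 76) (nat_lit 278818307752) (nat_lit 76) (nat_lit 278127274885) (nat_lit 1) (nat_lit 4) (nat_lit 2) (nat_lit 5) (nat_lit 2) (nat_lit 4) (nat_lit 548) (nat_lit 347) (nat_lit 305))) (XT.nd (nat_lit 78) (nat_lit 0) (nat_lit 0) (XT.lf (nat_lit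 0) (nat_lit 160351248580) (nat_lit 76) (nat_lit 288566643485) (nat_lit 76) (nat_lit 287870743961) (nat_lit 1) (nat_lit 4) (nat_lit 2) (nat_lit 5) (nat_lit 2) (nat_lit 4) (nat_lit 549) (nat_lit 347) (nat_lit 304)) (XT.lf (nat_lit 0) (nat_lit 176446100874) (nat_lit 76) (nat_lit 298842142783) (nat_lit 76) (nat_lit 298141608348) (nat_lit 1) (nat_lit 4) (nat_lit 2) (nat_lit 5) (nat_lit 2) (nat_lit 4) (nat_lit 550) (nat_lit 347) (nat_lit 303))))) (XT.nd (nat_lit 58890) (nat_lit 0) (nat_lit 228) (XT.nd (nat_lit 156) (nat_lit 0) (nat_lit 0) (XT.nd (nat_lit 78) (nat_lit 0) (nat_lit 0) (XT.lf (nat_lit 0) (nat_lit 193271359384) (nat_lit 76) (nat_lit 309669271120) (nat_lit 76) (nat_lit 308964322484) (nat_lit 1) (nat_lit 4) (nat_lit 2) (nat_lit 5) (nat_lit 2) (nat_lit 4) (nat_lit 551) (nat_lit 347) (nat_lit 302)) (XT.lf (nat_lit 0) (nat_lit 210867084251) (nat_lit 76) (nat_lit 321073807375) (nat_lit 76) (nat_lit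 320364654737) (nat_lit 1) (nat_lit 4) (nat_lit 2) (nat_lit 5) (nat_lit 2) (nat_lit 4) (nat_lit 552) (nat_lit 347) (nat_lit 301))) (XT.nd (nat_lit 58656) (nat_lit 0) (nat_lit 304) (XT.lf (nat_lit 0) (nat_lit 229275170056) (nat_lit 76) (nat_lit 333082905203) (nat_lit 76) (nat_lit 332369748755) (nat_lit 1) (nat_lit 4) (nat_lit 2) (nat_lit 5) (nat_lit 2) (nat_lit 4) (nat_lit 553) (nat_lit 347) (nat_lit 300)) (XT.lf (nat_lit 0) (nat_lit 9012115600) (nat_lit 152) (nat_lit 25907454704) (nat_lit 0) (nat_lit 9012115600) (nat_lit 5) (nat_lit 5) (nat_lit 7) (nat_lit 4) (nat_lit 5) (nat_lit 4) (nat_lit 504) (nat_lit 348) (nat_lit 348)))) (XT.nd (nat_lit 156) (nat_lit 76) (nat_lit 0) (XT.nd (nat_lit 78) (nat_lit 0) (nat_lit 0) (XT.lf (nat_lit 0) (nat_lit 27593473188) (nat_lit 152) (nat_lit 36675624892) (nat_lit 0) (nat_lit 27551828474) (nat_lit 5) (nat_lit 5) (nat_lit 7) (nat_lit 4) (nat_lit 5) (nat_lit 4)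 (nat_lit 505) (nat_lit 348) (nat_lit 347)) (XT.lf (nat_lit 0) (nat_lit 37366843903) (nat_lit 152) (nat_lit 21337695066) (nat_lit 0) (nat_lit 37285537555) (nat_lit 5) (nat_lit 5) (nat_lit 7) (nat_lit 4) (nat_lit 5) (nat_lit 4) (nat_lit 506) (nat_lit 348) (nat_lit 346))) (XT.nd (nat_lit 78) (nat_lit 76) (nat_lit 0) (XT.lf (nat_lit 0) (nat_lit 47367613273) (nat_lit 152) (nat_lit 5764601050) (nat_lit 0) (nat_lit 47248533941) (nat_lit 5) (nat_lit 5) (nat_lit 7) (nat_lit 4) (nat_lit 5) (nat_lit 4) (nat_lit 507) (nat_lit 348) (nat_lit 345)) (XT.lf (nat_lit 0) (nat_lit 10414050606) (nat_lit 76) (nat_lit 47368134564) (nat_lit 76) (nat_lit 47213080962) (nat_lit 4) (nat_lit 4) (nat_lit 5) (nat_lit 5) (nat_lit 5) (nat_lit 4) (nat_lit 508) (nat_lit 348) (nat_lit 344)))))) (XT.nd (nat_lit 624) (nat_lit 0) (nat_lit 0) (XT.nd (nat_lit 312) (nat_lit 152) (nat_lit 0) (XT.nd (nat_lit 156) (nat_lit 0) (nat_lit 0)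 (XT.nd (nat_lit 78) (nat_lit 0) (nat_lit 0) (XT.lf (nat_lit 0) (nat_lit 27103524992) (nat_lit 76) (nat_lit 41466828514) (nat_lit 76) (nat_lit 41277513702) (nat_lit 4) (nat_lit 4) (nat_lit 5) (nat_lit 5) (nat_lit 5) (nat_lit 4) (nat_lit 509) (nat_lit 348) (nat_lit 343)) (XT.lf (nat_lit 0) (nat_lit 44152955208) (nat_lit 76) (nat_lit 35511871751) (nat_lit 76) (nat_lit 35289927215) (nat_lit 4) (nat_lit 4) (nat_lit 5) (nat_lit 5) (nat_lit 5) (nat_lit 4) (nat_lit 510) (nat_lit 348) (nat_lit 342))) (XT.nd (nat_lit 78) (nat_lit 0) (nat_lit 0) (XT.lf (nat_lit 0) (nat_lit 61602935134) (nat_lit 76) (nat_lit 29489085809) (nat_lit 76) (nat_lit 29236065345) (nat_lit 4) (nat_lit 4) (nat_lit 5) (nat_lit 5) (nat_lit 5) (nat_lit 4) (nat_lit 511) (nat_lit 348) (nat_lit 341)) (XT.lf (nat_lit 0) (nat_lit 79495012342) (nat_lit 76) (nat_lit 23384130719) (nat_lit 76) (nat_lit 23101514135) (nat_lit 4) (nat_lit 4) (nat_lit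 5) (nat_lit 5) (nat_lit 5) (nat_lit 4) (nat_lit 512) (nat_lit 348) (nat_lit 340)))) (XT.nd (nat_lit 156) (nat_lit 152) (nat_lit 0) (XT.nd (nat_lit 78) (nat_lit 0) (nat_lit 0) (XT.lf (nat_lit 0) (nat_lit 97871787015) (nat_lit 76) (nat_lit 17182470876) (nat_lit 76) (nat_lit 16871667509) (nat_lit 4) (nat_lit 4) (nat_lit 5) (nat_lit 5) (nat_lit 5) (nat_lit 4) (nat_lit 513) (nat_lit 348) (nat_lit 339)) (XT.lf (nat_lit 0) (nat_lit 116777013379) (nat_lit 76) (nat_lit 10869340421) (nat_lit 76) (nat_lit 10531692500) (nat_lit 4) (nat_lit 4) (nat_lit 5) (nat_lit 5) (nat_lit 5) (nat_lit 4) (nat_lit 514) (nat_lit 348) (nat_lit 338))) (XT.nd (nat_lit 78) (nat_lit 152) (nat_lit 0) (XT.lf (nat_lit 0) (nat_lit 136255703878) (nat_lit 76) (nat_lit 4429708093) (nat_lit 76) (nat_lit 4066493929) (nat_lit 4) (nat_lit 4) (nat_lit 5) (nat_lit 5) (nat_lit 5) (nat_lit 4) (nat_lit 515) (nat_lit 348) (nat_lit 337)) (XT.lf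 (nat_lit 0) (nat_lit 2568545318) (nat_lit 152) (nat_lit 146887666002) (nat_lit 0) (nat_lit 2199437732) (nat_lit 2) (nat_lit 5) (nat_lit 4) (nat_lit 4) (nat_lit 2) (nat_lit 4) (nat_lit 516) (nat_lit 348) (nat_lit 336))))) (XT.nd (nat_lit 312) (nat_lit 0) (nat_lit 0) (XT.nd (nat_lit 156) (nat_lit 0) (nat_lit 0) (XT.nd (nat_lit 78) (nat_lit 0) (nat_lit 0) (XT.lf (nat_lit 0) (nat_lit 9440818691) (nat_lit 152) (nat_lit 140408694762) (nat_lit 0) (nat_lit 9049626023) (nat_lit 2) (nat_lit 5) (nat_lit 4) (nat_lit 4) (nat_lit 2) (nat_lit 4) (nat_lit 517) (nat_lit 348) (nat_lit 335)) (XT.lf (nat_lit 0) (nat_lit 16488399786) (nat_lit 152) (nat_lit 133948646658) (nat_lit 0) (nat_lit 16076173707) (nat_lit 2) (nat_lit 5) (nat_lit 4) (nat_lit 4) (nat_lit 2) (nat_lit 4) (nat_lit 518) (nat_lit 348) (nat_lit 334))) (XT.nd (nat_lit 78) (nat_lit 0) (nat_lit 0) (XT.lf (nat_lit 0) (nat_lit 23728068559) (nat_lit 152)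 (nat_lit 127492140623) (nat_lit 0) (nat_lit 23295810660) (nat_lit 2) (nat_lit 5) (nat_lit 4) (nat_lit 4) (nat_lit 2) (nat_lit 4) (nat_lit 519) (nat_lit 348) (nat_lit 333)) (XT.lf (nat_lit 0) (nat_lit 31177062316) (nat_lit 152) (nat_lit 121023804023) (nat_lit 0) (nat_lit 30725726494) (nat_lit 2) (nat_lit 5) (nat_lit 4) (nat_lit 4) (nat_lit 2) (nat_lit 4) (nat_lit 520) (nat_lit 348) (nat_lit 332)))) (XT.nd (nat_lit 156) (nat_lit 0) (nat_lit 0) (XT.nd (nat_lit 78) (nat_lit 0) (nat_lit 0) (XT.lf (nat_lit 0) (nat_lit 38853116757) (nat_lit 152) (nat_lit 114528236059) (nat_lit 0) (nat_lit 38383611484) (nat_lit 2) (nat_lit 5) (nat_lit 4) (nat_lit 4) (nat_lit 2) (nat_lit 4) (nat_lit 521) (nat_lit 348) (nat_lit 331)) (XT.lf (nat_lit 0) (nat_lit 46774508202) (nat_lit 152) (nat_lit 107989971091) (nat_lit 0) (nat_lit 46287698689) (nat_lit 2) (nat_lit 5) (nat_lit 4) (nat_lit 4) (nat_lit 2) (nat_lit 4) (nat_lit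 522) (nat_lit 348) (nat_lit 330))) (XT.nd (nat_lit 78) (nat_lit 0) (nat_lit 0) (XT.lf (nat_lit 0) (nat_lit 54960097106) (nat_lit 152) (nat_lit 101393441821) (nat_lit 0) (nat_lit 54456807366) (nat_lit 2) (nat_lit 5) (nat_lit 4) (nat_lit 4) (nat_lit 2) (nat_lit 4) (nat_lit 523) (nat_lit 348) (nat_lit 329)) (XT.lf (nat_lit 0) (nat_lit 63429372967) (nat_lit 152) (nat_lit 94722942229) (nat_lit 0) (nat_lit 62910387772) (nat_lit 2) (nat_lit 5) (nat_lit 4) (nat_lit 4) (nat_lit 2) (nat_lit 4) (nat_lit 524) (nat_lit 348) (nat_lit 328))))))))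
noncomputable def xc10 : XT := (XT.nd (nat_lit 60840) (nat_lit 0) (nat_lit 76) (XT.nd (nat_lit 1170) (nat_lit 0) (nat_lit 0) (XT.nd (nat_lit 546) (nat_lit 76) (nat_lit 0) (XT.nd (nat_lit 234) (nat_lit 0) (nat_lit 0) (XT.nd (nat_lit 78) (nat_lit 0) (nat_lit 0) (XT.lf (nat_lit 0) (nat_lit 72202500728) (nat_lit 152) (nat_lit 87962590172) (nat_lit 0) (nat_lit 71668567481) (nat_lit 2) (nat_lit 5) (nat_lit 4) (nat_lit 4) (nat_lit 2) (nat_lit 4) (nat_lit 525) (nat_lit 348) (nat_lit 327)) (XT.nd (nat_lit 78) (nat_lit 0) (nat_lit 0) (XT.lf (nat_lit 0) (nat_lit 81300368789) (nat_lit 152) (nat_lit 81096289573) (nat_lit 0) (nat_lit 80752199301) (nat_lit 2) (nat_lit 5) (nat_lit 4) (nat_lit 4) (nat_lit 2) (nat_lit 4) (nat_lit 526) (nat_lit 348) (nat_lit 326)) (XT.lf (nat_lit 0) (nat_lit 90744638738) (nat_lit 152) (nat_lit 74107692098) (nat_lit 0) (nat_lit 90182910926) (nat_lit 2) (nat_lit 5) (nat_lit 4) (nat_lit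 4) (nat_lit 2) (nat_lit 4) (nat_lit 527) (nat_lit 348) (nat_lit 325)))) (XT.nd (nat_lit 156) (nat_lit 0) (nat_lit 0) (XT.nd (nat_lit 78) (nat_lit 0) (nat_lit 0) (XT.lf (nat_lit 0) (nat_lit 100557796935) (nat_lit 152) (nat_lit 66980158229) (nat_lit 0) (nat_lit 99983156433) (nat_lit 2) (nat_lit 5) (nat_lit 4) (nat_lit 4) (nat_lit 2) (nat_lit 4) (nat_lit 528) (nat_lit 348) (nat_lit 324)) (XT.lf (nat_lit 0) (nat_lit 110763208040) (nat_lit 152) (nat_lit 59696717648) (nat_lit 0) (nat_lit 110176269739) (nat_lit 2) (nat_lit 5) (nat_lit 4) (nat_lit 4) (nat_lit 2) (nat_lit 4) (nat_lit 529) (nat_lit 348) (nat_lit 323))) (XT.nd (nat_lit 78) (nat_lit 0) (nat_lit 0) (XT.lf (nat_lit 0) (nat_lit 121385170652) (nat_lit 152) (nat_lit 52240028828) (nat_lit 0) (nat_lit 120786520161) (nat_lit 2) (nat_lit 5) (nat_lit 4) (nat_lit 4) (nat_lit 2) (nat_lit 4) (nat_lit 530) (nat_lit 348) (nat_lit 322)) (XT.lf (nat_lit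 0) (nat_lit 132448975158) (nat_lit 152) (nat_lit 44592337750) (nat_lit 0) (nat_lit 131839170200) (nat_lit 2) (nat_lit 5) (nat_lit 4) (nat_lit 4) (nat_lit 2) (nat_lit 4) (nat_lit 531) (nat_lit 348) (nat_lit 321))))) (XT.nd (nat_lit 312) (nat_lit 76) (nat_lit 0) (XT.nd (nat_lit 156) (nat_lit 0) (nat_lit 0) (XT.nd (nat_lit 78) (nat_lit 0) (nat_lit 0) (XT.lf (nat_lit 0) (nat_lit 143980963950) (nat_lit 152) (nat_lit 36735435625) (nat_lit 0) (nat_lit 143360535690) (nat_lit 2) (nat_lit 5) (nat_lit 4) (nat_lit 4) (nat_lit 2) (nat_lit 4) (nat_lit 532) (nat_lit 348) (nat_lit 320)) (XT.lf (nat_lit 0) (nat_lit 156008594144) (nat_lit 152) (nat_lit 28650615542) (nat_lit 0) (nat_lit 155378048454) (nat_lit 2) (nat_lit 5) (nat_lit 4) (nat_lit 4) (nat_lit 2) (nat_lit 4) (nat_lit 533) (nat_lit 348) (nat_lit 319))) (XT.nd (nat_lit 78) (nat_lit 0) (nat_lit 0) (XT.lf (nat_lit 0) (nat_lit 168560502955) (nat_lit 152)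 (nat_lit 20318627931) (nat_lit 0) (nat_lit 167920321617) (nat_lit 2) (nat_lit 5) (nat_lit 4) (nat_lit 4) (nat_lit 2) (nat_lit 4) (nat_lit 534) (nat_lit 348) (nat_lit 318)) (XT.lf (nat_lit 0) (nat_lit 181666575880) (nat_lit 152) (nat_lit 11719634726) (nat_lit 0) (nat_lit 181017217734) (nat_lit 2) (nat_lit 5) (nat_lit 4) (nat_lit 4) (nat_lit 2) (nat_lit 4) (nat_lit 535) (nat_lit 348) (nat_lit 317)))) (XT.nd (nat_lit 156) (nat_lit 0) (nat_lit 0) (XT.nd (nat_lit 78) (nat_lit 76) (nat_lit 0) (XT.lf (nat_lit 0) (nat_lit 195358017853) (nat_lit 152) (nat_lit 2833162133) (nat_lit 0) (nat_lit 194699919891) (nat_lit 2) (nat_lit 5) (nat_lit 4) (nat_lit 4) (nat_lit 2) (nat_lit 4) (nat_lit 536) (nat_lit 348) (nat_lit 316)) (XT.lf (nat_lit 0) (nat_lit 6572302850) (nat_lit 76) (nat_lit 203197736763) (nat_lit 76) (nat_lit 202531315166) (nat_lit 1) (nat_lit 4) (nat_lit 2) (nat_lit 5) (nat_lit 2) (nat_lit 4) (nat_lit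 537) (nat_lit 348) (nat_lit 315))) (XT.nd (nat_lit 78) (nat_lit 0) (nat_lit 0) (XT.lf (nat_lit 0) (nat_lit 16412904586) (nat_lit 76) (nat_lit 208472221838) (nat_lit 76) (nat_lit 207797872969) (nat_lit 1) (nat_lit 4) (nat_lit 2) (nat_lit 5) (nat_lit 2) (nat_lit 4) (nat_lit 538) (nat_lit 348) (nat_lit 314)) (XT.lf (nat_lit 0) (nat_lit 26618395941) (nat_lit 76) (nat_lit 214075174480) (nat_lit 76) (nat_lit 213393275829) (nat_lit 1) (nat_lit 4) (nat_lit 2) (nat_lit 5) (nat_lit 2) (nat_lit 4) (nat_lit 539) (nat_lit 348) (nat_lit 313)))))) (XT.nd (nat_lit 624) (nat_lit 0) (nat_lit 0) (XT.nd (nat_lit 312) (nat_lit 0) (nat_lit 0) (XT.nd (nat_lit 156) (nat_lit 0) (nat_lit 0) (XT.nd (nat_lit 78) (nat_lit 0) (nat_lit 0) (XT.lf (nat_lit 0) (nat_lit 37213075704) (nat_lit 76) (nat_lit 220019935053) (nat_lit 76) (nat_lit 219330846133) (nat_lit 1) (nat_lit 4) (nat_lit 2) (nat_lit 5) (nat_lit 2) (nat_lit 4) (nat_lit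 540) (nat_lit 348) (nat_lit 312)) (XT.lf (nat_lit 0) (nat_lit 48222169304) (nat_lit 76) (nat_lit 226320657749) (nat_lit 76) (nat_lit 225624720954) (nat_lit 1) (nat_lit 4) (nat_lit 2) (nat_lit 5) (nat_lit 2) (nat_lit 4) (nat_lit 541) (nat_lit 348) (nat_lit 311))) (XT.nd (nat_lit 78) (nat_lit 0) (nat_lit 0) (XT.lf (nat_lit 0) (nat_lit 59671888869) (nat_lit 76) (nat_lit 232992344289) (nat_lit 76) (nat_lit 232289885708) (nat_lit 1) (nat_lit 4) (nat_lit 2) (nat_lit 5) (nat_lit 2) (nat_lit 4) (nat_lit 542) (nat_lit 348) (nat_lit 310)) (XT.lf (nat_lit 0) (nat_lit 71589495635) (nat_lit 76) (nat_lit 240050879640) (nat_lit 76) (nat_lit 239342209835) (nat_lit 1) (nat_lit 4) (nat_lit 2) (nat_lit 5) (nat_lit 2) (nat_lit 4) (nat_lit 543) (nat_lit 348) (nat_lit 309)))) (XT.nd (nat_lit 156) (nat_lit 0) (nat_lit 0) (XT.nd (nat_lit 78) (nat_lit 0) (nat_lit 0) (XT.lf (nat_lit 0) (nat_lit 84003364856) (nat_lit 76)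 (nat_lit 247513069839) (nat_lit 76) (nat_lit 246798484582) (nat_lit 1) (nat_lit 4) (nat_lit 2) (nat_lit 5) (nat_lit 2) (nat_lit 4) (nat_lit 544) (nat_lit 348) (nat_lit 308)) (XT.lf (nat_lit 0) (nat_lit 96943053364) (nat_lit 76) (nat_lit 255396682006) (nat_lit 76) (nat_lit 254676462985) (nat_lit 1) (nat_lit 4) (nat_lit 2) (nat_lit 5) (nat_lit 2) (nat_lit 4) (nat_lit 545) (nat_lit 348) (nat_lit 307))) (XT.nd (nat_lit 78) (nat_lit 0) (nat_lit 0) (XT.lf (nat_lit 0) (nat_lit 110439369941) (nat_lit 76) (nat_lit 263720486646) (nat_lit 76) (nat_lit 262994902136) (nat_lit 1) (nat_lit 4) (nat_lit 2) (nat_lit 5) (nat_lit 2) (nat_lit 4) (nat_lit 546) (nat_lit 348) (nat_lit 306)) (XT.lf (nat_lit 0) (nat_lit 124524448675) (nat_lit 76) (nat_lit 272504302340) (nat_lit 76) (nat_lit 271773607841) (nat_lit 1) (nat_lit 4) (nat_lit 2) (nat_lit 5) (nat_lit 2) (nat_lit 4) (nat_lit 547) (nat_lit 348) (nat_lit 305)))))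 (XT.nd (nat_lit 312) (nat_lit 0) (nat_lit 0) (XT.nd (nat_lit 156) (nat_lit 0) (nat_lit 0) (XT.nd (nat_lit 78) (nat_lit 0) (nat_lit 0) (XT.lf (nat_lit 0) (nat_lit 139231825466) (nat_lit 76) (nat_lit 281769042937) (nat_lit 76) (nat_lit 281033481781) (nat_lit 1) (nat_lit 4) (nat_lit 2) (nat_lit 5) (nat_lit 2) (nat_lit 4) (nat_lit 548) (nat_lit 348) (nat_lit 304)) (XT.lf (nat_lit 0) (nat_lit 154596517880) (nat_lit 76) (nat_lit 291536767343) (nat_lit 76) (nat_lit 290796571275) (nat_lit 1) (nat_lit 4) (nat_lit 2) (nat_lit 5) (nat_lit 2) (nat_lit 4) (nat_lit 549) (nat_lit 348) (nat_lit 303))) (XT.nd (nat_lit 78) (nat_lit 0) (nat_lit 0) (XT.lf (nat_lit 0) (nat_lit 170655108516) (nat_lit 76) (nat_lit 301830732043) (nat_lit 76) (nat_lit 301086121774) (nat_lit 1) (nat_lit 4) (nat_lit 2) (nat_lit 5) (nat_lit 2) (nat_lit 4) (nat_lit 550) (nat_lit 348) (nat_lit 302)) (XT.lf (nat_lit 0) (nat_lit 187445832114)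 (nat_lit 76) (nat_lit 312675446478) (nat_lit 76) (nat_lit 311926632208) (nat_lit 1) (nat_lit 4) (nat_lit 2) (nat_lit 5) (nat_lit 2) (nat_lit 4) (nat_lit 551) (nat_lit 348) (nat_lit 301)))) (XT.nd (nat_lit 58578) (nat_lit 0) (nat_lit 304) (XT.nd (nat_lit 78) (nat_lit 0) (nat_lit 0) (XT.lf (nat_lit 0) (nat_lit 205008666588) (nat_lit 76) (nat_lit 324096731397) (nat_lit 76) (nat_lit 323343913316) (nat_lit 1) (nat_lit 4) (nat_lit 2) (nat_lit 5) (nat_lit 2) (nat_lit 4) (nat_lit 552) (nat_lit 348) (nat_lit 300)) (XT.lf (nat_lit 0) (nat_lit 223385428211) (nat_lit 76) (nat_lit 336121780334) (nat_lit 76) (nat_lit 335365149100) (nat_lit 1) (nat_lit 4) (nat_lit 2) (nat_lit 5) (nat_lit 2) (nat_lit 4) (nat_lit 553) (nat_lit 348) (nat_lit 299))) (XT.nd (nat_lit 78) (nat_lit 152) (nat_lit 0) (XT.lf (nat_lit 0) (nat_lit 39873765640) (nat_lit 76) (nat_lit 197416507) (nat_lit 76) (nat_lit 197416507) (nat_lit 7)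 (nat_lit 4) (nat_lit 8) (nat_lit 5) (nat_lit 8) (nat_lit 4) (nat_lit 502) (nat_lit 349) (nat_lit 349)) (XT.lf (nat_lit 0) (nat_lit 8680060978) (nat_lit 152) (nat_lit 66791594532) (nat_lit 0) (nat_lit 8636334027) (nat_lit 5) (nat_lit 5) (nat_lit 7) (nat_lit 4) (nat_lit 5) (nat_lit 4) (nat_lit 503) (nat_lit 349) (nat_lit 348))))))) (XT.nd (nat_lit 1170) (nat_lit 0) (nat_lit 0) (XT.nd (nat_lit 546) (nat_lit 152) (nat_lit 0) (XT.nd (nat_lit 234) (nat_lit 76) (nat_lit 0) (XT.nd (nat_lit 78) (nat_lit 0) (nat_lit 0) (XT.lf (nat_lit 0) (nat_lit 17927445934) (nat_lit 152) (nat_lit 52100877634) (nat_lit 0) (nat_lit 17842074269) (nat_lit 5) (nat_lit 5) (nat_lit 7) (nat_lit 4) (nat_lit 5) (nat_lit 4) (nat_lit 504) (nat_lit 349) (nat_lit 347)) (XT.nd (nat_lit 78) (nat_lit 0) (nat_lit 0) (XT.lf (nat_lit 0) (nat_lit 27362866765) (nat_lit 152) (nat_lit 37233943809) (nat_lit 0) (nat_lit 27237833467) (nat_lit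 5) (nat_lit 5) (nat_lit 7) (nat_lit 4) (nat_lit 5) (nat_lit 4) (nat_lit 505) (nat_lit 349) (nat_lit 346)) (XT.lf (nat_lit 0) (nat_lit 37008788758) (nat_lit 152) (nat_lit 22155395593) (nat_lit 0) (nat_lit 36845982475) (nat_lit 5) (nat_lit 5) (nat_lit 7) (nat_lit 4) (nat_lit 5) (nat_lit 4) (nat_lit 506) (nat_lit 349) (nat_lit 345)))) (XT.nd (nat_lit 156) (nat_lit 0) (nat_lit 0) (XT.nd (nat_lit 78) (nat_lit 76) (nat_lit 0) (XT.lf (nat_lit 0) (nat_lit 46888178393) (nat_lit 152) (nat_lit 6829331683) (nat_lit 0) (nat_lit 46689397840) (nat_lit 5) (nat_lit 5) (nat_lit 7) (nat_lit 4) (nat_lit 5) (nat_lit 4) (nat_lit 507) (nat_lit 349) (nat_lit 344)) (XT.lf (nat_lit 0) (nat_lit 9071069421) (nat_lit 76) (nat_lit 48095113421) (nat_lit 76) (nat_lit 47862071659) (nat_lit 4) (nat_lit 4) (nat_lit 5) (nat_lit 5) (nat_lit 5) (nat_lit 4) (nat_lit 508) (nat_lit 349) (nat_lit 343))) (XT.nd (nat_lit 78) (nat_lit 0)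 (nat_lit 0) (XT.lf (nat_lit 0) (nat_lit 25529071666) (nat_lit 76) (nat_lit 42311570585) (nat_lit 76) (nat_lit 42045899099) (nat_lit 4) (nat_lit 4) (nat_lit 5) (nat_lit 5) (nat_lit 5) (nat_lit 4) (nat_lit 509) (nat_lit 349) (nat_lit 342)) (XT.lf (nat_lit 0) (nat_lit 42358052223) (nat_lit 76) (nat_lit 36468769266) (nat_lit 76) (nat_lit 36172021852) (nat_lit 4) (nat_lit 4) (nat_lit 5) (nat_lit 5) (nat_lit 5) (nat_lit 4) (nat_lit 510) (nat_lit 349) (nat_lit 341))))) (XT.nd (nat_lit 312) (nat_lit 152) (nat_lit 0) (XT.nd (nat_lit 156) (nat_lit 0) (nat_lit 0) (XT.nd (nat_lit 78) (nat_lit 0) (nat_lit 0) (XT.lf (nat_lit 0) (nat_lit 59598080093) (nat_lit 76) (nat_lit 30552798031) (nat_lit 76) (nat_lit 30226454496) (nat_lit 4) (nat_lit 4) (nat_lit 5) (nat_lit 5) (nat_lit 5) (nat_lit 4) (nat_lit 511) (nat_lit 349) (nat_lit 340)) (XT.lf (nat_lit 0) (nat_lit 77290202962) (nat_lit 76) (nat_lit 24549571234)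 (nat_lit 76) (nat_lit 24195040917) (nat_lit 4) (nat_lit 4) (nat_lit 5) (nat_lit 5) (nat_lit 5) (nat_lit 4) (nat_lit 512) (nat_lit 349) (nat_lit 339))) (XT.nd (nat_lit 78) (nat_lit 0) (nat_lit 0) (XT.lf (nat_lit 0) (nat_lit 95476544932) (nat_lit 76) (nat_lit 18444795479) (nat_lit 76) (nat_lit 18063420607) (nat_lit 4) (nat_lit 4) (nat_lit 5) (nat_lit 5) (nat_lit 5) (nat_lit 4) (nat_lit 513) (nat_lit 349) (nat_lit 338)) (XT.lf (nat_lit 0) (nat_lit 114200406816) (nat_lit 76) (nat_lit 12223935585) (nat_lit 76) (nat_lit 11816994471) (nat_lit 4) (nat_lit 4) (nat_lit 5) (nat_lit 5) (nat_lit 5) (nat_lit 4) (nat_lit 514) (nat_lit 349) (nat_lit 337)))) (XT.nd (nat_lit 156) (nat_lit 0) (nat_lit 0) (XT.nd (nat_lit 78) (nat_lit 152) (nat_lit 0) (XT.lf (nat_lit 0) (nat_lit 133506369239) (nat_lit 76) (nat_lit 5872179981) (nat_lit 76) (nat_lit 5440890065) (nat_lit 4) (nat_lit 4) (nat_lit 5) (nat_lit 5) (nat_lit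 5) (nat_lit 4) (nat_lit 515) (nat_lit 349) (nat_lit 336)) (XT.lf (nat_lit 0) (nat_lit 1083233765) (nat_lit 152) (nat_lit 149998370654) (nat_lit 0) (nat_lit 650396383) (nat_lit 2) (nat_lit 5) (nat_lit 4) (nat_lit 4) (nat_lit 2) (nat_lit 4) (nat_lit 516) (nat_lit 349) (nat_lit 335))) (XT.nd (nat_lit 78) (nat_lit 0) (nat_lit 0) (XT.lf (nat_lit 0) (nat_lit 7873406676) (nat_lit 152) (nat_lit 143686653900) (nat_lit 0) (nat_lit 7419535883) (nat_lit 2) (nat_lit 5) (nat_lit 4) (nat_lit 4) (nat_lit 2) (nat_lit 4) (nat_lit 517) (nat_lit 349) (nat_lit 334)) (XT.lf (nat_lit 0) (nat_lit 14842796856) (nat_lit 152) (nat_lit 137385895783) (nat_lit 0) (nat_lit 14368894243) (nat_lit 2) (nat_lit 5) (nat_lit 4) (nat_lit 4) (nat_lit 2) (nat_lit 4) (nat_lit 518) (nat_lit 349) (nat_lit 333)))))) (XT.nd (nat_lit 624) (nat_lit 0) (nat_lit 0) (XT.nd (nat_lit 312) (nat_lit 0) (nat_lit 0) (XT.nd (nat_lit 156) (nat_lit 0)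 (nat_lit 0) (XT.nd (nat_lit 78) (nat_lit 0) (nat_lit 0) (XT.lf (nat_lit 0) (nat_lit 22007998090) (nat_lit 152) (nat_lit 131081094498) (nat_lit 0) (nat_lit 21515017553) (nat_lit 2) (nat_lit 5) (nat_lit 4) (nat_lit 4) (nat_lit 2) (nat_lit 4) (nat_lit 519) (nat_lit 349) (nat_lit 332)) (XT.lf (nat_lit 0) (nat_lit 29386070382) (nat_lit 152) (nat_lit 124757238614) (nat_lit 0) (nat_lit 28874920394) (nat_lit 2) (nat_lit 5) (nat_lit 4) (nat_lit 4) (nat_lit 2) (nat_lit 4) (nat_lit 520) (nat_lit 349) (nat_lit 331))) (XT.nd (nat_lit 78) (nat_lit 0) (nat_lit 0) (XT.lf (nat_lit 0) (nat_lit 36994580570) (nat_lit 152) (nat_lit 118399271329) (nat_lit 0) (nat_lit 36466126343) (nat_lit 2) (nat_lit 5) (nat_lit 4) (nat_lit 4) (nat_lit 2) (nat_lit 4) (nat_lit 521) (nat_lit 349) (nat_lit 330)) (XT.lf (nat_lit 0) (nat_lit 44851644155) (nat_lit 152) (nat_lit 111992054628) (nat_lit 0) (nat_lit 44306709700) (nat_lit 2)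 (nat_lit 5) (nat_lit 4) (nat_lit 4) (nat_lit 2) (nat_lit 4) (nat_lit 522) (nat_lit 349) (nat_lit 329)))) (XT.nd (nat_lit 156) (nat_lit 0) (nat_lit 0) (XT.nd (nat_lit 78) (nat_lit 0) (nat_lit 0) (XT.lf (nat_lit 0) (nat_lit 52975968431) (nat_lit 152) (nat_lit 105520333232) (nat_lit 0) (nat_lit 52415338521) (nat_lit 2) (nat_lit 5) (nat_lit 4) (nat_lit 4) (nat_lit 2) (nat_lit 4) (nat_lit 523) (nat_lit 349) (nat_lit 328)) (XT.lf (nat_lit 0) (nat_lit 61386897027) (nat_lit 152) (nat_lit 98968698281) (nat_lit 0) (nat_lit 60811319065) (nat_lit 2) (nat_lit 5) (nat_lit 4) (nat_lit 4) (nat_lit 2) (nat_lit 4) (nat_lit 524) (nat_lit 349) (nat_lit 327))) (XT.nd (nat_lit 78) (nat_lit 0) (nat_lit 0) (XT.lf (nat_lit 0) (nat_lit 70104455964) (nat_lit 152) (nat_lit 92321550644) (nat_lit 0) (nat_lit 69514641762) (nat_lit 2) (nat_lit 5) (nat_lit 4) (nat_lit 4) (nat_lit 2) (nat_lit 4) (nat_lit 525) (nat_lit 349) (nat_lit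 326)) (XT.lf (nat_lit 0) (nat_lit 79149401335) (nat_lit 152) (nat_lit 85563063779) (nat_lit 0) (nat_lit 78546028808) (nat_lit 2) (nat_lit 5) (nat_lit 4) (nat_lit 4) (nat_lit 2) (nat_lit 4) (nat_lit 526) (nat_lit 349) (nat_lit 325))))) (XT.nd (nat_lit 312) (nat_lit 0) (nat_lit 0) (XT.nd (nat_lit 156) (nat_lit 0) (nat_lit 0) (XT.nd (nat_lit 78) (nat_lit 0) (nat_lit 0) (XT.lf (nat_lit 0) (nat_lit 88543268723) (nat_lit 152) (nat_lit 78677146050) (nat_lit 0) (nat_lit 87926983507) (nat_lit 2) (nat_lit 5) (nat_lit 4) (nat_lit 4) (nat_lit 2) (nat_lit 4) (nat_lit 527) (nat_lit 349) (nat_lit 324)) (XT.lf (nat_lit 0) (nat_lit 98308424480) (nat_lit 152) (nat_lit 71647402416) (nat_lit 0) (nat_lit 97679841464) (nat_lit 2) (nat_lit 5) (nat_lit 4) (nat_lit 4) (nat_lit 2) (nat_lit 4) (nat_lit 528) (nat_lit 349) (nat_lit 323))) (XT.nd (nat_lit 78) (nat_lit 0) (nat_lit 0) (XT.lf (nat_lit 0) (nat_lit 108468118976)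 (nat_lit 152) (nat_lit 64457095391) (nat_lit 0) (nat_lit 107827823770) (nat_lit 2) (nat_lit 5) (nat_lit 4) (nat_lit 4) (nat_lit 2) (nat_lit 4) (nat_lit 529) (nat_lit 349) (nat_lit 322)) (XT.lf (nat_lit 0) (nat_lit 119046541961) (nat_lit 152) (nat_lit 57089105197) (nat_lit 0) (nat_lit 118395092288) (nat_lit 2) (nat_lit 5) (nat_lit 4) (nat_lit 4) (nat_lit 2) (nat_lit 4) (nat_lit 530) (nat_lit 349) (nat_lit 321)))) (XT.nd (nat_lit 156) (nat_lit 0) (nat_lit 0) (XT.nd (nat_lit 78) (nat_lit 0) (nat_lit 0) (XT.lf (nat_lit 0) (nat_lit 130068880155) (nat_lit 152) (nat_lit 49525889000) (nat_lit 0) (nat_lit 129406807180) (nat_lit 2) (nat_lit 5) (nat_lit 4) (nat_lit 4) (nat_lit 2) (nat_lit 4) (nat_lit 531) (nat_lit 349) (nat_lit 320)) (XT.lf (nat_lit 0) (nat_lit 141561377222) (nat_lit 152) (nat_lit 41749439143) (nat_lit 0) (nat_lit 140889186817) (nat_lit 2) (nat_lit 5) (nat_lit 4) (nat_lit 4) (nat_lit 2)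 (nat_lit 4) (nat_lit 532) (nat_lit 349) (nat_lit 319))) (XT.nd (nat_lit 78) (nat_lit 0) (nat_lit 0) (XT.lf (nat_lit 0) (nat_lit 153551396248) (nat_lit 152) (nat_lit 33741240268) (nat_lit 0) (nat_lit 152869570195) (nat_lit 2) (nat_lit 5) (nat_lit 4) (nat_lit 4) (nat_lit 2) (nat_lit 4) (nat_lit 533) (nat_lit 349) (nat_lit 318)) (XT.lf (nat_lit 0) (nat_lit 166067484900) (nat_lit 152) (nat_lit 25482225236) (nat_lit 0) (nat_lit 165376482039) (nat_lit 2) (nat_lit 5) (nat_lit 4) (nat_lit 4) (nat_lit 2) (nat_lit 4) (nat_lit 534) (nat_lit 349) (nat_lit 317))))))))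
noncomputable def xc11 : XT := (XT.nd (nat_lit 60684) (nat_lit 0) (nat_lit 0) (XT.nd (nat_lit 1170) (nat_lit 0) (nat_lit 0) (XT.nd (nat_lit 546) (nat_lit 0) (nat_lit 0) (XT.nd (nat_lit 234) (nat_lit 0) (nat_lit 0) (XT.nd (nat_lit 78) (nat_lit 76) (nat_lit 0) (XT.lf (nat_lit 0) (nat_lit 179139443387) (nat_lit 152) (nat_lit 16952729725) (nat_lit 0) (nat_lit 178439700709) (nat_lit 2) (nat_lit 5) (nat_lit 4) (nat_lit 4) (nat_lit 2) (nat_lit 4) (nat_lit 535) (nat_lit 349) (nat_lit 316)) (XT.nd (nat_lit 78) (nat_lit 76) (nat_lit 0) (XT.lf (nat_lit 0) (nat_lit 192798395420) (nat_lit 152) (nat_lit 8132445412) (nat_lit 0) (nat_lit 192090329108) (nat_lit 2) (nat_lit 5) (nat_lit 4) (nat_lit 4) (nat_lit 2) (nat_lit 4) (nat_lit 536) (nat_lit 349) (nat_lit 315)) (XT.lf (nat_lit 0) (nat_lit 1032680608) (nat_lit 76) (nat_lit 206060304744) (nat_lit 76) (nat_lit 205344311161) (nat_lit 1) (nat_lit 4) (nat_lit 2)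 (nat_lit 5) (nat_lit 2) (nat_lit 4) (nat_lit 537) (nat_lit 349) (nat_lit 314)))) (XT.nd (nat_lit 156) (nat_lit 0) (nat_lit 0) (XT.nd (nat_lit 78) (nat_lit 0) (nat_lit 0) (XT.lf (nat_lit 0) (nat_lit 10811262603) (nat_lit 76) (nat_lit 211366371923) (nat_lit 76) (nat_lit 210642828558) (nat_lit 1) (nat_lit 4) (nat_lit 2) (nat_lit 5) (nat_lit 2) (nat_lit 4) (nat_lit 538) (nat_lit 349) (nat_lit 313)) (XT.lf (nat_lit 0) (nat_lit 20957687539) (nat_lit 76) (nat_lit 216999402760) (nat_lit 76) (nat_lit 216268669126) (nat_lit 1) (nat_lit 4) (nat_lit 2) (nat_lit 5) (nat_lit 2) (nat_lit 4) (nat_lit 539) (nat_lit 349) (nat_lit 312))) (XT.nd (nat_lit 78) (nat_lit 0) (nat_lit 0) (XT.lf (nat_lit 0) (nat_lit 31496113570) (nat_lit 76) (nat_lit 222972809233) (nat_lit 76) (nat_lit 222235227723) (nat_lit 1) (nat_lit 4) (nat_lit 2) (nat_lit 5) (nat_lit 2) (nat_lit 4) (nat_lit 540) (nat_lit 349) (nat_lit 311)) (XT.lf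 (nat_lit 0) (nat_lit 42451632187) (nat_lit 76) (nat_lit 229300813738) (nat_lit 76) (nat_lit 228556710443) (nat_lit 1) (nat_lit 4) (nat_lit 2) (nat_lit 5) (nat_lit 2) (nat_lit 4) (nat_lit 541) (nat_lit 349) (nat_lit 310))))) (XT.nd (nat_lit 312) (nat_lit 0) (nat_lit 0) (XT.nd (nat_lit 156) (nat_lit 0) (nat_lit 0) (XT.nd (nat_lit 78) (nat_lit 0) (nat_lit 0) (XT.lf (nat_lit 0) (nat_lit 53850327957) (nat_lit 76) (nat_lit 235998482953) (nat_lit 76) (nat_lit 235248168433) (nat_lit 1) (nat_lit 4) (nat_lit 2) (nat_lit 5) (nat_lit 2) (nat_lit 4) (nat_lit 542) (nat_lit 349) (nat_lit 309)) (XT.lf (nat_lit 0) (nat_lit 65719340634) (nat_lit 76) (nat_lit 243081763709) (nat_lit 76) (nat_lit 242325533737) (nat_lit 1) (nat_lit 4) (nat_lit 2) (nat_lit 5) (nat_lit 2) (nat_lit 4) (nat_lit 543) (nat_lit 349) (nat_lit 308))) (XT.nd (nat_lit 78) (nat_lit 0) (nat_lit 0) (XT.lf (nat_lit 0) (nat_lit 78086929770) (nat_lit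 76) (nat_lit 250567520961) (nat_lit 76) (nat_lit 249805657226) (nat_lit 1) (nat_lit 4) (nat_lit 2) (nat_lit 5) (nat_lit 2) (nat_lit 4) (nat_lit 544) (nat_lit 349) (nat_lit 307)) (XT.lf (nat_lit 0) (nat_lit 90982542007) (nat_lit 76) (nat_lit 258473577940) (nat_lit 76) (nat_lit 257706348715) (nat_lit 1) (nat_lit 4) (nat_lit 2) (nat_lit 5) (nat_lit 2) (nat_lit 4) (nat_lit 545) (nat_lit 349) (nat_lit 306)))) (XT.nd (nat_lit 156) (nat_lit 0) (nat_lit 0) (XT.nd (nat_lit 78) (nat_lit 0) (nat_lit 0) (XT.lf (nat_lit 0) (nat_lit 104436881183) (nat_lit 76) (nat_lit 266818758591) (nat_lit 76) (nat_lit 266046419376) (nat_lit 1) (nat_lit 4) (nat_lit 2) (nat_lit 5) (nat_lit 2) (nat_lit 4) (nat_lit 546) (nat_lit 349) (nat_lit 305)) (XT.lf (nat_lit 0) (nat_lit 118481981439) (nat_lit 76) (nat_lit 275622932391) (nat_lit 76) (nat_lit 274845726520) (nat_lit 1) (nat_lit 4) (nat_lit 2) (nat_lit 5) (nat_lit 2) (nat_lit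 4) (nat_lit 547) (nat_lit 349) (nat_lit 304))) (XT.nd (nat_lit 78) (nat_lit 0) (nat_lit 0) (XT.lf (nat_lit 0) (nat_lit 133151283491) (nat_lit 76) (nat_lit 284907061661) (nat_lit 76) (nat_lit 284125220878) (nat_lit 1) (nat_lit 4) (nat_lit 2) (nat_lit 5) (nat_lit 2) (nat_lit 4) (nat_lit 548) (nat_lit 349) (nat_lit 303)) (XT.lf (nat_lit 0) (nat_lit 148479714246) (nat_lit 76) (nat_lit 294693251469) (nat_lit 76) (nat_lit 293906996485) (nat_lit 1) (nat_lit 4) (nat_lit 2) (nat_lit 5) (nat_lit 2) (nat_lit 4) (nat_lit 549) (nat_lit 349) (nat_lit 302)))))) (XT.nd (nat_lit 58890) (nat_lit 0) (nat_lit 228) (XT.nd (nat_lit 58578) (nat_lit 0) (nat_lit 304) (XT.nd (nat_lit 156) (nat_lit 0) (nat_lit 0) (XT.nd (nat_lit 78) (nat_lit 0) (nat_lit 0) (XT.lf (nat_lit 0) (nat_lit 164503769970) (nat_lit 76) (nat_lit 305004802266) (nat_lit 76) (nat_lit 304214343281) (nat_lit 1) (nat_lit 4) (nat_lit 2) (nat_lit 5) (nat_lit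 2) (nat_lit 4) (nat_lit 550) (nat_lit 349) (nat_lit 301)) (XT.lf (nat_lit 0) (nat_lit 181261603177) (nat_lit 76) (nat_lit 315866265366) (nat_lit 76) (nat_lit 315071802570) (nat_lit 1) (nat_lit 4) (nat_lit 2) (nat_lit 5) (nat_lit 2) (nat_lit 4) (nat_lit 551) (nat_lit 349) (nat_lit 300))) (XT.nd (nat_lit 78) (nat_lit 0) (nat_lit 0) (XT.lf (nat_lit 0) (nat_lit 198793113468) (nat_lit 76) (nat_lit 327303501393) (nat_lit 76) (nat_lit 326505225444) (nat_lit 1) (nat_lit 4) (nat_lit 2) (nat_lit 5) (nat_lit 2) (nat_lit 4) (nat_lit 552) (nat_lit 349) (nat_lit 299)) (XT.lf (nat_lit 0) (nat_lit 217140042535) (nat_lit 76) (nat_lit 339343741863) (nat_lit 76) (nat_lit 338541834339) (nat_lit 1) (nat_lit 4) (nat_lit 2) (nat_lit 5) (nat_lit 2) (nat_lit 4) (nat_lit 553) (nat_lit 349) (nat_lit 298)))) (XT.nd (nat_lit 156) (nat_lit 152) (nat_lit 0) (XT.nd (nat_lit 78) (nat_lit 0) (nat_lit 0) (XT.lf (nat_lit 0) (nat_lit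 19278341571) (nat_lit 76) (nat_lit 8830882207) (nat_lit 76) (nat_lit 8830882207) (nat_lit 7) (nat_lit 4) (nat_lit 8) (nat_lit 5) (nat_lit 8) (nat_lit 4) (nat_lit 500) (nat_lit 350) (nat_lit 350)) (XT.lf (nat_lit 0) (nat_lit 58793834216) (nat_lit 76) (nat_lit 9189177104) (nat_lit 76) (nat_lit 9140968141) (nat_lit 7) (nat_lit 4) (nat_lit 8) (nat_lit 5) (nat_lit 8) (nat_lit 4) (nat_lit 501) (nat_lit 350) (nat_lit 349))) (XT.nd (nat_lit 78) (nat_lit 152) (nat_lit 0) (XT.lf (nat_lit 0) (nat_lit 79466282173) (nat_lit 76) (nat_lit 585976787) (nat_lit 76) (nat_lit 491854527) (nat_lit 7) (nat_lit 4) (nat_lit 8) (nat_lit 5) (nat_lit 8) (nat_lit 4) (nat_lit 502) (nat_lit 350) (nat_lit 348)) (XT.lf (nat_lit 0) (nat_lit 8437924233) (nat_lit 152) (nat_lit 67377829394) (nat_lit 0) (nat_lit 8306639270) (nat_lit 5) (nat_lit 5) (nat_lit 7) (nat_lit 4) (nat_lit 5) (nat_lit 4) (nat_lit 503) (nat_lit 350) (nat_lit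 347))))) (XT.nd (nat_lit 312) (nat_lit 76) (nat_lit 0) (XT.nd (nat_lit 156) (nat_lit 0) (nat_lit 0) (XT.nd (nat_lit 78) (nat_lit 0) (nat_lit 0) (XT.lf (nat_lit 0) (nat_lit 17551488032) (nat_lit 152) (nat_lit 52959463188) (nat_lit 0) (nat_lit 17380541436) (nat_lit 5) (nat_lit 5) (nat_lit 7) (nat_lit 4) (nat_lit 5) (nat_lit 4) (nat_lit 504) (nat_lit 350) (nat_lit 346)) (XT.lf (nat_lit 0) (nat_lit 26859460141) (nat_lit 152) (nat_lit 38351910973) (nat_lit 0) (nat_lit 26650740561) (nat_lit 5) (nat_lit 5) (nat_lit 7) (nat_lit 4) (nat_lit 5) (nat_lit 4) (nat_lit 505) (nat_lit 350) (nat_lit 345))) (XT.nd (nat_lit 78) (nat_lit 0) (nat_lit 0) (XT.lf (nat_lit 0) (nat_lit 36384002399) (nat_lit 152) (nat_lit 23520392862) (nat_lit 0) (nat_lit 36139308548) (nat_lit 5) (nat_lit 5) (nat_lit 7) (nat_lit 4) (nat_lit 5) (nat_lit 4) (nat_lit 506) (nat_lit 350) (nat_lit 344)) (XT.lf (nat_lit 0) (nat_lit 46147792286)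 (nat_lit 152) (nat_lit 8429595719) (nat_lit 0) (nat_lit 45868837226) (nat_lit 5) (nat_lit 5) (nat_lit 7) (nat_lit 4) (nat_lit 5) (nat_lit 4) (nat_lit 507) (nat_lit 350) (nat_lit 343)))) (XT.nd (nat_lit 156) (nat_lit 0) (nat_lit 0) (XT.nd (nat_lit 78) (nat_lit 0) (nat_lit 0) (XT.lf (nat_lit 0) (nat_lit 7186421287) (nat_lit 76) (nat_lit 49099855811) (nat_lit 76) (nat_lit 48788271027) (nat_lit 4) (nat_lit 4) (nat_lit 5) (nat_lit 5) (nat_lit 5) (nat_lit 4) (nat_lit 508) (nat_lit 350) (nat_lit 342)) (XT.lf (nat_lit 0) (nat_lit 23423973874) (nat_lit 76) (nat_lit 43428468418) (nat_lit 76) (nat_lit 43085807707) (nat_lit 4) (nat_lit 4) (nat_lit 5) (nat_lit 5) (nat_lit 5) (nat_lit 4) (nat_lit 509) (nat_lit 350) (nat_lit 341))) (XT.nd (nat_lit 78) (nat_lit 0) (nat_lit 0) (XT.lf (nat_lit 0) (nat_lit 40043002375) (nat_lit 76) (nat_lit 37692481806) (nat_lit 76) (nat_lit 37320224973) (nat_lit 4) (nat_lit 4)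 (nat_lit 5) (nat_lit 5) (nat_lit 5) (nat_lit 4) (nat_lit 510) (nat_lit 350) (nat_lit 340)) (XT.lf (nat_lit 0) (nat_lit 57083075906) (nat_lit 76) (nat_lit 31878238864) (nat_lit 76) (nat_lit 31477795249) (nat_lit 4) (nat_lit 4) (nat_lit 5) (nat_lit 5) (nat_lit 5) (nat_lit 4) (nat_lit 511) (nat_lit 350) (nat_lit 339))))))) (XT.nd (nat_lit 1248) (nat_lit 76) (nat_lit 0) (XT.nd (nat_lit 624) (nat_lit 0) (nat_lit 0) (XT.nd (nat_lit 312) (nat_lit 152) (nat_lit 0) (XT.nd (nat_lit 156) (nat_lit 0) (nat_lit 0) (XT.nd (nat_lit 78) (nat_lit 0) (nat_lit 0) (XT.lf (nat_lit 0) (nat_lit 74584766071) (nat_lit 76) (nat_lit 25971896156) (nat_lit 76) (nat_lit 25544607986) (nat_lit 4) (nat_lit 4) (nat_lit 5) (nat_lit 5) (nat_lit 5) (nat_lit 4) (nat_lit 512) (nat_lit 350) (nat_lit 338)) (XT.lf (nat_lit 0) (nat_lit 92589743561) (nat_lit 76) (nat_lit 19959390961) (nat_lit 76) (nat_lit 19506536549) (nat_lit 4) (nat_lit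 4) (nat_lit 5) (nat_lit 5) (nat_lit 5) (nat_lit 4) (nat_lit 513) (nat_lit 350) (nat_lit 337))) (XT.nd (nat_lit 78) (nat_lit 0) (nat_lit 0) (XT.lf (nat_lit 0) (nat_lit 111140877369) (nat_lit 76) (nat_lit 13826407791) (nat_lit 76) (nat_lit 13349204577) (nat_lit 4) (nat_lit 4) (nat_lit 5) (nat_lit 5) (nat_lit 5) (nat_lit 4) (nat_lit 514) (nat_lit 350) (nat_lit 336)) (XT.lf (nat_lit 0) (nat_lit 130282336862) (nat_lit 76) (nat_lit 7558344306) (nat_lit 76) (nat_lit 7057951756) (nat_lit 4) (nat_lit 4) (nat_lit 5) (nat_lit 5) (nat_lit 5) (nat_lit 4) (nat_lit 515) (nat_lit 350) (nat_lit 335)))) (XT.nd (nat_lit 156) (nat_lit 0) (nat_lit 0) (XT.nd (nat_lit 78) (nat_lit 152) (nat_lit 0) (XT.lf (nat_lit 0) (nat_lit 150059696944) (nat_lit 76) (nat_lit 1140276543) (nat_lit 76) (nat_lit 617798912) (nat_lit 4) (nat_lit 4) (nat_lit 5) (nat_lit 5) (nat_lit 5) (nat_lit 4) (nat_lit 516) (nat_lit 350) (nat_lit 334))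 (XT.lf (nat_lit 0) (nat_lit 6067332684) (nat_lit 152) (nat_lit 147455055470) (nat_lit 0) (nat_lit 5549703120) (nat_lit 2) (nat_lit 5) (nat_lit 4) (nat_lit 4) (nat_lit 2) (nat_lit 4) (nat_lit 517) (nat_lit 350) (nat_lit 333))) (XT.nd (nat_lit 78) (nat_lit 0) (nat_lit 0) (XT.lf (nat_lit 0) (nat_lit 12962255325) (nat_lit 152) (nat_lit 141306002103) (nat_lit 0) (nat_lit 12425547838) (nat_lit 2) (nat_lit 5) (nat_lit 4) (nat_lit 4) (nat_lit 2) (nat_lit 4) (nat_lit 518) (nat_lit 350) (nat_lit 332)) (XT.lf (nat_lit 0) (nat_lit 20056535094) (nat_lit 152) (nat_lit 135145681533) (nat_lit 0) (nat_lit 19501658155) (nat_lit 2) (nat_lit 5) (nat_lit 4) (nat_lit 4) (nat_lit 2) (nat_lit 4) (nat_lit 519) (nat_lit 350) (nat_lit 331))))) (XT.nd (nat_lit 312) (nat_lit 0) (nat_lit 0) (XT.nd (nat_lit 156) (nat_lit 0) (nat_lit 0) (XT.nd (nat_lit 78) (nat_lit 0) (nat_lit 0) (XT.lf (nat_lit 0) (nat_lit 27367063132) (nat_lit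 152) (nat_lit 128959426328) (nat_lit 0) (nat_lit 26794881955) (nat_lit 2) (nat_lit 5) (nat_lit 4) (nat_lit 4) (nat_lit 2) (nat_lit 4) (nat_lit 520) (nat_lit 350) (nat_lit 330)) (XT.lf (nat_lit 0) (nat_lit 34911245461) (nat_lit 152) (nat_lit 122732507311) (nat_lit 0) (nat_lit 34322584056) (nat_lit 2) (nat_lit 5) (nat_lit 4) (nat_lit 4) (nat_lit 2) (nat_lit 4) (nat_lit 521) (nat_lit 350) (nat_lit 329))) (XT.nd (nat_lit 78) (nat_lit 0) (nat_lit 0) (XT.lf (nat_lit 0) (nat_lit 42707044417) (nat_lit 152) (nat_lit 116450098483) (nat_lit 0) (nat_lit 42102687557) (nat_lit 2) (nat_lit 5) (nat_lit 4) (nat_lit 4) (nat_lit 2) (nat_lit 4) (nat_lit 522) (nat_lit 350) (nat_lit 328)) (XT.lf (nat_lit 0) (nat_lit 50773021428) (nat_lit 152) (nat_lit 110097241728) (nat_lit 0) (nat_lit 50153716516) (nat_lit 2) (nat_lit 5) (nat_lit 4) (nat_lit 4) (nat_lit 2) (nat_lit 4) (nat_lit 523) (nat_lit 350) (nat_lit 327))))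 (XT.nd (nat_lit 156) (nat_lit 0) (nat_lit 0) (XT.nd (nat_lit 78) (nat_lit 0) (nat_lit 0) (XT.lf (nat_lit 0) (nat_lit 59128381201) (nat_lit 152) (nat_lit 103658811198) (nat_lit 0) (nat_lit 58494840048) (nat_lit 2) (nat_lit 5) (nat_lit 4) (nat_lit 4) (nat_lit 2) (nat_lit 4) (nat_lit 524) (nat_lit 350) (nat_lit 326)) (XT.lf (nat_lit 0) (nat_lit 67793017448) (nat_lit 152) (nat_lit 97119477294) (nat_lit 0) (nat_lit 67145917971) (nat_lit 2) (nat_lit 5) (nat_lit 4) (nat_lit 4) (nat_lit 2) (nat_lit 4) (nat_lit 525) (nat_lit 350) (nat_lit 325))) (XT.nd (nat_lit 78) (nat_lit 0) (nat_lit 0) (XT.lf (nat_lit 0) (nat_lit 76787560258) (nat_lit 152) (nat_lit 90463670175) (nat_lit 0) (nat_lit 76127548091) (nat_lit 2) (nat_lit 5) (nat_lit 4) (nat_lit 4) (nat_lit 2) (nat_lit 4) (nat_lit 526) (nat_lit 350) (nat_lit 324)) (XT.lf (nat_lit 0) (nat_lit 86133425206) (nat_lit 152) (nat_lit 83675542681) (nat_lit 0) (nat_lit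 85461115240) (nat_lit 2) (nat_lit 5) (nat_lit 4) (nat_lit 4) (nat_lit 2) (nat_lit 4) (nat_lit 527) (nat_lit 350) (nat_lit 323)))))) (XT.nd (nat_lit 624) (nat_lit 76) (nat_lit 0) (XT.nd (nat_lit 312) (nat_lit 0) (nat_lit 0) (XT.nd (nat_lit 156) (nat_lit 0) (nat_lit 0) (XT.nd (nat_lit 78) (nat_lit 0) (nat_lit 0) (XT.lf (nat_lit 0) (nat_lit 95852864354) (nat_lit 152) (nat_lit 76738932603) (nat_lit 0) (nat_lit 95168842198) (nat_lit 2) (nat_lit 5) (nat_lit 4) (nat_lit 4) (nat_lit 2) (nat_lit 4) (nat_lit 528) (nat_lit 350) (nat_lit 322)) (XT.lf (nat_lit 0) (nat_lit 105969019223) (nat_lit 152) (nat_lit 69637324204) (nat_lit 0) (nat_lit 105273842600) (nat_lit 2) (nat_lit 5) (nat_lit 4) (nat_lit 4) (nat_lit 2) (nat_lit 4) (nat_lit 529) (nat_lit 350) (nat_lit 321))) (XT.nd (nat_lit 78) (nat_lit 0) (nat_lit 0) (XT.lf (nat_lit 0) (nat_lit 116505975896) (nat_lit 152) (nat_lit 62353808891) (nat_lit 0) (nat_lit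 115800175970) (nat_lit 2) (nat_lit 5) (nat_lit 4) (nat_lit 4) (nat_lit 2) (nat_lit 4) (nat_lit 530) (nat_lit 350) (nat_lit 320)) (XT.lf (nat_lit 0) (nat_lit 127488822364) (nat_lit 152) (nat_lit 54871044962) (nat_lit 0) (nat_lit 126772905009) (nat_lit 2) (nat_lit 5) (nat_lit 4) (nat_lit 4) (nat_lit 2) (nat_lit 4) (nat_lit 531) (nat_lit 350) (nat_lit 319)))) (XT.nd (nat_lit 156) (nat_lit 0) (nat_lit 0) (XT.nd (nat_lit 78) (nat_lit 0) (nat_lit 0) (XT.lf (nat_lit 0) (nat_lit 138943708263) (nat_lit 152) (nat_lit 47171216312) (nat_lit 0) (nat_lit 138218155260) (nat_lit 2) (nat_lit 5) (nat_lit 4) (nat_lit 4) (nat_lit 2) (nat_lit 4) (nat_lit 532) (nat_lit 350) (nat_lit 318)) (XT.lf (nat_lit 0) (nat_lit 150897907131) (nat_lit 152) (nat_lit 39235990016) (nat_lit 0) (nat_lit 150163177320) (nat_lit 2) (nat_lit 5) (nat_lit 4) (nat_lit 4) (nat_lit 2) (nat_lit 4) (nat_lit 533) (nat_lit 350) (nat_lit 317)))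 (XT.nd (nat_lit 78) (nat_lit 0) (nat_lit 0) (XT.lf (nat_lit 0) (nat_lit 163379881345) (nat_lit 152) (nat_lit 31046472678) (nat_lit 0) (nat_lit 162636411717) (nat_lit 2) (nat_lit 5) (nat_lit 4) (nat_lit 4) (nat_lit 2) (nat_lit 4) (nat_lit 534) (nat_lit 350) (nat_lit 316)) (XT.lf (nat_lit 0) (nat_lit 176419349891) (nat_lit 152) (nat_lit 22583165447) (nat_lit 0) (nat_lit 175667556629) (nat_lit 2) (nat_lit 5) (nat_lit 4) (nat_lit 4) (nat_lit 2) (nat_lit 4) (nat_lit 535) (nat_lit 350) (nat_lit 315))))) (XT.nd (nat_lit 312) (nat_lit 0) (nat_lit 0) (XT.nd (nat_lit 156) (nat_lit 76) (nat_lit 0) (XT.nd (nat_lit 78) (nat_lit 0) (nat_lit 0) (XT.lf (nat_lit 0) (nat_lit 190047359124) (nat_lit 152) (nat_lit 13825917591) (nat_lit 0) (nat_lit 189287638590) (nat_lit 2) (nat_lit 5) (nat_lit 4) (nat_lit 4) (nat_lit 2) (nat_lit 4) (nat_lit 536) (nat_lit 350) (nat_lit 314)) (XT.lf (nat_lit 0) (nat_lit 204296356684)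 (nat_lit 152) (nat_lit 4753878520) (nat_lit 0) (nat_lit 203529086368) (nat_lit 2) (nat_lit 5) (nat_lit 4) (nat_lit 4) (nat_lit 2) (nat_lit 4) (nat_lit 537) (nat_lit 350) (nat_lit 313))) (XT.nd (nat_lit 78) (nat_lit 0) (nat_lit 0) (XT.lf (nat_lit 0) (nat_lit 4808452362) (nat_lit 76) (nat_lit 214466889812) (nat_lit 76) (nat_lit 213692429227) (nat_lit 1) (nat_lit 4) (nat_lit 2) (nat_lit 5) (nat_lit 2) (nat_lit 4) (nat_lit 538) (nat_lit 350) (nat_lit 312)) (XT.lf (nat_lit 0) (nat_lit 14898623565) (nat_lit 76) (nat_lit 220128566548) (nat_lit 76) (nat_lit 219347258088) (nat_lit 1) (nat_lit 4) (nat_lit 2) (nat_lit 5) (nat_lit 2) (nat_lit 4) (nat_lit 539) (nat_lit 350) (nat_lit 311)))) (XT.nd (nat_lit 156) (nat_lit 0) (nat_lit 0) (XT.nd (nat_lit 78) (nat_lit 0) (nat_lit 0) (XT.lf (nat_lit 0) (nat_lit 25383474613) (nat_lit 76) (nat_lit 226129254830) (nat_lit 76) (nat_lit 225341424584) (nat_lit 1) (nat_lit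 4) (nat_lit 2) (nat_lit 5) (nat_lit 2) (nat_lit 4) (nat_lit 540) (nat_lit 350) (nat_lit 310)) (XT.lf (nat_lit 0) (nat_lit 36287969436) (nat_lit 76) (nat_lit 232483242010) (nat_lit 76) (nat_lit 231689200540) (nat_lit 1) (nat_lit 4) (nat_lit 2) (nat_lit 5) (nat_lit 2) (nat_lit 4) (nat_lit 541) (nat_lit 350) (nat_lit 309))) (XT.nd (nat_lit 78) (nat_lit 0) (nat_lit 0) (XT.lf (nat_lit 0) (nat_lit 47638071118) (nat_lit 76) (nat_lit 239205656631) (nat_lit 76) (nat_lit 238405699709) (nat_lit 1) (nat_lit 4) (nat_lit 2) (nat_lit 5) (nat_lit 2) (nat_lit 4) (nat_lit 542) (nat_lit 350) (nat_lit 308)) (XT.lf (nat_lit 0) (nat_lit 59460803709) (nat_lit 76) (nat_lit 246312504439) (nat_lit 76) (nat_lit 245506913754) (nat_lit 1) (nat_lit 4) (nat_lit 2) (nat_lit 5) (nat_lit 2) (nat_lit 4) (nat_lit 543) (nat_lit 350) (nat_lit 307))))))))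
noncomputable def xc12 : XT := (XT.nd (nat_lit 60528) (nat_lit 0) (nat_lit 0) (XT.nd (nat_lit 59280) (nat_lit 0) (nat_lit 76) (XT.nd (nat_lit 546) (nat_lit 0) (nat_lit 0) (XT.nd (nat_lit 234) (nat_lit 0) (nat_lit 0) (XT.nd (nat_lit 78) (nat_lit 0) (nat_lit 0) (XT.lf (nat_lit 0) (nat_lit 71784316574) (nat_lit 76) (nat_lit 253820706503) (nat_lit 76) (nat_lit 253009750328) (nat_lit 1) (nat_lit 4) (nat_lit 2) (nat_lit 5) (nat_lit 2) (nat_lit 4) (nat_lit 544) (nat_lit 350) (nat_lit 306)) (XT.nd (nat_lit 78) (nat_lit 0) (nat_lit 0) (XT.lf (nat_lit 0) (nat_lit 84637951410) (nat_lit 76) (nat_lit 261748139493) (nat_lit 76) (nat_lit 260932073328) (nat_lit 1) (nat_lit 4) (nat_lit 2) (nat_lit 5) (nat_lit 2) (nat_lit 4) (nat_lit 545) (nat_lit 350) (nat_lit 305)) (XT.lf (nat_lit 0) (nat_lit 98052312109) (nat_lit 76) (nat_lit 270113678250) (nat_lit 76) (nat_lit 269292745428) (nat_lit 1) (nat_lit 4) (nat_lit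 2) (nat_lit 5) (nat_lit 2) (nat_lit 4) (nat_lit 546) (nat_lit 350) (nat_lit 304)))) (XT.nd (nat_lit 156) (nat_lit 0) (nat_lit 0) (XT.nd (nat_lit 78) (nat_lit 0) (nat_lit 0) (XT.lf (nat_lit 0) (nat_lit 112059337624) (nat_lit 76) (nat_lit 278937240724) (nat_lit 76) (nat_lit 278111672990) (nat_lit 1) (nat_lit 4) (nat_lit 2) (nat_lit 5) (nat_lit 2) (nat_lit 4) (nat_lit 547) (nat_lit 350) (nat_lit 303)) (XT.lf (nat_lit 0) (nat_lit 126692378018) (nat_lit 76) (nat_lit 288239835395) (nat_lit 76) (nat_lit 287409853461) (nat_lit 1) (nat_lit 4) (nat_lit 2) (nat_lit 5) (nat_lit 2) (nat_lit 4) (nat_lit 548) (nat_lit 350) (nat_lit 302))) (XT.nd (nat_lit 78) (nat_lit 0) (nat_lit 0) (XT.lf (nat_lit 0) (nat_lit 141986273862) (nat_lit 76) (nat_lit 298043611300) (nat_lit 76) (nat_lit 297209425365) (nat_lit 1) (nat_lit 4) (nat_lit 2) (nat_lit 5) (nat_lit 2) (nat_lit 4) (nat_lit 549) (nat_lit 350) (nat_lit 301))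 (XT.lf (nat_lit 0) (nat_lit 157977439194) (nat_lit 76) (nat_lit 308371910762) (nat_lit 76) (nat_lit 307533721016) (nat_lit 1) (nat_lit 4) (nat_lit 2) (nat_lit 5) (nat_lit 2) (nat_lit 4) (nat_lit 550) (nat_lit 350) (nat_lit 300))))) (XT.nd (nat_lit 58422) (nat_lit 0) (nat_lit 456) (XT.nd (nat_lit 156) (nat_lit 0) (nat_lit 0) (XT.nd (nat_lit 78) (nat_lit 0) (nat_lit 0) (XT.lf (nat_lit 0) (nat_lit 174703948217) (nat_lit 76) (nat_lit 319249324971) (nat_lit 76) (nat_lit 318407322071) (nat_lit 1) (nat_lit 4) (nat_lit 2) (nat_lit 5) (nat_lit 2) (nat_lit 4) (nat_lit 551) (nat_lit 350) (nat_lit 299)) (XT.lf (nat_lit 0) (nat_lit 192205625952) (nat_lit 76) (nat_lit 330701752530) (nat_lit 76) (nat_lit 329856118056) (nat_lit 1) (nat_lit 4) (nat_lit 2) (nat_lit 5) (nat_lit 2) (nat_lit 4) (nat_lit 552) (nat_lit 350) (nat_lit 298))) (XT.nd (nat_lit 58188) (nat_lit 0) (nat_lit 532) (XT.lf (nat_lit 0) (nat_lit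 210524143062) (nat_lit 76) (nat_lit 342756461126) (nat_lit 76) (nat_lit 341907368010) (nat_lit 1) (nat_lit 4) (nat_lit 2) (nat_lit 5) (nat_lit 2) (nat_lit 4) (nat_lit 553) (nat_lit 350) (nat_lit 297)) (XT.lf (nat_lit 0) (nat_lit 16851401115) (nat_lit 152) (nat_lit 238835174) (nat_lit 0) (nat_lit 16851401115) (nat_lit 8) (nat_lit 5) (nat_lit 10) (nat_lit 4) (nat_lit 8) (nat_lit 4) (nat_lit 498) (nat_lit 351) (nat_lit 351)))) (XT.nd (nat_lit 156) (nat_lit 0) (nat_lit 0) (XT.nd (nat_lit 78) (nat_lit 0) (nat_lit 0) (XT.lf (nat_lit 0) (nat_lit 18706645258) (nat_lit 76) (nat_lit 26074530958) (nat_lit 76) (nat_lit 26023911547) (nat_lit 7) (nat_lit 4) (nat_lit 8) (nat_lit 5) (nat_lit 8) (nat_lit 4) (nat_lit 499) (nat_lit 351) (nat_lit 350)) (XT.lf (nat_lit 0) (nat_lit 38261371579) (nat_lit 76) (nat_lit 17862465376) (nat_lit 76) (nat_lit 17763637002) (nat_lit 7) (nat_lit 4) (nat_lit 8) (nat_lit 5) (nat_lit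 8) (nat_lit 4) (nat_lit 500) (nat_lit 351) (nat_lit 349))) (XT.nd (nat_lit 78) (nat_lit 0) (nat_lit 0) (XT.lf (nat_lit 0) (nat_lit 58217273545) (nat_lit 76) (nat_lit 9532812875) (nat_lit 76) (nat_lit 9388071203) (nat_lit 7) (nat_lit 4) (nat_lit 8) (nat_lit 5) (nat_lit 8) (nat_lit 4) (nat_lit 501) (nat_lit 351) (nat_lit 348)) (XT.lf (nat_lit 0) (nat_lit 78621865208) (nat_lit 76) (nat_lit 1065740949) (nat_lit 76) (nat_lit 877272327) (nat_lit 7) (nat_lit 4) (nat_lit 8) (nat_lit 5) (nat_lit 8) (nat_lit 4) (nat_lit 502) (nat_lit 351) (nat_lit 347)))))) (XT.nd (nat_lit 624) (nat_lit 152) (nat_lit 0) (XT.nd (nat_lit 312) (nat_lit 76) (nat_lit 0) (XT.nd (nat_lit 156) (nat_lit 0) (nat_lit 0) (XT.nd (nat_lit 78) (nat_lit 0) (nat_lit 0) (XT.lf (nat_lit 0) (nat_lit 7909347278) (nat_lit 152) (nat_lit 68551694916) (nat_lit 0) (nat_lit 7690191719) (nat_lit 5) (nat_lit 5) (nat_lit 7) (nat_lit 4) (nat_lit 5)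 (nat_lit 4) (nat_lit 503) (nat_lit 351) (nat_lit 346)) (XT.lf (nat_lit 0) (nat_lit 16895462355) (nat_lit 152) (nat_lit 54392710320) (nat_lit 0) (nat_lit 16638533812) (nat_lit 5) (nat_lit 5) (nat_lit 7) (nat_lit 4) (nat_lit 5) (nat_lit 4) (nat_lit 504) (nat_lit 351) (nat_lit 345))) (XT.nd (nat_lit 78) (nat_lit 0) (nat_lit 0) (XT.lf (nat_lit 0) (nat_lit 26082054729) (nat_lit 152) (nat_lit 40032188211) (nat_lit 0) (nat_lit 25789151915) (nat_lit 5) (nat_lit 5) (nat_lit 7) (nat_lit 4) (nat_lit 5) (nat_lit 4) (nat_lit 505) (nat_lit 351) (nat_lit 344)) (XT.lf (nat_lit 0) (nat_lit 35490997239) (nat_lit 152) (nat_lit 25435936867) (nat_lit 0) (nat_lit 35163833215) (nat_lit 5) (nat_lit 5) (nat_lit 7) (nat_lit 4) (nat_lit 5) (nat_lit 4) (nat_lit 506) (nat_lit 351) (nat_lit 343)))) (XT.nd (nat_lit 156) (nat_lit 0) (nat_lit 0) (XT.nd (nat_lit 78) (nat_lit 76) (nat_lit 0) (XT.lf (nat_lit 0) (nat_lit 45144692129)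 (nat_lit 152) (nat_lit 10569203311) (nat_lit 0) (nat_lit 44784898382) (nat_lit 5) (nat_lit 5) (nat_lit 7) (nat_lit 4) (nat_lit 5) (nat_lit 4) (nat_lit 507) (nat_lit 351) (nat_lit 342)) (XT.lf (nat_lit 0) (nat_lit 4755618947) (nat_lit 76) (nat_lit 50384753979) (nat_lit 76) (nat_lit 49993884304) (nat_lit 4) (nat_lit 4) (nat_lit 5) (nat_lit 5) (nat_lit 5) (nat_lit 4) (nat_lit 508) (nat_lit 351) (nat_lit 341))) (XT.nd (nat_lit 78) (nat_lit 0) (nat_lit 0) (XT.lf (nat_lit 0) (nat_lit 20783219477) (nat_lit 76) (nat_lit 44820181294) (nat_lit 76) (nat_lit 44399715498) (nat_lit 4) (nat_lit 4) (nat_lit 5) (nat_lit 5) (nat_lit 5) (nat_lit 4) (nat_lit 509) (nat_lit 351) (nat_lit 340)) (XT.lf (nat_lit 0) (nat_lit 37202293639) (nat_lit 76) (nat_lit 39185922974) (nat_lit 76) (nat_lit 38737270396) (nat_lit 4) (nat_lit 4) (nat_lit 5) (nat_lit 5) (nat_lit 5) (nat_lit 4) (nat_lit 510) (nat_lit 351) (nat_lit 339)))))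 (XT.nd (nat_lit 312) (nat_lit 152) (nat_lit 0) (XT.nd (nat_lit 156) (nat_lit 0) (nat_lit 0) (XT.nd (nat_lit 78) (nat_lit 0) (nat_lit 0) (XT.lf (nat_lit 0) (nat_lit 54051934466) (nat_lit 76) (nat_lit 33468564120) (nat_lit 76) (nat_lit 32993066988) (nat_lit 4) (nat_lit 4) (nat_lit 5) (nat_lit 5) (nat_lit 5) (nat_lit 4) (nat_lit 511) (nat_lit 351) (nat_lit 338)) (XT.lf (nat_lit 0) (nat_lit 71372260152) (nat_lit 76) (nat_lit 27654491973) (nat_lit 76) (nat_lit 27153428598) (nat_lit 4) (nat_lit 4) (nat_lit 5) (nat_lit 5) (nat_lit 5) (nat_lit 4) (nat_lit 512) (nat_lit 351) (nat_lit 337))) (XT.nd (nat_lit 78) (nat_lit 0) (nat_lit 0) (XT.lf (nat_lit 0) (nat_lit 89204509565) (nat_lit 76) (nat_lit 21729863502) (nat_lit 76) (nat_lit 21204451325) (nat_lit 4) (nat_lit 4) (nat_lit 5) (nat_lit 5) (nat_lit 5) (nat_lit 4) (nat_lit 513) (nat_lit 351) (nat_lit 336)) (XT.lf (nat_lit 0) (nat_lit 107591140444) (nat_lit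 76) (nat_lit 15680572451) (nat_lit 76) (nat_lit 15131970938) (nat_lit 4) (nat_lit 4) (nat_lit 5) (nat_lit 5) (nat_lit 5) (nat_lit 4) (nat_lit 514) (nat_lit 351) (nat_lit 335)))) (XT.nd (nat_lit 156) (nat_lit 152) (nat_lit 0) (XT.nd (nat_lit 78) (nat_lit 0) (nat_lit 0) (XT.lf (nat_lit 0) (nat_lit 126575930481) (nat_lit 76) (nat_lit 9492215744) (nat_lit 76) (nat_lit 8921529150) (nat_lit 4) (nat_lit 4) (nat_lit 5) (nat_lit 5) (nat_lit 5) (nat_lit 4) (nat_lit 515) (nat_lit 351) (nat_lit 334)) (XT.lf (nat_lit 0) (nat_lit 146204081556) (nat_lit 76) (nat_lit 3150059200) (nat_lit 76) (nat_lit 2558339196) (nat_lit 4) (nat_lit 4) (nat_lit 5) (nat_lit 5) (nat_lit 5) (nat_lit 4) (nat_lit 516) (nat_lit 351) (nat_lit 333))) (XT.nd (nat_lit 78) (nat_lit 0) (nat_lit 0) (XT.lf (nat_lit 0) (nat_lit 4018296538) (nat_lit 152) (nat_lit 151722871856) (nat_lit 0) (nat_lit 3435675752) (nat_lit 2) (nat_lit 5) (nat_lit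 4) (nat_lit 4) (nat_lit 2) (nat_lit 4) (nat_lit 517) (nat_lit 351) (nat_lit 332)) (XT.lf (nat_lit 0) (nat_lit 10842297713) (nat_lit 152) (nat_lit 145718299203) (nat_lit 0) (nat_lit 10241507477) (nat_lit 2) (nat_lit 5) (nat_lit 4) (nat_lit 4) (nat_lit 2) (nat_lit 4) (nat_lit 518) (nat_lit 351) (nat_lit 331))))))) (XT.nd (nat_lit 1170) (nat_lit 76) (nat_lit 0) (XT.nd (nat_lit 546) (nat_lit 0) (nat_lit 0) (XT.nd (nat_lit 234) (nat_lit 0) (nat_lit 0) (XT.nd (nat_lit 78) (nat_lit 0) (nat_lit 0) (XT.lf (nat_lit 0) (nat_lit 17869033229) (nat_lit 152) (nat_lit 139695579313) (nat_lit 0) (nat_lit 17250938754) (nat_lit 2) (nat_lit 5) (nat_lit 4) (nat_lit 4) (nat_lit 2) (nat_lit 4) (nat_lit 519) (nat_lit 351) (nat_lit 330)) (XT.nd (nat_lit 78) (nat_lit 0) (nat_lit 0) (XT.lf (nat_lit 0) (nat_lit 25115233408) (nat_lit 152) (nat_lit 133640372376) (nat_lit 0) (nat_lit 24480658705) (nat_lit 2) (nat_lit 5) (nat_lit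 4) (nat_lit 4) (nat_lit 2) (nat_lit 4) (nat_lit 520) (nat_lit 351) (nat_lit 329)) (XT.lf (nat_lit 0) (nat_lit 32598151108) (nat_lit 152) (nat_lit 127538261232) (nat_lit 0) (nat_lit 31947880950) (nat_lit 2) (nat_lit 5) (nat_lit 4) (nat_lit 4) (nat_lit 2) (nat_lit 4) (nat_lit 521) (nat_lit 351) (nat_lit 328)))) (XT.nd (nat_lit 156) (nat_lit 0) (nat_lit 0) (XT.nd (nat_lit 78) (nat_lit 0) (nat_lit 0) (XT.lf (nat_lit 0) (nat_lit 40335602800) (nat_lit 152) (nat_lit 121374717045) (nat_lit 0) (nat_lit 39670384589) (nat_lit 2) (nat_lit 5) (nat_lit 4) (nat_lit 4) (nat_lit 2) (nat_lit 4) (nat_lit 522) (nat_lit 351) (nat_lit 327)) (XT.lf (nat_lit 0) (nat_lit 48346010987) (nat_lit 152) (nat_lit 115135064711) (nat_lit 0) (nat_lit 47666556536) (nat_lit 2) (nat_lit 5) (nat_lit 4) (nat_lit 4) (nat_lit 2) (nat_lit 4) (nat_lit 523) (nat_lit 351) (nat_lit 326))) (XT.nd (nat_lit 78) (nat_lit 0) (nat_lit 0) (XT.lf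 (nat_lit 0) (nat_lit 56648448070) (nat_lit 152) (nat_lit 108804447913) (nat_lit 0) (nat_lit 55955435294) (nat_lit 2) (nat_lit 5) (nat_lit 4) (nat_lit 4) (nat_lit 2) (nat_lit 4) (nat_lit 524) (nat_lit 351) (nat_lit 325)) (XT.lf (nat_lit 0) (nat_lit 65262681756) (nat_lit 152) (nat_lit 102367793756) (nat_lit 0) (nat_lit 64556756291) (nat_lit 2) (nat_lit 5) (nat_lit 4) (nat_lit 4) (nat_lit 2) (nat_lit 4) (nat_lit 525) (nat_lit 351) (nat_lit 324))))) (XT.nd (nat_lit 312) (nat_lit 0) (nat_lit 0) (XT.nd (nat_lit 156) (nat_lit 0) (nat_lit 0) (XT.nd (nat_lit 78) (nat_lit 0) (nat_lit 0) (XT.lf (nat_lit 0) (nat_lit 74209222126) (nat_lit 152) (nat_lit 95809776872) (nat_lit 0) (nat_lit 73490998861) (nat_lit 2) (nat_lit 5) (nat_lit 4) (nat_lit 4) (nat_lit 2) (nat_lit 4) (nat_lit 526) (nat_lit 351) (nat_lit 323)) (XT.lf (nat_lit 0) (nat_lit 83509370466) (nat_lit 152) (nat_lit 89114782934) (nat_lit 0) (nat_lit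 82779435011) (nat_lit 2) (nat_lit 5) (nat_lit 4) (nat_lit 4) (nat_lit 2) (nat_lit 4) (nat_lit 527) (nat_lit 351) (nat_lit 322))) (XT.nd (nat_lit 78) (nat_lit 0) (nat_lit 0) (XT.lf (nat_lit 0) (nat_lit 93185269986) (nat_lit 152) (nat_lit 82266871482) (nat_lit 0) (nat_lit 92444180064) (nat_lit 2) (nat_lit 5) (nat_lit 4) (nat_lit 4) (nat_lit 2) (nat_lit 4) (nat_lit 528) (nat_lit 351) (nat_lit 321)) (XT.lf (nat_lit 0) (nat_lit 103259958543) (nat_lit 152) (nat_lit 75249737964) (nat_lit 0) (nat_lit 102508245319) (nat_lit 2) (nat_lit 5) (nat_lit 4) (nat_lit 4) (nat_lit 2) (nat_lit 4) (nat_lit 529) (nat_lit 351) (nat_lit 320)))) (XT.nd (nat_lit 156) (nat_lit 0) (nat_lit 0) (XT.nd (nat_lit 78) (nat_lit 0) (nat_lit 0) (XT.lf (nat_lit 0) (nat_lit 113757423490) (nat_lit 152) (nat_lit 68046674919) (nat_lit 0) (nat_lit 112995592836) (nat_lit 2) (nat_lit 5) (nat_lit 4) (nat_lit 4) (nat_lit 2) (nat_lit 4) (nat_lit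 530) (nat_lit 351) (nat_lit 319)) (XT.lf (nat_lit 0) (nat_lit 124702658791) (nat_lit 152) (nat_lit 60640532198) (nat_lit 0) (nat_lit 123931192490) (nat_lit 2) (nat_lit 5) (nat_lit 4) (nat_lit 4) (nat_lit 2) (nat_lit 4) (nat_lit 531) (nat_lit 351) (nat_lit 318))) (XT.nd (nat_lit 78) (nat_lit 0) (nat_lit 0) (XT.lf (nat_lit 0) (nat_lit 136121724531) (nat_lit 152) (nat_lit 53013676127) (nat_lit 0) (nat_lit 135341081422) (nat_lit 2) (nat_lit 5) (nat_lit 4) (nat_lit 4) (nat_lit 2) (nat_lit 4) (nat_lit 532) (nat_lit 351) (nat_lit 317)) (XT.lf (nat_lit 0) (nat_lit 148041808960) (nat_lit 152) (nat_lit 45147947525) (nat_lit 0) (nat_lit 147252426035) (nat_lit 2) (nat_lit 5) (nat_lit 4) (nat_lit 4) (nat_lit 2) (nat_lit 4) (nat_lit 533) (nat_lit 351) (nat_lit 316)))))) (XT.nd (nat_lit 624) (nat_lit 0) (nat_lit 0) (XT.nd (nat_lit 312) (nat_lit 76) (nat_lit 0) (XT.nd (nat_lit 156) (nat_lit 0) (nat_lit 0) (XT.nd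 (nat_lit 78) (nat_lit 0) (nat_lit 0) (XT.lf (nat_lit 0) (nat_lit 160491293234) (nat_lit 152) (nat_lit 37024618466) (nat_lit 0) (nat_lit 159693586673) (nat_lit 2) (nat_lit 5) (nat_lit 4) (nat_lit 4) (nat_lit 2) (nat_lit 4) (nat_lit 534) (nat_lit 351) (nat_lit 315)) (XT.lf (nat_lit 0) (nat_lit 173499818980) (nat_lit 152) (nat_lit 28624347692) (nat_lit 0) (nat_lit 172694185148) (nat_lit 2) (nat_lit 5) (nat_lit 4) (nat_lit 4) (nat_lit 2) (nat_lit 4) (nat_lit 535) (nat_lit 351) (nat_lit 314))) (XT.nd (nat_lit 78) (nat_lit 0) (nat_lit 0) (XT.lf (nat_lit 0) (nat_lit 187098358879) (nat_lit 152) (nat_lit 19927134557) (nat_lit 0) (nat_lit 186285175265) (nat_lit 2) (nat_lit 5) (nat_lit 4) (nat_lit 4) (nat_lit 2) (nat_lit 4) (nat_lit 536) (nat_lit 351) (nat_lit 313)) (XT.lf (nat_lit 0) (nat_lit 201319290407) (nat_lit 152) (nat_lit 10912271412) (nat_lit 0) (nat_lit 200498916524) (nat_lit 2) (nat_lit 5) (nat_lit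 4) (nat_lit 4) (nat_lit 2) (nat_lit 4) (nat_lit 537) (nat_lit 351) (nat_lit 312)))) (XT.nd (nat_lit 156) (nat_lit 0) (nat_lit 0) (XT.nd (nat_lit 78) (nat_lit 76) (nat_lit 0) (XT.lf (nat_lit 0) (nat_lit 216196472925) (nat_lit 152) (nat_lit 1558294295) (nat_lit 0) (nat_lit 215369251167) (nat_lit 2) (nat_lit 5) (nat_lit 4) (nat_lit 4) (nat_lit 2) (nat_lit 4) (nat_lit 538) (nat_lit 351) (nat_lit 311)) (XT.lf (nat_lit 0) (nat_lit 8426777677) (nat_lit 76) (nat_lit 223470116234) (nat_lit 76) (nat_lit 222636372691) (nat_lit 1) (nat_lit 4) (nat_lit 2) (nat_lit 5) (nat_lit 2) (nat_lit 4) (nat_lit 539) (nat_lit 351) (nat_lit 310))) (XT.nd (nat_lit 78) (nat_lit 0) (nat_lit 0) (XT.lf (nat_lit 0) (nat_lit 18860604931) (nat_lit 76) (nat_lit 229496787192) (nat_lit 76) (nat_lit 228656832423) (nat_lit 1) (nat_lit 4) (nat_lit 2) (nat_lit 5) (nat_lit 2) (nat_lit 4) (nat_lit 540) (nat_lit 351) (nat_lit 309)) (XT.lf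 (nat_lit 0) (nat_lit 29716505665) (nat_lit 76) (nat_lit 235875519777) (nat_lit 76) (nat_lit 235029649557) (nat_lit 1) (nat_lit 4) (nat_lit 2) (nat_lit 5) (nat_lit 2) (nat_lit 4) (nat_lit 541) (nat_lit 351) (nat_lit 308))))) (XT.nd (nat_lit 312) (nat_lit 0) (nat_lit 0) (XT.nd (nat_lit 156) (nat_lit 0) (nat_lit 0) (XT.nd (nat_lit 78) (nat_lit 0) (nat_lit 0) (XT.lf (nat_lit 0) (nat_lit 41020327262) (nat_lit 76) (nat_lit 242621501450) (nat_lit 76) (nat_lit 241769997466) (nat_lit 1) (nat_lit 4) (nat_lit 2) (nat_lit 5) (nat_lit 2) (nat_lit 4) (nat_lit 542) (nat_lit 351) (nat_lit 307)) (XT.lf (nat_lit 0) (nat_lit 52798983582) (nat_lit 76) (nat_lit 249750794071) (nat_lit 76) (nat_lit 248893924598) (nat_lit 1) (nat_lit 4) (nat_lit 2) (nat_lit 5) (nat_lit 2) (nat_lit 4) (nat_lit 543) (nat_lit 351) (nat_lit 306))) (XT.nd (nat_lit 78) (nat_lit 0) (nat_lit 0) (XT.lf (nat_lit 0) (nat_lit 65080519046) (nat_lit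 76) (nat_lit 257280372146) (nat_lit 76) (nat_lit 256418392683) (nat_lit 1) (nat_lit 4) (nat_lit 2) (nat_lit 5) (nat_lit 2) (nat_lit 4) (nat_lit 544) (nat_lit 351) (nat_lit 305)) (XT.lf (nat_lit 0) (nat_lit 77894175404) (nat_lit 76) (nat_lit 265228163242) (nat_lit 76) (nat_lit 264361317122) (nat_lit 1) (nat_lit 4) (nat_lit 2) (nat_lit 5) (nat_lit 2) (nat_lit 4) (nat_lit 545) (nat_lit 351) (nat_lit 304)))) (XT.nd (nat_lit 156) (nat_lit 0) (nat_lit 0) (XT.nd (nat_lit 78) (nat_lit 0) (nat_lit 0) (XT.lf (nat_lit 0) (nat_lit 91270461362) (nat_lit 76) (nat_lit 273613090671) (nat_lit 76) (nat_lit 272741609640) (nat_lit 1) (nat_lit 4) (nat_lit 2) (nat_lit 5) (nat_lit 2) (nat_lit 4) (nat_lit 546) (nat_lit 351) (nat_lit 303)) (XT.lf (nat_lit 0) (nat_lit 105241225221) (nat_lit 76) (nat_lit 282455118547) (nat_lit 76) (nat_lit 281579223315) (nat_lit 1) (nat_lit 4) (nat_lit 2) (nat_lit 5) (nat_lit 2) (nat_lit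 4) (nat_lit 547) (nat_lit 351) (nat_lit 302))) (XT.nd (nat_lit 78) (nat_lit 0) (nat_lit 0) (XT.lf (nat_lit 0) (nat_lit 119839730702) (nat_lit 76) (nat_lit 291775299316) (nat_lit 76) (nat_lit 290895200082) (nat_lit 1) (nat_lit 4) (nat_lit 2) (nat_lit 5) (nat_lit 2) (nat_lit 4) (nat_lit 548) (nat_lit 351) (nat_lit 301)) (XT.lf (nat_lit 0) (nat_lit 135100736154) (nat_lit 76) (nat_lit 301595823886) (nat_lit 76) (nat_lit 300711720841) (nat_lit 1) (nat_lit 4) (nat_lit 2) (nat_lit 5) (nat_lit 2) (nat_lit 4) (nat_lit 549) (nat_lit 351) (nat_lit 300))))))))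
noncomputable def xc13 : XT := (XT.nd (nat_lit 60372) (nat_lit 0) (nat_lit 0) (XT.nd (nat_lit 59124) (nat_lit 0) (nat_lit 76) (XT.nd (nat_lit 58500) (nat_lit 0) (nat_lit 304) (XT.nd (nat_lit 234) (nat_lit 0) (nat_lit 0) (XT.nd (nat_lit 78) (nat_lit 0) (nat_lit 0) (XT.lf (nat_lit 0) (nat_lit 151060577303) (nat_lit 76) (nat_lit 311940074456) (nat_lit 76) (nat_lit 311052158259) (nat_lit 1) (nat_lit 4) (nat_lit 2) (nat_lit 5) (nat_lit 2) (nat_lit 4) (nat_lit 550) (nat_lit 351) (nat_lit 299)) (XT.nd (nat_lit 78) (nat_lit 0) (nat_lit 0) (XT.lf (nat_lit 0) (nat_lit 167757253770) (nat_lit 76) (nat_lit 322832680197) (nat_lit 76) (nat_lit 321941132425) (nat_lit 1) (nat_lit 4) (nat_lit 2) (nat_lit 5) (nat_lit 2) (nat_lit 4) (nat_lit 551) (nat_lit 351) (nat_lit 298)) (XT.lf (nat_lit 0) (nat_lit 185230519548) (nat_lit 76) (nat_lit 334299575882) (nat_lit 76) (nat_lit 333404569468) (nat_lit 1) (nat_lit 4) (nat_lit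 2) (nat_lit 5) (nat_lit 2) (nat_lit 4) (nat_lit 552) (nat_lit 351) (nat_lit 297)))) (XT.nd (nat_lit 58110) (nat_lit 0) (nat_lit 532) (XT.nd (nat_lit 58032) (nat_lit 0) (nat_lit 532) (XT.lf (nat_lit 0) (nat_lit 203521977651) (nat_lit 76) (nat_lit 346368063645) (nat_lit 76) (nat_lit 345469763286) (nat_lit 1) (nat_lit 4) (nat_lit 2) (nat_lit 5) (nat_lit 2) (nat_lit 4) (nat_lit 553) (nat_lit 351) (nat_lit 296)) (XT.lf (nat_lit 0) (nat_lit 6494655555) (nat_lit 152) (nat_lit 18240087711) (nat_lit 0) (nat_lit 6494655555) (nat_lit 8) (nat_lit 5) (nat_lit 10) (nat_lit 4) (nat_lit 8) (nat_lit 4) (nat_lit 496) (nat_lit 352) (nat_lit 352))) (XT.nd (nat_lit 78) (nat_lit 0) (nat_lit 0) (XT.lf (nat_lit 0) (nat_lit 23195005919) (nat_lit 152) (nat_lit 18764241059) (nat_lit 0) (nat_lit 23141855538) (nat_lit 8) (nat_lit 5) (nat_lit 10) (nat_lit 4) (nat_lit 8) (nat_lit 4) (nat_lit 497) (nat_lit 352) (nat_lit 351))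 (XT.lf (nat_lit 0) (nat_lit 33608302271) (nat_lit 152) (nat_lit 777823086) (nat_lit 0) (nat_lit 33504532479) (nat_lit 8) (nat_lit 5) (nat_lit 10) (nat_lit 4) (nat_lit 8) (nat_lit 4) (nat_lit 498) (nat_lit 352) (nat_lit 350))))) (XT.nd (nat_lit 312) (nat_lit 152) (nat_lit 0) (XT.nd (nat_lit 156) (nat_lit 0) (nat_lit 0) (XT.nd (nat_lit 78) (nat_lit 0) (nat_lit 0) (XT.lf (nat_lit 0) (nat_lit 18101256554) (nat_lit 76) (nat_lit 26435348518) (nat_lit 76) (nat_lit 26283369762) (nat_lit 7) (nat_lit 4) (nat_lit 8) (nat_lit 5) (nat_lit 8) (nat_lit 4) (nat_lit 499) (nat_lit 352) (nat_lit 349)) (XT.lf (nat_lit 0) (nat_lit 37374733767) (nat_lit 76) (nat_lit 18366217746) (nat_lit 76) (nat_lit 18168325692) (nat_lit 7) (nat_lit 4) (nat_lit 8) (nat_lit 5) (nat_lit 8) (nat_lit 4) (nat_lit 500) (nat_lit 352) (nat_lit 348))) (XT.nd (nat_lit 78) (nat_lit 0) (nat_lit 0) (XT.lf (nat_lit 0) (nat_lit 57062779440) (nat_lit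 76) (nat_lit 10172693635) (nat_lit 76) (nat_lit 9931074631) (nat_lit 7) (nat_lit 4) (nat_lit 8) (nat_lit 5) (nat_lit 8) (nat_lit 4) (nat_lit 501) (nat_lit 352) (nat_lit 347)) (XT.lf (nat_lit 0) (nat_lit 77212269872) (nat_lit 76) (nat_lit 1835267795) (nat_lit 76) (nat_lit 1552004076) (nat_lit 7) (nat_lit 4) (nat_lit 8) (nat_lit 5) (nat_lit 8) (nat_lit 4) (nat_lit 502) (nat_lit 352) (nat_lit 346)))) (XT.nd (nat_lit 156) (nat_lit 0) (nat_lit 0) (XT.nd (nat_lit 78) (nat_lit 0) (nat_lit 0) (XT.lf (nat_lit 0) (nat_lit 7093071595) (nat_lit 152) (nat_lit 70315986016) (nat_lit 0) (nat_lit 6785523641) (nat_lit 5) (nat_lit 5) (nat_lit 7) (nat_lit 4) (nat_lit 5) (nat_lit 4) (nat_lit 503) (nat_lit 352) (nat_lit 345)) (XT.lf (nat_lit 0) (nat_lit 15957806937) (nat_lit 152) (nat_lit 56404031526) (nat_lit 0) (nat_lit 15614284713) (nat_lit 5) (nat_lit 5) (nat_lit 7) (nat_lit 4) (nat_lit 5) (nat_lit 4) (nat_lit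 504) (nat_lit 352) (nat_lit 344))) (XT.nd (nat_lit 78) (nat_lit 0) (nat_lit 0) (XT.lf (nat_lit 0) (nat_lit 25028799563) (nat_lit 152) (nat_lit 42278776183) (nat_lit 0) (nat_lit 24651016129) (nat_lit 5) (nat_lit 5) (nat_lit 7) (nat_lit 4) (nat_lit 5) (nat_lit 4) (nat_lit 505) (nat_lit 352) (nat_lit 343)) (XT.lf (nat_lit 0) (nat_lit 34327647076) (nat_lit 152) (nat_lit 27906588427) (nat_lit 0) (nat_lit 33917233917) (nat_lit 5) (nat_lit 5) (nat_lit 7) (nat_lit 4) (nat_lit 5) (nat_lit 4) (nat_lit 506) (nat_lit 352) (nat_lit 342)))))) (XT.nd (nat_lit 624) (nat_lit 152) (nat_lit 0) (XT.nd (nat_lit 312) (nat_lit 0) (nat_lit 0) (XT.nd (nat_lit 156) (nat_lit 0) (nat_lit 0) (XT.nd (nat_lit 78) (nat_lit 76) (nat_lit 0) (XT.lf (nat_lit 0) (nat_lit 43876489587) (nat_lit 152) (nat_lit 13253248764) (nat_lit 0) (nat_lit 43435000501) (nat_lit 5) (nat_lit 5) (nat_lit 7) (nat_lit 4) (nat_lit 5) (nat_lit 4) (nat_lit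 507) (nat_lit 352) (nat_lit 341)) (XT.lf (nat_lit 0) (nat_lit 1772874774) (nat_lit 76) (nat_lit 51952867205) (nat_lit 76) (nat_lit 51481781998) (nat_lit 4) (nat_lit 4) (nat_lit 5) (nat_lit 5) (nat_lit 5) (nat_lit 4) (nat_lit 508) (nat_lit 352) (nat_lit 340))) (XT.nd (nat_lit 78) (nat_lit 0) (nat_lit 0) (XT.lf (nat_lit 0) (nat_lit 17600520965) (nat_lit 76) (nat_lit 46490022813) (nat_lit 76) (nat_lit 45990750824) (nat_lit 4) (nat_lit 4) (nat_lit 5) (nat_lit 5) (nat_lit 5) (nat_lit 4) (nat_lit 509) (nat_lit 352) (nat_lit 339)) (XT.lf (nat_lit 0) (nat_lit 33829162424) (nat_lit 76) (nat_lit 40952648582) (nat_lit 76) (nat_lit 40426532039) (nat_lit 4) (nat_lit 4) (nat_lit 5) (nat_lit 5) (nat_lit 5) (nat_lit 4) (nat_lit 510) (nat_lit 352) (nat_lit 338)))) (XT.nd (nat_lit 156) (nat_lit 0) (nat_lit 0) (XT.nd (nat_lit 78) (nat_lit 0) (nat_lit 0) (XT.lf (nat_lit 0) (nat_lit 50497438771) (nat_lit 76) (nat_lit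 35327560289) (nat_lit 76) (nat_lit 34775877503) (nat_lit 4) (nat_lit 4) (nat_lit 5) (nat_lit 5) (nat_lit 5) (nat_lit 4) (nat_lit 511) (nat_lit 352) (nat_lit 337)) (XT.lf (nat_lit 0) (nat_lit 67645036380) (nat_lit 76) (nat_lit 29601364865) (nat_lit 76) (nat_lit 29025333277) (nat_lit 4) (nat_lit 4) (nat_lit 5) (nat_lit 5) (nat_lit 5) (nat_lit 4) (nat_lit 512) (nat_lit 352) (nat_lit 336))) (XT.nd (nat_lit 78) (nat_lit 0) (nat_lit 0) (XT.lf (nat_lit 0) (nat_lit 85312782865) (nat_lit 76) (nat_lit 23760428513) (nat_lit 76) (nat_lit 23161207589) (nat_lit 4) (nat_lit 4) (nat_lit 5) (nat_lit 5) (nat_lit 5) (nat_lit 4) (nat_lit 513) (nat_lit 352) (nat_lit 335)) (XT.lf (nat_lit 0) (nat_lit 103542744287) (nat_lit 76) (nat_lit 17790844241) (nat_lit 76) (nat_lit 17169538236) (nat_lit 4) (nat_lit 4) (nat_lit 5) (nat_lit 5) (nat_lit 5) (nat_lit 4) (nat_lit 514) (nat_lit 352) (nat_lit 334))))) (XT.nd (nat_lit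 312) (nat_lit 0) (nat_lit 0) (XT.nd (nat_lit 156) (nat_lit 152) (nat_lit 0) (XT.nd (nat_lit 78) (nat_lit 0) (nat_lit 0) (XT.lf (nat_lit 0) (nat_lit 122378325317) (nat_lit 76) (nat_lit 11678398753) (nat_lit 76) (nat_lit 11036059337) (nat_lit 4) (nat_lit 4) (nat_lit 5) (nat_lit 5) (nat_lit 5) (nat_lit 4) (nat_lit 515) (nat_lit 352) (nat_lit 333)) (XT.lf (nat_lit 0) (nat_lit 141864372577) (nat_lit 76) (nat_lit 5408538607) (nat_lit 76) (nat_lit 4746167372) (nat_lit 4) (nat_lit 4) (nat_lit 5) (nat_lit 5) (nat_lit 5) (nat_lit 4) (nat_lit 516) (nat_lit 352) (nat_lit 332))) (XT.nd (nat_lit 78) (nat_lit 0) (nat_lit 0) (XT.lf (nat_lit 0) (nat_lit 1721419580) (nat_lit 152) (nat_lit 156500264525) (nat_lit 0) (nat_lit 1072420381) (nat_lit 2) (nat_lit 5) (nat_lit 4) (nat_lit 4) (nat_lit 2) (nat_lit 4) (nat_lit 517) (nat_lit 352) (nat_lit 331)) (XT.lf (nat_lit 0) (nat_lit 8477876503) (nat_lit 152) (nat_lit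 150633292553) (nat_lit 0) (nat_lit 7811573064) (nat_lit 2) (nat_lit 5) (nat_lit 4) (nat_lit 4) (nat_lit 2) (nat_lit 4) (nat_lit 518) (nat_lit 352) (nat_lit 330)))) (XT.nd (nat_lit 156) (nat_lit 0) (nat_lit 0) (XT.nd (nat_lit 78) (nat_lit 0) (nat_lit 0) (XT.lf (nat_lit 0) (nat_lit 15440284159) (nat_lit 152) (nat_lit 144741620930) (nat_lit 0) (nat_lit 14757500493) (nat_lit 2) (nat_lit 5) (nat_lit 4) (nat_lit 4) (nat_lit 2) (nat_lit 4) (nat_lit 519) (nat_lit 352) (nat_lit 329)) (XT.lf (nat_lit 0) (nat_lit 22625219710) (nat_lit 152) (nat_lit 138811221866) (nat_lit 0) (nat_lit 21926740588) (nat_lit 2) (nat_lit 5) (nat_lit 4) (nat_lit 4) (nat_lit 2) (nat_lit 4) (nat_lit 520) (nat_lit 352) (nat_lit 328))) (XT.nd (nat_lit 78) (nat_lit 0) (nat_lit 0) (XT.lf (nat_lit 0) (nat_lit 30049790144) (nat_lit 152) (nat_lit 132827975363) (nat_lit 0) (nat_lit 29336362971) (nat_lit 2) (nat_lit 5) (nat_lit 4) (nat_lit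 4) (nat_lit 2) (nat_lit 4) (nat_lit 521) (nat_lit 352) (nat_lit 327)) (XT.lf (nat_lit 0) (nat_lit 37731673012) (nat_lit 152) (nat_lit 126777635597) (nat_lit 0) (nat_lit 37004009598) (nat_lit 2) (nat_lit 5) (nat_lit 4) (nat_lit 4) (nat_lit 2) (nat_lit 4) (nat_lit 522) (nat_lit 352) (nat_lit 326))))))) (XT.nd (nat_lit 1170) (nat_lit 76) (nat_lit 0) (XT.nd (nat_lit 546) (nat_lit 0) (nat_lit 0) (XT.nd (nat_lit 234) (nat_lit 0) (nat_lit 0) (XT.nd (nat_lit 78) (nat_lit 0) (nat_lit 0) (XT.lf (nat_lit 0) (nat_lit 45689158510) (nat_lit 152) (nat_lit 120645796996) (nat_lit 0) (nat_lit 44947936771) (nat_lit 2) (nat_lit 5) (nat_lit 4) (nat_lit 4) (nat_lit 2) (nat_lit 4) (nat_lit 523) (nat_lit 352) (nat_lit 325)) (XT.nd (nat_lit 78) (nat_lit 0) (nat_lit 0) (XT.lf (nat_lit 0) (nat_lit 53941193031) (nat_lit 152) (nat_lit 114417859945) (nat_lit 0) (nat_lit 53187058603) (nat_lit 2) (nat_lit 5) (nat_lit 4) (nat_lit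 4) (nat_lit 2) (nat_lit 4) (nat_lit 524) (nat_lit 352) (nat_lit 324)) (XT.lf (nat_lit 0) (nat_lit 62507424278) (nat_lit 152) (nat_lit 108078996022) (nat_lit 0) (nat_lit 61740992050) (nat_lit 2) (nat_lit 5) (nat_lit 4) (nat_lit 4) (nat_lit 2) (nat_lit 4) (nat_lit 525) (nat_lit 352) (nat_lit 323)))) (XT.nd (nat_lit 156) (nat_lit 0) (nat_lit 0) (XT.nd (nat_lit 78) (nat_lit 0) (nat_lit 0) (XT.lf (nat_lit 0) (nat_lit 71408248039) (nat_lit 152) (nat_lit 101614112694) (nat_lit 0) (nat_lit 70630103621) (nat_lit 2) (nat_lit 5) (nat_lit 4) (nat_lit 4) (nat_lit 2) (nat_lit 4) (nat_lit 526) (nat_lit 352) (nat_lit 322)) (XT.lf (nat_lit 0) (nat_lit 80664856751) (nat_lit 152) (nat_lit 95007817382) (nat_lit 0) (nat_lit 79875557867) (nat_lit 2) (nat_lit 5) (nat_lit 4) (nat_lit 4) (nat_lit 2) (nat_lit 4) (nat_lit 527) (nat_lit 352) (nat_lit 321))) (XT.nd (nat_lit 78) (nat_lit 0) (nat_lit 0) (XT.lf (nat_lit 0)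 (nat_lit 90299289960) (nat_lit 152) (nat_lit 88244380811) (nat_lit 0) (nat_lit 89499367773) (nat_lit 2) (nat_lit 5) (nat_lit 4) (nat_lit 4) (nat_lit 2) (nat_lit 4) (nat_lit 528) (nat_lit 352) (nat_lit 320)) (XT.lf (nat_lit 0) (nat_lit 100334486791) (nat_lit 152) (nat_lit 81307699561) (nat_lit 0) (nat_lit 99524447174) (nat_lit 2) (nat_lit 5) (nat_lit 4) (nat_lit 4) (nat_lit 2) (nat_lit 4) (nat_lit 529) (nat_lit 352) (nat_lit 319))))) (XT.nd (nat_lit 312) (nat_lit 0) (nat_lit 0) (XT.nd (nat_lit 156) (nat_lit 0) (nat_lit 0) (XT.nd (nat_lit 78) (nat_lit 0) (nat_lit 0) (XT.lf (nat_lit 0) (nat_lit 110794340570) (nat_lit 152) (nat_lit 74181257724) (nat_lit 0) (nat_lit 109974665306) (nat_lit 2) (nat_lit 5) (nat_lit 4) (nat_lit 4) (nat_lit 2) (nat_lit 4) (nat_lit 530) (nat_lit 352) (nat_lit 318)) (XT.lf (nat_lit 0) (nat_lit 121703755712) (nat_lit 152) (nat_lit 66848087582) (nat_lit 0) (nat_lit 120874903640)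 (nat_lit 2) (nat_lit 5) (nat_lit 4) (nat_lit 4) (nat_lit 2) (nat_lit 4) (nat_lit 531) (nat_lit 352) (nat_lit 317))) (XT.nd (nat_lit 78) (nat_lit 0) (nat_lit 0) (XT.lf (nat_lit 0) (nat_lit 133088707014) (nat_lit 152) (nat_lit 59290729204) (nat_lit 0) (nat_lit 132251115126) (nat_lit 2) (nat_lit 5) (nat_lit 4) (nat_lit 4) (nat_lit 2) (nat_lit 4) (nat_lit 532) (nat_lit 352) (nat_lit 316)) (XT.lf (nat_lit 0) (nat_lit 144976301504) (nat_lit 152) (nat_lit 51491188882) (nat_lit 0) (nat_lit 144130385980) (nat_lit 2) (nat_lit 5) (nat_lit 4) (nat_lit 4) (nat_lit 2) (nat_lit 4) (nat_lit 533) (nat_lit 352) (nat_lit 315)))) (XT.nd (nat_lit 156) (nat_lit 0) (nat_lit 0) (XT.nd (nat_lit 78) (nat_lit 0) (nat_lit 0) (XT.lf (nat_lit 0) (nat_lit 157394842977) (nat_lit 152) (nat_lit 43430896281) (nat_lit 0) (nat_lit 156541000182) (nat_lit 2) (nat_lit 5) (nat_lit 4) (nat_lit 4) (nat_lit 2) (nat_lit 4) (nat_lit 534)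 (nat_lit 352) (nat_lit 314)) (XT.lf (nat_lit 0) (nat_lit 170373899389) (nat_lit 152) (nat_lit 35090660228) (nat_lit 0) (nat_lit 169512506812) (nat_lit 2) (nat_lit 5) (nat_lit 4) (nat_lit 4) (nat_lit 2) (nat_lit 4) (nat_lit 535) (nat_lit 352) (nat_lit 313))) (XT.nd (nat_lit 78) (nat_lit 0) (nat_lit 0) (XT.lf (nat_lit 0) (nat_lit 183944373256) (nat_lit 152) (nat_lit 26450623018) (nat_lit 0) (nat_lit 183075790410) (nat_lit 2) (nat_lit 5) (nat_lit 4) (nat_lit 4) (nat_lit 2) (nat_lit 4) (nat_lit 536) (nat_lit 352) (nat_lit 312)) (XT.lf (nat_lit 0) (nat_lit 198138575230) (nat_lit 152) (nat_lit 17490213134) (nat_lit 0) (nat_lit 197263144509) (nat_lit 2) (nat_lit 5) (nat_lit 4) (nat_lit 4) (nat_lit 2) (nat_lit 4) (nat_lit 537) (nat_lit 352) (nat_lit 311)))))) (XT.nd (nat_lit 624) (nat_lit 0) (nat_lit 0) (XT.nd (nat_lit 312) (nat_lit 0) (nat_lit 0) (XT.nd (nat_lit 156) (nat_lit 0) (nat_lit 0) (XT.nd (nat_lit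 78) (nat_lit 76) (nat_lit 0) (XT.lf (nat_lit 0) (nat_lit 212990301029) (nat_lit 152) (nat_lit 8188096267) (nat_lit 0) (nat_lit 212108348523) (nat_lit 2) (nat_lit 5) (nat_lit 4) (nat_lit 4) (nat_lit 2) (nat_lit 4) (nat_lit 538) (nat_lit 352) (nat_lit 310)) (XT.lf (nat_lit 0) (nat_lit 1526740718) (nat_lit 76) (nat_lit 227032007889) (nat_lit 76) (nat_lit 226143844158) (nat_lit 1) (nat_lit 4) (nat_lit 2) (nat_lit 5) (nat_lit 2) (nat_lit 4) (nat_lit 539) (nat_lit 352) (nat_lit 309))) (XT.nd (nat_lit 78) (nat_lit 0) (nat_lit 0) (XT.lf (nat_lit 0) (nat_lit 11911973883) (nat_lit 76) (nat_lit 233083424252) (nat_lit 76) (nat_lit 232189345069) (nat_lit 1) (nat_lit 4) (nat_lit 2) (nat_lit 5) (nat_lit 2) (nat_lit 4) (nat_lit 540) (nat_lit 352) (nat_lit 308)) (XT.lf (nat_lit 0) (nat_lit 22721594532) (nat_lit 76) (nat_lit 239485723890) (nat_lit 76) (nat_lit 238586010943) (nat_lit 1) (nat_lit 4) (nat_lit 2)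 (nat_lit 5) (nat_lit 2) (nat_lit 4) (nat_lit 541) (nat_lit 352) (nat_lit 307)))) (XT.nd (nat_lit 156) (nat_lit 0) (nat_lit 0) (XT.nd (nat_lit 78) (nat_lit 0) (nat_lit 0) (XT.lf (nat_lit 0) (nat_lit 33981339857) (nat_lit 76) (nat_lit 246254150375) (nat_lit 76) (nat_lit 245349071939) (nat_lit 1) (nat_lit 4) (nat_lit 2) (nat_lit 5) (nat_lit 2) (nat_lit 4) (nat_lit 542) (nat_lit 352) (nat_lit 306)) (XT.lf (nat_lit 0) (nat_lit 45718018776) (nat_lit 76) (nat_lit 253404819007) (nat_lit 76) (nat_lit 252494630581) (nat_lit 1) (nat_lit 4) (nat_lit 2) (nat_lit 5) (nat_lit 2) (nat_lit 4) (nat_lit 543) (nat_lit 352) (nat_lit 305))) (XT.nd (nat_lit 78) (nat_lit 0) (nat_lit 0) (XT.lf (nat_lit 0) (nat_lit 57959575763) (nat_lit 76) (nat_lit 260954755188) (nat_lit 76) (nat_lit 260039700105) (nat_lit 1) (nat_lit 4) (nat_lit 2) (nat_lit 5) (nat_lit 2) (nat_lit 4) (nat_lit 544) (nat_lit 352) (nat_lit 304)) (XT.lf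 (nat_lit 0) (nat_lit 70735157380) (nat_lit 76) (nat_lit 268921934956) (nat_lit 76) (nat_lit 268002244962) (nat_lit 1) (nat_lit 4) (nat_lit 2) (nat_lit 5) (nat_lit 2) (nat_lit 4) (nat_lit 545) (nat_lit 352) (nat_lit 303))))) (XT.nd (nat_lit 312) (nat_lit 0) (nat_lit 0) (XT.nd (nat_lit 156) (nat_lit 0) (nat_lit 0) (XT.nd (nat_lit 78) (nat_lit 0) (nat_lit 0) (XT.lf (nat_lit 0) (nat_lit 84075181681) (nat_lit 76) (nat_lit 277325327788) (nat_lit 76) (nat_lit 276401223593) (nat_lit 1) (nat_lit 4) (nat_lit 2) (nat_lit 5) (nat_lit 2) (nat_lit 4) (nat_lit 546) (nat_lit 352) (nat_lit 302)) (XT.lf (nat_lit 0) (nat_lit 98011410627) (nat_lit 76) (nat_lit 286184941761) (nat_lit 76) (nat_lit 285256633565) (nat_lit 1) (nat_lit 4) (nat_lit 2) (nat_lit 5) (nat_lit 2) (nat_lit 4) (nat_lit 547) (nat_lit 352) (nat_lit 301))) (XT.nd (nat_lit 78) (nat_lit 0) (nat_lit 0) (XT.lf (nat_lit 0) (nat_lit 112577025717) (nat_lit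 76) (nat_lit 295521871195) (nat_lit 76) (nat_lit 294589559187) (nat_lit 1) (nat_lit 4) (nat_lit 2) (nat_lit 5) (nat_lit 2) (nat_lit 4) (nat_lit 548) (nat_lit 352) (nat_lit 300)) (XT.lf (nat_lit 0) (nat_lit 127806706985) (nat_lit 76) (nat_lit 305358346873) (nat_lit 76) (nat_lit 304422221713) (nat_lit 1) (nat_lit 4) (nat_lit 2) (nat_lit 5) (nat_lit 2) (nat_lit 4) (nat_lit 549) (nat_lit 352) (nat_lit 299)))) (XT.nd (nat_lit 156) (nat_lit 0) (nat_lit 0) (XT.nd (nat_lit 78) (nat_lit 0) (nat_lit 0) (XT.lf (nat_lit 0) (nat_lit 143736715578) (nat_lit 76) (nat_lit 315717788976) (nat_lit 76) (nat_lit 314778032241) (nat_lit 1) (nat_lit 4) (nat_lit 2) (nat_lit 5) (nat_lit 2) (nat_lit 4) (nat_lit 550) (nat_lit 352) (nat_lit 298)) (XT.lf (nat_lit 0) (nat_lit 160404980089) (nat_lit 76) (nat_lit 326624862842) (nat_lit 76) (nat_lit 325681647465) (nat_lit 1) (nat_lit 4) (nat_lit 2) (nat_lit 5) (nat_lit 2) (nat_lit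 4) (nat_lit 551) (nat_lit 352) (nat_lit 297))) (XT.nd (nat_lit 78) (nat_lit 0) (nat_lit 0) (XT.lf (nat_lit 0) (nat_lit 177851186859) (nat_lit 76) (nat_lit 338105537695) (nat_lit 76) (nat_lit 337159028373) (nat_lit 1) (nat_lit 4) (nat_lit 2) (nat_lit 5) (nat_lit 2) (nat_lit 4) (nat_lit 552) (nat_lit 352) (nat_lit 296)) (XT.lf (nat_lit 0) (nat_lit 196116874479) (nat_lit 76) (nat_lit 350187148475) (nat_lit 76) (nat_lit 349237502062) (nat_lit 1) (nat_lit 4) (nat_lit 2) (nat_lit 5) (nat_lit 2) (nat_lit 4) (nat_lit 553) (nat_lit 352) (nat_lit 295))))))))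
noncomputable def xc14 : XT := (XT.nd (nat_lit 2418) (nat_lit 76) (nat_lit 0) (XT.nd (nat_lit 1170) (nat_lit 228) (nat_lit 0) (XT.nd (nat_lit 546) (nat_lit 152) (nat_lit 0) (XT.nd (nat_lit 234) (nat_lit 76) (nat_lit 0) (XT.nd (nat_lit 78) (nat_lit 152) (nat_lit 0) (XT.lf (nat_lit 0) (nat_lit 22211230036) (nat_lit 76) (nat_lit 3284870729) (nat_lit 76) (nat_lit 3284870729) (nat_lit 10) (nat_lit 4) (nat_lit 11) (nat_lit 5) (nat_lit 11) (nat_lit 4) (nat_lit 494) (nat_lit 353) (nat_lit 353)) (XT.nd (nat_lit 78) (nat_lit 0) (nat_lit 0) (XT.lf (nat_lit 0) (nat_lit 3022726471) (nat_lit 152) (nat_lit 53967806975) (nat_lit 0) (nat_lit 2966918571) (nat_lit 8) (nat_lit 5) (nat_lit 10) (nat_lit 4) (nat_lit 8) (nat_lit 4) (nat_lit 495) (nat_lit 353) (nat_lit 352)) (XT.lf (nat_lit 0) (nat_lit 12890086154) (nat_lit 152) (nat_lit 36795335796) (nat_lit 0) (nat_lit 12781127871) (nat_lit 8) (nat_lit 5) (nat_lit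 10) (nat_lit 4) (nat_lit 8) (nat_lit 4) (nat_lit 496) (nat_lit 353) (nat_lit 351)))) (XT.nd (nat_lit 156) (nat_lit 76) (nat_lit 0) (XT.nd (nat_lit 78) (nat_lit 0) (nat_lit 0) (XT.lf (nat_lit 0) (nat_lit 22948130623) (nat_lit 152) (nat_lit 19379554168) (nat_lit 0) (nat_lit 22788552929) (nat_lit 8) (nat_lit 5) (nat_lit 10) (nat_lit 4) (nat_lit 8) (nat_lit 4) (nat_lit 497) (nat_lit 353) (nat_lit 350)) (XT.lf (nat_lit 0) (nat_lit 33220807603) (nat_lit 152) (nat_lit 1678995944) (nat_lit 0) (nat_lit 33013020946) (nat_lit 8) (nat_lit 5) (nat_lit 10) (nat_lit 4) (nat_lit 8) (nat_lit 4) (nat_lit 498) (nat_lit 353) (nat_lit 349))) (XT.nd (nat_lit 78) (nat_lit 0) (nat_lit 0) (XT.lf (nat_lit 0) (nat_lit 16889037743) (nat_lit 76) (nat_lit 27107223316) (nat_lit 76) (nat_lit 26853523362) (nat_lit 7) (nat_lit 4) (nat_lit 8) (nat_lit 5) (nat_lit 8) (nat_lit 4) (nat_lit 499) (nat_lit 353) (nat_lit 348)) (XT.lf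 (nat_lit 0) (nat_lit 35894658663) (nat_lit 76) (nat_lit 19174220934) (nat_lit 76) (nat_lit 18876794029) (nat_lit 7) (nat_lit 4) (nat_lit 8) (nat_lit 5) (nat_lit 8) (nat_lit 4) (nat_lit 500) (nat_lit 353) (nat_lit 347))))) (XT.nd (nat_lit 312) (nat_lit 0) (nat_lit 0) (XT.nd (nat_lit 156) (nat_lit 152) (nat_lit 0) (XT.nd (nat_lit 78) (nat_lit 0) (nat_lit 0) (XT.lf (nat_lit 0) (nat_lit 55327603104) (nat_lit 76) (nat_lit 11110342909) (nat_lit 76) (nat_lit 10771271290) (nat_lit 7) (nat_lit 4) (nat_lit 8) (nat_lit 5) (nat_lit 8) (nat_lit 4) (nat_lit 501) (nat_lit 353) (nat_lit 346)) (XT.lf (nat_lit 0) (nat_lit 75234139982) (nat_lit 76) (nat_lit 2896389532) (nat_lit 76) (nat_lit 2517656280) (nat_lit 7) (nat_lit 4) (nat_lit 8) (nat_lit 5) (nat_lit 8) (nat_lit 4) (nat_lit 502) (nat_lit 353) (nat_lit 345))) (XT.nd (nat_lit 78) (nat_lit 0) (nat_lit 0) (XT.lf (nat_lit 0) (nat_lit 5987153672) (nat_lit 152)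 (nat_lit 72674903387) (nat_lit 0) (nat_lit 5590481065) (nat_lit 5) (nat_lit 5) (nat_lit 7) (nat_lit 4) (nat_lit 5) (nat_lit 4) (nat_lit 503) (nat_lit 353) (nat_lit 344)) (XT.lf (nat_lit 0) (nat_lit 14736289266) (nat_lit 152) (nat_lit 58998215663) (nat_lit 0) (nat_lit 14305355450) (nat_lit 5) (nat_lit 5) (nat_lit 7) (nat_lit 4) (nat_lit 5) (nat_lit 4) (nat_lit 504) (nat_lit 353) (nat_lit 343)))) (XT.nd (nat_lit 156) (nat_lit 0) (nat_lit 0) (XT.nd (nat_lit 78) (nat_lit 0) (nat_lit 0) (XT.lf (nat_lit 0) (nat_lit 23697186894) (nat_lit 152) (nat_lit 45097023908) (nat_lit 0) (nat_lit 23233623354) (nat_lit 5) (nat_lit 5) (nat_lit 7) (nat_lit 4) (nat_lit 5) (nat_lit 4) (nat_lit 505) (nat_lit 353) (nat_lit 342)) (XT.lf (nat_lit 0) (nat_lit 32891182028) (nat_lit 152) (nat_lit 30938230045) (nat_lit 0) (nat_lit 32396542560) (nat_lit 5) (nat_lit 5) (nat_lit 7) (nat_lit 4) (nat_lit 5) (nat_lit 4) (nat_lit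 506) (nat_lit 353) (nat_lit 341))) (XT.nd (nat_lit 78) (nat_lit 0) (nat_lit 0) (XT.lf (nat_lit 0) (nat_lit 42340165130) (nat_lit 152) (nat_lit 16488122661) (nat_lit 0) (nat_lit 41815929542) (nat_lit 5) (nat_lit 5) (nat_lit 7) (nat_lit 4) (nat_lit 5) (nat_lit 4) (nat_lit 507) (nat_lit 353) (nat_lit 340)) (XT.lf (nat_lit 0) (nat_lit 52066633781) (nat_lit 152) (nat_lit 1712296738) (nat_lit 0) (nat_lit 51514211410) (nat_lit 5) (nat_lit 5) (nat_lit 7) (nat_lit 4) (nat_lit 5) (nat_lit 4) (nat_lit 508) (nat_lit 353) (nat_lit 339)))))) (XT.nd (nat_lit 624) (nat_lit 152) (nat_lit 0) (XT.nd (nat_lit 312) (nat_lit 0) (nat_lit 0) (XT.nd (nat_lit 156) (nat_lit 0) (nat_lit 0) (XT.nd (nat_lit 78) (nat_lit 0) (nat_lit 0) (XT.lf (nat_lit 0) (nat_lit 13868300485) (nat_lit 76) (nat_lit 48441968789) (nat_lit 76) (nat_lit 47862701864) (nat_lit 4) (nat_lit 4) (nat_lit 5) (nat_lit 5) (nat_lit 5) (nat_lit 4) (nat_lit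 509) (nat_lit 353) (nat_lit 338)) (XT.lf (nat_lit 0) (nat_lit 29915577464) (nat_lit 76) (nat_lit 42996865119) (nat_lit 76) (nat_lit 42392031952) (nat_lit 4) (nat_lit 4) (nat_lit 5) (nat_lit 5) (nat_lit 5) (nat_lit 4) (nat_lit 510) (nat_lit 353) (nat_lit 337))) (XT.nd (nat_lit 78) (nat_lit 0) (nat_lit 0) (XT.lf (nat_lit 0) (nat_lit 46411125736) (nat_lit 76) (nat_lit 37459653550) (nat_lit 76) (nat_lit 36830471580) (nat_lit 4) (nat_lit 4) (nat_lit 5) (nat_lit 5) (nat_lit 5) (nat_lit 4) (nat_lit 511) (nat_lit 353) (nat_lit 336)) (XT.lf (nat_lit 0) (nat_lit 63394220415) (nat_lit 76) (nat_lit 31817150245) (nat_lit 76) (nat_lit 31164778939) (nat_lit 4) (nat_lit 4) (nat_lit 5) (nat_lit 5) (nat_lit 5) (nat_lit 4) (nat_lit 512) (nat_lit 353) (nat_lit 335)))) (XT.nd (nat_lit 156) (nat_lit 0) (nat_lit 0) (XT.nd (nat_lit 78) (nat_lit 0) (nat_lit 0) (XT.lf (nat_lit 0) (nat_lit 80905297443) (nat_lit 76) (nat_lit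 26055920672) (nat_lit 76) (nat_lit 25381464285) (nat_lit 4) (nat_lit 4) (nat_lit 5) (nat_lit 5) (nat_lit 5) (nat_lit 4) (nat_lit 513) (nat_lit 353) (nat_lit 334)) (XT.lf (nat_lit 0) (nat_lit 98986049859) (nat_lit 76) (nat_lit 20162247618) (nat_lit 76) (nat_lit 19466757821) (nat_lit 4) (nat_lit 4) (nat_lit 5) (nat_lit 5) (nat_lit 5) (nat_lit 4) (nat_lit 514) (nat_lit 353) (nat_lit 333))) (XT.nd (nat_lit 78) (nat_lit 0) (nat_lit 0) (XT.lf (nat_lit 0) (nat_lit 117679527073) (nat_lit 76) (nat_lit 14122098528) (nat_lit 76) (nat_lit 13406576911) (nat_lit 4) (nat_lit 4) (nat_lit 5) (nat_lit 5) (nat_lit 5) (nat_lit 4) (nat_lit 515) (nat_lit 353) (nat_lit 332)) (XT.lf (nat_lit 0) (nat_lit 137030237366) (nat_lit 76) (nat_lit 7921092096) (nat_lit 76) (nat_lit 7186492555) (nat_lit 4) (nat_lit 4) (nat_lit 5) (nat_lit 5) (nat_lit 5) (nat_lit 4) (nat_lit 516) (nat_lit 353) (nat_lit 331))))) (XT.nd (nat_lit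 312) (nat_lit 0) (nat_lit 0) (XT.nd (nat_lit 156) (nat_lit 0) (nat_lit 0) (XT.nd (nat_lit 78) (nat_lit 152) (nat_lit 0) (XT.lf (nat_lit 0) (nat_lit 157084253857) (nat_lit 76) (nat_lit 1544464019) (nat_lit 76) (nat_lit 791695027) (nat_lit 4) (nat_lit 4) (nat_lit 5) (nat_lit 5) (nat_lit 5) (nat_lit 4) (nat_lit 517) (nat_lit 353) (nat_lit 330)) (XT.lf (nat_lit 0) (nat_lit 5863362119) (nat_lit 152) (nat_lit 156062684518) (nat_lit 0) (nat_lit 5129959042) (nat_lit 2) (nat_lit 5) (nat_lit 4) (nat_lit 4) (nat_lit 2) (nat_lit 4) (nat_lit 518) (nat_lit 353) (nat_lit 329))) (XT.nd (nat_lit 78) (nat_lit 0) (nat_lit 0) (XT.lf (nat_lit 0) (nat_lit 12764505147) (nat_lit 152) (nat_lit 150295820768) (nat_lit 0) (nat_lit 12015406615) (nat_lit 2) (nat_lit 5) (nat_lit 4) (nat_lit 4) (nat_lit 2) (nat_lit 4) (nat_lit 519) (nat_lit 353) (nat_lit 328)) (XT.lf (nat_lit 0) (nat_lit 19891093433) (nat_lit 152) (nat_lit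 144484286345) (nat_lit 0) (nat_lit 19127046848) (nat_lit 2) (nat_lit 5) (nat_lit 4) (nat_lit 4) (nat_lit 2) (nat_lit 4) (nat_lit 520) (nat_lit 353) (nat_lit 327)))) (XT.nd (nat_lit 156) (nat_lit 0) (nat_lit 0) (XT.nd (nat_lit 78) (nat_lit 0) (nat_lit 0) (XT.lf (nat_lit 0) (nat_lit 27260095043) (nat_lit 152) (nat_lit 138614244263) (nat_lit 0) (nat_lit 26481812218) (nat_lit 2) (nat_lit 5) (nat_lit 4) (nat_lit 4) (nat_lit 2) (nat_lit 4) (nat_lit 521) (nat_lit 353) (nat_lit 326)) (XT.lf (nat_lit 0) (nat_lit 34889055222) (nat_lit 152) (nat_lit 132671718230) (nat_lit 0) (nat_lit 34097214072) (nat_lit 2) (nat_lit 5) (nat_lit 4) (nat_lit 4) (nat_lit 2) (nat_lit 4) (nat_lit 522) (nat_lit 353) (nat_lit 325))) (XT.nd (nat_lit 78) (nat_lit 0) (nat_lit 0) (XT.lf (nat_lit 0) (nat_lit 42796138158) (nat_lit 152) (nat_lit 126642559375) (nat_lit 0) (nat_lit 41991384319) (nat_lit 2) (nat_lit 5) (nat_lit 4) (nat_lit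 4) (nat_lit 2) (nat_lit 4) (nat_lit 523) (nat_lit 353) (nat_lit 324)) (XT.lf (nat_lit 0) (nat_lit 51000170240) (nat_lit 152) (nat_lit 120512412559) (nat_lit 0) (nat_lit 50183118601) (nat_lit 2) (nat_lit 5) (nat_lit 4) (nat_lit 4) (nat_lit 2) (nat_lit 4) (nat_lit 524) (nat_lit 353) (nat_lit 323))))))) (XT.nd (nat_lit 1170) (nat_lit 76) (nat_lit 0) (XT.nd (nat_lit 546) (nat_lit 0) (nat_lit 0) (XT.nd (nat_lit 234) (nat_lit 0) (nat_lit 0) (XT.nd (nat_lit 78) (nat_lit 0) (nat_lit 0) (XT.lf (nat_lit 0) (nat_lit 59520684878) (nat_lit 152) (nat_lit 114266682193) (nat_lit 0) (nat_lit 58691921049) (nat_lit 2) (nat_lit 5) (nat_lit 4) (nat_lit 4) (nat_lit 2) (nat_lit 4) (nat_lit 525) (nat_lit 353) (nat_lit 322)) (XT.nd (nat_lit 78) (nat_lit 0) (nat_lit 0) (XT.lf (nat_lit 0) (nat_lit 68377969011) (nat_lit 152) (nat_lit 107890497490) (nat_lit 0) (nat_lit 67538050715) (nat_lit 2) (nat_lit 5) (nat_lit 4) (nat_lit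 4) (nat_lit 2) (nat_lit 4) (nat_lit 526) (nat_lit 353) (nat_lit 321)) (XT.lf (nat_lit 0) (nat_lit 77593111411) (nat_lit 152) (nat_lit 101368677060) (nat_lit 0) (nat_lit 76742569814) (nat_lit 2) (nat_lit 5) (nat_lit 4) (nat_lit 4) (nat_lit 2) (nat_lit 4) (nat_lit 527) (nat_lit 353) (nat_lit 320)))) (XT.nd (nat_lit 156) (nat_lit 0) (nat_lit 0) (XT.nd (nat_lit 78) (nat_lit 0) (nat_lit 0) (XT.lf (nat_lit 0) (nat_lit 87188052894) (nat_lit 152) (nat_lit 94685692757) (nat_lit 0) (nat_lit 86327393866) (nat_lit 2) (nat_lit 5) (nat_lit 4) (nat_lit 4) (nat_lit 2) (nat_lit 4) (nat_lit 528) (nat_lit 353) (nat_lit 319)) (XT.lf (nat_lit 0) (nat_lit 97185638558) (nat_lit 152) (nat_lit 87825632714) (nat_lit 0) (nat_lit 96315343882) (nat_lit 2) (nat_lit 5) (nat_lit 4) (nat_lit 4) (nat_lit 2) (nat_lit 4) (nat_lit 529) (nat_lit 353) (nat_lit 318))) (XT.nd (nat_lit 78) (nat_lit 0) (nat_lit 0) (XT.lf (nat_lit 0) (nat_lit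 107609672178) (nat_lit 152) (nat_lit 80772163456) (nat_lit 0) (nat_lit 106730200695) (nat_lit 2) (nat_lit 5) (nat_lit 4) (nat_lit 4) (nat_lit 2) (nat_lit 4) (nat_lit 530) (nat_lit 353) (nat_lit 317)) (XT.lf (nat_lit 0) (nat_lit 118484972883) (nat_lit 152) (nat_lit 73508491007) (nat_lit 0) (nat_lit 117596761583) (nat_lit 2) (nat_lit 5) (nat_lit 4) (nat_lit 4) (nat_lit 2) (nat_lit 4) (nat_lit 531) (nat_lit 353) (nat_lit 316))))) (XT.nd (nat_lit 312) (nat_lit 0) (nat_lit 0) (XT.nd (nat_lit 156) (nat_lit 0) (nat_lit 0) (XT.nd (nat_lit 78) (nat_lit 0) (nat_lit 0) (XT.lf (nat_lit 0) (nat_lit 129837434244) (nat_lit 152) (nat_lit 66017320910) (nat_lit 0) (nat_lit 128940899310) (nat_lit 2) (nat_lit 5) (nat_lit 4) (nat_lit 4) (nat_lit 2) (nat_lit 4) (nat_lit 532) (nat_lit 353) (nat_lit 315)) (XT.lf (nat_lit 0) (nat_lit 141694085933) (nat_lit 152) (nat_lit 58280817045) (nat_lit 0) (nat_lit 140789623727)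 (nat_lit 2) (nat_lit 5) (nat_lit 4) (nat_lit 4) (nat_lit 2) (nat_lit 4) (nat_lit 533) (nat_lit 353) (nat_lit 314))) (XT.nd (nat_lit 78) (nat_lit 0) (nat_lit 0) (XT.lf (nat_lit 0) (nat_lit 154083158072) (nat_lit 152) (nat_lit 50280559165) (nat_lit 0) (nat_lit 153171146084) (nat_lit 2) (nat_lit 5) (nat_lit 4) (nat_lit 4) (nat_lit 2) (nat_lit 4) (nat_lit 534) (nat_lit 353) (nat_lit 313)) (XT.lf (nat_lit 0) (nat_lit 167034148452) (nat_lit 152) (nat_lit 41997499036) (nat_lit 0) (nat_lit 166114946196) (nat_lit 2) (nat_lit 5) (nat_lit 4) (nat_lit 4) (nat_lit 2) (nat_lit 4) (nat_lit 535) (nat_lit 353) (nat_lit 312)))) (XT.nd (nat_lit 156) (nat_lit 0) (nat_lit 0) (XT.nd (nat_lit 78) (nat_lit 0) (nat_lit 0) (XT.lf (nat_lit 0) (nat_lit 180577892765) (nat_lit 152) (nat_lit 33411915088) (nat_lit 0) (nat_lit 179651842633) (nat_lit 2) (nat_lit 5) (nat_lit 4) (nat_lit 4) (nat_lit 2) (nat_lit 4) (nat_lit 536)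 (nat_lit 353) (nat_lit 311)) (XT.lf (nat_lit 0) (nat_lit 194746638020) (nat_lit 152) (nat_lit 24503365453) (nat_lit 0) (nat_lit 193814066103) (nat_lit 2) (nat_lit 5) (nat_lit 4) (nat_lit 4) (nat_lit 2) (nat_lit 4) (nat_lit 537) (nat_lit 353) (nat_lit 310))) (XT.nd (nat_lit 78) (nat_lit 0) (nat_lit 0) (XT.lf (nat_lit 0) (nat_lit 209574119326) (nat_lit 152) (nat_lit 15250639300) (nat_lit 0) (nat_lit 208635336184) (nat_lit 2) (nat_lit 5) (nat_lit 4) (nat_lit 4) (nat_lit 2) (nat_lit 4) (nat_lit 538) (nat_lit 353) (nat_lit 309)) (XT.lf (nat_lit 0) (nat_lit 225095640209) (nat_lit 152) (nat_lit 5631706327) (nat_lit 0) (nat_lit 224150941615) (nat_lit 2) (nat_lit 5) (nat_lit 4) (nat_lit 4) (nat_lit 2) (nat_lit 4) (nat_lit 539) (nat_lit 353) (nat_lit 308)))))) (XT.nd (nat_lit 624) (nat_lit 0) (nat_lit 0) (XT.nd (nat_lit 312) (nat_lit 0) (nat_lit 0) (XT.nd (nat_lit 156) (nat_lit 0) (nat_lit 0) (XT.nd (nat_lit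 78) (nat_lit 0) (nat_lit 0) (XT.lf (nat_lit 0) (nat_lit 4521037108) (nat_lit 76) (nat_lit 236897705623) (nat_lit 76) (nat_lit 235947373265) (nat_lit 1) (nat_lit 4) (nat_lit 2) (nat_lit 5) (nat_lit 2) (nat_lit 4) (nat_lit 540) (nat_lit 353) (nat_lit 307)) (XT.lf (nat_lit 0) (nat_lit 15286581486) (nat_lit 76) (nat_lit 243322450073) (nat_lit 76) (nat_lit 242366752226) (nat_lit 1) (nat_lit 4) (nat_lit 2) (nat_lit 5) (nat_lit 2) (nat_lit 4) (nat_lit 541) (nat_lit 353) (nat_lit 306))) (XT.nd (nat_lit 78) (nat_lit 0) (nat_lit 0) (XT.lf (nat_lit 0) (nat_lit 26504349410) (nat_lit 76) (nat_lit 250112252569) (nat_lit 76) (nat_lit 249151444732) (nat_lit 1) (nat_lit 4) (nat_lit 2) (nat_lit 5) (nat_lit 2) (nat_lit 4) (nat_lit 542) (nat_lit 353) (nat_lit 305)) (XT.lf (nat_lit 0) (nat_lit 38201049851) (nat_lit 76) (nat_lit 257283279307) (nat_lit 76) (nat_lit 256317604813) (nat_lit 1) (nat_lit 4) (nat_lit 2)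 (nat_lit 5) (nat_lit 2) (nat_lit 4) (nat_lit 543) (nat_lit 353) (nat_lit 304)))) (XT.nd (nat_lit 156) (nat_lit 0) (nat_lit 0) (XT.nd (nat_lit 78) (nat_lit 0) (nat_lit 0) (XT.lf (nat_lit 0) (nat_lit 50404532097) (nat_lit 76) (nat_lit 264852604161) (nat_lit 76) (nat_lit 263882294755) (nat_lit 1) (nat_lit 4) (nat_lit 2) (nat_lit 5) (nat_lit 2) (nat_lit 4) (nat_lit 544) (nat_lit 353) (nat_lit 303)) (XT.lf (nat_lit 0) (nat_lit 63143852057) (nat_lit 76) (nat_lit 272838249332) (nat_lit 76) (nat_lit 271863525725) (nat_lit 1) (nat_lit 4) (nat_lit 2) (nat_lit 5) (nat_lit 2) (nat_lit 4) (nat_lit 545) (nat_lit 353) (nat_lit 302))) (XT.nd (nat_lit 78) (nat_lit 0) (nat_lit 0) (XT.lf (nat_lit 0) (nat_lit 76449341446) (nat_lit 76) (nat_lit 281259228261) (nat_lit 76) (nat_lit 280280300653) (nat_lit 1) (nat_lit 4) (nat_lit 2) (nat_lit 5) (nat_lit 2) (nat_lit 4) (nat_lit 546) (nat_lit 353) (nat_lit 301)) (XT.lf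 (nat_lit 0) (nat_lit 90352680000) (nat_lit 76) (nat_lit 290135590898) (nat_lit 76) (nat_lit 289152659480) (nat_lit 1) (nat_lit 4) (nat_lit 2) (nat_lit 5) (nat_lit 2) (nat_lit 4) (nat_lit 547) (nat_lit 353) (nat_lit 300))))) (XT.nd (nat_lit 312) (nat_lit 0) (nat_lit 0) (XT.nd (nat_lit 156) (nat_lit 0) (nat_lit 0) (XT.nd (nat_lit 78) (nat_lit 0) (nat_lit 0) (XT.lf (nat_lit 0) (nat_lit 104886970906) (nat_lit 76) (nat_lit 299488471440) (nat_lit 76) (nat_lit 298501726869) (nat_lit 1) (nat_lit 4) (nat_lit 2) (nat_lit 5) (nat_lit 2) (nat_lit 4) (nat_lit 548) (nat_lit 353) (nat_lit 299)) (XT.lf (nat_lit 0) (nat_lit 120086819619) (nat_lit 76) (nat_lit 309340138651) (nat_lit 76) (nat_lit 308349762505) (nat_lit 1) (nat_lit 4) (nat_lit 2) (nat_lit 5) (nat_lit 2) (nat_lit 4) (nat_lit 549) (nat_lit 353) (nat_lit 298))) (XT.nd (nat_lit 78) (nat_lit 0) (nat_lit 0) (XT.lf (nat_lit 0) (nat_lit 135988416255) (nat_lit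 76) (nat_lit 319714048879) (nat_lit 76) (nat_lit 318720214091) (nat_lit 1) (nat_lit 4) (nat_lit 2) (nat_lit 5) (nat_lit 2) (nat_lit 4) (nat_lit 550) (nat_lit 353) (nat_lit 297)) (XT.lf (nat_lit 0) (nat_lit 152629621758) (nat_lit 76) (nat_lit 330634901913) (nat_lit 76) (nat_lit 329637773180) (nat_lit 1) (nat_lit 4) (nat_lit 2) (nat_lit 5) (nat_lit 2) (nat_lit 4) (nat_lit 551) (nat_lit 353) (nat_lit 296)))) (XT.nd (nat_lit 57798) (nat_lit 0) (nat_lit 684) (XT.nd (nat_lit 78) (nat_lit 0) (nat_lit 0) (XT.lf (nat_lit 0) (nat_lit 170050058046) (nat_lit 76) (nat_lit 342128699783) (nat_lit 76) (nat_lit 341128433959) (nat_lit 1) (nat_lit 4) (nat_lit 2) (nat_lit 5) (nat_lit 2) (nat_lit 4) (nat_lit 552) (nat_lit 353) (nat_lit 295)) (XT.lf (nat_lit 0) (nat_lit 188291202348) (nat_lit 76) (nat_lit 354222808674) (nat_lit 76) (nat_lit 353219555145) (nat_lit 1) (nat_lit 4) (nat_lit 2) (nat_lit 5) (nat_lit 2)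 (nat_lit 4) (nat_lit 553) (nat_lit 353) (nat_lit 294))) (XT.nd (nat_lit 78) (nat_lit 0) (nat_lit 0) (XT.lf (nat_lit 0) (nat_lit 1535025653) (nat_lit 76) (nat_lit 12514210798) (nat_lit 76) (nat_lit 12514210798) (nat_lit 10) (nat_lit 4) (nat_lit 11) (nat_lit 5) (nat_lit 11) (nat_lit 4) (nat_lit 492) (nat_lit 354) (nat_lit 354)) (XT.lf (nat_lit 0) (nat_lit 23400708253) (nat_lit 76) (nat_lit 15973621945) (nat_lit 76) (nat_lit 15912093735) (nat_lit 10) (nat_lit 4) (nat_lit 11) (nat_lit 5) (nat_lit 11) (nat_lit 4) (nat_lit 493) (nat_lit 354) (nat_lit 353))))))))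
noncomputable def xc15 : XT := (XT.nd (nat_lit 2418) (nat_lit 76) (nat_lit 0) (XT.nd (nat_lit 1170) (nat_lit 228) (nat_lit 0) (XT.nd (nat_lit 546) (nat_lit 152) (nat_lit 0) (XT.nd (nat_lit 234) (nat_lit 76) (nat_lit 0) (XT.nd (nat_lit 78) (nat_lit 152) (nat_lit 0) (XT.lf (nat_lit 0) (nat_lit 44112519146) (nat_lit 76) (nat_lit 6788590960) (nat_lit 76) (nat_lit 6668464454) (nat_lit 10) (nat_lit 4) (nat_lit 11) (nat_lit 5) (nat_lit 11) (nat_lit 4) (nat_lit 494) (nat_lit 354) (nat_lit 352)) (XT.nd (nat_lit 78) (nat_lit 0) (nat_lit 0) (XT.lf (nat_lit 0) (nat_lit 2763507409) (nat_lit 152) (nat_lit 54613885740) (nat_lit 0) (nat_lit 2595950831) (nat_lit 8) (nat_lit 5) (nat_lit 10) (nat_lit 4) (nat_lit 8) (nat_lit 4) (nat_lit 495) (nat_lit 354) (nat_lit 351)) (XT.lf (nat_lit 0) (nat_lit 12483216752) (nat_lit 152) (nat_lit 37741567298) (nat_lit 0) (nat_lit 12265040762) (nat_lit 8) (nat_lit 5) (nat_lit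 10) (nat_lit 4) (nat_lit 8) (nat_lit 4) (nat_lit 496) (nat_lit 354) (nat_lit 350)))) (XT.nd (nat_lit 156) (nat_lit 76) (nat_lit 0) (XT.nd (nat_lit 78) (nat_lit 0) (nat_lit 0) (XT.lf (nat_lit 0) (nat_lit 22400641849) (nat_lit 152) (nat_lit 20611645419) (nat_lit 0) (nat_lit 22134256897) (nat_lit 8) (nat_lit 5) (nat_lit 10) (nat_lit 4) (nat_lit 8) (nat_lit 4) (nat_lit 497) (nat_lit 354) (nat_lit 349)) (XT.lf (nat_lit 0) (nat_lit 32539395618) (nat_lit 152) (nat_lit 3183334574) (nat_lit 0) (nat_lit 32227097368) (nat_lit 8) (nat_lit 5) (nat_lit 10) (nat_lit 4) (nat_lit 8) (nat_lit 4) (nat_lit 498) (nat_lit 354) (nat_lit 348))) (XT.nd (nat_lit 78) (nat_lit 0) (nat_lit 0) (XT.lf (nat_lit 0) (nat_lit 15067102591) (nat_lit 76) (nat_lit 28091755054) (nat_lit 76) (nat_lit 27735729854) (nat_lit 7) (nat_lit 4) (nat_lit 8) (nat_lit 5) (nat_lit 8) (nat_lit 4) (nat_lit 499) (nat_lit 354) (nat_lit 347)) (XT.lf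 (nat_lit 0) (nat_lit 33817622280) (nat_lit 76) (nat_lit 20288398758) (nat_lit 76) (nat_lit 19890728843) (nat_lit 7) (nat_lit 4) (nat_lit 8) (nat_lit 5) (nat_lit 8) (nat_lit 4) (nat_lit 500) (nat_lit 354) (nat_lit 346))))) (XT.nd (nat_lit 312) (nat_lit 0) (nat_lit 0) (XT.nd (nat_lit 156) (nat_lit 152) (nat_lit 0) (XT.nd (nat_lit 78) (nat_lit 0) (nat_lit 0) (XT.lf (nat_lit 0) (nat_lit 53007613167) (nat_lit 76) (nat_lit 12347993196) (nat_lit 76) (nat_lit 11910661648) (nat_lit 7) (nat_lit 4) (nat_lit 8) (nat_lit 5) (nat_lit 8) (nat_lit 4) (nat_lit 501) (nat_lit 354) (nat_lit 345)) (XT.lf (nat_lit 0) (nat_lit 72682765708) (nat_lit 76) (nat_lit 4251632641) (nat_lit 76) (nat_lit 3776528109) (nat_lit 7) (nat_lit 4) (nat_lit 8) (nat_lit 5) (nat_lit 8) (nat_lit 4) (nat_lit 502) (nat_lit 354) (nat_lit 344))) (XT.nd (nat_lit 78) (nat_lit 0) (nat_lit 0) (XT.lf (nat_lit 0) (nat_lit 4588960369) (nat_lit 152)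 (nat_lit 75634063498) (nat_lit 0) (nat_lit 4102218652) (nat_lit 5) (nat_lit 5) (nat_lit 7) (nat_lit 4) (nat_lit 5) (nat_lit 4) (nat_lit 503) (nat_lit 354) (nat_lit 343)) (XT.lf (nat_lit 0) (nat_lit 13228000965) (nat_lit 152) (nat_lit 62181439362) (nat_lit 0) (nat_lit 12708629525) (nat_lit 5) (nat_lit 5) (nat_lit 7) (nat_lit 4) (nat_lit 5) (nat_lit 4) (nat_lit 504) (nat_lit 354) (nat_lit 342)))) (XT.nd (nat_lit 156) (nat_lit 0) (nat_lit 0) (XT.nd (nat_lit 78) (nat_lit 0) (nat_lit 0) (XT.lf (nat_lit 0) (nat_lit 22084046215) (nat_lit 152) (nat_lit 48493641500) (nat_lit 0) (nat_lit 21533598847) (nat_lit 5) (nat_lit 5) (nat_lit 7) (nat_lit 4) (nat_lit 5) (nat_lit 4) (nat_lit 505) (nat_lit 354) (nat_lit 341)) (XT.lf (nat_lit 0) (nat_lit 31178181940) (nat_lit 152) (nat_lit 34538079916) (nat_lit 0) (nat_lit 30598138451) (nat_lit 5) (nat_lit 5) (nat_lit 7) (nat_lit 4) (nat_lit 5) (nat_lit 4) (nat_lit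 506) (nat_lit 354) (nat_lit 340))) (XT.nd (nat_lit 78) (nat_lit 0) (nat_lit 0) (XT.lf (nat_lit 0) (nat_lit 40532060844) (nat_lit 152) (nat_lit 20281527083) (nat_lit 0) (nat_lit 39923830573) (nat_lit 5) (nat_lit 5) (nat_lit 7) (nat_lit 4) (nat_lit 5) (nat_lit 4) (nat_lit 507) (nat_lit 354) (nat_lit 339)) (XT.lf (nat_lit 0) (nat_lit 50167954068) (nat_lit 152) (nat_lit 5690038828) (nat_lit 0) (nat_lit 49532879242) (nat_lit 5) (nat_lit 5) (nat_lit 7) (nat_lit 4) (nat_lit 5) (nat_lit 4) (nat_lit 508) (nat_lit 354) (nat_lit 338)))))) (XT.nd (nat_lit 624) (nat_lit 152) (nat_lit 0) (XT.nd (nat_lit 312) (nat_lit 0) (nat_lit 0) (XT.nd (nat_lit 156) (nat_lit 0) (nat_lit 0) (XT.nd (nat_lit 78) (nat_lit 0) (nat_lit 0) (XT.lf (nat_lit 0) (nat_lit 9577671798) (nat_lit 76) (nat_lit 50680666714) (nat_lit 76) (nat_lit 50020025645) (nat_lit 4) (nat_lit 4) (nat_lit 5) (nat_lit 5) (nat_lit 5) (nat_lit 4) (nat_lit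 509) (nat_lit 354) (nat_lit 337)) (XT.lf (nat_lit 0) (nat_lit 25452220701) (nat_lit 76) (nat_lit 45323439768) (nat_lit 76) (nat_lit 44638449897) (nat_lit 4) (nat_lit 4) (nat_lit 5) (nat_lit 5) (nat_lit 5) (nat_lit 4) (nat_lit 510) (nat_lit 354) (nat_lit 336))) (XT.nd (nat_lit 78) (nat_lit 0) (nat_lit 0) (XT.lf (nat_lit 0) (nat_lit 41783266043) (nat_lit 76) (nat_lit 39869920317) (nat_lit 76) (nat_lit 39161741111) (nat_lit 4) (nat_lit 4) (nat_lit 5) (nat_lit 5) (nat_lit 5) (nat_lit 4) (nat_lit 511) (nat_lit 354) (nat_lit 335)) (XT.lf (nat_lit 0) (nat_lit 58609691266) (nat_lit 76) (nat_lit 34307123791) (nat_lit 76) (nat_lit 33576859503) (nat_lit 4) (nat_lit 4) (nat_lit 5) (nat_lit 5) (nat_lit 5) (nat_lit 4) (nat_lit 512) (nat_lit 354) (nat_lit 334)))) (XT.nd (nat_lit 156) (nat_lit 0) (nat_lit 0) (XT.nd (nat_lit 78) (nat_lit 0) (nat_lit 0) (XT.lf (nat_lit 0) (nat_lit 75971559287) (nat_lit 76) (nat_lit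 28621805436) (nat_lit 76) (nat_lit 27870507738) (nat_lit 4) (nat_lit 4) (nat_lit 5) (nat_lit 5) (nat_lit 5) (nat_lit 4) (nat_lit 513) (nat_lit 354) (nat_lit 333)) (XT.lf (nat_lit 0) (nat_lit 93910207887) (nat_lit 76) (nat_lit 22800428781) (nat_lit 76) (nat_lit 22029099263) (nat_lit 4) (nat_lit 4) (nat_lit 5) (nat_lit 5) (nat_lit 5) (nat_lit 4) (nat_lit 514) (nat_lit 354) (nat_lit 332))) (XT.nd (nat_lit 78) (nat_lit 0) (nat_lit 0) (XT.lf (nat_lit 0) (nat_lit 112468348135) (nat_lit 76) (nat_lit 16829133404) (nat_lit 76) (nat_lit 16038725963) (nat_lit 4) (nat_lit 4) (nat_lit 5) (nat_lit 5) (nat_lit 5) (nat_lit 4) (nat_lit 515) (nat_lit 354) (nat_lit 331)) (XT.lf (nat_lit 0) (nat_lit 131690166078) (nat_lit 76) (nat_lit 10693701936) (nat_lit 76) (nat_lit 9885125043) (nat_lit 4) (nat_lit 4) (nat_lit 5) (nat_lit 5) (nat_lit 5) (nat_lit 4) (nat_lit 516) (nat_lit 354) (nat_lit 330))))) (XT.nd (nat_lit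 312) (nat_lit 0) (nat_lit 0) (XT.nd (nat_lit 156) (nat_lit 0) (nat_lit 0) (XT.nd (nat_lit 78) (nat_lit 152) (nat_lit 0) (XT.lf (nat_lit 0) (nat_lit 151621427949) (nat_lit 76) (nat_lit 4379526206) (nat_lit 76) (nat_lit 3553645075) (nat_lit 4) (nat_lit 4) (nat_lit 5) (nat_lit 5) (nat_lit 5) (nat_lit 4) (nat_lit 517) (nat_lit 354) (nat_lit 329)) (XT.lf (nat_lit 0) (nat_lit 2992529528) (nat_lit 152) (nat_lit 162019402221) (nat_lit 0) (nat_lit 2190280614) (nat_lit 2) (nat_lit 5) (nat_lit 4) (nat_lit 4) (nat_lit 2) (nat_lit 4) (nat_lit 518) (nat_lit 354) (nat_lit 328))) (XT.nd (nat_lit 78) (nat_lit 0) (nat_lit 0) (XT.lf (nat_lit 0) (nat_lit 9835325291) (nat_lit 152) (nat_lit 156371403113) (nat_lit 0) (nat_lit 9018128325) (nat_lit 2) (nat_lit 5) (nat_lit 4) (nat_lit 4) (nat_lit 2) (nat_lit 4) (nat_lit 519) (nat_lit 354) (nat_lit 327)) (XT.lf (nat_lit 0) (nat_lit 16906344753) (nat_lit 152) (nat_lit 150673073110)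 (nat_lit 0) (nat_lit 16074911546) (nat_lit 2) (nat_lit 5) (nat_lit 4) (nat_lit 4) (nat_lit 2) (nat_lit 4) (nat_lit 520) (nat_lit 354) (nat_lit 326)))) (XT.nd (nat_lit 156) (nat_lit 0) (nat_lit 0) (XT.nd (nat_lit 78) (nat_lit 0) (nat_lit 0) (XT.lf (nat_lit 0) (nat_lit 24222423674) (nat_lit 152) (nat_lit 144910844761) (nat_lit 0) (nat_lit 23377432143) (nat_lit 2) (nat_lit 5) (nat_lit 4) (nat_lit 4) (nat_lit 2) (nat_lit 4) (nat_lit 521) (nat_lit 354) (nat_lit 325)) (XT.lf (nat_lit 0) (nat_lit 31800981291) (nat_lit 152) (nat_lit 139070998475) (nat_lit 0) (nat_lit 30943077070) (nat_lit 2) (nat_lit 5) (nat_lit 4) (nat_lit 4) (nat_lit 2) (nat_lit 4) (nat_lit 522) (nat_lit 354) (nat_lit 324))) (XT.nd (nat_lit 78) (nat_lit 0) (nat_lit 0) (XT.lf (nat_lit 0) (nat_lit 39660061788) (nat_lit 152) (nat_lit 133139629854) (nat_lit 0) (nat_lit 38789859767) (nat_lit 2) (nat_lit 5) (nat_lit 4) (nat_lit 4) (nat_lit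 2) (nat_lit 4) (nat_lit 523) (nat_lit 354) (nat_lit 323)) (XT.lf (nat_lit 0) (nat_lit 47818377261) (nat_lit 152) (nat_lit 127102616595) (nat_lit 0) (nat_lit 46936463050) (nat_lit 2) (nat_lit 5) (nat_lit 4) (nat_lit 4) (nat_lit 2) (nat_lit 4) (nat_lit 524) (nat_lit 354) (nat_lit 322))))))) (XT.nd (nat_lit 1248) (nat_lit 76) (nat_lit 0) (XT.nd (nat_lit 624) (nat_lit 0) (nat_lit 0) (XT.nd (nat_lit 312) (nat_lit 0) (nat_lit 0) (XT.nd (nat_lit 156) (nat_lit 0) (nat_lit 0) (XT.nd (nat_lit 78) (nat_lit 0) (nat_lit 0) (XT.lf (nat_lit 0) (nat_lit 56295352271) (nat_lit 152) (nat_lit 120945584854) (nat_lit 0) (nat_lit 55402283594) (nat_lit 2) (nat_lit 5) (nat_lit 4) (nat_lit 4) (nat_lit 2) (nat_lit 4) (nat_lit 525) (nat_lit 354) (nat_lit 321)) (XT.lf (nat_lit 0) (nat_lit 65111170092) (nat_lit 152) (nat_lit 114653875033) (nat_lit 0) (nat_lit 64207478113) (nat_lit 2) (nat_lit 5) (nat_lit 4) (nat_lit 4) (nat_lit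 2) (nat_lit 4) (nat_lit 526) (nat_lit 354) (nat_lit 320))) (XT.nd (nat_lit 78) (nat_lit 0) (nat_lit 0) (XT.lf (nat_lit 0) (nat_lit 74286820767) (nat_lit 152) (nat_lit 108212506870) (nat_lit 0) (nat_lit 73373011358) (nat_lit 2) (nat_lit 5) (nat_lit 4) (nat_lit 4) (nat_lit 2) (nat_lit 4) (nat_lit 527) (nat_lit 354) (nat_lit 319)) (XT.lf (nat_lit 0) (nat_lit 83844151082) (nat_lit 152) (nat_lit 101606143775) (nat_lit 0) (nat_lit 82920706025) (nat_lit 2) (nat_lit 5) (nat_lit 4) (nat_lit 4) (nat_lit 2) (nat_lit 4) (nat_lit 528) (nat_lit 354) (nat_lit 318)))) (XT.nd (nat_lit 156) (nat_lit 0) (nat_lit 0) (XT.nd (nat_lit 78) (nat_lit 0) (nat_lit 0) (XT.lf (nat_lit 0) (nat_lit 93805916587) (nat_lit 152) (nat_lit 94819056311) (nat_lit 0) (nat_lit 92873294722) (nat_lit 2) (nat_lit 5) (nat_lit 4) (nat_lit 4) (nat_lit 2) (nat_lit 4) (nat_lit 529) (nat_lit 354) (nat_lit 317)) (XT.lf (nat_lit 0) (nat_lit 104195835770)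 (nat_lit 152) (nat_lit 87835084747) (nat_lit 0) (nat_lit 103254474088) (nat_lit 2) (nat_lit 5) (nat_lit 4) (nat_lit 4) (nat_lit 2) (nat_lit 4) (nat_lit 530) (nat_lit 354) (nat_lit 316))) (XT.nd (nat_lit 78) (nat_lit 0) (nat_lit 0) (XT.lf (nat_lit 0) (nat_lit 115038646533) (nat_lit 152) (nat_lit 80637600578) (nat_lit 0) (nat_lit 114088961217) (nat_lit 2) (nat_lit 5) (nat_lit 4) (nat_lit 4) (nat_lit 2) (nat_lit 4) (nat_lit 531) (nat_lit 354) (nat_lit 315)) (XT.lf (nat_lit 0) (nat_lit 126360165095) (nat_lit 152) (nat_lit 73209466938) (nat_lit 0) (nat_lit 125402552507) (nat_lit 2) (nat_lit 5) (nat_lit 4) (nat_lit 4) (nat_lit 2) (nat_lit 4) (nat_lit 532) (nat_lit 354) (nat_lit 314))))) (XT.nd (nat_lit 312) (nat_lit 0) (nat_lit 0) (XT.nd (nat_lit 156) (nat_lit 0) (nat_lit 0) (XT.nd (nat_lit 78) (nat_lit 0) (nat_lit 0) (XT.lf (nat_lit 0) (nat_lit 138187347450) (nat_lit 152) (nat_lit 65532997794) (nat_lit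 0) (nat_lit 137222185080) (nat_lit 2) (nat_lit 5) (nat_lit 4) (nat_lit 4) (nat_lit 2) (nat_lit 4) (nat_lit 533) (nat_lit 354) (nat_lit 313)) (XT.lf (nat_lit 0) (nat_lit 150548353557) (nat_lit 152) (nat_lit 57589915838) (nat_lit 0) (nat_lit 149576000918) (nat_lit 2) (nat_lit 5) (nat_lit 4) (nat_lit 4) (nat_lit 2) (nat_lit 4) (nat_lit 534) (nat_lit 354) (nat_lit 312))) (XT.nd (nat_lit 78) (nat_lit 0) (nat_lit 0) (XT.lf (nat_lit 0) (nat_lit 163472614383) (nat_lit 152) (nat_lit 49361308971) (nat_lit 0) (nat_lit 162493413869) (nat_lit 2) (nat_lit 5) (nat_lit 4) (nat_lit 4) (nat_lit 2) (nat_lit 4) (nat_lit 535) (nat_lit 354) (nat_lit 311)) (XT.lf (nat_lit 0) (nat_lit 176990901977) (nat_lit 152) (nat_lit 40827585272) (nat_lit 0) (nat_lit 176005179677) (nat_lit 2) (nat_lit 5) (nat_lit 4) (nat_lit 4) (nat_lit 2) (nat_lit 4) (nat_lit 536) (nat_lit 354) (nat_lit 310)))) (XT.nd (nat_lit 156) (nat_lit 0)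 (nat_lit 0) (XT.nd (nat_lit 78) (nat_lit 0) (nat_lit 0) (XT.lf (nat_lit 0) (nat_lit 191135402738) (nat_lit 152) (nat_lit 31968426351) (nat_lit 0) (nat_lit 190143469214) (nat_lit 2) (nat_lit 5) (nat_lit 4) (nat_lit 4) (nat_lit 2) (nat_lit 4) (nat_lit 537) (nat_lit 354) (nat_lit 309)) (XT.lf (nat_lit 0) (nat_lit 205939794050) (nat_lit 152) (nat_lit 22762738973) (nat_lit 0) (nat_lit 204941945074) (nat_lit 2) (nat_lit 5) (nat_lit 4) (nat_lit 4) (nat_lit 2) (nat_lit 4) (nat_lit 538) (nat_lit 354) (nat_lit 308))) (XT.nd (nat_lit 78) (nat_lit 0) (nat_lit 0) (XT.lf (nat_lit 0) (nat_lit 221439324462) (nat_lit 152) (nat_lit 13188604833) (nat_lit 0) (nat_lit 220435841723) (nat_lit 2) (nat_lit 5) (nat_lit 4) (nat_lit 4) (nat_lit 2) (nat_lit 4) (nat_lit 539) (nat_lit 354) (nat_lit 307)) (XT.lf (nat_lit 0) (nat_lit 237670897620) (nat_lit 152) (nat_lit 3223228375) (nat_lit 0) (nat_lit 236662049391) (nat_lit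 2) (nat_lit 5) (nat_lit 4) (nat_lit 4) (nat_lit 2) (nat_lit 4) (nat_lit 540) (nat_lit 354) (nat_lit 306)))))) (XT.nd (nat_lit 624) (nat_lit 0) (nat_lit 0) (XT.nd (nat_lit 312) (nat_lit 0) (nat_lit 0) (XT.nd (nat_lit 156) (nat_lit 0) (nat_lit 0) (XT.nd (nat_lit 78) (nat_lit 0) (nat_lit 0) (XT.lf (nat_lit 0) (nat_lit 7393764114) (nat_lit 76) (nat_lit 247394833388) (nat_lit 76) (nat_lit 246380875170) (nat_lit 1) (nat_lit 4) (nat_lit 2) (nat_lit 5) (nat_lit 2) (nat_lit 4) (nat_lit 541) (nat_lit 354) (nat_lit 305)) (XT.lf (nat_lit 0) (nat_lit 18571553561) (nat_lit 76) (nat_lit 254204993990) (nat_lit 76) (nat_lit 253186169115) (nat_lit 1) (nat_lit 4) (nat_lit 2) (nat_lit 5) (nat_lit 2) (nat_lit 4) (nat_lit 542) (nat_lit 354) (nat_lit 304))) (XT.nd (nat_lit 78) (nat_lit 0) (nat_lit 0) (XT.lf (nat_lit 0) (nat_lit 30230179262) (nat_lit 76) (nat_lit 261395409401) (nat_lit 76) (nat_lit 260371949614) (nat_lit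 1) (nat_lit 4) (nat_lit 2) (nat_lit 5) (nat_lit 2) (nat_lit 4) (nat_lit 543) (nat_lit 354) (nat_lit 303)) (XT.lf (nat_lit 0) (nat_lit 42397399850) (nat_lit 76) (nat_lit 268983199657) (nat_lit 76) (nat_lit 267955325669) (nat_lit 1) (nat_lit 4) (nat_lit 2) (nat_lit 5) (nat_lit 2) (nat_lit 4) (nat_lit 544) (nat_lit 354) (nat_lit 302)))) (XT.nd (nat_lit 156) (nat_lit 0) (nat_lit 0) (XT.nd (nat_lit 78) (nat_lit 0) (nat_lit 0) (XT.lf (nat_lit 0) (nat_lit 55102184899) (nat_lit 76) (nat_lit 276986430925) (nat_lit 76) (nat_lit 275954352936) (nat_lit 1) (nat_lit 4) (nat_lit 2) (nat_lit 5) (nat_lit 2) (nat_lit 4) (nat_lit 545) (nat_lit 354) (nat_lit 301)) (XT.lf (nat_lit 0) (nat_lit 68374783895) (nat_lit 76) (nat_lit 285424158519) (nat_lit 76) (nat_lit 284388076719) (nat_lit 1) (nat_lit 4) (nat_lit 2) (nat_lit 5) (nat_lit 2) (nat_lit 4) (nat_lit 546) (nat_lit 354) (nat_lit 300))) (XT.nd (nat_lit 78) (nat_lit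 0) (nat_lit 0) (XT.lf (nat_lit 0) (nat_lit 82246798266) (nat_lit 76) (nat_lit 294316472265) (nat_lit 76) (nat_lit 293276577312) (nat_lit 1) (nat_lit 4) (nat_lit 2) (nat_lit 5) (nat_lit 2) (nat_lit 4) (nat_lit 547) (nat_lit 354) (nat_lit 299)) (XT.lf (nat_lit 0) (nat_lit 96751256617) (nat_lit 76) (nat_lit 303684544339) (nat_lit 76) (nat_lit 302641017812) (nat_lit 1) (nat_lit 4) (nat_lit 2) (nat_lit 5) (nat_lit 2) (nat_lit 4) (nat_lit 548) (nat_lit 354) (nat_lit 298))))) (XT.nd (nat_lit 312) (nat_lit 0) (nat_lit 0) (XT.nd (nat_lit 156) (nat_lit 0) (nat_lit 0) (XT.nd (nat_lit 78) (nat_lit 0) (nat_lit 0) (XT.lf (nat_lit 0) (nat_lit 111922693372) (nat_lit 76) (nat_lit 313550679675) (nat_lit 76) (nat_lit 312503694506) (nat_lit 1) (nat_lit 4) (nat_lit 2) (nat_lit 5) (nat_lit 2) (nat_lit 4) (nat_lit 549) (nat_lit 354) (nat_lit 297)) (XT.lf (nat_lit 0) (nat_lit 127797231001) (nat_lit 76) (nat_lit 323938369072)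 (nat_lit 76) (nat_lit 322888089957) (nat_lit 1) (nat_lit 4) (nat_lit 2) (nat_lit 5) (nat_lit 2) (nat_lit 4) (nat_lit 550) (nat_lit 354) (nat_lit 296))) (XT.nd (nat_lit 78) (nat_lit 0) (nat_lit 0) (XT.lf (nat_lit 0) (nat_lit 144412666021) (nat_lit 76) (nat_lit 334872345122) (nat_lit 76) (nat_lit 333818928917) (nat_lit 1) (nat_lit 4) (nat_lit 2) (nat_lit 5) (nat_lit 2) (nat_lit 4) (nat_lit 551) (nat_lit 354) (nat_lit 295)) (XT.lf (nat_lit 0) (nat_lit 161808558992) (nat_lit 76) (nat_lit 346378641103) (nat_lit 76) (nat_lit 345322237192) (nat_lit 1) (nat_lit 4) (nat_lit 2) (nat_lit 5) (nat_lit 2) (nat_lit 4) (nat_lit 552) (nat_lit 354) (nat_lit 294)))) (XT.nd (nat_lit 57642) (nat_lit 0) (nat_lit 684) (XT.nd (nat_lit 57564) (nat_lit 0) (nat_lit 760) (XT.lf (nat_lit 0) (nat_lit 180026328706) (nat_lit 76) (nat_lit 358484652957) (nat_lit 76) (nat_lit 357425403613) (nat_lit 1) (nat_lit 4) (nat_lit 2) (nat_lit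 5) (nat_lit 2) (nat_lit 4) (nat_lit 553) (nat_lit 354) (nat_lit 293)) (XT.lf (nat_lit 0) (nat_lit 3496133121) (nat_lit 152) (nat_lit 17568565834) (nat_lit 0) (nat_lit 3496133121) (nat_lit 11) (nat_lit 5) (nat_lit 13) (nat_lit 4) (nat_lit 11) (nat_lit 4) (nat_lit 490) (nat_lit 355) (nat_lit 355))) (XT.nd (nat_lit 78) (nat_lit 76) (nat_lit 0) (XT.lf (nat_lit 0) (nat_lit 17375586865) (nat_lit 152) (nat_lit 16386060847) (nat_lit 0) (nat_lit 17310982244) (nat_lit 11) (nat_lit 5) (nat_lit 13) (nat_lit 4) (nat_lit 11) (nat_lit 4) (nat_lit 491) (nat_lit 355) (nat_lit 354)) (XT.lf (nat_lit 0) (nat_lit 2744613332) (nat_lit 76) (nat_lit 25258213574) (nat_lit 76) (nat_lit 25132080743) (nat_lit 10) (nat_lit 4) (nat_lit 11) (nat_lit 5) (nat_lit 11) (nat_lit 4) (nat_lit 492) (nat_lit 355) (nat_lit 353))))))))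
noncomputable def xc16 : XT := (XT.nd (nat_lit 2418) (nat_lit 76) (nat_lit 0) (XT.nd (nat_lit 1170) (nat_lit 228) (nat_lit 0) (XT.nd (nat_lit 546) (nat_lit 152) (nat_lit 0) (XT.nd (nat_lit 234) (nat_lit 76) (nat_lit 0) (XT.nd (nat_lit 78) (nat_lit 152) (nat_lit 0) (XT.lf (nat_lit 0) (nat_lit 22765329351) (nat_lit 76) (nat_lit 16360735215) (nat_lit 76) (nat_lit 16176004088) (nat_lit 10) (nat_lit 4) (nat_lit 11) (nat_lit 5) (nat_lit 11) (nat_lit 4) (nat_lit 493) (nat_lit 355) (nat_lit 352)) (XT.nd (nat_lit 78) (nat_lit 152) (nat_lit 0) (XT.lf (nat_lit 0) (nat_lit 43181958409) (nat_lit 76) (nat_lit 7325534032) (nat_lit 76) (nat_lit 7084995004) (nat_lit 10) (nat_lit 4) (nat_lit 11) (nat_lit 5) (nat_lit 11) (nat_lit 4) (nat_lit 494) (nat_lit 355) (nat_lit 351)) (XT.lf (nat_lit 0) (nat_lit 2188644197) (nat_lit 152) (nat_lit 55907581553) (nat_lit 0) (nat_lit 1908939997) (nat_lit 8) (nat_lit 5) (nat_lit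 10) (nat_lit 4) (nat_lit 8) (nat_lit 4) (nat_lit 495) (nat_lit 355) (nat_lit 350)))) (XT.nd (nat_lit 156) (nat_lit 76) (nat_lit 0) (XT.nd (nat_lit 78) (nat_lit 0) (nat_lit 0) (XT.lf (nat_lit 0) (nat_lit 11767734167) (nat_lit 152) (nat_lit 39321122859) (nat_lit 0) (nat_lit 11439821005) (nat_lit 8) (nat_lit 5) (nat_lit 10) (nat_lit 4) (nat_lit 8) (nat_lit 4) (nat_lit 496) (nat_lit 355) (nat_lit 349)) (XT.lf (nat_lit 0) (nat_lit 21551236053) (nat_lit 152) (nat_lit 22463448360) (nat_lit 0) (nat_lit 21177409593) (nat_lit 8) (nat_lit 5) (nat_lit 10) (nat_lit 4) (nat_lit 8) (nat_lit 4) (nat_lit 497) (nat_lit 355) (nat_lit 348))) (XT.nd (nat_lit 78) (nat_lit 76) (nat_lit 0) (XT.lf (nat_lit 0) (nat_lit 31562443907) (nat_lit 152) (nat_lit 5294420735) (nat_lit 0) (nat_lit 31144890496) (nat_lit 8) (nat_lit 5) (nat_lit 10) (nat_lit 4) (nat_lit 8) (nat_lit 4) (nat_lit 498) (nat_lit 355) (nat_lit 347)) (XT.lf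 (nat_lit 0) (nat_lit 12631113157) (nat_lit 76) (nat_lit 29391287855) (nat_lit 76) (nat_lit 28932089729) (nat_lit 7) (nat_lit 4) (nat_lit 8) (nat_lit 5) (nat_lit 8) (nat_lit 4) (nat_lit 499) (nat_lit 355) (nat_lit 346))))) (XT.nd (nat_lit 312) (nat_lit 0) (nat_lit 0) (XT.nd (nat_lit 156) (nat_lit 152) (nat_lit 0) (XT.nd (nat_lit 78) (nat_lit 0) (nat_lit 0) (XT.lf (nat_lit 0) (nat_lit 31138679291) (nat_lit 76) (nat_lit 21711404022) (nat_lit 76) (nat_lit 21212544263) (nat_lit 7) (nat_lit 4) (nat_lit 8) (nat_lit 5) (nat_lit 8) (nat_lit 4) (nat_lit 500) (nat_lit 355) (nat_lit 345)) (XT.lf (nat_lit 0) (nat_lit 50097285842) (nat_lit 76) (nat_lit 13888591282) (nat_lit 76) (nat_lit 13351958539) (nat_lit 7) (nat_lit 4) (nat_lit 8) (nat_lit 5) (nat_lit 8) (nat_lit 4) (nat_lit 501) (nat_lit 355) (nat_lit 344))) (XT.nd (nat_lit 78) (nat_lit 152) (nat_lit 0) (XT.lf (nat_lit 0) (nat_lit 69552072347) (nat_lit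 76) (nat_lit 5904223891) (nat_lit 76) (nat_lit 5331616877) (nat_lit 7) (nat_lit 4) (nat_lit 8) (nat_lit 5) (nat_lit 8) (nat_lit 4) (nat_lit 502) (nat_lit 355) (nat_lit 343)) (XT.lf (nat_lit 0) (nat_lit 2895162656) (nat_lit 152) (nat_lit 79200511970) (nat_lit 0) (nat_lit 2317192919) (nat_lit 5) (nat_lit 5) (nat_lit 7) (nat_lit 4) (nat_lit 5) (nat_lit 4) (nat_lit 503) (nat_lit 355) (nat_lit 342)))) (XT.nd (nat_lit 156) (nat_lit 0) (nat_lit 0) (XT.nd (nat_lit 78) (nat_lit 0) (nat_lit 0) (XT.lf (nat_lit 0) (nat_lit 11429350873) (nat_lit 152) (nat_lit 65961281727) (nat_lit 0) (nat_lit 10820305210) (nat_lit 5) (nat_lit 5) (nat_lit 7) (nat_lit 4) (nat_lit 5) (nat_lit 4) (nat_lit 504) (nat_lit 355) (nat_lit 341)) (XT.lf (nat_lit 0) (nat_lit 20185536715) (nat_lit 152) (nat_lit 52476716143) (nat_lit 0) (nat_lit 19546894930) (nat_lit 5) (nat_lit 5) (nat_lit 7) (nat_lit 4) (nat_lit 5) (nat_lit 4) (nat_lit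 505) (nat_lit 355) (nat_lit 340))) (XT.nd (nat_lit 78) (nat_lit 0) (nat_lit 0) (XT.lf (nat_lit 0) (nat_lit 29184568241) (nat_lit 152) (nat_lit 38714709111) (nat_lit 0) (nat_lit 28517739674) (nat_lit 5) (nat_lit 5) (nat_lit 7) (nat_lit 4) (nat_lit 5) (nat_lit 4) (nat_lit 506) (nat_lit 355) (nat_lit 339)) (XT.lf (nat_lit 0) (nat_lit 38447871718) (nat_lit 152) (nat_lit 24642493946) (nat_lit 0) (nat_lit 37754198596) (nat_lit 5) (nat_lit 5) (nat_lit 7) (nat_lit 4) (nat_lit 5) (nat_lit 4) (nat_lit 507) (nat_lit 355) (nat_lit 338)))))) (XT.nd (nat_lit 624) (nat_lit 152) (nat_lit 0) (XT.nd (nat_lit 312) (nat_lit 0) (nat_lit 0) (XT.nd (nat_lit 156) (nat_lit 0) (nat_lit 0) (XT.nd (nat_lit 78) (nat_lit 76) (nat_lit 0) (XT.lf (nat_lit 0) (nat_lit 47997502630) (nat_lit 152) (nat_lit 10226565375) (nat_lit 0) (nat_lit 47278263266) (nat_lit 5) (nat_lit 5) (nat_lit 7) (nat_lit 4) (nat_lit 5) (nat_lit 4) (nat_lit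 508) (nat_lit 355) (nat_lit 337)) (XT.lf (nat_lit 0) (nat_lit 4718419121) (nat_lit 76) (nat_lit 53211446819) (nat_lit 76) (nat_lit 52467858653) (nat_lit 4) (nat_lit 4) (nat_lit 5) (nat_lit 5) (nat_lit 5) (nat_lit 4) (nat_lit 509) (nat_lit 355) (nat_lit 336))) (XT.nd (nat_lit 78) (nat_lit 0) (nat_lit 0) (XT.lf (nat_lit 0) (nat_lit 20428465094) (nat_lit 76) (nat_lit 47937911991) (nat_lit 76) (nat_lit 47171134489) (nat_lit 4) (nat_lit 4) (nat_lit 5) (nat_lit 5) (nat_lit 5) (nat_lit 4) (nat_lit 510) (nat_lit 355) (nat_lit 335)) (XT.lf (nat_lit 0) (nat_lit 36602840979) (nat_lit 76) (nat_lit 42564099319) (nat_lit 76) (nat_lit 41775236736) (nat_lit 4) (nat_lit 4) (nat_lit 5) (nat_lit 5) (nat_lit 5) (nat_lit 4) (nat_lit 511) (nat_lit 355) (nat_lit 334)))) (XT.nd (nat_lit 156) (nat_lit 0) (nat_lit 0) (XT.nd (nat_lit 78) (nat_lit 0) (nat_lit 0) (XT.lf (nat_lit 0) (nat_lit 53280057196) (nat_lit 76) (nat_lit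 37077214012) (nat_lit 76) (nat_lit 36267318018) (nat_lit 4) (nat_lit 4) (nat_lit 5) (nat_lit 5) (nat_lit 5) (nat_lit 4) (nat_lit 512) (nat_lit 355) (nat_lit 333)) (XT.lf (nat_lit 0) (nat_lit 70499821401) (nat_lit 76) (nat_lit 31464192056) (nat_lit 76) (nat_lit 30634264242) (nat_lit 4) (nat_lit 4) (nat_lit 5) (nat_lit 5) (nat_lit 5) (nat_lit 4) (nat_lit 513) (nat_lit 355) (nat_lit 332))) (XT.nd (nat_lit 78) (nat_lit 0) (nat_lit 0) (XT.lf (nat_lit 0) (nat_lit 88303133034) (nat_lit 76) (nat_lit 25711669113) (nat_lit 76) (nat_lit 24862663376) (nat_lit 4) (nat_lit 4) (nat_lit 5) (nat_lit 5) (nat_lit 5) (nat_lit 4) (nat_lit 514) (nat_lit 355) (nat_lit 331)) (XT.lf (nat_lit 0) (nat_lit 106732380932) (nat_lit 76) (nat_lit 19805948701) (nat_lit 76) (nat_lit 18938773513) (nat_lit 4) (nat_lit 4) (nat_lit 5) (nat_lit 5) (nat_lit 5) (nat_lit 4) (nat_lit 515) (nat_lit 355) (nat_lit 330))))) (XT.nd (nat_lit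 312) (nat_lit 0) (nat_lit 0) (XT.nd (nat_lit 156) (nat_lit 152) (nat_lit 0) (XT.nd (nat_lit 78) (nat_lit 0) (nat_lit 0) (XT.lf (nat_lit 0) (nat_lit 125831444256) (nat_lit 76) (nat_lit 13732969580) (nat_lit 76) (nat_lit 12848490153) (nat_lit 4) (nat_lit 4) (nat_lit 5) (nat_lit 5) (nat_lit 5) (nat_lit 4) (nat_lit 516) (nat_lit 355) (nat_lit 329)) (XT.lf (nat_lit 0) (nat_lit 145645796967) (nat_lit 76) (nat_lit 7478272277) (nat_lit 76) (nat_lit 6577312621) (nat_lit 4) (nat_lit 4) (nat_lit 5) (nat_lit 5) (nat_lit 5) (nat_lit 4) (nat_lit 517) (nat_lit 355) (nat_lit 328))) (XT.nd (nat_lit 78) (nat_lit 152) (nat_lit 0) (XT.lf (nat_lit 0) (nat_lit 166222616095) (nat_lit 76) (nat_lit 1026964654) (nat_lit 76) (nat_lit 110309543) (nat_lit 4) (nat_lit 4) (nat_lit 5) (nat_lit 5) (nat_lit 5) (nat_lit 4) (nat_lit 518) (nat_lit 355) (nat_lit 327)) (XT.lf (nat_lit 0) (nat_lit 6645770353) (nat_lit 152) (nat_lit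 162982833636) (nat_lit 0) (nat_lit 5758529246) (nat_lit 2) (nat_lit 5) (nat_lit 4) (nat_lit 4) (nat_lit 2) (nat_lit 4) (nat_lit 519) (nat_lit 355) (nat_lit 326)))) (XT.nd (nat_lit 156) (nat_lit 0) (nat_lit 0) (XT.nd (nat_lit 78) (nat_lit 0) (nat_lit 0) (XT.lf (nat_lit 0) (nat_lit 13663867125) (nat_lit 152) (nat_lit 157392317367) (nat_lit 0) (nat_lit 12763067694) (nat_lit 2) (nat_lit 5) (nat_lit 4) (nat_lit 4) (nat_lit 2) (nat_lit 4) (nat_lit 520) (nat_lit 355) (nat_lit 325)) (XT.lf (nat_lit 0) (nat_lit 20929543485) (nat_lit 152) (nat_lit 151732768764) (nat_lit 0) (nat_lit 20015831364) (nat_lit 2) (nat_lit 5) (nat_lit 4) (nat_lit 4) (nat_lit 2) (nat_lit 4) (nat_lit 521) (nat_lit 355) (nat_lit 324))) (XT.nd (nat_lit 78) (nat_lit 0) (nat_lit 0) (XT.lf (nat_lit 0) (nat_lit 28460098663) (nat_lit 152) (nat_lit 145990712712) (nat_lit 0) (nat_lit 27534088742) (nat_lit 2) (nat_lit 5) (nat_lit 4) (nat_lit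 4) (nat_lit 2) (nat_lit 4) (nat_lit 522) (nat_lit 355) (nat_lit 323)) (XT.lf (nat_lit 0) (nat_lit 36273462550) (nat_lit 152) (nat_lit 140152477649) (nat_lit 0) (nat_lit 35335740439) (nat_lit 2) (nat_lit 5) (nat_lit 4) (nat_lit 4) (nat_lit 2) (nat_lit 4) (nat_lit 523) (nat_lit 355) (nat_lit 322))))))) (XT.nd (nat_lit 1170) (nat_lit 76) (nat_lit 0) (XT.nd (nat_lit 546) (nat_lit 0) (nat_lit 0) (XT.nd (nat_lit 234) (nat_lit 0) (nat_lit 0) (XT.nd (nat_lit 78) (nat_lit 0) (nat_lit 0) (XT.lf (nat_lit 0) (nat_lit 44388238396) (nat_lit 152) (nat_lit 134204163014) (nat_lit 0) (nat_lit 43439361818) (nat_lit 2) (nat_lit 5) (nat_lit 4) (nat_lit 4) (nat_lit 2) (nat_lit 4) (nat_lit 524) (nat_lit 355) (nat_lit 321)) (XT.nd (nat_lit 78) (nat_lit 0) (nat_lit 0) (XT.lf (nat_lit 0) (nat_lit 52823747094) (nat_lit 152) (nat_lit 128131606155) (nat_lit 0) (nat_lit 51864247215) (nat_lit 2) (nat_lit 5) (nat_lit 4) (nat_lit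 4) (nat_lit 2) (nat_lit 4) (nat_lit 525) (nat_lit 355) (nat_lit 320)) (XT.lf (nat_lit 0) (nat_lit 61600073190) (nat_lit 152) (nat_lit 121920348602) (nat_lit 0) (nat_lit 60630455880) (nat_lit 2) (nat_lit 5) (nat_lit 4) (nat_lit 4) (nat_lit 2) (nat_lit 4) (nat_lit 526) (nat_lit 355) (nat_lit 319)))) (XT.nd (nat_lit 156) (nat_lit 0) (nat_lit 0) (XT.nd (nat_lit 78) (nat_lit 0) (nat_lit 0) (XT.lf (nat_lit 0) (nat_lit 70738112697) (nat_lit 152) (nat_lit 115555601647) (nat_lit 0) (nat_lit 69758859739) (nat_lit 2) (nat_lit 5) (nat_lit 4) (nat_lit 4) (nat_lit 2) (nat_lit 4) (nat_lit 527) (nat_lit 355) (nat_lit 318)) (XT.lf (nat_lit 0) (nat_lit 80259622853) (nat_lit 152) (nat_lit 109022211130) (nat_lit 0) (nat_lit 79271193088) (nat_lit 2) (nat_lit 5) (nat_lit 4) (nat_lit 4) (nat_lit 2) (nat_lit 4) (nat_lit 528) (nat_lit 355) (nat_lit 317))) (XT.nd (nat_lit 78) (nat_lit 0) (nat_lit 0) (XT.lf (nat_lit 0)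 (nat_lit 90187273920) (nat_lit 152) (nat_lit 102304621360) (nat_lit 0) (nat_lit 89190104338) (nat_lit 2) (nat_lit 5) (nat_lit 4) (nat_lit 4) (nat_lit 2) (nat_lit 4) (nat_lit 529) (nat_lit 355) (nat_lit 316)) (XT.lf (nat_lit 0) (nat_lit 100544703163) (nat_lit 152) (nat_lit 95386838076) (nat_lit 0) (nat_lit 99539209946) (nat_lit 2) (nat_lit 5) (nat_lit 4) (nat_lit 4) (nat_lit 2) (nat_lit 4) (nat_lit 530) (nat_lit 355) (nat_lit 315))))) (XT.nd (nat_lit 312) (nat_lit 0) (nat_lit 0) (XT.nd (nat_lit 156) (nat_lit 0) (nat_lit 0) (XT.nd (nat_lit 78) (nat_lit 0) (nat_lit 0) (XT.lf (nat_lit 0) (nat_lit 111356571126) (nat_lit 152) (nat_lit 88252390364) (nat_lit 0) (nat_lit 110343150638) (nat_lit 2) (nat_lit 5) (nat_lit 4) (nat_lit 4) (nat_lit 2) (nat_lit 4) (nat_lit 531) (nat_lit 355) (nat_lit 314)) (XT.lf (nat_lit 0) (nat_lit 122648620354) (nat_lit 152) (nat_lit 80884291445) (nat_lit 0) (nat_lit 121627650083)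 (nat_lit 2) (nat_lit 5) (nat_lit 4) (nat_lit 4) (nat_lit 2) (nat_lit 4) (nat_lit 532) (nat_lit 355) (nat_lit 313))) (XT.nd (nat_lit 78) (nat_lit 0) (nat_lit 0) (XT.lf (nat_lit 0) (nat_lit 134447736677) (nat_lit 152) (nat_lit 73264998226) (nat_lit 0) (nat_lit 133419576137) (nat_lit 2) (nat_lit 5) (nat_lit 4) (nat_lit 4) (nat_lit 2) (nat_lit 4) (nat_lit 533) (nat_lit 355) (nat_lit 312)) (XT.lf (nat_lit 0) (nat_lit 146782013229) (nat_lit 152) (nat_lit 65376369532) (nat_lit 0) (nat_lit 145747004815) (nat_lit 2) (nat_lit 5) (nat_lit 4) (nat_lit 4) (nat_lit 2) (nat_lit 4) (nat_lit 534) (nat_lit 355) (nat_lit 311)))) (XT.nd (nat_lit 156) (nat_lit 0) (nat_lit 0) (XT.nd (nat_lit 78) (nat_lit 0) (nat_lit 0) (XT.lf (nat_lit 0) (nat_lit 159680817336) (nat_lit 152) (nat_lit 57199622915) (nat_lit 0) (nat_lit 158639287136) (nat_lit 2) (nat_lit 5) (nat_lit 4) (nat_lit 4) (nat_lit 2) (nat_lit 4) (nat_lit 535)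 (nat_lit 355) (nat_lit 310)) (XT.lf (nat_lit 0) (nat_lit 173174860437) (nat_lit 152) (nat_lit 48715289929) (nat_lit 0) (nat_lit 172127119012) (nat_lit 2) (nat_lit 5) (nat_lit 4) (nat_lit 4) (nat_lit 2) (nat_lit 4) (nat_lit 536) (nat_lit 355) (nat_lit 309))) (XT.nd (nat_lit 78) (nat_lit 0) (nat_lit 0) (XT.lf (nat_lit 0) (nat_lit 187296271204) (nat_lit 152) (nat_lit 39903169783) (nat_lit 0) (nat_lit 186242614328) (nat_lit 2) (nat_lit 5) (nat_lit 4) (nat_lit 4) (nat_lit 2) (nat_lit 4) (nat_lit 537) (nat_lit 355) (nat_lit 308)) (XT.lf (nat_lit 0) (nat_lit 202078672045) (nat_lit 152) (nat_lit 30742281237) (nat_lit 0) (nat_lit 201019381405) (nat_lit 2) (nat_lit 5) (nat_lit 4) (nat_lit 4) (nat_lit 2) (nat_lit 4) (nat_lit 538) (nat_lit 355) (nat_lit 307)))))) (XT.nd (nat_lit 624) (nat_lit 0) (nat_lit 0) (XT.nd (nat_lit 312) (nat_lit 0) (nat_lit 0) (XT.nd (nat_lit 156) (nat_lit 76) (nat_lit 0) (XT.nd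 (nat_lit 78) (nat_lit 0) (nat_lit 0) (XT.lf (nat_lit 0) (nat_lit 217557259152) (nat_lit 152) (nat_lit 21210812653) (nat_lit 0) (nat_lit 216492603023) (nat_lit 2) (nat_lit 5) (nat_lit 4) (nat_lit 4) (nat_lit 2) (nat_lit 4) (nat_lit 539) (nat_lit 355) (nat_lit 306)) (XT.lf (nat_lit 0) (nat_lit 233768886304) (nat_lit 152) (nat_lit 11286070057) (nat_lit 0) (nat_lit 232699120185) (nat_lit 2) (nat_lit 5) (nat_lit 4) (nat_lit 4) (nat_lit 2) (nat_lit 4) (nat_lit 540) (nat_lit 355) (nat_lit 305))) (XT.nd (nat_lit 78) (nat_lit 76) (nat_lit 0) (XT.lf (nat_lit 0) (nat_lit 250752152614) (nat_lit 152) (nat_lit 944423110) (nat_lit 0) (nat_lit 249677519838) (nat_lit 2) (nat_lit 5) (nat_lit 4) (nat_lit 4) (nat_lit 2) (nat_lit 4) (nat_lit 541) (nat_lit 355) (nat_lit 304)) (XT.lf (nat_lit 0) (nat_lit 10164064702) (nat_lit 76) (nat_lit 258542119261) (nat_lit 76) (nat_lit 257462851574) (nat_lit 1) (nat_lit 4) (nat_lit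 2) (nat_lit 5) (nat_lit 2) (nat_lit 4) (nat_lit 542) (nat_lit 355) (nat_lit 303)))) (XT.nd (nat_lit 156) (nat_lit 0) (nat_lit 0) (XT.nd (nat_lit 78) (nat_lit 0) (nat_lit 0) (XT.lf (nat_lit 0) (nat_lit 21786428746) (nat_lit 76) (nat_lit 265751000074) (nat_lit 76) (nat_lit 264667318185) (nat_lit 1) (nat_lit 4) (nat_lit 2) (nat_lit 5) (nat_lit 2) (nat_lit 4) (nat_lit 543) (nat_lit 355) (nat_lit 302)) (XT.lf (nat_lit 0) (nat_lit 33919114422) (nat_lit 76) (nat_lit 273356376427) (nat_lit 76) (nat_lit 272268490537) (nat_lit 1) (nat_lit 4) (nat_lit 2) (nat_lit 5) (nat_lit 2) (nat_lit 4) (nat_lit 544) (nat_lit 355) (nat_lit 301))) (XT.nd (nat_lit 78) (nat_lit 0) (nat_lit 0) (XT.lf (nat_lit 0) (nat_lit 46591009078) (nat_lit 76) (nat_lit 281376356360) (nat_lit 76) (nat_lit 280284466659) (nat_lit 1) (nat_lit 4) (nat_lit 2) (nat_lit 5) (nat_lit 2) (nat_lit 4) (nat_lit 545) (nat_lit 355) (nat_lit 300)) (XT.lf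 (nat_lit 0) (nat_lit 59832283891) (nat_lit 76) (nat_lit 289830035062) (nat_lit 76) (nat_lit 288734332208) (nat_lit 1) (nat_lit 4) (nat_lit 2) (nat_lit 5) (nat_lit 2) (nat_lit 4) (nat_lit 546) (nat_lit 355) (nat_lit 299))))) (XT.nd (nat_lit 312) (nat_lit 0) (nat_lit 0) (XT.nd (nat_lit 156) (nat_lit 0) (nat_lit 0) (XT.nd (nat_lit 78) (nat_lit 0) (nat_lit 0) (XT.lf (nat_lit 0) (nat_lit 73674465707) (nat_lit 76) (nat_lit 298737540341) (nat_lit 76) (nat_lit 297638205912) (nat_lit 1) (nat_lit 4) (nat_lit 2) (nat_lit 5) (nat_lit 2) (nat_lit 4) (nat_lit 547) (nat_lit 355) (nat_lit 298)) (XT.lf (nat_lit 0) (nat_lit 88150512100) (nat_lit 76) (nat_lit 308120080541) (nat_lit 76) (nat_lit 307017287471) (nat_lit 1) (nat_lit 4) (nat_lit 2) (nat_lit 5) (nat_lit 2) (nat_lit 4) (nat_lit 548) (nat_lit 355) (nat_lit 297))) (XT.nd (nat_lit 78) (nat_lit 0) (nat_lit 0) (XT.lf (nat_lit 0) (nat_lit 103294889848) (nat_lit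 76) (nat_lit 317999995045) (nat_lit 76) (nat_lit 316893908029) (nat_lit 1) (nat_lit 4) (nat_lit 2) (nat_lit 5) (nat_lit 2) (nat_lit 4) (nat_lit 549) (nat_lit 355) (nat_lit 296)) (XT.lf (nat_lit 0) (nat_lit 119143656994) (nat_lit 76) (nat_lit 328400807458) (nat_lit 76) (nat_lit 327291583352) (nat_lit 1) (nat_lit 4) (nat_lit 2) (nat_lit 5) (nat_lit 2) (nat_lit 4) (nat_lit 550) (nat_lit 355) (nat_lit 295)))) (XT.nd (nat_lit 156) (nat_lit 0) (nat_lit 0) (XT.nd (nat_lit 78) (nat_lit 0) (nat_lit 0) (XT.lf (nat_lit 0) (nat_lit 135734548697) (nat_lit 76) (nat_lit 339347281619) (nat_lit 76) (nat_lit 338235069808) (nat_lit 1) (nat_lit 4) (nat_lit 2) (nat_lit 5) (nat_lit 2) (nat_lit 4) (nat_lit 551) (nat_lit 355) (nat_lit 294)) (XT.lf (nat_lit 0) (nat_lit 153107067080) (nat_lit 76) (nat_lit 350865480563) (nat_lit 76) (nat_lit 349750423318) (nat_lit 1) (nat_lit 4) (nat_lit 2) (nat_lit 5) (nat_lit 2) (nat_lit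 4) (nat_lit 552) (nat_lit 355) (nat_lit 293))) (XT.nd (nat_lit 57408) (nat_lit 0) (nat_lit 912) (XT.lf (nat_lit 0) (nat_lit 171302575282) (nat_lit 76) (nat_lit 362982828572) (nat_lit 76) (nat_lit 361865061391) (nat_lit 1) (nat_lit 4) (nat_lit 2) (nat_lit 5) (nat_lit 2) (nat_lit 4) (nat_lit 553) (nat_lit 355) (nat_lit 292)) (XT.lf (nat_lit 0) (nat_lit 9925536522) (nat_lit 76) (nat_lit 6410278271) (nat_lit 76) (nat_lit 6410278271) (nat_lit 13) (nat_lit 4) (nat_lit 14) (nat_lit 5) (nat_lit 14) (nat_lit 4) (nat_lit 488) (nat_lit 356) (nat_lit 356))))))))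
noncomputable def xc17 : XT := (XT.nd (nat_lit 2418) (nat_lit 76) (nat_lit 0) (XT.nd (nat_lit 1170) (nat_lit 228) (nat_lit 0) (XT.nd (nat_lit 546) (nat_lit 228) (nat_lit 0) (XT.nd (nat_lit 234) (nat_lit 228) (nat_lit 0) (XT.nd (nat_lit 78) (nat_lit 152) (nat_lit 0) (XT.lf (nat_lit 0) (nat_lit 41010515817) (nat_lit 76) (nat_lit 3165101051) (nat_lit 76) (nat_lit 3093874456) (nat_lit 13) (nat_lit 4) (nat_lit 14) (nat_lit 5) (nat_lit 14) (nat_lit 4) (nat_lit 489) (nat_lit 356) (nat_lit 355)) (XT.nd (nat_lit 78) (nat_lit 0) (nat_lit 0) (XT.lf (nat_lit 0) (nat_lit 6897172996) (nat_lit 152) (nat_lit 35467904690) (nat_lit 0) (nat_lit 6764733522) (nat_lit 11) (nat_lit 5) (nat_lit 13) (nat_lit 4) (nat_lit 11) (nat_lit 4) (nat_lit 490) (nat_lit 356) (nat_lit 354)) (XT.lf (nat_lit 0) (nat_lit 17125324000) (nat_lit 152) (nat_lit 17031855796) (nat_lit 0) (nat_lit 16931356316) (nat_lit 11) (nat_lit 5) (nat_lit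 13) (nat_lit 4) (nat_lit 11) (nat_lit 4) (nat_lit 491) (nat_lit 356) (nat_lit 353)))) (XT.nd (nat_lit 156) (nat_lit 152) (nat_lit 0) (XT.nd (nat_lit 78) (nat_lit 0) (nat_lit 0) (XT.lf (nat_lit 0) (nat_lit 1767524558) (nat_lit 76) (nat_lit 25822003800) (nat_lit 76) (nat_lit 25569437820) (nat_lit 10) (nat_lit 4) (nat_lit 11) (nat_lit 5) (nat_lit 11) (nat_lit 4) (nat_lit 492) (nat_lit 356) (nat_lit 352)) (XT.lf (nat_lit 0) (nat_lit 21493058742) (nat_lit 76) (nat_lit 17074355242) (nat_lit 76) (nat_lit 16765981362) (nat_lit 10) (nat_lit 4) (nat_lit 11) (nat_lit 5) (nat_lit 11) (nat_lit 4) (nat_lit 493) (nat_lit 356) (nat_lit 351))) (XT.nd (nat_lit 78) (nat_lit 152) (nat_lit 0) (XT.lf (nat_lit 0) (nat_lit 41628562241) (nat_lit 76) (nat_lit 8181849108) (nat_lit 76) (nat_lit 7820324846) (nat_lit 10) (nat_lit 4) (nat_lit 11) (nat_lit 5) (nat_lit 11) (nat_lit 4) (nat_lit 494) (nat_lit 356) (nat_lit 350))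 (XT.lf (nat_lit 0) (nat_lit 1296768112) (nat_lit 152) (nat_lit 57851974641) (nat_lit 0) (nat_lit 904250328) (nat_lit 8) (nat_lit 5) (nat_lit 10) (nat_lit 4) (nat_lit 8) (nat_lit 4) (nat_lit 495) (nat_lit 356) (nat_lit 349))))) (XT.nd (nat_lit 312) (nat_lit 152) (nat_lit 0) (XT.nd (nat_lit 156) (nat_lit 76) (nat_lit 0) (XT.nd (nat_lit 78) (nat_lit 0) (nat_lit 0) (XT.lf (nat_lit 0) (nat_lit 10741934871) (nat_lit 152) (nat_lit 41537763328) (nat_lit 0) (nat_lit 10303503789) (nat_lit 8) (nat_lit 5) (nat_lit 10) (nat_lit 4) (nat_lit 8) (nat_lit 4) (nat_lit 496) (nat_lit 356) (nat_lit 348)) (XT.lf (nat_lit 0) (nat_lit 20397890842) (nat_lit 152) (nat_lit 24939372047) (nat_lit 0) (nat_lit 19915732809) (nat_lit 8) (nat_lit 5) (nat_lit 10) (nat_lit 4) (nat_lit 8) (nat_lit 4) (nat_lit 497) (nat_lit 356) (nat_lit 347))) (XT.nd (nat_lit 78) (nat_lit 76) (nat_lit 0) (XT.lf (nat_lit 0) (nat_lit 30287626395)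 (nat_lit 152) (nat_lit 8017280821) (nat_lit 0) (nat_lit 29763823648) (nat_lit 8) (nat_lit 5) (nat_lit 10) (nat_lit 4) (nat_lit 8) (nat_lit 4) (nat_lit 498) (nat_lit 356) (nat_lit 346)) (XT.lf (nat_lit 0) (nat_lit 9575269465) (nat_lit 76) (nat_lit 31008915846) (nat_lit 76) (nat_lit 30445451466) (nat_lit 7) (nat_lit 4) (nat_lit 8) (nat_lit 5) (nat_lit 8) (nat_lit 4) (nat_lit 499) (nat_lit 356) (nat_lit 345)))) (XT.nd (nat_lit 156) (nat_lit 152) (nat_lit 0) (XT.nd (nat_lit 78) (nat_lit 0) (nat_lit 0) (XT.lf (nat_lit 0) (nat_lit 27851451263) (nat_lit 76) (nat_lit 23446624834) (nat_lit 76) (nat_lit 22845387470) (nat_lit 7) (nat_lit 4) (nat_lit 8) (nat_lit 5) (nat_lit 8) (nat_lit 4) (nat_lit 500) (nat_lit 356) (nat_lit 344)) (XT.lf (nat_lit 0) (nat_lit 46589691778) (nat_lit 76) (nat_lit 15735805258) (nat_lit 76) (nat_lit 15098593624) (nat_lit 7) (nat_lit 4) (nat_lit 8) (nat_lit 5) (nat_lit 8) (nat_lit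 4) (nat_lit 501) (nat_lit 356) (nat_lit 343))) (XT.nd (nat_lit 78) (nat_lit 152) (nat_lit 0) (XT.lf (nat_lit 0) (nat_lit 65834605869) (nat_lit 76) (nat_lit 7858098022) (nat_lit 76) (nat_lit 7186625178) (nat_lit 7) (nat_lit 4) (nat_lit 8) (nat_lit 5) (nat_lit 8) (nat_lit 4) (nat_lit 502) (nat_lit 356) (nat_lit 342)) (XT.lf (nat_lit 0) (nat_lit 901727680) (nat_lit 152) (nat_lit 83382740345) (nat_lit 0) (nat_lit 231153806) (nat_lit 5) (nat_lit 5) (nat_lit 7) (nat_lit 4) (nat_lit 5) (nat_lit 4) (nat_lit 503) (nat_lit 356) (nat_lit 341)))))) (XT.nd (nat_lit 624) (nat_lit 152) (nat_lit 0) (XT.nd (nat_lit 312) (nat_lit 76) (nat_lit 0) (XT.nd (nat_lit 156) (nat_lit 0) (nat_lit 0) (XT.nd (nat_lit 78) (nat_lit 0) (nat_lit 0) (XT.lf (nat_lit 0) (nat_lit 9336056489) (nat_lit 152) (nat_lit 70346742381) (nat_lit 0) (nat_lit 8635886494) (nat_lit 5) (nat_lit 5) (nat_lit 7) (nat_lit 4) (nat_lit 5) (nat_lit 4)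 (nat_lit 504) (nat_lit 356) (nat_lit 340)) (XT.lf (nat_lit 0) (nat_lit 17997138132) (nat_lit 152) (nat_lit 57055731349) (nat_lit 0) (nat_lit 17268781354) (nat_lit 5) (nat_lit 5) (nat_lit 7) (nat_lit 4) (nat_lit 5) (nat_lit 4) (nat_lit 505) (nat_lit 356) (nat_lit 339))) (XT.nd (nat_lit 78) (nat_lit 0) (nat_lit 0) (XT.lf (nat_lit 0) (nat_lit 26905594231) (nat_lit 152) (nat_lit 43478061984) (nat_lit 0) (nat_lit 26150392899) (nat_lit 5) (nat_lit 5) (nat_lit 7) (nat_lit 4) (nat_lit 5) (nat_lit 4) (nat_lit 506) (nat_lit 356) (nat_lit 338)) (XT.lf (nat_lit 0) (nat_lit 36082635397) (nat_lit 152) (nat_lit 29581406503) (nat_lit 0) (nat_lit 35301867822) (nat_lit 5) (nat_lit 5) (nat_lit 7) (nat_lit 4) (nat_lit 5) (nat_lit 4) (nat_lit 507) (nat_lit 356) (nat_lit 337)))) (XT.nd (nat_lit 156) (nat_lit 76) (nat_lit 0) (XT.nd (nat_lit 78) (nat_lit 0) (nat_lit 0) (XT.lf (nat_lit 0) (nat_lit 45550111727) (nat_lit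 152) (nat_lit 15332677631) (nat_lit 0) (nat_lit 44744995350) (nat_lit 5) (nat_lit 5) (nat_lit 7) (nat_lit 4) (nat_lit 5) (nat_lit 4) (nat_lit 508) (nat_lit 356) (nat_lit 336)) (XT.lf (nat_lit 0) (nat_lit 55330564831) (nat_lit 152) (nat_lit 697949822) (nat_lit 0) (nat_lit 54502259119) (nat_lit 5) (nat_lit 5) (nat_lit 7) (nat_lit 4) (nat_lit 5) (nat_lit 4) (nat_lit 509) (nat_lit 356) (nat_lit 335))) (XT.nd (nat_lit 78) (nat_lit 0) (nat_lit 0) (XT.lf (nat_lit 0) (nat_lit 14832349320) (nat_lit 76) (nat_lit 50846506723) (nat_lit 76) (nat_lit 49996115930) (nat_lit 4) (nat_lit 4) (nat_lit 5) (nat_lit 5) (nat_lit 5) (nat_lit 4) (nat_lit 510) (nat_lit 356) (nat_lit 334)) (XT.lf (nat_lit 0) (nat_lit 30857516199) (nat_lit 76) (nat_lit 45548605270) (nat_lit 76) (nat_lit 44677181065) (nat_lit 4) (nat_lit 4) (nat_lit 5) (nat_lit 5) (nat_lit 5) (nat_lit 4) (nat_lit 511) (nat_lit 356) (nat_lit 333))))) (XT.nd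 (nat_lit 312) (nat_lit 152) (nat_lit 0) (XT.nd (nat_lit 156) (nat_lit 0) (nat_lit 0) (XT.nd (nat_lit 78) (nat_lit 0) (nat_lit 0) (XT.lf (nat_lit 0) (nat_lit 47392628600) (nat_lit 76) (nat_lit 40134016361) (nat_lit 76) (nat_lit 39242560337) (nat_lit 4) (nat_lit 4) (nat_lit 5) (nat_lit 5) (nat_lit 5) (nat_lit 4) (nat_lit 512) (nat_lit 356) (nat_lit 332)) (XT.lf (nat_lit 0) (nat_lit 64477055839) (nat_lit 76) (nat_lit 34589848118) (nat_lit 76) (nat_lit 33679314170) (nat_lit 4) (nat_lit 4) (nat_lit 5) (nat_lit 5) (nat_lit 5) (nat_lit 4) (nat_lit 513) (nat_lit 356) (nat_lit 331))) (XT.nd (nat_lit 78) (nat_lit 0) (nat_lit 0) (XT.lf (nat_lit 0) (nat_lit 82151475122) (nat_lit 76) (nat_lit 28902900140) (nat_lit 76) (nat_lit 27974196741) (nat_lit 4) (nat_lit 4) (nat_lit 5) (nat_lit 5) (nat_lit 5) (nat_lit 4) (nat_lit 514) (nat_lit 356) (nat_lit 330)) (XT.lf (nat_lit 0) (nat_lit 100457968401) (nat_lit 76)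 (nat_lit 23059632075) (nat_lit 76) (nat_lit 22113624437) (nat_lit 4) (nat_lit 4) (nat_lit 5) (nat_lit 5) (nat_lit 5) (nat_lit 4) (nat_lit 515) (nat_lit 356) (nat_lit 329)))) (XT.nd (nat_lit 156) (nat_lit 152) (nat_lit 0) (XT.nd (nat_lit 78) (nat_lit 0) (nat_lit 0) (XT.lf (nat_lit 0) (nat_lit 119440122564) (nat_lit 76) (nat_lit 17046131380) (nat_lit 76) (nat_lit 16083643514) (nat_lit 4) (nat_lit 4) (nat_lit 5) (nat_lit 5) (nat_lit 5) (nat_lit 4) (nat_lit 516) (nat_lit 356) (nat_lit 328)) (XT.lf (nat_lit 0) (nat_lit 139143133217) (nat_lit 76) (nat_lit 10848080196) (nat_lit 76) (nat_lit 9869896875) (nat_lit 4) (nat_lit 4) (nat_lit 5) (nat_lit 5) (nat_lit 5) (nat_lit 4) (nat_lit 517) (nat_lit 356) (nat_lit 327))) (XT.nd (nat_lit 78) (nat_lit 152) (nat_lit 0) (XT.lf (nat_lit 0) (nat_lit 159613912290) (nat_lit 76) (nat_lit 4450721259) (nat_lit 76) (nat_lit 3457589886) (nat_lit 4) (nat_lit 4) (nat_lit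 5) (nat_lit 5) (nat_lit 5) (nat_lit 4) (nat_lit 518) (nat_lit 356) (nat_lit 326)) (XT.lf (nat_lit 0) (nat_lit 3188246155) (nat_lit 152) (nat_lit 170145853839) (nat_lit 0) (nat_lit 2228848428) (nat_lit 2) (nat_lit 5) (nat_lit 4) (nat_lit 4) (nat_lit 2) (nat_lit 4) (nat_lit 519) (nat_lit 356) (nat_lit 325))))))) (XT.nd (nat_lit 1170) (nat_lit 76) (nat_lit 0) (XT.nd (nat_lit 546) (nat_lit 0) (nat_lit 0) (XT.nd (nat_lit 234) (nat_lit 0) (nat_lit 0) (XT.nd (nat_lit 78) (nat_lit 0) (nat_lit 0) (XT.lf (nat_lit 0) (nat_lit 10155940366) (nat_lit 152) (nat_lit 164658017316) (nat_lit 0) (nat_lit 9183629949) (nat_lit 2) (nat_lit 5) (nat_lit 4) (nat_lit 4) (nat_lit 2) (nat_lit 4) (nat_lit 520) (nat_lit 356) (nat_lit 324)) (XT.nd (nat_lit 78) (nat_lit 0) (nat_lit 0) (XT.lf (nat_lit 0) (nat_lit 17373614286) (nat_lit 152) (nat_lit 159096258948) (nat_lit 0) (nat_lit 16389006070) (nat_lit 2) (nat_lit 5) (nat_lit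 4) (nat_lit 4) (nat_lit 2) (nat_lit 4) (nat_lit 521) (nat_lit 356) (nat_lit 323)) (XT.lf (nat_lit 0) (nat_lit 24858452855) (nat_lit 152) (nat_lit 153447336453) (nat_lit 0) (nat_lit 23862132448) (nat_lit 2) (nat_lit 5) (nat_lit 4) (nat_lit 4) (nat_lit 2) (nat_lit 4) (nat_lit 522) (nat_lit 356) (nat_lit 322)))) (XT.nd (nat_lit 156) (nat_lit 0) (nat_lit 0) (XT.nd (nat_lit 78) (nat_lit 0) (nat_lit 0) (XT.lf (nat_lit 0) (nat_lit 32628277115) (nat_lit 152) (nat_lit 147697800015) (nat_lit 0) (nat_lit 31620802241) (nat_lit 2) (nat_lit 5) (nat_lit 4) (nat_lit 4) (nat_lit 2) (nat_lit 4) (nat_lit 523) (nat_lit 356) (nat_lit 321)) (XT.lf (nat_lit 0) (nat_lit 40701586649) (nat_lit 152) (nat_lit 141833960262) (nat_lit 0) (nat_lit 39683488473) (nat_lit 2) (nat_lit 5) (nat_lit 4) (nat_lit 4) (nat_lit 2) (nat_lit 4) (nat_lit 524) (nat_lit 356) (nat_lit 320))) (XT.nd (nat_lit 78) (nat_lit 0) (nat_lit 0) (XT.lf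 (nat_lit 0) (nat_lit 49097603621) (nat_lit 152) (nat_lit 135841855670) (nat_lit 0) (nat_lit 48069388016) (nat_lit 2) (nat_lit 5) (nat_lit 4) (nat_lit 4) (nat_lit 2) (nat_lit 4) (nat_lit 525) (nat_lit 356) (nat_lit 319)) (XT.lf (nat_lit 0) (nat_lit 57836318550) (nat_lit 152) (nat_lit 129707219325) (nat_lit 0) (nat_lit 56798467296) (nat_lit 2) (nat_lit 5) (nat_lit 4) (nat_lit 4) (nat_lit 2) (nat_lit 4) (nat_lit 526) (nat_lit 356) (nat_lit 318))))) (XT.nd (nat_lit 312) (nat_lit 0) (nat_lit 0) (XT.nd (nat_lit 156) (nat_lit 0) (nat_lit 0) (XT.nd (nat_lit 78) (nat_lit 0) (nat_lit 0) (XT.lf (nat_lit 0) (nat_lit 66938537897) (nat_lit 152) (nat_lit 123415444948) (nat_lit 0) (nat_lit 65891509836) (nat_lit 2) (nat_lit 5) (nat_lit 4) (nat_lit 4) (nat_lit 2) (nat_lit 4) (nat_lit 527) (nat_lit 356) (nat_lit 317)) (XT.lf (nat_lit 0) (nat_lit 76425933616) (nat_lit 152) (nat_lit 116951552126) (nat_lit 0) (nat_lit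 75370165738) (nat_lit 2) (nat_lit 5) (nat_lit 4) (nat_lit 4) (nat_lit 2) (nat_lit 4) (nat_lit 528) (nat_lit 356) (nat_lit 316))) (XT.nd (nat_lit 78) (nat_lit 0) (nat_lit 0) (XT.lf (nat_lit 0) (nat_lit 86321094742) (nat_lit 152) (nat_lit 110300150636) (nat_lit 0) (nat_lit 85257003230) (nat_lit 2) (nat_lit 5) (nat_lit 4) (nat_lit 4) (nat_lit 2) (nat_lit 4) (nat_lit 529) (nat_lit 356) (nat_lit 315)) (XT.lf (nat_lit 0) (nat_lit 96647581184) (nat_lit 152) (nat_lit 103445403808) (nat_lit 0) (nat_lit 95575562400) (nat_lit 2) (nat_lit 5) (nat_lit 4) (nat_lit 4) (nat_lit 2) (nat_lit 4) (nat_lit 530) (nat_lit 356) (nat_lit 314)))) (XT.nd (nat_lit 156) (nat_lit 0) (nat_lit 0) (XT.nd (nat_lit 78) (nat_lit 0) (nat_lit 0) (XT.lf (nat_lit 0) (nat_lit 107429979814) (nat_lit 152) (nat_lit 96370990818) (nat_lit 0) (nat_lit 106350411248) (nat_lit 2) (nat_lit 5) (nat_lit 4) (nat_lit 4) (nat_lit 2) (nat_lit 4) (nat_lit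 531) (nat_lit 356) (nat_lit 313)) (XT.lf (nat_lit 0) (nat_lit 118693963009) (nat_lit 152) (nat_lit 89060067823) (nat_lit 0) (nat_lit 117607204174) (nat_lit 2) (nat_lit 5) (nat_lit 4) (nat_lit 4) (nat_lit 2) (nat_lit 4) (nat_lit 532) (nat_lit 356) (nat_lit 312))) (XT.nd (nat_lit 78) (nat_lit 0) (nat_lit 0) (XT.lf (nat_lit 0) (nat_lit 130466349778) (nat_lit 152) (nat_lit 81495227866) (nat_lit 0) (nat_lit 129372743068) (nat_lit 2) (nat_lit 5) (nat_lit 4) (nat_lit 4) (nat_lit 2) (nat_lit 4) (nat_lit 533) (nat_lit 356) (nat_lit 311)) (XT.lf (nat_lit 0) (nat_lit 142775169612) (nat_lit 152) (nat_lit 73658459421) (nat_lit 0) (nat_lit 141675041116) (nat_lit 2) (nat_lit 5) (nat_lit 4) (nat_lit 4) (nat_lit 2) (nat_lit 4) (nat_lit 534) (nat_lit 356) (nat_lit 310)))))) (XT.nd (nat_lit 624) (nat_lit 0) (nat_lit 0) (XT.nd (nat_lit 312) (nat_lit 76) (nat_lit 0) (XT.nd (nat_lit 156) (nat_lit 0) (nat_lit 0) (XT.nd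 (nat_lit 78) (nat_lit 0) (nat_lit 0) (XT.lf (nat_lit 0) (nat_lit 155649729225) (nat_lit 152) (nat_lit 65531103518) (nat_lit 0) (nat_lit 154543389505) (nat_lit 2) (nat_lit 5) (nat_lit 4) (nat_lit 4) (nat_lit 2) (nat_lit 4) (nat_lit 535) (nat_lit 356) (nat_lit 309)) (XT.lf (nat_lit 0) (nat_lit 169120682332) (nat_lit 152) (nat_lit 57093809307) (nat_lit 0) (nat_lit 168008427159) (nat_lit 2) (nat_lit 5) (nat_lit 4) (nat_lit 4) (nat_lit 2) (nat_lit 4) (nat_lit 536) (nat_lit 356) (nat_lit 308))) (XT.nd (nat_lit 78) (nat_lit 0) (nat_lit 0) (XT.lf (nat_lit 0) (nat_lit 183220102628) (nat_lit 152) (nat_lit 48326487994) (nat_lit 0) (nat_lit 182102213692) (nat_lit 2) (nat_lit 5) (nat_lit 4) (nat_lit 4) (nat_lit 2) (nat_lit 4) (nat_lit 537) (nat_lit 356) (nat_lit 307)) (XT.lf (nat_lit 0) (nat_lit 197981560164) (nat_lit 152) (nat_lit 39208265004) (nat_lit 0) (nat_lit 196858305739) (nat_lit 2) (nat_lit 5) (nat_lit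 4) (nat_lit 4) (nat_lit 2) (nat_lit 4) (nat_lit 538) (nat_lit 356) (nat_lit 306)))) (XT.nd (nat_lit 156) (nat_lit 76) (nat_lit 0) (XT.nd (nat_lit 78) (nat_lit 0) (nat_lit 0) (XT.lf (nat_lit 0) (nat_lit 213440201266) (nat_lit 152) (nat_lit 29717430282) (nat_lit 0) (nat_lit 212311836851) (nat_lit 2) (nat_lit 5) (nat_lit 4) (nat_lit 4) (nat_lit 2) (nat_lit 4) (nat_lit 539) (nat_lit 356) (nat_lit 305)) (XT.lf (nat_lit 0) (nat_lit 229632832223) (nat_lit 152) (nat_lit 19831386602) (nat_lit 0) (nat_lit 228499601151) (nat_lit 2) (nat_lit 5) (nat_lit 4) (nat_lit 4) (nat_lit 2) (nat_lit 4) (nat_lit 540) (nat_lit 356) (nat_lit 304))) (XT.nd (nat_lit 78) (nat_lit 76) (nat_lit 0) (XT.lf (nat_lit 0) (nat_lit 246598006918) (nat_lit 152) (nat_lit 9526595766) (nat_lit 0) (nat_lit 245460140935) (nat_lit 2) (nat_lit 5) (nat_lit 4) (nat_lit 4) (nat_lit 2) (nat_lit 4) (nat_lit 541) (nat_lit 356) (nat_lit 303)) (XT.lf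 (nat_lit 0) (nat_lit 1261865002) (nat_lit 76) (nat_lit 263133954871) (nat_lit 76) (nat_lit 261991674686) (nat_lit 1) (nat_lit 4) (nat_lit 2) (nat_lit 5) (nat_lit 2) (nat_lit 4) (nat_lit 542) (nat_lit 356) (nat_lit 302))))) (XT.nd (nat_lit 312) (nat_lit 0) (nat_lit 0) (XT.nd (nat_lit 156) (nat_lit 0) (nat_lit 0) (XT.nd (nat_lit 78) (nat_lit 0) (nat_lit 0) (XT.lf (nat_lit 0) (nat_lit 12849694134) (nat_lit 76) (nat_lit 270360421781) (nat_lit 76) (nat_lit 269213937595) (nat_lit 1) (nat_lit 4) (nat_lit 2) (nat_lit 5) (nat_lit 2) (nat_lit 4) (nat_lit 543) (nat_lit 356) (nat_lit 301)) (XT.lf (nat_lit 0) (nat_lit 24949489418) (nat_lit 76) (nat_lit 277982546798) (nat_lit 76) (nat_lit 276832058802) (nat_lit 1) (nat_lit 4) (nat_lit 2) (nat_lit 5) (nat_lit 2) (nat_lit 4) (nat_lit 544) (nat_lit 356) (nat_lit 300))) (XT.nd (nat_lit 78) (nat_lit 0) (nat_lit 0) (XT.lf (nat_lit 0) (nat_lit 37590059891) (nat_lit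 76) (nat_lit 286018477840) (nat_lit 76) (nat_lit 284864176690) (nat_lit 1) (nat_lit 4) (nat_lit 2) (nat_lit 5) (nat_lit 2) (nat_lit 4) (nat_lit 545) (nat_lit 356) (nat_lit 299)) (XT.lf (nat_lit 0) (nat_lit 50801502149) (nat_lit 76) (nat_lit 294487348074) (nat_lit 76) (nat_lit 293329415350) (nat_lit 1) (nat_lit 4) (nat_lit 2) (nat_lit 5) (nat_lit 2) (nat_lit 4) (nat_lit 546) (nat_lit 356) (nat_lit 298)))) (XT.nd (nat_lit 156) (nat_lit 0) (nat_lit 0) (XT.nd (nat_lit 78) (nat_lit 0) (nat_lit 0) (XT.lf (nat_lit 0) (nat_lit 64615272007) (nat_lit 76) (nat_lit 303409321478) (nat_lit 76) (nat_lit 302247930112) (nat_lit 1) (nat_lit 4) (nat_lit 2) (nat_lit 5) (nat_lit 2) (nat_lit 4) (nat_lit 547) (nat_lit 356) (nat_lit 297)) (XT.lf (nat_lit 0) (nat_lit 79064259393) (nat_lit 76) (nat_lit 312805640846) (nat_lit 76) (nat_lit 311640955535) (nat_lit 1) (nat_lit 4) (nat_lit 2) (nat_lit 5) (nat_lit 2) (nat_lit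 4) (nat_lit 548) (nat_lit 356) (nat_lit 296))) (XT.nd (nat_lit 78) (nat_lit 0) (nat_lit 0) (XT.lf (nat_lit 0) (nat_lit 94182866658) (nat_lit 76) (nat_lit 322698678367) (nat_lit 76) (nat_lit 321530855965) (nat_lit 1) (nat_lit 4) (nat_lit 2) (nat_lit 5) (nat_lit 2) (nat_lit 4) (nat_lit 549) (nat_lit 356) (nat_lit 295)) (XT.lf (nat_lit 0) (nat_lit 110007090487) (nat_lit 76) (nat_lit 333111988891) (nat_lit 76) (nat_lit 331941178784) (nat_lit 1) (nat_lit 4) (nat_lit 2) (nat_lit 5) (nat_lit 2) (nat_lit 4) (nat_lit 550) (nat_lit 356) (nat_lit 294))))))))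
noncomputable def xc18 : XT := (XT.nd (nat_lit 59592) (nat_lit 0) (nat_lit 0) (XT.nd (nat_lit 58344) (nat_lit 0) (nat_lit 228) (XT.nd (nat_lit 57720) (nat_lit 0) (nat_lit 532) (XT.nd (nat_lit 57408) (nat_lit 0) (nat_lit 912) (XT.nd (nat_lit 78) (nat_lit 0) (nat_lit 0) (XT.lf (nat_lit 0) (nat_lit 126574607602) (nat_lit 76) (nat_lit 344070366015) (nat_lit 76) (nat_lit 342896710475) (nat_lit 1) (nat_lit 4) (nat_lit 2) (nat_lit 5) (nat_lit 2) (nat_lit 4) (nat_lit 551) (nat_lit 356) (nat_lit 293)) (XT.nd (nat_lit 78) (nat_lit 0) (nat_lit 0) (XT.lf (nat_lit 0) (nat_lit 143924864473) (nat_lit 76) (nat_lit 355599901114) (nat_lit 76) (nat_lit 354423535637) (nat_lit 1) (nat_lit 4) (nat_lit 2) (nat_lit 5) (nat_lit 2) (nat_lit 4) (nat_lit 552) (nat_lit 356) (nat_lit 292)) (XT.lf (nat_lit 0) (nat_lit 162099171235) (nat_lit 76) (nat_lit 367728045461) (nat_lit 76) (nat_lit 366549099092) (nat_lit 1) (nat_lit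 4) (nat_lit 2) (nat_lit 5) (nat_lit 2) (nat_lit 4) (nat_lit 553) (nat_lit 356) (nat_lit 291)))) (XT.nd (nat_lit 156) (nat_lit 76) (nat_lit 0) (XT.nd (nat_lit 78) (nat_lit 0) (nat_lit 0) (XT.lf (nat_lit 0) (nat_lit 5456359271) (nat_lit 152) (nat_lit 10192082964) (nat_lit 0) (nat_lit 5456359271) (nat_lit 14) (nat_lit 5) (nat_lit 16) (nat_lit 4) (nat_lit 14) (nat_lit 4) (nat_lit 486) (nat_lit 357) (nat_lit 357)) (XT.lf (nat_lit 0) (nat_lit 21491675821) (nat_lit 152) (nat_lit 905880366) (nat_lit 0) (nat_lit 21416887897) (nat_lit 14) (nat_lit 5) (nat_lit 16) (nat_lit 4) (nat_lit 14) (nat_lit 4) (nat_lit 487) (nat_lit 357) (nat_lit 356))) (XT.nd (nat_lit 78) (nat_lit 0) (nat_lit 0) (XT.lf (nat_lit 0) (nat_lit 19525800640) (nat_lit 76) (nat_lit 13060210522) (nat_lit 76) (nat_lit 12914196003) (nat_lit 13) (nat_lit 4) (nat_lit 14) (nat_lit 5) (nat_lit 14) (nat_lit 4) (nat_lit 488) (nat_lit 357) (nat_lit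 355)) (XT.lf (nat_lit 0) (nat_lit 40375460169) (nat_lit 76) (nat_lit 3561770320) (nat_lit 76) (nat_lit 3347920949) (nat_lit 13) (nat_lit 4) (nat_lit 14) (nat_lit 5) (nat_lit 14) (nat_lit 4) (nat_lit 489) (nat_lit 357) (nat_lit 354))))) (XT.nd (nat_lit 312) (nat_lit 152) (nat_lit 0) (XT.nd (nat_lit 156) (nat_lit 76) (nat_lit 0) (XT.nd (nat_lit 78) (nat_lit 0) (nat_lit 0) (XT.lf (nat_lit 0) (nat_lit 6479227368) (nat_lit 152) (nat_lit 36461011313) (nat_lit 0) (nat_lit 6214033090) (nat_lit 11) (nat_lit 5) (nat_lit 13) (nat_lit 4) (nat_lit 11) (nat_lit 4) (nat_lit 490) (nat_lit 357) (nat_lit 353)) (XT.lf (nat_lit 0) (nat_lit 16559597783) (nat_lit 152) (nat_lit 18324983301) (nat_lit 0) (nat_lit 16235805209) (nat_lit 11) (nat_lit 5) (nat_lit 13) (nat_lit 4) (nat_lit 11) (nat_lit 4) (nat_lit 491) (nat_lit 357) (nat_lit 352))) (XT.nd (nat_lit 78) (nat_lit 0) (nat_lit 0) (XT.lf (nat_lit 0) (nat_lit 136458582)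 (nat_lit 76) (nat_lit 26721134630) (nat_lit 76) (nat_lit 26341534155) (nat_lit 10) (nat_lit 4) (nat_lit 11) (nat_lit 5) (nat_lit 11) (nat_lit 4) (nat_lit 492) (nat_lit 357) (nat_lit 351)) (XT.lf (nat_lit 0) (nat_lit 19580867208) (nat_lit 76) (nat_lit 18116181122) (nat_lit 76) (nat_lit 17683430265) (nat_lit 10) (nat_lit 4) (nat_lit 11) (nat_lit 5) (nat_lit 11) (nat_lit 4) (nat_lit 493) (nat_lit 357) (nat_lit 350)))) (XT.nd (nat_lit 156) (nat_lit 76) (nat_lit 0) (XT.nd (nat_lit 78) (nat_lit 76) (nat_lit 0) (XT.lf (nat_lit 0) (nat_lit 39448632081) (nat_lit 76) (nat_lit 9359575035) (nat_lit 76) (nat_lit 8876204768) (nat_lit 10) (nat_lit 4) (nat_lit 11) (nat_lit 5) (nat_lit 11) (nat_lit 4) (nat_lit 494) (nat_lit 357) (nat_lit 349)) (XT.lf (nat_lit 0) (nat_lit 97875709) (nat_lit 152) (nat_lit 330934025) (nat_lit 76) (nat_lit 59687524120) (nat_lit 9) (nat_lit 5) (nat_lit 11) (nat_lit 5) (nat_lit 10)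 (nat_lit 4) (nat_lit 495) (nat_lit 357) (nat_lit 348))) (XT.nd (nat_lit 78) (nat_lit 0) (nat_lit 0) (XT.lf (nat_lit 0) (nat_lit 9403376483) (nat_lit 152) (nat_lit 44396766418) (nat_lit 0) (nat_lit 8853383599) (nat_lit 8) (nat_lit 5) (nat_lit 10) (nat_lit 4) (nat_lit 8) (nat_lit 4) (nat_lit 496) (nat_lit 357) (nat_lit 347)) (XT.lf (nat_lit 0) (nat_lit 18937860153) (nat_lit 152) (nat_lit 28045311537) (nat_lit 0) (nat_lit 18346222554) (nat_lit 8) (nat_lit 5) (nat_lit 10) (nat_lit 4) (nat_lit 8) (nat_lit 4) (nat_lit 497) (nat_lit 357) (nat_lit 346)))))) (XT.nd (nat_lit 624) (nat_lit 76) (nat_lit 0) (XT.nd (nat_lit 312) (nat_lit 152) (nat_lit 0) (XT.nd (nat_lit 156) (nat_lit 0) (nat_lit 0) (XT.nd (nat_lit 78) (nat_lit 76) (nat_lit 0) (XT.lf (nat_lit 0) (nat_lit 28711907802) (nat_lit 152) (nat_lit 11358397834) (nat_lit 0) (nat_lit 28080608569) (nat_lit 8) (nat_lit 5) (nat_lit 10) (nat_lit 4) (nat_lit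 8) (nat_lit 4) (nat_lit 498) (nat_lit 357) (nat_lit 345)) (XT.lf (nat_lit 0) (nat_lit 5892295698) (nat_lit 76) (nat_lit 32948490520) (nat_lit 76) (nat_lit 32279418304) (nat_lit 7) (nat_lit 4) (nat_lit 8) (nat_lit 5) (nat_lit 8) (nat_lit 4) (nat_lit 499) (nat_lit 357) (nat_lit 344))) (XT.nd (nat_lit 78) (nat_lit 0) (nat_lit 0) (XT.lf (nat_lit 0) (nat_lit 23948111461) (nat_lit 76) (nat_lit 25498192672) (nat_lit 76) (nat_lit 24793146186) (nat_lit 7) (nat_lit 4) (nat_lit 8) (nat_lit 5) (nat_lit 8) (nat_lit 4) (nat_lit 500) (nat_lit 357) (nat_lit 343)) (XT.lf (nat_lit 0) (nat_lit 42476479561) (nat_lit 76) (nat_lit 17894033252) (nat_lit 76) (nat_lit 17154725555) (nat_lit 7) (nat_lit 4) (nat_lit 8) (nat_lit 5) (nat_lit 8) (nat_lit 4) (nat_lit 501) (nat_lit 357) (nat_lit 342)))) (XT.nd (nat_lit 156) (nat_lit 152) (nat_lit 0) (XT.nd (nat_lit 78) (nat_lit 0) (nat_lit 0) (XT.lf (nat_lit 0) (nat_lit 61521515162)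 (nat_lit 76) (nat_lit 10117907117) (nat_lit 76) (nat_lit 9345969697) (nat_lit 7) (nat_lit 4) (nat_lit 8) (nat_lit 5) (nat_lit 8) (nat_lit 4) (nat_lit 502) (nat_lit 357) (nat_lit 341)) (XT.lf (nat_lit 0) (nat_lit 81128563587) (nat_lit 76) (nat_lit 2151299681) (nat_lit 76) (nat_lit 1348286334) (nat_lit 7) (nat_lit 4) (nat_lit 8) (nat_lit 5) (nat_lit 8) (nat_lit 4) (nat_lit 503) (nat_lit 357) (nat_lit 340))) (XT.nd (nat_lit 78) (nat_lit 0) (nat_lit 0) (XT.lf (nat_lit 0) (nat_lit 6943133779) (nat_lit 152) (nat_lit 75348262898) (nat_lit 0) (nat_lit 6150172381) (nat_lit 5) (nat_lit 5) (nat_lit 7) (nat_lit 4) (nat_lit 5) (nat_lit 4) (nat_lit 504) (nat_lit 357) (nat_lit 339)) (XT.lf (nat_lit 0) (nat_lit 15513639995) (nat_lit 152) (nat_lit 62241589534) (nat_lit 0) (nat_lit 14693834042) (nat_lit 5) (nat_lit 5) (nat_lit 7) (nat_lit 4) (nat_lit 5) (nat_lit 4) (nat_lit 505) (nat_lit 357) (nat_lit 338)))))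 (XT.nd (nat_lit 312) (nat_lit 76) (nat_lit 0) (XT.nd (nat_lit 156) (nat_lit 0) (nat_lit 0) (XT.nd (nat_lit 78) (nat_lit 0) (nat_lit 0) (XT.lf (nat_lit 0) (nat_lit 24335833783) (nat_lit 152) (nat_lit 48839479853) (nat_lit 0) (nat_lit 23490461587) (nat_lit 5) (nat_lit 5) (nat_lit 7) (nat_lit 4) (nat_lit 5) (nat_lit 4) (nat_lit 506) (nat_lit 357) (nat_lit 337)) (XT.lf (nat_lit 0) (nat_lit 33430720366) (nat_lit 152) (nat_lit 35110024071) (nat_lit 0) (nat_lit 32560999368) (nat_lit 5) (nat_lit 5) (nat_lit 7) (nat_lit 4) (nat_lit 5) (nat_lit 4) (nat_lit 507) (nat_lit 357) (nat_lit 336))) (XT.nd (nat_lit 78) (nat_lit 0) (nat_lit 0) (XT.lf (nat_lit 0) (nat_lit 42819954236) (nat_lit 152) (nat_lit 21020533007) (nat_lit 0) (nat_lit 41927043903) (nat_lit 5) (nat_lit 5) (nat_lit 7) (nat_lit 4) (nat_lit 5) (nat_lit 4) (nat_lit 508) (nat_lit 357) (nat_lit 335)) (XT.lf (nat_lit 0) (nat_lit 52525890712) (nat_lit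 152) (nat_lit 6537460254) (nat_lit 0) (nat_lit 51610895298) (nat_lit 5) (nat_lit 5) (nat_lit 7) (nat_lit 4) (nat_lit 5) (nat_lit 4) (nat_lit 509) (nat_lit 357) (nat_lit 334)))) (XT.nd (nat_lit 156) (nat_lit 0) (nat_lit 0) (XT.nd (nat_lit 78) (nat_lit 0) (nat_lit 0) (XT.lf (nat_lit 0) (nat_lit 8650549295) (nat_lit 76) (nat_lit 54056149190) (nat_lit 76) (nat_lit 53120120364) (nat_lit 4) (nat_lit 4) (nat_lit 5) (nat_lit 5) (nat_lit 5) (nat_lit 4) (nat_lit 510) (nat_lit 357) (nat_lit 333)) (XT.lf (nat_lit 0) (nat_lit 24533612358) (nat_lit 76) (nat_lit 48830544135) (nat_lit 76) (nat_lit 47874483490) (nat_lit 4) (nat_lit 4) (nat_lit 5) (nat_lit 5) (nat_lit 5) (nat_lit 4) (nat_lit 511) (nat_lit 357) (nat_lit 332))) (XT.nd (nat_lit 78) (nat_lit 0) (nat_lit 0) (XT.lf (nat_lit 0) (nat_lit 40933387792) (nat_lit 76) (nat_lit 43484808939) (nat_lit 76) (nat_lit 42509670370) (nat_lit 4) (nat_lit 4) (nat_lit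 5) (nat_lit 5) (nat_lit 5) (nat_lit 4) (nat_lit 512) (nat_lit 357) (nat_lit 331)) (XT.lf (nat_lit 0) (nat_lit 57888922681) (nat_lit 76) (nat_lit 38006215660) (nat_lit 76) (nat_lit 37012907640) (nat_lit 4) (nat_lit 4) (nat_lit 5) (nat_lit 5) (nat_lit 5) (nat_lit 4) (nat_lit 513) (nat_lit 357) (nat_lit 330))))))) (XT.nd (nat_lit 1170) (nat_lit 76) (nat_lit 0) (XT.nd (nat_lit 546) (nat_lit 0) (nat_lit 0) (XT.nd (nat_lit 234) (nat_lit 152) (nat_lit 0) (XT.nd (nat_lit 78) (nat_lit 0) (nat_lit 0) (XT.lf (nat_lit 0) (nat_lit 75440587345) (nat_lit 76) (nat_lit 32381720030) (nat_lit 76) (nat_lit 31371107770) (nat_lit 4) (nat_lit 4) (nat_lit 5) (nat_lit 5) (nat_lit 5) (nat_lit 4) (nat_lit 514) (nat_lit 357) (nat_lit 329)) (XT.nd (nat_lit 78) (nat_lit 0) (nat_lit 0) (XT.lf (nat_lit 0) (nat_lit 93630171463) (nat_lit 76) (nat_lit 26597930391) (nat_lit 76) (nat_lit 25570837904) (nat_lit 4) (nat_lit 4) (nat_lit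 5) (nat_lit 5) (nat_lit 5) (nat_lit 4) (nat_lit 515) (nat_lit 357) (nat_lit 328)) (XT.lf (nat_lit 0) (nat_lit 112500983569) (nat_lit 76) (nat_lit 20641075816) (nat_lit 76) (nat_lit 19598287874) (nat_lit 4) (nat_lit 4) (nat_lit 5) (nat_lit 5) (nat_lit 5) (nat_lit 4) (nat_lit 516) (nat_lit 357) (nat_lit 327)))) (XT.nd (nat_lit 156) (nat_lit 152) (nat_lit 0) (XT.nd (nat_lit 78) (nat_lit 0) (nat_lit 0) (XT.lf (nat_lit 0) (nat_lit 132097954167) (nat_lit 76) (nat_lit 14496973318) (nat_lit 76) (nat_lit 13439237323) (nat_lit 4) (nat_lit 4) (nat_lit 5) (nat_lit 5) (nat_lit 5) (nat_lit 4) (nat_lit 517) (nat_lit 357) (nat_lit 326)) (XT.lf (nat_lit 0) (nat_lit 152467742711) (nat_lit 76) (nat_lit 8150994081) (nat_lit 76) (nat_lit 7079021846) (nat_lit 4) (nat_lit 4) (nat_lit 5) (nat_lit 5) (nat_lit 5) (nat_lit 4) (nat_lit 518) (nat_lit 357) (nat_lit 325))) (XT.nd (nat_lit 78) (nat_lit 152) (nat_lit 0) (XT.lf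 (nat_lit 0) (nat_lit 173658848697) (nat_lit 76) (nat_lit 1588028631) (nat_lit 76) (nat_lit 502498072) (nat_lit 4) (nat_lit 4) (nat_lit 5) (nat_lit 5) (nat_lit 5) (nat_lit 4) (nat_lit 519) (nat_lit 357) (nat_lit 324)) (XT.lf (nat_lit 0) (nat_lit 6374212268) (nat_lit 152) (nat_lit 172487472244) (nat_lit 0) (nat_lit 5328075840) (nat_lit 2) (nat_lit 5) (nat_lit 4) (nat_lit 4) (nat_lit 2) (nat_lit 4) (nat_lit 520) (nat_lit 357) (nat_lit 323))))) (XT.nd (nat_lit 312) (nat_lit 0) (nat_lit 0) (XT.nd (nat_lit 156) (nat_lit 0) (nat_lit 0) (XT.nd (nat_lit 78) (nat_lit 0) (nat_lit 0) (XT.lf (nat_lit 0) (nat_lit 13546169579) (nat_lit 152) (nat_lit 167018847433) (nat_lit 0) (nat_lit 12488320962) (nat_lit 2) (nat_lit 5) (nat_lit 4) (nat_lit 4) (nat_lit 2) (nat_lit 4) (nat_lit 521) (nat_lit 357) (nat_lit 322)) (XT.lf (nat_lit 0) (nat_lit 20987468520) (nat_lit 152) (nat_lit 161458623563) (nat_lit 0) (nat_lit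 19918465436) (nat_lit 2) (nat_lit 5) (nat_lit 4) (nat_lit 4) (nat_lit 2) (nat_lit 4) (nat_lit 522) (nat_lit 357) (nat_lit 321))) (XT.nd (nat_lit 78) (nat_lit 0) (nat_lit 0) (XT.lf (nat_lit 0) (nat_lit 28715826468) (nat_lit 152) (nat_lit 155793562006) (nat_lit 0) (nat_lit 27636200082) (nat_lit 2) (nat_lit 5) (nat_lit 4) (nat_lit 4) (nat_lit 2) (nat_lit 4) (nat_lit 523) (nat_lit 357) (nat_lit 320)) (XT.lf (nat_lit 0) (nat_lit 36749644276) (nat_lit 152) (nat_lit 150010174521) (nat_lit 0) (nat_lit 35659900460) (nat_lit 2) (nat_lit 5) (nat_lit 4) (nat_lit 4) (nat_lit 2) (nat_lit 4) (nat_lit 524) (nat_lit 357) (nat_lit 319)))) (XT.nd (nat_lit 156) (nat_lit 0) (nat_lit 0) (XT.nd (nat_lit 78) (nat_lit 0) (nat_lit 0) (XT.lf (nat_lit 0) (nat_lit 45108050081) (nat_lit 152) (nat_lit 144094691137) (nat_lit 0) (nat_lit 44008670617) (nat_lit 2) (nat_lit 5) (nat_lit 4) (nat_lit 4) (nat_lit 2) (nat_lit 4) (nat_lit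 525) (nat_lit 357) (nat_lit 318)) (XT.lf (nat_lit 0) (nat_lit 53810944850) (nat_lit 152) (nat_lit 138033027370) (nat_lit 0) (nat_lit 52702388579) (nat_lit 2) (nat_lit 5) (nat_lit 4) (nat_lit 4) (nat_lit 2) (nat_lit 4) (nat_lit 526) (nat_lit 357) (nat_lit 317))) (XT.nd (nat_lit 78) (nat_lit 0) (nat_lit 0) (XT.lf (nat_lit 0) (nat_lit 62879049761) (nat_lit 152) (nat_lit 131810750688) (nat_lit 0) (nat_lit 61761753673) (nat_lit 2) (nat_lit 5) (nat_lit 4) (nat_lit 4) (nat_lit 2) (nat_lit 4) (nat_lit 527) (nat_lit 357) (nat_lit 316)) (XT.lf (nat_lit 0) (nat_lit 72333955539) (nat_lit 152) (nat_lit 125413046145) (nat_lit 0) (nat_lit 71208335816) (nat_lit 2) (nat_lit 5) (nat_lit 4) (nat_lit 4) (nat_lit 2) (nat_lit 4) (nat_lit 528) (nat_lit 357) (nat_lit 315)))))) (XT.nd (nat_lit 624) (nat_lit 76) (nat_lit 0) (XT.nd (nat_lit 312) (nat_lit 0) (nat_lit 0) (XT.nd (nat_lit 156) (nat_lit 0) (nat_lit 0) (XT.nd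 (nat_lit 78) (nat_lit 0) (nat_lit 0) (XT.lf (nat_lit 0) (nat_lit 82198173865) (nat_lit 152) (nat_lit 118824681112) (nat_lit 0) (nat_lit 81064626870) (nat_lit 2) (nat_lit 5) (nat_lit 4) (nat_lit 4) (nat_lit 2) (nat_lit 4) (nat_lit 529) (nat_lit 357) (nat_lit 314)) (XT.lf (nat_lit 0) (nat_lit 92495190973) (nat_lit 152) (nat_lit 112029969006) (nat_lit 0) (nat_lit 91354094196) (nat_lit 2) (nat_lit 5) (nat_lit 4) (nat_lit 4) (nat_lit 2) (nat_lit 4) (nat_lit 530) (nat_lit 357) (nat_lit 313))) (XT.nd (nat_lit 78) (nat_lit 0) (nat_lit 0) (XT.lf (nat_lit 0) (nat_lit 103249523571) (nat_lit 152) (nat_lit 105012731940) (nat_lit 0) (nat_lit 102101236525) (nat_lit 2) (nat_lit 5) (nat_lit 4) (nat_lit 4) (nat_lit 2) (nat_lit 4) (nat_lit 531) (nat_lit 357) (nat_lit 312)) (XT.lf (nat_lit 0) (nat_lit 114486777211) (nat_lit 152) (nat_lit 97756262207) (nat_lit 0) (nat_lit 113331642291) (nat_lit 2) (nat_lit 5) (nat_lit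 4) (nat_lit 4) (nat_lit 2) (nat_lit 4) (nat_lit 532) (nat_lit 357) (nat_lit 311)))) (XT.nd (nat_lit 156) (nat_lit 0) (nat_lit 0) (XT.nd (nat_lit 78) (nat_lit 0) (nat_lit 0) (XT.lf (nat_lit 0) (nat_lit 126233707261) (nat_lit 152) (nat_lit 90243282499) (nat_lit 0) (nat_lit 125072050555) (nat_lit 2) (nat_lit 5) (nat_lit 4) (nat_lit 4) (nat_lit 2) (nat_lit 4) (nat_lit 533) (nat_lit 357) (nat_lit 310)) (XT.lf (nat_lit 0) (nat_lit 138518282602) (nat_lit 152) (nat_lit 82455904768) (nat_lit 0) (nat_lit 137350414671) (nat_lit 2) (nat_lit 5) (nat_lit 4) (nat_lit 4) (nat_lit 2) (nat_lit 4) (nat_lit 534) (nat_lit 357) (nat_lit 309))) (XT.nd (nat_lit 78) (nat_lit 0) (nat_lit 0) (XT.lf (nat_lit 0) (nat_lit 151369752221) (nat_lit 152) (nat_lit 74375587639) (nat_lit 0) (nat_lit 150195968838) (nat_lit 2) (nat_lit 5) (nat_lit 4) (nat_lit 4) (nat_lit 2) (nat_lit 4) (nat_lit 535) (nat_lit 357) (nat_lit 308)) (XT.lf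 (nat_lit 0) (nat_lit 164818714857) (nat_lit 152) (nat_lit 65983092262) (nat_lit 0) (nat_lit 163639297710) (nat_lit 2) (nat_lit 5) (nat_lit 4) (nat_lit 4) (nat_lit 2) (nat_lit 4) (nat_lit 536) (nat_lit 357) (nat_lit 307))))) (XT.nd (nat_lit 312) (nat_lit 76) (nat_lit 0) (XT.nd (nat_lit 156) (nat_lit 0) (nat_lit 0) (XT.nd (nat_lit 78) (nat_lit 0) (nat_lit 0) (XT.lf (nat_lit 0) (nat_lit 178897191848) (nat_lit 152) (nat_lit 57258436504) (nat_lit 0) (nat_lit 177712409212) (nat_lit 2) (nat_lit 5) (nat_lit 4) (nat_lit 4) (nat_lit 2) (nat_lit 4) (nat_lit 537) (nat_lit 357) (nat_lit 306)) (XT.lf (nat_lit 0) (nat_lit 193638703379) (nat_lit 152) (nat_lit 48180847376) (nat_lit 0) (nat_lit 192448810753) (nat_lit 2) (nat_lit 5) (nat_lit 4) (nat_lit 4) (nat_lit 2) (nat_lit 4) (nat_lit 538) (nat_lit 357) (nat_lit 305))) (XT.nd (nat_lit 78) (nat_lit 0) (nat_lit 0) (XT.lf (nat_lit 0) (nat_lit 209078348286) (nat_lit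 152) (nat_lit 38728711571) (nat_lit 0) (nat_lit 207883589003) (nat_lit 2) (nat_lit 5) (nat_lit 4) (nat_lit 4) (nat_lit 2) (nat_lit 4) (nat_lit 539) (nat_lit 357) (nat_lit 304)) (XT.lf (nat_lit 0) (nat_lit 225252887628) (nat_lit 152) (nat_lit 28879524002) (nat_lit 0) (nat_lit 224053493434) (nat_lit 2) (nat_lit 5) (nat_lit 4) (nat_lit 4) (nat_lit 2) (nat_lit 4) (nat_lit 540) (nat_lit 357) (nat_lit 303)))) (XT.nd (nat_lit 156) (nat_lit 76) (nat_lit 0) (XT.nd (nat_lit 78) (nat_lit 0) (nat_lit 0) (XT.lf (nat_lit 0) (nat_lit 242200832214) (nat_lit 152) (nat_lit 18609834224) (nat_lit 0) (nat_lit 240997023819) (nat_lit 2) (nat_lit 5) (nat_lit 4) (nat_lit 4) (nat_lit 2) (nat_lit 4) (nat_lit 541) (nat_lit 357) (nat_lit 302)) (XT.lf (nat_lit 0) (nat_lit 259962534292) (nat_lit 152) (nat_lit 7895190595) (nat_lit 0) (nat_lit 258754521896) (nat_lit 2) (nat_lit 5) (nat_lit 4) (nat_lit 4) (nat_lit 2) (nat_lit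 4) (nat_lit 542) (nat_lit 357) (nat_lit 301))) (XT.nd (nat_lit 78) (nat_lit 0) (nat_lit 0) (XT.lf (nat_lit 0) (nat_lit 3398697487) (nat_lit 76) (nat_lit 275234649335) (nat_lit 76) (nat_lit 274022633128) (nat_lit 1) (nat_lit 4) (nat_lit 2) (nat_lit 5) (nat_lit 2) (nat_lit 4) (nat_lit 543) (nat_lit 357) (nat_lit 300)) (XT.lf (nat_lit 0) (nat_lit 15467168588) (nat_lit 76) (nat_lit 282872725461) (nat_lit 76) (nat_lit 281656896101) (nat_lit 1) (nat_lit 4) (nat_lit 2) (nat_lit 5) (nat_lit 2) (nat_lit 4) (nat_lit 544) (nat_lit 357) (nat_lit 299))))))))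
noncomputable def xc19 : XT := (XT.nd (nat_lit 59436) (nat_lit 0) (nat_lit 76) (XT.nd (nat_lit 58188) (nat_lit 0) (nat_lit 304) (XT.nd (nat_lit 546) (nat_lit 0) (nat_lit 0) (XT.nd (nat_lit 234) (nat_lit 0) (nat_lit 0) (XT.nd (nat_lit 78) (nat_lit 0) (nat_lit 0) (XT.lf (nat_lit 0) (nat_lit 28077906506) (nat_lit 76) (nat_lit 290923848034) (nat_lit 76) (nat_lit 289704387100) (nat_lit 1) (nat_lit 4) (nat_lit 2) (nat_lit 5) (nat_lit 2) (nat_lit 4) (nat_lit 545) (nat_lit 357) (nat_lit 298)) (XT.nd (nat_lit 78) (nat_lit 0) (nat_lit 0) (XT.lf (nat_lit 0) (nat_lit 41260936806) (nat_lit 76) (nat_lit 299407186395) (nat_lit 76) (nat_lit 298184266818) (nat_lit 1) (nat_lit 4) (nat_lit 2) (nat_lit 5) (nat_lit 2) (nat_lit 4) (nat_lit 546) (nat_lit 357) (nat_lit 297)) (XT.lf (nat_lit 0) (nat_lit 55047647657) (nat_lit 76) (nat_lit 308342938966) (nat_lit 76) (nat_lit 307116725445) (nat_lit 1) (nat_lit 4) (nat_lit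 2) (nat_lit 5) (nat_lit 2) (nat_lit 4) (nat_lit 547) (nat_lit 357) (nat_lit 296)))) (XT.nd (nat_lit 156) (nat_lit 0) (nat_lit 0) (XT.nd (nat_lit 78) (nat_lit 0) (nat_lit 0) (XT.lf (nat_lit 0) (nat_lit 69470864560) (nat_lit 76) (nat_lit 317752381351) (nat_lit 76) (nat_lit 316523030739) (nat_lit 1) (nat_lit 4) (nat_lit 2) (nat_lit 5) (nat_lit 2) (nat_lit 4) (nat_lit 548) (nat_lit 357) (nat_lit 295)) (XT.lf (nat_lit 0) (nat_lit 84564928508) (nat_lit 76) (nat_lit 327657916982) (nat_lit 76) (nat_lit 326425578665) (nat_lit 1) (nat_lit 4) (nat_lit 2) (nat_lit 5) (nat_lit 2) (nat_lit 4) (nat_lit 549) (nat_lit 357) (nat_lit 294))) (XT.nd (nat_lit 78) (nat_lit 0) (nat_lit 0) (XT.lf (nat_lit 0) (nat_lit 100365777749) (nat_lit 76) (nat_lit 338083130469) (nat_lit 76) (nat_lit 336847946719) (nat_lit 1) (nat_lit 4) (nat_lit 2) (nat_lit 5) (nat_lit 2) (nat_lit 4) (nat_lit 550) (nat_lit 357) (nat_lit 293)) (XT.lf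 (nat_lit 0) (nat_lit 116911033352) (nat_lit 76) (nat_lit 349052843749) (nat_lit 76) (nat_lit 347814950062) (nat_lit 1) (nat_lit 4) (nat_lit 2) (nat_lit 5) (nat_lit 2) (nat_lit 4) (nat_lit 551) (nat_lit 357) (nat_lit 292))))) (XT.nd (nat_lit 57330) (nat_lit 0) (nat_lit 912) (XT.nd (nat_lit 57174) (nat_lit 0) (nat_lit 988) (XT.nd (nat_lit 78) (nat_lit 0) (nat_lit 0) (XT.lf (nat_lit 0) (nat_lit 134240088783) (nat_lit 76) (nat_lit 360593175186) (nat_lit 76) (nat_lit 359352700607) (nat_lit 1) (nat_lit 4) (nat_lit 2) (nat_lit 5) (nat_lit 2) (nat_lit 4) (nat_lit 552) (nat_lit 357) (nat_lit 291)) (XT.lf (nat_lit 0) (nat_lit 152394203697) (nat_lit 76) (nat_lit 372731601761) (nat_lit 76) (nat_lit 371488669189) (nat_lit 1) (nat_lit 4) (nat_lit 2) (nat_lit 5) (nat_lit 2) (nat_lit 4) (nat_lit 553) (nat_lit 357) (nat_lit 290))) (XT.nd (nat_lit 78) (nat_lit 152) (nat_lit 0) (XT.lf (nat_lit 0) (nat_lit 10305986370)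 (nat_lit 76) (nat_lit 4655752958) (nat_lit 76) (nat_lit 4655752958) (nat_lit 16) (nat_lit 4) (nat_lit 17) (nat_lit 5) (nat_lit 17) (nat_lit 4) (nat_lit 484) (nat_lit 358) (nat_lit 358)) (XT.lf (nat_lit 0) (nat_lit 597626186) (nat_lit 152) (nat_lit 39580380481) (nat_lit 0) (nat_lit 519098865) (nat_lit 14) (nat_lit 5) (nat_lit 16) (nat_lit 4) (nat_lit 14) (nat_lit 4) (nat_lit 485) (nat_lit 358) (nat_lit 357)))) (XT.nd (nat_lit 156) (nat_lit 76) (nat_lit 0) (XT.nd (nat_lit 78) (nat_lit 0) (nat_lit 0) (XT.lf (nat_lit 0) (nat_lit 10828151530) (nat_lit 152) (nat_lit 20714770669) (nat_lit 0) (nat_lit 10674836285) (nat_lit 14) (nat_lit 5) (nat_lit 16) (nat_lit 4) (nat_lit 14) (nat_lit 4) (nat_lit 486) (nat_lit 358) (nat_lit 356)) (XT.lf (nat_lit 0) (nat_lit 21251780872) (nat_lit 152) (nat_lit 1551346762) (nat_lit 0) (nat_lit 21027239032) (nat_lit 14) (nat_lit 5) (nat_lit 16) (nat_lit 4) (nat_lit 14)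 (nat_lit 4) (nat_lit 487) (nat_lit 358) (nat_lit 355))) (XT.nd (nat_lit 78) (nat_lit 0) (nat_lit 0) (XT.lf (nat_lit 0) (nat_lit 18549208966) (nat_lit 76) (nat_lit 13633728545) (nat_lit 76) (nat_lit 13341351853) (nat_lit 13) (nat_lit 4) (nat_lit 14) (nat_lit 5) (nat_lit 14) (nat_lit 4) (nat_lit 488) (nat_lit 358) (nat_lit 354)) (XT.lf (nat_lit 0) (nat_lit 39103836835) (nat_lit 76) (nat_lit 4284826715) (nat_lit 76) (nat_lit 3927845402) (nat_lit 13) (nat_lit 4) (nat_lit 14) (nat_lit 5) (nat_lit 14) (nat_lit 4) (nat_lit 489) (nat_lit 358) (nat_lit 353)))))) (XT.nd (nat_lit 624) (nat_lit 228) (nat_lit 0) (XT.nd (nat_lit 312) (nat_lit 152) (nat_lit 0) (XT.nd (nat_lit 156) (nat_lit 76) (nat_lit 0) (XT.nd (nat_lit 78) (nat_lit 0) (nat_lit 0) (XT.lf (nat_lit 0) (nat_lit 5737434252) (nat_lit 152) (nat_lit 38118816076) (nat_lit 0) (nat_lit 5338853753) (nat_lit 11) (nat_lit 5) (nat_lit 13) (nat_lit 4) (nat_lit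 11) (nat_lit 4) (nat_lit 490) (nat_lit 358) (nat_lit 352)) (XT.lf (nat_lit 0) (nat_lit 15677061249) (nat_lit 152) (nat_lit 20268522237) (nat_lit 0) (nat_lit 15222672849) (nat_lit 11) (nat_lit 5) (nat_lit 13) (nat_lit 4) (nat_lit 11) (nat_lit 4) (nat_lit 491) (nat_lit 358) (nat_lit 351))) (XT.nd (nat_lit 78) (nat_lit 76) (nat_lit 0) (XT.lf (nat_lit 0) (nat_lit 25838884827) (nat_lit 152) (nat_lit 2083575664) (nat_lit 0) (nat_lit 25331346046) (nat_lit 11) (nat_lit 5) (nat_lit 13) (nat_lit 4) (nat_lit 11) (nat_lit 4) (nat_lit 492) (nat_lit 358) (nat_lit 350)) (XT.lf (nat_lit 0) (nat_lit 17024201913) (nat_lit 76) (nat_lit 19488693392) (nat_lit 76) (nat_lit 18930535200) (nat_lit 10) (nat_lit 4) (nat_lit 11) (nat_lit 5) (nat_lit 11) (nat_lit 4) (nat_lit 493) (nat_lit 358) (nat_lit 349)))) (XT.nd (nat_lit 156) (nat_lit 152) (nat_lit 0) (XT.nd (nat_lit 78) (nat_lit 0) (nat_lit 0) (XT.lf (nat_lit 0) (nat_lit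 36636977618) (nat_lit 76) (nat_lit 10861515922) (nat_lit 76) (nat_lit 10255148767) (nat_lit 10) (nat_lit 4) (nat_lit 11) (nat_lit 5) (nat_lit 11) (nat_lit 4) (nat_lit 494) (nat_lit 358) (nat_lit 348)) (XT.lf (nat_lit 0) (nat_lit 56732556113) (nat_lit 76) (nat_lit 2055673543) (nat_lit 76) (nat_lit 1403393090) (nat_lit 10) (nat_lit 4) (nat_lit 11) (nat_lit 5) (nat_lit 11) (nat_lit 4) (nat_lit 495) (nat_lit 358) (nat_lit 347))) (XT.nd (nat_lit 78) (nat_lit 0) (nat_lit 0) (XT.lf (nat_lit 0) (nat_lit 7748871960) (nat_lit 152) (nat_lit 47904939282) (nat_lit 0) (nat_lit 7086007767) (nat_lit 8) (nat_lit 5) (nat_lit 10) (nat_lit 4) (nat_lit 8) (nat_lit 4) (nat_lit 496) (nat_lit 358) (nat_lit 346)) (XT.lf (nat_lit 0) (nat_lit 17167667725) (nat_lit 152) (nat_lit 31788661923) (nat_lit 0) (nat_lit 16465141899) (nat_lit 8) (nat_lit 5) (nat_lit 10) (nat_lit 4) (nat_lit 8) (nat_lit 4) (nat_lit 497) (nat_lit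 358) (nat_lit 345))))) (XT.nd (nat_lit 312) (nat_lit 152) (nat_lit 0) (XT.nd (nat_lit 156) (nat_lit 0) (nat_lit 0) (XT.nd (nat_lit 78) (nat_lit 76) (nat_lit 0) (XT.lf (nat_lit 0) (nat_lit 26831536416) (nat_lit 152) (nat_lit 15325726813) (nat_lit 0) (nat_lit 26091237606) (nat_lit 8) (nat_lit 5) (nat_lit 10) (nat_lit 4) (nat_lit 8) (nat_lit 4) (nat_lit 498) (nat_lit 358) (nat_lit 344)) (XT.lf (nat_lit 0) (nat_lit 1573422871) (nat_lit 76) (nat_lit 35214629914) (nat_lit 76) (nat_lit 34438356832) (nat_lit 7) (nat_lit 4) (nat_lit 8) (nat_lit 5) (nat_lit 8) (nat_lit 4) (nat_lit 499) (nat_lit 358) (nat_lit 343))) (XT.nd (nat_lit 78) (nat_lit 0) (nat_lit 0) (XT.lf (nat_lit 0) (nat_lit 19419366219) (nat_lit 76) (nat_lit 27870992222) (nat_lit 76) (nat_lit 27060457931) (nat_lit 7) (nat_lit 4) (nat_lit 8) (nat_lit 5) (nat_lit 8) (nat_lit 4) (nat_lit 500) (nat_lit 358) (nat_lit 342)) (XT.lf (nat_lit 0) (nat_lit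 37747855829) (nat_lit 76) (nat_lit 20368413902) (nat_lit 76) (nat_lit 19525249887) (nat_lit 7) (nat_lit 4) (nat_lit 8) (nat_lit 5) (nat_lit 8) (nat_lit 4) (nat_lit 501) (nat_lit 358) (nat_lit 341)))) (XT.nd (nat_lit 156) (nat_lit 152) (nat_lit 0) (XT.nd (nat_lit 78) (nat_lit 0) (nat_lit 0) (XT.lf (nat_lit 0) (nat_lit 56602530964) (nat_lit 76) (nat_lit 12689031672) (nat_lit 76) (nat_lit 11814791730) (nat_lit 7) (nat_lit 4) (nat_lit 8) (nat_lit 5) (nat_lit 8) (nat_lit 4) (nat_lit 502) (nat_lit 358) (nat_lit 340)) (XT.lf (nat_lit 0) (nat_lit 76028283705) (nat_lit 76) (nat_lit 4814561290) (nat_lit 76) (nat_lit 3910725226) (nat_lit 7) (nat_lit 4) (nat_lit 8) (nat_lit 5) (nat_lit 8) (nat_lit 4) (nat_lit 503) (nat_lit 358) (nat_lit 339))) (XT.nd (nat_lit 78) (nat_lit 0) (nat_lit 0) (XT.lf (nat_lit 0) (nat_lit 4244885308) (nat_lit 152) (nat_lit 80977751661) (nat_lit 0) (nat_lit 3357244503) (nat_lit 5)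 (nat_lit 5) (nat_lit 7) (nat_lit 4) (nat_lit 5) (nat_lit 4) (nat_lit 504) (nat_lit 358) (nat_lit 338)) (XT.lf (nat_lit 0) (nat_lit 12729129212) (nat_lit 152) (nat_lit 68046637981) (nat_lit 0) (nat_lit 11815922165) (nat_lit 5) (nat_lit 5) (nat_lit 7) (nat_lit 4) (nat_lit 5) (nat_lit 4) (nat_lit 505) (nat_lit 358) (nat_lit 337))))))) (XT.nd (nat_lit 1170) (nat_lit 0) (nat_lit 0) (XT.nd (nat_lit 546) (nat_lit 152) (nat_lit 0) (XT.nd (nat_lit 234) (nat_lit 76) (nat_lit 0) (XT.nd (nat_lit 78) (nat_lit 0) (nat_lit 0) (XT.lf (nat_lit 0) (nat_lit 21469168417) (nat_lit 152) (nat_lit 54811727999) (nat_lit 0) (nat_lit 20531612568) (nat_lit 5) (nat_lit 5) (nat_lit 7) (nat_lit 4) (nat_lit 5) (nat_lit 4) (nat_lit 506) (nat_lit 358) (nat_lit 336)) (XT.nd (nat_lit 78) (nat_lit 0) (nat_lit 0) (XT.lf (nat_lit 0) (nat_lit 30485812541) (nat_lit 152) (nat_lit 41241510025) (nat_lit 0) (nat_lit 29525067356) (nat_lit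 5) (nat_lit 5) (nat_lit 7) (nat_lit 4) (nat_lit 5) (nat_lit 4) (nat_lit 507) (nat_lit 358) (nat_lit 335)) (XT.lf (nat_lit 0) (nat_lit 39800529783) (nat_lit 152) (nat_lit 27303674017) (nat_lit 0) (nat_lit 38817699517) (nat_lit 5) (nat_lit 5) (nat_lit 7) (nat_lit 4) (nat_lit 5) (nat_lit 4) (nat_lit 508) (nat_lit 358) (nat_lit 334)))) (XT.nd (nat_lit 156) (nat_lit 0) (nat_lit 0) (XT.nd (nat_lit 78) (nat_lit 76) (nat_lit 0) (XT.lf (nat_lit 0) (nat_lit 49435498042) (nat_lit 152) (nat_lit 12965034650) (nat_lit 0) (nat_lit 48431634365) (nat_lit 5) (nat_lit 5) (nat_lit 7) (nat_lit 4) (nat_lit 5) (nat_lit 4) (nat_lit 509) (nat_lit 358) (nat_lit 333)) (XT.lf (nat_lit 0) (nat_lit 1868346446) (nat_lit 76) (nat_lit 57574481396) (nat_lit 76) (nat_lit 56550585899) (nat_lit 4) (nat_lit 4) (nat_lit 5) (nat_lit 5) (nat_lit 5) (nat_lit 4) (nat_lit 510) (nat_lit 358) (nat_lit 332))) (XT.nd (nat_lit 78) (nat_lit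 0) (nat_lit 0) (XT.lf (nat_lit 0) (nat_lit 17616072542) (nat_lit 76) (nat_lit 52417730054) (nat_lit 76) (nat_lit 51374756633) (nat_lit 4) (nat_lit 4) (nat_lit 5) (nat_lit 5) (nat_lit 5) (nat_lit 4) (nat_lit 511) (nat_lit 358) (nat_lit 331)) (XT.lf (nat_lit 0) (nat_lit 33886955627) (nat_lit 76) (nat_lit 47137569823) (nat_lit 76) (nat_lit 46076426951) (nat_lit 4) (nat_lit 4) (nat_lit 5) (nat_lit 5) (nat_lit 5) (nat_lit 4) (nat_lit 512) (nat_lit 358) (nat_lit 330))))) (XT.nd (nat_lit 312) (nat_lit 152) (nat_lit 0) (XT.nd (nat_lit 156) (nat_lit 0) (nat_lit 0) (XT.nd (nat_lit 78) (nat_lit 0) (nat_lit 0) (XT.lf (nat_lit 0) (nat_lit 50719735896) (nat_lit 76) (nat_lit 41721428892) (nat_lit 76) (nat_lit 40642981780) (nat_lit 4) (nat_lit 4) (nat_lit 5) (nat_lit 5) (nat_lit 5) (nat_lit 4) (nat_lit 513) (nat_lit 358) (nat_lit 329)) (XT.lf (nat_lit 0) (nat_lit 68154491400) (nat_lit 76) (nat_lit 36156411687)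 (nat_lit 76) (nat_lit 35061484348) (nat_lit 4) (nat_lit 4) (nat_lit 5) (nat_lit 5) (nat_lit 5) (nat_lit 4) (nat_lit 514) (nat_lit 358) (nat_lit 328))) (XT.nd (nat_lit 78) (nat_lit 0) (nat_lit 0) (XT.lf (nat_lit 0) (nat_lit 86232733461) (nat_lit 76) (nat_lit 30429268168) (nat_lit 76) (nat_lit 29318645374) (nat_lit 4) (nat_lit 4) (nat_lit 5) (nat_lit 5) (nat_lit 5) (nat_lit 4) (nat_lit 515) (nat_lit 358) (nat_lit 327)) (XT.lf (nat_lit 0) (nat_lit 104997505511) (nat_lit 76) (nat_lit 24526362279) (nat_lit 76) (nat_lit 23400791432) (nat_lit 4) (nat_lit 4) (nat_lit 5) (nat_lit 5) (nat_lit 5) (nat_lit 4) (nat_lit 516) (nat_lit 358) (nat_lit 326)))) (XT.nd (nat_lit 156) (nat_lit 152) (nat_lit 0) (XT.nd (nat_lit 78) (nat_lit 0) (nat_lit 0) (XT.lf (nat_lit 0) (nat_lit 124493485580) (nat_lit 76) (nat_lit 18433639481) (nat_lit 76) (nat_lit 17293832394) (nat_lit 4) (nat_lit 4) (nat_lit 5) (nat_lit 5) (nat_lit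 5) (nat_lit 4) (nat_lit 517) (nat_lit 358) (nat_lit 325)) (XT.lf (nat_lit 0) (nat_lit 144767092668) (nat_lit 76) (nat_lit 12136593293) (nat_lit 76) (nat_lit 10983227882) (nat_lit 4) (nat_lit 4) (nat_lit 5) (nat_lit 5) (nat_lit 5) (nat_lit 4) (nat_lit 518) (nat_lit 358) (nat_lit 324))) (XT.nd (nat_lit 78) (nat_lit 152) (nat_lit 0) (XT.lf (nat_lit 0) (nat_lit 165866597268) (nat_lit 76) (nat_lit 5620230746) (nat_lit 76) (nat_lit 4453952646) (nat_lit 4) (nat_lit 4) (nat_lit 5) (nat_lit 5) (nat_lit 5) (nat_lit 4) (nat_lit 519) (nat_lit 358) (nat_lit 323)) (XT.lf (nat_lit 0) (nat_lit 2309678716) (nat_lit 152) (nat_lit 180899323709) (nat_lit 0) (nat_lit 1187225478) (nat_lit 2) (nat_lit 5) (nat_lit 4) (nat_lit 4) (nat_lit 2) (nat_lit 4) (nat_lit 520) (nat_lit 358) (nat_lit 322)))))) (XT.nd (nat_lit 624) (nat_lit 0) (nat_lit 0) (XT.nd (nat_lit 312) (nat_lit 0) (nat_lit 0) (XT.nd (nat_lit 156) (nat_lit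 0) (nat_lit 0) (XT.nd (nat_lit 78) (nat_lit 0) (nat_lit 0) (XT.lf (nat_lit 0) (nat_lit 9438096400) (nat_lit 152) (nat_lit 175519397523) (nat_lit 0) (nat_lit 8304488695) (nat_lit 2) (nat_lit 5) (nat_lit 4) (nat_lit 4) (nat_lit 2) (nat_lit 4) (nat_lit 521) (nat_lit 358) (nat_lit 321)) (XT.lf (nat_lit 0) (nat_lit 16837929029) (nat_lit 152) (nat_lit 170043648535) (nat_lit 0) (nat_lit 15693698022) (nat_lit 2) (nat_lit 5) (nat_lit 4) (nat_lit 4) (nat_lit 2) (nat_lit 4) (nat_lit 522) (nat_lit 358) (nat_lit 320))) (XT.nd (nat_lit 78) (nat_lit 0) (nat_lit 0) (XT.lf (nat_lit 0) (nat_lit 24526795251) (nat_lit 152) (nat_lit 164459039246) (nat_lit 0) (nat_lit 23372446814) (nat_lit 2) (nat_lit 5) (nat_lit 4) (nat_lit 4) (nat_lit 2) (nat_lit 4) (nat_lit 523) (nat_lit 358) (nat_lit 319)) (XT.lf (nat_lit 0) (nat_lit 32523001892) (nat_lit 152) (nat_lit 158752272969) (nat_lit 0) (nat_lit 31359017807) (nat_lit 2)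 (nat_lit 5) (nat_lit 4) (nat_lit 4) (nat_lit 2) (nat_lit 4) (nat_lit 524) (nat_lit 358) (nat_lit 318)))) (XT.nd (nat_lit 156) (nat_lit 0) (nat_lit 0) (XT.nd (nat_lit 78) (nat_lit 0) (nat_lit 0) (XT.lf (nat_lit 0) (nat_lit 40845587538) (nat_lit 152) (nat_lit 152909762163) (nat_lit 0) (nat_lit 39672426645) (nat_lit 2) (nat_lit 5) (nat_lit 4) (nat_lit 4) (nat_lit 2) (nat_lit 4) (nat_lit 525) (nat_lit 358) (nat_lit 317)) (XT.lf (nat_lit 0) (nat_lit 49514367869) (nat_lit 152) (nat_lit 146917596091) (nat_lit 0) (nat_lit 48332467160) (nat_lit 2) (nat_lit 5) (nat_lit 4) (nat_lit 4) (nat_lit 2) (nat_lit 4) (nat_lit 526) (nat_lit 358) (nat_lit 316))) (XT.nd (nat_lit 78) (nat_lit 0) (nat_lit 0) (XT.lf (nat_lit 0) (nat_lit 58549982839) (nat_lit 152) (nat_lit 140761507688) (nat_lit 0) (nat_lit 57359758495) (nat_lit 2) (nat_lit 5) (nat_lit 4) (nat_lit 4) (nat_lit 2) (nat_lit 4) (nat_lit 527) (nat_lit 358)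 (nat_lit 315)) (XT.lf (nat_lit 0) (nat_lit 67973945817) (nat_lit 152) (nat_lit 134426839602) (nat_lit 0) (nat_lit 66775794201) (nat_lit 2) (nat_lit 5) (nat_lit 4) (nat_lit 4) (nat_lit 2) (nat_lit 4) (nat_lit 528) (nat_lit 358) (nat_lit 314))))) (XT.nd (nat_lit 312) (nat_lit 0) (nat_lit 0) (XT.nd (nat_lit 156) (nat_lit 0) (nat_lit 0) (XT.nd (nat_lit 78) (nat_lit 0) (nat_lit 0) (XT.lf (nat_lit 0) (nat_lit 77808694809) (nat_lit 152) (nat_lit 127898509290) (nat_lit 0) (nat_lit 76602993411) (nat_lit 2) (nat_lit 5) (nat_lit 4) (nat_lit 4) (nat_lit 2) (nat_lit 4) (nat_lit 529) (nat_lit 358) (nat_lit 313)) (XT.lf (nat_lit 0) (nat_lit 88077645885) (nat_lit 152) (nat_lit 121160973109) (nat_lit 0) (nat_lit 86864754219) (nat_lit 2) (nat_lit 5) (nat_lit 4) (nat_lit 4) (nat_lit 2) (nat_lit 4) (nat_lit 530) (nat_lit 358) (nat_lit 312))) (XT.nd (nat_lit 78) (nat_lit 0) (nat_lit 0) (XT.lf (nat_lit 0) (nat_lit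 98805248928) (nat_lit 152) (nat_lit 114198189305) (nat_lit 0) (nat_lit 97585509387) (nat_lit 2) (nat_lit 5) (nat_lit 4) (nat_lit 4) (nat_lit 2) (nat_lit 4) (nat_lit 531) (nat_lit 358) (nat_lit 311)) (XT.lf (nat_lit 0) (nat_lit 110017045851) (nat_lit 152) (nat_lit 106993579821) (nat_lit 0) (nat_lit 108790784523) (nat_lit 2) (nat_lit 5) (nat_lit 4) (nat_lit 4) (nat_lit 2) (nat_lit 4) (nat_lit 532) (nat_lit 358) (nat_lit 310)))) (XT.nd (nat_lit 156) (nat_lit 0) (nat_lit 0) (XT.nd (nat_lit 78) (nat_lit 0) (nat_lit 0) (XT.lf (nat_lit 0) (nat_lit 121739731407) (nat_lit 152) (nat_lit 99529990827) (nat_lit 0) (nat_lit 120507258855) (nat_lit 2) (nat_lit 5) (nat_lit 4) (nat_lit 4) (nat_lit 2) (nat_lit 4) (nat_lit 533) (nat_lit 358) (nat_lit 309)) (XT.lf (nat_lit 0) (nat_lit 134001216753) (nat_lit 152) (nat_lit 91789651871) (nat_lit 0) (nat_lit 132762828749) (nat_lit 2) (nat_lit 5) (nat_lit 4) (nat_lit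 4) (nat_lit 2) (nat_lit 4) (nat_lit 534) (nat_lit 358) (nat_lit 308))) (XT.nd (nat_lit 78) (nat_lit 0) (nat_lit 0) (XT.lf (nat_lit 0) (nat_lit 146830695902) (nat_lit 152) (nat_lit 83754133575) (nat_lit 0) (nat_lit 145586674134) (nat_lit 2) (nat_lit 5) (nat_lit 4) (nat_lit 4) (nat_lit 2) (nat_lit 4) (nat_lit 535) (nat_lit 358) (nat_lit 307)) (XT.lf (nat_lit 0) (nat_lit 160258715232) (nat_lit 152) (nat_lit 75404303753) (nat_lit 0) (nat_lit 159009327975) (nat_lit 2) (nat_lit 5) (nat_lit 4) (nat_lit 4) (nat_lit 2) (nat_lit 4) (nat_lit 536) (nat_lit 358) (nat_lit 306))))))))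
noncomputable def xc20 : XT := (XT.nd (nat_lit 59280) (nat_lit 0) (nat_lit 76) (XT.nd (nat_lit 1170) (nat_lit 0) (nat_lit 0) (XT.nd (nat_lit 546) (nat_lit 76) (nat_lit 0) (XT.nd (nat_lit 234) (nat_lit 0) (nat_lit 0) (XT.nd (nat_lit 78) (nat_lit 0) (nat_lit 0) (XT.lf (nat_lit 0) (nat_lit 174317246218) (nat_lit 152) (nat_lit 66720281857) (nat_lit 0) (nat_lit 173062748972) (nat_lit 2) (nat_lit 5) (nat_lit 4) (nat_lit 4) (nat_lit 2) (nat_lit 4) (nat_lit 537) (nat_lit 358) (nat_lit 305)) (XT.nd (nat_lit 78) (nat_lit 0) (nat_lit 0) (XT.lf (nat_lit 0) (nat_lit 189039761554) (nat_lit 152) (nat_lit 57681391646) (nat_lit 0) (nat_lit 187780397650) (nat_lit 2) (nat_lit 5) (nat_lit 4) (nat_lit 4) (nat_lit 2) (nat_lit 4) (nat_lit 538) (nat_lit 358) (nat_lit 304)) (XT.lf (nat_lit 0) (nat_lit 204461314846) (nat_lit 152) (nat_lit 48266111951) (nat_lit 0) (nat_lit 203197316031) (nat_lit 2) (nat_lit 5) (nat_lit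 4) (nat_lit 4) (nat_lit 2) (nat_lit 4) (nat_lit 539) (nat_lit 358) (nat_lit 303)))) (XT.nd (nat_lit 156) (nat_lit 0) (nat_lit 0) (XT.nd (nat_lit 78) (nat_lit 0) (nat_lit 0) (XT.lf (nat_lit 0) (nat_lit 220618624079) (nat_lit 152) (nat_lit 38452025441) (nat_lit 0) (nat_lit 219350211063) (nat_lit 2) (nat_lit 5) (nat_lit 4) (nat_lit 4) (nat_lit 2) (nat_lit 4) (nat_lit 540) (nat_lit 358) (nat_lit 302)) (XT.lf (nat_lit 0) (nat_lit 237550159037) (nat_lit 152) (nat_lit 28215765242) (nat_lit 0) (nat_lit 236277542020) (nat_lit 2) (nat_lit 5) (nat_lit 4) (nat_lit 4) (nat_lit 2) (nat_lit 4) (nat_lit 541) (nat_lit 358) (nat_lit 301))) (XT.nd (nat_lit 78) (nat_lit 0) (nat_lit 0) (XT.lf (nat_lit 0) (nat_lit 255296232899) (nat_lit 152) (nat_lit 17532959307) (nat_lit 0) (nat_lit 254019612071) (nat_lit 2) (nat_lit 5) (nat_lit 4) (nat_lit 4) (nat_lit 2) (nat_lit 4) (nat_lit 542) (nat_lit 358) (nat_lit 300)) (XT.lf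 (nat_lit 0) (nat_lit 273899098220) (nat_lit 152) (nat_lit 6378172383) (nat_lit 0) (nat_lit 272618664239) (nat_lit 2) (nat_lit 5) (nat_lit 4) (nat_lit 4) (nat_lit 2) (nat_lit 4) (nat_lit 543) (nat_lit 358) (nat_lit 299))))) (XT.nd (nat_lit 312) (nat_lit 0) (nat_lit 0) (XT.nd (nat_lit 156) (nat_lit 0) (nat_lit 0) (XT.nd (nat_lit 78) (nat_lit 0) (nat_lit 0) (XT.lf (nat_lit 0) (nat_lit 5449574978) (nat_lit 76) (nat_lit 288038555697) (nat_lit 76) (nat_lit 286754490142) (nat_lit 1) (nat_lit 4) (nat_lit 2) (nat_lit 5) (nat_lit 2) (nat_lit 4) (nat_lit 544) (nat_lit 358) (nat_lit 298)) (XT.lf (nat_lit 0) (nat_lit 18031900938) (nat_lit 76) (nat_lit 296104146397) (nat_lit 76) (nat_lit 294816622199) (nat_lit 1) (nat_lit 4) (nat_lit 2) (nat_lit 5) (nat_lit 2) (nat_lit 4) (nat_lit 545) (nat_lit 358) (nat_lit 297))) (XT.nd (nat_lit 78) (nat_lit 0) (nat_lit 0) (XT.lf (nat_lit 0) (nat_lit 31187872232) (nat_lit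 76) (nat_lit 304601263925) (nat_lit 76) (nat_lit 303310445782) (nat_lit 1) (nat_lit 4) (nat_lit 2) (nat_lit 5) (nat_lit 2) (nat_lit 4) (nat_lit 546) (nat_lit 358) (nat_lit 296)) (XT.lf (nat_lit 0) (nat_lit 44948812599) (nat_lit 76) (nat_lit 313550139513) (nat_lit 76) (nat_lit 312256184280) (nat_lit 1) (nat_lit 4) (nat_lit 2) (nat_lit 5) (nat_lit 2) (nat_lit 4) (nat_lit 547) (nat_lit 358) (nat_lit 295)))) (XT.nd (nat_lit 156) (nat_lit 0) (nat_lit 0) (XT.nd (nat_lit 78) (nat_lit 0) (nat_lit 0) (XT.lf (nat_lit 0) (nat_lit 59347486185) (nat_lit 76) (nat_lit 322972080009) (nat_lit 76) (nat_lit 321675137070) (nat_lit 1) (nat_lit 4) (nat_lit 2) (nat_lit 5) (nat_lit 2) (nat_lit 4) (nat_lit 548) (nat_lit 358) (nat_lit 294)) (XT.lf (nat_lit 0) (nat_lit 74418175546) (nat_lit 76) (nat_lit 332889518603) (nat_lit 76) (nat_lit 331589730231) (nat_lit 1) (nat_lit 4) (nat_lit 2) (nat_lit 5) (nat_lit 2) (nat_lit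 4) (nat_lit 549) (nat_lit 358) (nat_lit 293))) (XT.nd (nat_lit 78) (nat_lit 0) (nat_lit 0) (XT.lf (nat_lit 0) (nat_lit 90196763275) (nat_lit 76) (nat_lit 343326068245) (nat_lit 76) (nat_lit 342023569937) (nat_lit 1) (nat_lit 4) (nat_lit 2) (nat_lit 5) (nat_lit 2) (nat_lit 4) (nat_lit 550) (nat_lit 358) (nat_lit 292)) (XT.lf (nat_lit 0) (nat_lit 106720817437) (nat_lit 76) (nat_lit 354306577863) (nat_lit 76) (nat_lit 353001498663) (nat_lit 1) (nat_lit 4) (nat_lit 2) (nat_lit 5) (nat_lit 2) (nat_lit 4) (nat_lit 551) (nat_lit 358) (nat_lit 291)))))) (XT.nd (nat_lit 57486) (nat_lit 0) (nat_lit 684) (XT.nd (nat_lit 57174) (nat_lit 0) (nat_lit 988) (XT.nd (nat_lit 57018) (nat_lit 0) (nat_lit 1216) (XT.nd (nat_lit 78) (nat_lit 0) (nat_lit 0) (XT.lf (nat_lit 0) (nat_lit 124029681020) (nat_lit 76) (nat_lit 365857191528) (nat_lit 76) (nat_lit 364549654335) (nat_lit 1) (nat_lit 4) (nat_lit 2) (nat_lit 5)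 (nat_lit 2) (nat_lit 4) (nat_lit 552) (nat_lit 358) (nat_lit 290)) (XT.lf (nat_lit 0) (nat_lit 142164565604) (nat_lit 76) (nat_lit 378005410699) (nat_lit 76) (nat_lit 376695532561) (nat_lit 1) (nat_lit 4) (nat_lit 2) (nat_lit 5) (nat_lit 2) (nat_lit 4) (nat_lit 553) (nat_lit 358) (nat_lit 289))) (XT.nd (nat_lit 78) (nat_lit 0) (nat_lit 0) (XT.lf (nat_lit 0) (nat_lit 4210493560) (nat_lit 152) (nat_lit 9846907674) (nat_lit 0) (nat_lit 4210493560) (nat_lit 17) (nat_lit 5) (nat_lit 19) (nat_lit 4) (nat_lit 17) (nat_lit 4) (nat_lit 482) (nat_lit 359) (nat_lit 359)) (XT.lf (nat_lit 0) (nat_lit 18874911032) (nat_lit 152) (nat_lit 193090388) (nat_lit 0) (nat_lit 18788334661) (nat_lit 17) (nat_lit 5) (nat_lit 19) (nat_lit 4) (nat_lit 17) (nat_lit 4) (nat_lit 483) (nat_lit 359) (nat_lit 358)))) (XT.nd (nat_lit 156) (nat_lit 0) (nat_lit 0) (XT.nd (nat_lit 78) (nat_lit 152) (nat_lit 0) (XT.lf (nat_lit 0)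 (nat_lit 20286892002) (nat_lit 76) (nat_lit 9562576395) (nat_lit 76) (nat_lit 9393546337) (nat_lit 16) (nat_lit 4) (nat_lit 17) (nat_lit 5) (nat_lit 17) (nat_lit 4) (nat_lit 484) (nat_lit 359) (nat_lit 357)) (XT.lf (nat_lit 0) (nat_lit 345736489) (nat_lit 152) (nat_lit 40258120197) (nat_lit 0) (nat_lit 109967557) (nat_lit 14) (nat_lit 5) (nat_lit 16) (nat_lit 4) (nat_lit 14) (nat_lit 4) (nat_lit 485) (nat_lit 359) (nat_lit 356))) (XT.nd (nat_lit 78) (nat_lit 0) (nat_lit 0) (XT.lf (nat_lit 0) (nat_lit 10420933897) (nat_lit 152) (nat_lit 21707372042) (nat_lit 0) (nat_lit 10113938370) (nat_lit 14) (nat_lit 5) (nat_lit 16) (nat_lit 4) (nat_lit 14) (nat_lit 4) (nat_lit 486) (nat_lit 359) (nat_lit 355)) (XT.lf (nat_lit 0) (nat_lit 20696631870) (nat_lit 152) (nat_lit 2843816380) (nat_lit 0) (nat_lit 20321801491) (nat_lit 14) (nat_lit 5) (nat_lit 16) (nat_lit 4) (nat_lit 14) (nat_lit 4) (nat_lit 487)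 (nat_lit 359) (nat_lit 354))))) (XT.nd (nat_lit 312) (nat_lit 76) (nat_lit 0) (XT.nd (nat_lit 156) (nat_lit 152) (nat_lit 0) (XT.nd (nat_lit 78) (nat_lit 0) (nat_lit 0) (XT.lf (nat_lit 0) (nat_lit 16918972806) (nat_lit 76) (nat_lit 14542476131) (nat_lit 76) (nat_lit 14103041132) (nat_lit 13) (nat_lit 4) (nat_lit 14) (nat_lit 5) (nat_lit 14) (nat_lit 4) (nat_lit 488) (nat_lit 359) (nat_lit 353)) (XT.lf (nat_lit 0) (nat_lit 37192618142) (nat_lit 76) (nat_lit 5335991798) (nat_lit 76) (nat_lit 4835028588) (nat_lit 13) (nat_lit 4) (nat_lit 14) (nat_lit 5) (nat_lit 14) (nat_lit 4) (nat_lit 489) (nat_lit 359) (nat_lit 352))) (XT.nd (nat_lit 78) (nat_lit 0) (nat_lit 0) (XT.lf (nat_lit 0) (nat_lit 4670027472) (nat_lit 152) (nat_lit 40445266132) (nat_lit 0) (nat_lit 4137111752) (nat_lit 11) (nat_lit 5) (nat_lit 13) (nat_lit 4) (nat_lit 11) (nat_lit 4) (nat_lit 490) (nat_lit 359) (nat_lit 351)) (XT.lf (nat_lit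 0) (nat_lit 14475613119) (nat_lit 152) (nat_lit 22867100078) (nat_lit 0) (nat_lit 13889547017) (nat_lit 11) (nat_lit 5) (nat_lit 13) (nat_lit 4) (nat_lit 11) (nat_lit 4) (nat_lit 491) (nat_lit 359) (nat_lit 350)))) (XT.nd (nat_lit 156) (nat_lit 0) (nat_lit 0) (XT.nd (nat_lit 78) (nat_lit 76) (nat_lit 0) (XT.lf (nat_lit 0) (nat_lit 24509778267) (nat_lit 152) (nat_lit 4941322823) (nat_lit 0) (nat_lit 23873092755) (nat_lit 11) (nat_lit 5) (nat_lit 13) (nat_lit 4) (nat_lit 11) (nat_lit 4) (nat_lit 492) (nat_lit 359) (nat_lit 349)) (XT.lf (nat_lit 0) (nat_lit 13816975559) (nat_lit 76) (nat_lit 21195159940) (nat_lit 76) (nat_lit 20510265464) (nat_lit 10) (nat_lit 4) (nat_lit 11) (nat_lit 5) (nat_lit 11) (nat_lit 4) (nat_lit 493) (nat_lit 359) (nat_lit 348))) (XT.nd (nat_lit 78) (nat_lit 0) (nat_lit 0) (XT.lf (nat_lit 0) (nat_lit 33186904437) (nat_lit 76) (nat_lit 12691247818) (nat_lit 76) (nat_lit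 11960440044) (nat_lit 10) (nat_lit 4) (nat_lit 11) (nat_lit 5) (nat_lit 11) (nat_lit 4) (nat_lit 494) (nat_lit 359) (nat_lit 347)) (XT.lf (nat_lit 0) (nat_lit 53051200239) (nat_lit 76) (nat_lit 4002801009) (nat_lit 76) (nat_lit 3228266285) (nat_lit 10) (nat_lit 4) (nat_lit 11) (nat_lit 5) (nat_lit 11) (nat_lit 4) (nat_lit 495) (nat_lit 359) (nat_lit 346))))))) (XT.nd (nat_lit 1170) (nat_lit 228) (nat_lit 0) (XT.nd (nat_lit 546) (nat_lit 152) (nat_lit 0) (XT.nd (nat_lit 234) (nat_lit 76) (nat_lit 0) (XT.nd (nat_lit 78) (nat_lit 0) (nat_lit 0) (XT.lf (nat_lit 0) (nat_lit 5774482006) (nat_lit 152) (nat_lit 52070634710) (nat_lit 0) (nat_lit 4997168254) (nat_lit 8) (nat_lit 5) (nat_lit 10) (nat_lit 4) (nat_lit 8) (nat_lit 4) (nat_lit 496) (nat_lit 359) (nat_lit 345)) (XT.nd (nat_lit 78) (nat_lit 0) (nat_lit 0) (XT.lf (nat_lit 0) (nat_lit 15083098814) (nat_lit 152) (nat_lit 36178335945) (nat_lit 0)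 (nat_lit 14268012078) (nat_lit 8) (nat_lit 5) (nat_lit 10) (nat_lit 4) (nat_lit 8) (nat_lit 4) (nat_lit 497) (nat_lit 359) (nat_lit 344)) (XT.lf (nat_lit 0) (nat_lit 24642035164) (nat_lit 152) (nat_lit 19928713780) (nat_lit 0) (nat_lit 23790974159) (nat_lit 8) (nat_lit 5) (nat_lit 10) (nat_lit 4) (nat_lit 8) (nat_lit 4) (nat_lit 498) (nat_lit 359) (nat_lit 343)))) (XT.nd (nat_lit 156) (nat_lit 0) (nat_lit 0) (XT.nd (nat_lit 78) (nat_lit 76) (nat_lit 0) (XT.lf (nat_lit 0) (nat_lit 34474050430) (nat_lit 152) (nat_lit 3283078640) (nat_lit 0) (nat_lit 33588728215) (nat_lit 8) (nat_lit 5) (nat_lit 10) (nat_lit 4) (nat_lit 8) (nat_lit 4) (nat_lit 499) (nat_lit 359) (nat_lit 342)) (XT.lf (nat_lit 0) (nat_lit 14254432810) (nat_lit 76) (nat_lit 30570673005) (nat_lit 76) (nat_lit 29652721066) (nat_lit 7) (nat_lit 4) (nat_lit 8) (nat_lit 5) (nat_lit 8) (nat_lit 4) (nat_lit 500) (nat_lit 359) (nat_lit 341)))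 (XT.nd (nat_lit 78) (nat_lit 0) (nat_lit 0) (XT.lf (nat_lit 0) (nat_lit 32392561954) (nat_lit 76) (nat_lit 23164838591) (nat_lit 76) (nat_lit 22215810724) (nat_lit 7) (nat_lit 4) (nat_lit 8) (nat_lit 5) (nat_lit 8) (nat_lit 4) (nat_lit 501) (nat_lit 359) (nat_lit 340)) (XT.lf (nat_lit 0) (nat_lit 51065941406) (nat_lit 76) (nat_lit 15577593414) (nat_lit 76) (nat_lit 14598969426) (nat_lit 7) (nat_lit 4) (nat_lit 8) (nat_lit 5) (nat_lit 8) (nat_lit 4) (nat_lit 502) (nat_lit 359) (nat_lit 339))))) (XT.nd (nat_lit 312) (nat_lit 0) (nat_lit 0) (XT.nd (nat_lit 156) (nat_lit 0) (nat_lit 0) (XT.nd (nat_lit 78) (nat_lit 152) (nat_lit 0) (XT.lf (nat_lit 0) (nat_lit 70319031593) (nat_lit 76) (nat_lit 7790872606) (nat_lit 76) (nat_lit 6784061836) (nat_lit 7) (nat_lit 4) (nat_lit 8) (nat_lit 5) (nat_lit 8) (nat_lit 4) (nat_lit 503) (nat_lit 359) (nat_lit 338)) (XT.lf (nat_lit 0) (nat_lit 1234886675) (nat_lit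 152) (nat_lit 87248612213) (nat_lit 0) (nat_lit 250453032) (nat_lit 5) (nat_lit 5) (nat_lit 7) (nat_lit 4) (nat_lit 5) (nat_lit 4) (nat_lit 504) (nat_lit 359) (nat_lit 337))) (XT.nd (nat_lit 78) (nat_lit 0) (nat_lit 0) (XT.lf (nat_lit 0) (nat_lit 9636975996) (nat_lit 152) (nat_lit 74484698232) (nat_lit 0) (nat_lit 8628193552) (nat_lit 5) (nat_lit 5) (nat_lit 7) (nat_lit 4) (nat_lit 5) (nat_lit 4) (nat_lit 505) (nat_lit 359) (nat_lit 336)) (XT.lf (nat_lit 0) (nat_lit 18298772742) (nat_lit 152) (nat_lit 61409026058) (nat_lit 0) (nat_lit 17266800962) (nat_lit 5) (nat_lit 5) (nat_lit 7) (nat_lit 4) (nat_lit 5) (nat_lit 4) (nat_lit 506) (nat_lit 359) (nat_lit 335)))) (XT.nd (nat_lit 156) (nat_lit 0) (nat_lit 0) (XT.nd (nat_lit 78) (nat_lit 0) (nat_lit 0) (XT.lf (nat_lit 0) (nat_lit 27240900238) (nat_lit 152) (nat_lit 47990463140) (nat_lit 0) (nat_lit 26186843376) (nat_lit 5) (nat_lit 5) (nat_lit 7)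 (nat_lit 4) (nat_lit 5) (nat_lit 4) (nat_lit 507) (nat_lit 359) (nat_lit 334)) (XT.lf (nat_lit 0) (nat_lit 36484649263) (nat_lit 152) (nat_lit 34197060518) (nat_lit 0) (nat_lit 35409558990) (nat_lit 5) (nat_lit 5) (nat_lit 7) (nat_lit 4) (nat_lit 5) (nat_lit 4) (nat_lit 508) (nat_lit 359) (nat_lit 333))) (XT.nd (nat_lit 78) (nat_lit 0) (nat_lit 0) (XT.lf (nat_lit 0) (nat_lit 46052028743) (nat_lit 152) (nat_lit 19995976758) (nat_lit 0) (nat_lit 44956906651) (nat_lit 5) (nat_lit 5) (nat_lit 7) (nat_lit 4) (nat_lit 5) (nat_lit 4) (nat_lit 509) (nat_lit 359) (nat_lit 332)) (XT.lf (nat_lit 0) (nat_lit 55965818155) (nat_lit 152) (nat_lit 5353399754) (nat_lit 0) (nat_lit 54851618139) (nat_lit 5) (nat_lit 5) (nat_lit 7) (nat_lit 4) (nat_lit 5) (nat_lit 4) (nat_lit 510) (nat_lit 359) (nat_lit 331)))))) (XT.nd (nat_lit 624) (nat_lit 152) (nat_lit 0) (XT.nd (nat_lit 312) (nat_lit 0) (nat_lit 0) (XT.nd (nat_lit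 156) (nat_lit 0) (nat_lit 0) (XT.nd (nat_lit 78) (nat_lit 0) (nat_lit 0) (XT.lf (nat_lit 0) (nat_lit 10088426419) (nat_lit 76) (nat_lit 56318703947) (nat_lit 76) (nat_lit 55186334481) (nat_lit 4) (nat_lit 4) (nat_lit 5) (nat_lit 5) (nat_lit 5) (nat_lit 4) (nat_lit 511) (nat_lit 359) (nat_lit 330)) (XT.lf (nat_lit 0) (nat_lit 26236554884) (nat_lit 76) (nat_lit 51100996063) (nat_lit 76) (nat_lit 49951322357) (nat_lit 4) (nat_lit 4) (nat_lit 5) (nat_lit 5) (nat_lit 5) (nat_lit 4) (nat_lit 512) (nat_lit 359) (nat_lit 329))) (XT.nd (nat_lit 78) (nat_lit 0) (nat_lit 0) (XT.lf (nat_lit 0) (nat_lit 42952425993) (nat_lit 76) (nat_lit 45744333558) (nat_lit 76) (nat_lit 44578179624) (nat_lit 4) (nat_lit 4) (nat_lit 5) (nat_lit 5) (nat_lit 5) (nat_lit 4) (nat_lit 513) (nat_lit 359) (nat_lit 328)) (XT.lf (nat_lit 0) (nat_lit 60275839439) (nat_lit 76) (nat_lit 40235962473) (nat_lit 76) (nat_lit 39054113084)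 (nat_lit 4) (nat_lit 4) (nat_lit 5) (nat_lit 5) (nat_lit 5) (nat_lit 4) (nat_lit 514) (nat_lit 359) (nat_lit 327)))) (XT.nd (nat_lit 156) (nat_lit 0) (nat_lit 0) (XT.nd (nat_lit 78) (nat_lit 0) (nat_lit 0) (XT.lf (nat_lit 0) (nat_lit 78248041445) (nat_lit 76) (nat_lit 34562767640) (nat_lit 76) (nat_lit 33365970199) (nat_lit 4) (nat_lit 4) (nat_lit 5) (nat_lit 5) (nat_lit 5) (nat_lit 4) (nat_lit 515) (nat_lit 359) (nat_lit 326)) (XT.lf (nat_lit 0) (nat_lit 96911822966) (nat_lit 76) (nat_lit 28711241451) (nat_lit 76) (nat_lit 27500207770) (nat_lit 4) (nat_lit 4) (nat_lit 5) (nat_lit 5) (nat_lit 5) (nat_lit 4) (nat_lit 516) (nat_lit 359) (nat_lit 325))) (XT.nd (nat_lit 78) (nat_lit 0) (nat_lit 0) (XT.lf (nat_lit 0) (nat_lit 116311621580) (nat_lit 76) (nat_lit 22667451702) (nat_lit 76) (nat_lit 21442859696) (nat_lit 4) (nat_lit 4) (nat_lit 5) (nat_lit 5) (nat_lit 5) (nat_lit 4) (nat_lit 517) (nat_lit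 359) (nat_lit 324)) (XT.lf (nat_lit 0) (nat_lit 136493627281) (nat_lit 76) (nat_lit 16417008417) (nat_lit 76) (nat_lit 15179503721) (nat_lit 4) (nat_lit 4) (nat_lit 5) (nat_lit 5) (nat_lit 5) (nat_lit 4) (nat_lit 518) (nat_lit 359) (nat_lit 323))))) (XT.nd (nat_lit 312) (nat_lit 0) (nat_lit 0) (XT.nd (nat_lit 156) (nat_lit 152) (nat_lit 0) (XT.nd (nat_lit 78) (nat_lit 0) (nat_lit 0) (XT.lf (nat_lit 0) (nat_lit 157505892466) (nat_lit 76) (nat_lit 9945029587) (nat_lit 76) (nat_lit 8695227092) (nat_lit 4) (nat_lit 4) (nat_lit 5) (nat_lit 5) (nat_lit 5) (nat_lit 4) (nat_lit 519) (nat_lit 359) (nat_lit 322)) (XT.lf (nat_lit 0) (nat_lit 179398446335) (nat_lit 76) (nat_lit 3236105741) (nat_lit 76) (nat_lit 1974591055) (nat_lit 4) (nat_lit 4) (nat_lit 5) (nat_lit 5) (nat_lit 5) (nat_lit 4) (nat_lit 520) (nat_lit 359) (nat_lit 321))) (XT.nd (nat_lit 78) (nat_lit 0) (nat_lit 0) (XT.lf (nat_lit 0) (nat_lit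 5039613622) (nat_lit 152) (nat_lit 184618148625) (nat_lit 0) (nat_lit 3827547763) (nat_lit 2) (nat_lit 5) (nat_lit 4) (nat_lit 4) (nat_lit 2) (nat_lit 4) (nat_lit 521) (nat_lit 359) (nat_lit 320)) (XT.lf (nat_lit 0) (nat_lit 12399954526) (nat_lit 152) (nat_lit 179222851905) (nat_lit 0) (nat_lit 11177771236) (nat_lit 2) (nat_lit 5) (nat_lit 4) (nat_lit 4) (nat_lit 2) (nat_lit 4) (nat_lit 522) (nat_lit 359) (nat_lit 319)))) (XT.nd (nat_lit 156) (nat_lit 0) (nat_lit 0) (XT.nd (nat_lit 78) (nat_lit 0) (nat_lit 0) (XT.lf (nat_lit 0) (nat_lit 20051209581) (nat_lit 152) (nat_lit 173714863824) (nat_lit 0) (nat_lit 18819390643) (nat_lit 2) (nat_lit 5) (nat_lit 4) (nat_lit 4) (nat_lit 2) (nat_lit 4) (nat_lit 523) (nat_lit 359) (nat_lit 318)) (XT.lf (nat_lit 0) (nat_lit 28011596062) (nat_lit 152) (nat_lit 168081070125) (nat_lit 0) (nat_lit 26770600317) (nat_lit 2) (nat_lit 5) (nat_lit 4) (nat_lit 4) (nat_lit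 2) (nat_lit 4) (nat_lit 524) (nat_lit 359) (nat_lit 317))) (XT.nd (nat_lit 78) (nat_lit 0) (nat_lit 0) (XT.lf (nat_lit 0) (nat_lit 36300067270) (nat_lit 152) (nat_lit 162308057014) (nat_lit 0) (nat_lit 35050331709) (nat_lit 2) (nat_lit 5) (nat_lit 4) (nat_lit 4) (nat_lit 2) (nat_lit 4) (nat_lit 525) (nat_lit 359) (nat_lit 316)) (XT.lf (nat_lit 0) (nat_lit 44936357661) (nat_lit 152) (nat_lit 156382079221) (nat_lit 0) (nat_lit 43678298465) (nat_lit 2) (nat_lit 5) (nat_lit 4) (nat_lit 4) (nat_lit 2) (nat_lit 4) (nat_lit 526) (nat_lit 359) (nat_lit 315))))))))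
noncomputable def xc21 : XT := (XT.nd (nat_lit 59124) (nat_lit 0) (nat_lit 228) (XT.nd (nat_lit 1170) (nat_lit 76) (nat_lit 0) (XT.nd (nat_lit 546) (nat_lit 0) (nat_lit 0) (XT.nd (nat_lit 234) (nat_lit 0) (nat_lit 0) (XT.nd (nat_lit 78) (nat_lit 0) (nat_lit 0) (XT.lf (nat_lit 0) (nat_lit 53941029831) (nat_lit 152) (nat_lit 150289027275) (nat_lit 0) (nat_lit 52675043363) (nat_lit 2) (nat_lit 5) (nat_lit 4) (nat_lit 4) (nat_lit 2) (nat_lit 4) (nat_lit 527) (nat_lit 359) (nat_lit 314)) (XT.nd (nat_lit 78) (nat_lit 0) (nat_lit 0) (XT.lf (nat_lit 0) (nat_lit 63335523475) (nat_lit 152) (nat_lit 144014393911) (nat_lit 0) (nat_lit 62061987225) (nat_lit 2) (nat_lit 5) (nat_lit 4) (nat_lit 4) (nat_lit 2) (nat_lit 4) (nat_lit 528) (nat_lit 359) (nat_lit 313)) (XT.lf (nat_lit 0) (nat_lit 73142206435) (nat_lit 152) (nat_lit 137543239524) (nat_lit 0) (nat_lit 71861479916) (nat_lit 2) (nat_lit 5) (nat_lit 4)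 (nat_lit 4) (nat_lit 2) (nat_lit 4) (nat_lit 529) (nat_lit 359) (nat_lit 312)))) (XT.nd (nat_lit 156) (nat_lit 0) (nat_lit 0) (XT.nd (nat_lit 78) (nat_lit 0) (nat_lit 0) (XT.lf (nat_lit 0) (nat_lit 83384427956) (nat_lit 152) (nat_lit 130860156604) (nat_lit 0) (nat_lit 82096853563) (nat_lit 2) (nat_lit 5) (nat_lit 4) (nat_lit 4) (nat_lit 2) (nat_lit 4) (nat_lit 530) (nat_lit 359) (nat_lit 311)) (XT.lf (nat_lit 0) (nat_lit 94086574281) (nat_lit 152) (nat_lit 123949233049) (nat_lit 0) (nat_lit 92792478102) (nat_lit 2) (nat_lit 5) (nat_lit 4) (nat_lit 4) (nat_lit 2) (nat_lit 4) (nat_lit 531) (nat_lit 359) (nat_lit 310))) (XT.nd (nat_lit 78) (nat_lit 0) (nat_lit 0) (XT.lf (nat_lit 0) (nat_lit 105274126710) (nat_lit 152) (nat_lit 116794014279) (nat_lit 0) (nat_lit 103973819306) (nat_lit 2) (nat_lit 5) (nat_lit 4) (nat_lit 4) (nat_lit 2) (nat_lit 4) (nat_lit 532) (nat_lit 359) (nat_lit 309)) (XT.lf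 (nat_lit 0) (nat_lit 116973722272) (nat_lit 152) (nat_lit 109377464059) (nat_lit 0) (nat_lit 115667499416) (nat_lit 2) (nat_lit 5) (nat_lit 4) (nat_lit 4) (nat_lit 2) (nat_lit 4) (nat_lit 533) (nat_lit 359) (nat_lit 308))))) (XT.nd (nat_lit 312) (nat_lit 0) (nat_lit 0) (XT.nd (nat_lit 156) (nat_lit 0) (nat_lit 0) (XT.nd (nat_lit 78) (nat_lit 0) (nat_lit 0) (XT.lf (nat_lit 0) (nat_lit 129213217147) (nat_lit 152) (nat_lit 101681923936) (nat_lit 0) (nat_lit 127901360528) (nat_lit 2) (nat_lit 5) (nat_lit 4) (nat_lit 4) (nat_lit 2) (nat_lit 4) (nat_lit 534) (nat_lit 359) (nat_lit 307)) (XT.lf (nat_lit 0) (nat_lit 142021752991) (nat_lit 152) (nat_lit 93689071196) (nat_lit 0) (nat_lit 140704530882) (nat_lit 2) (nat_lit 5) (nat_lit 4) (nat_lit 4) (nat_lit 2) (nat_lit 4) (nat_lit 535) (nat_lit 359) (nat_lit 306))) (XT.nd (nat_lit 78) (nat_lit 0) (nat_lit 0) (XT.lf (nat_lit 0) (nat_lit 155429826316) (nat_lit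 152) (nat_lit 85379875236) (nat_lit 0) (nat_lit 154107494217) (nat_lit 2) (nat_lit 5) (nat_lit 4) (nat_lit 4) (nat_lit 2) (nat_lit 4) (nat_lit 536) (nat_lit 359) (nat_lit 305)) (XT.lf (nat_lit 0) (nat_lit 169469361107) (nat_lit 152) (nat_lit 76734552257) (nat_lit 0) (nat_lit 168142162351) (nat_lit 2) (nat_lit 5) (nat_lit 4) (nat_lit 4) (nat_lit 2) (nat_lit 4) (nat_lit 537) (nat_lit 359) (nat_lit 304)))) (XT.nd (nat_lit 156) (nat_lit 0) (nat_lit 0) (XT.nd (nat_lit 78) (nat_lit 0) (nat_lit 0) (XT.lf (nat_lit 0) (nat_lit 184173784828) (nat_lit 152) (nat_lit 67732518157) (nat_lit 0) (nat_lit 182841951161) (nat_lit 2) (nat_lit 5) (nat_lit 4) (nat_lit 4) (nat_lit 2) (nat_lit 4) (nat_lit 538) (nat_lit 359) (nat_lit 303)) (XT.lf (nat_lit 0) (nat_lit 199578108011) (nat_lit 152) (nat_lit 58352339520) (nat_lit 0) (nat_lit 198241860143) (nat_lit 2) (nat_lit 5) (nat_lit 4) (nat_lit 4) (nat_lit 2) (nat_lit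 4) (nat_lit 539) (nat_lit 359) (nat_lit 302))) (XT.nd (nat_lit 78) (nat_lit 0) (nat_lit 0) (XT.lf (nat_lit 0) (nat_lit 215719007617) (nat_lit 152) (nat_lit 48571682589) (nat_lit 0) (nat_lit 214378555747) (nat_lit 2) (nat_lit 5) (nat_lit 4) (nat_lit 4) (nat_lit 2) (nat_lit 4) (nat_lit 540) (nat_lit 359) (nat_lit 301)) (XT.lf (nat_lit 0) (nat_lit 232634914358) (nat_lit 152) (nat_lit 38367260084) (nat_lit 0) (nat_lit 231290458678) (nat_lit 2) (nat_lit 5) (nat_lit 4) (nat_lit 4) (nat_lit 2) (nat_lit 4) (nat_lit 541) (nat_lit 359) (nat_lit 300)))))) (XT.nd (nat_lit 624) (nat_lit 0) (nat_lit 0) (XT.nd (nat_lit 312) (nat_lit 0) (nat_lit 0) (XT.nd (nat_lit 156) (nat_lit 76) (nat_lit 0) (XT.nd (nat_lit 78) (nat_lit 0) (nat_lit 0) (XT.lf (nat_lit 0) (nat_lit 250366104203) (nat_lit 152) (nat_lit 27714775763) (nat_lit 0) (nat_lit 249017835370) (nat_lit 2) (nat_lit 5) (nat_lit 4) (nat_lit 4) (nat_lit 2) (nat_lit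 4) (nat_lit 542) (nat_lit 359) (nat_lit 299)) (XT.lf (nat_lit 0) (nat_lit 268954794271) (nat_lit 152) (nat_lit 16588866566) (nat_lit 0) (nat_lit 267602893863) (nat_lit 2) (nat_lit 5) (nat_lit 4) (nat_lit 4) (nat_lit 2) (nat_lit 4) (nat_lit 543) (nat_lit 359) (nat_lit 298))) (XT.nd (nat_lit 78) (nat_lit 76) (nat_lit 0) (XT.lf (nat_lit 0) (nat_lit 288445243348) (nat_lit 152) (nat_lit 4963042234) (nat_lit 0) (nat_lit 287089884298) (nat_lit 2) (nat_lit 5) (nat_lit 4) (nat_lit 4) (nat_lit 2) (nat_lit 4) (nat_lit 544) (nat_lit 359) (nat_lit 297)) (XT.lf (nat_lit 0) (nat_lit 7428124128) (nat_lit 76) (nat_lit 301571706971) (nat_lit 76) (nat_lit 300213053976) (nat_lit 1) (nat_lit 4) (nat_lit 2) (nat_lit 5) (nat_lit 2) (nat_lit 4) (nat_lit 545) (nat_lit 359) (nat_lit 296)))) (XT.nd (nat_lit 156) (nat_lit 0) (nat_lit 0) (XT.nd (nat_lit 78) (nat_lit 0) (nat_lit 0) (XT.lf (nat_lit 0) (nat_lit 20558324938)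 (nat_lit 76) (nat_lit 310081947515) (nat_lit 76) (nat_lit 308720157430) (nat_lit 1) (nat_lit 4) (nat_lit 2) (nat_lit 5) (nat_lit 2) (nat_lit 4) (nat_lit 546) (nat_lit 359) (nat_lit 295)) (XT.lf (nat_lit 0) (nat_lit 34294721989) (nat_lit 76) (nat_lit 319043321215) (nat_lit 76) (nat_lit 317678543424) (nat_lit 1) (nat_lit 4) (nat_lit 2) (nat_lit 5) (nat_lit 2) (nat_lit 4) (nat_lit 547) (nat_lit 359) (nat_lit 294))) (XT.nd (nat_lit 78) (nat_lit 0) (nat_lit 0) (XT.lf (nat_lit 0) (nat_lit 48670020987) (nat_lit 76) (nat_lit 328477164673) (nat_lit 76) (nat_lit 327109541449) (nat_lit 1) (nat_lit 4) (nat_lit 2) (nat_lit 5) (nat_lit 2) (nat_lit 4) (nat_lit 548) (nat_lit 359) (nat_lit 293)) (XT.lf (nat_lit 0) (nat_lit 63718448836) (nat_lit 76) (nat_lit 338405939423) (nat_lit 76) (nat_lit 337035606262) (nat_lit 1) (nat_lit 4) (nat_lit 2) (nat_lit 5) (nat_lit 2) (nat_lit 4) (nat_lit 549) (nat_lit 359) (nat_lit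 292))))) (XT.nd (nat_lit 57018) (nat_lit 0) (nat_lit 1216) (XT.nd (nat_lit 156) (nat_lit 0) (nat_lit 0) (XT.nd (nat_lit 78) (nat_lit 0) (nat_lit 0) (XT.lf (nat_lit 0) (nat_lit 79475835124) (nat_lit 76) (nat_lit 348853285404) (nat_lit 76) (nat_lit 347480371351) (nat_lit 1) (nat_lit 4) (nat_lit 2) (nat_lit 5) (nat_lit 2) (nat_lit 4) (nat_lit 550) (nat_lit 359) (nat_lit 291)) (XT.lf (nat_lit 0) (nat_lit 95979697439) (nat_lit 76) (nat_lit 359844077249) (nat_lit 76) (nat_lit 358468705203) (nat_lit 1) (nat_lit 4) (nat_lit 2) (nat_lit 5) (nat_lit 2) (nat_lit 4) (nat_lit 551) (nat_lit 359) (nat_lit 290))) (XT.nd (nat_lit 78) (nat_lit 0) (nat_lit 0) (XT.lf (nat_lit 0) (nat_lit 113269330691) (nat_lit 76) (nat_lit 371404483510) (nat_lit 76) (nat_lit 370026770519) (nat_lit 1) (nat_lit 4) (nat_lit 2) (nat_lit 5) (nat_lit 2) (nat_lit 4) (nat_lit 552) (nat_lit 359) (nat_lit 289)) (XT.lf (nat_lit 0) (nat_lit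 131385900673) (nat_lit 76) (nat_lit 383562028964) (nat_lit 76) (nat_lit 382182086502) (nat_lit 1) (nat_lit 4) (nat_lit 2) (nat_lit 5) (nat_lit 2) (nat_lit 4) (nat_lit 553) (nat_lit 359) (nat_lit 288)))) (XT.nd (nat_lit 156) (nat_lit 152) (nat_lit 0) (XT.nd (nat_lit 78) (nat_lit 0) (nat_lit 0) (XT.lf (nat_lit 0) (nat_lit 5518337620) (nat_lit 76) (nat_lit 5761521195) (nat_lit 76) (nat_lit 5761521195) (nat_lit 19) (nat_lit 4) (nat_lit 20) (nat_lit 5) (nat_lit 20) (nat_lit 4) (nat_lit 480) (nat_lit 360) (nat_lit 360)) (XT.lf (nat_lit 0) (nat_lit 31729758367) (nat_lit 76) (nat_lit 1827032526) (nat_lit 76) (nat_lit 1731582077) (nat_lit 19) (nat_lit 4) (nat_lit 20) (nat_lit 5) (nat_lit 20) (nat_lit 4) (nat_lit 481) (nat_lit 360) (nat_lit 359))) (XT.nd (nat_lit 78) (nat_lit 0) (nat_lit 0) (XT.lf (nat_lit 0) (nat_lit 8348605540) (nat_lit 152) (nat_lit 20024225279) (nat_lit 0) (nat_lit 8171123980) (nat_lit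 17) (nat_lit 5) (nat_lit 19) (nat_lit 4) (nat_lit 17) (nat_lit 4) (nat_lit 482) (nat_lit 360) (nat_lit 358)) (XT.lf (nat_lit 0) (nat_lit 18647018242) (nat_lit 152) (nat_lit 838176444) (nat_lit 0) (nat_lit 18387082995) (nat_lit 17) (nat_lit 5) (nat_lit 19) (nat_lit 4) (nat_lit 17) (nat_lit 4) (nat_lit 483) (nat_lit 360) (nat_lit 357))))))) (XT.nd (nat_lit 1170) (nat_lit 304) (nat_lit 0) (XT.nd (nat_lit 546) (nat_lit 228) (nat_lit 0) (XT.nd (nat_lit 234) (nat_lit 228) (nat_lit 0) (XT.nd (nat_lit 78) (nat_lit 152) (nat_lit 0) (XT.lf (nat_lit 0) (nat_lit 19310875784) (nat_lit 76) (nat_lit 10147355560) (nat_lit 76) (nat_lit 9808892992) (nat_lit 16) (nat_lit 4) (nat_lit 17) (nat_lit 5) (nat_lit 17) (nat_lit 4) (nat_lit 484) (nat_lit 360) (nat_lit 356)) (XT.nd (nat_lit 78) (nat_lit 152) (nat_lit 0) (XT.lf (nat_lit 0) (nat_lit 39892021701) (nat_lit 76) (nat_lit 633581868) (nat_lit 76) (nat_lit 220331376)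 (nat_lit 16) (nat_lit 4) (nat_lit 17) (nat_lit 5) (nat_lit 17) (nat_lit 4) (nat_lit 485) (nat_lit 360) (nat_lit 355)) (XT.lf (nat_lit 0) (nat_lit 9690096077) (nat_lit 152) (nat_lit 23364333385) (nat_lit 0) (nat_lit 9228689327) (nat_lit 14) (nat_lit 5) (nat_lit 16) (nat_lit 4) (nat_lit 14) (nat_lit 4) (nat_lit 486) (nat_lit 360) (nat_lit 354)))) (XT.nd (nat_lit 156) (nat_lit 152) (nat_lit 0) (XT.nd (nat_lit 78) (nat_lit 76) (nat_lit 0) (XT.lf (nat_lit 0) (nat_lit 19824907033) (nat_lit 152) (nat_lit 4786366528) (nat_lit 0) (nat_lit 19298895662) (nat_lit 14) (nat_lit 5) (nat_lit 16) (nat_lit 4) (nat_lit 14) (nat_lit 4) (nat_lit 487) (nat_lit 360) (nat_lit 353)) (XT.lf (nat_lit 0) (nat_lit 14631210644) (nat_lit 76) (nat_lit 15788616965) (nat_lit 76) (nat_lit 15201077384) (nat_lit 13) (nat_lit 4) (nat_lit 14) (nat_lit 5) (nat_lit 14) (nat_lit 4) (nat_lit 488) (nat_lit 360) (nat_lit 352))) (XT.nd (nat_lit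 78) (nat_lit 152) (nat_lit 0) (XT.lf (nat_lit 0) (nat_lit 34637253567) (nat_lit 76) (nat_lit 6717768343) (nat_lit 76) (nat_lit 6071630466) (nat_lit 13) (nat_lit 4) (nat_lit 14) (nat_lit 5) (nat_lit 14) (nat_lit 4) (nat_lit 489) (nat_lit 360) (nat_lit 351)) (XT.lf (nat_lit 0) (nat_lit 3274465585) (nat_lit 152) (nat_lit 43445900649) (nat_lit 0) (nat_lit 2605945797) (nat_lit 11) (nat_lit 5) (nat_lit 13) (nat_lit 4) (nat_lit 11) (nat_lit 4) (nat_lit 490) (nat_lit 360) (nat_lit 350))))) (XT.nd (nat_lit 312) (nat_lit 152) (nat_lit 0) (XT.nd (nat_lit 156) (nat_lit 76) (nat_lit 0) (XT.nd (nat_lit 78) (nat_lit 0) (nat_lit 0) (XT.lf (nat_lit 0) (nat_lit 12952392803) (nat_lit 152) (nat_lit 26126903913) (nat_lit 0) (nat_lit 12233253603) (nat_lit 11) (nat_lit 5) (nat_lit 13) (nat_lit 4) (nat_lit 11) (nat_lit 4) (nat_lit 491) (nat_lit 360) (nat_lit 349)) (XT.lf (nat_lit 0) (nat_lit 22864978495) (nat_lit 152)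 (nat_lit 8447954581) (nat_lit 0) (nat_lit 22097630333) (nat_lit 11) (nat_lit 5) (nat_lit 13) (nat_lit 4) (nat_lit 11) (nat_lit 4) (nat_lit 492) (nat_lit 360) (nat_lit 348))) (XT.nd (nat_lit 78) (nat_lit 0) (nat_lit 0) (XT.lf (nat_lit 0) (nat_lit 9951551892) (nat_lit 76) (nat_lit 23239643779) (nat_lit 76) (nat_lit 22426382319) (nat_lit 10) (nat_lit 4) (nat_lit 11) (nat_lit 5) (nat_lit 11) (nat_lit 4) (nat_lit 493) (nat_lit 360) (nat_lit 347)) (XT.lf (nat_lit 0) (nat_lit 29090198078) (nat_lit 76) (nat_lit 14853127228) (nat_lit 76) (nat_lit 13996138817) (nat_lit 10) (nat_lit 4) (nat_lit 11) (nat_lit 5) (nat_lit 11) (nat_lit 4) (nat_lit 494) (nat_lit 360) (nat_lit 346)))) (XT.nd (nat_lit 156) (nat_lit 0) (nat_lit 0) (XT.nd (nat_lit 78) (nat_lit 152) (nat_lit 0) (XT.lf (nat_lit 0) (nat_lit 48734224650) (nat_lit 76) (nat_lit 6276485724) (nat_lit 76) (nat_lit 5377852599) (nat_lit 10) (nat_lit 4) (nat_lit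 11) (nat_lit 5) (nat_lit 11) (nat_lit 4) (nat_lit 495) (nat_lit 360) (nat_lit 345)) (XT.lf (nat_lit 0) (nat_lit 3475505691) (nat_lit 152) (nat_lit 56903771026) (nat_lit 0) (nat_lit 2581891635) (nat_lit 8) (nat_lit 5) (nat_lit 10) (nat_lit 4) (nat_lit 8) (nat_lit 4) (nat_lit 496) (nat_lit 360) (nat_lit 344))) (XT.nd (nat_lit 78) (nat_lit 0) (nat_lit 0) (XT.lf (nat_lit 0) (nat_lit 12679190159) (nat_lit 152) (nat_lit 41224785206) (nat_lit 0) (nat_lit 11749601832) (nat_lit 8) (nat_lit 5) (nat_lit 10) (nat_lit 4) (nat_lit 8) (nat_lit 4) (nat_lit 497) (nat_lit 360) (nat_lit 343)) (XT.lf (nat_lit 0) (nat_lit 22138190947) (nat_lit 152) (nat_lit 25178318229) (nat_lit 0) (nat_lit 21174341411) (nat_lit 8) (nat_lit 5) (nat_lit 10) (nat_lit 4) (nat_lit 8) (nat_lit 4) (nat_lit 498) (nat_lit 360) (nat_lit 342)))))) (XT.nd (nat_lit 624) (nat_lit 76) (nat_lit 0) (XT.nd (nat_lit 312) (nat_lit 152) (nat_lit 0)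 (XT.nd (nat_lit 156) (nat_lit 0) (nat_lit 0) (XT.nd (nat_lit 78) (nat_lit 76) (nat_lit 0) (XT.lf (nat_lit 0) (nat_lit 31875029487) (nat_lit 152) (nat_lit 8726164218) (nat_lit 0) (nat_lit 30878550227) (nat_lit 8) (nat_lit 5) (nat_lit 10) (nat_lit 4) (nat_lit 8) (nat_lit 4) (nat_lit 499) (nat_lit 360) (nat_lit 341)) (XT.lf (nat_lit 0) (nat_lit 8441013774) (nat_lit 76) (nat_lit 33603662834) (nat_lit 76) (nat_lit 32576107647) (nat_lit 7) (nat_lit 4) (nat_lit 8) (nat_lit 5) (nat_lit 8) (nat_lit 4) (nat_lit 500) (nat_lit 360) (nat_lit 340))) (XT.nd (nat_lit 78) (nat_lit 0) (nat_lit 0) (XT.lf (nat_lit 0) (nat_lit 26397847235) (nat_lit 76) (nat_lit 26289965473) (nat_lit 76) (nat_lit 25232814164) (nat_lit 7) (nat_lit 4) (nat_lit 8) (nat_lit 5) (nat_lit 8) (nat_lit 4) (nat_lit 501) (nat_lit 360) (nat_lit 339)) (XT.lf (nat_lit 0) (nat_lit 44898564132) (nat_lit 76) (nat_lit 18790469870) (nat_lit 76) (nat_lit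 17705131779) (nat_lit 7) (nat_lit 4) (nat_lit 8) (nat_lit 5) (nat_lit 8) (nat_lit 4) (nat_lit 502) (nat_lit 360) (nat_lit 338)))) (XT.nd (nat_lit 156) (nat_lit 152) (nat_lit 0) (XT.nd (nat_lit 78) (nat_lit 0) (nat_lit 0) (XT.lf (nat_lit 0) (nat_lit 63987213791) (nat_lit 76) (nat_lit 11087320084) (nat_lit 76) (nat_lit 9975137439) (nat_lit 7) (nat_lit 4) (nat_lit 8) (nat_lit 5) (nat_lit 8) (nat_lit 4) (nat_lit 503) (nat_lit 360) (nat_lit 337)) (XT.lf (nat_lit 0) (nat_lit 83709245377) (nat_lit 76) (nat_lit 3162175283) (nat_lit 76) (nat_lit 2024426396) (nat_lit 7) (nat_lit 4) (nat_lit 8) (nat_lit 5) (nat_lit 8) (nat_lit 4) (nat_lit 504) (nat_lit 360) (nat_lit 336))) (XT.nd (nat_lit 78) (nat_lit 0) (nat_lit 0) (XT.lf (nat_lit 0) (nat_lit 6229818078) (nat_lit 152) (nat_lit 81571099003) (nat_lit 0) (nat_lit 5123058373) (nat_lit 5) (nat_lit 5) (nat_lit 7) (nat_lit 4) (nat_lit 5) (nat_lit 4) (nat_lit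 505) (nat_lit 360) (nat_lit 335)) (XT.lf (nat_lit 0) (nat_lit 14817098195) (nat_lit 152) (nat_lit 68647081885) (nat_lit 0) (nat_lit 13688253410) (nat_lit 5) (nat_lit 5) (nat_lit 7) (nat_lit 4) (nat_lit 5) (nat_lit 4) (nat_lit 506) (nat_lit 360) (nat_lit 334))))) (XT.nd (nat_lit 312) (nat_lit 76) (nat_lit 0) (XT.nd (nat_lit 156) (nat_lit 0) (nat_lit 0) (XT.nd (nat_lit 78) (nat_lit 0) (nat_lit 0) (XT.lf (nat_lit 0) (nat_lit 23688257474) (nat_lit 152) (nat_lit 55372952354) (nat_lit 0) (nat_lit 22538379277) (nat_lit 5) (nat_lit 5) (nat_lit 7) (nat_lit 4) (nat_lit 5) (nat_lit 4) (nat_lit 507) (nat_lit 360) (nat_lit 333)) (XT.lf (nat_lit 0) (nat_lit 32864417720) (nat_lit 152) (nat_lit 41717105338) (nat_lit 0) (nat_lit 31694507704) (nat_lit 5) (nat_lit 5) (nat_lit 7) (nat_lit 4) (nat_lit 5) (nat_lit 4) (nat_lit 508) (nat_lit 360) (nat_lit 332))) (XT.nd (nat_lit 78) (nat_lit 0) (nat_lit 0) (XT.lf (nat_lit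 0) (nat_lit 42367426936) (nat_lit 152) (nat_lit 27647026916) (nat_lit 0) (nat_lit 41178438996) (nat_lit 5) (nat_lit 5) (nat_lit 7) (nat_lit 4) (nat_lit 5) (nat_lit 4) (nat_lit 509) (nat_lit 360) (nat_lit 331)) (XT.lf (nat_lit 0) (nat_lit 52219911333) (nat_lit 152) (nat_lit 13129216902) (nat_lit 0) (nat_lit 51012753942) (nat_lit 5) (nat_lit 5) (nat_lit 7) (nat_lit 4) (nat_lit 5) (nat_lit 4) (nat_lit 510) (nat_lit 360) (nat_lit 330)))) (XT.nd (nat_lit 156) (nat_lit 0) (nat_lit 0) (XT.nd (nat_lit 78) (nat_lit 0) (nat_lit 0) (XT.lf (nat_lit 0) (nat_lit 1932751021) (nat_lit 76) (nat_lit 60542753847) (nat_lit 76) (nat_lit 59318292216) (nat_lit 4) (nat_lit 4) (nat_lit 5) (nat_lit 5) (nat_lit 5) (nat_lit 4) (nat_lit 511) (nat_lit 360) (nat_lit 329)) (XT.lf (nat_lit 0) (nat_lit 17963970325) (nat_lit 76) (nat_lit 55384524389) (nat_lit 76) (nat_lit 54143582530) (nat_lit 4) (nat_lit 4) (nat_lit 5) (nat_lit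 5) (nat_lit 5) (nat_lit 4) (nat_lit 512) (nat_lit 360) (nat_lit 328))) (XT.nd (nat_lit 78) (nat_lit 0) (nat_lit 0) (XT.lf (nat_lit 0) (nat_lit 34568499377) (nat_lit 76) (nat_lit 50084508003) (nat_lit 76) (nat_lit 48827870690) (nat_lit 4) (nat_lit 4) (nat_lit 5) (nat_lit 5) (nat_lit 5) (nat_lit 4) (nat_lit 513) (nat_lit 360) (nat_lit 327)) (XT.lf (nat_lit 0) (nat_lit 51785872768) (nat_lit 76) (nat_lit 44630085604) (nat_lit 76) (nat_lit 43358500239) (nat_lit 4) (nat_lit 4) (nat_lit 5) (nat_lit 5) (nat_lit 5) (nat_lit 4) (nat_lit 514) (nat_lit 360) (nat_lit 326))))))))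
noncomputable def xc22 : XT := (XT.nd (nat_lit 2418) (nat_lit 76) (nat_lit 0) (XT.nd (nat_lit 1170) (nat_lit 0) (nat_lit 0) (XT.nd (nat_lit 546) (nat_lit 76) (nat_lit 0) (XT.nd (nat_lit 234) (nat_lit 76) (nat_lit 0) (XT.nd (nat_lit 78) (nat_lit 0) (nat_lit 0) (XT.lf (nat_lit 0) (nat_lit 69657084244) (nat_lit 76) (nat_lit 39008270472) (nat_lit 76) (nat_lit 37722448866) (nat_lit 4) (nat_lit 4) (nat_lit 5) (nat_lit 5) (nat_lit 5) (nat_lit 4) (nat_lit 515) (nat_lit 360) (nat_lit 325)) (XT.nd (nat_lit 78) (nat_lit 0) (nat_lit 0) (XT.lf (nat_lit 0) (nat_lit 88224684310) (nat_lit 76) (nat_lit 33205677331) (nat_lit 76) (nat_lit 31906297401) (nat_lit 4) (nat_lit 4) (nat_lit 5) (nat_lit 5) (nat_lit 5) (nat_lit 4) (nat_lit 516) (nat_lit 360) (nat_lit 324)) (XT.lf (nat_lit 0) (nat_lit 107532881537) (nat_lit 76) (nat_lit 27208490485) (nat_lit 76) (nat_lit 25896197865) (nat_lit 4) (nat_lit 4) (nat_lit 5) (nat_lit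 5) (nat_lit 5) (nat_lit 4) (nat_lit 517) (nat_lit 360) (nat_lit 323)))) (XT.nd (nat_lit 156) (nat_lit 76) (nat_lit 0) (XT.nd (nat_lit 78) (nat_lit 0) (nat_lit 0) (XT.lf (nat_lit 0) (nat_lit 127627647823) (nat_lit 76) (nat_lit 21002430917) (nat_lit 76) (nat_lit 19677840497) (nat_lit 4) (nat_lit 4) (nat_lit 5) (nat_lit 5) (nat_lit 5) (nat_lit 4) (nat_lit 518) (nat_lit 360) (nat_lit 322)) (XT.lf (nat_lit 0) (nat_lit 148556827849) (nat_lit 76) (nat_lit 14572722294) (nat_lit 76) (nat_lit 13236419685) (nat_lit 4) (nat_lit 4) (nat_lit 5) (nat_lit 5) (nat_lit 5) (nat_lit 4) (nat_lit 519) (nat_lit 360) (nat_lit 321))) (XT.nd (nat_lit 78) (nat_lit 76) (nat_lit 0) (XT.lf (nat_lit 0) (nat_lit 170370252997) (nat_lit 76) (nat_lit 7904055788) (nat_lit 76) (nat_lit 6556598711) (nat_lit 4) (nat_lit 4) (nat_lit 5) (nat_lit 5) (nat_lit 5) (nat_lit 4) (nat_lit 520) (nat_lit 360) (nat_lit 320)) (XT.lf (nat_lit 0)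 (nat_lit 365443544) (nat_lit 152) (nat_lit 608921111) (nat_lit 76) (nat_lit 192748227485) (nat_lit 3) (nat_lit 5) (nat_lit 5) (nat_lit 5) (nat_lit 4) (nat_lit 4) (nat_lit 521) (nat_lit 360) (nat_lit 319))))) (XT.nd (nat_lit 312) (nat_lit 0) (nat_lit 0) (XT.nd (nat_lit 156) (nat_lit 0) (nat_lit 0) (XT.nd (nat_lit 78) (nat_lit 0) (nat_lit 0) (XT.lf (nat_lit 0) (nat_lit 7662978404) (nat_lit 152) (nat_lit 189018088919) (nat_lit 0) (nat_lit 6359932872) (nat_lit 2) (nat_lit 5) (nat_lit 4) (nat_lit 4) (nat_lit 2) (nat_lit 4) (nat_lit 522) (nat_lit 360) (nat_lit 318)) (XT.lf (nat_lit 0) (nat_lit 15278413300) (nat_lit 152) (nat_lit 183583073416) (nat_lit 0) (nat_lit 13966190960) (nat_lit 2) (nat_lit 5) (nat_lit 4) (nat_lit 4) (nat_lit 2) (nat_lit 4) (nat_lit 523) (nat_lit 360) (nat_lit 317))) (XT.nd (nat_lit 78) (nat_lit 0) (nat_lit 0) (XT.lf (nat_lit 0) (nat_lit 23204685343) (nat_lit 152) (nat_lit 178018777412)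 (nat_lit 0) (nat_lit 21883723187) (nat_lit 2) (nat_lit 5) (nat_lit 4) (nat_lit 4) (nat_lit 2) (nat_lit 4) (nat_lit 524) (nat_lit 360) (nat_lit 316)) (XT.lf (nat_lit 0) (nat_lit 31460666611) (nat_lit 152) (nat_lit 172311952580) (nat_lit 0) (nat_lit 30131380820) (nat_lit 2) (nat_lit 5) (nat_lit 4) (nat_lit 4) (nat_lit 2) (nat_lit 4) (nat_lit 525) (nat_lit 360) (nat_lit 315)))) (XT.nd (nat_lit 156) (nat_lit 0) (nat_lit 0) (XT.nd (nat_lit 78) (nat_lit 0) (nat_lit 0) (XT.lf (nat_lit 0) (nat_lit 40066014202) (nat_lit 152) (nat_lit 166449011244) (nat_lit 0) (nat_lit 38728801140) (nat_lit 2) (nat_lit 5) (nat_lit 4) (nat_lit 4) (nat_lit 2) (nat_lit 4) (nat_lit 526) (nat_lit 360) (nat_lit 314)) (XT.lf (nat_lit 0) (nat_lit 49041217038) (nat_lit 152) (nat_lit 160415994020) (nat_lit 0) (nat_lit 47696454193) (nat_lit 2) (nat_lit 5) (nat_lit 4) (nat_lit 4) (nat_lit 2) (nat_lit 4) (nat_lit 527) (nat_lit 360)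 (nat_lit 313))) (XT.nd (nat_lit 78) (nat_lit 0) (nat_lit 0) (XT.lf (nat_lit 0) (nat_lit 58407644649) (nat_lit 152) (nat_lit 154198536580) (nat_lit 0) (nat_lit 57055691536) (nat_lit 2) (nat_lit 5) (nat_lit 4) (nat_lit 4) (nat_lit 2) (nat_lit 4) (nat_lit 528) (nat_lit 360) (nat_lit 312)) (XT.lf (nat_lit 0) (nat_lit 68187598055) (nat_lit 152) (nat_lit 147781835455) (nat_lit 0) (nat_lit 66828797067) (nat_lit 2) (nat_lit 5) (nat_lit 4) (nat_lit 4) (nat_lit 2) (nat_lit 4) (nat_lit 529) (nat_lit 360) (nat_lit 311)))))) (XT.nd (nat_lit 624) (nat_lit 0) (nat_lit 0) (XT.nd (nat_lit 312) (nat_lit 0) (nat_lit 0) (XT.nd (nat_lit 156) (nat_lit 0) (nat_lit 0) (XT.nd (nat_lit 78) (nat_lit 0) (nat_lit 0) (XT.lf (nat_lit 0) (nat_lit 78404362858) (nat_lit 152) (nat_lit 141150612784) (nat_lit 0) (nat_lit 77039040084) (nat_lit 2) (nat_lit 5) (nat_lit 4) (nat_lit 4) (nat_lit 2) (nat_lit 4) (nat_lit 530) (nat_lit 360)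 (nat_lit 310)) (XT.lf (nat_lit 0) (nat_lit 89082264689) (nat_lit 152) (nat_lit 134289079943) (nat_lit 0) (nat_lit 87710730690) (nat_lit 2) (nat_lit 5) (nat_lit 4) (nat_lit 4) (nat_lit 2) (nat_lit 4) (nat_lit 531) (nat_lit 360) (nat_lit 309))) (XT.nd (nat_lit 78) (nat_lit 0) (nat_lit 0) (XT.lf (nat_lit 0) (nat_lit 100246727123) (nat_lit 152) (nat_lit 127180899948) (nat_lit 0) (nat_lit 98869277673) (nat_lit 2) (nat_lit 5) (nat_lit 4) (nat_lit 4) (nat_lit 2) (nat_lit 4) (nat_lit 532) (nat_lit 360) (nat_lit 308)) (XT.lf (nat_lit 0) (nat_lit 111924332215) (nat_lit 152) (nat_lit 119809148561) (nat_lit 0) (nat_lit 110541249001) (nat_lit 2) (nat_lit 5) (nat_lit 4) (nat_lit 4) (nat_lit 2) (nat_lit 4) (nat_lit 533) (nat_lit 360) (nat_lit 307)))) (XT.nd (nat_lit 156) (nat_lit 0) (nat_lit 0) (XT.nd (nat_lit 78) (nat_lit 0) (nat_lit 0) (XT.lf (nat_lit 0) (nat_lit 124142883785) (nat_lit 152) (nat_lit 112156273994)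 (nat_lit 0) (nat_lit 122754435082) (nat_lit 2) (nat_lit 5) (nat_lit 4) (nat_lit 4) (nat_lit 2) (nat_lit 4) (nat_lit 534) (nat_lit 360) (nat_lit 306)) (XT.lf (nat_lit 0) (nat_lit 136931473624) (nat_lit 152) (nat_lit 104204055116) (nat_lit 0) (nat_lit 135537914930) (nat_lit 2) (nat_lit 5) (nat_lit 4) (nat_lit 4) (nat_lit 2) (nat_lit 4) (nat_lit 535) (nat_lit 360) (nat_lit 305))) (XT.nd (nat_lit 78) (nat_lit 0) (nat_lit 0) (XT.lf (nat_lit 0) (nat_lit 150320550754) (nat_lit 152) (nat_lit 95933558073) (nat_lit 0) (nat_lit 148922125403) (nat_lit 2) (nat_lit 5) (nat_lit 4) (nat_lit 4) (nat_lit 2) (nat_lit 4) (nat_lit 536) (nat_lit 360) (nat_lit 304)) (XT.lf (nat_lit 0) (nat_lit 164341993930) (nat_lit 152) (nat_lit 87325091204) (nat_lit 0) (nat_lit 162938933668) (nat_lit 2) (nat_lit 5) (nat_lit 4) (nat_lit 4) (nat_lit 2) (nat_lit 4) (nat_lit 537) (nat_lit 360) (nat_lit 303))))) (XT.nd (nat_lit 312) (nat_lit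 0) (nat_lit 0) (XT.nd (nat_lit 156) (nat_lit 0) (nat_lit 0) (XT.nd (nat_lit 78) (nat_lit 0) (nat_lit 0) (XT.lf (nat_lit 0) (nat_lit 179029187542) (nat_lit 152) (nat_lit 78358158162) (nat_lit 0) (nat_lit 177621713079) (nat_lit 2) (nat_lit 5) (nat_lit 4) (nat_lit 4) (nat_lit 2) (nat_lit 4) (nat_lit 538) (nat_lit 360) (nat_lit 302)) (XT.lf (nat_lit 0) (nat_lit 194417101097) (nat_lit 152) (nat_lit 69011409104) (nat_lit 0) (nat_lit 193005422633) (nat_lit 2) (nat_lit 5) (nat_lit 4) (nat_lit 4) (nat_lit 2) (nat_lit 4) (nat_lit 539) (nat_lit 360) (nat_lit 301))) (XT.nd (nat_lit 78) (nat_lit 0) (nat_lit 0) (XT.lf (nat_lit 0) (nat_lit 210542372486) (nat_lit 152) (nat_lit 59262589867) (nat_lit 0) (nat_lit 209126690211) (nat_lit 2) (nat_lit 5) (nat_lit 4) (nat_lit 4) (nat_lit 2) (nat_lit 4) (nat_lit 540) (nat_lit 360) (nat_lit 300)) (XT.lf (nat_lit 0) (nat_lit 227443395211) (nat_lit 152) (nat_lit 49088488977)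 (nat_lit 0) (nat_lit 226023899783) (nat_lit 2) (nat_lit 5) (nat_lit 4) (nat_lit 4) (nat_lit 2) (nat_lit 4) (nat_lit 541) (nat_lit 360) (nat_lit 299)))) (XT.nd (nat_lit 156) (nat_lit 0) (nat_lit 0) (XT.nd (nat_lit 78) (nat_lit 0) (nat_lit 0) (XT.lf (nat_lit 0) (nat_lit 245160409803) (nat_lit 152) (nat_lit 38464882382) (nat_lit 0) (nat_lit 243737282801) (nat_lit 2) (nat_lit 5) (nat_lit 4) (nat_lit 4) (nat_lit 2) (nat_lit 4) (nat_lit 542) (nat_lit 360) (nat_lit 298)) (XT.lf (nat_lit 0) (nat_lit 263735599630) (nat_lit 152) (nat_lit 27366475783) (nat_lit 0) (nat_lit 262309013985) (nat_lit 2) (nat_lit 5) (nat_lit 4) (nat_lit 4) (nat_lit 2) (nat_lit 4) (nat_lit 543) (nat_lit 360) (nat_lit 297))) (XT.nd (nat_lit 78) (nat_lit 0) (nat_lit 0) (XT.lf (nat_lit 0) (nat_lit 283213191334) (nat_lit 152) (nat_lit 15766844401) (nat_lit 0) (nat_lit 281783311744) (nat_lit 2) (nat_lit 5) (nat_lit 4) (nat_lit 4) (nat_lit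 2) (nat_lit 4) (nat_lit 544) (nat_lit 360) (nat_lit 296)) (XT.lf (nat_lit 0) (nat_lit 303639560133) (nat_lit 152) (nat_lit 3638370066) (nat_lit 0) (nat_lit 302206543453) (nat_lit 2) (nat_lit 5) (nat_lit 4) (nat_lit 4) (nat_lit 2) (nat_lit 4) (nat_lit 545) (nat_lit 360) (nat_lit 295))))))) (XT.nd (nat_lit 57720) (nat_lit 0) (nat_lit 456) (XT.nd (nat_lit 546) (nat_lit 0) (nat_lit 0) (XT.nd (nat_lit 234) (nat_lit 0) (nat_lit 0) (XT.nd (nat_lit 78) (nat_lit 0) (nat_lit 0) (XT.lf (nat_lit 0) (nat_lit 9346986480) (nat_lit 76) (nat_lit 315862286413) (nat_lit 76) (nat_lit 314426282028) (nat_lit 1) (nat_lit 4) (nat_lit 2) (nat_lit 5) (nat_lit 2) (nat_lit 4) (nat_lit 546) (nat_lit 360) (nat_lit 294)) (XT.nd (nat_lit 78) (nat_lit 0) (nat_lit 0) (XT.lf (nat_lit 0) (nat_lit 23060008943) (nat_lit 76) (nat_lit 324835563076) (nat_lit 76) (nat_lit 323396713257) (nat_lit 1) (nat_lit 4) (nat_lit 2) (nat_lit 5)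 (nat_lit 2) (nat_lit 4) (nat_lit 547) (nat_lit 360) (nat_lit 293)) (XT.lf (nat_lit 0) (nat_lit 37413046429) (nat_lit 76) (nat_lit 334280742689) (nat_lit 76) (nat_lit 332839182934) (nat_lit 1) (nat_lit 4) (nat_lit 2) (nat_lit 5) (nat_lit 2) (nat_lit 4) (nat_lit 548) (nat_lit 360) (nat_lit 292)))) (XT.nd (nat_lit 156) (nat_lit 0) (nat_lit 0) (XT.nd (nat_lit 78) (nat_lit 0) (nat_lit 0) (XT.lf (nat_lit 0) (nat_lit 52440272837) (nat_lit 76) (nat_lit 344220313777) (nat_lit 76) (nat_lit 342776173130) (nat_lit 1) (nat_lit 4) (nat_lit 2) (nat_lit 5) (nat_lit 2) (nat_lit 4) (nat_lit 549) (nat_lit 360) (nat_lit 291)) (XT.lf (nat_lit 0) (nat_lit 68177467278) (nat_lit 76) (nat_lit 354677941985) (nat_lit 76) (nat_lit 353231343345) (nat_lit 1) (nat_lit 4) (nat_lit 2) (nat_lit 5) (nat_lit 2) (nat_lit 4) (nat_lit 550) (nat_lit 360) (nat_lit 290))) (XT.nd (nat_lit 78) (nat_lit 0) (nat_lit 0) (XT.lf (nat_lit 0)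 (nat_lit 84662099262) (nat_lit 76) (nat_lit 365678526427) (nat_lit 76) (nat_lit 364229586842) (nat_lit 1) (nat_lit 4) (nat_lit 2) (nat_lit 5) (nat_lit 2) (nat_lit 4) (nat_lit 551) (nat_lit 360) (nat_lit 289)) (XT.lf (nat_lit 0) (nat_lit 101933417913) (nat_lit 76) (nat_lit 377248258971) (nat_lit 76) (nat_lit 375797089915) (nat_lit 1) (nat_lit 4) (nat_lit 2) (nat_lit 5) (nat_lit 2) (nat_lit 4) (nat_lit 552) (nat_lit 360) (nat_lit 288))))) (XT.nd (nat_lit 56862) (nat_lit 0) (nat_lit 1140) (XT.nd (nat_lit 56706) (nat_lit 0) (nat_lit 1368) (XT.nd (nat_lit 56628) (nat_lit 0) (nat_lit 1444) (XT.lf (nat_lit 0) (nat_lit 120032545417) (nat_lit 76) (nat_lit 389414686600) (nat_lit 76) (nat_lit 387961394237) (nat_lit 1) (nat_lit 4) (nat_lit 2) (nat_lit 5) (nat_lit 2) (nat_lit 4) (nat_lit 553) (nat_lit 360) (nat_lit 287)) (XT.lf (nat_lit 0) (nat_lit 945489424) (nat_lit 152) (nat_lit 14037561054) (nat_lit 0)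 (nat_lit 945489424) (nat_lit 20) (nat_lit 5) (nat_lit 22) (nat_lit 4) (nat_lit 20) (nat_lit 4) (nat_lit 478) (nat_lit 361) (nat_lit 361))) (XT.nd (nat_lit 78) (nat_lit 76) (nat_lit 0) (XT.lf (nat_lit 0) (nat_lit 12017885124) (nat_lit 152) (nat_lit 9007444434) (nat_lit 0) (nat_lit 11917662152) (nat_lit 20) (nat_lit 5) (nat_lit 22) (nat_lit 4) (nat_lit 20) (nat_lit 4) (nat_lit 479) (nat_lit 361) (nat_lit 360)) (XT.lf (nat_lit 0) (nat_lit 10711816380) (nat_lit 76) (nat_lit 11787328895) (nat_lit 76) (nat_lit 11591655474) (nat_lit 19) (nat_lit 4) (nat_lit 20) (nat_lit 5) (nat_lit 20) (nat_lit 4) (nat_lit 480) (nat_lit 361) (nat_lit 359)))) (XT.nd (nat_lit 156) (nat_lit 76) (nat_lit 0) (XT.nd (nat_lit 78) (nat_lit 152) (nat_lit 0) (XT.lf (nat_lit 0) (nat_lit 31095510115) (nat_lit 76) (nat_lit 2247570013) (nat_lit 76) (nat_lit 1960991403) (nat_lit 19) (nat_lit 4) (nat_lit 20) (nat_lit 5) (nat_lit 20)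 (nat_lit 4) (nat_lit 481) (nat_lit 361) (nat_lit 358)) (XT.lf (nat_lit 0) (nat_lit 7953806901) (nat_lit 152) (nat_lit 21016241763) (nat_lit 0) (nat_lit 7598421205) (nat_lit 17) (nat_lit 5) (nat_lit 19) (nat_lit 4) (nat_lit 17) (nat_lit 4) (nat_lit 482) (nat_lit 361) (nat_lit 357))) (XT.nd (nat_lit 78) (nat_lit 76) (nat_lit 0) (XT.lf (nat_lit 0) (nat_lit 18104113689) (nat_lit 152) (nat_lit 2129884475) (nat_lit 0) (nat_lit 17670200672) (nat_lit 17) (nat_lit 5) (nat_lit 19) (nat_lit 4) (nat_lit 17) (nat_lit 4) (nat_lit 483) (nat_lit 361) (nat_lit 356)) (XT.lf (nat_lit 0) (nat_lit 17681600239) (nat_lit 76) (nat_lit 11067235744) (nat_lit 76) (nat_lit 10558534802) (nat_lit 16) (nat_lit 4) (nat_lit 17) (nat_lit 5) (nat_lit 17) (nat_lit 4) (nat_lit 484) (nat_lit 361) (nat_lit 355)))))) (XT.nd (nat_lit 624) (nat_lit 304) (nat_lit 0) (XT.nd (nat_lit 312) (nat_lit 152) (nat_lit 0) (XT.nd (nat_lit 156) (nat_lit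 76) (nat_lit 0) (XT.nd (nat_lit 78) (nat_lit 152) (nat_lit 0) (XT.lf (nat_lit 0) (nat_lit 37981929192) (nat_lit 76) (nat_lit 1695558246) (nat_lit 76) (nat_lit 1115630710) (nat_lit 16) (nat_lit 4) (nat_lit 17) (nat_lit 5) (nat_lit 17) (nat_lit 4) (nat_lit 485) (nat_lit 361) (nat_lit 354)) (XT.lf (nat_lit 0) (nat_lit 8633897980) (nat_lit 152) (nat_lit 25689599844) (nat_lit 0) (nat_lit 8016981420) (nat_lit 14) (nat_lit 5) (nat_lit 16) (nat_lit 4) (nat_lit 14) (nat_lit 4) (nat_lit 486) (nat_lit 361) (nat_lit 353))) (XT.nd (nat_lit 78) (nat_lit 76) (nat_lit 0) (XT.lf (nat_lit 0) (nat_lit 18634530825) (nat_lit 152) (nat_lit 7383622325) (nat_lit 0) (nat_lit 17956086054) (nat_lit 14) (nat_lit 5) (nat_lit 16) (nat_lit 4) (nat_lit 14) (nat_lit 4) (nat_lit 487) (nat_lit 361) (nat_lit 352)) (XT.lf (nat_lit 0) (nat_lit 11680475428) (nat_lit 76) (nat_lit 17375118049) (nat_lit 76) (nat_lit 16638074983) (nat_lit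 13) (nat_lit 4) (nat_lit 14) (nat_lit 5) (nat_lit 14) (nat_lit 4) (nat_lit 488) (nat_lit 361) (nat_lit 351)))) (XT.nd (nat_lit 156) (nat_lit 0) (nat_lit 0) (XT.nd (nat_lit 78) (nat_lit 152) (nat_lit 0) (XT.lf (nat_lit 0) (nat_lit 31431658911) (nat_lit 76) (nat_lit 8433446295) (nat_lit 76) (nat_lit 7640595328) (nat_lit 13) (nat_lit 4) (nat_lit 14) (nat_lit 5) (nat_lit 14) (nat_lit 4) (nat_lit 489) (nat_lit 361) (nat_lit 350)) (XT.lf (nat_lit 0) (nat_lit 1547425824) (nat_lit 152) (nat_lit 47127863995) (nat_lit 0) (nat_lit 741710254) (nat_lit 11) (nat_lit 5) (nat_lit 13) (nat_lit 4) (nat_lit 11) (nat_lit 4) (nat_lit 490) (nat_lit 361) (nat_lit 349))) (XT.nd (nat_lit 78) (nat_lit 0) (nat_lit 0) (XT.lf (nat_lit 0) (nat_lit 11103773585) (nat_lit 152) (nat_lit 30055695181) (nat_lit 0) (nat_lit 10249849052) (nat_lit 11) (nat_lit 5) (nat_lit 13) (nat_lit 4) (nat_lit 11) (nat_lit 4) (nat_lit 491) (nat_lit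 361) (nat_lit 348)) (XT.lf (nat_lit 0) (nat_lit 20900569319) (nat_lit 152) (nat_lit 12611820061) (nat_lit 0) (nat_lit 20000731488) (nat_lit 11) (nat_lit 5) (nat_lit 13) (nat_lit 4) (nat_lit 11) (nat_lit 4) (nat_lit 492) (nat_lit 361) (nat_lit 347))))) (XT.nd (nat_lit 312) (nat_lit 76) (nat_lit 0) (XT.nd (nat_lit 156) (nat_lit 152) (nat_lit 0) (XT.nd (nat_lit 78) (nat_lit 0) (nat_lit 0) (XT.lf (nat_lit 0) (nat_lit 5418727523) (nat_lit 76) (nat_lit 25627012730) (nat_lit 76) (nat_lit 24683447948) (nat_lit 10) (nat_lit 4) (nat_lit 11) (nat_lit 5) (nat_lit 11) (nat_lit 4) (nat_lit 493) (nat_lit 361) (nat_lit 346)) (XT.lf (nat_lit 0) (nat_lit 24337104478) (nat_lit 76) (nat_lit 17352301484) (nat_lit 76) (nat_lit 16367091987) (nat_lit 10) (nat_lit 4) (nat_lit 11) (nat_lit 5) (nat_lit 11) (nat_lit 4) (nat_lit 494) (nat_lit 361) (nat_lit 345))) (XT.nd (nat_lit 78) (nat_lit 152) (nat_lit 0) (XT.lf (nat_lit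 0) (nat_lit 43771350830) (nat_lit 76) (nat_lit 8882141223) (nat_lit 76) (nat_lit 7857270093) (nat_lit 10) (nat_lit 4) (nat_lit 11) (nat_lit 5) (nat_lit 11) (nat_lit 4) (nat_lit 495) (nat_lit 361) (nat_lit 344)) (XT.lf (nat_lit 0) (nat_lit 678092459) (nat_lit 76) (nat_lit 171047332) (nat_lit 152) (nat_lit 62247478892) (nat_lit 8) (nat_lit 5) (nat_lit 9) (nat_lit 5) (nat_lit 10) (nat_lit 4) (nat_lit 496) (nat_lit 361) (nat_lit 343)))) (XT.nd (nat_lit 156) (nat_lit 76) (nat_lit 0) (XT.nd (nat_lit 78) (nat_lit 0) (nat_lit 0) (XT.lf (nat_lit 0) (nat_lit 9950218169) (nat_lit 152) (nat_lit 46940025063) (nat_lit 0) (nat_lit 8903914946) (nat_lit 8) (nat_lit 5) (nat_lit 10) (nat_lit 4) (nat_lit 8) (nat_lit 4) (nat_lit 497) (nat_lit 361) (nat_lit 342)) (XT.lf (nat_lit 0) (nat_lit 19314042231) (nat_lit 152) (nat_lit 31087039216) (nat_lit 0) (nat_lit 18235109285) (nat_lit 8) (nat_lit 5) (nat_lit 10) (nat_lit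 4) (nat_lit 8) (nat_lit 4) (nat_lit 498) (nat_lit 361) (nat_lit 341))) (XT.nd (nat_lit 78) (nat_lit 76) (nat_lit 0) (XT.lf (nat_lit 0) (nat_lit 28960236271) (nat_lit 152) (nat_lit 14819152949) (nat_lit 0) (nat_lit 27850227397) (nat_lit 8) (nat_lit 5) (nat_lit 10) (nat_lit 4) (nat_lit 8) (nat_lit 4) (nat_lit 499) (nat_lit 361) (nat_lit 340)) (XT.lf (nat_lit 0) (nat_lit 1965267637) (nat_lit 76) (nat_lit 36977183113) (nat_lit 76) (nat_lit 35837578118) (nat_lit 7) (nat_lit 4) (nat_lit 8) (nat_lit 5) (nat_lit 8) (nat_lit 4) (nat_lit 500) (nat_lit 361) (nat_lit 339))))))))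
noncomputable def xc23 : XT := (XT.nd (nat_lit 2418) (nat_lit 76) (nat_lit 0) (XT.nd (nat_lit 1170) (nat_lit 152) (nat_lit 0) (XT.nd (nat_lit 546) (nat_lit 76) (nat_lit 0) (XT.nd (nat_lit 234) (nat_lit 152) (nat_lit 0) (XT.nd (nat_lit 78) (nat_lit 0) (nat_lit 0) (XT.lf (nat_lit 0) (nat_lit 19749438544) (nat_lit 76) (nat_lit 29751235325) (nat_lit 76) (nat_lit 28583443548) (nat_lit 7) (nat_lit 4) (nat_lit 8) (nat_lit 5) (nat_lit 8) (nat_lit 4) (nat_lit 501) (nat_lit 361) (nat_lit 338)) (XT.nd (nat_lit 78) (nat_lit 0) (nat_lit 0) (XT.lf (nat_lit 0) (nat_lit 38085714912) (nat_lit 76) (nat_lit 22335310746) (nat_lit 76) (nat_lit 21140674414) (nat_lit 7) (nat_lit 4) (nat_lit 8) (nat_lit 5) (nat_lit 8) (nat_lit 4) (nat_lit 502) (nat_lit 361) (nat_lit 337)) (XT.lf (nat_lit 0) (nat_lit 57017754544) (nat_lit 76) (nat_lit 14711752411) (nat_lit 76) (nat_lit 13491549837) (nat_lit 7) (nat_lit 4) (nat_lit 8)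 (nat_lit 5) (nat_lit 8) (nat_lit 4) (nat_lit 503) (nat_lit 361) (nat_lit 336)))) (XT.nd (nat_lit 156) (nat_lit 0) (nat_lit 0) (XT.nd (nat_lit 78) (nat_lit 152) (nat_lit 0) (XT.lf (nat_lit 0) (nat_lit 76590633724) (nat_lit 76) (nat_lit 6862408991) (nat_lit 76) (nat_lit 5617857614) (nat_lit 7) (nat_lit 4) (nat_lit 8) (nat_lit 5) (nat_lit 8) (nat_lit 4) (nat_lit 504) (nat_lit 361) (nat_lit 335)) (XT.lf (nat_lit 0) (nat_lit 2499543176) (nat_lit 152) (nat_lit 89322712677) (nat_lit 0) (nat_lit 1292171069) (nat_lit 5) (nat_lit 5) (nat_lit 7) (nat_lit 4) (nat_lit 5) (nat_lit 4) (nat_lit 505) (nat_lit 361) (nat_lit 334))) (XT.nd (nat_lit 78) (nat_lit 0) (nat_lit 0) (XT.lf (nat_lit 0) (nat_lit 11015855076) (nat_lit 152) (nat_lit 76543128945) (nat_lit 0) (nat_lit 9787449559) (nat_lit 5) (nat_lit 5) (nat_lit 7) (nat_lit 4) (nat_lit 5) (nat_lit 4) (nat_lit 506) (nat_lit 361) (nat_lit 333)) (XT.lf (nat_lit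 0) (nat_lit 19819425576) (nat_lit 152) (nat_lit 63406555020) (nat_lit 0) (nat_lit 18570988239) (nat_lit 5) (nat_lit 5) (nat_lit 7) (nat_lit 4) (nat_lit 5) (nat_lit 4) (nat_lit 507) (nat_lit 361) (nat_lit 332))))) (XT.nd (nat_lit 312) (nat_lit 76) (nat_lit 0) (XT.nd (nat_lit 156) (nat_lit 0) (nat_lit 0) (XT.nd (nat_lit 78) (nat_lit 0) (nat_lit 0) (XT.lf (nat_lit 0) (nat_lit 28931215558) (nat_lit 152) (nat_lit 49881713343) (nat_lit 0) (nat_lit 27663700297) (nat_lit 5) (nat_lit 5) (nat_lit 7) (nat_lit 4) (nat_lit 5) (nat_lit 4) (nat_lit 508) (nat_lit 361) (nat_lit 331)) (XT.lf (nat_lit 0) (nat_lit 38372919759) (nat_lit 152) (nat_lit 35936401911) (nat_lit 0) (nat_lit 37087235047) (nat_lit 5) (nat_lit 5) (nat_lit 7) (nat_lit 4) (nat_lit 5) (nat_lit 4) (nat_lit 509) (nat_lit 361) (nat_lit 330))) (XT.nd (nat_lit 78) (nat_lit 0) (nat_lit 0) (XT.lf (nat_lit 0) (nat_lit 48167018429) (nat_lit 152) (nat_lit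 21537417601) (nat_lit 0) (nat_lit 46864029478) (nat_lit 5) (nat_lit 5) (nat_lit 7) (nat_lit 4) (nat_lit 5) (nat_lit 4) (nat_lit 510) (nat_lit 361) (nat_lit 329)) (XT.lf (nat_lit 0) (nat_lit 58336830848) (nat_lit 152) (nat_lit 6650477118) (nat_lit 0) (nat_lit 57017361669) (nat_lit 5) (nat_lit 5) (nat_lit 7) (nat_lit 4) (nat_lit 5) (nat_lit 4) (nat_lit 511) (nat_lit 361) (nat_lit 328)))) (XT.nd (nat_lit 156) (nat_lit 0) (nat_lit 0) (XT.nd (nat_lit 78) (nat_lit 0) (nat_lit 0) (XT.lf (nat_lit 0) (nat_lit 9049505320) (nat_lit 76) (nat_lit 59998353676) (nat_lit 76) (nat_lit 58663189042) (nat_lit 4) (nat_lit 4) (nat_lit 5) (nat_lit 5) (nat_lit 5) (nat_lit 4) (nat_lit 512) (nat_lit 361) (nat_lit 327)) (XT.lf (nat_lit 0) (nat_lit 25547994316) (nat_lit 76) (nat_lit 54752285977) (nat_lit 76) (nat_lit 53402173290) (nat_lit 4) (nat_lit 4) (nat_lit 5) (nat_lit 5) (nat_lit 5) (nat_lit 4) (nat_lit 513) (nat_lit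 361) (nat_lit 326))) (XT.nd (nat_lit 78) (nat_lit 0) (nat_lit 0) (XT.lf (nat_lit 0) (nat_lit 42664377178) (nat_lit 76) (nat_lit 49349243278) (nat_lit 76) (nat_lit 47984894352) (nat_lit 4) (nat_lit 4) (nat_lit 5) (nat_lit 5) (nat_lit 5) (nat_lit 4) (nat_lit 514) (nat_lit 361) (nat_lit 325)) (XT.lf (nat_lit 0) (nat_lit 60439407199) (nat_lit 76) (nat_lit 43776361194) (nat_lit 76) (nat_lit 42398453943) (nat_lit 4) (nat_lit 4) (nat_lit 5) (nat_lit 5) (nat_lit 5) (nat_lit 4) (nat_lit 515) (nat_lit 361) (nat_lit 324)))))) (XT.nd (nat_lit 624) (nat_lit 0) (nat_lit 0) (XT.nd (nat_lit 312) (nat_lit 152) (nat_lit 0) (XT.nd (nat_lit 156) (nat_lit 0) (nat_lit 0) (XT.nd (nat_lit 78) (nat_lit 0) (nat_lit 0) (XT.lf (nat_lit 0) (nat_lit 78915405878) (nat_lit 76) (nat_lit 38020370956) (nat_lit 76) (nat_lit 36629551016) (nat_lit 4) (nat_lit 4) (nat_lit 5) (nat_lit 5) (nat_lit 5) (nat_lit 4) (nat_lit 516) (nat_lit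 361) (nat_lit 323)) (XT.lf (nat_lit 0) (nat_lit 98136363689) (nat_lit 76) (nat_lit 32067567828) (nat_lit 76) (nat_lit 30664450087) (nat_lit 4) (nat_lit 4) (nat_lit 5) (nat_lit 5) (nat_lit 5) (nat_lit 4) (nat_lit 517) (nat_lit 361) (nat_lit 322))) (XT.nd (nat_lit 78) (nat_lit 0) (nat_lit 0) (XT.lf (nat_lit 0) (nat_lit 118148044817) (nat_lit 76) (nat_lit 25903778466) (nat_lit 76) (nat_lit 24488948536) (nat_lit 4) (nat_lit 4) (nat_lit 5) (nat_lit 5) (nat_lit 5) (nat_lit 4) (nat_lit 518) (nat_lit 361) (nat_lit 321)) (XT.lf (nat_lit 0) (nat_lit 138998096122) (nat_lit 76) (nat_lit 19514327184) (nat_lit 76) (nat_lit 18088342786) (nat_lit 4) (nat_lit 4) (nat_lit 5) (nat_lit 5) (nat_lit 5) (nat_lit 4) (nat_lit 519) (nat_lit 361) (nat_lit 320)))) (XT.nd (nat_lit 156) (nat_lit 152) (nat_lit 0) (XT.nd (nat_lit 78) (nat_lit 0) (nat_lit 0) (XT.lf (nat_lit 0) (nat_lit 160736160583) (nat_lit 76) (nat_lit 12884001000)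 (nat_lit 76) (nat_lit 11447393301) (nat_lit 4) (nat_lit 4) (nat_lit 5) (nat_lit 5) (nat_lit 5) (nat_lit 4) (nat_lit 520) (nat_lit 361) (nat_lit 319)) (XT.lf (nat_lit 0) (nat_lit 183413995496) (nat_lit 76) (nat_lit 5997013426) (nat_lit 76) (nat_lit 4550288297) (nat_lit 4) (nat_lit 4) (nat_lit 5) (nat_lit 5) (nat_lit 5) (nat_lit 4) (nat_lit 521) (nat_lit 361) (nat_lit 318))) (XT.nd (nat_lit 78) (nat_lit 0) (nat_lit 0) (XT.lf (nat_lit 0) (nat_lit 2615722150) (nat_lit 152) (nat_lit 199452681570) (nat_lit 0) (nat_lit 1228711886) (nat_lit 2) (nat_lit 5) (nat_lit 4) (nat_lit 4) (nat_lit 2) (nat_lit 4) (nat_lit 522) (nat_lit 361) (nat_lit 317)) (XT.lf (nat_lit 0) (nat_lit 10197042608) (nat_lit 152) (nat_lit 194087163761) (nat_lit 0) (nat_lit 8801292527) (nat_lit 2) (nat_lit 5) (nat_lit 4) (nat_lit 4) (nat_lit 2) (nat_lit 4) (nat_lit 523) (nat_lit 361) (nat_lit 316))))) (XT.nd (nat_lit 312) (nat_lit 0)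 (nat_lit 0) (XT.nd (nat_lit 156) (nat_lit 0) (nat_lit 0) (XT.nd (nat_lit 78) (nat_lit 0) (nat_lit 0) (XT.lf (nat_lit 0) (nat_lit 18090824711) (nat_lit 152) (nat_lit 188589056036) (nat_lit 0) (nat_lit 16686750996) (nat_lit 2) (nat_lit 5) (nat_lit 4) (nat_lit 4) (nat_lit 2) (nat_lit 4) (nat_lit 524) (nat_lit 361) (nat_lit 315)) (XT.lf (nat_lit 0) (nat_lit 26315863179) (nat_lit 152) (nat_lit 182945267662) (nat_lit 0) (nat_lit 24903862192) (nat_lit 2) (nat_lit 5) (nat_lit 4) (nat_lit 4) (nat_lit 2) (nat_lit 4) (nat_lit 525) (nat_lit 361) (nat_lit 314))) (XT.nd (nat_lit 78) (nat_lit 0) (nat_lit 0) (XT.lf (nat_lit 0) (nat_lit 34891741435) (nat_lit 152) (nat_lit 177142361047) (nat_lit 0) (nat_lit 33472190666) (nat_lit 2) (nat_lit 5) (nat_lit 4) (nat_lit 4) (nat_lit 2) (nat_lit 4) (nat_lit 526) (nat_lit 361) (nat_lit 313)) (XT.lf (nat_lit 0) (nat_lit 43838878239) (nat_lit 152) (nat_lit 171166519748)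 (nat_lit 0) (nat_lit 42412137201) (nat_lit 2) (nat_lit 5) (nat_lit 4) (nat_lit 4) (nat_lit 2) (nat_lit 4) (nat_lit 527) (nat_lit 361) (nat_lit 312)))) (XT.nd (nat_lit 156) (nat_lit 0) (nat_lit 0) (XT.nd (nat_lit 78) (nat_lit 0) (nat_lit 0) (XT.lf (nat_lit 0) (nat_lit 53178576296) (nat_lit 152) (nat_lit 165003515570) (nat_lit 0) (nat_lit 51744987384) (nat_lit 2) (nat_lit 5) (nat_lit 4) (nat_lit 4) (nat_lit 2) (nat_lit 4) (nat_lit 528) (nat_lit 361) (nat_lit 311)) (XT.lf (nat_lit 0) (nat_lit 62933072984) (nat_lit 152) (nat_lit 158638674694) (nat_lit 0) (nat_lit 61492962285) (nat_lit 2) (nat_lit 5) (nat_lit 4) (nat_lit 4) (nat_lit 2) (nat_lit 4) (nat_lit 529) (nat_lit 361) (nat_lit 310))) (XT.nd (nat_lit 78) (nat_lit 0) (nat_lit 0) (XT.lf (nat_lit 0) (nat_lit 73125593293) (nat_lit 152) (nat_lit 152056842737) (nat_lit 0) (nat_lit 71679271370) (nat_lit 2) (nat_lit 5) (nat_lit 4) (nat_lit 4) (nat_lit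 2) (nat_lit 4) (nat_lit 530) (nat_lit 361) (nat_lit 309)) (XT.lf (nat_lit 0) (nat_lit 83780405129) (nat_lit 152) (nat_lit 145242348670) (nat_lit 0) (nat_lit 82328167754) (nat_lit 2) (nat_lit 5) (nat_lit 4) (nat_lit 4) (nat_lit 2) (nat_lit 4) (nat_lit 531) (nat_lit 361) (nat_lit 308))))))) (XT.nd (nat_lit 1248) (nat_lit 0) (nat_lit 0) (XT.nd (nat_lit 624) (nat_lit 76) (nat_lit 0) (XT.nd (nat_lit 312) (nat_lit 0) (nat_lit 0) (XT.nd (nat_lit 156) (nat_lit 0) (nat_lit 0) (XT.nd (nat_lit 78) (nat_lit 0) (nat_lit 0) (XT.lf (nat_lit 0) (nat_lit 94922877093) (nat_lit 152) (nat_lit 138178967508) (nat_lit 0) (nat_lit 93465005955) (nat_lit 2) (nat_lit 5) (nat_lit 4) (nat_lit 4) (nat_lit 2) (nat_lit 4) (nat_lit 532) (nat_lit 361) (nat_lit 307)) (XT.lf (nat_lit 0) (nat_lit 106579538880) (nat_lit 152) (nat_lit 130849881677) (nat_lit 0) (nat_lit 105116302252) (nat_lit 2) (nat_lit 5) (nat_lit 4) (nat_lit 4)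 (nat_lit 2) (nat_lit 4) (nat_lit 533) (nat_lit 361) (nat_lit 306))) (XT.nd (nat_lit 78) (nat_lit 0) (nat_lit 0) (XT.lf (nat_lit 0) (nat_lit 118778144445) (nat_lit 152) (nat_lit 123237640972) (nat_lit 0) (nat_lit 117309797827) (nat_lit 2) (nat_lit 5) (nat_lit 4) (nat_lit 4) (nat_lit 2) (nat_lit 4) (nat_lit 534) (nat_lit 361) (nat_lit 305)) (XT.lf (nat_lit 0) (nat_lit 131547738088) (nat_lit 152) (nat_lit 115324121010) (nat_lit 0) (nat_lit 130074524813) (nat_lit 2) (nat_lit 5) (nat_lit 4) (nat_lit 4) (nat_lit 2) (nat_lit 4) (nat_lit 535) (nat_lit 361) (nat_lit 304)))) (XT.nd (nat_lit 156) (nat_lit 0) (nat_lit 0) (XT.nd (nat_lit 78) (nat_lit 0) (nat_lit 0) (XT.lf (nat_lit 0) (nat_lit 144918723603) (nat_lit 152) (nat_lit 107090480078) (nat_lit 0) (nat_lit 143440875417) (nat_lit 2) (nat_lit 5) (nat_lit 4) (nat_lit 4) (nat_lit 2) (nat_lit 4) (nat_lit 536) (nat_lit 361) (nat_lit 303)) (XT.lf (nat_lit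 0) (nat_lit 158922936671) (nat_lit 152) (nat_lit 98517114268) (nat_lit 0) (nat_lit 157440674283) (nat_lit 2) (nat_lit 5) (nat_lit 4) (nat_lit 4) (nat_lit 2) (nat_lit 4) (nat_lit 537) (nat_lit 361) (nat_lit 302))) (XT.nd (nat_lit 78) (nat_lit 0) (nat_lit 0) (XT.lf (nat_lit 0) (nat_lit 173593720655) (nat_lit 152) (nat_lit 89583610805) (nat_lit 0) (nat_lit 172107254266) (nat_lit 2) (nat_lit 5) (nat_lit 4) (nat_lit 4) (nat_lit 2) (nat_lit 4) (nat_lit 538) (nat_lit 361) (nat_lit 301)) (XT.lf (nat_lit 0) (nat_lit 188966005993) (nat_lit 152) (nat_lit 80268699441) (nat_lit 0) (nat_lit 187475535794) (nat_lit 2) (nat_lit 5) (nat_lit 4) (nat_lit 4) (nat_lit 2) (nat_lit 4) (nat_lit 539) (nat_lit 361) (nat_lit 300))))) (XT.nd (nat_lit 312) (nat_lit 76) (nat_lit 0) (XT.nd (nat_lit 156) (nat_lit 0) (nat_lit 0) (XT.nd (nat_lit 78) (nat_lit 0) (nat_lit 0) (XT.lf (nat_lit 0) (nat_lit 205076393366) (nat_lit 152)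 (nat_lit 70550201818) (nat_lit 0) (nat_lit 203582110013) (nat_lit 2) (nat_lit 5) (nat_lit 4) (nat_lit 4) (nat_lit 2) (nat_lit 4) (nat_lit 540) (nat_lit 361) (nat_lit 299)) (XT.lf (nat_lit 0) (nat_lit 221963240837) (nat_lit 152) (nat_lit 60404978655) (nat_lit 0) (nat_lit 220465325911) (nat_lit 2) (nat_lit 5) (nat_lit 4) (nat_lit 4) (nat_lit 2) (nat_lit 4) (nat_lit 541) (nat_lit 361) (nat_lit 298))) (XT.nd (nat_lit 78) (nat_lit 0) (nat_lit 0) (XT.lf (nat_lit 0) (nat_lit 239666755188) (nat_lit 152) (nat_lit 49808874658) (nat_lit 0) (nat_lit 238165381619) (nat_lit 2) (nat_lit 5) (nat_lit 4) (nat_lit 4) (nat_lit 2) (nat_lit 4) (nat_lit 542) (nat_lit 361) (nat_lit 297)) (XT.lf (nat_lit 0) (nat_lit 258229087642) (nat_lit 152) (nat_lit 38736661008) (nat_lit 0) (nat_lit 256724420128) (nat_lit 2) (nat_lit 5) (nat_lit 4) (nat_lit 4) (nat_lit 2) (nat_lit 4) (nat_lit 543) (nat_lit 361) (nat_lit 296)))) (XT.nd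 (nat_lit 156) (nat_lit 76) (nat_lit 0) (XT.nd (nat_lit 78) (nat_lit 0) (nat_lit 0) (XT.lf (nat_lit 0) (nat_lit 277694434229) (nat_lit 152) (nat_lit 27161975293) (nat_lit 0) (nat_lit 276186629625) (nat_lit 2) (nat_lit 5) (nat_lit 4) (nat_lit 4) (nat_lit 2) (nat_lit 4) (nat_lit 544) (nat_lit 361) (nat_lit 295)) (XT.lf (nat_lit 0) (nat_lit 298109141013) (nat_lit 152) (nat_lit 15057258736) (nat_lit 0) (nat_lit 296598348703) (nat_lit 2) (nat_lit 5) (nat_lit 4) (nat_lit 4) (nat_lit 2) (nat_lit 4) (nat_lit 545) (nat_lit 361) (nat_lit 294))) (XT.nd (nat_lit 78) (nat_lit 76) (nat_lit 0) (XT.lf (nat_lit 0) (nat_lit 319521814438) (nat_lit 152) (nat_lit 2393690584) (nat_lit 0) (nat_lit 318008176694) (nat_lit 2) (nat_lit 5) (nat_lit 4) (nat_lit 4) (nat_lit 2) (nat_lit 4) (nat_lit 546) (nat_lit 361) (nat_lit 293)) (XT.lf (nat_lit 0) (nat_lit 11217924145) (nat_lit 76) (nat_lit 330940656148) (nat_lit 76) (nat_lit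 329424308468) (nat_lit 1) (nat_lit 4) (nat_lit 2) (nat_lit 5) (nat_lit 2) (nat_lit 4) (nat_lit 547) (nat_lit 361) (nat_lit 292)))))) (XT.nd (nat_lit 57018) (nat_lit 0) (nat_lit 1140) (XT.nd (nat_lit 312) (nat_lit 0) (nat_lit 0) (XT.nd (nat_lit 156) (nat_lit 0) (nat_lit 0) (XT.nd (nat_lit 78) (nat_lit 0) (nat_lit 0) (XT.lf (nat_lit 0) (nat_lit 25549760191) (nat_lit 76) (nat_lit 340396632100) (nat_lit 76) (nat_lit 338877703528) (nat_lit 1) (nat_lit 4) (nat_lit 2) (nat_lit 5) (nat_lit 2) (nat_lit 4) (nat_lit 548) (nat_lit 361) (nat_lit 291)) (XT.lf (nat_lit 0) (nat_lit 40556794751) (nat_lit 76) (nat_lit 350346485415) (nat_lit 76) (nat_lit 348825098851) (nat_lit 1) (nat_lit 4) (nat_lit 2) (nat_lit 5) (nat_lit 2) (nat_lit 4) (nat_lit 549) (nat_lit 361) (nat_lit 290))) (XT.nd (nat_lit 78) (nat_lit 0) (nat_lit 0) (XT.lf (nat_lit 0) (nat_lit 56274758861) (nat_lit 76) (nat_lit 360813906220) (nat_lit 76)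 (nat_lit 359290178710) (nat_lit 1) (nat_lit 4) (nat_lit 2) (nat_lit 5) (nat_lit 2) (nat_lit 4) (nat_lit 550) (nat_lit 361) (nat_lit 289)) (XT.lf (nat_lit 0) (nat_lit 72741076244) (nat_lit 76) (nat_lit 371823816945) (nat_lit 76) (nat_lit 370297859963) (nat_lit 1) (nat_lit 4) (nat_lit 2) (nat_lit 5) (nat_lit 2) (nat_lit 4) (nat_lit 551) (nat_lit 361) (nat_lit 288)))) (XT.nd (nat_lit 56550) (nat_lit 0) (nat_lit 1596) (XT.nd (nat_lit 78) (nat_lit 0) (nat_lit 0) (XT.lf (nat_lit 0) (nat_lit 89994952417) (nat_lit 76) (nat_lit 383402431663) (nat_lit 76) (nat_lit 381874351376) (nat_lit 1) (nat_lit 4) (nat_lit 2) (nat_lit 5) (nat_lit 2) (nat_lit 4) (nat_lit 552) (nat_lit 361) (nat_lit 287)) (XT.lf (nat_lit 0) (nat_lit 108077468039) (nat_lit 76) (nat_lit 395577318505) (nat_lit 76) (nat_lit 394047216021) (nat_lit 1) (nat_lit 4) (nat_lit 2) (nat_lit 5) (nat_lit 2) (nat_lit 4) (nat_lit 553) (nat_lit 361) (nat_lit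 286))) (XT.nd (nat_lit 78) (nat_lit 76) (nat_lit 0) (XT.lf (nat_lit 0) (nat_lit 6280543429) (nat_lit 152) (nat_lit 2347909673) (nat_lit 0) (nat_lit 6280543429) (nat_lit 23) (nat_lit 5) (nat_lit 25) (nat_lit 4) (nat_lit 23) (nat_lit 4) (nat_lit 476) (nat_lit 362) (nat_lit 362)) (XT.lf (nat_lit 0) (nat_lit 15031686015) (nat_lit 76) (nat_lit 7946197724) (nat_lit 76) (nat_lit 7835701898) (nat_lit 22) (nat_lit 4) (nat_lit 23) (nat_lit 5) (nat_lit 23) (nat_lit 4) (nat_lit 477) (nat_lit 362) (nat_lit 361))))) (XT.nd (nat_lit 312) (nat_lit 228) (nat_lit 0) (XT.nd (nat_lit 156) (nat_lit 76) (nat_lit 0) (XT.nd (nat_lit 78) (nat_lit 0) (nat_lit 0) (XT.lf (nat_lit 0) (nat_lit 1832703429) (nat_lit 152) (nat_lit 28405306524) (nat_lit 0) (nat_lit 1627246337) (nat_lit 20) (nat_lit 5) (nat_lit 22) (nat_lit 4) (nat_lit 20) (nat_lit 4) (nat_lit 478) (nat_lit 362) (nat_lit 360)) (XT.lf (nat_lit 0) (nat_lit 11803886333)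 (nat_lit 152) (nat_lit 9652090198) (nat_lit 0) (nat_lit 11502978792) (nat_lit 20) (nat_lit 5) (nat_lit 22) (nat_lit 4) (nat_lit 20) (nat_lit 4) (nat_lit 479) (nat_lit 362) (nat_lit 359))) (XT.nd (nat_lit 78) (nat_lit 0) (nat_lit 0) (XT.lf (nat_lit 0) (nat_lit 9736466324) (nat_lit 76) (nat_lit 12385144240) (nat_lit 76) (nat_lit 11993331510) (nat_lit 19) (nat_lit 4) (nat_lit 20) (nat_lit 5) (nat_lit 20) (nat_lit 4) (nat_lit 480) (nat_lit 362) (nat_lit 358)) (XT.lf (nat_lit 0) (nat_lit 29825503497) (nat_lit 76) (nat_lit 2994195819) (nat_lit 76) (nat_lit 2515806717) (nat_lit 19) (nat_lit 4) (nat_lit 20) (nat_lit 5) (nat_lit 20) (nat_lit 4) (nat_lit 481) (nat_lit 362) (nat_lit 357)))) (XT.nd (nat_lit 156) (nat_lit 76) (nat_lit 0) (XT.nd (nat_lit 78) (nat_lit 0) (nat_lit 0) (XT.lf (nat_lit 0) (nat_lit 7235651207) (nat_lit 152) (nat_lit 22672226743) (nat_lit 0) (nat_lit 6701515218) (nat_lit 17) (nat_lit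 5) (nat_lit 19) (nat_lit 4) (nat_lit 17) (nat_lit 4) (nat_lit 482) (nat_lit 362) (nat_lit 356)) (XT.lf (nat_lit 0) (nat_lit 17244904743) (nat_lit 152) (nat_lit 4071289976) (nat_lit 0) (nat_lit 16635980830) (nat_lit 17) (nat_lit 5) (nat_lit 19) (nat_lit 4) (nat_lit 17) (nat_lit 4) (nat_lit 483) (nat_lit 362) (nat_lit 355))) (XT.nd (nat_lit 78) (nat_lit 0) (nat_lit 0) (XT.lf (nat_lit 0) (nat_lit 15395186139) (nat_lit 76) (nat_lit 12324407136) (nat_lit 76) (nat_lit 11644256628) (nat_lit 16) (nat_lit 4) (nat_lit 17) (nat_lit 5) (nat_lit 17) (nat_lit 4) (nat_lit 484) (nat_lit 362) (nat_lit 354)) (XT.lf (nat_lit 0) (nat_lit 35428070364) (nat_lit 76) (nat_lit 3088059348) (nat_lit 76) (nat_lit 2340073988) (nat_lit 16) (nat_lit 4) (nat_lit 17) (nat_lit 5) (nat_lit 17) (nat_lit 4) (nat_lit 485) (nat_lit 362) (nat_lit 353))))))))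
noncomputable def xc24 : XT := (XT.nd (nat_lit 2418) (nat_lit 152) (nat_lit 0) (XT.nd (nat_lit 1170) (nat_lit 304) (nat_lit 0) (XT.nd (nat_lit 546) (nat_lit 228) (nat_lit 0) (XT.nd (nat_lit 234) (nat_lit 152) (nat_lit 0) (XT.nd (nat_lit 78) (nat_lit 76) (nat_lit 0) (XT.lf (nat_lit 0) (nat_lit 7249824850) (nat_lit 152) (nat_lit 28688707769) (nat_lit 0) (nat_lit 6475929630) (nat_lit 14) (nat_lit 5) (nat_lit 16) (nat_lit 4) (nat_lit 14) (nat_lit 4) (nat_lit 486) (nat_lit 362) (nat_lit 352)) (XT.nd (nat_lit 78) (nat_lit 76) (nat_lit 0) (XT.lf (nat_lit 0) (nat_lit 17122669017) (nat_lit 152) (nat_lit 10641767713) (nat_lit 0) (nat_lit 16290175501) (nat_lit 14) (nat_lit 5) (nat_lit 16) (nat_lit 4) (nat_lit 14) (nat_lit 4) (nat_lit 487) (nat_lit 362) (nat_lit 351)) (XT.lf (nat_lit 0) (nat_lit 8059741598) (nat_lit 76) (nat_lit 19305756766) (nat_lit 76) (nat_lit 18417455350) (nat_lit 13) (nat_lit 4) (nat_lit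 14) (nat_lit 5) (nat_lit 14) (nat_lit 4) (nat_lit 488) (nat_lit 362) (nat_lit 350)))) (XT.nd (nat_lit 156) (nat_lit 152) (nat_lit 0) (XT.nd (nat_lit 78) (nat_lit 0) (nat_lit 0) (XT.lf (nat_lit 0) (nat_lit 27568201804) (nat_lit 76) (nat_lit 10487110600) (nat_lit 76) (nat_lit 9545658802) (nat_lit 13) (nat_lit 4) (nat_lit 14) (nat_lit 5) (nat_lit 14) (nat_lit 4) (nat_lit 489) (nat_lit 362) (nat_lit 349)) (XT.lf (nat_lit 0) (nat_lit 47578196718) (nat_lit 76) (nat_lit 1467724942) (nat_lit 76) (nat_lit 475653733) (nat_lit 13) (nat_lit 4) (nat_lit 14) (nat_lit 5) (nat_lit 14) (nat_lit 4) (nat_lit 490) (nat_lit 362) (nat_lit 348))) (XT.nd (nat_lit 78) (nat_lit 0) (nat_lit 0) (XT.lf (nat_lit 0) (nat_lit 8925353992) (nat_lit 152) (nat_lit 34662828146) (nat_lit 0) (nat_lit 7934610971) (nat_lit 11) (nat_lit 5) (nat_lit 13) (nat_lit 4) (nat_lit 11) (nat_lit 4) (nat_lit 491) (nat_lit 362) (nat_lit 347)) (XT.lf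 (nat_lit 0) (nat_lit 18611873576) (nat_lit 152) (nat_lit 17442833227) (nat_lit 0) (nat_lit 17577403604) (nat_lit 11) (nat_lit 5) (nat_lit 13) (nat_lit 4) (nat_lit 11) (nat_lit 4) (nat_lit 492) (nat_lit 362) (nat_lit 346))))) (XT.nd (nat_lit 312) (nat_lit 152) (nat_lit 0) (XT.nd (nat_lit 156) (nat_lit 0) (nat_lit 0) (XT.nd (nat_lit 78) (nat_lit 0) (nat_lit 0) (XT.lf (nat_lit 0) (nat_lit 207710013) (nat_lit 76) (nat_lit 28362951004) (nat_lit 76) (nat_lit 27286836318) (nat_lit 10) (nat_lit 4) (nat_lit 11) (nat_lit 5) (nat_lit 11) (nat_lit 4) (nat_lit 493) (nat_lit 362) (nat_lit 345)) (XT.lf (nat_lit 0) (nat_lit 18916306748) (nat_lit 76) (nat_lit 20194721001) (nat_lit 76) (nat_lit 19078944681) (nat_lit 10) (nat_lit 4) (nat_lit 11) (nat_lit 5) (nat_lit 11) (nat_lit 4) (nat_lit 494) (nat_lit 362) (nat_lit 344))) (XT.nd (nat_lit 78) (nat_lit 0) (nat_lit 0) (XT.lf (nat_lit 0) (nat_lit 38150762415) (nat_lit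 76) (nat_lit 11825971447) (nat_lit 76) (nat_lit 10672422144) (nat_lit 10) (nat_lit 4) (nat_lit 11) (nat_lit 5) (nat_lit 11) (nat_lit 4) (nat_lit 495) (nat_lit 362) (nat_lit 343)) (XT.lf (nat_lit 0) (nat_lit 57956873337) (nat_lit 76) (nat_lit 3236776750) (nat_lit 76) (nat_lit 2047253177) (nat_lit 10) (nat_lit 4) (nat_lit 11) (nat_lit 5) (nat_lit 11) (nat_lit 4) (nat_lit 496) (nat_lit 362) (nat_lit 342)))) (XT.nd (nat_lit 156) (nat_lit 0) (nat_lit 0) (XT.nd (nat_lit 78) (nat_lit 0) (nat_lit 0) (XT.lf (nat_lit 0) (nat_lit 6889685291) (nat_lit 152) (nat_lit 53337663230) (nat_lit 0) (nat_lit 5724175974) (nat_lit 8) (nat_lit 5) (nat_lit 10) (nat_lit 4) (nat_lit 8) (nat_lit 4) (nat_lit 497) (nat_lit 362) (nat_lit 341)) (XT.lf (nat_lit 0) (nat_lit 16162864853) (nat_lit 152) (nat_lit 37668945125) (nat_lit 0) (nat_lit 14966279608) (nat_lit 8) (nat_lit 5) (nat_lit 10) (nat_lit 4) (nat_lit 8) (nat_lit 4)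 (nat_lit 498) (nat_lit 362) (nat_lit 340))) (XT.nd (nat_lit 78) (nat_lit 0) (nat_lit 0) (XT.lf (nat_lit 0) (nat_lit 25722730796) (nat_lit 152) (nat_lit 21576551947) (nat_lit 0) (nat_lit 24496549430) (nat_lit 8) (nat_lit 5) (nat_lit 10) (nat_lit 4) (nat_lit 8) (nat_lit 4) (nat_lit 499) (nat_lit 362) (nat_lit 339)) (XT.lf (nat_lit 0) (nat_lit 35592044706) (nat_lit 152) (nat_lit 5022168472) (nat_lit 0) (nat_lit 34337676558) (nat_lit 8) (nat_lit 5) (nat_lit 10) (nat_lit 4) (nat_lit 8) (nat_lit 4) (nat_lit 500) (nat_lit 362) (nat_lit 338)))))) (XT.nd (nat_lit 624) (nat_lit 76) (nat_lit 0) (XT.nd (nat_lit 312) (nat_lit 152) (nat_lit 0) (XT.nd (nat_lit 156) (nat_lit 0) (nat_lit 0) (XT.nd (nat_lit 78) (nat_lit 0) (nat_lit 0) (XT.lf (nat_lit 0) (nat_lit 12431506334) (nat_lit 76) (nat_lit 33556889268) (nat_lit 76) (nat_lit 32275676565) (nat_lit 7) (nat_lit 4) (nat_lit 8) (nat_lit 5) (nat_lit 8) (nat_lit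 4) (nat_lit 501) (nat_lit 362) (nat_lit 337)) (XT.lf (nat_lit 0) (nat_lit 30611172676) (nat_lit 76) (nat_lit 26220556139) (nat_lit 76) (nat_lit 24913777194) (nat_lit 7) (nat_lit 4) (nat_lit 8) (nat_lit 5) (nat_lit 8) (nat_lit 4) (nat_lit 502) (nat_lit 362) (nat_lit 336))) (XT.nd (nat_lit 78) (nat_lit 0) (nat_lit 0) (XT.lf (nat_lit 0) (nat_lit 49394059901) (nat_lit 76) (nat_lit 18672799185) (nat_lit 76) (nat_lit 17341671438) (nat_lit 7) (nat_lit 4) (nat_lit 8) (nat_lit 5) (nat_lit 8) (nat_lit 4) (nat_lit 503) (nat_lit 362) (nat_lit 335)) (XT.lf (nat_lit 0) (nat_lit 68824889169) (nat_lit 76) (nat_lit 10895647557) (nat_lit 76) (nat_lit 9541330474) (nat_lit 7) (nat_lit 4) (nat_lit 8) (nat_lit 5) (nat_lit 8) (nat_lit 4) (nat_lit 504) (nat_lit 362) (nat_lit 334)))) (XT.nd (nat_lit 156) (nat_lit 0) (nat_lit 0) (XT.nd (nat_lit 78) (nat_lit 152) (nat_lit 0) (XT.lf (nat_lit 0) (nat_lit 88949924360) (nat_lit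 76) (nat_lit 2870584227) (nat_lit 76) (nat_lit 1494182063) (nat_lit 7) (nat_lit 4) (nat_lit 8) (nat_lit 5) (nat_lit 8) (nat_lit 4) (nat_lit 505) (nat_lit 362) (nat_lit 333)) (XT.lf (nat_lit 0) (nat_lit 6885992806) (nat_lit 152) (nat_lit 85115967351) (nat_lit 0) (nat_lit 5555101782) (nat_lit 5) (nat_lit 5) (nat_lit 7) (nat_lit 4) (nat_lit 5) (nat_lit 4) (nat_lit 506) (nat_lit 362) (nat_lit 332))) (XT.nd (nat_lit 78) (nat_lit 0) (nat_lit 0) (XT.lf (nat_lit 0) (nat_lit 15625193041) (nat_lit 152) (nat_lit 72110398764) (nat_lit 0) (nat_lit 14275224093) (nat_lit 5) (nat_lit 5) (nat_lit 7) (nat_lit 4) (nat_lit 5) (nat_lit 4) (nat_lit 507) (nat_lit 362) (nat_lit 331)) (XT.lf (nat_lit 0) (nat_lit 24675678008) (nat_lit 152) (nat_lit 58710324077) (nat_lit 0) (nat_lit 23307539609) (nat_lit 5) (nat_lit 5) (nat_lit 7) (nat_lit 4) (nat_lit 5) (nat_lit 4) (nat_lit 508) (nat_lit 362) (nat_lit 330))))) (XT.nd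 (nat_lit 312) (nat_lit 76) (nat_lit 0) (XT.nd (nat_lit 156) (nat_lit 0) (nat_lit 0) (XT.nd (nat_lit 78) (nat_lit 0) (nat_lit 0) (XT.lf (nat_lit 0) (nat_lit 34058996481) (nat_lit 152) (nat_lit 44883838349) (nat_lit 0) (nat_lit 32673553844) (nat_lit 5) (nat_lit 5) (nat_lit 7) (nat_lit 4) (nat_lit 5) (nat_lit 4) (nat_lit 509) (nat_lit 362) (nat_lit 329)) (XT.lf (nat_lit 0) (nat_lit 43797489696) (nat_lit 152) (nat_lit 30598021377) (nat_lit 0) (nat_lit 42395566830) (nat_lit 5) (nat_lit 5) (nat_lit 7) (nat_lit 4) (nat_lit 5) (nat_lit 4) (nat_lit 510) (nat_lit 362) (nat_lit 328))) (XT.nd (nat_lit 78) (nat_lit 0) (nat_lit 0) (XT.lf (nat_lit 0) (nat_lit 53914344539) (nat_lit 152) (nat_lit 15818859311) (nat_lit 0) (nat_lit 52496726218) (nat_lit 5) (nat_lit 5) (nat_lit 7) (nat_lit 4) (nat_lit 5) (nat_lit 4) (nat_lit 511) (nat_lit 362) (nat_lit 327)) (XT.lf (nat_lit 0) (nat_lit 64433648761) (nat_lit 152)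 (nat_lit 511163668) (nat_lit 0) (nat_lit 63001082388) (nat_lit 5) (nat_lit 5) (nat_lit 7) (nat_lit 4) (nat_lit 5) (nat_lit 4) (nat_lit 512) (nat_lit 362) (nat_lit 326)))) (XT.nd (nat_lit 156) (nat_lit 0) (nat_lit 0) (XT.nd (nat_lit 78) (nat_lit 0) (nat_lit 0) (XT.lf (nat_lit 0) (nat_lit 15869433419) (nat_lit 76) (nat_lit 59758781235) (nat_lit 76) (nat_lit 58311978621) (nat_lit 4) (nat_lit 4) (nat_lit 5) (nat_lit 5) (nat_lit 5) (nat_lit 4) (nat_lit 513) (nat_lit 362) (nat_lit 325)) (XT.lf (nat_lit 0) (nat_lit 32889634825) (nat_lit 76) (nat_lit 54404671585) (nat_lit 76) (nat_lit 52944310647) (nat_lit 4) (nat_lit 4) (nat_lit 5) (nat_lit 5) (nat_lit 5) (nat_lit 4) (nat_lit 514) (nat_lit 362) (nat_lit 324))) (XT.nd (nat_lit 78) (nat_lit 0) (nat_lit 0) (XT.lf (nat_lit 0) (nat_lit 50573063459) (nat_lit 76) (nat_lit 48878392403) (nat_lit 76) (nat_lit 47405118776) (nat_lit 4) (nat_lit 4) (nat_lit 5) (nat_lit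 5) (nat_lit 5) (nat_lit 4) (nat_lit 515) (nat_lit 362) (nat_lit 323)) (XT.lf (nat_lit 0) (nat_lit 68961822723) (nat_lit 76) (nat_lit 43166785883) (nat_lit 76) (nat_lit 41681214456) (nat_lit 4) (nat_lit 4) (nat_lit 5) (nat_lit 5) (nat_lit 5) (nat_lit 4) (nat_lit 516) (nat_lit 362) (nat_lit 322))))))) (XT.nd (nat_lit 1170) (nat_lit 0) (nat_lit 0) (XT.nd (nat_lit 546) (nat_lit 0) (nat_lit 0) (XT.nd (nat_lit 234) (nat_lit 152) (nat_lit 0) (XT.nd (nat_lit 78) (nat_lit 0) (nat_lit 0) (XT.lf (nat_lit 0) (nat_lit 88099695376) (nat_lit 76) (nat_lit 37256252961) (nat_lit 76) (nat_lit 35758969344) (nat_lit 4) (nat_lit 4) (nat_lit 5) (nat_lit 5) (nat_lit 5) (nat_lit 4) (nat_lit 517) (nat_lit 362) (nat_lit 321)) (XT.nd (nat_lit 78) (nat_lit 0) (nat_lit 0) (XT.lf (nat_lit 0) (nat_lit 108032247782) (nat_lit 76) (nat_lit 31132720940) (nat_lit 76) (nat_lit 29624282856) (nat_lit 4) (nat_lit 4) (nat_lit 5) (nat_lit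 5) (nat_lit 5) (nat_lit 4) (nat_lit 518) (nat_lit 362) (nat_lit 320)) (XT.lf (nat_lit 0) (nat_lit 128806938399) (nat_lit 76) (nat_lit 24781609981) (nat_lit 76) (nat_lit 23262548595) (nat_lit 4) (nat_lit 4) (nat_lit 5) (nat_lit 5) (nat_lit 5) (nat_lit 4) (nat_lit 519) (nat_lit 362) (nat_lit 319)))) (XT.nd (nat_lit 156) (nat_lit 152) (nat_lit 0) (XT.nd (nat_lit 78) (nat_lit 0) (nat_lit 0) (XT.lf (nat_lit 0) (nat_lit 150473230777) (nat_lit 76) (nat_lit 18187798392) (nat_lit 76) (nat_lit 16658619576) (nat_lit 4) (nat_lit 4) (nat_lit 5) (nat_lit 5) (nat_lit 5) (nat_lit 4) (nat_lit 520) (nat_lit 362) (nat_lit 318)) (XT.lf (nat_lit 0) (nat_lit 173082711325) (nat_lit 76) (nat_lit 11335586621) (nat_lit 76) (nat_lit 9796772157) (nat_lit 4) (nat_lit 4) (nat_lit 5) (nat_lit 5) (nat_lit 5) (nat_lit 4) (nat_lit 521) (nat_lit 362) (nat_lit 317))) (XT.nd (nat_lit 78) (nat_lit 152) (nat_lit 0) (XT.lf (nat_lit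 0) (nat_lit 196689212140) (nat_lit 76) (nat_lit 4208659878) (nat_lit 76) (nat_lit 2660668607) (nat_lit 4) (nat_lit 4) (nat_lit 5) (nat_lit 5) (nat_lit 5) (nat_lit 4) (nat_lit 522) (nat_lit 362) (nat_lit 316)) (XT.lf (nat_lit 0) (nat_lit 4794999004) (nat_lit 152) (nat_lit 205252144597) (nat_lit 0) (nat_lit 3312397967) (nat_lit 2) (nat_lit 5) (nat_lit 4) (nat_lit 4) (nat_lit 2) (nat_lit 4) (nat_lit 523) (nat_lit 362) (nat_lit 315))))) (XT.nd (nat_lit 312) (nat_lit 0) (nat_lit 0) (XT.nd (nat_lit 156) (nat_lit 0) (nat_lit 0) (XT.nd (nat_lit 78) (nat_lit 0) (nat_lit 0) (XT.lf (nat_lit 0) (nat_lit 12657838306) (nat_lit 152) (nat_lit 199817073330) (nat_lit 0) (nat_lit 11167309999) (nat_lit 2) (nat_lit 5) (nat_lit 4) (nat_lit 4) (nat_lit 2) (nat_lit 4) (nat_lit 524) (nat_lit 362) (nat_lit 314)) (XT.lf (nat_lit 0) (nat_lit 20853407440) (nat_lit 152) (nat_lit 194233319676) (nat_lit 0) (nat_lit 19355329350)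 (nat_lit 2) (nat_lit 5) (nat_lit 4) (nat_lit 4) (nat_lit 2) (nat_lit 4) (nat_lit 525) (nat_lit 362) (nat_lit 313))) (XT.nd (nat_lit 78) (nat_lit 0) (nat_lit 0) (XT.lf (nat_lit 0) (nat_lit 29401219665) (nat_lit 152) (nat_lit 188487588986) (nat_lit 0) (nat_lit 27895951306) (nat_lit 2) (nat_lit 5) (nat_lit 4) (nat_lit 4) (nat_lit 2) (nat_lit 4) (nat_lit 526) (nat_lit 362) (nat_lit 312)) (XT.lf (nat_lit 0) (nat_lit 38321626914) (nat_lit 152) (nat_lit 182566200949) (nat_lit 0) (nat_lit 36809510680) (nat_lit 2) (nat_lit 5) (nat_lit 4) (nat_lit 4) (nat_lit 2) (nat_lit 4) (nat_lit 527) (nat_lit 362) (nat_lit 311)))) (XT.nd (nat_lit 156) (nat_lit 0) (nat_lit 0) (XT.nd (nat_lit 78) (nat_lit 0) (nat_lit 0) (XT.lf (nat_lit 0) (nat_lit 47635868253) (nat_lit 152) (nat_lit 176455057020) (nat_lit 0) (nat_lit 46117230233) (nat_lit 2) (nat_lit 5) (nat_lit 4) (nat_lit 4) (nat_lit 2) (nat_lit 4) (nat_lit 528) (nat_lit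 362) (nat_lit 310)) (XT.lf (nat_lit 0) (nat_lit 57366120446) (nat_lit 152) (nat_lit 170139606857) (nat_lit 0) (nat_lit 55841271202) (nat_lit 2) (nat_lit 5) (nat_lit 4) (nat_lit 4) (nat_lit 2) (nat_lit 4) (nat_lit 529) (nat_lit 362) (nat_lit 309))) (XT.nd (nat_lit 78) (nat_lit 0) (nat_lit 0) (XT.lf (nat_lit 0) (nat_lit 67535550761) (nat_lit 152) (nat_lit 163604813675) (nat_lit 0) (nat_lit 66004786065) (nat_lit 2) (nat_lit 5) (nat_lit 4) (nat_lit 4) (nat_lit 2) (nat_lit 4) (nat_lit 530) (nat_lit 362) (nat_lit 308)) (XT.lf (nat_lit 0) (nat_lit 78168372127) (nat_lit 152) (nat_lit 156835118442) (nat_lit 0) (nat_lit 76631973668) (nat_lit 2) (nat_lit 5) (nat_lit 4) (nat_lit 4) (nat_lit 2) (nat_lit 4) (nat_lit 531) (nat_lit 362) (nat_lit 307)))))) (XT.nd (nat_lit 624) (nat_lit 0) (nat_lit 0) (XT.nd (nat_lit 312) (nat_lit 0) (nat_lit 0) (XT.nd (nat_lit 156) (nat_lit 0) (nat_lit 0) (XT.nd (nat_lit 78)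 (nat_lit 0) (nat_lit 0) (XT.lf (nat_lit 0) (nat_lit 89289900786) (nat_lit 152) (nat_lit 149814402835) (nat_lit 0) (nat_lit 87748136837) (nat_lit 2) (nat_lit 5) (nat_lit 4) (nat_lit 4) (nat_lit 2) (nat_lit 4) (nat_lit 532) (nat_lit 362) (nat_lit 306)) (XT.lf (nat_lit 0) (nat_lit 100926616567) (nat_lit 152) (nat_lit 142525950866) (nat_lit 0) (nat_lit 99379742629) (nat_lit 2) (nat_lit 5) (nat_lit 4) (nat_lit 4) (nat_lit 2) (nat_lit 4) (nat_lit 533) (nat_lit 362) (nat_lit 305))) (XT.nd (nat_lit 78) (nat_lit 0) (nat_lit 0) (XT.lf (nat_lit 0) (nat_lit 113106225937) (nat_lit 152) (nat_lit 134952409078) (nat_lit 0) (nat_lit 111554485342) (nat_lit 2) (nat_lit 5) (nat_lit 4) (nat_lit 4) (nat_lit 2) (nat_lit 4) (nat_lit 534) (nat_lit 362) (nat_lit 304)) (XT.lf (nat_lit 0) (nat_lit 125857727965) (nat_lit 152) (nat_lit 127075745227) (nat_lit 0) (nat_lit 124301352459) (nat_lit 2) (nat_lit 5) (nat_lit 4) (nat_lit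 4) (nat_lit 2) (nat_lit 4) (nat_lit 535) (nat_lit 362) (nat_lit 303)))) (XT.nd (nat_lit 156) (nat_lit 0) (nat_lit 0) (XT.nd (nat_lit 78) (nat_lit 0) (nat_lit 0) (XT.lf (nat_lit 0) (nat_lit 139211483372) (nat_lit 152) (nat_lit 118877205353) (nat_lit 0) (nat_lit 137650693664) (nat_lit 2) (nat_lit 5) (nat_lit 4) (nat_lit 4) (nat_lit 2) (nat_lit 4) (nat_lit 536) (nat_lit 362) (nat_lit 302)) (XT.lf (nat_lit 0) (nat_lit 153199286811) (nat_lit 152) (nat_lit 110337269122) (nat_lit 0) (nat_lit 151634293102) (nat_lit 2) (nat_lit 5) (nat_lit 4) (nat_lit 4) (nat_lit 2) (nat_lit 4) (nat_lit 537) (nat_lit 362) (nat_lit 301))) (XT.nd (nat_lit 78) (nat_lit 0) (nat_lit 0) (XT.lf (nat_lit 0) (nat_lit 167854442579) (nat_lit 152) (nat_lit 101435603353) (nat_lit 0) (nat_lit 166285445059) (nat_lit 2) (nat_lit 5) (nat_lit 4) (nat_lit 4) (nat_lit 2) (nat_lit 4) (nat_lit 538) (nat_lit 362) (nat_lit 300)) (XT.lf (nat_lit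 0) (nat_lit 183211843901) (nat_lit 152) (nat_lit 92151013603) (nat_lit 0) (nat_lit 181639033228) (nat_lit 2) (nat_lit 5) (nat_lit 4) (nat_lit 4) (nat_lit 2) (nat_lit 4) (nat_lit 539) (nat_lit 362) (nat_lit 299))))) (XT.nd (nat_lit 312) (nat_lit 0) (nat_lit 0) (XT.nd (nat_lit 156) (nat_lit 0) (nat_lit 0) (XT.nd (nat_lit 78) (nat_lit 0) (nat_lit 0) (XT.lf (nat_lit 0) (nat_lit 199308056020) (nat_lit 152) (nat_lit 82461393707) (nat_lit 0) (nat_lit 197731613773) (nat_lit 2) (nat_lit 5) (nat_lit 4) (nat_lit 4) (nat_lit 2) (nat_lit 4) (nat_lit 540) (nat_lit 362) (nat_lit 298)) (XT.lf (nat_lit 0) (nat_lit 216181403251) (nat_lit 152) (nat_lit 72343673141) (nat_lit 0) (nat_lit 214601502361) (nat_lit 2) (nat_lit 5) (nat_lit 4) (nat_lit 4) (nat_lit 2) (nat_lit 4) (nat_lit 541) (nat_lit 362) (nat_lit 297))) (XT.nd (nat_lit 78) (nat_lit 0) (nat_lit 0) (XT.lf (nat_lit 0) (nat_lit 233872060228) (nat_lit 152)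 (nat_lit 61773762094) (nat_lit 0) (nat_lit 232288865394) (nat_lit 2) (nat_lit 5) (nat_lit 4) (nat_lit 4) (nat_lit 2) (nat_lit 4) (nat_lit 542) (nat_lit 362) (nat_lit 296)) (XT.lf (nat_lit 0) (nat_lit 252422147566) (nat_lit 152) (nat_lit 50726494111) (nat_lit 0) (nat_lit 250835815640) (nat_lit 2) (nat_lit 5) (nat_lit 4) (nat_lit 4) (nat_lit 2) (nat_lit 4) (nat_lit 543) (nat_lit 362) (nat_lit 295)))) (XT.nd (nat_lit 156) (nat_lit 0) (nat_lit 0) (XT.nd (nat_lit 78) (nat_lit 0) (nat_lit 0) (XT.lf (nat_lit 0) (nat_lit 271875832137) (nat_lit 152) (nat_lit 39175566173) (nat_lit 0) (nat_lit 270286512506) (nat_lit 2) (nat_lit 5) (nat_lit 4) (nat_lit 4) (nat_lit 2) (nat_lit 4) (nat_lit 544) (nat_lit 362) (nat_lit 294)) (XT.lf (nat_lit 0) (nat_lit 292279432238) (nat_lit 152) (nat_lit 27093476072) (nat_lit 0) (nat_lit 290687267174) (nat_lit 2) (nat_lit 5) (nat_lit 4) (nat_lit 4) (nat_lit 2) (nat_lit 4) (nat_lit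 545) (nat_lit 362) (nat_lit 293))) (XT.nd (nat_lit 78) (nat_lit 0) (nat_lit 0) (XT.lf (nat_lit 0) (nat_lit 313681527871) (nat_lit 152) (nat_lit 14451456924) (nat_lit 0) (nat_lit 312086652870) (nat_lit 2) (nat_lit 5) (nat_lit 4) (nat_lit 4) (nat_lit 2) (nat_lit 4) (nat_lit 546) (nat_lit 362) (nat_lit 292)) (XT.lf (nat_lit 0) (nat_lit 336133076404) (nat_lit 152) (nat_lit 1219408686) (nat_lit 0) (nat_lit 334535620512) (nat_lit 2) (nat_lit 5) (nat_lit 4) (nat_lit 4) (nat_lit 2) (nat_lit 4) (nat_lit 547) (nat_lit 362) (nat_lit 291))))))))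
noncomputable def xc25 : XT := (XT.nd (nat_lit 58656) (nat_lit 0) (nat_lit 76) (XT.nd (nat_lit 57408) (nat_lit 0) (nat_lit 532) (XT.nd (nat_lit 56784) (nat_lit 0) (nat_lit 1216) (XT.nd (nat_lit 234) (nat_lit 0) (nat_lit 0) (XT.nd (nat_lit 78) (nat_lit 0) (nat_lit 0) (XT.lf (nat_lit 0) (nat_lit 13051916353) (nat_lit 76) (nat_lit 346839394546) (nat_lit 76) (nat_lit 345239480661) (nat_lit 1) (nat_lit 4) (nat_lit 2) (nat_lit 5) (nat_lit 2) (nat_lit 4) (nat_lit 548) (nat_lit 362) (nat_lit 290)) (XT.nd (nat_lit 78) (nat_lit 0) (nat_lit 0) (XT.lf (nat_lit 0) (nat_lit 28039720582) (nat_lit 76) (nat_lit 356799040458) (nat_lit 76) (nat_lit 355196785628) (nat_lit 1) (nat_lit 4) (nat_lit 2) (nat_lit 5) (nat_lit 2) (nat_lit 4) (nat_lit 549) (nat_lit 362) (nat_lit 289)) (XT.lf (nat_lit 0) (nat_lit 43739370091) (nat_lit 76) (nat_lit 367275787546) (nat_lit 76) (nat_lit 365671303244) (nat_lit 1) (nat_lit 4) (nat_lit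 2) (nat_lit 5) (nat_lit 2) (nat_lit 4) (nat_lit 550) (nat_lit 362) (nat_lit 288)))) (XT.nd (nat_lit 156) (nat_lit 0) (nat_lit 0) (XT.nd (nat_lit 78) (nat_lit 0) (nat_lit 0) (XT.lf (nat_lit 0) (nat_lit 60188244996) (nat_lit 76) (nat_lit 378294580445) (nat_lit 76) (nat_lit 376687972837) (nat_lit 1) (nat_lit 4) (nat_lit 2) (nat_lit 5) (nat_lit 2) (nat_lit 4) (nat_lit 551) (nat_lit 362) (nat_lit 287)) (XT.lf (nat_lit 0) (nat_lit 77425509286) (nat_lit 76) (nat_lit 389881654377) (nat_lit 76) (nat_lit 388273024572) (nat_lit 1) (nat_lit 4) (nat_lit 2) (nat_lit 5) (nat_lit 2) (nat_lit 4) (nat_lit 552) (nat_lit 362) (nat_lit 286))) (XT.nd (nat_lit 56316) (nat_lit 0) (nat_lit 1824) (XT.lf (nat_lit 0) (nat_lit 95492204067) (nat_lit 76) (nat_lit 402064597613) (nat_lit 76) (nat_lit 400454041907) (nat_lit 1) (nat_lit 4) (nat_lit 2) (nat_lit 5) (nat_lit 2) (nat_lit 4) (nat_lit 553) (nat_lit 362) (nat_lit 285))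 (XT.lf (nat_lit 0) (nat_lit 7087110459) (nat_lit 76) (nat_lit 3446551400) (nat_lit 76) (nat_lit 3446551400) (nat_lit 25) (nat_lit 4) (nat_lit 26) (nat_lit 5) (nat_lit 26) (nat_lit 4) (nat_lit 474) (nat_lit 363) (nat_lit 363))))) (XT.nd (nat_lit 312) (nat_lit 228) (nat_lit 0) (XT.nd (nat_lit 156) (nat_lit 228) (nat_lit 0) (XT.nd (nat_lit 78) (nat_lit 0) (nat_lit 0) (XT.lf (nat_lit 0) (nat_lit 2675348872) (nat_lit 152) (nat_lit 23639184686) (nat_lit 0) (nat_lit 2559328255) (nat_lit 23) (nat_lit 5) (nat_lit 25) (nat_lit 4) (nat_lit 23) (nat_lit 4) (nat_lit 475) (nat_lit 363) (nat_lit 362)) (XT.lf (nat_lit 0) (nat_lit 12521138502) (nat_lit 152) (nat_lit 5010032064) (nat_lit 0) (nat_lit 12294622058) (nat_lit 23) (nat_lit 5) (nat_lit 25) (nat_lit 4) (nat_lit 23) (nat_lit 4) (nat_lit 476) (nat_lit 363) (nat_lit 361))) (XT.nd (nat_lit 78) (nat_lit 152) (nat_lit 0) (XT.lf (nat_lit 0) (nat_lit 14397939235)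 (nat_lit 76) (nat_lit 8381559704) (nat_lit 76) (nat_lit 8049809140) (nat_lit 22) (nat_lit 4) (nat_lit 23) (nat_lit 5) (nat_lit 23) (nat_lit 4) (nat_lit 477) (nat_lit 363) (nat_lit 360)) (XT.lf (nat_lit 0) (nat_lit 1452281328) (nat_lit 152) (nat_lit 29396645925) (nat_lit 0) (nat_lit 1040877961) (nat_lit 20) (nat_lit 5) (nat_lit 22) (nat_lit 4) (nat_lit 20) (nat_lit 4) (nat_lit 478) (nat_lit 363) (nat_lit 359)))) (XT.nd (nat_lit 156) (nat_lit 152) (nat_lit 0) (XT.nd (nat_lit 78) (nat_lit 76) (nat_lit 0) (XT.lf (nat_lit 0) (nat_lit 11275156260) (nat_lit 152) (nat_lit 10942916597) (nat_lit 0) (nat_lit 10772847703) (nat_lit 20) (nat_lit 5) (nat_lit 22) (nat_lit 4) (nat_lit 20) (nat_lit 4) (nat_lit 479) (nat_lit 363) (nat_lit 358)) (XT.lf (nat_lit 0) (nat_lit 8108302812) (nat_lit 76) (nat_lit 13317911796) (nat_lit 76) (nat_lit 12729026868) (nat_lit 19) (nat_lit 4) (nat_lit 20) (nat_lit 5) (nat_lit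 20) (nat_lit 4) (nat_lit 480) (nat_lit 363) (nat_lit 357))) (XT.nd (nat_lit 78) (nat_lit 152) (nat_lit 0) (XT.lf (nat_lit 0) (nat_lit 27916714686) (nat_lit 76) (nat_lit 4068687622) (nat_lit 76) (nat_lit 3397349008) (nat_lit 19) (nat_lit 4) (nat_lit 20) (nat_lit 5) (nat_lit 20) (nat_lit 4) (nat_lit 481) (nat_lit 363) (nat_lit 356)) (XT.lf (nat_lit 0) (nat_lit 6192428562) (nat_lit 152) (nat_lit 24996123041) (nat_lit 0) (nat_lit 5478270529) (nat_lit 17) (nat_lit 5) (nat_lit 19) (nat_lit 4) (nat_lit 17) (nat_lit 4) (nat_lit 482) (nat_lit 363) (nat_lit 355)))))) (XT.nd (nat_lit 624) (nat_lit 380) (nat_lit 0) (XT.nd (nat_lit 312) (nat_lit 76) (nat_lit 0) (XT.nd (nat_lit 156) (nat_lit 152) (nat_lit 0) (XT.nd (nat_lit 78) (nat_lit 76) (nat_lit 0) (XT.lf (nat_lit 0) (nat_lit 16067345668) (nat_lit 152) (nat_lit 6667015342) (nat_lit 0) (nat_lit 15281961041) (nat_lit 17) (nat_lit 5) (nat_lit 19) (nat_lit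 4) (nat_lit 17) (nat_lit 4) (nat_lit 483) (nat_lit 363) (nat_lit 354)) (XT.lf (nat_lit 0) (nat_lit 12446189642) (nat_lit 76) (nat_lit 13921863002) (nat_lit 76) (nat_lit 13068643522) (nat_lit 16) (nat_lit 4) (nat_lit 17) (nat_lit 5) (nat_lit 17) (nat_lit 4) (nat_lit 484) (nat_lit 363) (nat_lit 353))) (XT.nd (nat_lit 78) (nat_lit 152) (nat_lit 0) (XT.lf (nat_lit 0) (nat_lit 32224364601) (nat_lit 76) (nat_lit 4814400651) (nat_lit 76) (nat_lit 3896576550) (nat_lit 16) (nat_lit 4) (nat_lit 17) (nat_lit 5) (nat_lit 17) (nat_lit 4) (nat_lit 485) (nat_lit 363) (nat_lit 352)) (XT.lf (nat_lit 0) (nat_lit 5534581274) (nat_lit 152) (nat_lit 32368797891) (nat_lit 0) (nat_lit 4601864787) (nat_lit 14) (nat_lit 5) (nat_lit 16) (nat_lit 4) (nat_lit 14) (nat_lit 4) (nat_lit 486) (nat_lit 363) (nat_lit 351)))) (XT.nd (nat_lit 156) (nat_lit 0) (nat_lit 0) (XT.nd (nat_lit 78) (nat_lit 76) (nat_lit 0) (XT.lf (nat_lit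 0) (nat_lit 15285721938) (nat_lit 152) (nat_lit 14568560182) (nat_lit 0) (nat_lit 14297197550) (nat_lit 14) (nat_lit 5) (nat_lit 16) (nat_lit 4) (nat_lit 14) (nat_lit 4) (nat_lit 487) (nat_lit 363) (nat_lit 350)) (XT.lf (nat_lit 0) (nat_lit 3760388359) (nat_lit 76) (nat_lit 21585129876) (nat_lit 76) (nat_lit 20543455106) (nat_lit 13) (nat_lit 4) (nat_lit 14) (nat_lit 5) (nat_lit 14) (nat_lit 4) (nat_lit 488) (nat_lit 363) (nat_lit 349))) (XT.nd (nat_lit 78) (nat_lit 0) (nat_lit 0) (XT.lf (nat_lit 0) (nat_lit 23037683540) (nat_lit 76) (nat_lit 12883650937) (nat_lit 76) (nat_lit 11791356756) (nat_lit 13) (nat_lit 4) (nat_lit 14) (nat_lit 5) (nat_lit 14) (nat_lit 4) (nat_lit 489) (nat_lit 363) (nat_lit 348)) (XT.lf (nat_lit 0) (nat_lit 42827521286) (nat_lit 76) (nat_lit 3975853113) (nat_lit 76) (nat_lit 2835349970) (nat_lit 13) (nat_lit 4) (nat_lit 14) (nat_lit 5) (nat_lit 14) (nat_lit 4) (nat_lit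 490) (nat_lit 363) (nat_lit 347))))) (XT.nd (nat_lit 312) (nat_lit 152) (nat_lit 0) (XT.nd (nat_lit 156) (nat_lit 76) (nat_lit 0) (XT.nd (nat_lit 78) (nat_lit 0) (nat_lit 0) (XT.lf (nat_lit 0) (nat_lit 6411947310) (nat_lit 152) (nat_lit 39959272173) (nat_lit 0) (nat_lit 5282026890) (nat_lit 11) (nat_lit 5) (nat_lit 13) (nat_lit 4) (nat_lit 11) (nat_lit 4) (nat_lit 491) (nat_lit 363) (nat_lit 346)) (XT.lf (nat_lit 0) (nat_lit 15993441988) (nat_lit 152) (nat_lit 22952496494) (nat_lit 0) (nat_lit 14821876853) (nat_lit 11) (nat_lit 5) (nat_lit 13) (nat_lit 4) (nat_lit 11) (nat_lit 4) (nat_lit 492) (nat_lit 363) (nat_lit 345))) (XT.nd (nat_lit 78) (nat_lit 76) (nat_lit 0) (XT.lf (nat_lit 0) (nat_lit 25848962775) (nat_lit 152) (nat_lit 5511667213) (nat_lit 0) (nat_lit 24637736006) (nat_lit 11) (nat_lit 5) (nat_lit 13) (nat_lit 4) (nat_lit 11) (nat_lit 4) (nat_lit 493) (nat_lit 363) (nat_lit 344)) (XT.lf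 (nat_lit 0) (nat_lit 12814898226) (nat_lit 76) (nat_lit 23387153444) (nat_lit 76) (nat_lit 22138153691) (nat_lit 10) (nat_lit 4) (nat_lit 11) (nat_lit 5) (nat_lit 11) (nat_lit 4) (nat_lit 494) (nat_lit 363) (nat_lit 343)))) (XT.nd (nat_lit 156) (nat_lit 152) (nat_lit 0) (XT.nd (nat_lit 78) (nat_lit 0) (nat_lit 0) (XT.lf (nat_lit 0) (nat_lit 31859077050) (nat_lit 76) (nat_lit 15114985517) (nat_lit 76) (nat_lit 13830011494) (nat_lit 10) (nat_lit 4) (nat_lit 11) (nat_lit 5) (nat_lit 11) (nat_lit 4) (nat_lit 495) (nat_lit 363) (nat_lit 342)) (XT.lf (nat_lit 0) (nat_lit 51483971931) (nat_lit 76) (nat_lit 6617773321) (nat_lit 76) (nat_lit 5298538088) (nat_lit 10) (nat_lit 4) (nat_lit 11) (nat_lit 5) (nat_lit 11) (nat_lit 4) (nat_lit 496) (nat_lit 363) (nat_lit 341))) (XT.nd (nat_lit 78) (nat_lit 0) (nat_lit 0) (XT.lf (nat_lit 0) (nat_lit 3490304543) (nat_lit 152) (nat_lit 60432932178) (nat_lit 0) (nat_lit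 2202814109) (nat_lit 8) (nat_lit 5) (nat_lit 10) (nat_lit 4) (nat_lit 8) (nat_lit 4) (nat_lit 497) (nat_lit 363) (nat_lit 340)) (XT.lf (nat_lit 0) (nat_lit 12677156009) (nat_lit 152) (nat_lit 44939707162) (nat_lit 0) (nat_lit 11360069453) (nat_lit 8) (nat_lit 5) (nat_lit 10) (nat_lit 4) (nat_lit 8) (nat_lit 4) (nat_lit 498) (nat_lit 363) (nat_lit 339))))))) (XT.nd (nat_lit 1170) (nat_lit 152) (nat_lit 0) (XT.nd (nat_lit 546) (nat_lit 228) (nat_lit 0) (XT.nd (nat_lit 234) (nat_lit 0) (nat_lit 0) (XT.nd (nat_lit 78) (nat_lit 76) (nat_lit 0) (XT.lf (nat_lit 0) (nat_lit 22154804718) (nat_lit 152) (nat_lit 29014450258) (nat_lit 0) (nat_lit 20809531380) (nat_lit 8) (nat_lit 5) (nat_lit 10) (nat_lit 4) (nat_lit 8) (nat_lit 4) (nat_lit 499) (nat_lit 363) (nat_lit 338)) (XT.nd (nat_lit 78) (nat_lit 76) (nat_lit 0) (XT.lf (nat_lit 0) (nat_lit 31945816500) (nat_lit 152) (nat_lit 12619244188) (nat_lit 0)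 (nat_lit 30573698608) (nat_lit 8) (nat_lit 5) (nat_lit 10) (nat_lit 4) (nat_lit 8) (nat_lit 4) (nat_lit 500) (nat_lit 363) (nat_lit 337)) (XT.lf (nat_lit 0) (nat_lit 4426626959) (nat_lit 76) (nat_lit 37715988381) (nat_lit 76) (nat_lit 36318304247) (nat_lit 7) (nat_lit 4) (nat_lit 8) (nat_lit 5) (nat_lit 8) (nat_lit 4) (nat_lit 501) (nat_lit 363) (nat_lit 336)))) (XT.nd (nat_lit 156) (nat_lit 0) (nat_lit 0) (XT.nd (nat_lit 78) (nat_lit 0) (nat_lit 0) (XT.lf (nat_lit 0) (nat_lit 22457140894) (nat_lit 76) (nat_lit 30455456634) (nat_lit 76) (nat_lit 29033423697) (nat_lit 7) (nat_lit 4) (nat_lit 8) (nat_lit 5) (nat_lit 8) (nat_lit 4) (nat_lit 502) (nat_lit 363) (nat_lit 335)) (XT.lf (nat_lit 0) (nat_lit 41097978208) (nat_lit 76) (nat_lit 22979891472) (nat_lit 76) (nat_lit 21534669199) (nat_lit 7) (nat_lit 4) (nat_lit 8) (nat_lit 5) (nat_lit 8) (nat_lit 4) (nat_lit 503) (nat_lit 363) (nat_lit 334)))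 (XT.nd (nat_lit 78) (nat_lit 0) (nat_lit 0) (XT.lf (nat_lit 0) (nat_lit 60393521846) (nat_lit 76) (nat_lit 15271493931) (nat_lit 76) (nat_lit 13804186577) (nat_lit 7) (nat_lit 4) (nat_lit 8) (nat_lit 5) (nat_lit 8) (nat_lit 4) (nat_lit 504) (nat_lit 363) (nat_lit 333)) (XT.lf (nat_lit 0) (nat_lit 80389713580) (nat_lit 76) (nat_lit 7311910684) (nat_lit 76) (nat_lit 5823569920) (nat_lit 7) (nat_lit 4) (nat_lit 8) (nat_lit 5) (nat_lit 8) (nat_lit 4) (nat_lit 505) (nat_lit 363) (nat_lit 332))))) (XT.nd (nat_lit 312) (nat_lit 76) (nat_lit 0) (XT.nd (nat_lit 156) (nat_lit 0) (nat_lit 0) (XT.nd (nat_lit 78) (nat_lit 0) (nat_lit 0) (XT.lf (nat_lit 0) (nat_lit 2417678378) (nat_lit 152) (nat_lit 94386008622) (nat_lit 0) (nat_lit 981133059) (nat_lit 5) (nat_lit 5) (nat_lit 7) (nat_lit 4) (nat_lit 5) (nat_lit 4) (nat_lit 506) (nat_lit 363) (nat_lit 331)) (XT.lf (nat_lit 0) (nat_lit 11095573599) (nat_lit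 152) (nat_lit 81505207025) (nat_lit 0) (nat_lit 9640858829) (nat_lit 5) (nat_lit 5) (nat_lit 7) (nat_lit 4) (nat_lit 5) (nat_lit 4) (nat_lit 507) (nat_lit 363) (nat_lit 330))) (XT.nd (nat_lit 78) (nat_lit 0) (nat_lit 0) (XT.lf (nat_lit 0) (nat_lit 20087672838) (nat_lit 152) (nat_lit 68223958042) (nat_lit 0) (nat_lit 18615653829) (nat_lit 5) (nat_lit 5) (nat_lit 7) (nat_lit 4) (nat_lit 5) (nat_lit 4) (nat_lit 508) (nat_lit 363) (nat_lit 329)) (XT.lf (nat_lit 0) (nat_lit 29415385856) (nat_lit 152) (nat_lit 54510639652) (nat_lit 0) (nat_lit 27926886620) (nat_lit 5) (nat_lit 5) (nat_lit 7) (nat_lit 4) (nat_lit 5) (nat_lit 4) (nat_lit 509) (nat_lit 363) (nat_lit 328)))) (XT.nd (nat_lit 156) (nat_lit 76) (nat_lit 0) (XT.nd (nat_lit 78) (nat_lit 0) (nat_lit 0) (XT.lf (nat_lit 0) (nat_lit 39100921494) (nat_lit 152) (nat_lit 40332601096) (nat_lit 0) (nat_lit 37596726803) (nat_lit 5) (nat_lit 5) (nat_lit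 7) (nat_lit 4) (nat_lit 5) (nat_lit 4) (nat_lit 510) (nat_lit 363) (nat_lit 327)) (XT.lf (nat_lit 0) (nat_lit 49167340551) (nat_lit 152) (nat_lit 25656085141) (nat_lit 0) (nat_lit 47648197807) (nat_lit 5) (nat_lit 5) (nat_lit 7) (nat_lit 4) (nat_lit 5) (nat_lit 4) (nat_lit 511) (nat_lit 363) (nat_lit 326))) (XT.nd (nat_lit 78) (nat_lit 76) (nat_lit 0) (XT.lf (nat_lit 0) (nat_lit 59638610690) (nat_lit 152) (nat_lit 10446147700) (nat_lit 0) (nat_lit 58105231705) (nat_lit 5) (nat_lit 5) (nat_lit 7) (nat_lit 4) (nat_lit 5) (nat_lit 4) (nat_lit 512) (nat_lit 363) (nat_lit 325)) (XT.lf (nat_lit 0) (nat_lit 5509772492) (nat_lit 76) (nat_lit 65115914005) (nat_lit 76) (nat_lit 63568976696) (nat_lit 4) (nat_lit 4) (nat_lit 5) (nat_lit 5) (nat_lit 5) (nat_lit 4) (nat_lit 513) (nat_lit 363) (nat_lit 324)))))) (XT.nd (nat_lit 624) (nat_lit 152) (nat_lit 0) (XT.nd (nat_lit 312) (nat_lit 0) (nat_lit 0) (XT.nd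 (nat_lit 156) (nat_lit 0) (nat_lit 0) (XT.nd (nat_lit 78) (nat_lit 0) (nat_lit 0) (XT.lf (nat_lit 0) (nat_lit 22438372512) (nat_lit 76) (nat_lit 59808407258) (nat_lit 76) (nat_lit 58248557260) (nat_lit 4) (nat_lit 4) (nat_lit 5) (nat_lit 5) (nat_lit 5) (nat_lit 4) (nat_lit 514) (nat_lit 363) (nat_lit 323)) (XT.lf (nat_lit 0) (nat_lit 40034561730) (nat_lit 76) (nat_lit 54326511794) (nat_lit 76) (nat_lit 52754363996) (nat_lit 4) (nat_lit 4) (nat_lit 5) (nat_lit 5) (nat_lit 5) (nat_lit 4) (nat_lit 515) (nat_lit 363) (nat_lit 322))) (XT.nd (nat_lit 78) (nat_lit 0) (nat_lit 0) (XT.lf (nat_lit 0) (nat_lit 58340235836) (nat_lit 76) (nat_lit 48657175480) (nat_lit 76) (nat_lit 47073315492) (nat_lit 4) (nat_lit 4) (nat_lit 5) (nat_lit 5) (nat_lit 5) (nat_lit 4) (nat_lit 516) (nat_lit 363) (nat_lit 321)) (XT.lf (nat_lit 0) (nat_lit 77398979767) (nat_lit 76) (nat_lit 42786899898) (nat_lit 76) (nat_lit 41191885443)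 (nat_lit 4) (nat_lit 4) (nat_lit 5) (nat_lit 5) (nat_lit 5) (nat_lit 4) (nat_lit 517) (nat_lit 363) (nat_lit 320)))) (XT.nd (nat_lit 156) (nat_lit 0) (nat_lit 0) (XT.nd (nat_lit 78) (nat_lit 0) (nat_lit 0) (XT.lf (nat_lit 0) (nat_lit 97256171486) (nat_lit 76) (nat_lit 36701708201) (nat_lit 76) (nat_lit 35096070444) (nat_lit 4) (nat_lit 4) (nat_lit 5) (nat_lit 5) (nat_lit 5) (nat_lit 4) (nat_lit 518) (nat_lit 363) (nat_lit 319)) (XT.lf (nat_lit 0) (nat_lit 117959090020) (nat_lit 76) (nat_lit 30387111836) (nat_lit 76) (nat_lit 28771356649) (nat_lit 4) (nat_lit 4) (nat_lit 5) (nat_lit 5) (nat_lit 5) (nat_lit 4) (nat_lit 519) (nat_lit 363) (nat_lit 318))) (XT.nd (nat_lit 78) (nat_lit 0) (nat_lit 0) (XT.lf (nat_lit 0) (nat_lit 139557028032) (nat_lit 76) (nat_lit 23828076050) (nat_lit 76) (nat_lit 22202685215) (nat_lit 4) (nat_lit 4) (nat_lit 5) (nat_lit 5) (nat_lit 5) (nat_lit 4) (nat_lit 520) (nat_lit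 363) (nat_lit 317)) (XT.lf (nat_lit 0) (nat_lit 162101409185) (nat_lit 76) (nat_lit 17008984093) (nat_lit 76) (nat_lit 15374416450) (nat_lit 4) (nat_lit 4) (nat_lit 5) (nat_lit 5) (nat_lit 5) (nat_lit 4) (nat_lit 521) (nat_lit 363) (nat_lit 316))))) (XT.nd (nat_lit 312) (nat_lit 0) (nat_lit 0) (XT.nd (nat_lit 156) (nat_lit 152) (nat_lit 0) (XT.nd (nat_lit 78) (nat_lit 0) (nat_lit 0) (XT.lf (nat_lit 0) (nat_lit 185645910576) (nat_lit 76) (nat_lit 9913600029) (nat_lit 76) (nat_lit 8270292570) (nat_lit 4) (nat_lit 4) (nat_lit 5) (nat_lit 5) (nat_lit 5) (nat_lit 4) (nat_lit 522) (nat_lit 363) (nat_lit 315)) (XT.lf (nat_lit 0) (nat_lit 210246590543) (nat_lit 76) (nat_lit 2525030089) (nat_lit 76) (nat_lit 873398995) (nat_lit 4) (nat_lit 4) (nat_lit 5) (nat_lit 5) (nat_lit 5) (nat_lit 4) (nat_lit 523) (nat_lit 363) (nat_lit 314))) (XT.nd (nat_lit 78) (nat_lit 0) (nat_lit 0) (XT.lf (nat_lit 0) (nat_lit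 6892790447) (nat_lit 152) (nat_lit 211729562666) (nat_lit 0) (nat_lit 5312258671) (nat_lit 2) (nat_lit 5) (nat_lit 4) (nat_lit 4) (nat_lit 2) (nat_lit 4) (nat_lit 524) (nat_lit 363) (nat_lit 313)) (XT.lf (nat_lit 0) (nat_lit 15060293549) (nat_lit 152) (nat_lit 206202984937) (nat_lit 0) (nat_lit 13472571504) (nat_lit 2) (nat_lit 5) (nat_lit 4) (nat_lit 4) (nat_lit 2) (nat_lit 4) (nat_lit 525) (nat_lit 363) (nat_lit 312)))) (XT.nd (nat_lit 156) (nat_lit 0) (nat_lit 0) (XT.nd (nat_lit 78) (nat_lit 0) (nat_lit 0) (XT.lf (nat_lit 0) (nat_lit 23581376219) (nat_lit 152) (nat_lit 200511707509) (nat_lit 0) (nat_lit 21986806299) (nat_lit 2) (nat_lit 5) (nat_lit 4) (nat_lit 4) (nat_lit 2) (nat_lit 4) (nat_lit 526) (nat_lit 363) (nat_lit 311)) (XT.lf (nat_lit 0) (nat_lit 32476326750) (nat_lit 152) (nat_lit 194642179720) (nat_lit 0) (nat_lit 30875235044) (nat_lit 2) (nat_lit 5) (nat_lit 4) (nat_lit 4) (nat_lit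 2) (nat_lit 4) (nat_lit 527) (nat_lit 363) (nat_lit 310))) (XT.nd (nat_lit 78) (nat_lit 0) (nat_lit 0) (XT.lf (nat_lit 0) (nat_lit 41766323594) (nat_lit 152) (nat_lit 188580426505) (nat_lit 0) (nat_lit 40159020664) (nat_lit 2) (nat_lit 5) (nat_lit 4) (nat_lit 4) (nat_lit 2) (nat_lit 4) (nat_lit 528) (nat_lit 363) (nat_lit 309)) (XT.lf (nat_lit 0) (nat_lit 51473485794) (nat_lit 152) (nat_lit 182312015117) (nat_lit 0) (nat_lit 49860267411) (nat_lit 2) (nat_lit 5) (nat_lit 4) (nat_lit 4) (nat_lit 2) (nat_lit 4) (nat_lit 529) (nat_lit 363) (nat_lit 308))))))))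
noncomputable def xc26 : XT := (XT.nd (nat_lit 58578) (nat_lit 0) (nat_lit 304) (XT.nd (nat_lit 1170) (nat_lit 76) (nat_lit 0) (XT.nd (nat_lit 546) (nat_lit 0) (nat_lit 0) (XT.nd (nat_lit 234) (nat_lit 0) (nat_lit 0) (XT.nd (nat_lit 78) (nat_lit 0) (nat_lit 0) (XT.lf (nat_lit 0) (nat_lit 61620925638) (nat_lit 152) (nat_lit 175822020768) (nat_lit 0) (nat_lit 60002073492) (nat_lit 2) (nat_lit 5) (nat_lit 4) (nat_lit 4) (nat_lit 2) (nat_lit 4) (nat_lit 530) (nat_lit 363) (nat_lit 307)) (XT.nd (nat_lit 78) (nat_lit 0) (nat_lit 0) (XT.lf (nat_lit 0) (nat_lit 72232803699) (nat_lit 152) (nat_lit 169094991091) (nat_lit 0) (nat_lit 70608586064) (nat_lit 2) (nat_lit 5) (nat_lit 4) (nat_lit 4) (nat_lit 2) (nat_lit 4) (nat_lit 531) (nat_lit 363) (nat_lit 306)) (XT.lf (nat_lit 0) (nat_lit 83334386353) (nat_lit 152) (nat_lit 162114909346) (nat_lit 0) (nat_lit 81705058728) (nat_lit 2) (nat_lit 5) (nat_lit 4)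 (nat_lit 4) (nat_lit 2) (nat_lit 4) (nat_lit 532) (nat_lit 363) (nat_lit 305)))) (XT.nd (nat_lit 156) (nat_lit 0) (nat_lit 0) (XT.nd (nat_lit 78) (nat_lit 0) (nat_lit 0) (XT.lf (nat_lit 0) (nat_lit 94952105939) (nat_lit 152) (nat_lit 154865156294) (nat_lit 0) (nat_lit 93317911656) (nat_lit 2) (nat_lit 5) (nat_lit 4) (nat_lit 4) (nat_lit 2) (nat_lit 4) (nat_lit 533) (nat_lit 363) (nat_lit 304)) (XT.lf (nat_lit 0) (nat_lit 107113623694) (nat_lit 152) (nat_lit 147328470616) (nat_lit 0) (nat_lit 105474794500) (nat_lit 2) (nat_lit 5) (nat_lit 4) (nat_lit 4) (nat_lit 2) (nat_lit 4) (nat_lit 534) (nat_lit 363) (nat_lit 303))) (XT.nd (nat_lit 78) (nat_lit 0) (nat_lit 0) (XT.lf (nat_lit 0) (nat_lit 119847895613) (nat_lit 152) (nat_lit 139486907823) (nat_lit 0) (nat_lit 118204652218) (nat_lit 2) (nat_lit 5) (nat_lit 4) (nat_lit 4) (nat_lit 2) (nat_lit 4) (nat_lit 535) (nat_lit 363) (nat_lit 302)) (XT.lf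 (nat_lit 0) (nat_lit 133185241392) (nat_lit 152) (nat_lit 131321797528) (nat_lit 0) (nat_lit 131537793996) (nat_lit 2) (nat_lit 5) (nat_lit 4) (nat_lit 4) (nat_lit 2) (nat_lit 4) (nat_lit 536) (nat_lit 363) (nat_lit 301))))) (XT.nd (nat_lit 312) (nat_lit 0) (nat_lit 0) (XT.nd (nat_lit 156) (nat_lit 0) (nat_lit 0) (XT.nd (nat_lit 78) (nat_lit 0) (nat_lit 0) (XT.lf (nat_lit 0) (nat_lit 147157416615) (nat_lit 152) (nat_lit 122813698992) (nat_lit 0) (nat_lit 145505965408) (nat_lit 2) (nat_lit 5) (nat_lit 4) (nat_lit 4) (nat_lit 2) (nat_lit 4) (nat_lit 537) (nat_lit 363) (nat_lit 300)) (XT.lf (nat_lit 0) (nat_lit 161797688366) (nat_lit 152) (nat_lit 113942354836) (nat_lit 0) (nat_lit 160142424006) (nat_lit 2) (nat_lit 5) (nat_lit 4) (nat_lit 4) (nat_lit 2) (nat_lit 4) (nat_lit 538) (nat_lit 363) (nat_lit 299))) (XT.nd (nat_lit 78) (nat_lit 0) (nat_lit 0) (XT.lf (nat_lit 0) (nat_lit 177140914435) (nat_lit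 152) (nat_lit 104686642814) (nat_lit 0) (nat_lit 175482018501) (nat_lit 2) (nat_lit 5) (nat_lit 4) (nat_lit 4) (nat_lit 2) (nat_lit 4) (nat_lit 539) (nat_lit 363) (nat_lit 298)) (XT.lf (nat_lit 0) (nat_lit 193223626313) (nat_lit 152) (nat_lit 95024525515) (nat_lit 0) (nat_lit 191561271736) (nat_lit 2) (nat_lit 5) (nat_lit 4) (nat_lit 4) (nat_lit 2) (nat_lit 4) (nat_lit 540) (nat_lit 363) (nat_lit 297)))) (XT.nd (nat_lit 156) (nat_lit 0) (nat_lit 0) (XT.nd (nat_lit 78) (nat_lit 0) (nat_lit 0) (XT.lf (nat_lit 0) (nat_lit 210084116170) (nat_lit 152) (nat_lit 84932997899) (nat_lit 0) (nat_lit 208418467649) (nat_lit 2) (nat_lit 5) (nat_lit 4) (nat_lit 4) (nat_lit 2) (nat_lit 4) (nat_lit 541) (nat_lit 363) (nat_lit 296)) (XT.lf (nat_lit 0) (nat_lit 227762528031) (nat_lit 152) (nat_lit 74388032519) (nat_lit 0) (nat_lit 226093742419) (nat_lit 2) (nat_lit 5) (nat_lit 4) (nat_lit 4) (nat_lit 2) (nat_lit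 4) (nat_lit 542) (nat_lit 363) (nat_lit 295))) (XT.nd (nat_lit 78) (nat_lit 0) (nat_lit 0) (XT.lf (nat_lit 0) (nat_lit 246300953352) (nat_lit 152) (nat_lit 63364522314) (nat_lit 0) (nat_lit 244629180035) (nat_lit 2) (nat_lit 5) (nat_lit 4) (nat_lit 4) (nat_lit 2) (nat_lit 4) (nat_lit 543) (nat_lit 363) (nat_lit 294)) (XT.lf (nat_lit 0) (nat_lit 265743531241) (nat_lit 152) (nat_lit 51836220831) (nat_lit 0) (nat_lit 264068912491) (nat_lit 2) (nat_lit 5) (nat_lit 4) (nat_lit 4) (nat_lit 2) (nat_lit 4) (nat_lit 544) (nat_lit 363) (nat_lit 293)))))) (XT.nd (nat_lit 56784) (nat_lit 0) (nat_lit 1444) (XT.nd (nat_lit 312) (nat_lit 76) (nat_lit 0) (XT.nd (nat_lit 156) (nat_lit 0) (nat_lit 0) (XT.nd (nat_lit 78) (nat_lit 0) (nat_lit 0) (XT.lf (nat_lit 0) (nat_lit 286136553551) (nat_lit 152) (nat_lit 39775679734) (nat_lit 0) (nat_lit 284459224864) (nat_lit 2) (nat_lit 5) (nat_lit 4) (nat_lit 4) (nat_lit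 2) (nat_lit 4) (nat_lit 545) (nat_lit 363) (nat_lit 292)) (XT.lf (nat_lit 0) (nat_lit 307528575095) (nat_lit 152) (nat_lit 27154183448) (nat_lit 0) (nat_lit 305848665516) (nat_lit 2) (nat_lit 5) (nat_lit 4) (nat_lit 4) (nat_lit 2) (nat_lit 4) (nat_lit 546) (nat_lit 363) (nat_lit 291))) (XT.nd (nat_lit 78) (nat_lit 0) (nat_lit 0) (XT.lf (nat_lit 0) (nat_lit 329970529259) (nat_lit 152) (nat_lit 13941680792) (nat_lit 0) (nat_lit 328288161688) (nat_lit 2) (nat_lit 5) (nat_lit 4) (nat_lit 4) (nat_lit 2) (nat_lit 4) (nat_lit 547) (nat_lit 363) (nat_lit 290)) (XT.lf (nat_lit 0) (nat_lit 353515849268) (nat_lit 152) (nat_lit 106713427) (nat_lit 0) (nat_lit 351831140751) (nat_lit 2) (nat_lit 5) (nat_lit 4) (nat_lit 4) (nat_lit 2) (nat_lit 4) (nat_lit 548) (nat_lit 363) (nat_lit 289)))) (XT.nd (nat_lit 156) (nat_lit 0) (nat_lit 0) (XT.nd (nat_lit 78) (nat_lit 0) (nat_lit 0) (XT.lf (nat_lit 0) (nat_lit 14859247772)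 (nat_lit 76) (nat_lit 363593342134) (nat_lit 76) (nat_lit 361906404145) (nat_lit 1) (nat_lit 4) (nat_lit 2) (nat_lit 5) (nat_lit 2) (nat_lit 4) (nat_lit 549) (nat_lit 363) (nat_lit 288)) (XT.lf (nat_lit 0) (nat_lit 30541454803) (nat_lit 76) (nat_lit 374078971396) (nat_lit 76) (nat_lit 372389910101) (nat_lit 1) (nat_lit 4) (nat_lit 2) (nat_lit 5) (nat_lit 2) (nat_lit 4) (nat_lit 550) (nat_lit 363) (nat_lit 287))) (XT.nd (nat_lit 78) (nat_lit 0) (nat_lit 0) (XT.lf (nat_lit 0) (nat_lit 46973717826) (nat_lit 76) (nat_lit 385106223508) (nat_lit 76) (nat_lit 383415140017) (nat_lit 1) (nat_lit 4) (nat_lit 2) (nat_lit 5) (nat_lit 2) (nat_lit 4) (nat_lit 551) (nat_lit 363) (nat_lit 286)) (XT.lf (nat_lit 0) (nat_lit 64195161275) (nat_lit 76) (nat_lit 396701353834) (nat_lit 76) (nat_lit 395008344441) (nat_lit 1) (nat_lit 4) (nat_lit 2) (nat_lit 5) (nat_lit 2) (nat_lit 4) (nat_lit 552) (nat_lit 363) (nat_lit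 285))))) (XT.nd (nat_lit 312) (nat_lit 228) (nat_lit 0) (XT.nd (nat_lit 156) (nat_lit 228) (nat_lit 0) (XT.nd (nat_lit 78) (nat_lit 0) (nat_lit 0) (XT.lf (nat_lit 0) (nat_lit 701011021) (nat_lit 152) (nat_lit 11730327508) (nat_lit 0) (nat_lit 701011021) (nat_lit 26) (nat_lit 5) (nat_lit 28) (nat_lit 4) (nat_lit 26) (nat_lit 4) (nat_lit 472) (nat_lit 364) (nat_lit 364)) (XT.lf (nat_lit 0) (nat_lit 11025518816) (nat_lit 152) (nat_lit 5170344165) (nat_lit 0) (nat_lit 10897606086) (nat_lit 26) (nat_lit 5) (nat_lit 28) (nat_lit 4) (nat_lit 26) (nat_lit 4) (nat_lit 473) (nat_lit 364) (nat_lit 363))) (XT.nd (nat_lit 78) (nat_lit 152) (nat_lit 0) (XT.lf (nat_lit 0) (nat_lit 13865359327) (nat_lit 76) (nat_lit 7176242270) (nat_lit 76) (nat_lit 6926507891) (nat_lit 25) (nat_lit 4) (nat_lit 26) (nat_lit 5) (nat_lit 26) (nat_lit 4) (nat_lit 474) (nat_lit 364) (nat_lit 362)) (XT.lf (nat_lit 0) (nat_lit 2477434123)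 (nat_lit 152) (nat_lit 24283320758) (nat_lit 0) (nat_lit 2129096031) (nat_lit 23) (nat_lit 5) (nat_lit 25) (nat_lit 4) (nat_lit 23) (nat_lit 4) (nat_lit 475) (nat_lit 364) (nat_lit 361)))) (XT.nd (nat_lit 156) (nat_lit 152) (nat_lit 0) (XT.nd (nat_lit 78) (nat_lit 76) (nat_lit 0) (XT.lf (nat_lit 0) (nat_lit 12174681872) (nat_lit 152) (nat_lit 5953418343) (nat_lit 0) (nat_lit 11721109660) (nat_lit 23) (nat_lit 5) (nat_lit 25) (nat_lit 4) (nat_lit 23) (nat_lit 4) (nat_lit 476) (nat_lit 364) (nat_lit 360)) (XT.lf (nat_lit 0) (nat_lit 13128936755) (nat_lit 76) (nat_lit 9142824413) (nat_lit 76) (nat_lit 8589029229) (nat_lit 22) (nat_lit 4) (nat_lit 23) (nat_lit 5) (nat_lit 23) (nat_lit 4) (nat_lit 477) (nat_lit 364) (nat_lit 359))) (XT.nd (nat_lit 78) (nat_lit 0) (nat_lit 0) (XT.lf (nat_lit 0) (nat_lit 748806778) (nat_lit 152) (nat_lit 31051500643) (nat_lit 0) (nat_lit 130477605) (nat_lit 20) (nat_lit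 5) (nat_lit 22) (nat_lit 4) (nat_lit 20) (nat_lit 4) (nat_lit 478) (nat_lit 364) (nat_lit 358)) (XT.lf (nat_lit 0) (nat_lit 10430436022) (nat_lit 152) (nat_lit 12882997028) (nat_lit 0) (nat_lit 9725530477) (nat_lit 20) (nat_lit 5) (nat_lit 22) (nat_lit 4) (nat_lit 20) (nat_lit 4) (nat_lit 479) (nat_lit 364) (nat_lit 357))))))) (XT.nd (nat_lit 1170) (nat_lit 380) (nat_lit 0) (XT.nd (nat_lit 546) (nat_lit 304) (nat_lit 0) (XT.nd (nat_lit 234) (nat_lit 228) (nat_lit 0) (XT.nd (nat_lit 78) (nat_lit 152) (nat_lit 0) (XT.lf (nat_lit 0) (nat_lit 5823449263) (nat_lit 76) (nat_lit 14587852438) (nat_lit 76) (nat_lit 13800493206) (nat_lit 19) (nat_lit 4) (nat_lit 20) (nat_lit 5) (nat_lit 20) (nat_lit 4) (nat_lit 480) (nat_lit 364) (nat_lit 356)) (XT.nd (nat_lit 78) (nat_lit 152) (nat_lit 0) (XT.lf (nat_lit 0) (nat_lit 25364598948) (nat_lit 76) (nat_lit 5473603738) (nat_lit 76) (nat_lit 4607717186) (nat_lit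 19) (nat_lit 4) (nat_lit 20) (nat_lit 5) (nat_lit 20) (nat_lit 4) (nat_lit 481) (nat_lit 364) (nat_lit 355)) (XT.lf (nat_lit 0) (nat_lit 4821655104) (nat_lit 152) (nat_lit 27993463743) (nat_lit 0) (nat_lit 3925774650) (nat_lit 17) (nat_lit 5) (nat_lit 19) (nat_lit 4) (nat_lit 17) (nat_lit 4) (nat_lit 482) (nat_lit 364) (nat_lit 354)))) (XT.nd (nat_lit 156) (nat_lit 152) (nat_lit 0) (XT.nd (nat_lit 78) (nat_lit 76) (nat_lit 0) (XT.lf (nat_lit 0) (nat_lit 14568632753) (nat_lit 152) (nat_lit 9923240871) (nat_lit 0) (nat_lit 13604917447) (nat_lit 17) (nat_lit 5) (nat_lit 19) (nat_lit 4) (nat_lit 17) (nat_lit 4) (nat_lit 483) (nat_lit 364) (nat_lit 353)) (XT.lf (nat_lit 0) (nat_lit 8827589326) (nat_lit 76) (nat_lit 15863406808) (nat_lit 76) (nat_lit 14835086881) (nat_lit 16) (nat_lit 4) (nat_lit 17) (nat_lit 5) (nat_lit 17) (nat_lit 4) (nat_lit 484) (nat_lit 364) (nat_lit 352))) (XT.nd (nat_lit 78)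 (nat_lit 152) (nat_lit 0) (XT.lf (nat_lit 0) (nat_lit 28363184034) (nat_lit 76) (nat_lit 6878692494) (nat_lit 76) (nat_lit 5788844356) (nat_lit 16) (nat_lit 4) (nat_lit 17) (nat_lit 5) (nat_lit 17) (nat_lit 4) (nat_lit 485) (nat_lit 364) (nat_lit 351)) (XT.lf (nat_lit 0) (nat_lit 3484083339) (nat_lit 152) (nat_lit 36738632331) (nat_lit 0) (nat_lit 2390324831) (nat_lit 14) (nat_lit 5) (nat_lit 16) (nat_lit 4) (nat_lit 14) (nat_lit 4) (nat_lit 486) (nat_lit 364) (nat_lit 350))))) (XT.nd (nat_lit 312) (nat_lit 228) (nat_lit 0) (XT.nd (nat_lit 156) (nat_lit 76) (nat_lit 0) (XT.nd (nat_lit 78) (nat_lit 0) (nat_lit 0) (XT.lf (nat_lit 0) (nat_lit 13119315905) (nat_lit 152) (nat_lit 19173349238) (nat_lit 0) (nat_lit 11972407015) (nat_lit 14) (nat_lit 5) (nat_lit 16) (nat_lit 4) (nat_lit 14) (nat_lit 4) (nat_lit 487) (nat_lit 364) (nat_lit 349)) (XT.lf (nat_lit 0) (nat_lit 23010013337) (nat_lit 152) (nat_lit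 1188522908) (nat_lit 0) (nat_lit 21812485036) (nat_lit 14) (nat_lit 5) (nat_lit 16) (nat_lit 4) (nat_lit 14) (nat_lit 4) (nat_lit 488) (nat_lit 364) (nat_lit 348))) (XT.nd (nat_lit 78) (nat_lit 0) (nat_lit 0) (XT.lf (nat_lit 0) (nat_lit 17829317169) (nat_lit 76) (nat_lit 15628773352) (nat_lit 76) (nat_lit 14383036089) (nat_lit 13) (nat_lit 4) (nat_lit 14) (nat_lit 5) (nat_lit 14) (nat_lit 4) (nat_lit 489) (nat_lit 364) (nat_lit 347)) (XT.lf (nat_lit 0) (nat_lit 37409481423) (nat_lit 76) (nat_lit 6827249658) (nat_lit 76) (nat_lit 5535599096) (nat_lit 13) (nat_lit 4) (nat_lit 14) (nat_lit 5) (nat_lit 14) (nat_lit 4) (nat_lit 490) (nat_lit 364) (nat_lit 346)))) (XT.nd (nat_lit 156) (nat_lit 76) (nat_lit 0) (XT.nd (nat_lit 78) (nat_lit 0) (nat_lit 0) (XT.lf (nat_lit 0) (nat_lit 3557569238) (nat_lit 152) (nat_lit 45957637843) (nat_lit 0) (nat_lit 2285781131) (nat_lit 11) (nat_lit 5) (nat_lit 13) (nat_lit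 4) (nat_lit 11) (nat_lit 4) (nat_lit 491) (nat_lit 364) (nat_lit 345)) (XT.lf (nat_lit 0) (nat_lit 13039040196) (nat_lit 152) (nat_lit 29153928106) (nat_lit 0) (nat_lit 11727590456) (nat_lit 11) (nat_lit 5) (nat_lit 13) (nat_lit 4) (nat_lit 11) (nat_lit 4) (nat_lit 492) (nat_lit 364) (nat_lit 344))) (XT.nd (nat_lit 78) (nat_lit 76) (nat_lit 0) (XT.lf (nat_lit 0) (nat_lit 22799300297) (nat_lit 152) (nat_lit 11906494961) (nat_lit 0) (nat_lit 21450077573) (nat_lit 11) (nat_lit 5) (nat_lit 13) (nat_lit 4) (nat_lit 11) (nat_lit 4) (nat_lit 493) (nat_lit 364) (nat_lit 343)) (XT.lf (nat_lit 0) (nat_lit 6018351750) (nat_lit 76) (nat_lit 26937199842) (nat_lit 76) (nat_lit 25552002848) (nat_lit 10) (nat_lit 4) (nat_lit 11) (nat_lit 5) (nat_lit 11) (nat_lit 4) (nat_lit 494) (nat_lit 364) (nat_lit 342)))))) (XT.nd (nat_lit 624) (nat_lit 152) (nat_lit 0) (XT.nd (nat_lit 312) (nat_lit 76) (nat_lit 0) (XT.nd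 (nat_lit 156) (nat_lit 152) (nat_lit 0) (XT.nd (nat_lit 78) (nat_lit 0) (nat_lit 0) (XT.lf (nat_lit 0) (nat_lit 24881314533) (nat_lit 76) (nat_lit 18757014417) (nat_lit 76) (nat_lit 17337556213) (nat_lit 10) (nat_lit 4) (nat_lit 11) (nat_lit 5) (nat_lit 11) (nat_lit 4) (nat_lit 495) (nat_lit 364) (nat_lit 341)) (XT.lf (nat_lit 0) (nat_lit 44333622708) (nat_lit 76) (nat_lit 10347404603) (nat_lit 76) (nat_lit 8895316675) (nat_lit 10) (nat_lit 4) (nat_lit 11) (nat_lit 5) (nat_lit 11) (nat_lit 4) (nat_lit 496) (nat_lit 364) (nat_lit 340))) (XT.nd (nat_lit 78) (nat_lit 152) (nat_lit 0) (XT.lf (nat_lit 0) (nat_lit 64421591294) (nat_lit 76) (nat_lit 1688347521) (nat_lit 76) (nat_lit 205183666) (nat_lit 10) (nat_lit 4) (nat_lit 11) (nat_lit 5) (nat_lit 11) (nat_lit 4) (nat_lit 497) (nat_lit 364) (nat_lit 339)) (XT.lf (nat_lit 0) (nat_lit 8848616393) (nat_lit 152) (nat_lit 52916636663) (nat_lit 0) (nat_lit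 7407892605) (nat_lit 8) (nat_lit 5) (nat_lit 10) (nat_lit 4) (nat_lit 8) (nat_lit 4) (nat_lit 498) (nat_lit 364) (nat_lit 338)))) (XT.nd (nat_lit 156) (nat_lit 76) (nat_lit 0) (XT.nd (nat_lit 78) (nat_lit 0) (nat_lit 0) (XT.lf (nat_lit 0) (nat_lit 18247962973) (nat_lit 152) (nat_lit 37150557164) (nat_lit 0) (nat_lit 16780394632) (nat_lit 8) (nat_lit 5) (nat_lit 10) (nat_lit 4) (nat_lit 8) (nat_lit 4) (nat_lit 499) (nat_lit 364) (nat_lit 337)) (XT.lf (nat_lit 0) (nat_lit 27964401300) (nat_lit 152) (nat_lit 20906948622) (nat_lit 0) (nat_lit 26471266717) (nat_lit 8) (nat_lit 5) (nat_lit 10) (nat_lit 4) (nat_lit 8) (nat_lit 4) (nat_lit 500) (nat_lit 364) (nat_lit 336))) (XT.nd (nat_lit 78) (nat_lit 76) (nat_lit 0) (XT.lf (nat_lit 0) (nat_lit 38021065750) (nat_lit 152) (nat_lit 4147135780) (nat_lit 0) (nat_lit 36503582364) (nat_lit 8) (nat_lit 5) (nat_lit 10) (nat_lit 4) (nat_lit 8) (nat_lit 4) (nat_lit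 501) (nat_lit 364) (nat_lit 335)) (XT.lf (nat_lit 0) (nat_lit 13604205205) (nat_lit 76) (nat_lit 35050095326) (nat_lit 76) (nat_lit 33509422605) (nat_lit 7) (nat_lit 4) (nat_lit 8) (nat_lit 5) (nat_lit 8) (nat_lit 4) (nat_lit 502) (nat_lit 364) (nat_lit 334))))) (XT.nd (nat_lit 312) (nat_lit 152) (nat_lit 0) (XT.nd (nat_lit 156) (nat_lit 0) (nat_lit 0) (XT.nd (nat_lit 78) (nat_lit 0) (nat_lit 0) (XT.lf (nat_lit 0) (nat_lit 32109756889) (nat_lit 76) (nat_lit 27643284252) (nat_lit 76) (nat_lit 26080526449) (nat_lit 7) (nat_lit 4) (nat_lit 8) (nat_lit 5) (nat_lit 8) (nat_lit 4) (nat_lit 503) (nat_lit 364) (nat_lit 333)) (XT.lf (nat_lit 0) (nat_lit 51276457071) (nat_lit 76) (nat_lit 20000366795) (nat_lit 76) (nat_lit 18416575581) (nat_lit 7) (nat_lit 4) (nat_lit 8) (nat_lit 5) (nat_lit 8) (nat_lit 4) (nat_lit 504) (nat_lit 364) (nat_lit 332))) (XT.nd (nat_lit 78) (nat_lit 0) (nat_lit 0) (XT.lf (nat_lit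 0) (nat_lit 71149940751) (nat_lit 76) (nat_lit 12103145532) (nat_lit 76) (nat_lit 10499322498) (nat_lit 7) (nat_lit 4) (nat_lit 8) (nat_lit 5) (nat_lit 8) (nat_lit 4) (nat_lit 505) (nat_lit 364) (nat_lit 331)) (XT.lf (nat_lit 0) (nat_lit 91777525747) (nat_lit 76) (nat_lit 3932817556) (nat_lit 76) (nat_lit 2309916598) (nat_lit 7) (nat_lit 4) (nat_lit 8) (nat_lit 5) (nat_lit 8) (nat_lit 4) (nat_lit 506) (nat_lit 364) (nat_lit 330)))) (XT.nd (nat_lit 156) (nat_lit 0) (nat_lit 0) (XT.nd (nat_lit 78) (nat_lit 0) (nat_lit 0) (XT.lf (nat_lit 0) (nat_lit 6219782442) (nat_lit 152) (nat_lit 91613348392) (nat_lit 0) (nat_lit 4656858244) (nat_lit 5) (nat_lit 5) (nat_lit 7) (nat_lit 4) (nat_lit 5) (nat_lit 4) (nat_lit 507) (nat_lit 364) (nat_lit 329)) (XT.lf (nat_lit 0) (nat_lit 15156276227) (nat_lit 152) (nat_lit 78445266747) (nat_lit 0) (nat_lit 13576871801) (nat_lit 5) (nat_lit 5) (nat_lit 7) (nat_lit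 4) (nat_lit 5) (nat_lit 4) (nat_lit 508) (nat_lit 364) (nat_lit 328))) (XT.nd (nat_lit 78) (nat_lit 0) (nat_lit 0) (XT.lf (nat_lit 0) (nat_lit 24431031669) (nat_lit 152) (nat_lit 64839726773) (nat_lit 0) (nat_lit 22835931788) (nat_lit 5) (nat_lit 5) (nat_lit 7) (nat_lit 4) (nat_lit 5) (nat_lit 4) (nat_lit 509) (nat_lit 364) (nat_lit 327)) (XT.lf (nat_lit 0) (nat_lit 34066131520) (nat_lit 152) (nat_lit 50764334329) (nat_lit 0) (nat_lit 32456083586) (nat_lit 5) (nat_lit 5) (nat_lit 7) (nat_lit 4) (nat_lit 5) (nat_lit 4) (nat_lit 510) (nat_lit 364) (nat_lit 326))))))))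
noncomputable def xc27 : XT := (XT.nd (nat_lit 2418) (nat_lit 76) (nat_lit 0) (XT.nd (nat_lit 1170) (nat_lit 0) (nat_lit 0) (XT.nd (nat_lit 546) (nat_lit 152) (nat_lit 0) (XT.nd (nat_lit 234) (nat_lit 76) (nat_lit 0) (XT.nd (nat_lit 78) (nat_lit 0) (nat_lit 0) (XT.lf (nat_lit 0) (nat_lit 44084516493) (nat_lit 152) (nat_lit 36185576574) (nat_lit 0) (nat_lit 42460232319) (nat_lit 5) (nat_lit 5) (nat_lit 7) (nat_lit 4) (nat_lit 5) (nat_lit 4) (nat_lit 511) (nat_lit 364) (nat_lit 325)) (XT.nd (nat_lit 78) (nat_lit 0) (nat_lit 0) (XT.lf (nat_lit 0) (nat_lit 54510039887) (nat_lit 152) (nat_lit 21068742182) (nat_lit 0) (nat_lit 52872197389) (nat_lit 5) (nat_lit 5) (nat_lit 7) (nat_lit 4) (nat_lit 5) (nat_lit 4) (nat_lit 512) (nat_lit 364) (nat_lit 324)) (XT.lf (nat_lit 0) (nat_lit 65367524375) (nat_lit 152) (nat_lit 5377838689) (nat_lit 0) (nat_lit 63716769188) (nat_lit 5) (nat_lit 5) (nat_lit 7) (nat_lit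 4) (nat_lit 5) (nat_lit 4) (nat_lit 513) (nat_lit 364) (nat_lit 323)))) (XT.nd (nat_lit 156) (nat_lit 0) (nat_lit 0) (XT.nd (nat_lit 78) (nat_lit 0) (nat_lit 0) (XT.lf (nat_lit 0) (nat_lit 11285706280) (nat_lit 76) (nat_lit 65573316335) (nat_lit 76) (nat_lit 63910263347) (nat_lit 4) (nat_lit 4) (nat_lit 5) (nat_lit 5) (nat_lit 5) (nat_lit 4) (nat_lit 514) (nat_lit 364) (nat_lit 322)) (XT.lf (nat_lit 0) (nat_lit 28798810341) (nat_lit 76) (nat_lit 60133691078) (nat_lit 76) (nat_lit 58458925900) (nat_lit 4) (nat_lit 4) (nat_lit 5) (nat_lit 5) (nat_lit 5) (nat_lit 4) (nat_lit 515) (nat_lit 364) (nat_lit 321))) (XT.nd (nat_lit 78) (nat_lit 0) (nat_lit 0) (XT.lf (nat_lit 0) (nat_lit 47025355725) (nat_lit 76) (nat_lit 54504612104) (nat_lit 76) (nat_lit 52818692460) (nat_lit 4) (nat_lit 4) (nat_lit 5) (nat_lit 5) (nat_lit 5) (nat_lit 4) (nat_lit 516) (nat_lit 364) (nat_lit 320)) (XT.lf (nat_lit 0) (nat_lit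 66008738969) (nat_lit 76) (nat_lit 48672676846) (nat_lit 76) (nat_lit 46976133899) (nat_lit 4) (nat_lit 4) (nat_lit 5) (nat_lit 5) (nat_lit 5) (nat_lit 4) (nat_lit 517) (nat_lit 364) (nat_lit 319))))) (XT.nd (nat_lit 312) (nat_lit 152) (nat_lit 0) (XT.nd (nat_lit 156) (nat_lit 0) (nat_lit 0) (XT.nd (nat_lit 78) (nat_lit 0) (nat_lit 0) (XT.lf (nat_lit 0) (nat_lit 85794158604) (nat_lit 76) (nat_lit 42623999742) (nat_lit 76) (nat_lit 40917339365) (nat_lit 4) (nat_lit 4) (nat_lit 5) (nat_lit 5) (nat_lit 5) (nat_lit 4) (nat_lit 518) (nat_lit 364) (nat_lit 318)) (XT.lf (nat_lit 0) (nat_lit 106428722773) (nat_lit 76) (nat_lit 36344179181) (nat_lit 76) (nat_lit 34627883157) (nat_lit 4) (nat_lit 4) (nat_lit 5) (nat_lit 5) (nat_lit 5) (nat_lit 4) (nat_lit 519) (nat_lit 364) (nat_lit 317))) (XT.nd (nat_lit 78) (nat_lit 0) (nat_lit 0) (XT.lf (nat_lit 0) (nat_lit 127961561390) (nat_lit 76) (nat_lit 29818263209)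 (nat_lit 76) (nat_lit 28092790377) (nat_lit 4) (nat_lit 4) (nat_lit 5) (nat_lit 5) (nat_lit 5) (nat_lit 4) (nat_lit 520) (nat_lit 364) (nat_lit 316)) (XT.lf (nat_lit 0) (nat_lit 150443943119) (nat_lit 76) (nat_lit 23030713930) (nat_lit 76) (nat_lit 21296501282) (nat_lit 4) (nat_lit 4) (nat_lit 5) (nat_lit 5) (nat_lit 5) (nat_lit 4) (nat_lit 521) (nat_lit 364) (nat_lit 315)))) (XT.nd (nat_lit 156) (nat_lit 152) (nat_lit 0) (XT.nd (nat_lit 78) (nat_lit 0) (nat_lit 0) (XT.lf (nat_lit 0) (nat_lit 173929397440) (nat_lit 76) (nat_lit 15965370514) (nat_lit 76) (nat_lit 14222834230) (nat_lit 4) (nat_lit 4) (nat_lit 5) (nat_lit 5) (nat_lit 5) (nat_lit 4) (nat_lit 522) (nat_lit 364) (nat_lit 314)) (XT.lf (nat_lit 0) (nat_lit 198473842101) (nat_lit 76) (nat_lit 8605410713) (nat_lit 76) (nat_lit 6854947158) (nat_lit 4) (nat_lit 4) (nat_lit 5) (nat_lit 5) (nat_lit 5) (nat_lit 4) (nat_lit 523) (nat_lit 364)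 (nat_lit 313))) (XT.nd (nat_lit 78) (nat_lit 76) (nat_lit 0) (XT.lf (nat_lit 0) (nat_lit 798306890) (nat_lit 152) (nat_lit 121484211) (nat_lit 76) (nat_lit 223323889652) (nat_lit 3) (nat_lit 5) (nat_lit 5) (nat_lit 5) (nat_lit 4) (nat_lit 4) (nat_lit 524) (nat_lit 364) (nat_lit 312)) (XT.lf (nat_lit 0) (nat_lit 8922728376) (nat_lit 152) (nat_lit 218882762648) (nat_lit 0) (nat_lit 7241582085) (nat_lit 2) (nat_lit 5) (nat_lit 4) (nat_lit 4) (nat_lit 2) (nat_lit 4) (nat_lit 525) (nat_lit 364) (nat_lit 311)))))) (XT.nd (nat_lit 624) (nat_lit 0) (nat_lit 0) (XT.nd (nat_lit 312) (nat_lit 0) (nat_lit 0) (XT.nd (nat_lit 156) (nat_lit 0) (nat_lit 0) (XT.nd (nat_lit 78) (nat_lit 0) (nat_lit 0) (XT.lf (nat_lit 0) (nat_lit 17418354328) (nat_lit 152) (nat_lit 213243345469) (nat_lit 0) (nat_lit 15730686251) (nat_lit 2) (nat_lit 5) (nat_lit 4) (nat_lit 4) (nat_lit 2) (nat_lit 4) (nat_lit 526) (nat_lit 364)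 (nat_lit 310)) (XT.lf (nat_lit 0) (nat_lit 26289060365) (nat_lit 152) (nat_lit 207423208394) (nat_lit 0) (nat_lit 24595181063) (nat_lit 2) (nat_lit 5) (nat_lit 4) (nat_lit 4) (nat_lit 2) (nat_lit 4) (nat_lit 527) (nat_lit 364) (nat_lit 309))) (XT.nd (nat_lit 78) (nat_lit 0) (nat_lit 0) (XT.lf (nat_lit 0) (nat_lit 35555967215) (nat_lit 152) (nat_lit 201408493953) (nat_lit 0) (nat_lit 33856172462) (nat_lit 2) (nat_lit 5) (nat_lit 4) (nat_lit 4) (nat_lit 2) (nat_lit 4) (nat_lit 528) (nat_lit 364) (nat_lit 308)) (XT.lf (nat_lit 0) (nat_lit 45241138944) (nat_lit 152) (nat_lit 195184881399) (nat_lit 0) (nat_lit 43535710427) (nat_lit 2) (nat_lit 5) (nat_lit 4) (nat_lit 4) (nat_lit 2) (nat_lit 4) (nat_lit 529) (nat_lit 364) (nat_lit 307)))) (XT.nd (nat_lit 156) (nat_lit 0) (nat_lit 0) (XT.nd (nat_lit 78) (nat_lit 0) (nat_lit 0) (XT.lf (nat_lit 0) (nat_lit 55367635483) (nat_lit 152) (nat_lit 188737552605)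 (nat_lit 0) (nat_lit 53656841477) (nat_lit 2) (nat_lit 5) (nat_lit 4) (nat_lit 4) (nat_lit 2) (nat_lit 4) (nat_lit 530) (nat_lit 364) (nat_lit 306)) (XT.lf (nat_lit 0) (nat_lit 65959567539) (nat_lit 152) (nat_lit 182051156789) (nat_lit 0) (nat_lit 64243663543) (nat_lit 2) (nat_lit 5) (nat_lit 4) (nat_lit 4) (nat_lit 2) (nat_lit 4) (nat_lit 531) (nat_lit 364) (nat_lit 305))) (XT.nd (nat_lit 78) (nat_lit 0) (nat_lit 0) (XT.lf (nat_lit 0) (nat_lit 77042153997) (nat_lit 152) (nat_lit 175109773962) (nat_lit 0) (nat_lit 75321383344) (nat_lit 2) (nat_lit 5) (nat_lit 4) (nat_lit 4) (nat_lit 2) (nat_lit 4) (nat_lit 532) (nat_lit 364) (nat_lit 304)) (XT.lf (nat_lit 0) (nat_lit 88641781969) (nat_lit 152) (nat_lit 167896877020) (nat_lit 0) (nat_lit 86916376404) (nat_lit 2) (nat_lit 5) (nat_lit 4) (nat_lit 4) (nat_lit 2) (nat_lit 4) (nat_lit 533) (nat_lit 364) (nat_lit 303))))) (XT.nd (nat_lit 312) (nat_lit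 0) (nat_lit 0) (XT.nd (nat_lit 156) (nat_lit 0) (nat_lit 0) (XT.nd (nat_lit 78) (nat_lit 0) (nat_lit 0) (XT.lf (nat_lit 0) (nat_lit 100786069615) (nat_lit 152) (nat_lit 160395292400) (nat_lit 0) (nat_lit 99056249849) (nat_lit 2) (nat_lit 5) (nat_lit 4) (nat_lit 4) (nat_lit 2) (nat_lit 4) (nat_lit 534) (nat_lit 364) (nat_lit 302)) (XT.lf (nat_lit 0) (nat_lit 113503931907) (nat_lit 152) (nat_lit 152587159187) (nat_lit 0) (nat_lit 111769908140) (nat_lit 2) (nat_lit 5) (nat_lit 4) (nat_lit 4) (nat_lit 2) (nat_lit 4) (nat_lit 535) (nat_lit 364) (nat_lit 301))) (XT.nd (nat_lit 78) (nat_lit 0) (nat_lit 0) (XT.lf (nat_lit 0) (nat_lit 126825649468) (nat_lit 152) (nat_lit 144453886586) (nat_lit 0) (nat_lit 125087621890) (nat_lit 2) (nat_lit 5) (nat_lit 4) (nat_lit 4) (nat_lit 2) (nat_lit 4) (nat_lit 536) (nat_lit 364) (nat_lit 300)) (XT.lf (nat_lit 0) (nat_lit 140782940675) (nat_lit 152) (nat_lit 135976109663)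 (nat_lit 0) (nat_lit 139041099944) (nat_lit 2) (nat_lit 5) (nat_lit 4) (nat_lit 4) (nat_lit 2) (nat_lit 4) (nat_lit 537) (nat_lit 364) (nat_lit 299)))) (XT.nd (nat_lit 156) (nat_lit 0) (nat_lit 0) (XT.nd (nat_lit 78) (nat_lit 0) (nat_lit 0) (XT.lf (nat_lit 0) (nat_lit 155409037173) (nat_lit 152) (nat_lit 127133643235) (nat_lit 0) (nat_lit 153663564867) (nat_lit 2) (nat_lit 5) (nat_lit 4) (nat_lit 4) (nat_lit 2) (nat_lit 4) (nat_lit 538) (nat_lit 364) (nat_lit 298)) (XT.lf (nat_lit 0) (nat_lit 170738763000) (nat_lit 152) (nat_lit 117905433810) (nat_lit 0) (nat_lit 168989832053) (nat_lit 2) (nat_lit 5) (nat_lit 4) (nat_lit 4) (nat_lit 2) (nat_lit 4) (nat_lit 539) (nat_lit 364) (nat_lit 297))) (XT.nd (nat_lit 78) (nat_lit 0) (nat_lit 0) (XT.lf (nat_lit 0) (nat_lit 186808617506) (nat_lit 152) (nat_lit 108269509461) (nat_lit 0) (nat_lit 185056392613) (nat_lit 2) (nat_lit 5) (nat_lit 4) (nat_lit 4)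 (nat_lit 2) (nat_lit 4) (nat_lit 540) (nat_lit 364) (nat_lit 296)) (XT.lf (nat_lit 0) (nat_lit 203656862246) (nat_lit 152) (nat_lit 98202927512) (nat_lit 0) (nat_lit 201901500263) (nat_lit 2) (nat_lit 5) (nat_lit 4) (nat_lit 4) (nat_lit 2) (nat_lit 4) (nat_lit 541) (nat_lit 364) (nat_lit 295))))))) (XT.nd (nat_lit 57252) (nat_lit 0) (nat_lit 912) (XT.nd (nat_lit 624) (nat_lit 0) (nat_lit 0) (XT.nd (nat_lit 312) (nat_lit 76) (nat_lit 0) (XT.nd (nat_lit 156) (nat_lit 0) (nat_lit 0) (XT.nd (nat_lit 78) (nat_lit 0) (nat_lit 0) (XT.lf (nat_lit 0) (nat_lit 221323612091) (nat_lit 152) (nat_lit 87681719909) (nat_lit 0) (nat_lit 219565262403) (nat_lit 2) (nat_lit 5) (nat_lit 4) (nat_lit 4) (nat_lit 2) (nat_lit 4) (nat_lit 542) (nat_lit 364) (nat_lit 294)) (XT.lf (nat_lit 0) (nat_lit 239850930730) (nat_lit 152) (nat_lit 76680836159) (nat_lit 0) (nat_lit 238089735609) (nat_lit 2) (nat_lit 5) (nat_lit 4)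 (nat_lit 4) (nat_lit 2) (nat_lit 4) (nat_lit 543) (nat_lit 364) (nat_lit 293))) (XT.nd (nat_lit 78) (nat_lit 0) (nat_lit 0) (XT.lf (nat_lit 0) (nat_lit 259282930827) (nat_lit 152) (nat_lit 65174083681) (nat_lit 0) (nat_lit 257519025769) (nat_lit 2) (nat_lit 5) (nat_lit 4) (nat_lit 4) (nat_lit 2) (nat_lit 4) (nat_lit 544) (nat_lit 364) (nat_lit 292)) (XT.lf (nat_lit 0) (nat_lit 279665879049) (nat_lit 152) (nat_lit 53134065446) (nat_lit 0) (nat_lit 277899393098) (nat_lit 2) (nat_lit 5) (nat_lit 4) (nat_lit 4) (nat_lit 2) (nat_lit 4) (nat_lit 545) (nat_lit 364) (nat_lit 291)))) (XT.nd (nat_lit 156) (nat_lit 76) (nat_lit 0) (XT.nd (nat_lit 78) (nat_lit 0) (nat_lit 0) (XT.lf (nat_lit 0) (nat_lit 301048306223) (nat_lit 152) (nat_lit 40532114742) (nat_lit 0) (nat_lit 299279362281) (nat_lit 2) (nat_lit 5) (nat_lit 4) (nat_lit 4) (nat_lit 2) (nat_lit 4) (nat_lit 546) (nat_lit 364) (nat_lit 290)) (XT.lf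 (nat_lit 0) (nat_lit 323481122893) (nat_lit 152) (nat_lit 27338226927) (nat_lit 0) (nat_lit 321709838005) (nat_lit 2) (nat_lit 5) (nat_lit 4) (nat_lit 4) (nat_lit 2) (nat_lit 4) (nat_lit 547) (nat_lit 364) (nat_lit 289))) (XT.nd (nat_lit 78) (nat_lit 76) (nat_lit 0) (XT.lf (nat_lit 0) (nat_lit 347017740525) (nat_lit 152) (nat_lit 13520987981) (nat_lit 0) (nat_lit 345244226166) (nat_lit 2) (nat_lit 5) (nat_lit 4) (nat_lit 4) (nat_lit 2) (nat_lit 4) (nat_lit 548) (nat_lit 364) (nat_lit 288)) (XT.lf (nat_lit 0) (nat_lit 983994243) (nat_lit 76) (nat_lit 370745567350) (nat_lit 76) (nat_lit 368969929684) (nat_lit 1) (nat_lit 4) (nat_lit 2) (nat_lit 5) (nat_lit 2) (nat_lit 4) (nat_lit 549) (nat_lit 364) (nat_lit 287))))) (XT.nd (nat_lit 56316) (nat_lit 0) (nat_lit 1824) (XT.nd (nat_lit 156) (nat_lit 0) (nat_lit 0) (XT.nd (nat_lit 78) (nat_lit 0) (nat_lit 0) (XT.lf (nat_lit 0) (nat_lit 16649589391) (nat_lit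 76) (nat_lit 381239655826) (nat_lit 76) (nat_lit 379461995963) (nat_lit 1) (nat_lit 4) (nat_lit 2) (nat_lit 5) (nat_lit 2) (nat_lit 4) (nat_lit 550) (nat_lit 364) (nat_lit 286)) (XT.lf (nat_lit 0) (nat_lit 33066031573) (nat_lit 76) (nat_lit 392274964332) (nat_lit 76) (nat_lit 390495378569) (nat_lit 1) (nat_lit 4) (nat_lit 2) (nat_lit 5) (nat_lit 2) (nat_lit 4) (nat_lit 551) (nat_lit 364) (nat_lit 285))) (XT.nd (nat_lit 56082) (nat_lit 0) (nat_lit 2128) (XT.lf (nat_lit 0) (nat_lit 50272407554) (nat_lit 76) (nat_lit 403877767414) (nat_lit 76) (nat_lit 402096347459) (nat_lit 1) (nat_lit 4) (nat_lit 2) (nat_lit 5) (nat_lit 2) (nat_lit 4) (nat_lit 552) (nat_lit 364) (nat_lit 284)) (XT.lf (nat_lit 0) (nat_lit 4006843359) (nat_lit 152) (nat_lit 4336514420) (nat_lit 0) (nat_lit 4006843359) (nat_lit 29) (nat_lit 5) (nat_lit 31) (nat_lit 4) (nat_lit 29) (nat_lit 4) (nat_lit 470) (nat_lit 365) (nat_lit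 365)))) (XT.nd (nat_lit 156) (nat_lit 76) (nat_lit 0) (XT.nd (nat_lit 78) (nat_lit 152) (nat_lit 0) (XT.lf (nat_lit 0) (nat_lit 9721305929) (nat_lit 76) (nat_lit 7942586240) (nat_lit 76) (nat_lit 7801562454) (nat_lit 28) (nat_lit 4) (nat_lit 29) (nat_lit 5) (nat_lit 29) (nat_lit 4) (nat_lit 471) (nat_lit 365) (nat_lit 364)) (XT.lf (nat_lit 0) (nat_lit 1380077118) (nat_lit 152) (nat_lit 23774579912) (nat_lit 0) (nat_lit 1117856020) (nat_lit 26) (nat_lit 5) (nat_lit 28) (nat_lit 4) (nat_lit 26) (nat_lit 4) (nat_lit 472) (nat_lit 365) (nat_lit 363))) (XT.nd (nat_lit 78) (nat_lit 76) (nat_lit 0) (XT.lf (nat_lit 0) (nat_lit 10854761235) (nat_lit 152) (nat_lit 5783245154) (nat_lit 0) (nat_lit 10470718488) (nat_lit 26) (nat_lit 5) (nat_lit 28) (nat_lit 4) (nat_lit 26) (nat_lit 4) (nat_lit 473) (nat_lit 365) (nat_lit 362)) (XT.lf (nat_lit 0) (nat_lit 12938039166) (nat_lit 76) (nat_lit 7776600442) (nat_lit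 76) (nat_lit 7276537078) (nat_lit 25) (nat_lit 4) (nat_lit 26) (nat_lit 5) (nat_lit 26) (nat_lit 4) (nat_lit 474) (nat_lit 365) (nat_lit 361)))))) (XT.nd (nat_lit 624) (nat_lit 304) (nat_lit 0) (XT.nd (nat_lit 312) (nat_lit 380) (nat_lit 0) (XT.nd (nat_lit 156) (nat_lit 76) (nat_lit 0) (XT.nd (nat_lit 78) (nat_lit 0) (nat_lit 0) (XT.lf (nat_lit 0) (nat_lit 1965112782) (nat_lit 152) (nat_lit 25573126558) (nat_lit 0) (nat_lit 1383627839) (nat_lit 23) (nat_lit 5) (nat_lit 25) (nat_lit 4) (nat_lit 23) (nat_lit 4) (nat_lit 475) (nat_lit 365) (nat_lit 360)) (XT.lf (nat_lit 0) (nat_lit 11520892073) (nat_lit 152) (nat_lit 7528224341) (nat_lit 0) (nat_lit 10839184159) (nat_lit 23) (nat_lit 5) (nat_lit 25) (nat_lit 4) (nat_lit 23) (nat_lit 4) (nat_lit 476) (nat_lit 365) (nat_lit 359))) (XT.nd (nat_lit 78) (nat_lit 0) (nat_lit 0) (XT.lf (nat_lit 0) (nat_lit 11221657138) (nat_lit 76) (nat_lit 10231804386)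 (nat_lit 76) (nat_lit 9454646023) (nat_lit 22) (nat_lit 4) (nat_lit 23) (nat_lit 5) (nat_lit 23) (nat_lit 4) (nat_lit 477) (nat_lit 365) (nat_lit 358)) (XT.lf (nat_lit 0) (nat_lit 30622941346) (nat_lit 76) (nat_lit 1115617003) (nat_lit 76) (nat_lit 247553450) (nat_lit 22) (nat_lit 4) (nat_lit 23) (nat_lit 5) (nat_lit 23) (nat_lit 4) (nat_lit 478) (nat_lit 365) (nat_lit 357)))) (XT.nd (nat_lit 156) (nat_lit 152) (nat_lit 0) (XT.nd (nat_lit 78) (nat_lit 76) (nat_lit 0) (XT.lf (nat_lit 0) (nat_lit 9267714382) (nat_lit 152) (nat_lit 15476950729) (nat_lit 0) (nat_lit 8358533502) (nat_lit 20) (nat_lit 5) (nat_lit 22) (nat_lit 4) (nat_lit 20) (nat_lit 4) (nat_lit 479) (nat_lit 365) (nat_lit 356)) (XT.lf (nat_lit 0) (nat_lit 2876465549) (nat_lit 76) (nat_lit 16197989834) (nat_lit 76) (nat_lit 15210281633) (nat_lit 19) (nat_lit 4) (nat_lit 20) (nat_lit 5) (nat_lit 20) (nat_lit 4) (nat_lit 480) (nat_lit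 365) (nat_lit 355))) (XT.nd (nat_lit 78) (nat_lit 152) (nat_lit 0) (XT.lf (nat_lit 0) (nat_lit 22163079817) (nat_lit 76) (nat_lit 7212289205) (nat_lit 76) (nat_lit 6149793080) (nat_lit 19) (nat_lit 4) (nat_lit 20) (nat_lit 5) (nat_lit 20) (nat_lit 4) (nat_lit 481) (nat_lit 365) (nat_lit 354)) (XT.lf (nat_lit 0) (nat_lit 3120067086) (nat_lit 152) (nat_lit 31671385375) (nat_lit 0) (nat_lit 2040331163) (nat_lit 17) (nat_lit 5) (nat_lit 19) (nat_lit 4) (nat_lit 17) (nat_lit 4) (nat_lit 482) (nat_lit 365) (nat_lit 353))))) (XT.nd (nat_lit 312) (nat_lit 76) (nat_lit 0) (XT.nd (nat_lit 156) (nat_lit 152) (nat_lit 0) (XT.nd (nat_lit 78) (nat_lit 76) (nat_lit 0) (XT.lf (nat_lit 0) (nat_lit 12745197634) (nat_lit 152) (nat_lit 13847719481) (nat_lit 0) (nat_lit 11600857089) (nat_lit 17) (nat_lit 5) (nat_lit 19) (nat_lit 4) (nat_lit 17) (nat_lit 4) (nat_lit 483) (nat_lit 365) (nat_lit 352)) (XT.lf (nat_lit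 0) (nat_lit 4530769478) (nat_lit 76) (nat_lit 18153661278) (nat_lit 76) (nat_lit 16947792523) (nat_lit 16) (nat_lit 4) (nat_lit 17) (nat_lit 5) (nat_lit 17) (nat_lit 4) (nat_lit 484) (nat_lit 365) (nat_lit 351))) (XT.nd (nat_lit 78) (nat_lit 152) (nat_lit 0) (XT.lf (nat_lit 0) (nat_lit 23835335373) (nat_lit 76) (nat_lit 9285849855) (nat_lit 76) (nat_lit 8021382804) (nat_lit 16) (nat_lit 4) (nat_lit 17) (nat_lit 5) (nat_lit 17) (nat_lit 4) (nat_lit 485) (nat_lit 365) (nat_lit 350)) (XT.lf (nat_lit 0) (nat_lit 926716425) (nat_lit 76) (nat_lit 169376929) (nat_lit 152) (nat_lit 41641882975) (nat_lit 14) (nat_lit 5) (nat_lit 15) (nat_lit 5) (nat_lit 16) (nat_lit 4) (nat_lit 486) (nat_lit 365) (nat_lit 349)))) (XT.nd (nat_lit 156) (nat_lit 76) (nat_lit 0) (XT.nd (nat_lit 78) (nat_lit 0) (nat_lit 0) (XT.lf (nat_lit 0) (nat_lit 10618292807) (nat_lit 152) (nat_lit 24467098664) (nat_lit 0) (nat_lit 9310268680)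 (nat_lit 14) (nat_lit 5) (nat_lit 16) (nat_lit 4) (nat_lit 14) (nat_lit 4) (nat_lit 487) (nat_lit 365) (nat_lit 348)) (XT.lf (nat_lit 0) (nat_lit 20403858178) (nat_lit 152) (nat_lit 6695383097) (nat_lit 0) (nat_lit 19047625088) (nat_lit 14) (nat_lit 5) (nat_lit 16) (nat_lit 4) (nat_lit 14) (nat_lit 4) (nat_lit 488) (nat_lit 365) (nat_lit 347))) (XT.nd (nat_lit 78) (nat_lit 0) (nat_lit 0) (XT.lf (nat_lit 0) (nat_lit 11930701820) (nat_lit 76) (nat_lit 18729013853) (nat_lit 76) (nat_lit 17326867465) (nat_lit 13) (nat_lit 4) (nat_lit 14) (nat_lit 5) (nat_lit 14) (nat_lit 4) (nat_lit 489) (nat_lit 365) (nat_lit 346)) (XT.lf (nat_lit 0) (nat_lit 31311177034) (nat_lit 76) (nat_lit 10028703615) (nat_lit 76) (nat_lit 8582830276) (nat_lit 13) (nat_lit 4) (nat_lit 14) (nat_lit 5) (nat_lit 14) (nat_lit 4) (nat_lit 490) (nat_lit 365) (nat_lit 345))))))))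
noncomputable def xc28 : XT := (XT.nd (nat_lit 2418) (nat_lit 228) (nat_lit 0) (XT.nd (nat_lit 1170) (nat_lit 228) (nat_lit 0) (XT.nd (nat_lit 546) (nat_lit 228) (nat_lit 0) (XT.nd (nat_lit 234) (nat_lit 76) (nat_lit 0) (XT.nd (nat_lit 78) (nat_lit 76) (nat_lit 0) (XT.lf (nat_lit 0) (nat_lit 383841433) (nat_lit 152) (nat_lit 700643114) (nat_lit 76) (nat_lit 50880464955) (nat_lit 12) (nat_lit 5) (nat_lit 14) (nat_lit 5) (nat_lit 13) (nat_lit 4) (nat_lit 491) (nat_lit 365) (nat_lit 344)) (XT.nd (nat_lit 78) (nat_lit 0) (nat_lit 0) (XT.lf (nat_lit 0) (nat_lit 9741633910) (nat_lit 152) (nat_lit 36061893377) (nat_lit 0) (nat_lit 8287177066) (nat_lit 11) (nat_lit 5) (nat_lit 13) (nat_lit 4) (nat_lit 11) (nat_lit 4) (nat_lit 492) (nat_lit 365) (nat_lit 343)) (XT.lf (nat_lit 0) (nat_lit 19411169549) (nat_lit 152) (nat_lit 18998647028) (nat_lit 0) (nat_lit 17920738434) (nat_lit 11) (nat_lit 5) (nat_lit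 13) (nat_lit 4) (nat_lit 11) (nat_lit 4) (nat_lit 493) (nat_lit 365) (nat_lit 342)))) (XT.nd (nat_lit 156) (nat_lit 0) (nat_lit 0) (XT.nd (nat_lit 78) (nat_lit 76) (nat_lit 0) (XT.lf (nat_lit 0) (nat_lit 29387053258) (nat_lit 152) (nat_lit 1441841153) (nat_lit 0) (nat_lit 27862360933) (nat_lit 11) (nat_lit 5) (nat_lit 13) (nat_lit 4) (nat_lit 11) (nat_lit 4) (nat_lit 494) (nat_lit 365) (nat_lit 341)) (XT.lf (nat_lit 0) (nat_lit 17200861143) (nat_lit 76) (nat_lit 22760729645) (nat_lit 76) (nat_lit 21203407597) (nat_lit 10) (nat_lit 4) (nat_lit 11) (nat_lit 5) (nat_lit 11) (nat_lit 4) (nat_lit 495) (nat_lit 365) (nat_lit 340))) (XT.nd (nat_lit 78) (nat_lit 0) (nat_lit 0) (XT.lf (nat_lit 0) (nat_lit 36488801026) (nat_lit 76) (nat_lit 14434550671) (nat_lit 76) (nat_lit 12846152696) (nat_lit 10) (nat_lit 4) (nat_lit 11) (nat_lit 5) (nat_lit 11) (nat_lit 4) (nat_lit 496) (nat_lit 365) (nat_lit 339))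 (XT.lf (nat_lit 0) (nat_lit 56420228383) (nat_lit 76) (nat_lit 5854951532) (nat_lit 76) (nat_lit 4236957435) (nat_lit 10) (nat_lit 4) (nat_lit 11) (nat_lit 5) (nat_lit 11) (nat_lit 4) (nat_lit 497) (nat_lit 365) (nat_lit 338))))) (XT.nd (nat_lit 312) (nat_lit 76) (nat_lit 0) (XT.nd (nat_lit 156) (nat_lit 0) (nat_lit 0) (XT.nd (nat_lit 78) (nat_lit 0) (nat_lit 0) (XT.lf (nat_lit 0) (nat_lit 4668130433) (nat_lit 152) (nat_lit 61618726319) (nat_lit 0) (nat_lit 3100339120) (nat_lit 8) (nat_lit 5) (nat_lit 10) (nat_lit 4) (nat_lit 8) (nat_lit 4) (nat_lit 498) (nat_lit 365) (nat_lit 337)) (XT.lf (nat_lit 0) (nat_lit 13992903559) (nat_lit 152) (nat_lit 46004244348) (nat_lit 0) (nat_lit 12399546003) (nat_lit 8) (nat_lit 5) (nat_lit 10) (nat_lit 4) (nat_lit 8) (nat_lit 4) (nat_lit 499) (nat_lit 365) (nat_lit 336))) (XT.nd (nat_lit 78) (nat_lit 0) (nat_lit 0) (XT.lf (nat_lit 0) (nat_lit 23638319548) (nat_lit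 152) (nat_lit 29905014405) (nat_lit 0) (nat_lit 22020613190) (nat_lit 8) (nat_lit 5) (nat_lit 10) (nat_lit 4) (nat_lit 8) (nat_lit 4) (nat_lit 500) (nat_lit 365) (nat_lit 335)) (XT.lf (nat_lit 0) (nat_lit 33627343675) (nat_lit 152) (nat_lit 13282704989) (nat_lit 0) (nat_lit 31986447982) (nat_lit 8) (nat_lit 5) (nat_lit 10) (nat_lit 4) (nat_lit 8) (nat_lit 4) (nat_lit 501) (nat_lit 365) (nat_lit 334)))) (XT.nd (nat_lit 156) (nat_lit 0) (nat_lit 0) (XT.nd (nat_lit 78) (nat_lit 0) (nat_lit 0) (XT.lf (nat_lit 0) (nat_lit 4031287190) (nat_lit 76) (nat_lit 40015411833) (nat_lit 76) (nat_lit 38352431058) (nat_lit 7) (nat_lit 4) (nat_lit 8) (nat_lit 5) (nat_lit 8) (nat_lit 4) (nat_lit 502) (nat_lit 365) (nat_lit 333)) (XT.lf (nat_lit 0) (nat_lit 22407995418) (nat_lit 76) (nat_lit 32674080842) (nat_lit 76) (nat_lit 30990066656) (nat_lit 7) (nat_lit 4) (nat_lit 8) (nat_lit 5) (nat_lit 8) (nat_lit 4) (nat_lit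 503) (nat_lit 365) (nat_lit 332))) (XT.nd (nat_lit 78) (nat_lit 0) (nat_lit 0) (XT.lf (nat_lit 0) (nat_lit 41451987546) (nat_lit 76) (nat_lit 25093525368) (nat_lit 76) (nat_lit 23389479363) (nat_lit 7) (nat_lit 4) (nat_lit 8) (nat_lit 5) (nat_lit 8) (nat_lit 4) (nat_lit 504) (nat_lit 365) (nat_lit 331)) (XT.lf (nat_lit 0) (nat_lit 61208606412) (nat_lit 76) (nat_lit 17255696471) (nat_lit 76) (nat_lit 15532572543) (nat_lit 7) (nat_lit 4) (nat_lit 8) (nat_lit 5) (nat_lit 8) (nat_lit 4) (nat_lit 505) (nat_lit 365) (nat_lit 330)))))) (XT.nd (nat_lit 624) (nat_lit 76) (nat_lit 0) (XT.nd (nat_lit 312) (nat_lit 0) (nat_lit 0) (XT.nd (nat_lit 156) (nat_lit 0) (nat_lit 0) (XT.nd (nat_lit 78) (nat_lit 152) (nat_lit 0) (XT.lf (nat_lit 0) (nat_lit 81724891586) (nat_lit 76) (nat_lit 9141932653) (nat_lit 76) (nat_lit 7400639273) (nat_lit 7) (nat_lit 4) (nat_lit 8) (nat_lit 5) (nat_lit 8) (nat_lit 4) (nat_lit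 506) (nat_lit 365) (nat_lit 329)) (XT.lf (nat_lit 0) (nat_lit 285903691) (nat_lit 76) (nat_lit 711414020) (nat_lit 152) (nat_lit 101758583016) (nat_lit 5) (nat_lit 5) (nat_lit 6) (nat_lit 5) (nat_lit 7) (nat_lit 4) (nat_lit 507) (nat_lit 365) (nat_lit 328))) (XT.nd (nat_lit 78) (nat_lit 0) (nat_lit 0) (XT.lf (nat_lit 0) (nat_lit 9869746753) (nat_lit 152) (nat_lit 89398586641) (nat_lit 0) (nat_lit 8179196423) (nat_lit 5) (nat_lit 5) (nat_lit 7) (nat_lit 4) (nat_lit 5) (nat_lit 4) (nat_lit 508) (nat_lit 365) (nat_lit 327)) (XT.lf (nat_lit 0) (nat_lit 19094066408) (nat_lit 152) (nat_lit 75895692779) (nat_lit 0) (nat_lit 17388568026) (nat_lit 5) (nat_lit 5) (nat_lit 7) (nat_lit 4) (nat_lit 5) (nat_lit 4) (nat_lit 509) (nat_lit 365) (nat_lit 326)))) (XT.nd (nat_lit 156) (nat_lit 0) (nat_lit 0) (XT.nd (nat_lit 78) (nat_lit 0) (nat_lit 0) (XT.lf (nat_lit 0) (nat_lit 28681132176) (nat_lit 152) (nat_lit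 61918058535) (nat_lit 0) (nat_lit 26961397553) (nat_lit 5) (nat_lit 5) (nat_lit 7) (nat_lit 4) (nat_lit 5) (nat_lit 4) (nat_lit 510) (nat_lit 365) (nat_lit 325)) (XT.lf (nat_lit 0) (nat_lit 38653770404) (nat_lit 152) (nat_lit 47432403830) (nat_lit 0) (nat_lit 36920477457) (nat_lit 5) (nat_lit 5) (nat_lit 7) (nat_lit 4) (nat_lit 5) (nat_lit 4) (nat_lit 511) (nat_lit 365) (nat_lit 324))) (XT.nd (nat_lit 78) (nat_lit 0) (nat_lit 0) (XT.lf (nat_lit 0) (nat_lit 49035725469) (nat_lit 152) (nat_lit 32404239007) (nat_lit 0) (nat_lit 47289519832) (nat_lit 5) (nat_lit 5) (nat_lit 7) (nat_lit 4) (nat_lit 5) (nat_lit 4) (nat_lit 512) (nat_lit 365) (nat_lit 323)) (XT.lf (nat_lit 0) (nat_lit 59851716311) (nat_lit 152) (nat_lit 16797782723) (nat_lit 0) (nat_lit 58093212874) (nat_lit 5) (nat_lit 5) (nat_lit 7) (nat_lit 4) (nat_lit 5) (nat_lit 4) (nat_lit 513) (nat_lit 365) (nat_lit 322))))) (XT.nd (nat_lit 312)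 (nat_lit 0) (nat_lit 0) (XT.nd (nat_lit 156) (nat_lit 0) (nat_lit 0) (XT.nd (nat_lit 78) (nat_lit 76) (nat_lit 0) (XT.lf (nat_lit 0) (nat_lit 71127495289) (nat_lit 152) (nat_lit 575876749) (nat_lit 0) (nat_lit 69357279662) (nat_lit 5) (nat_lit 5) (nat_lit 7) (nat_lit 4) (nat_lit 5) (nat_lit 4) (nat_lit 514) (nat_lit 365) (nat_lit 321)) (XT.lf (nat_lit 0) (nat_lit 16839057503) (nat_lit 76) (nat_lit 66313756873) (nat_lit 76) (nat_lit 64532386779) (nat_lit 4) (nat_lit 4) (nat_lit 5) (nat_lit 5) (nat_lit 5) (nat_lit 4) (nat_lit 515) (nat_lit 365) (nat_lit 320))) (XT.nd (nat_lit 78) (nat_lit 0) (nat_lit 0) (XT.lf (nat_lit 0) (nat_lit 34990242199) (nat_lit 76) (nat_lit 60723018223) (nat_lit 76) (nat_lit 58931024827) (nat_lit 4) (nat_lit 4) (nat_lit 5) (nat_lit 5) (nat_lit 5) (nat_lit 4) (nat_lit 516) (nat_lit 365) (nat_lit 319)) (XT.lf (nat_lit 0) (nat_lit 53901853360) (nat_lit 76) (nat_lit 54927597558)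 (nat_lit 76) (nat_lit 53125486733) (nat_lit 4) (nat_lit 4) (nat_lit 5) (nat_lit 5) (nat_lit 5) (nat_lit 4) (nat_lit 517) (nat_lit 365) (nat_lit 318)))) (XT.nd (nat_lit 156) (nat_lit 0) (nat_lit 0) (XT.nd (nat_lit 78) (nat_lit 0) (nat_lit 0) (XT.lf (nat_lit 0) (nat_lit 73618918630) (nat_lit 76) (nat_lit 48913696258) (nat_lit 76) (nat_lit 47101949785) (nat_lit 4) (nat_lit 4) (nat_lit 5) (nat_lit 5) (nat_lit 5) (nat_lit 4) (nat_lit 518) (nat_lit 365) (nat_lit 317)) (XT.lf (nat_lit 0) (nat_lit 94188383404) (nat_lit 76) (nat_lit 42666995510) (nat_lit 76) (nat_lit 40846072229) (nat_lit 4) (nat_lit 4) (nat_lit 5) (nat_lit 5) (nat_lit 5) (nat_lit 4) (nat_lit 519) (nat_lit 365) (nat_lit 316))) (XT.nd (nat_lit 78) (nat_lit 0) (nat_lit 0) (XT.lf (nat_lit 0) (nat_lit 115659222597) (nat_lit 76) (nat_lit 36172622217) (nat_lit 76) (nat_lit 34342959120) (nat_lit 4) (nat_lit 4) (nat_lit 5) (nat_lit 5) (nat_lit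 5) (nat_lit 4) (nat_lit 520) (nat_lit 365) (nat_lit 315)) (XT.lf (nat_lit 0) (nat_lit 138082557256) (nat_lit 76) (nat_lit 29415113586) (nat_lit 76) (nat_lit 27577126853) (nat_lit 4) (nat_lit 4) (nat_lit 5) (nat_lit 5) (nat_lit 5) (nat_lit 4) (nat_lit 521) (nat_lit 365) (nat_lit 314))))))) (XT.nd (nat_lit 1170) (nat_lit 76) (nat_lit 0) (XT.nd (nat_lit 546) (nat_lit 0) (nat_lit 0) (XT.nd (nat_lit 234) (nat_lit 152) (nat_lit 0) (XT.nd (nat_lit 78) (nat_lit 0) (nat_lit 0) (XT.lf (nat_lit 0) (nat_lit 161511776271) (nat_lit 76) (nat_lit 22378380309) (nat_lit 76) (nat_lit 20532466305) (nat_lit 4) (nat_lit 4) (nat_lit 5) (nat_lit 5) (nat_lit 5) (nat_lit 4) (nat_lit 522) (nat_lit 365) (nat_lit 313)) (XT.nd (nat_lit 78) (nat_lit 0) (nat_lit 0) (XT.lf (nat_lit 0) (nat_lit 186002663498) (nat_lit 76) (nat_lit 15045668261) (nat_lit 76) (nat_lit 13192204475) (nat_lit 4) (nat_lit 4) (nat_lit 5) (nat_lit 5) (nat_lit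 5) (nat_lit 4) (nat_lit 523) (nat_lit 365) (nat_lit 312)) (XT.lf (nat_lit 0) (nat_lit 211613530574) (nat_lit 76) (nat_lit 7399518603) (nat_lit 76) (nat_lit 5538864548) (nat_lit 4) (nat_lit 4) (nat_lit 5) (nat_lit 5) (nat_lit 5) (nat_lit 4) (nat_lit 524) (nat_lit 365) (nat_lit 311)))) (XT.nd (nat_lit 156) (nat_lit 0) (nat_lit 0) (XT.nd (nat_lit 78) (nat_lit 0) (nat_lit 0) (XT.lf (nat_lit 0) (nat_lit 2426098672) (nat_lit 152) (nat_lit 232302842754) (nat_lit 0) (nat_lit 647525405) (nat_lit 2) (nat_lit 5) (nat_lit 4) (nat_lit 4) (nat_lit 2) (nat_lit 4) (nat_lit 525) (nat_lit 365) (nat_lit 310)) (XT.lf (nat_lit 0) (nat_lit 10897480130) (nat_lit 152) (nat_lit 226712816289) (nat_lit 0) (nat_lit 9112695639) (nat_lit 2) (nat_lit 5) (nat_lit 4) (nat_lit 4) (nat_lit 2) (nat_lit 4) (nat_lit 526) (nat_lit 365) (nat_lit 309))) (XT.nd (nat_lit 78) (nat_lit 0) (nat_lit 0) (XT.lf (nat_lit 0) (nat_lit 19745096173)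 (nat_lit 152) (nat_lit 220939717989) (nat_lit 0) (nat_lit 17954396230) (nat_lit 2) (nat_lit 5) (nat_lit 4) (nat_lit 4) (nat_lit 2) (nat_lit 4) (nat_lit 527) (nat_lit 365) (nat_lit 308)) (XT.lf (nat_lit 0) (nat_lit 28990012553) (nat_lit 152) (nat_lit 214969802381) (nat_lit 0) (nat_lit 27193678846) (nat_lit 2) (nat_lit 5) (nat_lit 4) (nat_lit 4) (nat_lit 2) (nat_lit 4) (nat_lit 528) (nat_lit 365) (nat_lit 307))))) (XT.nd (nat_lit 312) (nat_lit 0) (nat_lit 0) (XT.nd (nat_lit 156) (nat_lit 0) (nat_lit 0) (XT.nd (nat_lit 78) (nat_lit 0) (nat_lit 0) (XT.lf (nat_lit 0) (nat_lit 38654240976) (nat_lit 152) (nat_lit 208788855382) (nat_lit 0) (nat_lit 36852541780) (nat_lit 2) (nat_lit 5) (nat_lit 4) (nat_lit 4) (nat_lit 2) (nat_lit 4) (nat_lit 529) (nat_lit 365) (nat_lit 306)) (XT.lf (nat_lit 0) (nat_lit 48760791510) (nat_lit 152) (nat_lit 202382160451) (nat_lit 0) (nat_lit 46953982325) (nat_lit 2) (nat_lit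 5) (nat_lit 4) (nat_lit 4) (nat_lit 2) (nat_lit 4) (nat_lit 530) (nat_lit 365) (nat_lit 305))) (XT.nd (nat_lit 78) (nat_lit 0) (nat_lit 0) (XT.lf (nat_lit 0) (nat_lit 59333727371) (nat_lit 152) (nat_lit 195734463552) (nat_lit 0) (nat_lit 57522051528) (nat_lit 2) (nat_lit 5) (nat_lit 4) (nat_lit 4) (nat_lit 2) (nat_lit 4) (nat_lit 531) (nat_lit 365) (nat_lit 304)) (XT.lf (nat_lit 0) (nat_lit 70398222215) (nat_lit 152) (nat_lit 188829936835) (nat_lit 0) (nat_lit 68581911460) (nat_lit 2) (nat_lit 5) (nat_lit 4) (nat_lit 4) (nat_lit 2) (nat_lit 4) (nat_lit 532) (nat_lit 365) (nat_lit 303)))) (XT.nd (nat_lit 156) (nat_lit 0) (nat_lit 0) (XT.nd (nat_lit 78) (nat_lit 0) (nat_lit 0) (XT.lf (nat_lit 0) (nat_lit 81980620077) (nat_lit 152) (nat_lit 181652140952) (nat_lit 0) (nat_lit 80159895121) (nat_lit 2) (nat_lit 5) (nat_lit 4) (nat_lit 4) (nat_lit 2) (nat_lit 4) (nat_lit 533) (nat_lit 365) (nat_lit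 302)) (XT.lf (nat_lit 0) (nat_lit 94108498095) (nat_lit 152) (nat_lit 174183985911) (nat_lit 0) (nat_lit 92283569139) (nat_lit 2) (nat_lit 5) (nat_lit 4) (nat_lit 4) (nat_lit 2) (nat_lit 4) (nat_lit 534) (nat_lit 365) (nat_lit 301))) (XT.nd (nat_lit 78) (nat_lit 0) (nat_lit 0) (XT.lf (nat_lit 0) (nat_lit 106810732170) (nat_lit 152) (nat_lit 166407690392) (nat_lit 0) (nat_lit 104981799403) (nat_lit 2) (nat_lit 5) (nat_lit 4) (nat_lit 4) (nat_lit 2) (nat_lit 4) (nat_lit 535) (nat_lit 365) (nat_lit 300)) (XT.lf (nat_lit 0) (nat_lit 120117565716) (nat_lit 152) (nat_lit 158304739405) (nat_lit 0) (nat_lit 118284819795) (nat_lit 2) (nat_lit 5) (nat_lit 4) (nat_lit 4) (nat_lit 2) (nat_lit 4) (nat_lit 536) (nat_lit 365) (nat_lit 299)))))) (XT.nd (nat_lit 624) (nat_lit 76) (nat_lit 0) (XT.nd (nat_lit 312) (nat_lit 0) (nat_lit 0) (XT.nd (nat_lit 156) (nat_lit 0) (nat_lit 0) (XT.nd (nat_lit 78) (nat_lit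 0) (nat_lit 0) (XT.lf (nat_lit 0) (nat_lit 134060681669) (nat_lit 152) (nat_lit 149855840209) (nat_lit 0) (nat_lit 132224304174) (nat_lit 2) (nat_lit 5) (nat_lit 4) (nat_lit 4) (nat_lit 2) (nat_lit 4) (nat_lit 537) (nat_lit 365) (nat_lit 298)) (XT.lf (nat_lit 0) (nat_lit 148673277925) (nat_lit 152) (nat_lit 141040876378) (nat_lit 0) (nat_lit 146833441788) (nat_lit 2) (nat_lit 5) (nat_lit 4) (nat_lit 4) (nat_lit 2) (nat_lit 4) (nat_lit 538) (nat_lit 365) (nat_lit 297))) (XT.nd (nat_lit 78) (nat_lit 0) (nat_lit 0) (XT.lf (nat_lit 0) (nat_lit 163990146380) (nat_lit 152) (nat_lit 131838859903) (nat_lit 0) (nat_lit 162147016298) (nat_lit 2) (nat_lit 5) (nat_lit 4) (nat_lit 4) (nat_lit 2) (nat_lit 4) (nat_lit 539) (nat_lit 365) (nat_lit 296)) (XT.lf (nat_lit 0) (nat_lit 180047755769) (nat_lit 152) (nat_lit 122227881221) (nat_lit 0) (nat_lit 178201488596) (nat_lit 2) (nat_lit 5) (nat_lit 4) (nat_lit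 4) (nat_lit 2) (nat_lit 4) (nat_lit 540) (nat_lit 365) (nat_lit 295)))) (XT.nd (nat_lit 156) (nat_lit 0) (nat_lit 0) (XT.nd (nat_lit 78) (nat_lit 0) (nat_lit 0) (XT.lf (nat_lit 0) (nat_lit 196884338493) (nat_lit 152) (nat_lit 112185057049) (nat_lit 0) (nat_lit 195035083616) (nat_lit 2) (nat_lit 5) (nat_lit 4) (nat_lit 4) (nat_lit 2) (nat_lit 4) (nat_lit 541) (nat_lit 365) (nat_lit 294)) (XT.lf (nat_lit 0) (nat_lit 214539981656) (nat_lit 152) (nat_lit 101686475902) (nat_lit 0) (nat_lit 212687881345) (nat_lit 2) (nat_lit 5) (nat_lit 4) (nat_lit 4) (nat_lit 2) (nat_lit 4) (nat_lit 542) (nat_lit 365) (nat_lit 293))) (XT.nd (nat_lit 78) (nat_lit 0) (nat_lit 0) (XT.lf (nat_lit 0) (nat_lit 233056722503) (nat_lit 152) (nat_lit 90707141156) (nat_lit 0) (nat_lit 231201912255) (nat_lit 2) (nat_lit 5) (nat_lit 4) (nat_lit 4) (nat_lit 2) (nat_lit 4) (nat_lit 543) (nat_lit 365) (nat_lit 292)) (XT.lf (nat_lit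 0) (nat_lit 252478648512) (nat_lit 152) (nat_lit 79220911540) (nat_lit 0) (nat_lit 250621257372) (nat_lit 2) (nat_lit 5) (nat_lit 4) (nat_lit 4) (nat_lit 2) (nat_lit 4) (nat_lit 544) (nat_lit 365) (nat_lit 291))))) (XT.nd (nat_lit 312) (nat_lit 76) (nat_lit 0) (XT.nd (nat_lit 156) (nat_lit 0) (nat_lit 0) (XT.nd (nat_lit 78) (nat_lit 0) (nat_lit 0) (XT.lf (nat_lit 0) (nat_lit 272852002364) (nat_lit 152) (nat_lit 67200438887) (nat_lit 0) (nat_lit 270992153231) (nat_lit 2) (nat_lit 5) (nat_lit 4) (nat_lit 4) (nat_lit 2) (nat_lit 4) (nat_lit 545) (nat_lit 365) (nat_lit 290)) (XT.lf (nat_lit 0) (nat_lit 294225292044) (nat_lit 152) (nat_lit 54617103024) (nat_lit 0) (nat_lit 292363101966) (nat_lit 2) (nat_lit 5) (nat_lit 4) (nat_lit 4) (nat_lit 2) (nat_lit 4) (nat_lit 546) (nat_lit 365) (nat_lit 289))) (XT.nd (nat_lit 78) (nat_lit 0) (nat_lit 0) (XT.lf (nat_lit 0) (nat_lit 316649406338) (nat_lit 152)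 (nat_lit 41440943629) (nat_lit 0) (nat_lit 314784986788) (nat_lit 2) (nat_lit 5) (nat_lit 4) (nat_lit 4) (nat_lit 2) (nat_lit 4) (nat_lit 547) (nat_lit 365) (nat_lit 288)) (XT.lf (nat_lit 0) (nat_lit 340177735993) (nat_lit 152) (nat_lit 27640588892) (nat_lit 0) (nat_lit 338311193137) (nat_lit 2) (nat_lit 5) (nat_lit 4) (nat_lit 4) (nat_lit 2) (nat_lit 4) (nat_lit 548) (nat_lit 365) (nat_lit 287)))) (XT.nd (nat_lit 156) (nat_lit 0) (nat_lit 0) (XT.nd (nat_lit 78) (nat_lit 76) (nat_lit 0) (XT.lf (nat_lit 0) (nat_lit 364866300842) (nat_lit 152) (nat_lit 13183180826) (nat_lit 0) (nat_lit 362997735790) (nat_lit 2) (nat_lit 5) (nat_lit 4) (nat_lit 4) (nat_lit 2) (nat_lit 4) (nat_lit 549) (nat_lit 365) (nat_lit 286)) (XT.lf (nat_lit 0) (nat_lit 2030697985) (nat_lit 76) (nat_lit 388774890085) (nat_lit 76) (nat_lit 386904399131) (nat_lit 1) (nat_lit 4) (nat_lit 2) (nat_lit 5) (nat_lit 2) (nat_lit 4) (nat_lit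 550) (nat_lit 365) (nat_lit 285))) (XT.nd (nat_lit 78) (nat_lit 0) (nat_lit 0) (XT.lf (nat_lit 0) (nat_lit 18432072698) (nat_lit 76) (nat_lit 399817871347) (nat_lit 76) (nat_lit 397945546202) (nat_lit 1) (nat_lit 4) (nat_lit 2) (nat_lit 5) (nat_lit 2) (nat_lit 4) (nat_lit 551) (nat_lit 365) (nat_lit 284)) (XT.lf (nat_lit 0) (nat_lit 35624098711) (nat_lit 76) (nat_lit 411427981816) (nat_lit 76) (nat_lit 409553909821) (nat_lit 1) (nat_lit 4) (nat_lit 2) (nat_lit 5) (nat_lit 2) (nat_lit 4) (nat_lit 552) (nat_lit 365) (nat_lit 283))))))))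
noncomputable def xc29 : XT := (XT.nd (nat_lit 2418) (nat_lit 532) (nat_lit 0) (XT.nd (nat_lit 1170) (nat_lit 608) (nat_lit 0) (XT.nd (nat_lit 546) (nat_lit 608) (nat_lit 0) (XT.nd (nat_lit 234) (nat_lit 304) (nat_lit 0) (XT.nd (nat_lit 78) (nat_lit 152) (nat_lit 0) (XT.lf (nat_lit 0) (nat_lit 1581243490) (nat_lit 76) (nat_lit 5026242249) (nat_lit 76) (nat_lit 5026242249) (nat_lit 31) (nat_lit 4) (nat_lit 32) (nat_lit 5) (nat_lit 32) (nat_lit 4) (nat_lit 468) (nat_lit 366) (nat_lit 366)) (XT.nd (nat_lit 78) (nat_lit 152) (nat_lit 0) (XT.lf (nat_lit 0) (nat_lit 21516388493) (nat_lit 76) (nat_lit 1307134622) (nat_lit 76) (nat_lit 1151655898) (nat_lit 31) (nat_lit 4) (nat_lit 32) (nat_lit 5) (nat_lit 32) (nat_lit 4) (nat_lit 469) (nat_lit 366) (nat_lit 365)) (XT.lf (nat_lit 0) (nat_lit 8012635576) (nat_lit 152) (nat_lit 8971687609) (nat_lit 0) (nat_lit 7723536816) (nat_lit 29) (nat_lit 5) (nat_lit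 31) (nat_lit 4) (nat_lit 29) (nat_lit 4) (nat_lit 470) (nat_lit 366) (nat_lit 364)))) (XT.nd (nat_lit 156) (nat_lit 76) (nat_lit 0) (XT.nd (nat_lit 78) (nat_lit 152) (nat_lit 0) (XT.lf (nat_lit 0) (nat_lit 9118930459) (nat_lit 76) (nat_lit 8392480925) (nat_lit 76) (nat_lit 7969073797) (nat_lit 28) (nat_lit 4) (nat_lit 29) (nat_lit 5) (nat_lit 29) (nat_lit 4) (nat_lit 471) (nat_lit 366) (nat_lit 363)) (XT.lf (nat_lit 0) (nat_lit 1051968999) (nat_lit 152) (nat_lit 24717102043) (nat_lit 0) (nat_lit 526902467) (nat_lit 26) (nat_lit 5) (nat_lit 28) (nat_lit 4) (nat_lit 26) (nat_lit 4) (nat_lit 472) (nat_lit 366) (nat_lit 362))) (XT.nd (nat_lit 78) (nat_lit 76) (nat_lit 0) (XT.lf (nat_lit 0) (nat_lit 10384926775) (nat_lit 152) (nat_lit 7010506420) (nat_lit 0) (nat_lit 9743839625) (nat_lit 26) (nat_lit 5) (nat_lit 28) (nat_lit 4) (nat_lit 26) (nat_lit 4) (nat_lit 473) (nat_lit 366) (nat_lit 361)) (XT.lf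 (nat_lit 0) (nat_lit 11390052531) (nat_lit 76) (nat_lit 8695606739) (nat_lit 76) (nat_lit 7944023764) (nat_lit 25) (nat_lit 4) (nat_lit 26) (nat_lit 5) (nat_lit 26) (nat_lit 4) (nat_lit 474) (nat_lit 366) (nat_lit 360))))) (XT.nd (nat_lit 312) (nat_lit 380) (nat_lit 0) (XT.nd (nat_lit 156) (nat_lit 76) (nat_lit 0) (XT.nd (nat_lit 78) (nat_lit 0) (nat_lit 0) (XT.lf (nat_lit 0) (nat_lit 1137165035) (nat_lit 152) (nat_lit 27511673053) (nat_lit 0) (nat_lit 321148754) (nat_lit 23) (nat_lit 5) (nat_lit 25) (nat_lit 4) (nat_lit 23) (nat_lit 4) (nat_lit 475) (nat_lit 366) (nat_lit 359)) (XT.lf (nat_lit 0) (nat_lit 10558212463) (nat_lit 152) (nat_lit 9738199596) (nat_lit 0) (nat_lit 9646745732) (nat_lit 23) (nat_lit 5) (nat_lit 25) (nat_lit 4) (nat_lit 23) (nat_lit 4) (nat_lit 476) (nat_lit 366) (nat_lit 358))) (XT.nd (nat_lit 78) (nat_lit 0) (nat_lit 0) (XT.lf (nat_lit 0) (nat_lit 8671559245) (nat_lit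 76) (nat_lit 11651092433) (nat_lit 76) (nat_lit 10648720513) (nat_lit 22) (nat_lit 4) (nat_lit 23) (nat_lit 5) (nat_lit 23) (nat_lit 4) (nat_lit 477) (nat_lit 366) (nat_lit 357)) (XT.lf (nat_lit 0) (nat_lit 27818509284) (nat_lit 76) (nat_lit 2663062576) (nat_lit 76) (nat_lit 1574114285) (nat_lit 22) (nat_lit 4) (nat_lit 23) (nat_lit 5) (nat_lit 23) (nat_lit 4) (nat_lit 478) (nat_lit 366) (nat_lit 356)))) (XT.nd (nat_lit 156) (nat_lit 228) (nat_lit 0) (XT.nd (nat_lit 78) (nat_lit 0) (nat_lit 0) (XT.lf (nat_lit 0) (nat_lit 7784222954) (nat_lit 152) (nat_lit 18730953780) (nat_lit 0) (nat_lit 6668602023) (nat_lit 20) (nat_lit 5) (nat_lit 22) (nat_lit 4) (nat_lit 20) (nat_lit 4) (nat_lit 479) (nat_lit 366) (nat_lit 355)) (XT.lf (nat_lit 0) (nat_lit 17424040931) (nat_lit 152) (nat_lit 715991058) (nat_lit 0) (nat_lit 16233632075) (nat_lit 20) (nat_lit 5) (nat_lit 22) (nat_lit 4) (nat_lit 20) (nat_lit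 4) (nat_lit 480) (nat_lit 366) (nat_lit 354))) (XT.nd (nat_lit 78) (nat_lit 152) (nat_lit 0) (XT.lf (nat_lit 0) (nat_lit 18304534627) (nat_lit 76) (nat_lit 9288883749) (nat_lit 76) (nat_lit 8027248299) (nat_lit 19) (nat_lit 4) (nat_lit 20) (nat_lit 5) (nat_lit 20) (nat_lit 4) (nat_lit 481) (nat_lit 366) (nat_lit 353)) (XT.lf (nat_lit 0) (nat_lit 897972468) (nat_lit 76) (nat_lit 188584980) (nat_lit 152) (nat_lit 35853004253) (nat_lit 17) (nat_lit 5) (nat_lit 18) (nat_lit 5) (nat_lit 19) (nat_lit 4) (nat_lit 482) (nat_lit 366) (nat_lit 352)))))) (XT.nd (nat_lit 624) (nat_lit 304) (nat_lit 0) (XT.nd (nat_lit 312) (nat_lit 228) (nat_lit 0) (XT.nd (nat_lit 156) (nat_lit 76) (nat_lit 0) (XT.nd (nat_lit 78) (nat_lit 0) (nat_lit 0) (XT.lf (nat_lit 0) (nat_lit 10592698797) (nat_lit 152) (nat_lit 18449795169) (nat_lit 0) (nat_lit 9265008394) (nat_lit 17) (nat_lit 5) (nat_lit 19) (nat_lit 4) (nat_lit 17)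 (nat_lit 4) (nat_lit 483) (nat_lit 366) (nat_lit 351)) (XT.lf (nat_lit 0) (nat_lit 20350674998) (nat_lit 152) (nat_lit 439953574) (nat_lit 0) (nat_lit 18964386299) (nat_lit 17) (nat_lit 5) (nat_lit 19) (nat_lit 4) (nat_lit 17) (nat_lit 4) (nat_lit 484) (nat_lit 366) (nat_lit 350))) (XT.nd (nat_lit 78) (nat_lit 0) (nat_lit 0) (XT.lf (nat_lit 0) (nat_lit 18630038029) (nat_lit 76) (nat_lit 12041604063) (nat_lit 76) (nat_lit 10599507463) (nat_lit 16) (nat_lit 4) (nat_lit 17) (nat_lit 5) (nat_lit 17) (nat_lit 4) (nat_lit 485) (nat_lit 366) (nat_lit 349)) (XT.lf (nat_lit 0) (nat_lit 38239226025) (nat_lit 76) (nat_lit 3064675415) (nat_lit 76) (nat_lit 1569428434) (nat_lit 16) (nat_lit 4) (nat_lit 17) (nat_lit 5) (nat_lit 17) (nat_lit 4) (nat_lit 486) (nat_lit 366) (nat_lit 348)))) (XT.nd (nat_lit 156) (nat_lit 76) (nat_lit 0) (XT.nd (nat_lit 78) (nat_lit 0) (nat_lit 0) (XT.lf (nat_lit 0) (nat_lit 7776697829)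 (nat_lit 152) (nat_lit 30462412625) (nat_lit 0) (nat_lit 6304444122) (nat_lit 14) (nat_lit 5) (nat_lit 16) (nat_lit 4) (nat_lit 14) (nat_lit 4) (nat_lit 487) (nat_lit 366) (nat_lit 347)) (XT.lf (nat_lit 0) (nat_lit 17462137427) (nat_lit 152) (nat_lit 12893659689) (nat_lit 0) (nat_lit 15943970421) (nat_lit 14) (nat_lit 5) (nat_lit 16) (nat_lit 4) (nat_lit 14) (nat_lit 4) (nat_lit 488) (nat_lit 366) (nat_lit 346))) (XT.nd (nat_lit 78) (nat_lit 0) (nat_lit 0) (XT.lf (nat_lit 0) (nat_lit 5327793171) (nat_lit 76) (nat_lit 22191753963) (nat_lit 76) (nat_lit 20629860008) (nat_lit 13) (nat_lit 4) (nat_lit 14) (nat_lit 5) (nat_lit 14) (nat_lit 4) (nat_lit 489) (nat_lit 366) (nat_lit 345)) (XT.lf (nat_lit 0) (nat_lit 24518088346) (nat_lit 76) (nat_lit 13587837493) (nat_lit 76) (nat_lit 11984298822) (nat_lit 13) (nat_lit 4) (nat_lit 14) (nat_lit 5) (nat_lit 14) (nat_lit 4) (nat_lit 490) (nat_lit 366) (nat_lit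 344))))) (XT.nd (nat_lit 312) (nat_lit 152) (nat_lit 0) (XT.nd (nat_lit 156) (nat_lit 0) (nat_lit 0) (XT.nd (nat_lit 78) (nat_lit 152) (nat_lit 0) (XT.lf (nat_lit 0) (nat_lit 44296594394) (nat_lit 76) (nat_lit 4741922555) (nat_lit 76) (nat_lit 3098722251) (nat_lit 13) (nat_lit 4) (nat_lit 14) (nat_lit 5) (nat_lit 14) (nat_lit 4) (nat_lit 491) (nat_lit 366) (nat_lit 343)) (XT.lf (nat_lit 0) (nat_lit 6093372161) (nat_lit 152) (nat_lit 43692839843) (nat_lit 0) (nat_lit 4492445221) (nat_lit 11) (nat_lit 5) (nat_lit 13) (nat_lit 4) (nat_lit 11) (nat_lit 4) (nat_lit 492) (nat_lit 366) (nat_lit 342))) (XT.nd (nat_lit 78) (nat_lit 0) (nat_lit 0) (XT.lf (nat_lit 0) (nat_lit 15676503551) (nat_lit 152) (nat_lit 26805009490) (nat_lit 0) (nat_lit 14041315400) (nat_lit 11) (nat_lit 5) (nat_lit 13) (nat_lit 4) (nat_lit 11) (nat_lit 4) (nat_lit 493) (nat_lit 366) (nat_lit 341)) (XT.lf (nat_lit 0) (nat_lit 25570097498)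 (nat_lit 152) (nat_lit 9415266469) (nat_lit 0) (nat_lit 23902279624) (nat_lit 11) (nat_lit 5) (nat_lit 13) (nat_lit 4) (nat_lit 11) (nat_lit 4) (nat_lit 494) (nat_lit 366) (nat_lit 340)))) (XT.nd (nat_lit 156) (nat_lit 76) (nat_lit 0) (XT.nd (nat_lit 78) (nat_lit 0) (nat_lit 0) (XT.lf (nat_lit 0) (nat_lit 8799430086) (nat_lit 76) (nat_lit 27135663857) (nat_lit 76) (nat_lit 25436770056) (nat_lit 10) (nat_lit 4) (nat_lit 11) (nat_lit 5) (nat_lit 11) (nat_lit 4) (nat_lit 495) (nat_lit 366) (nat_lit 339)) (XT.lf (nat_lit 0) (nat_lit 27930828740) (nat_lit 76) (nat_lit 18888942826) (nat_lit 76) (nat_lit 17160452904) (nat_lit 10) (nat_lit 4) (nat_lit 11) (nat_lit 5) (nat_lit 11) (nat_lit 4) (nat_lit 496) (nat_lit 366) (nat_lit 338))) (XT.nd (nat_lit 78) (nat_lit 76) (nat_lit 0) (XT.lf (nat_lit 0) (nat_lit 47713169211) (nat_lit 76) (nat_lit 10385017918) (nat_lit 76) (nat_lit 8628341213) (nat_lit 10)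 (nat_lit 4) (nat_lit 11) (nat_lit 5) (nat_lit 11) (nat_lit 4) (nat_lit 497) (nat_lit 366) (nat_lit 337)) (XT.lf (nat_lit 0) (nat_lit 174122296) (nat_lit 152) (nat_lit 1426570551) (nat_lit 76) (nat_lit 68016481168) (nat_lit 9) (nat_lit 5) (nat_lit 11) (nat_lit 5) (nat_lit 10) (nat_lit 4) (nat_lit 498) (nat_lit 366) (nat_lit 336))))))) (XT.nd (nat_lit 1170) (nat_lit 228) (nat_lit 0) (XT.nd (nat_lit 546) (nat_lit 152) (nat_lit 0) (XT.nd (nat_lit 234) (nat_lit 76) (nat_lit 0) (XT.nd (nat_lit 78) (nat_lit 0) (nat_lit 0) (XT.lf (nat_lit 0) (nat_lit 9379495380) (nat_lit 152) (nat_lit 55596592018) (nat_lit 0) (nat_lit 7656554902) (nat_lit 8) (nat_lit 5) (nat_lit 10) (nat_lit 4) (nat_lit 8) (nat_lit 4) (nat_lit 499) (nat_lit 366) (nat_lit 335)) (XT.nd (nat_lit 78) (nat_lit 0) (nat_lit 0) (XT.lf (nat_lit 0) (nat_lit 18957271047) (nat_lit 152) (nat_lit 39634865501) (nat_lit 0) (nat_lit 17211141233) (nat_lit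 8) (nat_lit 5) (nat_lit 10) (nat_lit 4) (nat_lit 8) (nat_lit 4) (nat_lit 500) (nat_lit 366) (nat_lit 334)) (XT.lf (nat_lit 0) (nat_lit 28881875820) (nat_lit 152) (nat_lit 23143511730) (nat_lit 0) (nat_lit 27113660925) (nat_lit 8) (nat_lit 5) (nat_lit 10) (nat_lit 4) (nat_lit 8) (nat_lit 4) (nat_lit 501) (nat_lit 366) (nat_lit 333)))) (XT.nd (nat_lit 156) (nat_lit 0) (nat_lit 0) (XT.nd (nat_lit 78) (nat_lit 76) (nat_lit 0) (XT.lf (nat_lit 0) (nat_lit 39176939712) (nat_lit 152) (nat_lit 6083265577) (nat_lit 0) (nat_lit 37387691406) (nat_lit 8) (nat_lit 5) (nat_lit 10) (nat_lit 4) (nat_lit 8) (nat_lit 4) (nat_lit 502) (nat_lit 366) (nat_lit 332)) (XT.lf (nat_lit 0) (nat_lit 11969594362) (nat_lit 76) (nat_lit 38084259328) (nat_lit 76) (nat_lit 36274979203) (nat_lit 7) (nat_lit 4) (nat_lit 8) (nat_lit 5) (nat_lit 8) (nat_lit 4) (nat_lit 503) (nat_lit 366) (nat_lit 331))) (XT.nd (nat_lit 78) (nat_lit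 0) (nat_lit 0) (XT.lf (nat_lit 0) (nat_lit 30896721677) (nat_lit 76) (nat_lit 30563096221) (nat_lit 76) (nat_lit 28734738172) (nat_lit 7) (nat_lit 4) (nat_lit 8) (nat_lit 5) (nat_lit 8) (nat_lit 4) (nat_lit 504) (nat_lit 366) (nat_lit 330)) (XT.lf (nat_lit 0) (nat_lit 50542040721) (nat_lit 76) (nat_lit 22781831482) (nat_lit 76) (nat_lit 20935303982) (nat_lit 7) (nat_lit 4) (nat_lit 8) (nat_lit 5) (nat_lit 8) (nat_lit 4) (nat_lit 505) (nat_lit 366) (nat_lit 329))))) (XT.nd (nat_lit 312) (nat_lit 0) (nat_lit 0) (XT.nd (nat_lit 156) (nat_lit 152) (nat_lit 0) (XT.nd (nat_lit 78) (nat_lit 0) (nat_lit 0) (XT.lf (nat_lit 0) (nat_lit 70952326064) (nat_lit 76) (nat_lit 14721938290) (nat_lit 76) (nat_lit 12858106551) (nat_lit 7) (nat_lit 4) (nat_lit 8) (nat_lit 5) (nat_lit 8) (nat_lit 4) (nat_lit 506) (nat_lit 366) (nat_lit 328)) (XT.lf (nat_lit 0) (nat_lit 92176173624) (nat_lit 76) (nat_lit 6364226424)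 (nat_lit 76) (nat_lit 4483914457) (nat_lit 7) (nat_lit 4) (nat_lit 8) (nat_lit 5) (nat_lit 8) (nat_lit 4) (nat_lit 507) (nat_lit 366) (nat_lit 327))) (XT.nd (nat_lit 78) (nat_lit 0) (nat_lit 0) (XT.lf (nat_lit 0) (nat_lit 4215497443) (nat_lit 152) (nat_lit 101109997058) (nat_lit 0) (nat_lit 2409776089) (nat_lit 5) (nat_lit 5) (nat_lit 7) (nat_lit 4) (nat_lit 5) (nat_lit 4) (nat_lit 508) (nat_lit 366) (nat_lit 326)) (XT.lf (nat_lit 0) (nat_lit 13391783015) (nat_lit 152) (nat_lit 87704861397) (nat_lit 0) (nat_lit 11571825420) (nat_lit 5) (nat_lit 5) (nat_lit 7) (nat_lit 4) (nat_lit 5) (nat_lit 4) (nat_lit 509) (nat_lit 366) (nat_lit 325)))) (XT.nd (nat_lit 156) (nat_lit 0) (nat_lit 0) (XT.nd (nat_lit 78) (nat_lit 0) (nat_lit 0) (XT.lf (nat_lit 0) (nat_lit 22933102037) (nat_lit 152) (nat_lit 73820330202) (nat_lit 0) (nat_lit 21099586119) (nat_lit 5) (nat_lit 5) (nat_lit 7) (nat_lit 4) (nat_lit 5)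 (nat_lit 4) (nat_lit 510) (nat_lit 366) (nat_lit 324)) (XT.lf (nat_lit 0) (nat_lit 32862171936) (nat_lit 152) (nat_lit 59423345066) (nat_lit 0) (nat_lit 31015743328) (nat_lit 5) (nat_lit 5) (nat_lit 7) (nat_lit 4) (nat_lit 5) (nat_lit 4) (nat_lit 511) (nat_lit 366) (nat_lit 323))) (XT.nd (nat_lit 78) (nat_lit 0) (nat_lit 0) (XT.lf (nat_lit 0) (nat_lit 43202633354) (nat_lit 152) (nat_lit 44479627454) (nat_lit 0) (nat_lit 41343906946) (nat_lit 5) (nat_lit 5) (nat_lit 7) (nat_lit 4) (nat_lit 5) (nat_lit 4) (nat_lit 512) (nat_lit 366) (nat_lit 322)) (XT.lf (nat_lit 0) (nat_lit 53979106437) (nat_lit 152) (nat_lit 28953597084) (nat_lit 0) (nat_lit 52108667839) (nat_lit 5) (nat_lit 5) (nat_lit 7) (nat_lit 4) (nat_lit 5) (nat_lit 4) (nat_lit 513) (nat_lit 366) (nat_lit 321)))))) (XT.nd (nat_lit 624) (nat_lit 152) (nat_lit 0) (XT.nd (nat_lit 312) (nat_lit 0) (nat_lit 0) (XT.nd (nat_lit 156) (nat_lit 0)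 (nat_lit 0) (XT.nd (nat_lit 78) (nat_lit 76) (nat_lit 0) (XT.lf (nat_lit 0) (nat_lit 65217249455) (nat_lit 152) (nat_lit 12808287218) (nat_lit 0) (nat_lit 63335656389) (nat_lit 5) (nat_lit 5) (nat_lit 7) (nat_lit 4) (nat_lit 5) (nat_lit 4) (nat_lit 514) (nat_lit 366) (nat_lit 320)) (XT.lf (nat_lit 0) (nat_lit 4126827613) (nat_lit 76) (nat_lit 72881423621) (nat_lit 76) (nat_lit 70989207254) (nat_lit 4) (nat_lit 4) (nat_lit 5) (nat_lit 5) (nat_lit 5) (nat_lit 4) (nat_lit 515) (nat_lit 366) (nat_lit 319))) (XT.nd (nat_lit 78) (nat_lit 0) (nat_lit 0) (XT.lf (nat_lit 0) (nat_lit 22206240226) (nat_lit 76) (nat_lit 67327199565) (nat_lit 76) (nat_lit 65424865768) (nat_lit 4) (nat_lit 4) (nat_lit 5) (nat_lit 5) (nat_lit 5) (nat_lit 4) (nat_lit 516) (nat_lit 366) (nat_lit 318)) (XT.lf (nat_lit 0) (nat_lit 41049497022) (nat_lit 76) (nat_lit 61566554704) (nat_lit 76) (nat_lit 59654585259) (nat_lit 4) (nat_lit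 4) (nat_lit 5) (nat_lit 5) (nat_lit 5) (nat_lit 4) (nat_lit 517) (nat_lit 366) (nat_lit 317)))) (XT.nd (nat_lit 156) (nat_lit 0) (nat_lit 0) (XT.nd (nat_lit 78) (nat_lit 0) (nat_lit 0) (XT.lf (nat_lit 0) (nat_lit 60701462897) (nat_lit 76) (nat_lit 55585773218) (nat_lit 76) (nat_lit 53664626965) (nat_lit 4) (nat_lit 4) (nat_lit 5) (nat_lit 5) (nat_lit 5) (nat_lit 4) (nat_lit 518) (nat_lit 366) (nat_lit 316)) (XT.lf (nat_lit 0) (nat_lit 81208928247) (nat_lit 76) (nat_lit 49370615149) (nat_lit 76) (nat_lit 47440729080) (nat_lit 4) (nat_lit 4) (nat_lit 5) (nat_lit 5) (nat_lit 5) (nat_lit 4) (nat_lit 519) (nat_lit 366) (nat_lit 315))) (XT.nd (nat_lit 78) (nat_lit 0) (nat_lit 0) (XT.lf (nat_lit 0) (nat_lit 102620720370) (nat_lit 76) (nat_lit 42906282503) (nat_lit 76) (nat_lit 40968072799) (nat_lit 4) (nat_lit 4) (nat_lit 5) (nat_lit 5) (nat_lit 5) (nat_lit 4) (nat_lit 520) (nat_lit 366) (nat_lit 314))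 (XT.lf (nat_lit 0) (nat_lit 124987819723) (nat_lit 76) (nat_lit 36177384011) (nat_lit 76) (nat_lit 34231247035) (nat_lit 4) (nat_lit 4) (nat_lit 5) (nat_lit 5) (nat_lit 5) (nat_lit 4) (nat_lit 521) (nat_lit 366) (nat_lit 313))))) (XT.nd (nat_lit 312) (nat_lit 152) (nat_lit 0) (XT.nd (nat_lit 156) (nat_lit 0) (nat_lit 0) (XT.nd (nat_lit 78) (nat_lit 0) (nat_lit 0) (XT.lf (nat_lit 0) (nat_lit 148363481305) (nat_lit 76) (nat_lit 29167898486) (nat_lit 76) (nat_lit 27214211729) (nat_lit 4) (nat_lit 4) (nat_lit 5) (nat_lit 5) (nat_lit 5) (nat_lit 4) (nat_lit 522) (nat_lit 366) (nat_lit 312)) (XT.lf (nat_lit 0) (nat_lit 172803361453) (nat_lit 76) (nat_lit 21861136678) (nat_lit 76) (nat_lit 19900259652) (nat_lit 4) (nat_lit 4) (nat_lit 5) (nat_lit 5) (nat_lit 5) (nat_lit 4) (nat_lit 523) (nat_lit 366) (nat_lit 311))) (XT.nd (nat_lit 78) (nat_lit 0) (nat_lit 0) (XT.lf (nat_lit 0) (nat_lit 198365650357)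 (nat_lit 76) (nat_lit 14239701535) (nat_lit 76) (nat_lit 12271976633) (nat_lit 4) (nat_lit 4) (nat_lit 5) (nat_lit 5) (nat_lit 5) (nat_lit 4) (nat_lit 524) (nat_lit 366) (nat_lit 310)) (XT.lf (nat_lit 0) (nat_lit 225111210611) (nat_lit 76) (nat_lit 6285446781) (nat_lit 76) (nat_lit 4311200094) (nat_lit 4) (nat_lit 4) (nat_lit 5) (nat_lit 5) (nat_lit 5) (nat_lit 4) (nat_lit 525) (nat_lit 366) (nat_lit 309)))) (XT.nd (nat_lit 156) (nat_lit 0) (nat_lit 0) (XT.nd (nat_lit 78) (nat_lit 0) (nat_lit 0) (XT.lf (nat_lit 0) (nat_lit 4003227734) (nat_lit 152) (nat_lit 240952190139) (nat_lit 0) (nat_lit 2117077342) (nat_lit 2) (nat_lit 5) (nat_lit 4) (nat_lit 4) (nat_lit 2) (nat_lit 4) (nat_lit 526) (nat_lit 366) (nat_lit 308)) (XT.lf (nat_lit 0) (nat_lit 12828853306) (nat_lit 152) (nat_lit 235223890672) (nat_lit 0) (nat_lit 10937069150) (nat_lit 2) (nat_lit 5) (nat_lit 4) (nat_lit 4) (nat_lit 2) (nat_lit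 4) (nat_lit 527) (nat_lit 366) (nat_lit 307))) (XT.nd (nat_lit 78) (nat_lit 0) (nat_lit 0) (XT.lf (nat_lit 0) (nat_lit 22052826381) (nat_lit 152) (nat_lit 229296640620) (nat_lit 0) (nat_lit 20155676736) (nat_lit 2) (nat_lit 5) (nat_lit 4) (nat_lit 4) (nat_lit 2) (nat_lit 4) (nat_lit 528) (nat_lit 366) (nat_lit 306)) (XT.lf (nat_lit 0) (nat_lit 31697108800) (nat_lit 152) (nat_lit 223156327483) (nat_lit 0) (nat_lit 29794849165) (nat_lit 2) (nat_lit 5) (nat_lit 4) (nat_lit 4) (nat_lit 2) (nat_lit 4) (nat_lit 529) (nat_lit 366) (nat_lit 305))))))))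
noncomputable def xc30 : XT := (XT.nd (nat_lit 58110) (nat_lit 0) (nat_lit 456) (XT.nd (nat_lit 1170) (nat_lit 76) (nat_lit 0) (XT.nd (nat_lit 546) (nat_lit 0) (nat_lit 0) (XT.nd (nat_lit 234) (nat_lit 0) (nat_lit 0) (XT.nd (nat_lit 78) (nat_lit 0) (nat_lit 0) (XT.lf (nat_lit 0) (nat_lit 41784663138) (nat_lit 152) (nat_lit 216788331468) (nat_lit 0) (nat_lit 39877536847) (nat_lit 2) (nat_lit 5) (nat_lit 4) (nat_lit 4) (nat_lit 2) (nat_lit 4) (nat_lit 530) (nat_lit 366) (nat_lit 304)) (XT.nd (nat_lit 78) (nat_lit 0) (nat_lit 0) (XT.lf (nat_lit 0) (nat_lit 52339507384) (nat_lit 152) (nat_lit 210177490680) (nat_lit 0) (nat_lit 50427746181) (nat_lit 2) (nat_lit 5) (nat_lit 4) (nat_lit 4) (nat_lit 2) (nat_lit 4) (nat_lit 531) (nat_lit 366) (nat_lit 303)) (XT.lf (nat_lit 0) (nat_lit 63386772119) (nat_lit 152) (nat_lit 203308065021) (nat_lit 0) (nat_lit 61470596714) (nat_lit 2) (nat_lit 5) (nat_lit 4)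 (nat_lit 4) (nat_lit 2) (nat_lit 4) (nat_lit 532) (nat_lit 366) (nat_lit 302)))) (XT.nd (nat_lit 156) (nat_lit 0) (nat_lit 0) (XT.nd (nat_lit 78) (nat_lit 0) (nat_lit 0) (XT.lf (nat_lit 0) (nat_lit 74952760353) (nat_lit 152) (nat_lit 196163698717) (nat_lit 0) (nat_lit 73032380948) (nat_lit 2) (nat_lit 5) (nat_lit 4) (nat_lit 4) (nat_lit 2) (nat_lit 4) (nat_lit 533) (nat_lit 366) (nat_lit 301)) (XT.lf (nat_lit 0) (nat_lit 87065010155) (nat_lit 152) (nat_lit 188727381371) (nat_lit 0) (nat_lit 85140626939) (nat_lit 2) (nat_lit 5) (nat_lit 4) (nat_lit 4) (nat_lit 2) (nat_lit 4) (nat_lit 534) (nat_lit 366) (nat_lit 300))) (XT.nd (nat_lit 78) (nat_lit 0) (nat_lit 0) (XT.lf (nat_lit 0) (nat_lit 99752360214) (nat_lit 152) (nat_lit 180981407465) (nat_lit 0) (nat_lit 97824163844) (nat_lit 2) (nat_lit 5) (nat_lit 4) (nat_lit 4) (nat_lit 2) (nat_lit 4) (nat_lit 535) (nat_lit 366) (nat_lit 299)) (XT.lf (nat_lit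 0) (nat_lit 113045018506) (nat_lit 152) (nat_lit 172907334205) (nat_lit 0) (nat_lit 111113190562) (nat_lit 2) (nat_lit 5) (nat_lit 4) (nat_lit 4) (nat_lit 2) (nat_lit 4) (nat_lit 536) (nat_lit 366) (nat_lit 298))))) (XT.nd (nat_lit 312) (nat_lit 0) (nat_lit 0) (XT.nd (nat_lit 156) (nat_lit 0) (nat_lit 0) (XT.nd (nat_lit 78) (nat_lit 0) (nat_lit 0) (XT.lf (nat_lit 0) (nat_lit 126974634218) (nat_lit 152) (nat_lit 164485937607) (nat_lit 0) (nat_lit 125039347632) (nat_lit 2) (nat_lit 5) (nat_lit 4) (nat_lit 4) (nat_lit 2) (nat_lit 4) (nat_lit 537) (nat_lit 366) (nat_lit 297)) (XT.lf (nat_lit 0) (nat_lit 141574373101) (nat_lit 152) (nat_lit 155697166726) (nat_lit 0) (nat_lit 139635792570) (nat_lit 2) (nat_lit 5) (nat_lit 4) (nat_lit 4) (nat_lit 2) (nat_lit 4) (nat_lit 538) (nat_lit 366) (nat_lit 296))) (XT.nd (nat_lit 78) (nat_lit 0) (nat_lit 0) (XT.lf (nat_lit 0) (nat_lit 156878996440) (nat_lit 152)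 (nat_lit 146520095918) (nat_lit 0) (nat_lit 154937278818) (nat_lit 2) (nat_lit 5) (nat_lit 4) (nat_lit 4) (nat_lit 2) (nat_lit 4) (nat_lit 539) (nat_lit 366) (nat_lit 295)) (XT.lf (nat_lit 0) (nat_lit 172924943812) (nat_lit 152) (nat_lit 136932875013) (nat_lit 0) (nat_lit 170980238485) (nat_lit 2) (nat_lit 5) (nat_lit 4) (nat_lit 4) (nat_lit 2) (nat_lit 4) (nat_lit 540) (nat_lit 366) (nat_lit 294)))) (XT.nd (nat_lit 156) (nat_lit 0) (nat_lit 0) (XT.nd (nat_lit 78) (nat_lit 0) (nat_lit 0) (XT.lf (nat_lit 0) (nat_lit 189750419855) (nat_lit 152) (nat_lit 126912677297) (nat_lit 0) (nat_lit 187802869094) (nat_lit 2) (nat_lit 5) (nat_lit 4) (nat_lit 4) (nat_lit 2) (nat_lit 4) (nat_lit 541) (nat_lit 366) (nat_lit 293)) (XT.lf (nat_lit 0) (nat_lit 207395485225) (nat_lit 152) (nat_lit 116435645154) (nat_lit 0) (nat_lit 205445224528) (nat_lit 2) (nat_lit 5) (nat_lit 4) (nat_lit 4) (nat_lit 2) (nat_lit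 4) (nat_lit 542) (nat_lit 366) (nat_lit 292))) (XT.nd (nat_lit 78) (nat_lit 0) (nat_lit 0) (XT.lf (nat_lit 0) (nat_lit 225902151984) (nat_lit 152) (nat_lit 105476833270) (nat_lit 0) (nat_lit 223949310395) (nat_lit 2) (nat_lit 5) (nat_lit 4) (nat_lit 4) (nat_lit 2) (nat_lit 4) (nat_lit 543) (nat_lit 366) (nat_lit 291)) (XT.lf (nat_lit 0) (nat_lit 245314483623) (nat_lit 152) (nat_lit 94010149236) (nat_lit 0) (nat_lit 243359184042) (nat_lit 2) (nat_lit 5) (nat_lit 4) (nat_lit 4) (nat_lit 2) (nat_lit 4) (nat_lit 544) (nat_lit 366) (nat_lit 290)))))) (XT.nd (nat_lit 56316) (nat_lit 0) (nat_lit 1900) (XT.nd (nat_lit 312) (nat_lit 76) (nat_lit 0) (XT.nd (nat_lit 156) (nat_lit 0) (nat_lit 0) (XT.nd (nat_lit 78) (nat_lit 0) (nat_lit 0) (XT.lf (nat_lit 0) (nat_lit 265678699981) (nat_lit 152) (nat_lit 82008291424) (nat_lit 0) (nat_lit 263721059454) (nat_lit 2) (nat_lit 5) (nat_lit 4) (nat_lit 4) (nat_lit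 2) (nat_lit 4) (nat_lit 545) (nat_lit 366) (nat_lit 289)) (XT.lf (nat_lit 0) (nat_lit 287043287285) (nat_lit 152) (nat_lit 69442683980) (nat_lit 0) (nat_lit 285083417287) (nat_lit 2) (nat_lit 5) (nat_lit 4) (nat_lit 4) (nat_lit 2) (nat_lit 4) (nat_lit 546) (nat_lit 366) (nat_lit 288))) (XT.nd (nat_lit 78) (nat_lit 0) (nat_lit 0) (XT.lf (nat_lit 0) (nat_lit 309459113601) (nat_lit 152) (nat_lit 56283408794) (nat_lit 0) (nat_lit 307497120297) (nat_lit 2) (nat_lit 5) (nat_lit 4) (nat_lit 4) (nat_lit 2) (nat_lit 4) (nat_lit 547) (nat_lit 366) (nat_lit 287)) (XT.lf (nat_lit 0) (nat_lit 332979549945) (nat_lit 152) (nat_lit 42499134256) (nat_lit 0) (nat_lit 331015534444) (nat_lit 2) (nat_lit 5) (nat_lit 4) (nat_lit 4) (nat_lit 2) (nat_lit 4) (nat_lit 548) (nat_lit 366) (nat_lit 286)))) (XT.nd (nat_lit 156) (nat_lit 76) (nat_lit 0) (XT.nd (nat_lit 78) (nat_lit 0) (nat_lit 0) (XT.lf (nat_lit 0) (nat_lit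 357660597355) (nat_lit 152) (nat_lit 28057040666) (nat_lit 0) (nat_lit 355694655953) (nat_lit 2) (nat_lit 5) (nat_lit 4) (nat_lit 4) (nat_lit 2) (nat_lit 4) (nat_lit 549) (nat_lit 366) (nat_lit 285)) (XT.lf (nat_lit 0) (nat_lit 383561020230) (nat_lit 152) (nat_lit 12922742086) (nat_lit 0) (nat_lit 381593244635) (nat_lit 2) (nat_lit 5) (nat_lit 4) (nat_lit 4) (nat_lit 2) (nat_lit 4) (nat_lit 550) (nat_lit 366) (nat_lit 284))) (XT.nd (nat_lit 78) (nat_lit 0) (nat_lit 0) (XT.lf (nat_lit 0) (nat_lit 3036998443) (nat_lit 76) (nat_lit 407752903856) (nat_lit 76) (nat_lit 405783381412) (nat_lit 1) (nat_lit 4) (nat_lit 2) (nat_lit 5) (nat_lit 2) (nat_lit 4) (nat_lit 551) (nat_lit 366) (nat_lit 283)) (XT.lf (nat_lit 0) (nat_lit 20215357818) (nat_lit 76) (nat_lit 419369973740) (nat_lit 76) (nat_lit 417398787631) (nat_lit 1) (nat_lit 4) (nat_lit 2) (nat_lit 5) (nat_lit 2) (nat_lit 4) (nat_lit 552) (nat_lit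 366) (nat_lit 282))))) (XT.nd (nat_lit 312) (nat_lit 380) (nat_lit 0) (XT.nd (nat_lit 156) (nat_lit 76) (nat_lit 0) (XT.nd (nat_lit 78) (nat_lit 152) (nat_lit 0) (XT.lf (nat_lit 0) (nat_lit 6359429099) (nat_lit 76) (nat_lit 2306992611) (nat_lit 76) (nat_lit 2306992611) (nat_lit 34) (nat_lit 4) (nat_lit 35) (nat_lit 5) (nat_lit 35) (nat_lit 4) (nat_lit 466) (nat_lit 367) (nat_lit 367)) (XT.lf (nat_lit 0) (nat_lit 4172796243) (nat_lit 152) (nat_lit 14413818585) (nat_lit 0) (nat_lit 4009543583) (nat_lit 32) (nat_lit 5) (nat_lit 34) (nat_lit 4) (nat_lit 32) (nat_lit 4) (nat_lit 467) (nat_lit 367) (nat_lit 366))) (XT.nd (nat_lit 78) (nat_lit 0) (nat_lit 0) (XT.lf (nat_lit 0) (nat_lit 2869006704) (nat_lit 76) (nat_lit 10362264924) (nat_lit 76) (nat_lit 10043533540) (nat_lit 31) (nat_lit 4) (nat_lit 32) (nat_lit 5) (nat_lit 32) (nat_lit 4) (nat_lit 468) (nat_lit 367) (nat_lit 365)) (XT.lf (nat_lit 0)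 (nat_lit 20943403190) (nat_lit 76) (nat_lit 1756465299) (nat_lit 76) (nat_lit 1289658941) (nat_lit 31) (nat_lit 4) (nat_lit 32) (nat_lit 5) (nat_lit 32) (nat_lit 4) (nat_lit 469) (nat_lit 367) (nat_lit 364)))) (XT.nd (nat_lit 156) (nat_lit 152) (nat_lit 0) (XT.nd (nat_lit 78) (nat_lit 76) (nat_lit 0) (XT.lf (nat_lit 0) (nat_lit 7720380886) (nat_lit 152) (nat_lit 9868375010) (nat_lit 0) (nat_lit 7141495035) (nat_lit 29) (nat_lit 5) (nat_lit 31) (nat_lit 4) (nat_lit 29) (nat_lit 4) (nat_lit 470) (nat_lit 367) (nat_lit 363)) (XT.lf (nat_lit 0) (nat_lit 7912745292) (nat_lit 76) (nat_lit 9152317687) (nat_lit 76) (nat_lit 8445519105) (nat_lit 28) (nat_lit 4) (nat_lit 29) (nat_lit 5) (nat_lit 29) (nat_lit 4) (nat_lit 471) (nat_lit 367) (nat_lit 362))) (XT.nd (nat_lit 78) (nat_lit 0) (nat_lit 0) (XT.lf (nat_lit 0) (nat_lit 38366666) (nat_lit 76) (nat_lit 384553770) (nat_lit 152) (nat_lit 25911915699)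 (nat_lit 26) (nat_lit 5) (nat_lit 27) (nat_lit 5) (nat_lit 28) (nat_lit 4) (nat_lit 472) (nat_lit 367) (nat_lit 361)) (XT.lf (nat_lit 0) (nat_lit 9614896783) (nat_lit 152) (nat_lit 8855050014) (nat_lit 0) (nat_lit 8715238833) (nat_lit 26) (nat_lit 5) (nat_lit 28) (nat_lit 4) (nat_lit 26) (nat_lit 4) (nat_lit 473) (nat_lit 367) (nat_lit 360))))))) (XT.nd (nat_lit 1170) (nat_lit 532) (nat_lit 0) (XT.nd (nat_lit 546) (nat_lit 456) (nat_lit 0) (XT.nd (nat_lit 234) (nat_lit 228) (nat_lit 0) (XT.nd (nat_lit 78) (nat_lit 152) (nat_lit 0) (XT.lf (nat_lit 0) (nat_lit 9217713740) (nat_lit 76) (nat_lit 9935449273) (nat_lit 76) (nat_lit 8930557203) (nat_lit 25) (nat_lit 4) (nat_lit 26) (nat_lit 5) (nat_lit 26) (nat_lit 4) (nat_lit 474) (nat_lit 367) (nat_lit 359)) (XT.nd (nat_lit 78) (nat_lit 76) (nat_lit 0) (XT.lf (nat_lit 0) (nat_lit 25704917) (nat_lit 152) (nat_lit 1052419961) (nat_lit 76) (nat_lit 27954495330)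 (nat_lit 24) (nat_lit 5) (nat_lit 26) (nat_lit 5) (nat_lit 25) (nat_lit 4) (nat_lit 475) (nat_lit 367) (nat_lit 358)) (XT.lf (nat_lit 0) (nat_lit 9284350946) (nat_lit 152) (nat_lit 12588605953) (nat_lit 0) (nat_lit 8140955241) (nat_lit 23) (nat_lit 5) (nat_lit 25) (nat_lit 4) (nat_lit 23) (nat_lit 4) (nat_lit 476) (nat_lit 367) (nat_lit 357)))) (XT.nd (nat_lit 156) (nat_lit 152) (nat_lit 0) (XT.nd (nat_lit 78) (nat_lit 0) (nat_lit 0) (XT.lf (nat_lit 0) (nat_lit 5472571412) (nat_lit 76) (nat_lit 13404067811) (nat_lit 76) (nat_lit 12174095734) (nat_lit 22) (nat_lit 4) (nat_lit 23) (nat_lit 5) (nat_lit 23) (nat_lit 4) (nat_lit 477) (nat_lit 367) (nat_lit 356)) (XT.lf (nat_lit 0) (nat_lit 24377298435) (nat_lit 76) (nat_lit 4538092741) (nat_lit 76) (nat_lit 3225666978) (nat_lit 22) (nat_lit 4) (nat_lit 23) (nat_lit 5) (nat_lit 23) (nat_lit 4) (nat_lit 478) (nat_lit 367) (nat_lit 355))) (XT.nd (nat_lit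 78) (nat_lit 0) (nat_lit 0) (XT.lf (nat_lit 0) (nat_lit 5976429617) (nat_lit 152) (nat_lit 22652753809) (nat_lit 0) (nat_lit 4651712394) (nat_lit 20) (nat_lit 5) (nat_lit 22) (nat_lit 4) (nat_lit 20) (nat_lit 4) (nat_lit 479) (nat_lit 367) (nat_lit 354)) (XT.lf (nat_lit 0) (nat_lit 15500044416) (nat_lit 152) (nat_lit 4872446986) (nat_lit 0) (nat_lit 14104100598) (nat_lit 20) (nat_lit 5) (nat_lit 22) (nat_lit 4) (nat_lit 20) (nat_lit 4) (nat_lit 480) (nat_lit 367) (nat_lit 353))))) (XT.nd (nat_lit 312) (nat_lit 228) (nat_lit 0) (XT.nd (nat_lit 156) (nat_lit 152) (nat_lit 0) (XT.nd (nat_lit 78) (nat_lit 0) (nat_lit 0) (XT.lf (nat_lit 0) (nat_lit 13779776368) (nat_lit 76) (nat_lit 11708331645) (nat_lit 76) (nat_lit 10244552975) (nat_lit 19) (nat_lit 4) (nat_lit 20) (nat_lit 5) (nat_lit 20) (nat_lit 4) (nat_lit 481) (nat_lit 367) (nat_lit 352)) (XT.lf (nat_lit 0) (nat_lit 33083022856) (nat_lit 76)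 (nat_lit 2751962335) (nat_lit 76) (nat_lit 1223579044) (nat_lit 19) (nat_lit 4) (nat_lit 20) (nat_lit 5) (nat_lit 20) (nat_lit 4) (nat_lit 482) (nat_lit 367) (nat_lit 351))) (XT.nd (nat_lit 78) (nat_lit 0) (nat_lit 0) (XT.lf (nat_lit 0) (nat_lit 8106011247) (nat_lit 152) (nat_lit 23740425257) (nat_lit 0) (nat_lit 6591809817) (nat_lit 17) (nat_lit 5) (nat_lit 19) (nat_lit 4) (nat_lit 17) (nat_lit 4) (nat_lit 483) (nat_lit 367) (nat_lit 350)) (XT.lf (nat_lit 0) (nat_lit 17758731340) (nat_lit 152) (nat_lit 5943568850) (nat_lit 0) (nat_lit 16188722009) (nat_lit 17) (nat_lit 5) (nat_lit 19) (nat_lit 4) (nat_lit 17) (nat_lit 4) (nat_lit 484) (nat_lit 367) (nat_lit 349)))) (XT.nd (nat_lit 156) (nat_lit 152) (nat_lit 0) (XT.nd (nat_lit 78) (nat_lit 0) (nat_lit 0) (XT.lf (nat_lit 0) (nat_lit 12734898434) (nat_lit 76) (nat_lit 15152516436) (nat_lit 76) (nat_lit 13529356724) (nat_lit 16) (nat_lit 4) (nat_lit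 17) (nat_lit 5) (nat_lit 17) (nat_lit 4) (nat_lit 485) (nat_lit 367) (nat_lit 348)) (XT.lf (nat_lit 0) (nat_lit 32144515056) (nat_lit 76) (nat_lit 6276572902) (nat_lit 76) (nat_lit 4602793778) (nat_lit 16) (nat_lit 4) (nat_lit 17) (nat_lit 5) (nat_lit 17) (nat_lit 4) (nat_lit 486) (nat_lit 367) (nat_lit 347))) (XT.nd (nat_lit 78) (nat_lit 0) (nat_lit 0) (XT.lf (nat_lit 0) (nat_lit 4587765267) (nat_lit 152) (nat_lit 37173565678) (nat_lit 0) (nat_lit 2947776614) (nat_lit 14) (nat_lit 5) (nat_lit 16) (nat_lit 4) (nat_lit 14) (nat_lit 4) (nat_lit 487) (nat_lit 367) (nat_lit 346)) (XT.lf (nat_lit 0) (nat_lit 14177846986) (nat_lit 152) (nat_lit 19798110487) (nat_lit 0) (nat_lit 12494131382) (nat_lit 14) (nat_lit 5) (nat_lit 16) (nat_lit 4) (nat_lit 14) (nat_lit 4) (nat_lit 488) (nat_lit 367) (nat_lit 345)))))) (XT.nd (nat_lit 624) (nat_lit 228) (nat_lit 0) (XT.nd (nat_lit 312) (nat_lit 76) (nat_lit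 0) (XT.nd (nat_lit 156) (nat_lit 152) (nat_lit 0) (XT.nd (nat_lit 78) (nat_lit 76) (nat_lit 0) (XT.lf (nat_lit 0) (nat_lit 24061257884) (nat_lit 152) (nat_lit 1931273370) (nat_lit 0) (nat_lit 22335897565) (nat_lit 14) (nat_lit 5) (nat_lit 16) (nat_lit 4) (nat_lit 14) (nat_lit 4) (nat_lit 489) (nat_lit 367) (nat_lit 344)) (XT.lf (nat_lit 0) (nat_lit 17014041338) (nat_lit 76) (nat_lit 17513125421) (nat_lit 76) (nat_lit 15748103469) (nat_lit 13) (nat_lit 4) (nat_lit 14) (nat_lit 5) (nat_lit 14) (nat_lit 4) (nat_lit 490) (nat_lit 367) (nat_lit 343))) (XT.nd (nat_lit 78) (nat_lit 152) (nat_lit 0) (XT.lf (nat_lit 0) (nat_lit 36620048486) (nat_lit 76) (nat_lit 8754642472) (nat_lit 76) (nat_lit 6951847536) (nat_lit 13) (nat_lit 4) (nat_lit 14) (nat_lit 5) (nat_lit 14) (nat_lit 4) (nat_lit 491) (nat_lit 367) (nat_lit 342)) (XT.lf (nat_lit 0) (nat_lit 2085568614) (nat_lit 152) (nat_lit 52064936425) (nat_lit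 0) (nat_lit 334359846) (nat_lit 11) (nat_lit 5) (nat_lit 13) (nat_lit 4) (nat_lit 11) (nat_lit 4) (nat_lit 492) (nat_lit 367) (nat_lit 341)))) (XT.nd (nat_lit 156) (nat_lit 76) (nat_lit 0) (XT.nd (nat_lit 78) (nat_lit 0) (nat_lit 0) (XT.lf (nat_lit 0) (nat_lit 11586410241) (nat_lit 152) (nat_lit 35344168925) (nat_lit 0) (nat_lit 9802571750) (nat_lit 11) (nat_lit 5) (nat_lit 13) (nat_lit 4) (nat_lit 11) (nat_lit 4) (nat_lit 493) (nat_lit 367) (nat_lit 340)) (XT.lf (nat_lit 0) (nat_lit 21401632987) (nat_lit 152) (nat_lit 18113533383) (nat_lit 0) (nat_lit 19586718568) (nat_lit 11) (nat_lit 5) (nat_lit 13) (nat_lit 4) (nat_lit 11) (nat_lit 4) (nat_lit 494) (nat_lit 367) (nat_lit 339))) (XT.nd (nat_lit 78) (nat_lit 76) (nat_lit 0) (XT.lf (nat_lit 0) (nat_lit 31554606429) (nat_lit 152) (nat_lit 332004477) (nat_lit 0) (nat_lit 29710095889) (nat_lit 11) (nat_lit 5) (nat_lit 13) (nat_lit 4) (nat_lit 11)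 (nat_lit 4) (nat_lit 495) (nat_lit 367) (nat_lit 338)) (XT.lf (nat_lit 0) (nat_lit 18639329723) (nat_lit 76) (nat_lit 23721186763) (nat_lit 76) (nat_lit 21848489441) (nat_lit 10) (nat_lit 4) (nat_lit 11) (nat_lit 5) (nat_lit 11) (nat_lit 4) (nat_lit 496) (nat_lit 367) (nat_lit 337))))) (XT.nd (nat_lit 312) (nat_lit 76) (nat_lit 0) (XT.nd (nat_lit 156) (nat_lit 152) (nat_lit 0) (XT.nd (nat_lit 78) (nat_lit 0) (nat_lit 0) (XT.lf (nat_lit 0) (nat_lit 38279682684) (nat_lit 76) (nat_lit 15289332552) (nat_lit 76) (nat_lit 13389790675) (nat_lit 10) (nat_lit 4) (nat_lit 11) (nat_lit 5) (nat_lit 11) (nat_lit 4) (nat_lit 497) (nat_lit 367) (nat_lit 336)) (XT.lf (nat_lit 0) (nat_lit 58624839583) (nat_lit 76) (nat_lit 6576595085) (nat_lit 76) (nat_lit 4651486966) (nat_lit 10) (nat_lit 4) (nat_lit 11) (nat_lit 5) (nat_lit 11) (nat_lit 4) (nat_lit 498) (nat_lit 367) (nat_lit 335))) (XT.nd (nat_lit 78) (nat_lit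 0) (nat_lit 0) (XT.lf (nat_lit 0) (nat_lit 4396754132) (nat_lit 152) (nat_lit 65950439096) (nat_lit 0) (nat_lit 2540128493) (nat_lit 8) (nat_lit 5) (nat_lit 10) (nat_lit 4) (nat_lit 8) (nat_lit 4) (nat_lit 499) (nat_lit 367) (nat_lit 334)) (XT.lf (nat_lit 0) (nat_lit 13910110444) (nat_lit 152) (nat_lit 50119668224) (nat_lit 0) (nat_lit 12031399723) (nat_lit 8) (nat_lit 5) (nat_lit 10) (nat_lit 4) (nat_lit 8) (nat_lit 4) (nat_lit 500) (nat_lit 367) (nat_lit 333)))) (XT.nd (nat_lit 156) (nat_lit 76) (nat_lit 0) (XT.nd (nat_lit 78) (nat_lit 0) (nat_lit 0) (XT.lf (nat_lit 0) (nat_lit 23773363451) (nat_lit 152) (nat_lit 33753034115) (nat_lit 0) (nat_lit 21873619320) (nat_lit 8) (nat_lit 5) (nat_lit 10) (nat_lit 4) (nat_lit 8) (nat_lit 4) (nat_lit 501) (nat_lit 367) (nat_lit 332)) (XT.lf (nat_lit 0) (nat_lit 34009997090) (nat_lit 152) (nat_lit 16811568592) (nat_lit 0) (nat_lit 32090221138) (nat_lit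 8) (nat_lit 5) (nat_lit 10) (nat_lit 4) (nat_lit 8) (nat_lit 4) (nat_lit 502) (nat_lit 367) (nat_lit 331))) (XT.nd (nat_lit 78) (nat_lit 0) (nat_lit 0) (XT.lf (nat_lit 0) (nat_lit 769700386) (nat_lit 76) (nat_lit 43886701089) (nat_lit 76) (nat_lit 41947847214) (nat_lit 7) (nat_lit 4) (nat_lit 8) (nat_lit 5) (nat_lit 8) (nat_lit 4) (nat_lit 503) (nat_lit 367) (nat_lit 330)) (XT.lf (nat_lit 0) (nat_lit 19585527878) (nat_lit 76) (nat_lit 36422102140) (nat_lit 76) (nat_lit 34465078814) (nat_lit 7) (nat_lit 4) (nat_lit 8) (nat_lit 5) (nat_lit 8) (nat_lit 4) (nat_lit 504) (nat_lit 367) (nat_lit 329))))))))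
noncomputable def xc31 : XT := (XT.nd (nat_lit 2418) (nat_lit 76) (nat_lit 0) (XT.nd (nat_lit 1170) (nat_lit 152) (nat_lit 0) (XT.nd (nat_lit 546) (nat_lit 76) (nat_lit 0) (XT.nd (nat_lit 234) (nat_lit 152) (nat_lit 0) (XT.nd (nat_lit 78) (nat_lit 0) (nat_lit 0) (XT.lf (nat_lit 0) (nat_lit 39124847092) (nat_lit 76) (nat_lit 28694708027) (nat_lit 76) (nat_lit 26720380462) (nat_lit 7) (nat_lit 4) (nat_lit 8) (nat_lit 5) (nat_lit 8) (nat_lit 4) (nat_lit 505) (nat_lit 367) (nat_lit 328)) (XT.nd (nat_lit 78) (nat_lit 0) (nat_lit 0) (XT.lf (nat_lit 0) (nat_lit 59434180215) (nat_lit 76) (nat_lit 20686120194) (nat_lit 76) (nat_lit 18695312401) (nat_lit 7) (nat_lit 4) (nat_lit 8) (nat_lit 5) (nat_lit 8) (nat_lit 4) (nat_lit 506) (nat_lit 367) (nat_lit 327)) (XT.lf (nat_lit 0) (nat_lit 80561882804) (nat_lit 76) (nat_lit 12377270574) (nat_lit 76) (nat_lit 10370767326) (nat_lit 7) (nat_lit 4) (nat_lit 8)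 (nat_lit 5) (nat_lit 8) (nat_lit 4) (nat_lit 507) (nat_lit 367) (nat_lit 326)))) (XT.nd (nat_lit 156) (nat_lit 0) (nat_lit 0) (XT.nd (nat_lit 78) (nat_lit 152) (nat_lit 0) (XT.lf (nat_lit 0) (nat_lit 102558258911) (nat_lit 76) (nat_lit 3748376192) (nat_lit 76) (nat_lit 1726924892) (nat_lit 7) (nat_lit 4) (nat_lit 8) (nat_lit 5) (nat_lit 8) (nat_lit 4) (nat_lit 508) (nat_lit 367) (nat_lit 325)) (XT.lf (nat_lit 0) (nat_lit 7310604624) (nat_lit 152) (nat_lit 100295349695) (nat_lit 0) (nat_lit 5371854585) (nat_lit 5) (nat_lit 5) (nat_lit 7) (nat_lit 4) (nat_lit 5) (nat_lit 4) (nat_lit 509) (nat_lit 367) (nat_lit 324))) (XT.nd (nat_lit 78) (nat_lit 0) (nat_lit 0) (XT.lf (nat_lit 0) (nat_lit 16808355317) (nat_lit 152) (nat_lit 86499488071) (nat_lit 0) (nat_lit 14856692588) (nat_lit 5) (nat_lit 5) (nat_lit 7) (nat_lit 4) (nat_lit 5) (nat_lit 4) (nat_lit 510) (nat_lit 367) (nat_lit 323)) (XT.lf (nat_lit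 0) (nat_lit 26695931569) (nat_lit 152) (nat_lit 72186950145) (nat_lit 0) (nat_lit 24731971041) (nat_lit 5) (nat_lit 5) (nat_lit 7) (nat_lit 4) (nat_lit 5) (nat_lit 4) (nat_lit 511) (nat_lit 367) (nat_lit 322))))) (XT.nd (nat_lit 312) (nat_lit 76) (nat_lit 0) (XT.nd (nat_lit 156) (nat_lit 0) (nat_lit 0) (XT.nd (nat_lit 78) (nat_lit 0) (nat_lit 0) (XT.lf (nat_lit 0) (nat_lit 36996875228) (nat_lit 152) (nat_lit 57323658446) (nat_lit 0) (nat_lit 35021202509) (nat_lit 5) (nat_lit 5) (nat_lit 7) (nat_lit 4) (nat_lit 5) (nat_lit 4) (nat_lit 512) (nat_lit 367) (nat_lit 321)) (XT.lf (nat_lit 0) (nat_lit 47735712350) (nat_lit 152) (nat_lit 41874224184) (nat_lit 0) (nat_lit 45748885165) (nat_lit 5) (nat_lit 5) (nat_lit 7) (nat_lit 4) (nat_lit 5) (nat_lit 4) (nat_lit 513) (nat_lit 367) (nat_lit 320))) (XT.nd (nat_lit 78) (nat_lit 0) (nat_lit 0) (XT.lf (nat_lit 0) (nat_lit 58938011595) (nat_lit 152) (nat_lit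 25801862993) (nat_lit 0) (nat_lit 56940561108) (nat_lit 5) (nat_lit 5) (nat_lit 7) (nat_lit 4) (nat_lit 5) (nat_lit 4) (nat_lit 514) (nat_lit 367) (nat_lit 319)) (XT.lf (nat_lit 0) (nat_lit 70630445105) (nat_lit 152) (nat_lit 9068307346) (nat_lit 0) (nat_lit 68622877188) (nat_lit 5) (nat_lit 5) (nat_lit 7) (nat_lit 4) (nat_lit 5) (nat_lit 4) (nat_lit 515) (nat_lit 367) (nat_lit 318)))) (XT.nd (nat_lit 156) (nat_lit 0) (nat_lit 0) (XT.nd (nat_lit 78) (nat_lit 0) (nat_lit 0) (XT.lf (nat_lit 0) (nat_lit 8642911707) (nat_lit 76) (nat_lit 74332880372) (nat_lit 76) (nat_lit 72315676807) (nat_lit 4) (nat_lit 4) (nat_lit 5) (nat_lit 5) (nat_lit 5) (nat_lit 4) (nat_lit 516) (nat_lit 367) (nat_lit 317)) (XT.lf (nat_lit 0) (nat_lit 27421069107) (nat_lit 76) (nat_lit 68605355325) (nat_lit 76) (nat_lit 66578974952) (nat_lit 4) (nat_lit 4) (nat_lit 5) (nat_lit 5) (nat_lit 5) (nat_lit 4) (nat_lit 517) (nat_lit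 367) (nat_lit 316))) (XT.nd (nat_lit 78) (nat_lit 0) (nat_lit 0) (XT.lf (nat_lit 0) (nat_lit 47011035559) (nat_lit 76) (nat_lit 62656116517) (nat_lit 76) (nat_lit 60620996328) (nat_lit 4) (nat_lit 4) (nat_lit 5) (nat_lit 5) (nat_lit 5) (nat_lit 4) (nat_lit 518) (nat_lit 367) (nat_lit 315)) (XT.lf (nat_lit 0) (nat_lit 67459453838) (nat_lit 76) (nat_lit 56470999095) (nat_lit 76) (nat_lit 54427555271) (nat_lit 4) (nat_lit 4) (nat_lit 5) (nat_lit 5) (nat_lit 5) (nat_lit 4) (nat_lit 519) (nat_lit 367) (nat_lit 314)))))) (XT.nd (nat_lit 624) (nat_lit 0) (nat_lit 0) (XT.nd (nat_lit 312) (nat_lit 152) (nat_lit 0) (XT.nd (nat_lit 156) (nat_lit 0) (nat_lit 0) (XT.nd (nat_lit 78) (nat_lit 0) (nat_lit 0) (XT.lf (nat_lit 0) (nat_lit 88815010655) (nat_lit 76) (nat_lit 50035276589) (nat_lit 76) (nat_lit 47983905493) (nat_lit 4) (nat_lit 4) (nat_lit 5) (nat_lit 5) (nat_lit 5) (nat_lit 4) (nat_lit 520) (nat_lit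 367) (nat_lit 313)) (XT.lf (nat_lit 0) (nat_lit 111128552575) (nat_lit 76) (nat_lit 43333625849) (nat_lit 76) (nat_lit 41274704971) (nat_lit 4) (nat_lit 4) (nat_lit 5) (nat_lit 5) (nat_lit 5) (nat_lit 4) (nat_lit 521) (nat_lit 367) (nat_lit 312))) (XT.nd (nat_lit 78) (nat_lit 0) (nat_lit 0) (XT.lf (nat_lit 0) (nat_lit 134453207077) (nat_lit 76) (nat_lit 36350090565) (nat_lit 76) (nat_lit 34283979419) (nat_lit 4) (nat_lit 4) (nat_lit 5) (nat_lit 5) (nat_lit 5) (nat_lit 4) (nat_lit 522) (nat_lit 367) (nat_lit 311)) (XT.lf (nat_lit 0) (nat_lit 158844509054) (nat_lit 76) (nat_lit 29068043271) (nat_lit 76) (nat_lit 26995084250) (nat_lit 4) (nat_lit 4) (nat_lit 5) (nat_lit 5) (nat_lit 5) (nat_lit 4) (nat_lit 523) (nat_lit 367) (nat_lit 310)))) (XT.nd (nat_lit 156) (nat_lit 152) (nat_lit 0) (XT.nd (nat_lit 78) (nat_lit 0) (nat_lit 0) (XT.lf (nat_lit 0) (nat_lit 184360533034) (nat_lit 76) (nat_lit 21470145761)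 (nat_lit 76) (nat_lit 19390664953) (nat_lit 4) (nat_lit 4) (nat_lit 5) (nat_lit 5) (nat_lit 5) (nat_lit 4) (nat_lit 524) (nat_lit 367) (nat_lit 309)) (XT.lf (nat_lit 0) (nat_lit 211062031455) (nat_lit 76) (nat_lit 13538307800) (nat_lit 76) (nat_lit 11452615768) (nat_lit 4) (nat_lit 4) (nat_lit 5) (nat_lit 5) (nat_lit 5) (nat_lit 4) (nat_lit 525) (nat_lit 367) (nat_lit 308))) (XT.nd (nat_lit 78) (nat_lit 152) (nat_lit 0) (XT.lf (nat_lit 0) (nat_lit 239012579313) (nat_lit 76) (nat_lit 5253644062) (nat_lit 76) (nat_lit 3162036578) (nat_lit 4) (nat_lit 4) (nat_lit 5) (nat_lit 5) (nat_lit 5) (nat_lit 4) (nat_lit 526) (nat_lit 367) (nat_lit 307)) (XT.lf (nat_lit 0) (nat_lit 5523864521) (nat_lit 152) (nat_lit 250309736378) (nat_lit 0) (nat_lit 3526491904) (nat_lit 2) (nat_lit 5) (nat_lit 4) (nat_lit 4) (nat_lit 2) (nat_lit 4) (nat_lit 527) (nat_lit 367) (nat_lit 306))))) (XT.nd (nat_lit 312) (nat_lit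 0) (nat_lit 0) (XT.nd (nat_lit 156) (nat_lit 0) (nat_lit 0) (XT.nd (nat_lit 78) (nat_lit 0) (nat_lit 0) (XT.lf (nat_lit 0) (nat_lit 14727891591) (nat_lit 152) (nat_lit 244423120188) (nat_lit 0) (nat_lit 12725408984) (nat_lit 2) (nat_lit 5) (nat_lit 4) (nat_lit 4) (nat_lit 2) (nat_lit 4) (nat_lit 528) (nat_lit 367) (nat_lit 305)) (XT.lf (nat_lit 0) (nat_lit 24353177814) (nat_lit 152) (nat_lit 238321505968) (nat_lit 0) (nat_lit 22345828550) (nat_lit 2) (nat_lit 5) (nat_lit 4) (nat_lit 4) (nat_lit 2) (nat_lit 4) (nat_lit 529) (nat_lit 367) (nat_lit 304))) (XT.nd (nat_lit 78) (nat_lit 0) (nat_lit 0) (XT.lf (nat_lit 0) (nat_lit 34422640538) (nat_lit 152) (nat_lit 231990366064) (nat_lit 0) (nat_lit 32410656363) (nat_lit 2) (nat_lit 5) (nat_lit 4) (nat_lit 4) (nat_lit 2) (nat_lit 4) (nat_lit 530) (nat_lit 367) (nat_lit 303)) (XT.lf (nat_lit 0) (nat_lit 44960254675) (nat_lit 152) (nat_lit 225414626334)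 (nat_lit 0) (nat_lit 42943856299) (nat_lit 2) (nat_lit 5) (nat_lit 4) (nat_lit 4) (nat_lit 2) (nat_lit 4) (nat_lit 531) (nat_lit 367) (nat_lit 302)))) (XT.nd (nat_lit 156) (nat_lit 0) (nat_lit 0) (XT.nd (nat_lit 78) (nat_lit 0) (nat_lit 0) (XT.lf (nat_lit 0) (nat_lit 55991109782) (nat_lit 152) (nat_lit 218578630254) (nat_lit 0) (nat_lit 53970507404) (nat_lit 2) (nat_lit 5) (nat_lit 4) (nat_lit 4) (nat_lit 2) (nat_lit 4) (nat_lit 532) (nat_lit 367) (nat_lit 301)) (XT.lf (nat_lit 0) (nat_lit 67541469799) (nat_lit 152) (nat_lit 211466101644) (nat_lit 0) (nat_lit 65516863611) (nat_lit 2) (nat_lit 5) (nat_lit 4) (nat_lit 4) (nat_lit 2) (nat_lit 4) (nat_lit 533) (nat_lit 367) (nat_lit 300))) (XT.nd (nat_lit 78) (nat_lit 0) (nat_lit 0) (XT.lf (nat_lit 0) (nat_lit 79638835585) (nat_lit 152) (nat_lit 204060105911) (nat_lit 0) (nat_lit 77610416244) (nat_lit 2) (nat_lit 5) (nat_lit 4) (nat_lit 4) (nat_lit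 2) (nat_lit 4) (nat_lit 534) (nat_lit 367) (nat_lit 299)) (XT.lf (nat_lit 0) (nat_lit 92312010390) (nat_lit 152) (nat_lit 196343009733) (nat_lit 0) (nat_lit 90279959475) (nat_lit 2) (nat_lit 5) (nat_lit 4) (nat_lit 4) (nat_lit 2) (nat_lit 4) (nat_lit 535) (nat_lit 367) (nat_lit 298))))))) (XT.nd (nat_lit 1248) (nat_lit 76) (nat_lit 0) (XT.nd (nat_lit 624) (nat_lit 0) (nat_lit 0) (XT.nd (nat_lit 312) (nat_lit 0) (nat_lit 0) (XT.nd (nat_lit 156) (nat_lit 0) (nat_lit 0) (XT.nd (nat_lit 78) (nat_lit 0) (nat_lit 0) (XT.lf (nat_lit 0) (nat_lit 105591168441) (nat_lit 152) (nat_lit 188296439070) (nat_lit 0) (nat_lit 103555658883) (nat_lit 2) (nat_lit 5) (nat_lit 4) (nat_lit 4) (nat_lit 2) (nat_lit 4) (nat_lit 536) (nat_lit 367) (nat_lit 297)) (XT.lf (nat_lit 0) (nat_lit 119507926780) (nat_lit 152) (nat_lit 179901235422) (nat_lit 0) (nat_lit 117469123278) (nat_lit 2) (nat_lit 5) (nat_lit 4) (nat_lit 4)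 (nat_lit 2) (nat_lit 4) (nat_lit 537) (nat_lit 367) (nat_lit 296))) (XT.nd (nat_lit 78) (nat_lit 0) (nat_lit 0) (XT.lf (nat_lit 0) (nat_lit 134095420547) (nat_lit 152) (nat_lit 171137410208) (nat_lit 0) (nat_lit 132053479954) (nat_lit 2) (nat_lit 5) (nat_lit 4) (nat_lit 4) (nat_lit 2) (nat_lit 4) (nat_lit 538) (nat_lit 367) (nat_lit 295)) (XT.lf (nat_lit 0) (nat_lit 149388381869) (nat_lit 152) (nat_lit 161984097177) (nat_lit 0) (nat_lit 147343453571) (nat_lit 2) (nat_lit 5) (nat_lit 4) (nat_lit 4) (nat_lit 2) (nat_lit 4) (nat_lit 539) (nat_lit 367) (nat_lit 294)))) (XT.nd (nat_lit 156) (nat_lit 0) (nat_lit 0) (XT.nd (nat_lit 78) (nat_lit 0) (nat_lit 0) (XT.lf (nat_lit 0) (nat_lit 165423222559) (nat_lit 152) (nat_lit 152419502728) (nat_lit 0) (nat_lit 163375448828) (nat_lit 2) (nat_lit 5) (nat_lit 4) (nat_lit 4) (nat_lit 2) (nat_lit 4) (nat_lit 540) (nat_lit 367) (nat_lit 293)) (XT.lf (nat_lit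 0) (nat_lit 182238120810) (nat_lit 152) (nat_lit 142420854016) (nat_lit 0) (nat_lit 180187637141) (nat_lit 2) (nat_lit 5) (nat_lit 4) (nat_lit 4) (nat_lit 2) (nat_lit 4) (nat_lit 541) (nat_lit 367) (nat_lit 292))) (XT.nd (nat_lit 78) (nat_lit 0) (nat_lit 0) (XT.lf (nat_lit 0) (nat_lit 199873112092) (nat_lit 152) (nat_lit 131964344734) (nat_lit 0) (nat_lit 197820047532) (nat_lit 2) (nat_lit 5) (nat_lit 4) (nat_lit 4) (nat_lit 2) (nat_lit 4) (nat_lit 542) (nat_lit 367) (nat_lit 291)) (XT.lf (nat_lit 0) (nat_lit 218370184482) (nat_lit 152) (nat_lit 121025078433) (nat_lit 0) (nat_lit 216314661929) (nat_lit 2) (nat_lit 5) (nat_lit 4) (nat_lit 4) (nat_lit 2) (nat_lit 4) (nat_lit 543) (nat_lit 367) (nat_lit 290))))) (XT.nd (nat_lit 312) (nat_lit 0) (nat_lit 0) (XT.nd (nat_lit 156) (nat_lit 0) (nat_lit 0) (XT.nd (nat_lit 78) (nat_lit 0) (nat_lit 0) (XT.lf (nat_lit 0) (nat_lit 237773378626) (nat_lit 152)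 (nat_lit 109577009240) (nat_lit 0) (nat_lit 235715515128) (nat_lit 2) (nat_lit 5) (nat_lit 4) (nat_lit 4) (nat_lit 2) (nat_lit 4) (nat_lit 544) (nat_lit 367) (nat_lit 289)) (XT.lf (nat_lit 0) (nat_lit 258128892608) (nat_lit 152) (nat_lit 97592879847) (nat_lit 0) (nat_lit 256068799638) (nat_lit 2) (nat_lit 5) (nat_lit 4) (nat_lit 4) (nat_lit 2) (nat_lit 4) (nat_lit 545) (nat_lit 367) (nat_lit 288))) (XT.nd (nat_lit 78) (nat_lit 0) (nat_lit 0) (XT.lf (nat_lit 0) (nat_lit 279485191935) (nat_lit 152) (nat_lit 85044156613) (nat_lit 0) (nat_lit 277422975659) (nat_lit 2) (nat_lit 5) (nat_lit 4) (nat_lit 4) (nat_lit 2) (nat_lit 4) (nat_lit 546) (nat_lit 367) (nat_lit 287)) (XT.lf (nat_lit 0) (nat_lit 301893124940) (nat_lit 152) (nat_lit 71900961625) (nat_lit 0) (nat_lit 299828886467) (nat_lit 2) (nat_lit 5) (nat_lit 4) (nat_lit 4) (nat_lit 2) (nat_lit 4) (nat_lit 547) (nat_lit 367) (nat_lit 286)))) (XT.nd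 (nat_lit 156) (nat_lit 0) (nat_lit 0) (XT.nd (nat_lit 78) (nat_lit 0) (nat_lit 0) (XT.lf (nat_lit 0) (nat_lit 325406043844) (nat_lit 152) (nat_lit 58132001563) (nat_lit 0) (nat_lit 323339879470) (nat_lit 2) (nat_lit 5) (nat_lit 4) (nat_lit 4) (nat_lit 2) (nat_lit 4) (nat_lit 548) (nat_lit 367) (nat_lit 285)) (XT.lf (nat_lit 0) (nat_lit 350079931788) (nat_lit 152) (nat_lit 43704493187) (nat_lit 0) (nat_lit 348011933222) (nat_lit 2) (nat_lit 5) (nat_lit 4) (nat_lit 4) (nat_lit 2) (nat_lit 4) (nat_lit 549) (nat_lit 367) (nat_lit 284))) (XT.nd (nat_lit 78) (nat_lit 0) (nat_lit 0) (XT.lf (nat_lit 0) (nat_lit 375973536123) (nat_lit 152) (nat_lit 28584085288) (nat_lit 0) (nat_lit 373903790708) (nat_lit 2) (nat_lit 5) (nat_lit 4) (nat_lit 4) (nat_lit 2) (nat_lit 4) (nat_lit 550) (nat_lit 367) (nat_lit 283)) (XT.lf (nat_lit 0) (nat_lit 403148508289) (nat_lit 152) (nat_lit 12734776894) (nat_lit 0) (nat_lit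 401077099208) (nat_lit 2) (nat_lit 5) (nat_lit 4) (nat_lit 4) (nat_lit 2) (nat_lit 4) (nat_lit 551) (nat_lit 367) (nat_lit 282)))))) (XT.nd (nat_lit 56160) (nat_lit 0) (nat_lit 1596) (XT.nd (nat_lit 55848) (nat_lit 0) (nat_lit 2128) (XT.nd (nat_lit 55692) (nat_lit 0) (nat_lit 2508) (XT.nd (nat_lit 55614) (nat_lit 0) (nat_lit 2736) (XT.lf (nat_lit 0) (nat_lit 4009497399) (nat_lit 76) (nat_lit 427722652692) (nat_lit 76) (nat_lit 425649659167) (nat_lit 1) (nat_lit 4) (nat_lit 2) (nat_lit 5) (nat_lit 2) (nat_lit 4) (nat_lit 552) (nat_lit 367) (nat_lit 281)) (XT.lf (nat_lit 0) (nat_lit 10096396668) (nat_lit 76) (nat_lit 134614355) (nat_lit 76) (nat_lit 134614355) (nat_lit 37) (nat_lit 4) (nat_lit 38) (nat_lit 5) (nat_lit 38) (nat_lit 4) (nat_lit 464) (nat_lit 368) (nat_lit 368))) (XT.nd (nat_lit 78) (nat_lit 76) (nat_lit 0) (XT.lf (nat_lit 0) (nat_lit 8375462718) (nat_lit 152) (nat_lit 4755077810)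 (nat_lit 0) (nat_lit 8195476661) (nat_lit 35) (nat_lit 5) (nat_lit 37) (nat_lit 4) (nat_lit 35) (nat_lit 4) (nat_lit 465) (nat_lit 368) (nat_lit 367)) (XT.lf (nat_lit 0) (nat_lit 12439751635) (nat_lit 76) (nat_lit 4932748282) (nat_lit 76) (nat_lit 4581346931) (nat_lit 34) (nat_lit 4) (nat_lit 35) (nat_lit 5) (nat_lit 35) (nat_lit 4) (nat_lit 466) (nat_lit 368) (nat_lit 366)))) (XT.nd (nat_lit 156) (nat_lit 152) (nat_lit 0) (XT.nd (nat_lit 78) (nat_lit 76) (nat_lit 0) (XT.lf (nat_lit 0) (nat_lit 4052352089) (nat_lit 152) (nat_lit 14996197089) (nat_lit 0) (nat_lit 3562205412) (nat_lit 32) (nat_lit 5) (nat_lit 34) (nat_lit 4) (nat_lit 32) (nat_lit 4) (nat_lit 467) (nat_lit 368) (nat_lit 365)) (XT.lf (nat_lit 0) (nat_lit 1987867111) (nat_lit 76) (nat_lit 10973612388) (nat_lit 76) (nat_lit 10335390736) (nat_lit 31) (nat_lit 4) (nat_lit 32) (nat_lit 5) (nat_lit 32) (nat_lit 4) (nat_lit 468) (nat_lit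 368) (nat_lit 364))) (XT.nd (nat_lit 78) (nat_lit 152) (nat_lit 0) (XT.lf (nat_lit 0) (nat_lit 19796068335) (nat_lit 76) (nat_lit 2500717766) (nat_lit 76) (nat_lit 1721472329) (nat_lit 31) (nat_lit 4) (nat_lit 32) (nat_lit 5) (nat_lit 32) (nat_lit 4) (nat_lit 469) (nat_lit 368) (nat_lit 363)) (XT.lf (nat_lit 0) (nat_lit 7136226804) (nat_lit 152) (nat_lit 11365226012) (nat_lit 0) (nat_lit 6266175562) (nat_lit 29) (nat_lit 5) (nat_lit 31) (nat_lit 4) (nat_lit 29) (nat_lit 4) (nat_lit 470) (nat_lit 368) (nat_lit 362))))) (XT.nd (nat_lit 312) (nat_lit 228) (nat_lit 0) (XT.nd (nat_lit 156) (nat_lit 228) (nat_lit 0) (XT.nd (nat_lit 78) (nat_lit 0) (nat_lit 0) (XT.lf (nat_lit 0) (nat_lit 6099878558) (nat_lit 76) (nat_lit 10223905661) (nat_lit 76) (nat_lit 9232032771) (nat_lit 28) (nat_lit 4) (nat_lit 29) (nat_lit 5) (nat_lit 29) (nat_lit 4) (nat_lit 471) (nat_lit 368) (nat_lit 361)) (XT.lf (nat_lit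 0) (nat_lit 24312458763) (nat_lit 76) (nat_lit 1591104980) (nat_lit 76) (nat_lit 483211472) (nat_lit 28) (nat_lit 4) (nat_lit 29) (nat_lit 5) (nat_lit 29) (nat_lit 4) (nat_lit 472) (nat_lit 368) (nat_lit 360))) (XT.nd (nat_lit 78) (nat_lit 76) (nat_lit 0) (XT.lf (nat_lit 0) (nat_lit 8542837855) (nat_lit 152) (nat_lit 11321267706) (nat_lit 0) (nat_lit 7382467061) (nat_lit 26) (nat_lit 5) (nat_lit 28) (nat_lit 4) (nat_lit 26) (nat_lit 4) (nat_lit 473) (nat_lit 368) (nat_lit 359)) (XT.lf (nat_lit 0) (nat_lit 6415850558) (nat_lit 76) (nat_lit 11499080049) (nat_lit 76) (nat_lit 10238486284) (nat_lit 25) (nat_lit 4) (nat_lit 26) (nat_lit 5) (nat_lit 26) (nat_lit 4) (nat_lit 474) (nat_lit 368) (nat_lit 358)))) (XT.nd (nat_lit 156) (nat_lit 76) (nat_lit 0) (XT.nd (nat_lit 78) (nat_lit 152) (nat_lit 0) (XT.lf (nat_lit 0) (nat_lit 24936771251) (nat_lit 76) (nat_lit 2763815191) (nat_lit 76) (nat_lit 1407770976)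 (nat_lit 25) (nat_lit 4) (nat_lit 26) (nat_lit 5) (nat_lit 26) (nat_lit 4) (nat_lit 475) (nat_lit 368) (nat_lit 357)) (XT.lf (nat_lit 0) (nat_lit 7696274520) (nat_lit 152) (nat_lit 16086230095) (nat_lit 0) (nat_lit 6318227469) (nat_lit 23) (nat_lit 5) (nat_lit 25) (nat_lit 4) (nat_lit 23) (nat_lit 4) (nat_lit 476) (nat_lit 368) (nat_lit 356))) (XT.nd (nat_lit 78) (nat_lit 0) (nat_lit 0) (XT.lf (nat_lit 0) (nat_lit 1617077003) (nat_lit 76) (nat_lit 15494904271) (nat_lit 76) (nat_lit 14034403533) (nat_lit 22) (nat_lit 4) (nat_lit 23) (nat_lit 5) (nat_lit 23) (nat_lit 4) (nat_lit 477) (nat_lit 368) (nat_lit 355)) (XT.lf (nat_lit 0) (nat_lit 20291115438) (nat_lit 76) (nat_lit 6745171855) (nat_lit 76) (nat_lit 5206143797) (nat_lit 22) (nat_lit 4) (nat_lit 23) (nat_lit 5) (nat_lit 23) (nat_lit 4) (nat_lit 478) (nat_lit 368) (nat_lit 354))))))))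
noncomputable def xc32 : XT := (XT.nd (nat_lit 2418) (nat_lit 304) (nat_lit 0) (XT.nd (nat_lit 1170) (nat_lit 380) (nat_lit 0) (XT.nd (nat_lit 546) (nat_lit 380) (nat_lit 0) (XT.nd (nat_lit 234) (nat_lit 228) (nat_lit 0) (XT.nd (nat_lit 78) (nat_lit 76) (nat_lit 0) (XT.lf (nat_lit 0) (nat_lit 3840030099) (nat_lit 152) (nat_lit 27251688433) (nat_lit 0) (nat_lit 2303062496) (nat_lit 20) (nat_lit 5) (nat_lit 22) (nat_lit 4) (nat_lit 20) (nat_lit 4) (nat_lit 479) (nat_lit 368) (nat_lit 353)) (XT.nd (nat_lit 78) (nat_lit 76) (nat_lit 0) (XT.lf (nat_lit 0) (nat_lit 13252975206) (nat_lit 152) (nat_lit 9694863420) (nat_lit 0) (nat_lit 11648172751) (nat_lit 20) (nat_lit 5) (nat_lit 22) (nat_lit 4) (nat_lit 20) (nat_lit 4) (nat_lit 480) (nat_lit 368) (nat_lit 352)) (XT.lf (nat_lit 0) (nat_lit 8578031804) (nat_lit 76) (nat_lit 14476393481) (nat_lit 76) (nat_lit 12806986404) (nat_lit 19) (nat_lit 4) (nat_lit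 20) (nat_lit 5) (nat_lit 20) (nat_lit 4) (nat_lit 481) (nat_lit 368) (nat_lit 351)))) (XT.nd (nat_lit 156) (nat_lit 76) (nat_lit 0) (XT.nd (nat_lit 78) (nat_lit 152) (nat_lit 0) (XT.lf (nat_lit 0) (nat_lit 27671871374) (nat_lit 76) (nat_lit 5625780987) (nat_lit 76) (nat_lit 3894845700) (nat_lit 19) (nat_lit 4) (nat_lit 20) (nat_lit 5) (nat_lit 20) (nat_lit 4) (nat_lit 482) (nat_lit 368) (nat_lit 350)) (XT.lf (nat_lit 0) (nat_lit 5279214298) (nat_lit 152) (nat_lit 29732206484) (nat_lit 0) (nat_lit 3574896600) (nat_lit 17) (nat_lit 5) (nat_lit 19) (nat_lit 4) (nat_lit 17) (nat_lit 4) (nat_lit 483) (nat_lit 368) (nat_lit 349))) (XT.nd (nat_lit 78) (nat_lit 76) (nat_lit 0) (XT.lf (nat_lit 0) (nat_lit 14831690478) (nat_lit 152) (nat_lit 12138193113) (nat_lit 0) (nat_lit 13074222399) (nat_lit 17) (nat_lit 5) (nat_lit 19) (nat_lit 4) (nat_lit 17) (nat_lit 4) (nat_lit 484) (nat_lit 368) (nat_lit 348))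 (XT.lf (nat_lit 0) (nat_lit 6135880544) (nat_lit 76) (nat_lit 18625993910) (nat_lit 76) (nat_lit 16817906419) (nat_lit 16) (nat_lit 4) (nat_lit 17) (nat_lit 5) (nat_lit 17) (nat_lit 4) (nat_lit 485) (nat_lit 368) (nat_lit 347))))) (XT.nd (nat_lit 312) (nat_lit 228) (nat_lit 0) (XT.nd (nat_lit 156) (nat_lit 0) (nat_lit 0) (XT.nd (nat_lit 78) (nat_lit 152) (nat_lit 0) (XT.lf (nat_lit 0) (nat_lit 25355429191) (nat_lit 76) (nat_lit 9846226673) (nat_lit 76) (nat_lit 7989930220) (nat_lit 16) (nat_lit 4) (nat_lit 17) (nat_lit 5) (nat_lit 17) (nat_lit 4) (nat_lit 486) (nat_lit 368) (nat_lit 346)) (XT.lf (nat_lit 0) (nat_lit 263174708) (nat_lit 76) (nat_lit 793110394) (nat_lit 152) (nat_lit 43835809042) (nat_lit 14) (nat_lit 5) (nat_lit 15) (nat_lit 5) (nat_lit 16) (nat_lit 4) (nat_lit 487) (nat_lit 368) (nat_lit 345))) (XT.nd (nat_lit 78) (nat_lit 0) (nat_lit 0) (XT.lf (nat_lit 0) (nat_lit 10543167117)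 (nat_lit 152) (nat_lit 27425174658) (nat_lit 0) (nat_lit 8689894067) (nat_lit 14) (nat_lit 5) (nat_lit 16) (nat_lit 4) (nat_lit 14) (nat_lit 4) (nat_lit 488) (nat_lit 368) (nat_lit 344)) (XT.lf (nat_lit 0) (nat_lit 20340085608) (nat_lit 152) (nat_lit 9733664293) (nat_lit 0) (nat_lit 18447150925) (nat_lit 14) (nat_lit 5) (nat_lit 16) (nat_lit 4) (nat_lit 14) (nat_lit 4) (nat_lit 489) (nat_lit 368) (nat_lit 343)))) (XT.nd (nat_lit 156) (nat_lit 152) (nat_lit 0) (XT.nd (nat_lit 78) (nat_lit 0) (nat_lit 0) (XT.lf (nat_lit 0) (nat_lit 8781169233) (nat_lit 76) (nat_lit 21813913323) (nat_lit 76) (nat_lit 19883205656) (nat_lit 13) (nat_lit 4) (nat_lit 14) (nat_lit 5) (nat_lit 14) (nat_lit 4) (nat_lit 490) (nat_lit 368) (nat_lit 342)) (XT.lf (nat_lit 0) (nat_lit 28222891713) (nat_lit 76) (nat_lit 13138698934) (nat_lit 76) (nat_lit 11172016997) (nat_lit 13) (nat_lit 4) (nat_lit 14) (nat_lit 5) (nat_lit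 14) (nat_lit 4) (nat_lit 491) (nat_lit 368) (nat_lit 341))) (XT.nd (nat_lit 78) (nat_lit 152) (nat_lit 0) (XT.lf (nat_lit 0) (nat_lit 48315954060) (nat_lit 76) (nat_lit 4192295778) (nat_lit 76) (nat_lit 2191352631) (nat_lit 13) (nat_lit 4) (nat_lit 14) (nat_lit 5) (nat_lit 14) (nat_lit 4) (nat_lit 492) (nat_lit 368) (nat_lit 340)) (XT.lf (nat_lit 0) (nat_lit 7131151303) (nat_lit 152) (nat_lit 44636456664) (nat_lit 0) (nat_lit 5194415236) (nat_lit 11) (nat_lit 5) (nat_lit 13) (nat_lit 4) (nat_lit 11) (nat_lit 4) (nat_lit 493) (nat_lit 368) (nat_lit 339)))))) (XT.nd (nat_lit 624) (nat_lit 152) (nat_lit 0) (XT.nd (nat_lit 312) (nat_lit 152) (nat_lit 0) (XT.nd (nat_lit 156) (nat_lit 76) (nat_lit 0) (XT.nd (nat_lit 78) (nat_lit 0) (nat_lit 0) (XT.lf (nat_lit 0) (nat_lit 16871734809) (nat_lit 152) (nat_lit 27557352056) (nat_lit 0) (nat_lit 14905402621) (nat_lit 11) (nat_lit 5) (nat_lit 13) (nat_lit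 4) (nat_lit 11) (nat_lit 4) (nat_lit 494) (nat_lit 368) (nat_lit 338)) (XT.lf (nat_lit 0) (nat_lit 26953623261) (nat_lit 152) (nat_lit 9920138323) (nat_lit 0) (nat_lit 24959104291) (nat_lit 11) (nat_lit 5) (nat_lit 13) (nat_lit 4) (nat_lit 11) (nat_lit 4) (nat_lit 495) (nat_lit 368) (nat_lit 337))) (XT.nd (nat_lit 78) (nat_lit 0) (nat_lit 0) (XT.lf (nat_lit 0) (nat_lit 8592181360) (nat_lit 76) (nat_lit 28942787825) (nat_lit 76) (nat_lit 26921424300) (nat_lit 10) (nat_lit 4) (nat_lit 11) (nat_lit 5) (nat_lit 11) (nat_lit 4) (nat_lit 496) (nat_lit 368) (nat_lit 336)) (XT.lf (nat_lit 0) (nat_lit 28097308121) (nat_lit 76) (nat_lit 20579572372) (nat_lit 76) (nat_lit 18532642604) (nat_lit 10) (nat_lit 4) (nat_lit 11) (nat_lit 5) (nat_lit 11) (nat_lit 4) (nat_lit 497) (nat_lit 368) (nat_lit 335)))) (XT.nd (nat_lit 156) (nat_lit 152) (nat_lit 0) (XT.nd (nat_lit 78) (nat_lit 0) (nat_lit 0) (XT.lf (nat_lit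 0) (nat_lit 48313678163) (nat_lit 76) (nat_lit 11932205151) (nat_lit 76) (nat_lit 9860926582) (nat_lit 10) (nat_lit 4) (nat_lit 11) (nat_lit 5) (nat_lit 11) (nat_lit 4) (nat_lit 498) (nat_lit 368) (nat_lit 334)) (XT.lf (nat_lit 0) (nat_lit 69289425700) (nat_lit 76) (nat_lit 2980097193) (nat_lit 76) (nat_lit 885629288) (nat_lit 10) (nat_lit 4) (nat_lit 11) (nat_lit 5) (nat_lit 11) (nat_lit 4) (nat_lit 499) (nat_lit 368) (nat_lit 333))) (XT.nd (nat_lit 78) (nat_lit 0) (nat_lit 0) (XT.lf (nat_lit 0) (nat_lit 8484820691) (nat_lit 152) (nat_lit 61384386389) (nat_lit 0) (nat_lit 6469055942) (nat_lit 8) (nat_lit 5) (nat_lit 10) (nat_lit 4) (nat_lit 8) (nat_lit 4) (nat_lit 500) (nat_lit 368) (nat_lit 332)) (XT.lf (nat_lit 0) (nat_lit 18289643445) (nat_lit 152) (nat_lit 45136532910) (nat_lit 0) (nat_lit 16253846876) (nat_lit 8) (nat_lit 5) (nat_lit 10) (nat_lit 4) (nat_lit 8) (nat_lit 4) (nat_lit 501)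 (nat_lit 368) (nat_lit 331))))) (XT.nd (nat_lit 312) (nat_lit 76) (nat_lit 0) (XT.nd (nat_lit 156) (nat_lit 76) (nat_lit 0) (XT.nd (nat_lit 78) (nat_lit 0) (nat_lit 0) (XT.lf (nat_lit 0) (nat_lit 28470629223) (nat_lit 152) (nat_lit 28308191796) (nat_lit 0) (nat_lit 26415754730) (nat_lit 8) (nat_lit 5) (nat_lit 10) (nat_lit 4) (nat_lit 8) (nat_lit 4) (nat_lit 502) (nat_lit 368) (nat_lit 330)) (XT.lf (nat_lit 0) (nat_lit 39052018467) (nat_lit 152) (nat_lit 10859295570) (nat_lit 0) (nat_lit 36978974523) (nat_lit 8) (nat_lit 5) (nat_lit 10) (nat_lit 4) (nat_lit 8) (nat_lit 4) (nat_lit 503) (nat_lit 368) (nat_lit 329))) (XT.nd (nat_lit 78) (nat_lit 0) (nat_lit 0) (XT.lf (nat_lit 0) (nat_lit 7491474737) (nat_lit 76) (nat_lit 42684493139) (nat_lit 76) (nat_lit 40594144956) (nat_lit 7) (nat_lit 4) (nat_lit 8) (nat_lit 5) (nat_lit 8) (nat_lit 4) (nat_lit 504) (nat_lit 368) (nat_lit 328)) (XT.lf (nat_lit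 0) (nat_lit 26929841731) (nat_lit 76) (nat_lit 35008404385) (nat_lit 76) (nat_lit 32901575974) (nat_lit 7) (nat_lit 4) (nat_lit 8) (nat_lit 5) (nat_lit 8) (nat_lit 4) (nat_lit 505) (nat_lit 368) (nat_lit 327)))) (XT.nd (nat_lit 156) (nat_lit 76) (nat_lit 0) (XT.nd (nat_lit 78) (nat_lit 0) (nat_lit 0) (XT.lf (nat_lit 0) (nat_lit 47143029883) (nat_lit 76) (nat_lit 27048678798) (nat_lit 76) (nat_lit 24926154933) (nat_lit 7) (nat_lit 4) (nat_lit 8) (nat_lit 5) (nat_lit 8) (nat_lit 4) (nat_lit 506) (nat_lit 368) (nat_lit 326)) (XT.lf (nat_lit 0) (nat_lit 68179165832) (nat_lit 76) (nat_lit 18786364651) (nat_lit 76) (nat_lit 16648892733) (nat_lit 7) (nat_lit 4) (nat_lit 8) (nat_lit 5) (nat_lit 8) (nat_lit 4) (nat_lit 507) (nat_lit 368) (nat_lit 325))) (XT.nd (nat_lit 78) (nat_lit 76) (nat_lit 0) (XT.lf (nat_lit 0) (nat_lit 90088335617) (nat_lit 76) (nat_lit 10201789767) (nat_lit 76) (nat_lit 8050081609)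 (nat_lit 7) (nat_lit 4) (nat_lit 8) (nat_lit 5) (nat_lit 8) (nat_lit 4) (nat_lit 508) (nat_lit 368) (nat_lit 324)) (XT.lf (nat_lit 0) (nat_lit 862242179) (nat_lit 152) (nat_lit 397670014) (nat_lit 76) (nat_lit 112045859258) (nat_lit 6) (nat_lit 5) (nat_lit 8) (nat_lit 5) (nat_lit 7) (nat_lit 4) (nat_lit 509) (nat_lit 368) (nat_lit 323))))))) (XT.nd (nat_lit 1170) (nat_lit 152) (nat_lit 0) (XT.nd (nat_lit 546) (nat_lit 76) (nat_lit 0) (XT.nd (nat_lit 234) (nat_lit 0) (nat_lit 0) (XT.nd (nat_lit 78) (nat_lit 0) (nat_lit 0) (XT.lf (nat_lit 0) (nat_lit 10292309284) (nat_lit 152) (nat_lit 99985720612) (nat_lit 0) (nat_lit 8217852930) (nat_lit 5) (nat_lit 5) (nat_lit 7) (nat_lit 4) (nat_lit 5) (nat_lit 4) (nat_lit 510) (nat_lit 368) (nat_lit 322)) (XT.nd (nat_lit 78) (nat_lit 0) (nat_lit 0) (XT.lf (nat_lit 0) (nat_lit 20140367778) (nat_lit 152) (nat_lit 85753608600) (nat_lit 0) (nat_lit 18054199233)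 (nat_lit 5) (nat_lit 5) (nat_lit 7) (nat_lit 4) (nat_lit 5) (nat_lit 4) (nat_lit 511) (nat_lit 368) (nat_lit 321)) (XT.lf (nat_lit 0) (nat_lit 30403675476) (nat_lit 152) (nat_lit 70966913010) (nat_lit 0) (nat_lit 28306352464) (nat_lit 5) (nat_lit 5) (nat_lit 7) (nat_lit 4) (nat_lit 5) (nat_lit 4) (nat_lit 512) (nat_lit 368) (nat_lit 320)))) (XT.nd (nat_lit 156) (nat_lit 0) (nat_lit 0) (XT.nd (nat_lit 78) (nat_lit 0) (nat_lit 0) (XT.lf (nat_lit 0) (nat_lit 41106668826) (nat_lit 152) (nat_lit 55590427423) (nat_lit 0) (nat_lit 38998722513) (nat_lit 5) (nat_lit 5) (nat_lit 7) (nat_lit 4) (nat_lit 5) (nat_lit 4) (nat_lit 513) (nat_lit 368) (nat_lit 319)) (XT.lf (nat_lit 0) (nat_lit 52274831145) (nat_lit 152) (nat_lit 39587541161) (nat_lit 0) (nat_lit 50156767402) (nat_lit 5) (nat_lit 5) (nat_lit 7) (nat_lit 4) (nat_lit 5) (nat_lit 4) (nat_lit 514) (nat_lit 368) (nat_lit 318))) (XT.nd (nat_lit 78)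 (nat_lit 0) (nat_lit 0) (XT.lf (nat_lit 0) (nat_lit 63934753297) (nat_lit 152) (nat_lit 22920152112) (nat_lit 0) (nat_lit 61807053906) (nat_lit 5) (nat_lit 5) (nat_lit 7) (nat_lit 4) (nat_lit 5) (nat_lit 4) (nat_lit 515) (nat_lit 368) (nat_lit 317)) (XT.lf (nat_lit 0) (nat_lit 76114197000) (nat_lit 152) (nat_lit 5548576017) (nat_lit 0) (nat_lit 73977320801) (nat_lit 5) (nat_lit 5) (nat_lit 7) (nat_lit 4) (nat_lit 5) (nat_lit 4) (nat_lit 516) (nat_lit 368) (nat_lit 316))))) (XT.nd (nat_lit 312) (nat_lit 0) (nat_lit 0) (XT.nd (nat_lit 156) (nat_lit 0) (nat_lit 0) (XT.nd (nat_lit 78) (nat_lit 0) (nat_lit 0) (XT.lf (nat_lit 0) (nat_lit 12984120978) (nat_lit 76) (nat_lit 76060758468) (nat_lit 76) (nat_lit 73915142453) (nat_lit 4) (nat_lit 4) (nat_lit 5) (nat_lit 5) (nat_lit 5) (nat_lit 4) (nat_lit 517) (nat_lit 368) (nat_lit 315)) (XT.lf (nat_lit 0) (nat_lit 32515040358) (nat_lit 76) (nat_lit 70141560307)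 (nat_lit 76) (nat_lit 67987620657) (nat_lit 4) (nat_lit 4) (nat_lit 5) (nat_lit 5) (nat_lit 5) (nat_lit 4) (nat_lit 518) (nat_lit 368) (nat_lit 314))) (XT.nd (nat_lit 78) (nat_lit 0) (nat_lit 0) (XT.lf (nat_lit 0) (nat_lit 52907223332) (nat_lit 76) (nat_lit 63985053025) (nat_lit 76) (nat_lit 61823186104) (nat_lit 4) (nat_lit 4) (nat_lit 5) (nat_lit 5) (nat_lit 5) (nat_lit 4) (nat_lit 519) (nat_lit 368) (nat_lit 313)) (XT.lf (nat_lit 0) (nat_lit 74209222716) (nat_lit 76) (nat_lit 57576578271) (nat_lit 76) (nat_lit 55407161567) (nat_lit 4) (nat_lit 4) (nat_lit 5) (nat_lit 5) (nat_lit 5) (nat_lit 4) (nat_lit 520) (nat_lit 368) (nat_lit 312)))) (XT.nd (nat_lit 156) (nat_lit 0) (nat_lit 0) (XT.nd (nat_lit 78) (nat_lit 0) (nat_lit 0) (XT.lf (nat_lit 0) (nat_lit 96471757556) (nat_lit 76) (nat_lit 50900877772) (nat_lit 76) (nat_lit 48724270799) (nat_lit 4) (nat_lit 4) (nat_lit 5) (nat_lit 5) (nat_lit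 5) (nat_lit 4) (nat_lit 521) (nat_lit 368) (nat_lit 311)) (XT.lf (nat_lit 0) (nat_lit 119747833887) (nat_lit 76) (nat_lit 43942057002) (nat_lit 76) (nat_lit 41758602155) (nat_lit 4) (nat_lit 4) (nat_lit 5) (nat_lit 5) (nat_lit 5) (nat_lit 4) (nat_lit 522) (nat_lit 368) (nat_lit 310))) (XT.nd (nat_lit 78) (nat_lit 0) (nat_lit 0) (XT.lf (nat_lit 0) (nat_lit 144092870939) (nat_lit 76) (nat_lit 36683547342) (nat_lit 76) (nat_lit 34493570708) (nat_lit 4) (nat_lit 4) (nat_lit 5) (nat_lit 5) (nat_lit 5) (nat_lit 4) (nat_lit 523) (nat_lit 368) (nat_lit 309)) (XT.lf (nat_lit 0) (nat_lit 169564833086) (nat_lit 76) (nat_lit 29108066624) (nat_lit 76) (nat_lit 26911878766) (nat_lit 4) (nat_lit 4) (nat_lit 5) (nat_lit 5) (nat_lit 5) (nat_lit 4) (nat_lit 524) (nat_lit 368) (nat_lit 308)))))) (XT.nd (nat_lit 624) (nat_lit 0) (nat_lit 0) (XT.nd (nat_lit 312) (nat_lit 0) (nat_lit 0) (XT.nd (nat_lit 156) (nat_lit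 152) (nat_lit 0) (XT.nd (nat_lit 78) (nat_lit 0) (nat_lit 0) (XT.lf (nat_lit 0) (nat_lit 196224367856) (nat_lit 76) (nat_lit 21197577990) (nat_lit 76) (nat_lit 18995474681) (nat_lit 4) (nat_lit 4) (nat_lit 5) (nat_lit 5) (nat_lit 5) (nat_lit 4) (nat_lit 525) (nat_lit 368) (nat_lit 307)) (XT.lf (nat_lit 0) (nat_lit 224134950333) (nat_lit 76) (nat_lit 12933246944) (nat_lit 76) (nat_lit 10725509871) (nat_lit 4) (nat_lit 4) (nat_lit 5) (nat_lit 5) (nat_lit 5) (nat_lit 4) (nat_lit 526) (nat_lit 368) (nat_lit 306))) (XT.nd (nat_lit 78) (nat_lit 152) (nat_lit 0) (XT.lf (nat_lit 0) (nat_lit 253363034284) (nat_lit 76) (nat_lit 4295396507) (nat_lit 76) (nat_lit 2082293944) (nat_lit 4) (nat_lit 4) (nat_lit 5) (nat_lit 5) (nat_lit 5) (nat_lit 4) (nat_lit 527) (nat_lit 368) (nat_lit 305)) (XT.lf (nat_lit 0) (nat_lit 6997767860) (nat_lit 152) (nat_lit 260385256513) (nat_lit 0) (nat_lit 4885184477) (nat_lit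 2) (nat_lit 5) (nat_lit 4) (nat_lit 4) (nat_lit 2) (nat_lit 4) (nat_lit 528) (nat_lit 368) (nat_lit 304)))) (XT.nd (nat_lit 156) (nat_lit 0) (nat_lit 0) (XT.nd (nat_lit 78) (nat_lit 0) (nat_lit 0) (XT.lf (nat_lit 0) (nat_lit 16604962469) (nat_lit 152) (nat_lit 254320498404) (nat_lit 0) (nat_lit 14487744174) (nat_lit 2) (nat_lit 5) (nat_lit 4) (nat_lit 4) (nat_lit 2) (nat_lit 4) (nat_lit 529) (nat_lit 368) (nat_lit 303)) (XT.lf (nat_lit 0) (nat_lit 26657195084) (nat_lit 152) (nat_lit 248024459558) (nat_lit 0) (nat_lit 24535562588) (nat_lit 2) (nat_lit 5) (nat_lit 4) (nat_lit 4) (nat_lit 2) (nat_lit 4) (nat_lit 530) (nat_lit 368) (nat_lit 302))) (XT.nd (nat_lit 78) (nat_lit 0) (nat_lit 0) (XT.lf (nat_lit 0) (nat_lit 37178399593) (nat_lit 152) (nat_lit 241482149407) (nat_lit 0) (nat_lit 35052563096) (nat_lit 2) (nat_lit 5) (nat_lit 4) (nat_lit 4) (nat_lit 2) (nat_lit 4) (nat_lit 531) (nat_lit 368)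 (nat_lit 301)) (XT.lf (nat_lit 0) (nat_lit 48193626483) (nat_lit 152) (nat_lit 234677991022) (nat_lit 0) (nat_lit 46063786175) (nat_lit 2) (nat_lit 5) (nat_lit 4) (nat_lit 4) (nat_lit 2) (nat_lit 4) (nat_lit 532) (nat_lit 368) (nat_lit 300))))) (XT.nd (nat_lit 312) (nat_lit 0) (nat_lit 0) (XT.nd (nat_lit 156) (nat_lit 0) (nat_lit 0) (XT.nd (nat_lit 78) (nat_lit 0) (nat_lit 0) (XT.lf (nat_lit 0) (nat_lit 59729102484) (nat_lit 152) (nat_lit 227595784025) (nat_lit 0) (nat_lit 57595449023) (nat_lit 2) (nat_lit 5) (nat_lit 4) (nat_lit 4) (nat_lit 2) (nat_lit 4) (nat_lit 533) (nat_lit 368) (nat_lit 299)) (XT.lf (nat_lit 0) (nat_lit 71812293016) (nat_lit 152) (nat_lit 220218666020) (nat_lit 0) (nat_lit 69675007981) (nat_lit 2) (nat_lit 5) (nat_lit 4) (nat_lit 4) (nat_lit 2) (nat_lit 4) (nat_lit 534) (nat_lit 368) (nat_lit 298))) (XT.nd (nat_lit 78) (nat_lit 0) (nat_lit 0) (XT.lf (nat_lit 0) (nat_lit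 84471967580) (nat_lit 152) (nat_lit 212529072439) (nat_lit 0) (nat_lit 82331223903) (nat_lit 2) (nat_lit 5) (nat_lit 4) (nat_lit 4) (nat_lit 2) (nat_lit 4) (nat_lit 535) (nat_lit 368) (nat_lit 297)) (XT.lf (nat_lit 0) (nat_lit 97738268259) (nat_lit 152) (nat_lit 204508694726) (nat_lit 0) (nat_lit 95594230636) (nat_lit 2) (nat_lit 5) (nat_lit 4) (nat_lit 4) (nat_lit 2) (nat_lit 4) (nat_lit 536) (nat_lit 368) (nat_lit 296)))) (XT.nd (nat_lit 156) (nat_lit 0) (nat_lit 0) (XT.nd (nat_lit 78) (nat_lit 0) (nat_lit 0) (XT.lf (nat_lit 0) (nat_lit 111642781481) (nat_lit 152) (nat_lit 196138436745) (nat_lit 0) (nat_lit 109495606768) (nat_lit 2) (nat_lit 5) (nat_lit 4) (nat_lit 4) (nat_lit 2) (nat_lit 4) (nat_lit 537) (nat_lit 368) (nat_lit 295)) (XT.lf (nat_lit 0) (nat_lit 126218613232) (nat_lit 152) (nat_lit 187398369308) (nat_lit 0) (nat_lit 124068450813) (nat_lit 2) (nat_lit 5) (nat_lit 4) (nat_lit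 4) (nat_lit 2) (nat_lit 4) (nat_lit 538) (nat_lit 368) (nat_lit 294))) (XT.nd (nat_lit 78) (nat_lit 0) (nat_lit 0) (XT.lf (nat_lit 0) (nat_lit 141500467872) (nat_lit 152) (nat_lit 178267682733) (nat_lit 0) (nat_lit 139347460020) (nat_lit 2) (nat_lit 5) (nat_lit 4) (nat_lit 4) (nat_lit 2) (nat_lit 4) (nat_lit 539) (nat_lit 368) (nat_lit 293)) (XT.lf (nat_lit 0) (nat_lit 157524730770) (nat_lit 152) (nat_lit 168724637288) (nat_lit 0) (nat_lit 155369012981) (nat_lit 2) (nat_lit 5) (nat_lit 4) (nat_lit 4) (nat_lit 2) (nat_lit 4) (nat_lit 540) (nat_lit 368) (nat_lit 292))))))))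
noncomputable def xc33 : XT := (XT.nd (nat_lit 57798) (nat_lit 0) (nat_lit 228) (XT.nd (nat_lit 56550) (nat_lit 0) (nat_lit 1368) (XT.nd (nat_lit 546) (nat_lit 0) (nat_lit 0) (XT.nd (nat_lit 234) (nat_lit 0) (nat_lit 0) (XT.nd (nat_lit 78) (nat_lit 0) (nat_lit 0) (XT.lf (nat_lit 0) (nat_lit 174329554932) (nat_lit 152) (nat_lit 158746511437) (nat_lit 0) (nat_lit 172171256252) (nat_lit 2) (nat_lit 5) (nat_lit 4) (nat_lit 4) (nat_lit 2) (nat_lit 4) (nat_lit 541) (nat_lit 368) (nat_lit 291)) (XT.nd (nat_lit 78) (nat_lit 0) (nat_lit 0) (XT.lf (nat_lit 0) (nat_lit 191954951845) (nat_lit 152) (nat_lit 148309547739) (nat_lit 0) (nat_lit 189794195172) (nat_lit 2) (nat_lit 5) (nat_lit 4) (nat_lit 4) (nat_lit 2) (nat_lit 4) (nat_lit 542) (nat_lit 368) (nat_lit 290)) (XT.lf (nat_lit 0) (nat_lit 210442886740) (nat_lit 152) (nat_lit 137388896278) (nat_lit 0) (nat_lit 208279789122) (nat_lit 2) (nat_lit 5) (nat_lit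 4) (nat_lit 4) (nat_lit 2) (nat_lit 4) (nat_lit 543) (nat_lit 368) (nat_lit 289)))) (XT.nd (nat_lit 156) (nat_lit 0) (nat_lit 0) (XT.nd (nat_lit 78) (nat_lit 0) (nat_lit 0) (XT.lf (nat_lit 0) (nat_lit 229837378509) (nat_lit 152) (nat_lit 125958555504) (nat_lit 0) (nat_lit 227672051419) (nat_lit 2) (nat_lit 5) (nat_lit 4) (nat_lit 4) (nat_lit 2) (nat_lit 4) (nat_lit 544) (nat_lit 368) (nat_lit 288)) (XT.lf (nat_lit 0) (nat_lit 250184604513) (nat_lit 152) (nat_lit 113991310320) (nat_lit 0) (nat_lit 248017154117) (nat_lit 2) (nat_lit 5) (nat_lit 4) (nat_lit 4) (nat_lit 2) (nat_lit 4) (nat_lit 545) (nat_lit 368) (nat_lit 287))) (XT.nd (nat_lit 78) (nat_lit 0) (nat_lit 0) (XT.lf (nat_lit 0) (nat_lit 271533010529) (nat_lit 152) (nat_lit 101458667285) (nat_lit 0) (nat_lit 269363537936) (nat_lit 2) (nat_lit 5) (nat_lit 4) (nat_lit 4) (nat_lit 2) (nat_lit 4) (nat_lit 546) (nat_lit 368) (nat_lit 286))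 (XT.lf (nat_lit 0) (nat_lit 293933426094) (nat_lit 152) (nat_lit 88330786773) (nat_lit 0) (nat_lit 291762027600) (nat_lit 2) (nat_lit 5) (nat_lit 4) (nat_lit 4) (nat_lit 2) (nat_lit 4) (nat_lit 547) (nat_lit 368) (nat_lit 285))))) (XT.nd (nat_lit 312) (nat_lit 0) (nat_lit 0) (XT.nd (nat_lit 156) (nat_lit 0) (nat_lit 0) (XT.nd (nat_lit 78) (nat_lit 0) (nat_lit 0) (XT.lf (nat_lit 0) (nat_lit 317439185532) (nat_lit 152) (nat_lit 74576411925) (nat_lit 0) (nat_lit 315265952846) (nat_lit 2) (nat_lit 5) (nat_lit 4) (nat_lit 4) (nat_lit 2) (nat_lit 4) (nat_lit 548) (nat_lit 368) (nat_lit 284)) (XT.lf (nat_lit 0) (nat_lit 342106254936) (nat_lit 152) (nat_lit 60162794230) (nat_lit 0) (nat_lit 339931275401) (nat_lit 2) (nat_lit 5) (nat_lit 4) (nat_lit 4) (nat_lit 2) (nat_lit 4) (nat_lit 549) (nat_lit 368) (nat_lit 283))) (XT.nd (nat_lit 78) (nat_lit 0) (nat_lit 0) (XT.lf (nat_lit 0) (nat_lit 367993365425)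 (nat_lit 152) (nat_lit 45055615551) (nat_lit 0) (nat_lit 365816722224) (nat_lit 2) (nat_lit 5) (nat_lit 4) (nat_lit 4) (nat_lit 2) (nat_lit 4) (nat_lit 550) (nat_lit 368) (nat_lit 282)) (XT.lf (nat_lit 0) (nat_lit 395162152975) (nat_lit 152) (nat_lit 29218906413) (nat_lit 0) (nat_lit 392983925330) (nat_lit 2) (nat_lit 5) (nat_lit 4) (nat_lit 4) (nat_lit 2) (nat_lit 4) (nat_lit 551) (nat_lit 368) (nat_lit 281)))) (XT.nd (nat_lit 55536) (nat_lit 0) (nat_lit 2660) (XT.nd (nat_lit 55458) (nat_lit 0) (nat_lit 2736) (XT.lf (nat_lit 0) (nat_lit 423677305175) (nat_lit 152) (nat_lit 12614960368) (nat_lit 0) (nat_lit 421497568536) (nat_lit 2) (nat_lit 5) (nat_lit 4) (nat_lit 4) (nat_lit 2) (nat_lit 4) (nat_lit 552) (nat_lit 368) (nat_lit 280)) (XT.lf (nat_lit 0) (nat_lit 1619338922) (nat_lit 152) (nat_lit 6560573736) (nat_lit 0) (nat_lit 1619338922) (nat_lit 38) (nat_lit 5) (nat_lit 40) (nat_lit 4) (nat_lit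 38) (nat_lit 4) (nat_lit 462) (nat_lit 369) (nat_lit 369))) (XT.nd (nat_lit 78) (nat_lit 0) (nat_lit 0) (XT.lf (nat_lit 0) (nat_lit 3043266913) (nat_lit 76) (nat_lit 8654108139) (nat_lit 76) (nat_lit 8455673511) (nat_lit 37) (nat_lit 4) (nat_lit 38) (nat_lit 5) (nat_lit 38) (nat_lit 4) (nat_lit 463) (nat_lit 369) (nat_lit 368)) (XT.lf (nat_lit 0) (nat_lit 19927416863) (nat_lit 76) (nat_lit 598979401) (nat_lit 76) (nat_lit 211559413) (nat_lit 37) (nat_lit 4) (nat_lit 38) (nat_lit 5) (nat_lit 38) (nat_lit 4) (nat_lit 464) (nat_lit 369) (nat_lit 367)))))) (XT.nd (nat_lit 624) (nat_lit 608) (nat_lit 0) (XT.nd (nat_lit 312) (nat_lit 228) (nat_lit 0) (XT.nd (nat_lit 156) (nat_lit 228) (nat_lit 0) (XT.nd (nat_lit 78) (nat_lit 76) (nat_lit 0) (XT.lf (nat_lit 0) (nat_lit 8285705627) (nat_lit 152) (nat_lit 5308933304) (nat_lit 0) (nat_lit 7745318916) (nat_lit 35) (nat_lit 5) (nat_lit 37) (nat_lit 4) (nat_lit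 35) (nat_lit 4) (nat_lit 465) (nat_lit 369) (nat_lit 366)) (XT.lf (nat_lit 0) (nat_lit 11601767401) (nat_lit 76) (nat_lit 5538395067) (nat_lit 76) (nat_lit 4834755697) (nat_lit 34) (nat_lit 4) (nat_lit 35) (nat_lit 5) (nat_lit 35) (nat_lit 4) (nat_lit 466) (nat_lit 369) (nat_lit 365))) (XT.nd (nat_lit 78) (nat_lit 76) (nat_lit 0) (XT.lf (nat_lit 0) (nat_lit 3647924348) (nat_lit 152) (nat_lit 16162340713) (nat_lit 0) (nat_lit 2829716640) (nat_lit 32) (nat_lit 5) (nat_lit 34) (nat_lit 4) (nat_lit 32) (nat_lit 4) (nat_lit 467) (nat_lit 369) (nat_lit 364)) (XT.lf (nat_lit 0) (nat_lit 516970250) (nat_lit 76) (nat_lit 11887982480) (nat_lit 76) (nat_lit 10928750986) (nat_lit 31) (nat_lit 4) (nat_lit 32) (nat_lit 5) (nat_lit 32) (nat_lit 4) (nat_lit 468) (nat_lit 369) (nat_lit 363)))) (XT.nd (nat_lit 156) (nat_lit 76) (nat_lit 0) (XT.nd (nat_lit 78) (nat_lit 152) (nat_lit 0) (XT.lf (nat_lit 0) (nat_lit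 18071652177) (nat_lit 76) (nat_lit 3541664051) (nat_lit 76) (nat_lit 2448124189) (nat_lit 31) (nat_lit 4) (nat_lit 32) (nat_lit 5) (nat_lit 32) (nat_lit 4) (nat_lit 469) (nat_lit 369) (nat_lit 362)) (XT.lf (nat_lit 0) (nat_lit 6258782487) (nat_lit 152) (nat_lit 13465804547) (nat_lit 0) (nat_lit 5095494304) (nat_lit 29) (nat_lit 5) (nat_lit 31) (nat_lit 4) (nat_lit 29) (nat_lit 4) (nat_lit 470) (nat_lit 369) (nat_lit 361))) (XT.nd (nat_lit 78) (nat_lit 0) (nat_lit 0) (XT.lf (nat_lit 0) (nat_lit 3676013909) (nat_lit 76) (nat_lit 11609796248) (nat_lit 76) (nat_lit 10330487448) (nat_lit 28) (nat_lit 4) (nat_lit 29) (nat_lit 5) (nat_lit 29) (nat_lit 4) (nat_lit 471) (nat_lit 369) (nat_lit 360)) (XT.lf (nat_lit 0) (nat_lit 21646849826) (nat_lit 76) (nat_lit 3098121333) (nat_lit 76) (nat_lit 1708316707) (nat_lit 28) (nat_lit 4) (nat_lit 29) (nat_lit 5) (nat_lit 29) (nat_lit 4) (nat_lit 472) (nat_lit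 369) (nat_lit 359))))) (XT.nd (nat_lit 312) (nat_lit 228) (nat_lit 0) (XT.nd (nat_lit 156) (nat_lit 152) (nat_lit 0) (XT.nd (nat_lit 78) (nat_lit 76) (nat_lit 0) (XT.lf (nat_lit 0) (nat_lit 7166197469) (nat_lit 152) (nat_lit 14415031443) (nat_lit 0) (nat_lit 5742351044) (nat_lit 26) (nat_lit 5) (nat_lit 28) (nat_lit 4) (nat_lit 26) (nat_lit 4) (nat_lit 473) (nat_lit 369) (nat_lit 358)) (XT.lf (nat_lit 0) (nat_lit 2977791881) (nat_lit 76) (nat_lit 13390221998) (nat_lit 76) (nat_lit 11870925123) (nat_lit 25) (nat_lit 4) (nat_lit 26) (nat_lit 5) (nat_lit 26) (nat_lit 4) (nat_lit 474) (nat_lit 369) (nat_lit 357))) (XT.nd (nat_lit 78) (nat_lit 152) (nat_lit 0) (XT.lf (nat_lit 0) (nat_lit 21268235298) (nat_lit 76) (nat_lit 4770789722) (nat_lit 76) (nat_lit 3160587658) (nat_lit 25) (nat_lit 4) (nat_lit 26) (nat_lit 5) (nat_lit 26) (nat_lit 4) (nat_lit 475) (nat_lit 369) (nat_lit 356)) (XT.lf (nat_lit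 0) (nat_lit 5790202050) (nat_lit 152) (nat_lit 20239399699) (nat_lit 0) (nat_lit 4174222588) (nat_lit 23) (nat_lit 5) (nat_lit 25) (nat_lit 4) (nat_lit 23) (nat_lit 4) (nat_lit 476) (nat_lit 369) (nat_lit 355)))) (XT.nd (nat_lit 156) (nat_lit 152) (nat_lit 0) (XT.nd (nat_lit 78) (nat_lit 76) (nat_lit 0) (XT.lf (nat_lit 0) (nat_lit 15069817463) (nat_lit 152) (nat_lit 2811154275) (nat_lit 0) (nat_lit 13375310680) (nat_lit 23) (nat_lit 5) (nat_lit 25) (nat_lit 4) (nat_lit 23) (nat_lit 4) (nat_lit 477) (nat_lit 369) (nat_lit 354)) (XT.lf (nat_lit 0) (nat_lit 15550231286) (nat_lit 76) (nat_lit 9289554869) (nat_lit 76) (nat_lit 7520260162) (nat_lit 22) (nat_lit 4) (nat_lit 23) (nat_lit 5) (nat_lit 23) (nat_lit 4) (nat_lit 478) (nat_lit 369) (nat_lit 353))) (XT.nd (nat_lit 78) (nat_lit 0) (nat_lit 0) (XT.lf (nat_lit 0) (nat_lit 980512773) (nat_lit 76) (nat_lit 395601409) (nat_lit 152) (nat_lit 32149282535)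 (nat_lit 20) (nat_lit 5) (nat_lit 21) (nat_lit 5) (nat_lit 22) (nat_lit 4) (nat_lit 479) (nat_lit 369) (nat_lit 352)) (XT.lf (nat_lit 0) (nat_lit 10677483136) (nat_lit 152) (nat_lit 15194722303) (nat_lit 0) (nat_lit 8860001085) (nat_lit 20) (nat_lit 5) (nat_lit 22) (nat_lit 4) (nat_lit 20) (nat_lit 4) (nat_lit 480) (nat_lit 369) (nat_lit 351))))))) (XT.nd (nat_lit 1170) (nat_lit 456) (nat_lit 0) (XT.nd (nat_lit 546) (nat_lit 380) (nat_lit 0) (XT.nd (nat_lit 234) (nat_lit 76) (nat_lit 0) (XT.nd (nat_lit 78) (nat_lit 152) (nat_lit 0) (XT.lf (nat_lit 0) (nat_lit 2686915830) (nat_lit 76) (nat_lit 17599659881) (nat_lit 76) (nat_lit 15720649619) (nat_lit 19) (nat_lit 4) (nat_lit 20) (nat_lit 5) (nat_lit 20) (nat_lit 4) (nat_lit 481) (nat_lit 369) (nat_lit 350)) (XT.nd (nat_lit 78) (nat_lit 152) (nat_lit 0) (XT.lf (nat_lit 0) (nat_lit 21581320240) (nat_lit 76) (nat_lit 8849768165) (nat_lit 76) (nat_lit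 6912159607) (nat_lit 19) (nat_lit 4) (nat_lit 20) (nat_lit 5) (nat_lit 20) (nat_lit 4) (nat_lit 482) (nat_lit 369) (nat_lit 349)) (XT.lf (nat_lit 0) (nat_lit 2105577481) (nat_lit 152) (nat_lit 36439404996) (nat_lit 0) (nat_lit 207085616) (nat_lit 17) (nat_lit 5) (nat_lit 19) (nat_lit 4) (nat_lit 17) (nat_lit 4) (nat_lit 483) (nat_lit 369) (nat_lit 348)))) (XT.nd (nat_lit 156) (nat_lit 76) (nat_lit 0) (XT.nd (nat_lit 78) (nat_lit 0) (nat_lit 0) (XT.lf (nat_lit 0) (nat_lit 11562583269) (nat_lit 152) (nat_lit 19038575468) (nat_lit 0) (nat_lit 9613471993) (nat_lit 17) (nat_lit 5) (nat_lit 19) (nat_lit 4) (nat_lit 17) (nat_lit 4) (nat_lit 484) (nat_lit 369) (nat_lit 347)) (XT.lf (nat_lit 0) (nat_lit 21306044770) (nat_lit 152) (nat_lit 1144872921) (nat_lit 0) (nat_lit 19308724531) (nat_lit 17) (nat_lit 5) (nat_lit 19) (nat_lit 4) (nat_lit 17) (nat_lit 4) (nat_lit 485) (nat_lit 369) (nat_lit 346)))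 (XT.nd (nat_lit 78) (nat_lit 0) (nat_lit 0) (XT.lf (nat_lit 0) (nat_lit 17855803937) (nat_lit 76) (nat_lit 13782135905) (nat_lit 76) (nat_lit 11738902368) (nat_lit 16) (nat_lit 4) (nat_lit 17) (nat_lit 5) (nat_lit 17) (nat_lit 4) (nat_lit 486) (nat_lit 369) (nat_lit 345)) (XT.lf (nat_lit 0) (nat_lit 37492847666) (nat_lit 76) (nat_lit 4838387816) (nat_lit 76) (nat_lit 2751427328) (nat_lit 16) (nat_lit 4) (nat_lit 17) (nat_lit 5) (nat_lit 17) (nat_lit 4) (nat_lit 487) (nat_lit 369) (nat_lit 344))))) (XT.nd (nat_lit 312) (nat_lit 152) (nat_lit 0) (XT.nd (nat_lit 156) (nat_lit 76) (nat_lit 0) (XT.nd (nat_lit 78) (nat_lit 0) (nat_lit 0) (XT.lf (nat_lit 0) (nat_lit 6549443820) (nat_lit 152) (nat_lit 35793011880) (nat_lit 0) (nat_lit 4522200770) (nat_lit 14) (nat_lit 5) (nat_lit 16) (nat_lit 4) (nat_lit 14) (nat_lit 4) (nat_lit 488) (nat_lit 369) (nat_lit 343)) (XT.lf (nat_lit 0) (nat_lit 16263988590)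 (nat_lit 152) (nat_lit 18268479374) (nat_lit 0) (nat_lit 14198972556) (nat_lit 14) (nat_lit 5) (nat_lit 16) (nat_lit 4) (nat_lit 14) (nat_lit 4) (nat_lit 489) (nat_lit 369) (nat_lit 342))) (XT.nd (nat_lit 78) (nat_lit 76) (nat_lit 0) (XT.lf (nat_lit 0) (nat_lit 26303435714) (nat_lit 152) (nat_lit 193724634) (nat_lit 0) (nat_lit 24202445410) (nat_lit 14) (nat_lit 5) (nat_lit 16) (nat_lit 4) (nat_lit 14) (nat_lit 4) (nat_lit 490) (nat_lit 369) (nat_lit 341)) (XT.lf (nat_lit 0) (nat_lit 19085130845) (nat_lit 76) (nat_lit 17904530171) (nat_lit 76) (nat_lit 15769278657) (nat_lit 13) (nat_lit 4) (nat_lit 14) (nat_lit 5) (nat_lit 14) (nat_lit 4) (nat_lit 491) (nat_lit 369) (nat_lit 340)))) (XT.nd (nat_lit 156) (nat_lit 0) (nat_lit 0) (XT.nd (nat_lit 78) (nat_lit 152) (nat_lit 0) (XT.lf (nat_lit 0) (nat_lit 39029182155) (nat_lit 76) (nat_lit 9033654055) (nat_lit 76) (nat_lit 6865772817) (nat_lit 13)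 (nat_lit 4) (nat_lit 14) (nat_lit 5) (nat_lit 14) (nat_lit 4) (nat_lit 492) (nat_lit 369) (nat_lit 339)) (XT.lf (nat_lit 0) (nat_lit 2300118977) (nat_lit 152) (nat_lit 54703997203) (nat_lit 0) (nat_lit 205874058) (nat_lit 11) (nat_lit 5) (nat_lit 13) (nat_lit 4) (nat_lit 11) (nat_lit 4) (nat_lit 493) (nat_lit 369) (nat_lit 338))) (XT.nd (nat_lit 78) (nat_lit 0) (nat_lit 0) (XT.lf (nat_lit 0) (nat_lit 11969617493) (nat_lit 152) (nat_lit 37769207769) (nat_lit 0) (nat_lit 9847185792) (nat_lit 11) (nat_lit 5) (nat_lit 13) (nat_lit 4) (nat_lit 11) (nat_lit 4) (nat_lit 494) (nat_lit 369) (nat_lit 337)) (XT.lf (nat_lit 0) (nat_lit 21983805955) (nat_lit 152) (nat_lit 20269437059) (nat_lit 0) (nat_lit 19834529699) (nat_lit 11) (nat_lit 5) (nat_lit 13) (nat_lit 4) (nat_lit 11) (nat_lit 4) (nat_lit 495) (nat_lit 369) (nat_lit 336)))))) (XT.nd (nat_lit 624) (nat_lit 228) (nat_lit 0) (XT.nd (nat_lit 312)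 (nat_lit 152) (nat_lit 0) (XT.nd (nat_lit 156) (nat_lit 0) (nat_lit 0) (XT.nd (nat_lit 78) (nat_lit 76) (nat_lit 0) (XT.lf (nat_lit 0) (nat_lit 32366527667) (nat_lit 152) (nat_lit 2163018955) (nat_lit 0) (nat_lit 30191685169) (nat_lit 11) (nat_lit 5) (nat_lit 13) (nat_lit 4) (nat_lit 11) (nat_lit 4) (nat_lit 496) (nat_lit 369) (nat_lit 335)) (XT.lf (nat_lit 0) (nat_lit 17141801773) (nat_lit 76) (nat_lit 26268333188) (nat_lit 76) (nat_lit 24069141888) (nat_lit 10) (nat_lit 4) (nat_lit 11) (nat_lit 5) (nat_lit 11) (nat_lit 4) (nat_lit 497) (nat_lit 369) (nat_lit 334))) (XT.nd (nat_lit 78) (nat_lit 0) (nat_lit 0) (XT.lf (nat_lit 0) (nat_lit 37235517665) (nat_lit 76) (nat_lit 17683223345) (nat_lit 76) (nat_lit 15460842709) (nat_lit 10) (nat_lit 4) (nat_lit 11) (nat_lit 5) (nat_lit 11) (nat_lit 4) (nat_lit 498) (nat_lit 369) (nat_lit 333)) (XT.lf (nat_lit 0) (nat_lit 58094451727) (nat_lit 76) (nat_lit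 8790408127) (nat_lit 76) (nat_lit 6545942410) (nat_lit 10) (nat_lit 4) (nat_lit 11) (nat_lit 5) (nat_lit 11) (nat_lit 4) (nat_lit 499) (nat_lit 369) (nat_lit 332)))) (XT.nd (nat_lit 156) (nat_lit 0) (nat_lit 0) (XT.nd (nat_lit 78) (nat_lit 0) (nat_lit 0) (XT.lf (nat_lit 0) (nat_lit 2668484431) (nat_lit 152) (nat_lit 73455840754) (nat_lit 0) (nat_lit 510866214) (nat_lit 8) (nat_lit 5) (nat_lit 10) (nat_lit 4) (nat_lit 8) (nat_lit 4) (nat_lit 500) (nat_lit 369) (nat_lit 331)) (XT.lf (nat_lit 0) (nat_lit 12417659324) (nat_lit 152) (nat_lit 57321111685) (nat_lit 0) (nat_lit 10240963183) (nat_lit 8) (nat_lit 5) (nat_lit 10) (nat_lit 4) (nat_lit 8) (nat_lit 4) (nat_lit 501) (nat_lit 369) (nat_lit 330))) (XT.nd (nat_lit 78) (nat_lit 0) (nat_lit 0) (XT.lf (nat_lit 0) (nat_lit 22545647140) (nat_lit 152) (nat_lit 40600508104) (nat_lit 0) (nat_lit 20350781548) (nat_lit 8) (nat_lit 5) (nat_lit 10) (nat_lit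 4) (nat_lit 8) (nat_lit 4) (nat_lit 502) (nat_lit 369) (nat_lit 329)) (XT.lf (nat_lit 0) (nat_lit 33076562134) (nat_lit 152) (nat_lit 23254219052) (nat_lit 0) (nat_lit 30864392303) (nat_lit 8) (nat_lit 5) (nat_lit 10) (nat_lit 4) (nat_lit 8) (nat_lit 4) (nat_lit 503) (nat_lit 369) (nat_lit 328))))) (XT.nd (nat_lit 312) (nat_lit 152) (nat_lit 0) (XT.nd (nat_lit 156) (nat_lit 0) (nat_lit 0) (XT.nd (nat_lit 78) (nat_lit 76) (nat_lit 0) (XT.lf (nat_lit 0) (nat_lit 44035477914) (nat_lit 152) (nat_lit 5240943839) (nat_lit 0) (nat_lit 41806827855) (nat_lit 8) (nat_lit 5) (nat_lit 10) (nat_lit 4) (nat_lit 8) (nat_lit 4) (nat_lit 504) (nat_lit 369) (nat_lit 327)) (XT.lf (nat_lit 0) (nat_lit 13927988910) (nat_lit 76) (nat_lit 41737953165) (nat_lit 76) (nat_lit 39493607652) (nat_lit 7) (nat_lit 4) (nat_lit 8) (nat_lit 5) (nat_lit 8) (nat_lit 4) (nat_lit 505) (nat_lit 369) (nat_lit 326))) (XT.nd (nat_lit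 78) (nat_lit 0) (nat_lit 0) (XT.lf (nat_lit 0) (nat_lit 34049610423) (nat_lit 76) (nat_lit 33824763051) (nat_lit 76) (nat_lit 31565469485) (nat_lit 7) (nat_lit 4) (nat_lit 8) (nat_lit 5) (nat_lit 8) (nat_lit 4) (nat_lit 506) (nat_lit 369) (nat_lit 325)) (XT.lf (nat_lit 0) (nat_lit 54998540050) (nat_lit 76) (nat_lit 25606768402) (nat_lit 76) (nat_lit 23333238596) (nat_lit 7) (nat_lit 4) (nat_lit 8) (nat_lit 5) (nat_lit 8) (nat_lit 4) (nat_lit 507) (nat_lit 369) (nat_lit 324)))) (XT.nd (nat_lit 156) (nat_lit 152) (nat_lit 0) (XT.nd (nat_lit 78) (nat_lit 0) (nat_lit 0) (XT.lf (nat_lit 0) (nat_lit 76824656193) (nat_lit 76) (nat_lit 17064402564) (nat_lit 76) (nat_lit 14777314433) (nat_lit 7) (nat_lit 4) (nat_lit 8) (nat_lit 5) (nat_lit 8) (nat_lit 4) (nat_lit 508) (nat_lit 369) (nat_lit 323)) (XT.lf (nat_lit 0) (nat_lit 99579925797) (nat_lit 76) (nat_lit 8177326570) (nat_lit 76) (nat_lit 5877325749)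 (nat_lit 7) (nat_lit 4) (nat_lit 8) (nat_lit 5) (nat_lit 8) (nat_lit 4) (nat_lit 509) (nat_lit 369) (nat_lit 322))) (XT.nd (nat_lit 78) (nat_lit 0) (nat_lit 0) (XT.lf (nat_lit 0) (nat_lit 3369449545) (nat_lit 152) (nat_lit 114311137905) (nat_lit 0) (nat_lit 1167260383) (nat_lit 5) (nat_lit 5) (nat_lit 7) (nat_lit 4) (nat_lit 5) (nat_lit 4) (nat_lit 510) (nat_lit 369) (nat_lit 321)) (XT.lf (nat_lit 0) (nat_lit 13179872077) (nat_lit 152) (nat_lit 100155622001) (nat_lit 0) (nat_lit 10966528448) (nat_lit 5) (nat_lit 5) (nat_lit 7) (nat_lit 4) (nat_lit 5) (nat_lit 4) (nat_lit 511) (nat_lit 369) (nat_lit 320))))))))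
noncomputable def xc34 : XT := (XT.nd (nat_lit 2418) (nat_lit 0) (nat_lit 0) (XT.nd (nat_lit 1170) (nat_lit 152) (nat_lit 0) (XT.nd (nat_lit 546) (nat_lit 0) (nat_lit 0) (XT.nd (nat_lit 234) (nat_lit 76) (nat_lit 0) (XT.nd (nat_lit 78) (nat_lit 0) (nat_lit 0) (XT.lf (nat_lit 0) (nat_lit 23407336003) (nat_lit 152) (nat_lit 85441875086) (nat_lit 0) (nat_lit 21183369072) (nat_lit 5) (nat_lit 5) (nat_lit 7) (nat_lit 4) (nat_lit 5) (nat_lit 4) (nat_lit 512) (nat_lit 369) (nat_lit 319)) (XT.nd (nat_lit 78) (nat_lit 0) (nat_lit 0) (XT.lf (nat_lit 0) (nat_lit 34076192427) (nat_lit 152) (nat_lit 70134864428) (nat_lit 0) (nat_lit 31842108066) (nat_lit 5) (nat_lit 5) (nat_lit 7) (nat_lit 4) (nat_lit 5) (nat_lit 4) (nat_lit 513) (nat_lit 369) (nat_lit 318)) (XT.lf (nat_lit 0) (nat_lit 45211843389) (nat_lit 152) (nat_lit 54198144763) (nat_lit 0) (nat_lit 42968123380) (nat_lit 5) (nat_lit 5) (nat_lit 7) (nat_lit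 4) (nat_lit 5) (nat_lit 4) (nat_lit 514) (nat_lit 369) (nat_lit 317)))) (XT.nd (nat_lit 156) (nat_lit 76) (nat_lit 0) (XT.nd (nat_lit 78) (nat_lit 0) (nat_lit 0) (XT.lf (nat_lit 0) (nat_lit 56840802342) (nat_lit 152) (nat_lit 37593771522) (nat_lit 0) (nat_lit 54587905526) (nat_lit 5) (nat_lit 5) (nat_lit 7) (nat_lit 4) (nat_lit 5) (nat_lit 4) (nat_lit 515) (nat_lit 369) (nat_lit 316)) (XT.lf (nat_lit 0) (nat_lit 68990757285) (nat_lit 152) (nat_lit 20282210482) (nat_lit 0) (nat_lit 66729120652) (nat_lit 5) (nat_lit 5) (nat_lit 7) (nat_lit 4) (nat_lit 5) (nat_lit 4) (nat_lit 516) (nat_lit 369) (nat_lit 315))) (XT.nd (nat_lit 78) (nat_lit 76) (nat_lit 0) (XT.lf (nat_lit 0) (nat_lit 81690636682) (nat_lit 152) (nat_lit 2222243641) (nat_lit 0) (nat_lit 79420676414) (nat_lit 5) (nat_lit 5) (nat_lit 7) (nat_lit 4) (nat_lit 5) (nat_lit 4) (nat_lit 517) (nat_lit 369) (nat_lit 314)) (XT.lf (nat_lit 0) (nat_lit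 17178963022) (nat_lit 76) (nat_lit 78059927074) (nat_lit 76) (nat_lit 75782039535) (nat_lit 4) (nat_lit 4) (nat_lit 5) (nat_lit 5) (nat_lit 5) (nat_lit 4) (nat_lit 518) (nat_lit 369) (nat_lit 313))))) (XT.nd (nat_lit 312) (nat_lit 0) (nat_lit 0) (XT.nd (nat_lit 156) (nat_lit 0) (nat_lit 0) (XT.nd (nat_lit 78) (nat_lit 0) (nat_lit 0) (XT.lf (nat_lit 0) (nat_lit 37517588563) (nat_lit 76) (nat_lit 71930667544) (nat_lit 76) (nat_lit 69645230223) (nat_lit 4) (nat_lit 4) (nat_lit 5) (nat_lit 5) (nat_lit 5) (nat_lit 4) (nat_lit 519) (nat_lit 369) (nat_lit 312)) (XT.lf (nat_lit 0) (nat_lit 58768580867) (nat_lit 76) (nat_lit 65548143030) (nat_lit 76) (nat_lit 63255515440) (nat_lit 4) (nat_lit 4) (nat_lit 5) (nat_lit 5) (nat_lit 5) (nat_lit 4) (nat_lit 520) (nat_lit 369) (nat_lit 311))) (XT.nd (nat_lit 78) (nat_lit 0) (nat_lit 0) (XT.lf (nat_lit 0) (nat_lit 80982537536) (nat_lit 76) (nat_lit 58897157046)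 (nat_lit 76) (nat_lit 56597681580) (nat_lit 4) (nat_lit 4) (nat_lit 5) (nat_lit 5) (nat_lit 5) (nat_lit 4) (nat_lit 521) (nat_lit 369) (nat_lit 310)) (XT.lf (nat_lit 0) (nat_lit 104212348942) (nat_lit 76) (nat_lit 51961873909) (nat_lit 76) (nat_lit 49655876658) (nat_lit 4) (nat_lit 4) (nat_lit 5) (nat_lit 5) (nat_lit 5) (nat_lit 4) (nat_lit 522) (nat_lit 369) (nat_lit 309)))) (XT.nd (nat_lit 156) (nat_lit 0) (nat_lit 0) (XT.nd (nat_lit 78) (nat_lit 0) (nat_lit 0) (XT.lf (nat_lit 0) (nat_lit 128513324161) (nat_lit 76) (nat_lit 44725781041) (nat_lit 76) (nat_lit 42413572566) (nat_lit 4) (nat_lit 4) (nat_lit 5) (nat_lit 5) (nat_lit 5) (nat_lit 4) (nat_lit 523) (nat_lit 369) (nat_lit 308)) (XT.lf (nat_lit 0) (nat_lit 153943322657) (nat_lit 76) (nat_lit 37171649650) (nat_lit 76) (nat_lit 34853525723) (nat_lit 4) (nat_lit 4) (nat_lit 5) (nat_lit 5) (nat_lit 5) (nat_lit 4) (nat_lit 524) (nat_lit 369)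 (nat_lit 307))) (XT.nd (nat_lit 78) (nat_lit 0) (nat_lit 0) (XT.lf (nat_lit 0) (nat_lit 180562892046) (nat_lit 76) (nat_lit 29281493709) (nat_lit 76) (nat_lit 26957736018) (nat_lit 4) (nat_lit 4) (nat_lit 5) (nat_lit 5) (nat_lit 5) (nat_lit 4) (nat_lit 525) (nat_lit 369) (nat_lit 306)) (XT.lf (nat_lit 0) (nat_lit 208435412254) (nat_lit 76) (nat_lit 21036527132) (nat_lit 76) (nat_lit 18707403952) (nat_lit 4) (nat_lit 4) (nat_lit 5) (nat_lit 5) (nat_lit 5) (nat_lit 4) (nat_lit 526) (nat_lit 369) (nat_lit 305)))))) (XT.nd (nat_lit 624) (nat_lit 0) (nat_lit 0) (XT.nd (nat_lit 312) (nat_lit 0) (nat_lit 0) (XT.nd (nat_lit 156) (nat_lit 152) (nat_lit 0) (XT.nd (nat_lit 78) (nat_lit 0) (nat_lit 0) (XT.lf (nat_lit 0) (nat_lit 237627246426) (nat_lit 76) (nat_lit 12417119046) (nat_lit 76) (nat_lit 10082885876) (nat_lit 4) (nat_lit 4) (nat_lit 5) (nat_lit 5) (nat_lit 5) (nat_lit 4) (nat_lit 527) (nat_lit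 369) (nat_lit 304)) (XT.lf (nat_lit 0) (nat_lit 268207898928) (nat_lit 76) (nat_lit 3402747051) (nat_lit 76) (nat_lit 1063647224) (nat_lit 4) (nat_lit 4) (nat_lit 5) (nat_lit 5) (nat_lit 5) (nat_lit 4) (nat_lit 528) (nat_lit 369) (nat_lit 303))) (XT.nd (nat_lit 78) (nat_lit 0) (nat_lit 0) (XT.lf (nat_lit 0) (nat_lit 8434014633) (nat_lit 152) (nat_lit 271191397631) (nat_lit 0) (nat_lit 6201886310) (nat_lit 2) (nat_lit 5) (nat_lit 4) (nat_lit 4) (nat_lit 2) (nat_lit 4) (nat_lit 529) (nat_lit 369) (nat_lit 302)) (XT.lf (nat_lit 0) (nat_lit 18469837620) (nat_lit 152) (nat_lit 264928788364) (nat_lit 0) (nat_lit 16233505297) (nat_lit 2) (nat_lit 5) (nat_lit 4) (nat_lit 4) (nat_lit 2) (nat_lit 4) (nat_lit 530) (nat_lit 369) (nat_lit 301)))) (XT.nd (nat_lit 156) (nat_lit 0) (nat_lit 0) (XT.nd (nat_lit 78) (nat_lit 0) (nat_lit 0) (XT.lf (nat_lit 0) (nat_lit 28975413912) (nat_lit 152) (nat_lit 258418315907)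 (nat_lit 0) (nat_lit 26735077778) (nat_lit 2) (nat_lit 5) (nat_lit 4) (nat_lit 4) (nat_lit 2) (nat_lit 4) (nat_lit 531) (nat_lit 369) (nat_lit 300)) (XT.lf (nat_lit 0) (nat_lit 39975756786) (nat_lit 152) (nat_lit 251644479135) (nat_lit 0) (nat_lit 37731607499) (nat_lit 2) (nat_lit 5) (nat_lit 4) (nat_lit 4) (nat_lit 2) (nat_lit 4) (nat_lit 532) (nat_lit 369) (nat_lit 299))) (XT.nd (nat_lit 78) (nat_lit 0) (nat_lit 0) (XT.lf (nat_lit 0) (nat_lit 51497057534) (nat_lit 152) (nat_lit 244591149866) (nat_lit 0) (nat_lit 49249276673) (nat_lit 2) (nat_lit 5) (nat_lit 4) (nat_lit 4) (nat_lit 2) (nat_lit 4) (nat_lit 533) (nat_lit 369) (nat_lit 298)) (XT.lf (nat_lit 0) (nat_lit 63566747825) (nat_lit 152) (nat_lit 237241534458) (nat_lit 0) (nat_lit 61315508321) (nat_lit 2) (nat_lit 5) (nat_lit 4) (nat_lit 4) (nat_lit 2) (nat_lit 4) (nat_lit 534) (nat_lit 369) (nat_lit 297))))) (XT.nd (nat_lit 312) (nat_lit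 0) (nat_lit 0) (XT.nd (nat_lit 156) (nat_lit 0) (nat_lit 0) (XT.nd (nat_lit 78) (nat_lit 0) (nat_lit 0) (XT.lf (nat_lit 0) (nat_lit 76213565016) (nat_lit 152) (nat_lit 229578133827) (nat_lit 0) (nat_lit 73959031568) (nat_lit 2) (nat_lit 5) (nat_lit 4) (nat_lit 4) (nat_lit 2) (nat_lit 4) (nat_lit 535) (nat_lit 369) (nat_lit 296)) (XT.lf (nat_lit 0) (nat_lit 89467620578) (nat_lit 152) (nat_lit 221582701781) (nat_lit 0) (nat_lit 87209950038) (nat_lit 2) (nat_lit 5) (nat_lit 4) (nat_lit 4) (nat_lit 2) (nat_lit 4) (nat_lit 536) (nat_lit 369) (nat_lit 295))) (XT.nd (nat_lit 78) (nat_lit 0) (nat_lit 0) (XT.lf (nat_lit 0) (nat_lit 103360471784) (nat_lit 152) (nat_lit 213236201577) (nat_lit 0) (nat_lit 101099813540) (nat_lit 2) (nat_lit 5) (nat_lit 4) (nat_lit 4) (nat_lit 2) (nat_lit 4) (nat_lit 537) (nat_lit 369) (nat_lit 294)) (XT.lf (nat_lit 0) (nat_lit 117925196853) (nat_lit 152) (nat_lit 204518760596)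 (nat_lit 0) (nat_lit 115661693175) (nat_lit 2) (nat_lit 5) (nat_lit 4) (nat_lit 4) (nat_lit 2) (nat_lit 4) (nat_lit 538) (nat_lit 369) (nat_lit 293)))) (XT.nd (nat_lit 156) (nat_lit 0) (nat_lit 0) (XT.nd (nat_lit 78) (nat_lit 0) (nat_lit 0) (XT.lf (nat_lit 0) (nat_lit 133196473701) (nat_lit 152) (nat_lit 195409623025) (nat_lit 0) (nat_lit 130930260086) (nat_lit 2) (nat_lit 5) (nat_lit 4) (nat_lit 4) (nat_lit 2) (nat_lit 4) (nat_lit 539) (nat_lit 369) (nat_lit 292)) (XT.lf (nat_lit 0) (nat_lit 149210662510) (nat_lit 152) (nat_lit 185887100442) (nat_lit 0) (nat_lit 146941868004) (nat_lit 2) (nat_lit 5) (nat_lit 4) (nat_lit 4) (nat_lit 2) (nat_lit 4) (nat_lit 540) (nat_lit 369) (nat_lit 291))) (XT.nd (nat_lit 78) (nat_lit 0) (nat_lit 0) (XT.lf (nat_lit 0) (nat_lit 166005892303) (nat_lit 152) (nat_lit 175928520174) (nat_lit 0) (nat_lit 163734639804) (nat_lit 2) (nat_lit 5) (nat_lit 4) (nat_lit 4)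 (nat_lit 2) (nat_lit 4) (nat_lit 541) (nat_lit 369) (nat_lit 290)) (XT.lf (nat_lit 0) (nat_lit 183622151722) (nat_lit 152) (nat_lit 165510171316) (nat_lit 0) (nat_lit 181348558278) (nat_lit 2) (nat_lit 5) (nat_lit 4) (nat_lit 4) (nat_lit 2) (nat_lit 4) (nat_lit 542) (nat_lit 369) (nat_lit 289))))))) (XT.nd (nat_lit 56394) (nat_lit 0) (nat_lit 1368) (XT.nd (nat_lit 546) (nat_lit 0) (nat_lit 0) (XT.nd (nat_lit 234) (nat_lit 0) (nat_lit 0) (XT.nd (nat_lit 78) (nat_lit 0) (nat_lit 0) (XT.lf (nat_lit 0) (nat_lit 202101384241) (nat_lit 152) (nat_lit 154607248275) (nat_lit 0) (nat_lit 199825561325) (nat_lit 2) (nat_lit 5) (nat_lit 4) (nat_lit 4) (nat_lit 2) (nat_lit 4) (nat_lit 543) (nat_lit 369) (nat_lit 288)) (XT.nd (nat_lit 78) (nat_lit 0) (nat_lit 0) (XT.lf (nat_lit 0) (nat_lit 221487588032) (nat_lit 152) (nat_lit 143193791710) (nat_lit 0) (nat_lit 219209641810) (nat_lit 2) (nat_lit 5) (nat_lit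 4) (nat_lit 4) (nat_lit 2) (nat_lit 4) (nat_lit 544) (nat_lit 369) (nat_lit 287)) (XT.lf (nat_lit 0) (nat_lit 241826920725) (nat_lit 152) (nat_lit 131242626725) (nat_lit 0) (nat_lit 239546952306) (nat_lit 2) (nat_lit 5) (nat_lit 4) (nat_lit 4) (nat_lit 2) (nat_lit 4) (nat_lit 545) (nat_lit 369) (nat_lit 286)))) (XT.nd (nat_lit 156) (nat_lit 0) (nat_lit 0) (XT.nd (nat_lit 78) (nat_lit 0) (nat_lit 0) (XT.lf (nat_lit 0) (nat_lit 263167809301) (nat_lit 152) (nat_lit 118725298166) (nat_lit 0) (nat_lit 260885914981) (nat_lit 2) (nat_lit 5) (nat_lit 4) (nat_lit 4) (nat_lit 2) (nat_lit 4) (nat_lit 546) (nat_lit 369) (nat_lit 285)) (XT.lf (nat_lit 0) (nat_lit 285561065400) (nat_lit 152) (nat_lit 105612002868) (nat_lit 0) (nat_lit 283277336888) (nat_lit 2) (nat_lit 5) (nat_lit 4) (nat_lit 4) (nat_lit 2) (nat_lit 4) (nat_lit 547) (nat_lit 369) (nat_lit 284))) (XT.nd (nat_lit 78) (nat_lit 0) (nat_lit 0)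 (XT.lf (nat_lit 0) (nat_lit 309060006299) (nat_lit 152) (nat_lit 91871518701) (nat_lit 0) (nat_lit 306774530938) (nat_lit 2) (nat_lit 5) (nat_lit 4) (nat_lit 4) (nat_lit 2) (nat_lit 4) (nat_lit 548) (nat_lit 369) (nat_lit 283)) (XT.lf (nat_lit 0) (nat_lit 333720581857) (nat_lit 152) (nat_lit 77471130225) (nat_lit 0) (nat_lit 331433442829) (nat_lit 2) (nat_lit 5) (nat_lit 4) (nat_lit 4) (nat_lit 2) (nat_lit 4) (nat_lit 549) (nat_lit 369) (nat_lit 282))))) (XT.nd (nat_lit 55536) (nat_lit 0) (nat_lit 2660) (XT.nd (nat_lit 156) (nat_lit 0) (nat_lit 0) (XT.nd (nat_lit 78) (nat_lit 0) (nat_lit 0) (XT.lf (nat_lit 0) (nat_lit 359601507729) (nat_lit 152) (nat_lit 62376550803) (nat_lit 0) (nat_lit 357312784258) (nat_lit 2) (nat_lit 5) (nat_lit 4) (nat_lit 4) (nat_lit 2) (nat_lit 4) (nat_lit 550) (nat_lit 369) (nat_lit 281)) (XT.lf (nat_lit 0) (nat_lit 386764405168) (nat_lit 152) (nat_lit 46551840958) (nat_lit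 0) (nat_lit 384474172703) (nat_lit 2) (nat_lit 5) (nat_lit 4) (nat_lit 4) (nat_lit 2) (nat_lit 4) (nat_lit 551) (nat_lit 369) (nat_lit 280))) (XT.nd (nat_lit 55302) (nat_lit 0) (nat_lit 2964) (XT.lf (nat_lit 0) (nat_lit 415273947740) (nat_lit 152) (nat_lit 29959322810) (nat_lit 0) (nat_lit 412982278137) (nat_lit 2) (nat_lit 5) (nat_lit 4) (nat_lit 4) (nat_lit 2) (nat_lit 4) (nat_lit 552) (nat_lit 369) (nat_lit 279)) (XT.lf (nat_lit 0) (nat_lit 3009211907) (nat_lit 152) (nat_lit 3256612517) (nat_lit 0) (nat_lit 3009211907) (nat_lit 41) (nat_lit 5) (nat_lit 43) (nat_lit 4) (nat_lit 41) (nat_lit 4) (nat_lit 460) (nat_lit 370) (nat_lit 370)))) (XT.nd (nat_lit 156) (nat_lit 76) (nat_lit 0) (XT.nd (nat_lit 78) (nat_lit 152) (nat_lit 0) (XT.lf (nat_lit 0) (nat_lit 9356800559) (nat_lit 76) (nat_lit 4963929286) (nat_lit 76) (nat_lit 4745155108) (nat_lit 40) (nat_lit 4) (nat_lit 41) (nat_lit 5) (nat_lit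 41) (nat_lit 4) (nat_lit 461) (nat_lit 370) (nat_lit 369)) (XT.lf (nat_lit 0) (nat_lit 3310621208) (nat_lit 152) (nat_lit 13390874380) (nat_lit 0) (nat_lit 2903830220) (nat_lit 38) (nat_lit 5) (nat_lit 40) (nat_lit 4) (nat_lit 38) (nat_lit 4) (nat_lit 462) (nat_lit 370) (nat_lit 368))) (XT.nd (nat_lit 78) (nat_lit 0) (nat_lit 0) (XT.lf (nat_lit 0) (nat_lit 2499245144) (nat_lit 76) (nat_lit 9131662429) (nat_lit 76) (nat_lit 8535886080) (nat_lit 37) (nat_lit 4) (nat_lit 38) (nat_lit 5) (nat_lit 38) (nat_lit 4) (nat_lit 463) (nat_lit 370) (nat_lit 367)) (XT.lf (nat_lit 0) (nat_lit 19130655596) (nat_lit 76) (nat_lit 1201596608) (nat_lit 76) (nat_lit 425834202) (nat_lit 37) (nat_lit 4) (nat_lit 38) (nat_lit 5) (nat_lit 38) (nat_lit 4) (nat_lit 464) (nat_lit 370) (nat_lit 366)))))) (XT.nd (nat_lit 624) (nat_lit 608) (nat_lit 0) (XT.nd (nat_lit 312) (nat_lit 304) (nat_lit 0) (XT.nd (nat_lit 156) (nat_lit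 152) (nat_lit 0) (XT.nd (nat_lit 78) (nat_lit 76) (nat_lit 0) (XT.lf (nat_lit 0) (nat_lit 7925991679) (nat_lit 152) (nat_lit 6417962995) (nat_lit 0) (nat_lit 7023917680) (nat_lit 35) (nat_lit 5) (nat_lit 37) (nat_lit 4) (nat_lit 35) (nat_lit 4) (nat_lit 465) (nat_lit 370) (nat_lit 365)) (XT.lf (nat_lit 0) (nat_lit 10202910299) (nat_lit 76) (nat_lit 6432367596) (nat_lit 76) (nat_lit 5374814874) (nat_lit 34) (nat_lit 4) (nat_lit 35) (nat_lit 5) (nat_lit 35) (nat_lit 4) (nat_lit 466) (nat_lit 370) (nat_lit 364))) (XT.nd (nat_lit 78) (nat_lit 0) (nat_lit 0) (XT.lf (nat_lit 0) (nat_lit 2958550099) (nat_lit 152) (nat_lit 17915025988) (nat_lit 0) (nat_lit 1810333244) (nat_lit 32) (nat_lit 5) (nat_lit 34) (nat_lit 4) (nat_lit 32) (nat_lit 4) (nat_lit 467) (nat_lit 370) (nat_lit 363)) (XT.lf (nat_lit 0) (nat_lit 11584522169) (nat_lit 152) (nat_lit 1497666398) (nat_lit 0) (nat_lit 10301996947) (nat_lit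 32) (nat_lit 5) (nat_lit 34) (nat_lit 4) (nat_lit 32) (nat_lit 4) (nat_lit 468) (nat_lit 370) (nat_lit 362)))) (XT.nd (nat_lit 156) (nat_lit 76) (nat_lit 0) (XT.nd (nat_lit 78) (nat_lit 152) (nat_lit 0) (XT.lf (nat_lit 0) (nat_lit 15766048963) (nat_lit 76) (nat_lit 4881782598) (nat_lit 76) (nat_lit 3471344645) (nat_lit 31) (nat_lit 4) (nat_lit 32) (nat_lit 5) (nat_lit 32) (nat_lit 4) (nat_lit 469) (nat_lit 370) (nat_lit 361)) (XT.lf (nat_lit 0) (nat_lit 5085958781) (nat_lit 152) (nat_lit 16175111991) (nat_lit 0) (nat_lit 3626663924) (nat_lit 29) (nat_lit 5) (nat_lit 31) (nat_lit 4) (nat_lit 29) (nat_lit 4) (nat_lit 470) (nat_lit 370) (nat_lit 360))) (XT.nd (nat_lit 78) (nat_lit 0) (nat_lit 0) (XT.lf (nat_lit 0) (nat_lit 635380237) (nat_lit 76) (nat_lit 13313289186) (nat_lit 76) (nat_lit 11743498503) (nat_lit 28) (nat_lit 4) (nat_lit 29) (nat_lit 5) (nat_lit 29) (nat_lit 4) (nat_lit 471) (nat_lit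 370) (nat_lit 359)) (XT.lf (nat_lit 0) (nat_lit 18375983499) (nat_lit 76) (nat_lit 4916972145) (nat_lit 76) (nat_lit 3241947341) (nat_lit 28) (nat_lit 4) (nat_lit 29) (nat_lit 5) (nat_lit 29) (nat_lit 4) (nat_lit 472) (nat_lit 370) (nat_lit 358))))) (XT.nd (nat_lit 312) (nat_lit 228) (nat_lit 0) (XT.nd (nat_lit 156) (nat_lit 228) (nat_lit 0) (XT.nd (nat_lit 78) (nat_lit 0) (nat_lit 0) (XT.lf (nat_lit 0) (nat_lit 5481697911) (nat_lit 152) (nat_lit 18143707329) (nat_lit 0) (nat_lit 3790985744) (nat_lit 26) (nat_lit 5) (nat_lit 28) (nat_lit 4) (nat_lit 26) (nat_lit 4) (nat_lit 473) (nat_lit 370) (nat_lit 357)) (XT.lf (nat_lit 0) (nat_lit 14525976347) (nat_lit 152) (nat_lit 1069292504) (nat_lit 0) (nat_lit 12744358991) (nat_lit 26) (nat_lit 5) (nat_lit 28) (nat_lit 4) (nat_lit 26) (nat_lit 4) (nat_lit 474) (nat_lit 370) (nat_lit 356))) (XT.nd (nat_lit 78) (nat_lit 152) (nat_lit 0) (XT.lf (nat_lit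 0) (nat_lit 16966293106) (nat_lit 76) (nat_lit 7104262308) (nat_lit 76) (nat_lit 5236068580) (nat_lit 25) (nat_lit 4) (nat_lit 26) (nat_lit 5) (nat_lit 26) (nat_lit 4) (nat_lit 475) (nat_lit 370) (nat_lit 355)) (XT.lf (nat_lit 0) (nat_lit 3561595268) (nat_lit 152) (nat_lit 25058003263) (nat_lit 0) (nat_lit 1703835826) (nat_lit 23) (nat_lit 5) (nat_lit 25) (nat_lit 4) (nat_lit 23) (nat_lit 4) (nat_lit 476) (nat_lit 370) (nat_lit 354)))) (XT.nd (nat_lit 156) (nat_lit 152) (nat_lit 0) (XT.nd (nat_lit 78) (nat_lit 76) (nat_lit 0) (XT.lf (nat_lit 0) (nat_lit 12735644740) (nat_lit 152) (nat_lit 7842429374) (nat_lit 0) (nat_lit 10803097373) (nat_lit 23) (nat_lit 5) (nat_lit 25) (nat_lit 4) (nat_lit 23) (nat_lit 4) (nat_lit 477) (nat_lit 370) (nat_lit 353)) (XT.lf (nat_lit 0) (nat_lit 10143358161) (nat_lit 76) (nat_lit 12177299838) (nat_lit 76) (nat_lit 10173525876) (nat_lit 22) (nat_lit 4) (nat_lit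 23) (nat_lit 5) (nat_lit 23) (nat_lit 4) (nat_lit 478) (nat_lit 370) (nat_lit 352))) (XT.nd (nat_lit 78) (nat_lit 152) (nat_lit 0) (XT.lf (nat_lit 0) (nat_lit 28892187688) (nat_lit 76) (nat_lit 3422881034) (nat_lit 76) (nat_lit 1351272221) (nat_lit 22) (nat_lit 4) (nat_lit 23) (nat_lit 5) (nat_lit 23) (nat_lit 4) (nat_lit 479) (nat_lit 370) (nat_lit 351)) (XT.lf (nat_lit 0) (nat_lit 7767436082) (nat_lit 152) (nat_lit 21385118538) (nat_lit 0) (nat_lit 5732947096) (nat_lit 20) (nat_lit 5) (nat_lit 22) (nat_lit 4) (nat_lit 20) (nat_lit 4) (nat_lit 480) (nat_lit 370) (nat_lit 350))))))))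
noncomputable def xc35 : XT := (XT.nd (nat_lit 2418) (nat_lit 228) (nat_lit 0) (XT.nd (nat_lit 1170) (nat_lit 456) (nat_lit 0) (XT.nd (nat_lit 546) (nat_lit 380) (nat_lit 0) (XT.nd (nat_lit 234) (nat_lit 228) (nat_lit 0) (XT.nd (nat_lit 78) (nat_lit 76) (nat_lit 0) (XT.lf (nat_lit 0) (nat_lit 17238977730) (nat_lit 152) (nat_lit 3782530480) (nat_lit 0) (nat_lit 15145890449) (nat_lit 20) (nat_lit 5) (nat_lit 22) (nat_lit 4) (nat_lit 20) (nat_lit 4) (nat_lit 481) (nat_lit 370) (nat_lit 349)) (XT.nd (nat_lit 78) (nat_lit 0) (nat_lit 0) (XT.lf (nat_lit 0) (nat_lit 14796868141) (nat_lit 76) (nat_lit 12431600027) (nat_lit 76) (nat_lit 10282704846) (nat_lit 19) (nat_lit 4) (nat_lit 20) (nat_lit 5) (nat_lit 20) (nat_lit 4) (nat_lit 482) (nat_lit 370) (nat_lit 348)) (XT.lf (nat_lit 0) (nat_lit 34065725795) (nat_lit 76) (nat_lit 3532215765) (nat_lit 76) (nat_lit 1330170202) (nat_lit 19) (nat_lit 4) (nat_lit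 20) (nat_lit 5) (nat_lit 20) (nat_lit 4) (nat_lit 483) (nat_lit 370) (nat_lit 347)))) (XT.nd (nat_lit 156) (nat_lit 76) (nat_lit 0) (XT.nd (nat_lit 78) (nat_lit 0) (nat_lit 0) (XT.lf (nat_lit 0) (nat_lit 7943626123) (nat_lit 152) (nat_lit 26661145398) (nat_lit 0) (nat_lit 5798230909) (nat_lit 17) (nat_lit 5) (nat_lit 19) (nat_lit 4) (nat_lit 17) (nat_lit 4) (nat_lit 484) (nat_lit 370) (nat_lit 346)) (XT.lf (nat_lit 0) (nat_lit 17600493164) (nat_lit 152) (nat_lit 8942666291) (nat_lit 0) (nat_lit 15409184652) (nat_lit 17) (nat_lit 5) (nat_lit 19) (nat_lit 4) (nat_lit 17) (nat_lit 4) (nat_lit 485) (nat_lit 370) (nat_lit 345))) (XT.nd (nat_lit 78) (nat_lit 0) (nat_lit 0) (XT.lf (nat_lit 0) (nat_lit 9627783045) (nat_lit 76) (nat_lit 18093671811) (nat_lit 76) (nat_lit 15858636348) (nat_lit 16) (nat_lit 4) (nat_lit 17) (nat_lit 5) (nat_lit 17) (nat_lit 4) (nat_lit 486) (nat_lit 370) (nat_lit 344)) (XT.lf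 (nat_lit 0) (nat_lit 29100638911) (nat_lit 76) (nat_lit 9233004424) (nat_lit 76) (nat_lit 6956324246) (nat_lit 16) (nat_lit 4) (nat_lit 17) (nat_lit 5) (nat_lit 17) (nat_lit 4) (nat_lit 487) (nat_lit 370) (nat_lit 343))))) (XT.nd (nat_lit 312) (nat_lit 152) (nat_lit 0) (XT.nd (nat_lit 156) (nat_lit 76) (nat_lit 0) (XT.nd (nat_lit 78) (nat_lit 0) (nat_lit 0) (XT.lf (nat_lit 0) (nat_lit 2167977040) (nat_lit 76) (nat_lit 19495569) (nat_lit 152) (nat_lit 44902354385) (nat_lit 14) (nat_lit 5) (nat_lit 15) (nat_lit 5) (nat_lit 16) (nat_lit 4) (nat_lit 488) (nat_lit 370) (nat_lit 342)) (XT.lf (nat_lit 0) (nat_lit 11823261836) (nat_lit 152) (nat_lit 27556039600) (nat_lit 0) (nat_lit 9581247747) (nat_lit 14) (nat_lit 5) (nat_lit 16) (nat_lit 4) (nat_lit 14) (nat_lit 4) (nat_lit 489) (nat_lit 370) (nat_lit 341))) (XT.nd (nat_lit 78) (nat_lit 76) (nat_lit 0) (XT.lf (nat_lit 0) (nat_lit 21787993567) (nat_lit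 152) (nat_lit 9632738701) (nat_lit 0) (nat_lit 19511718268) (nat_lit 14) (nat_lit 5) (nat_lit 16) (nat_lit 4) (nat_lit 14) (nat_lit 4) (nat_lit 490) (nat_lit 370) (nat_lit 340)) (XT.lf (nat_lit 0) (nat_lit 9185009308) (nat_lit 76) (nat_lit 23063483401) (nat_lit 76) (nat_lit 20754578378) (nat_lit 13) (nat_lit 4) (nat_lit 14) (nat_lit 5) (nat_lit 14) (nat_lit 4) (nat_lit 491) (nat_lit 370) (nat_lit 339)))) (XT.nd (nat_lit 156) (nat_lit 152) (nat_lit 0) (XT.nd (nat_lit 78) (nat_lit 0) (nat_lit 0) (XT.lf (nat_lit 0) (nat_lit 28987145346) (nat_lit 76) (nat_lit 14264537798) (nat_lit 76) (nat_lit 11924556848) (nat_lit 13) (nat_lit 4) (nat_lit 14) (nat_lit 5) (nat_lit 14) (nat_lit 4) (nat_lit 492) (nat_lit 370) (nat_lit 338)) (XT.lf (nat_lit 0) (nat_lit 49502315510) (nat_lit 76) (nat_lit 5166080680) (nat_lit 76) (nat_lit 2796503608) (nat_lit 13) (nat_lit 4) (nat_lit 14) (nat_lit 5) (nat_lit 14) (nat_lit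 4) (nat_lit 493) (nat_lit 370) (nat_lit 337))) (XT.nd (nat_lit 78) (nat_lit 0) (nat_lit 0) (XT.lf (nat_lit 0) (nat_lit 6683609331) (nat_lit 152) (nat_lit 48773414464) (nat_lit 0) (nat_lit 4400024708) (nat_lit 11) (nat_lit 5) (nat_lit 13) (nat_lit 4) (nat_lit 11) (nat_lit 4) (nat_lit 494) (nat_lit 370) (nat_lit 336)) (XT.lf (nat_lit 0) (nat_lit 16633321610) (nat_lit 152) (nat_lit 31404541872) (nat_lit 0) (nat_lit 14324170745) (nat_lit 11) (nat_lit 5) (nat_lit 13) (nat_lit 4) (nat_lit 11) (nat_lit 4) (nat_lit 495) (nat_lit 370) (nat_lit 335)))))) (XT.nd (nat_lit 624) (nat_lit 228) (nat_lit 0) (XT.nd (nat_lit 312) (nat_lit 152) (nat_lit 0) (XT.nd (nat_lit 156) (nat_lit 0) (nat_lit 0) (XT.nd (nat_lit 78) (nat_lit 76) (nat_lit 0) (XT.lf (nat_lit 0) (nat_lit 26954637436) (nat_lit 152) (nat_lit 13422788641) (nat_lit 0) (nat_lit 24621137768) (nat_lit 11) (nat_lit 5) (nat_lit 13) (nat_lit 4) (nat_lit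 11) (nat_lit 4) (nat_lit 496) (nat_lit 370) (nat_lit 334)) (XT.lf (nat_lit 0) (nat_lit 5387079101) (nat_lit 76) (nat_lit 32369159668) (nat_lit 76) (nat_lit 30012470665) (nat_lit 10) (nat_lit 4) (nat_lit 11) (nat_lit 5) (nat_lit 11) (nat_lit 4) (nat_lit 497) (nat_lit 370) (nat_lit 333))) (XT.nd (nat_lit 78) (nat_lit 0) (nat_lit 0) (XT.lf (nat_lit 0) (nat_lit 25363981517) (nat_lit 76) (nat_lit 23843342566) (nat_lit 76) (nat_lit 21464568481) (nat_lit 10) (nat_lit 4) (nat_lit 11) (nat_lit 5) (nat_lit 11) (nat_lit 4) (nat_lit 498) (nat_lit 370) (nat_lit 332)) (XT.lf (nat_lit 0) (nat_lit 46111664649) (nat_lit 76) (nat_lit 15006996624) (nat_lit 76) (nat_lit 12607189129) (nat_lit 10) (nat_lit 4) (nat_lit 11) (nat_lit 5) (nat_lit 11) (nat_lit 4) (nat_lit 499) (nat_lit 370) (nat_lit 331)))) (XT.nd (nat_lit 156) (nat_lit 0) (nat_lit 0) (XT.nd (nat_lit 78) (nat_lit 152) (nat_lit 0) (XT.lf (nat_lit 0) (nat_lit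 67679527742) (nat_lit 76) (nat_lit 5839082926) (nat_lit 76) (nat_lit 3419243611) (nat_lit 10) (nat_lit 4) (nat_lit 11) (nat_lit 5) (nat_lit 11) (nat_lit 4) (nat_lit 500) (nat_lit 370) (nat_lit 330)) (XT.lf (nat_lit 0) (nat_lit 6143430175) (nat_lit 152) (nat_lit 70335781341) (nat_lit 0) (nat_lit 3820651852) (nat_lit 8) (nat_lit 5) (nat_lit 10) (nat_lit 4) (nat_lit 8) (nat_lit 4) (nat_lit 501) (nat_lit 370) (nat_lit 329))) (XT.nd (nat_lit 78) (nat_lit 0) (nat_lit 0) (XT.lf (nat_lit 0) (nat_lit 16220943740) (nat_lit 152) (nat_lit 53717784934) (nat_lit 0) (nat_lit 13880861179) (nat_lit 8) (nat_lit 5) (nat_lit 10) (nat_lit 4) (nat_lit 8) (nat_lit 4) (nat_lit 502) (nat_lit 370) (nat_lit 328)) (XT.lf (nat_lit 0) (nat_lit 26703788020) (nat_lit 152) (nat_lit 36469217000) (nat_lit 0) (nat_lit 24347225231) (nat_lit 8) (nat_lit 5) (nat_lit 10) (nat_lit 4) (nat_lit 8) (nat_lit 4) (nat_lit 503) (nat_lit 370)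 (nat_lit 327))))) (XT.nd (nat_lit 312) (nat_lit 152) (nat_lit 0) (XT.nd (nat_lit 156) (nat_lit 0) (nat_lit 0) (XT.nd (nat_lit 78) (nat_lit 76) (nat_lit 0) (XT.lf (nat_lit 0) (nat_lit 37616922168) (nat_lit 152) (nat_lit 18549009519) (nat_lit 0) (nat_lit 35244663924) (nat_lit 8) (nat_lit 5) (nat_lit 10) (nat_lit 4) (nat_lit 8) (nat_lit 4) (nat_lit 504) (nat_lit 370) (nat_lit 326)) (XT.lf (nat_lit 0) (nat_lit 88331839) (nat_lit 76) (nat_lit 48899377104) (nat_lit 76) (nat_lit 46512170807) (nat_lit 7) (nat_lit 4) (nat_lit 8) (nat_lit 5) (nat_lit 8) (nat_lit 4) (nat_lit 505) (nat_lit 370) (nat_lit 325))) (XT.nd (nat_lit 78) (nat_lit 0) (nat_lit 0) (XT.lf (nat_lit 0) (nat_lit 20122747028) (nat_lit 76) (nat_lit 41030506488) (nat_lit 76) (nat_lit 38629063951) (nat_lit 7) (nat_lit 4) (nat_lit 8) (nat_lit 5) (nat_lit 8) (nat_lit 4) (nat_lit 506) (nat_lit 370) (nat_lit 324)) (XT.lf (nat_lit 0) (nat_lit 40988623014)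 (nat_lit 76) (nat_lit 32854720884) (nat_lit 76) (nat_lit 30439720023) (nat_lit 7) (nat_lit 4) (nat_lit 8) (nat_lit 5) (nat_lit 8) (nat_lit 4) (nat_lit 507) (nat_lit 370) (nat_lit 323)))) (XT.nd (nat_lit 156) (nat_lit 152) (nat_lit 0) (XT.nd (nat_lit 78) (nat_lit 0) (nat_lit 0) (XT.lf (nat_lit 0) (nat_lit 62735640451) (nat_lit 76) (nat_lit 24352554137) (nat_lit 76) (nat_lit 21924640586) (nat_lit 7) (nat_lit 4) (nat_lit 8) (nat_lit 5) (nat_lit 8) (nat_lit 4) (nat_lit 508) (nat_lit 370) (nat_lit 322)) (XT.lf (nat_lit 0) (nat_lit 85415577954) (nat_lit 76) (nat_lit 15503762991) (nat_lit 76) (nat_lit 13063551641) (nat_lit 7) (nat_lit 4) (nat_lit 8) (nat_lit 5) (nat_lit 8) (nat_lit 4) (nat_lit 509) (nat_lit 370) (nat_lit 321))) (XT.nd (nat_lit 78) (nat_lit 152) (nat_lit 0) (XT.lf (nat_lit 0) (nat_lit 109082435374) (nat_lit 76) (nat_lit 6287278898) (nat_lit 76) (nat_lit 3835355357) (nat_lit 7) (nat_lit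 4) (nat_lit 8) (nat_lit 5) (nat_lit 8) (nat_lit 4) (nat_lit 510) (nat_lit 370) (nat_lit 320)) (XT.lf (nat_lit 0) (nat_lit 5797871859) (nat_lit 152) (nat_lit 115427280856) (nat_lit 0) (nat_lit 3452083280) (nat_lit 5) (nat_lit 5) (nat_lit 7) (nat_lit 4) (nat_lit 5) (nat_lit 4) (nat_lit 511) (nat_lit 370) (nat_lit 319))))))) (XT.nd (nat_lit 1170) (nat_lit 152) (nat_lit 0) (XT.nd (nat_lit 546) (nat_lit 0) (nat_lit 0) (XT.nd (nat_lit 234) (nat_lit 76) (nat_lit 0) (XT.nd (nat_lit 78) (nat_lit 0) (nat_lit 0) (XT.lf (nat_lit 0) (nat_lit 15991198859) (nat_lit 152) (nat_lit 100783008868) (nat_lit 0) (nat_lit 13635292849) (nat_lit 5) (nat_lit 5) (nat_lit 7) (nat_lit 4) (nat_lit 5) (nat_lit 4) (nat_lit 512) (nat_lit 370) (nat_lit 318)) (XT.nd (nat_lit 78) (nat_lit 0) (nat_lit 0) (XT.lf (nat_lit 0) (nat_lit 26627543925) (nat_lit 152) (nat_lit 85542164809) (nat_lit 0) (nat_lit 24262002268) (nat_lit 5) (nat_lit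 5) (nat_lit 7) (nat_lit 4) (nat_lit 5) (nat_lit 4) (nat_lit 513) (nat_lit 370) (nat_lit 317)) (XT.lf (nat_lit 0) (nat_lit 37732231688) (nat_lit 152) (nat_lit 69668460952) (nat_lit 0) (nat_lit 35357513224) (nat_lit 5) (nat_lit 5) (nat_lit 7) (nat_lit 4) (nat_lit 5) (nat_lit 4) (nat_lit 514) (nat_lit 370) (nat_lit 316)))) (XT.nd (nat_lit 156) (nat_lit 76) (nat_lit 0) (XT.nd (nat_lit 78) (nat_lit 0) (nat_lit 0) (XT.lf (nat_lit 0) (nat_lit 49331701882) (nat_lit 152) (nat_lit 53124102767) (nat_lit 0) (nat_lit 46948243600) (nat_lit 5) (nat_lit 5) (nat_lit 7) (nat_lit 4) (nat_lit 5) (nat_lit 4) (nat_lit 515) (nat_lit 370) (nat_lit 315)) (XT.lf (nat_lit 0) (nat_lit 61453572291) (nat_lit 152) (nat_lit 35869698922) (nat_lit 0) (nat_lit 59061790375) (nat_lit 5) (nat_lit 5) (nat_lit 7) (nat_lit 4) (nat_lit 5) (nat_lit 4) (nat_lit 516) (nat_lit 370) (nat_lit 314))) (XT.nd (nat_lit 78) (nat_lit 76) (nat_lit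 0) (XT.lf (nat_lit 0) (nat_lit 74126704513) (nat_lit 152) (nat_lit 17864167506) (nat_lit 0) (nat_lit 71726995326) (nat_lit 5) (nat_lit 5) (nat_lit 7) (nat_lit 4) (nat_lit 5) (nat_lit 4) (nat_lit 517) (nat_lit 370) (nat_lit 313)) (XT.lf (nat_lit 0) (nat_lit 966289081) (nat_lit 76) (nat_lit 86430070071) (nat_lit 76) (nat_lit 84022811102) (nat_lit 4) (nat_lit 4) (nat_lit 5) (nat_lit 5) (nat_lit 5) (nat_lit 4) (nat_lit 518) (nat_lit 370) (nat_lit 312))))) (XT.nd (nat_lit 312) (nat_lit 0) (nat_lit 0) (XT.nd (nat_lit 156) (nat_lit 0) (nat_lit 0) (XT.nd (nat_lit 78) (nat_lit 0) (nat_lit 0) (XT.lf (nat_lit 0) (nat_lit 21253907541) (nat_lit 76) (nat_lit 80326760782) (nat_lit 76) (nat_lit 77912311543) (nat_lit 4) (nat_lit 4) (nat_lit 5) (nat_lit 5) (nat_lit 5) (nat_lit 4) (nat_lit 519) (nat_lit 370) (nat_lit 311)) (XT.lf (nat_lit 0) (nat_lit 42456321675) (nat_lit 76) (nat_lit 73968950782) (nat_lit 76)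 (nat_lit 71547653669) (nat_lit 4) (nat_lit 4) (nat_lit 5) (nat_lit 5) (nat_lit 5) (nat_lit 4) (nat_lit 520) (nat_lit 370) (nat_lit 310))) (XT.nd (nat_lit 78) (nat_lit 0) (nat_lit 0) (XT.lf (nat_lit 0) (nat_lit 64624013419) (nat_lit 76) (nat_lit 67341502430) (nat_lit 76) (nat_lit 64913683531) (nat_lit 4) (nat_lit 4) (nat_lit 5) (nat_lit 5) (nat_lit 5) (nat_lit 4) (nat_lit 521) (nat_lit 370) (nat_lit 309)) (XT.lf (nat_lit 0) (nat_lit 87809762992) (nat_lit 76) (nat_lit 60428636087) (nat_lit 76) (nat_lit 57994605963) (nat_lit 4) (nat_lit 4) (nat_lit 5) (nat_lit 5) (nat_lit 5) (nat_lit 4) (nat_lit 522) (nat_lit 370) (nat_lit 308)))) (XT.nd (nat_lit 156) (nat_lit 0) (nat_lit 0) (XT.nd (nat_lit 78) (nat_lit 0) (nat_lit 0) (XT.lf (nat_lit 0) (nat_lit 112068774560) (nat_lit 76) (nat_lit 53213892546) (nat_lit 76) (nat_lit 50773946970) (nat_lit 4) (nat_lit 4) (nat_lit 5) (nat_lit 5) (nat_lit 5) (nat_lit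 4) (nat_lit 523) (nat_lit 370) (nat_lit 307)) (XT.lf (nat_lit 0) (nat_lit 137458807675) (nat_lit 76) (nat_lit 45680093847) (nat_lit 76) (nat_lit 43234514508) (nat_lit 4) (nat_lit 4) (nat_lit 5) (nat_lit 5) (nat_lit 5) (nat_lit 4) (nat_lit 524) (nat_lit 370) (nat_lit 306))) (XT.nd (nat_lit 78) (nat_lit 0) (nat_lit 0) (XT.lf (nat_lit 0) (nat_lit 164040314796) (nat_lit 76) (nat_lit 37809302375) (nat_lit 76) (nat_lit 35358357546) (nat_lit 4) (nat_lit 4) (nat_lit 5) (nat_lit 5) (nat_lit 5) (nat_lit 4) (nat_lit 525) (nat_lit 370) (nat_lit 305)) (XT.lf (nat_lit 0) (nat_lit 191876585225) (nat_lit 76) (nat_lit 29582778149) (nat_lit 76) (nat_lit 27126723330) (nat_lit 4) (nat_lit 4) (nat_lit 5) (nat_lit 5) (nat_lit 5) (nat_lit 4) (nat_lit 526) (nat_lit 370) (nat_lit 304)))))) (XT.nd (nat_lit 624) (nat_lit 0) (nat_lit 0) (XT.nd (nat_lit 312) (nat_lit 0) (nat_lit 0) (XT.nd (nat_lit 156) (nat_lit 152) (nat_lit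 0) (XT.nd (nat_lit 78) (nat_lit 0) (nat_lit 0) (XT.lf (nat_lit 0) (nat_lit 221033895797) (nat_lit 76) (nat_lit 20980934207) (nat_lit 76) (nat_lit 18520012731) (nat_lit 4) (nat_lit 4) (nat_lit 5) (nat_lit 5) (nat_lit 5) (nat_lit 4) (nat_lit 527) (nat_lit 370) (nat_lit 303)) (XT.lf (nat_lit 0) (nat_lit 251581668681) (nat_lit 76) (nat_lit 11983289968) (nat_lit 76) (nat_lit 9517733581) (nat_lit 4) (nat_lit 4) (nat_lit 5) (nat_lit 5) (nat_lit 5) (nat_lit 4) (nat_lit 528) (nat_lit 370) (nat_lit 302))) (XT.nd (nat_lit 78) (nat_lit 152) (nat_lit 0) (XT.lf (nat_lit 0) (nat_lit 283592636668) (nat_lit 76) (nat_lit 2568422470) (nat_lit 76) (nat_lit 98451882) (nat_lit 4) (nat_lit 4) (nat_lit 5) (nat_lit 5) (nat_lit 5) (nat_lit 4) (nat_lit 529) (nat_lit 370) (nat_lit 301)) (XT.lf (nat_lit 0) (nat_lit 9841074439) (nat_lit 152) (nat_lit 282743600883) (nat_lit 0) (nat_lit 7484717687) (nat_lit 2) (nat_lit 5) (nat_lit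 4) (nat_lit 4) (nat_lit 2) (nat_lit 4) (nat_lit 530) (nat_lit 370) (nat_lit 300)))) (XT.nd (nat_lit 156) (nat_lit 0) (nat_lit 0) (XT.nd (nat_lit 78) (nat_lit 0) (nat_lit 0) (XT.lf (nat_lit 0) (nat_lit 20331766715) (nat_lit 152) (nat_lit 276263450040) (nat_lit 0) (nat_lit 17971596810) (nat_lit 2) (nat_lit 5) (nat_lit 4) (nat_lit 4) (nat_lit 2) (nat_lit 4) (nat_lit 531) (nat_lit 370) (nat_lit 299)) (XT.lf (nat_lit 0) (nat_lit 31317934335) (nat_lit 152) (nat_lit 269518490996) (nat_lit 0) (nat_lit 28954132856) (nat_lit 2) (nat_lit 5) (nat_lit 4) (nat_lit 4) (nat_lit 2) (nat_lit 4) (nat_lit 532) (nat_lit 370) (nat_lit 298))) (XT.nd (nat_lit 78) (nat_lit 0) (nat_lit 0) (XT.lf (nat_lit 0) (nat_lit 42825734842) (nat_lit 152) (nat_lit 262492664324) (nat_lit 0) (nat_lit 40458474721) (nat_lit 2) (nat_lit 5) (nat_lit 4) (nat_lit 4) (nat_lit 2) (nat_lit 4) (nat_lit 533) (nat_lit 370) (nat_lit 297)) (XT.lf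 (nat_lit 0) (nat_lit 54882567760) (nat_lit 152) (nat_lit 255169241866) (nat_lit 0) (nat_lit 52512013694) (nat_lit 2) (nat_lit 5) (nat_lit 4) (nat_lit 4) (nat_lit 2) (nat_lit 4) (nat_lit 534) (nat_lit 370) (nat_lit 296))))) (XT.nd (nat_lit 312) (nat_lit 0) (nat_lit 0) (XT.nd (nat_lit 156) (nat_lit 0) (nat_lit 0) (XT.nd (nat_lit 78) (nat_lit 0) (nat_lit 0) (XT.lf (nat_lit 0) (nat_lit 67517139834) (nat_lit 152) (nat_lit 247530786902) (nat_lit 0) (nat_lit 65143448678) (nat_lit 2) (nat_lit 5) (nat_lit 4) (nat_lit 4) (nat_lit 2) (nat_lit 4) (nat_lit 535) (nat_lit 370) (nat_lit 295)) (XT.lf (nat_lit 0) (nat_lit 80759533380) (nat_lit 152) (nat_lit 239559112634) (nat_lit 0) (nat_lit 78382854518) (nat_lit 2) (nat_lit 5) (nat_lit 4) (nat_lit 4) (nat_lit 2) (nat_lit 4) (nat_lit 536) (nat_lit 370) (nat_lit 294))) (XT.nd (nat_lit 78) (nat_lit 0) (nat_lit 0) (XT.lf (nat_lit 0) (nat_lit 94641277904) (nat_lit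 152) (nat_lit 231235238885) (nat_lit 0) (nat_lit 92261753609) (nat_lit 2) (nat_lit 5) (nat_lit 4) (nat_lit 4) (nat_lit 2) (nat_lit 4) (nat_lit 537) (nat_lit 370) (nat_lit 293)) (XT.lf (nat_lit 0) (nat_lit 109195425180) (nat_lit 152) (nat_lit 222539346908) (nat_lit 0) (nat_lit 106813190948) (nat_lit 2) (nat_lit 5) (nat_lit 4) (nat_lit 4) (nat_lit 2) (nat_lit 4) (nat_lit 538) (nat_lit 370) (nat_lit 292)))) (XT.nd (nat_lit 156) (nat_lit 0) (nat_lit 0) (XT.nd (nat_lit 78) (nat_lit 0) (nat_lit 0) (XT.lf (nat_lit 0) (nat_lit 124456627940) (nat_lit 152) (nat_lit 213450732199) (nat_lit 0) (nat_lit 122071812816) (nat_lit 2) (nat_lit 5) (nat_lit 4) (nat_lit 4) (nat_lit 2) (nat_lit 4) (nat_lit 539) (nat_lit 370) (nat_lit 291)) (XT.lf (nat_lit 0) (nat_lit 140461222381) (nat_lit 152) (nat_lit 203947755198) (nat_lit 0) (nat_lit 138073949264) (nat_lit 2) (nat_lit 5) (nat_lit 4) (nat_lit 4) (nat_lit 2) (nat_lit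 4) (nat_lit 540) (nat_lit 370) (nat_lit 290))) (XT.nd (nat_lit 78) (nat_lit 0) (nat_lit 0) (XT.lf (nat_lit 0) (nat_lit 157247314679) (nat_lit 152) (nat_lit 194007789771) (nat_lit 0) (nat_lit 154857700617) (nat_lit 2) (nat_lit 5) (nat_lit 4) (nat_lit 4) (nat_lit 2) (nat_lit 4) (nat_lit 541) (nat_lit 370) (nat_lit 289)) (XT.lf (nat_lit 0) (nat_lit 174854871722) (nat_lit 152) (nat_lit 183607169332) (nat_lit 0) (nat_lit 172463028188) (nat_lit 2) (nat_lit 5) (nat_lit 4) (nat_lit 4) (nat_lit 2) (nat_lit 4) (nat_lit 542) (nat_lit 370) (nat_lit 288))))))))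
noncomputable def xc36 : XT := (XT.nd (nat_lit 57486) (nat_lit 0) (nat_lit 380) (XT.nd (nat_lit 56238) (nat_lit 0) (nat_lit 1520) (XT.nd (nat_lit 546) (nat_lit 0) (nat_lit 0) (XT.nd (nat_lit 234) (nat_lit 0) (nat_lit 0) (XT.nd (nat_lit 78) (nat_lit 0) (nat_lit 0) (XT.lf (nat_lit 0) (nat_lit 193325816263) (nat_lit 152) (nat_lit 172721130500) (nat_lit 0) (nat_lit 190931849424) (nat_lit 2) (nat_lit 5) (nat_lit 4) (nat_lit 4) (nat_lit 2) (nat_lit 4) (nat_lit 543) (nat_lit 370) (nat_lit 287)) (XT.nd (nat_lit 78) (nat_lit 0) (nat_lit 0) (XT.lf (nat_lit 0) (nat_lit 212704126743) (nat_lit 152) (nat_lit 161323754134) (nat_lit 0) (nat_lit 210308137707) (nat_lit 2) (nat_lit 5) (nat_lit 4) (nat_lit 4) (nat_lit 2) (nat_lit 4) (nat_lit 544) (nat_lit 370) (nat_lit 286)) (XT.lf (nat_lit 0) (nat_lit 233035941996) (nat_lit 152) (nat_lit 149387903625) (nat_lit 0) (nat_lit 230638027059) (nat_lit 2) (nat_lit 5) (nat_lit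 4) (nat_lit 4) (nat_lit 2) (nat_lit 4) (nat_lit 545) (nat_lit 370) (nat_lit 285)))) (XT.nd (nat_lit 156) (nat_lit 0) (nat_lit 0) (XT.nd (nat_lit 78) (nat_lit 0) (nat_lit 0) (XT.lf (nat_lit 0) (nat_lit 254369671106) (nat_lit 152) (nat_lit 136885160280) (nat_lit 0) (nat_lit 251969921977) (nat_lit 2) (nat_lit 5) (nat_lit 4) (nat_lit 4) (nat_lit 2) (nat_lit 4) (nat_lit 546) (nat_lit 370) (nat_lit 284)) (XT.lf (nat_lit 0) (nat_lit 276756108666) (nat_lit 152) (nat_lit 123785755663) (nat_lit 0) (nat_lit 274354612688) (nat_lit 2) (nat_lit 5) (nat_lit 4) (nat_lit 4) (nat_lit 2) (nat_lit 4) (nat_lit 547) (nat_lit 370) (nat_lit 283))) (XT.nd (nat_lit 78) (nat_lit 0) (nat_lit 0) (XT.lf (nat_lit 0) (nat_lit 300248555718) (nat_lit 152) (nat_lit 110058500715) (nat_lit 0) (nat_lit 297845396073) (nat_lit 2) (nat_lit 5) (nat_lit 4) (nat_lit 4) (nat_lit 2) (nat_lit 4) (nat_lit 548) (nat_lit 370) (nat_lit 282))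 (XT.lf (nat_lit 0) (nat_lit 324902946660) (nat_lit 152) (nat_lit 95670711497) (nat_lit 0) (nat_lit 322498202571) (nat_lit 2) (nat_lit 5) (nat_lit 4) (nat_lit 4) (nat_lit 2) (nat_lit 4) (nat_lit 549) (nat_lit 370) (nat_lit 281))))) (XT.nd (nat_lit 55380) (nat_lit 0) (nat_lit 2736) (XT.nd (nat_lit 156) (nat_lit 0) (nat_lit 0) (XT.nd (nat_lit 78) (nat_lit 0) (nat_lit 0) (XT.lf (nat_lit 0) (nat_lit 350777982421) (nat_lit 152) (nat_lit 80588131366) (nat_lit 0) (nat_lit 348371729339) (nat_lit 2) (nat_lit 5) (nat_lit 4) (nat_lit 4) (nat_lit 2) (nat_lit 4) (nat_lit 550) (nat_lit 370) (nat_lit 280)) (XT.lf (nat_lit 0) (nat_lit 377935270231) (nat_lit 152) (nat_lit 64774849418) (nat_lit 0) (nat_lit 375527580011) (nat_lit 2) (nat_lit 5) (nat_lit 4) (nat_lit 4) (nat_lit 2) (nat_lit 4) (nat_lit 551) (nat_lit 370) (nat_lit 279))) (XT.nd (nat_lit 55146) (nat_lit 0) (nat_lit 3192) (XT.lf (nat_lit 0) (nat_lit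 406439470299) (nat_lit 152) (nat_lit 48193214982) (nat_lit 0) (nat_lit 404030411377) (nat_lit 2) (nat_lit 5) (nat_lit 4) (nat_lit 4) (nat_lit 2) (nat_lit 4) (nat_lit 552) (nat_lit 370) (nat_lit 278)) (XT.lf (nat_lit 0) (nat_lit 4103178637) (nat_lit 152) (nat_lit 582528443) (nat_lit 0) (nat_lit 4103178637) (nat_lit 44) (nat_lit 5) (nat_lit 46) (nat_lit 4) (nat_lit 44) (nat_lit 4) (nat_lit 458) (nat_lit 371) (nat_lit 371)))) (XT.nd (nat_lit 156) (nat_lit 228) (nat_lit 0) (XT.nd (nat_lit 78) (nat_lit 152) (nat_lit 0) (XT.lf (nat_lit 0) (nat_lit 14341300602) (nat_lit 76) (nat_lit 1979274779) (nat_lit 76) (nat_lit 1738076248) (nat_lit 43) (nat_lit 4) (nat_lit 44) (nat_lit 5) (nat_lit 44) (nat_lit 4) (nat_lit 459) (nat_lit 371) (nat_lit 370)) (XT.lf (nat_lit 0) (nat_lit 6117733285) (nat_lit 152) (nat_lit 6769615532) (nat_lit 0) (nat_lit 5669246220) (nat_lit 41) (nat_lit 5) (nat_lit 43) (nat_lit 4)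 (nat_lit 41) (nat_lit 4) (nat_lit 460) (nat_lit 371) (nat_lit 369))) (XT.nd (nat_lit 78) (nat_lit 152) (nat_lit 0) (XT.lf (nat_lit 0) (nat_lit 8839677469) (nat_lit 76) (nat_lit 5448094375) (nat_lit 76) (nat_lit 4791250951) (nat_lit 40) (nat_lit 4) (nat_lit 41) (nat_lit 5) (nat_lit 41) (nat_lit 4) (nat_lit 461) (nat_lit 371) (nat_lit 368)) (XT.lf (nat_lit 0) (nat_lit 3119831605) (nat_lit 152) (nat_lit 14200697307) (nat_lit 0) (nat_lit 2305281079) (nat_lit 38) (nat_lit 5) (nat_lit 40) (nat_lit 4) (nat_lit 38) (nat_lit 4) (nat_lit 462) (nat_lit 371) (nat_lit 367)))))) (XT.nd (nat_lit 624) (nat_lit 532) (nat_lit 0) (XT.nd (nat_lit 312) (nat_lit 380) (nat_lit 0) (XT.nd (nat_lit 156) (nat_lit 228) (nat_lit 0) (XT.nd (nat_lit 78) (nat_lit 0) (nat_lit 0) (XT.lf (nat_lit 0) (nat_lit 1409906316) (nat_lit 76) (nat_lit 9889473413) (nat_lit 76) (nat_lit 8894936830) (nat_lit 37) (nat_lit 4) (nat_lit 38) (nat_lit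 5) (nat_lit 38) (nat_lit 4) (nat_lit 463) (nat_lit 371) (nat_lit 366)) (XT.lf (nat_lit 0) (nat_lit 17800612485) (nat_lit 76) (nat_lit 2078515133) (nat_lit 76) (nat_lit 912563256) (nat_lit 37) (nat_lit 4) (nat_lit 38) (nat_lit 5) (nat_lit 38) (nat_lit 4) (nat_lit 464) (nat_lit 371) (nat_lit 365))) (XT.nd (nat_lit 78) (nat_lit 76) (nat_lit 0) (XT.lf (nat_lit 0) (nat_lit 7295464414) (nat_lit 152) (nat_lit 8084807429) (nat_lit 0) (nat_lit 6029555332) (nat_lit 35) (nat_lit 5) (nat_lit 37) (nat_lit 4) (nat_lit 35) (nat_lit 4) (nat_lit 465) (nat_lit 371) (nat_lit 364)) (XT.lf (nat_lit 0) (nat_lit 8239849714) (nat_lit 76) (nat_lit 7616794374) (nat_lit 76) (nat_lit 6202810317) (nat_lit 34) (nat_lit 4) (nat_lit 35) (nat_lit 5) (nat_lit 35) (nat_lit 4) (nat_lit 466) (nat_lit 371) (nat_lit 363)))) (XT.nd (nat_lit 156) (nat_lit 228) (nat_lit 0) (XT.nd (nat_lit 78) (nat_lit 0) (nat_lit 0) (XT.lf (nat_lit 0)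 (nat_lit 1982587973) (nat_lit 152) (nat_lit 20258425976) (nat_lit 0) (nat_lit 501628123) (nat_lit 32) (nat_lit 5) (nat_lit 34) (nat_lit 4) (nat_lit 32) (nat_lit 4) (nat_lit 467) (nat_lit 371) (nat_lit 362)) (XT.lf (nat_lit 0) (nat_lit 10491431511) (nat_lit 152) (nat_lit 4074785525) (nat_lit 0) (nat_lit 8882558931) (nat_lit 32) (nat_lit 5) (nat_lit 34) (nat_lit 4) (nat_lit 32) (nat_lit 4) (nat_lit 468) (nat_lit 371) (nat_lit 361))) (XT.nd (nat_lit 78) (nat_lit 152) (nat_lit 0) (XT.lf (nat_lit 0) (nat_lit 12873769162) (nat_lit 76) (nat_lit 6524264165) (nat_lit 76) (nat_lit 4793569937) (nat_lit 31) (nat_lit 4) (nat_lit 32) (nat_lit 5) (nat_lit 32) (nat_lit 4) (nat_lit 469) (nat_lit 371) (nat_lit 360)) (XT.lf (nat_lit 0) (nat_lit 3614963250) (nat_lit 152) (nat_lit 19499599077) (nat_lit 0) (nat_lit 1856187206) (nat_lit 29) (nat_lit 5) (nat_lit 31) (nat_lit 4) (nat_lit 29) (nat_lit 4) (nat_lit 470)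 (nat_lit 371) (nat_lit 359))))) (XT.nd (nat_lit 312) (nat_lit 304) (nat_lit 0) (XT.nd (nat_lit 156) (nat_lit 152) (nat_lit 0) (XT.nd (nat_lit 78) (nat_lit 76) (nat_lit 0) (XT.lf (nat_lit 0) (nat_lit 12356473622) (nat_lit 152) (nat_lit 2932306756) (nat_lit 0) (nat_lit 10492463458) (nat_lit 29) (nat_lit 5) (nat_lit 31) (nat_lit 4) (nat_lit 29) (nat_lit 4) (nat_lit 471) (nat_lit 371) (nat_lit 358)) (XT.lf (nat_lit 0) (nat_lit 14492072006) (nat_lit 76) (nat_lit 7051988012) (nat_lit 76) (nat_lit 5087754876) (nat_lit 28) (nat_lit 4) (nat_lit 29) (nat_lit 5) (nat_lit 29) (nat_lit 4) (nat_lit 472) (nat_lit 371) (nat_lit 357))) (XT.nd (nat_lit 78) (nat_lit 0) (nat_lit 0) (XT.lf (nat_lit 0) (nat_lit 3485328467) (nat_lit 152) (nat_lit 22516173164) (nat_lit 0) (nat_lit 1523725052) (nat_lit 26) (nat_lit 5) (nat_lit 28) (nat_lit 4) (nat_lit 26) (nat_lit 4) (nat_lit 473) (nat_lit 371) (nat_lit 356)) (XT.lf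 (nat_lit 0) (nat_lit 12423848525) (nat_lit 152) (nat_lit 5654235066) (nat_lit 0) (nat_lit 10375668740) (nat_lit 26) (nat_lit 5) (nat_lit 28) (nat_lit 4) (nat_lit 26) (nat_lit 4) (nat_lit 474) (nat_lit 371) (nat_lit 355)))) (XT.nd (nat_lit 156) (nat_lit 152) (nat_lit 0) (XT.nd (nat_lit 78) (nat_lit 76) (nat_lit 0) (XT.lf (nat_lit 0) (nat_lit 12020701954) (nat_lit 76) (nat_lit 9769788835) (nat_lit 76) (nat_lit 7639155363) (nat_lit 25) (nat_lit 4) (nat_lit 26) (nat_lit 5) (nat_lit 26) (nat_lit 4) (nat_lit 475) (nat_lit 371) (nat_lit 354)) (XT.lf (nat_lit 0) (nat_lit 1024623723) (nat_lit 152) (nat_lit 108682158) (nat_lit 76) (nat_lit 29325567259) (nat_lit 24) (nat_lit 5) (nat_lit 26) (nat_lit 5) (nat_lit 25) (nat_lit 4) (nat_lit 476) (nat_lit 371) (nat_lit 353))) (XT.nd (nat_lit 78) (nat_lit 76) (nat_lit 0) (XT.lf (nat_lit 0) (nat_lit 10078658448) (nat_lit 152) (nat_lit 13540484083) (nat_lit 0) (nat_lit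 7903469193) (nat_lit 23) (nat_lit 5) (nat_lit 25) (nat_lit 4) (nat_lit 23) (nat_lit 4) (nat_lit 477) (nat_lit 371) (nat_lit 352)) (XT.lf (nat_lit 0) (nat_lit 4057622555) (nat_lit 76) (nat_lit 15415282344) (nat_lit 76) (nat_lit 13172258238) (nat_lit 22) (nat_lit 4) (nat_lit 23) (nat_lit 5) (nat_lit 23) (nat_lit 4) (nat_lit 478) (nat_lit 371) (nat_lit 351))))))) (XT.nd (nat_lit 1170) (nat_lit 456) (nat_lit 0) (XT.nd (nat_lit 546) (nat_lit 304) (nat_lit 0) (XT.nd (nat_lit 234) (nat_lit 228) (nat_lit 0) (XT.nd (nat_lit 78) (nat_lit 152) (nat_lit 0) (XT.lf (nat_lit 0) (nat_lit 22616664010) (nat_lit 76) (nat_lit 6756496660) (nat_lit 76) (nat_lit 4448867932) (nat_lit 22) (nat_lit 4) (nat_lit 23) (nat_lit 5) (nat_lit 23) (nat_lit 4) (nat_lit 479) (nat_lit 371) (nat_lit 350)) (XT.nd (nat_lit 78) (nat_lit 0) (nat_lit 0) (XT.lf (nat_lit 0) (nat_lit 4515905360) (nat_lit 152) (nat_lit 28280791163) (nat_lit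 0) (nat_lit 2259565419) (nat_lit 20) (nat_lit 5) (nat_lit 22) (nat_lit 4) (nat_lit 20) (nat_lit 4) (nat_lit 480) (nat_lit 371) (nat_lit 349)) (XT.lf (nat_lit 0) (nat_lit 13896398778) (nat_lit 152) (nat_lit 10862062143) (nat_lit 0) (nat_lit 11584250937) (nat_lit 20) (nat_lit 5) (nat_lit 22) (nat_lit 4) (nat_lit 20) (nat_lit 4) (nat_lit 481) (nat_lit 371) (nat_lit 348)))) (XT.nd (nat_lit 156) (nat_lit 152) (nat_lit 0) (XT.nd (nat_lit 78) (nat_lit 0) (nat_lit 0) (XT.lf (nat_lit 0) (nat_lit 7302361620) (nat_lit 76) (nat_lit 16379804747) (nat_lit 76) (nat_lit 14014506523) (nat_lit 19) (nat_lit 4) (nat_lit 20) (nat_lit 5) (nat_lit 20) (nat_lit 4) (nat_lit 482) (nat_lit 371) (nat_lit 347)) (XT.lf (nat_lit 0) (nat_lit 26398939684) (nat_lit 76) (nat_lit 7567426879) (nat_lit 76) (nat_lit 5151509245) (nat_lit 19) (nat_lit 4) (nat_lit 20) (nat_lit 5) (nat_lit 20) (nat_lit 4) (nat_lit 483) (nat_lit 371) (nat_lit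 346))) (XT.nd (nat_lit 78) (nat_lit 0) (nat_lit 0) (XT.lf (nat_lit 0) (nat_lit 3966202475) (nat_lit 152) (nat_lit 35024051878) (nat_lit 0) (nat_lit 1619415240) (nat_lit 17) (nat_lit 5) (nat_lit 19) (nat_lit 4) (nat_lit 17) (nat_lit 4) (nat_lit 484) (nat_lit 371) (nat_lit 345)) (XT.lf (nat_lit 0) (nat_lit 13540598601) (nat_lit 152) (nat_lit 17472452239) (nat_lit 0) (nat_lit 11150084415) (nat_lit 17) (nat_lit 5) (nat_lit 19) (nat_lit 4) (nat_lit 17) (nat_lit 4) (nat_lit 485) (nat_lit 371) (nat_lit 344))))) (XT.nd (nat_lit 312) (nat_lit 76) (nat_lit 0) (XT.nd (nat_lit 156) (nat_lit 152) (nat_lit 0) (XT.nd (nat_lit 78) (nat_lit 0) (nat_lit 0) (XT.lf (nat_lit 0) (nat_lit 651775989) (nat_lit 76) (nat_lit 22791099951) (nat_lit 76) (nat_lit 20358941050) (nat_lit 16) (nat_lit 4) (nat_lit 17) (nat_lit 5) (nat_lit 17) (nat_lit 4) (nat_lit 486) (nat_lit 371) (nat_lit 343)) (XT.lf (nat_lit 0) (nat_lit 19968262461)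 (nat_lit 76) (nat_lit 14009557042) (nat_lit 76) (nat_lit 11537736508) (nat_lit 16) (nat_lit 4) (nat_lit 17) (nat_lit 5) (nat_lit 17) (nat_lit 4) (nat_lit 487) (nat_lit 371) (nat_lit 342))) (XT.nd (nat_lit 78) (nat_lit 152) (nat_lit 0) (XT.lf (nat_lit 0) (nat_lit 39945280631) (nat_lit 76) (nat_lit 4943418112) (nat_lit 76) (nat_lit 2433824595) (nat_lit 16) (nat_lit 4) (nat_lit 17) (nat_lit 5) (nat_lit 17) (nat_lit 4) (nat_lit 488) (nat_lit 371) (nat_lit 341)) (XT.lf (nat_lit 0) (nat_lit 7007332189) (nat_lit 152) (nat_lit 37618458211) (nat_lit 0) (nat_lit 4582981914) (nat_lit 14) (nat_lit 5) (nat_lit 16) (nat_lit 4) (nat_lit 14) (nat_lit 4) (nat_lit 489) (nat_lit 371) (nat_lit 340)))) (XT.nd (nat_lit 156) (nat_lit 76) (nat_lit 0) (XT.nd (nat_lit 78) (nat_lit 0) (nat_lit 0) (XT.lf (nat_lit 0) (nat_lit 16900906403) (nat_lit 152) (nat_lit 19839399064) (nat_lit 0) (nat_lit 14443926404) (nat_lit 14)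 (nat_lit 5) (nat_lit 16) (nat_lit 4) (nat_lit 14) (nat_lit 4) (nat_lit 490) (nat_lit 371) (nat_lit 339)) (XT.lf (nat_lit 0) (nat_lit 27150232745) (nat_lit 152) (nat_lit 1453001811) (nat_lit 0) (nat_lit 24662176820) (nat_lit 14) (nat_lit 5) (nat_lit 16) (nat_lit 4) (nat_lit 14) (nat_lit 4) (nat_lit 491) (nat_lit 371) (nat_lit 338))) (XT.nd (nat_lit 78) (nat_lit 0) (nat_lit 0) (XT.lf (nat_lit 0) (nat_lit 18165934021) (nat_lit 76) (nat_lit 19897401494) (nat_lit 76) (nat_lit 17379749447) (nat_lit 13) (nat_lit 4) (nat_lit 14) (nat_lit 5) (nat_lit 14) (nat_lit 4) (nat_lit 492) (nat_lit 371) (nat_lit 337)) (XT.lf (nat_lit 0) (nat_lit 38552382848) (nat_lit 76) (nat_lit 10864187471) (nat_lit 76) (nat_lit 8318348642) (nat_lit 13) (nat_lit 4) (nat_lit 14) (nat_lit 5) (nat_lit 14) (nat_lit 4) (nat_lit 493) (nat_lit 371) (nat_lit 336)))))) (XT.nd (nat_lit 624) (nat_lit 228) (nat_lit 0) (XT.nd (nat_lit 312)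 (nat_lit 76) (nat_lit 0) (XT.nd (nat_lit 156) (nat_lit 0) (nat_lit 0) (XT.nd (nat_lit 78) (nat_lit 76) (nat_lit 0) (XT.lf (nat_lit 0) (nat_lit 1031872879) (nat_lit 152) (nat_lit 457343980) (nat_lit 76) (nat_lit 58657492887) (nat_lit 12) (nat_lit 5) (nat_lit 14) (nat_lit 5) (nat_lit 13) (nat_lit 4) (nat_lit 494) (nat_lit 371) (nat_lit 335)) (XT.lf (nat_lit 0) (nat_lit 10889430981) (nat_lit 152) (nat_lit 43351964916) (nat_lit 0) (nat_lit 8414907528) (nat_lit 11) (nat_lit 5) (nat_lit 13) (nat_lit 4) (nat_lit 11) (nat_lit 4) (nat_lit 495) (nat_lit 371) (nat_lit 334))) (XT.nd (nat_lit 78) (nat_lit 0) (nat_lit 0) (XT.lf (nat_lit 0) (nat_lit 21152265008) (nat_lit 152) (nat_lit 25488940136) (nat_lit 0) (nat_lit 18654552220) (nat_lit 11) (nat_lit 5) (nat_lit 13) (nat_lit 4) (nat_lit 11) (nat_lit 4) (nat_lit 496) (nat_lit 371) (nat_lit 333)) (XT.lf (nat_lit 0) (nat_lit 31814061991) (nat_lit 152) (nat_lit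 6964567283) (nat_lit 0) (nat_lit 29294264121) (nat_lit 11) (nat_lit 5) (nat_lit 13) (nat_lit 4) (nat_lit 11) (nat_lit 4) (nat_lit 497) (nat_lit 371) (nat_lit 332)))) (XT.nd (nat_lit 156) (nat_lit 0) (nat_lit 0) (XT.nd (nat_lit 78) (nat_lit 0) (nat_lit 0) (XT.lf (nat_lit 0) (nat_lit 12670804156) (nat_lit 76) (nat_lit 30427229764) (nat_lit 76) (nat_lit 27886398484) (nat_lit 10) (nat_lit 4) (nat_lit 11) (nat_lit 5) (nat_lit 11) (nat_lit 4) (nat_lit 498) (nat_lit 371) (nat_lit 331)) (XT.lf (nat_lit 0) (nat_lit 33312534022) (nat_lit 76) (nat_lit 21644664087) (nat_lit 76) (nat_lit 19083800986) (nat_lit 10) (nat_lit 4) (nat_lit 11) (nat_lit 5) (nat_lit 11) (nat_lit 4) (nat_lit 499) (nat_lit 371) (nat_lit 330))) (XT.nd (nat_lit 78) (nat_lit 0) (nat_lit 0) (XT.lf (nat_lit 0) (nat_lit 54779489242) (nat_lit 76) (nat_lit 12527969687) (nat_lit 76) (nat_lit 9948028663) (nat_lit 10) (nat_lit 4) (nat_lit 11)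 (nat_lit 5) (nat_lit 11) (nat_lit 4) (nat_lit 500) (nat_lit 371) (nat_lit 329)) (XT.lf (nat_lit 0) (nat_lit 77122781615) (nat_lit 76) (nat_lit 3055440150) (nat_lit 76) (nat_lit 457329675) (nat_lit 10) (nat_lit 4) (nat_lit 11) (nat_lit 5) (nat_lit 11) (nat_lit 4) (nat_lit 501) (nat_lit 371) (nat_lit 328))))) (XT.nd (nat_lit 312) (nat_lit 76) (nat_lit 0) (XT.nd (nat_lit 156) (nat_lit 0) (nat_lit 0) (XT.nd (nat_lit 78) (nat_lit 0) (nat_lit 0) (XT.lf (nat_lit 0) (nat_lit 9481460207) (nat_lit 152) (nat_lit 67691253898) (nat_lit 0) (nat_lit 6990589051) (nat_lit 8) (nat_lit 5) (nat_lit 10) (nat_lit 4) (nat_lit 8) (nat_lit 4) (nat_lit 502) (nat_lit 371) (nat_lit 327)) (XT.lf (nat_lit 0) (nat_lit 19918522855) (nat_lit 152) (nat_lit 50535753696) (nat_lit 0) (nat_lit 17411956243) (nat_lit 8) (nat_lit 5) (nat_lit 10) (nat_lit 4) (nat_lit 8) (nat_lit 4) (nat_lit 503) (nat_lit 371) (nat_lit 326))) (XT.nd (nat_lit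 78) (nat_lit 0) (nat_lit 0) (XT.lf (nat_lit 0) (nat_lit 30788055448) (nat_lit 152) (nat_lit 32704182150) (nat_lit 0) (nat_lit 28266540784) (nat_lit 8) (nat_lit 5) (nat_lit 10) (nat_lit 4) (nat_lit 8) (nat_lit 4) (nat_lit 504) (nat_lit 371) (nat_lit 325)) (XT.lf (nat_lit 0) (nat_lit 42115937825) (nat_lit 152) (nat_lit 14154083138) (nat_lit 0) (nat_lit 39580186921) (nat_lit 8) (nat_lit 5) (nat_lit 10) (nat_lit 4) (nat_lit 8) (nat_lit 4) (nat_lit 505) (nat_lit 371) (nat_lit 324)))) (XT.nd (nat_lit 156) (nat_lit 0) (nat_lit 0) (XT.nd (nat_lit 78) (nat_lit 0) (nat_lit 0) (XT.lf (nat_lit 0) (nat_lit 5329280500) (nat_lit 76) (nat_lit 48683065639) (nat_lit 76) (nat_lit 46133756411) (nat_lit 7) (nat_lit 4) (nat_lit 8) (nat_lit 5) (nat_lit 8) (nat_lit 4) (nat_lit 506) (nat_lit 371) (nat_lit 323)) (XT.lf (nat_lit 0) (nat_lit 26116057779) (nat_lit 76) (nat_lit 40547479127) (nat_lit 76) (nat_lit 37985257208)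 (nat_lit 7) (nat_lit 4) (nat_lit 8) (nat_lit 5) (nat_lit 8) (nat_lit 4) (nat_lit 507) (nat_lit 371) (nat_lit 322))) (XT.nd (nat_lit 78) (nat_lit 0) (nat_lit 0) (XT.lf (nat_lit 0) (nat_lit 47787743116) (nat_lit 76) (nat_lit 32083597228) (nat_lit 76) (nat_lit 29509077510) (nat_lit 7) (nat_lit 4) (nat_lit 8) (nat_lit 5) (nat_lit 8) (nat_lit 4) (nat_lit 508) (nat_lit 371) (nat_lit 321)) (XT.lf (nat_lit 0) (nat_lit 70395935761) (nat_lit 76) (nat_lit 23271267843) (nat_lit 76) (nat_lit 20685035935) (nat_lit 7) (nat_lit 4) (nat_lit 8) (nat_lit 5) (nat_lit 8) (nat_lit 4) (nat_lit 509) (nat_lit 371) (nat_lit 320))))))))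
noncomputable def xc37 : XT := (XT.nd (nat_lit 2418) (nat_lit 0) (nat_lit 0) (XT.nd (nat_lit 1170) (nat_lit 152) (nat_lit 0) (XT.nd (nat_lit 546) (nat_lit 76) (nat_lit 0) (XT.nd (nat_lit 234) (nat_lit 0) (nat_lit 0) (XT.nd (nat_lit 78) (nat_lit 152) (nat_lit 0) (XT.lf (nat_lit 0) (nat_lit 93994464745) (nat_lit 76) (nat_lit 14089509236) (nat_lit 76) (nat_lit 11492122861) (nat_lit 7) (nat_lit 4) (nat_lit 8) (nat_lit 5) (nat_lit 8) (nat_lit 4) (nat_lit 510) (nat_lit 371) (nat_lit 319)) (XT.nd (nat_lit 78) (nat_lit 152) (nat_lit 0) (XT.lf (nat_lit 0) (nat_lit 118639517040) (nat_lit 76) (nat_lit 4516460076) (nat_lit 76) (nat_lit 1908450399) (nat_lit 7) (nat_lit 4) (nat_lit 8) (nat_lit 5) (nat_lit 8) (nat_lit 4) (nat_lit 511) (nat_lit 371) (nat_lit 318)) (XT.lf (nat_lit 0) (nat_lit 8137606573) (nat_lit 152) (nat_lit 117026840867) (nat_lit 0) (nat_lit 5644152185) (nat_lit 5) (nat_lit 5) (nat_lit 7)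 (nat_lit 4) (nat_lit 5) (nat_lit 4) (nat_lit 512) (nat_lit 371) (nat_lit 317)))) (XT.nd (nat_lit 156) (nat_lit 0) (nat_lit 0) (XT.nd (nat_lit 78) (nat_lit 0) (nat_lit 0) (XT.lf (nat_lit 0) (nat_lit 18742988441) (nat_lit 152) (nat_lit 101849012615) (nat_lit 0) (nat_lit 16240357246) (nat_lit 5) (nat_lit 5) (nat_lit 7) (nat_lit 4) (nat_lit 5) (nat_lit 4) (nat_lit 513) (nat_lit 371) (nat_lit 316)) (XT.lf (nat_lit 0) (nat_lit 29818187444) (nat_lit 152) (nat_lit 86035323814) (nat_lit 0) (nat_lit 27306816433) (nat_lit 5) (nat_lit 5) (nat_lit 7) (nat_lit 4) (nat_lit 5) (nat_lit 4) (nat_lit 514) (nat_lit 371) (nat_lit 315))) (XT.nd (nat_lit 78) (nat_lit 0) (nat_lit 0) (XT.lf (nat_lit 0) (nat_lit 41389573104) (nat_lit 152) (nat_lit 69548122824) (nat_lit 0) (nat_lit 38869878458) (nat_lit 5) (nat_lit 5) (nat_lit 7) (nat_lit 4) (nat_lit 5) (nat_lit 4) (nat_lit 515) (nat_lit 371) (nat_lit 314)) (XT.lf (nat_lit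 0) (nat_lit 53484696339) (nat_lit 152) (nat_lit 52348154404) (nat_lit 0) (nat_lit 50957074421) (nat_lit 5) (nat_lit 5) (nat_lit 7) (nat_lit 4) (nat_lit 5) (nat_lit 4) (nat_lit 516) (nat_lit 371) (nat_lit 313))))) (XT.nd (nat_lit 312) (nat_lit 0) (nat_lit 0) (XT.nd (nat_lit 156) (nat_lit 76) (nat_lit 0) (XT.nd (nat_lit 78) (nat_lit 0) (nat_lit 0) (XT.lf (nat_lit 0) (nat_lit 66132355062) (nat_lit 152) (nat_lit 34394466249) (nat_lit 0) (nat_lit 63597183361) (nat_lit 5) (nat_lit 5) (nat_lit 7) (nat_lit 4) (nat_lit 5) (nat_lit 4) (nat_lit 517) (nat_lit 371) (nat_lit 312)) (XT.lf (nat_lit 0) (nat_lit 79362662744) (nat_lit 152) (nat_lit 15644311481) (nat_lit 0) (nat_lit 76820300775) (nat_lit 5) (nat_lit 5) (nat_lit 7) (nat_lit 4) (nat_lit 5) (nat_lit 4) (nat_lit 518) (nat_lit 371) (nat_lit 311))) (XT.nd (nat_lit 78) (nat_lit 0) (nat_lit 0) (XT.lf (nat_lit 0) (nat_lit 4077457219) (nat_lit 76) (nat_lit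 89193323435) (nat_lit 76) (nat_lit 86644113591) (nat_lit 4) (nat_lit 4) (nat_lit 5) (nat_lit 5) (nat_lit 5) (nat_lit 4) (nat_lit 519) (nat_lit 371) (nat_lit 310)) (XT.lf (nat_lit 0) (nat_lit 25233606427) (nat_lit 76) (nat_lit 82859051069) (nat_lit 76) (nat_lit 80303319439) (nat_lit 4) (nat_lit 4) (nat_lit 5) (nat_lit 5) (nat_lit 5) (nat_lit 4) (nat_lit 520) (nat_lit 371) (nat_lit 309)))) (XT.nd (nat_lit 156) (nat_lit 0) (nat_lit 0) (XT.nd (nat_lit 78) (nat_lit 0) (nat_lit 0) (XT.lf (nat_lit 0) (nat_lit 47357236338) (nat_lit 76) (nat_lit 76254019510) (nat_lit 76) (nat_lit 73692076656) (nat_lit 4) (nat_lit 4) (nat_lit 5) (nat_lit 5) (nat_lit 5) (nat_lit 4) (nat_lit 521) (nat_lit 371) (nat_lit 308)) (XT.lf (nat_lit 0) (nat_lit 70501022261) (nat_lit 76) (nat_lit 69362502493) (nat_lit 76) (nat_lit 66794644187) (nat_lit 4) (nat_lit 4) (nat_lit 5) (nat_lit 5) (nat_lit 5) (nat_lit 4) (nat_lit 522) (nat_lit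 371) (nat_lit 307))) (XT.nd (nat_lit 78) (nat_lit 0) (nat_lit 0) (XT.lf (nat_lit 0) (nat_lit 94720068447) (nat_lit 76) (nat_lit 62168091645) (nat_lit 76) (nat_lit 59594599575) (nat_lit 4) (nat_lit 4) (nat_lit 5) (nat_lit 5) (nat_lit 5) (nat_lit 4) (nat_lit 523) (nat_lit 371) (nat_lit 306)) (XT.lf (nat_lit 0) (nat_lit 120072039294) (nat_lit 76) (nat_lit 54653657415) (nat_lit 76) (nat_lit 52074799856) (nat_lit 4) (nat_lit 4) (nat_lit 5) (nat_lit 5) (nat_lit 5) (nat_lit 4) (nat_lit 524) (nat_lit 371) (nat_lit 305)))))) (XT.nd (nat_lit 624) (nat_lit 0) (nat_lit 0) (XT.nd (nat_lit 312) (nat_lit 152) (nat_lit 0) (XT.nd (nat_lit 156) (nat_lit 0) (nat_lit 0) (XT.nd (nat_lit 78) (nat_lit 0) (nat_lit 0) (XT.lf (nat_lit 0) (nat_lit 146617296635) (nat_lit 76) (nat_lit 46801308294) (nat_lit 76) (nat_lit 44217340745) (nat_lit 4) (nat_lit 4) (nat_lit 5) (nat_lit 5) (nat_lit 5) (nat_lit 4) (nat_lit 525) (nat_lit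 371) (nat_lit 304)) (XT.lf (nat_lit 0) (nat_lit 174419043465) (nat_lit 76) (nat_lit 38592348212) (nat_lit 76) (nat_lit 36003514006) (nat_lit 4) (nat_lit 4) (nat_lit 5) (nat_lit 5) (nat_lit 5) (nat_lit 4) (nat_lit 526) (nat_lit 371) (nat_lit 303))) (XT.nd (nat_lit 78) (nat_lit 0) (nat_lit 0) (XT.lf (nat_lit 0) (nat_lit 203543474419) (nat_lit 76) (nat_lit 30007232026) (nat_lit 76) (nat_lit 27413762909) (nat_lit 4) (nat_lit 4) (nat_lit 5) (nat_lit 5) (nat_lit 5) (nat_lit 4) (nat_lit 527) (nat_lit 371) (nat_lit 302)) (XT.lf (nat_lit 0) (nat_lit 234059933381) (nat_lit 76) (nat_lit 21025518984) (nat_lit 76) (nat_lit 18427635665) (nat_lit 4) (nat_lit 4) (nat_lit 5) (nat_lit 5) (nat_lit 5) (nat_lit 4) (nat_lit 528) (nat_lit 371) (nat_lit 301)))) (XT.nd (nat_lit 156) (nat_lit 76) (nat_lit 0) (XT.nd (nat_lit 78) (nat_lit 76) (nat_lit 0) (XT.lf (nat_lit 0) (nat_lit 266041078585) (nat_lit 76) (nat_lit 11625824053)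 (nat_lit 76) (nat_lit 9023736733) (nat_lit 4) (nat_lit 4) (nat_lit 5) (nat_lit 5) (nat_lit 5) (nat_lit 4) (nat_lit 529) (nat_lit 371) (nat_lit 300)) (XT.lf (nat_lit 0) (nat_lit 794068625) (nat_lit 152) (nat_lit 978250447) (nat_lit 76) (nat_lit 298755539054) (nat_lit 3) (nat_lit 5) (nat_lit 5) (nat_lit 5) (nat_lit 4) (nat_lit 4) (nat_lit 530) (nat_lit 371) (nat_lit 299))) (XT.nd (nat_lit 78) (nat_lit 0) (nat_lit 0) (XT.lf (nat_lit 0) (nat_lit 11226877888) (nat_lit 152) (nat_lit 295060040221) (nat_lit 0) (nat_lit 8741254761) (nat_lit 2) (nat_lit 5) (nat_lit 4) (nat_lit 4) (nat_lit 2) (nat_lit 4) (nat_lit 531) (nat_lit 371) (nat_lit 298)) (XT.lf (nat_lit 0) (nat_lit 22199545267) (nat_lit 152) (nat_lit 288342583774) (nat_lit 0) (nat_lit 19710463497) (nat_lit 2) (nat_lit 5) (nat_lit 4) (nat_lit 4) (nat_lit 2) (nat_lit 4) (nat_lit 532) (nat_lit 371) (nat_lit 297))))) (XT.nd (nat_lit 312) (nat_lit 0)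 (nat_lit 0) (XT.nd (nat_lit 156) (nat_lit 0) (nat_lit 0) (XT.nd (nat_lit 78) (nat_lit 0) (nat_lit 0) (XT.lf (nat_lit 0) (nat_lit 33694488401) (nat_lit 152) (nat_lit 281342950053) (nat_lit 0) (nat_lit 31202112687) (nat_lit 2) (nat_lit 5) (nat_lit 4) (nat_lit 4) (nat_lit 2) (nat_lit 4) (nat_lit 533) (nat_lit 371) (nat_lit 296)) (XT.lf (nat_lit 0) (nat_lit 45739076202) (nat_lit 152) (nat_lit 274044473261) (nat_lit 0) (nat_lit 43243563397) (nat_lit 2) (nat_lit 5) (nat_lit 4) (nat_lit 4) (nat_lit 2) (nat_lit 4) (nat_lit 534) (nat_lit 371) (nat_lit 295))) (XT.nd (nat_lit 78) (nat_lit 0) (nat_lit 0) (XT.lf (nat_lit 0) (nat_lit 58361986261) (nat_lit 152) (nat_lit 266429776075) (nat_lit 0) (nat_lit 55863485750) (nat_lit 2) (nat_lit 5) (nat_lit 4) (nat_lit 4) (nat_lit 2) (nat_lit 4) (nat_lit 535) (nat_lit 371) (nat_lit 294)) (XT.lf (nat_lit 0) (nat_lit 71593273124) (nat_lit 152) (nat_lit 258480728261)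 (nat_lit 0) (nat_lit 69091927180) (nat_lit 2) (nat_lit 5) (nat_lit 4) (nat_lit 4) (nat_lit 2) (nat_lit 4) (nat_lit 536) (nat_lit 371) (nat_lit 293)))) (XT.nd (nat_lit 156) (nat_lit 0) (nat_lit 0) (XT.nd (nat_lit 78) (nat_lit 0) (nat_lit 0) (XT.lf (nat_lit 0) (nat_lit 85464439856) (nat_lit 152) (nat_lit 250178403517) (nat_lit 0) (nat_lit 82960383976) (nat_lit 2) (nat_lit 5) (nat_lit 4) (nat_lit 4) (nat_lit 2) (nat_lit 4) (nat_lit 537) (nat_lit 371) (nat_lit 292)) (XT.lf (nat_lit 0) (nat_lit 100008513044) (nat_lit 152) (nat_lit 241503034402) (nat_lit 0) (nat_lit 97501876272) (nat_lit 2) (nat_lit 5) (nat_lit 4) (nat_lit 4) (nat_lit 2) (nat_lit 4) (nat_lit 538) (nat_lit 371) (nat_lit 291))) (XT.nd (nat_lit 78) (nat_lit 0) (nat_lit 0) (XT.lf (nat_lit 0) (nat_lit 115260121435) (nat_lit 152) (nat_lit 232433965275) (nat_lit 0) (nat_lit 112751026670) (nat_lit 2) (nat_lit 5) (nat_lit 4) (nat_lit 4) (nat_lit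 2) (nat_lit 4) (nat_lit 539) (nat_lit 371) (nat_lit 290)) (XT.lf (nat_lit 0) (nat_lit 131255578380) (nat_lit 152) (nat_lit 222949603115) (nat_lit 0) (nat_lit 128744142670) (nat_lit 2) (nat_lit 5) (nat_lit 4) (nat_lit 4) (nat_lit 2) (nat_lit 4) (nat_lit 540) (nat_lit 371) (nat_lit 289))))))) (XT.nd (nat_lit 56082) (nat_lit 0) (nat_lit 1824) (XT.nd (nat_lit 546) (nat_lit 0) (nat_lit 0) (XT.nd (nat_lit 234) (nat_lit 0) (nat_lit 0) (XT.nd (nat_lit 78) (nat_lit 0) (nat_lit 0) (XT.lf (nat_lit 0) (nat_lit 148032968303) (nat_lit 152) (nat_lit 213027366107) (nat_lit 0) (nat_lit 145519303121) (nat_lit 2) (nat_lit 5) (nat_lit 4) (nat_lit 4) (nat_lit 2) (nat_lit 4) (nat_lit 541) (nat_lit 371) (nat_lit 288)) (XT.nd (nat_lit 78) (nat_lit 0) (nat_lit 0) (XT.lf (nat_lit 0) (nat_lit 165632237368) (nat_lit 152) (nat_lit 202643629878) (nat_lit 0) (nat_lit 163116448880) (nat_lit 2) (nat_lit 5) (nat_lit 4) (nat_lit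 4) (nat_lit 2) (nat_lit 4) (nat_lit 542) (nat_lit 371) (nat_lit 287)) (XT.lf (nat_lit 0) (nat_lit 184095288598) (nat_lit 152) (nat_lit 191773671245) (nat_lit 0) (nat_lit 181577477914) (nat_lit 2) (nat_lit 5) (nat_lit 4) (nat_lit 4) (nat_lit 2) (nat_lit 4) (nat_lit 543) (nat_lit 371) (nat_lit 286)))) (XT.nd (nat_lit 156) (nat_lit 0) (nat_lit 0) (XT.nd (nat_lit 78) (nat_lit 0) (nat_lit 0) (XT.lf (nat_lit 0) (nat_lit 203466081639) (nat_lit 152) (nat_lit 180391609354) (nat_lit 0) (nat_lit 200946345053) (nat_lit 2) (nat_lit 5) (nat_lit 4) (nat_lit 4) (nat_lit 2) (nat_lit 4) (nat_lit 544) (nat_lit 371) (nat_lit 285)) (XT.lf (nat_lit 0) (nat_lit 223790737426) (nat_lit 152) (nat_lit 168470344060) (nat_lit 0) (nat_lit 221269166648) (nat_lit 2) (nat_lit 5) (nat_lit 4) (nat_lit 4) (nat_lit 2) (nat_lit 4) (nat_lit 545) (nat_lit 371) (nat_lit 284))) (XT.nd (nat_lit 78) (nat_lit 0) (nat_lit 0) (XT.lf (nat_lit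 0) (nat_lit 245117647996) (nat_lit 152) (nat_lit 155981491395) (nat_lit 0) (nat_lit 242594330369) (nat_lit 2) (nat_lit 5) (nat_lit 4) (nat_lit 4) (nat_lit 2) (nat_lit 4) (nat_lit 546) (nat_lit 371) (nat_lit 283)) (XT.lf (nat_lit 0) (nat_lit 267497591710) (nat_lit 152) (nat_lit 142895315998) (nat_lit 0) (nat_lit 264972610416) (nat_lit 2) (nat_lit 5) (nat_lit 4) (nat_lit 4) (nat_lit 2) (nat_lit 4) (nat_lit 547) (nat_lit 371) (nat_lit 282))))) (XT.nd (nat_lit 312) (nat_lit 0) (nat_lit 0) (XT.nd (nat_lit 156) (nat_lit 0) (nat_lit 0) (XT.nd (nat_lit 78) (nat_lit 0) (nat_lit 0) (XT.lf (nat_lit 0) (nat_lit 290983854145) (nat_lit 152) (nat_lit 129180660307) (nat_lit 0) (nat_lit 288457288408) (nat_lit 2) (nat_lit 5) (nat_lit 4) (nat_lit 4) (nat_lit 2) (nat_lit 4) (nat_lit 548) (nat_lit 371) (nat_lit 281)) (XT.lf (nat_lit 0) (nat_lit 315632354976) (nat_lit 152) (nat_lit 114804870380) (nat_lit 0) (nat_lit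 313104280245) (nat_lit 2) (nat_lit 5) (nat_lit 4) (nat_lit 4) (nat_lit 2) (nat_lit 4) (nat_lit 549) (nat_lit 371) (nat_lit 280))) (XT.nd (nat_lit 78) (nat_lit 0) (nat_lit 0) (XT.lf (nat_lit 0) (nat_lit 341501781109) (nat_lit 152) (nat_lit 99733718147) (nat_lit 0) (nat_lit 338972269240) (nat_lit 2) (nat_lit 5) (nat_lit 4) (nat_lit 4) (nat_lit 2) (nat_lit 4) (nat_lit 550) (nat_lit 371) (nat_lit 279)) (XT.lf (nat_lit 0) (nat_lit 368653726415) (nat_lit 152) (nat_lit 83931319911) (nat_lit 0) (nat_lit 366122845844) (nat_lit 2) (nat_lit 5) (nat_lit 4) (nat_lit 4) (nat_lit 2) (nat_lit 4) (nat_lit 551) (nat_lit 371) (nat_lit 278)))) (XT.nd (nat_lit 55068) (nat_lit 0) (nat_lit 3192) (XT.nd (nat_lit 54990) (nat_lit 0) (nat_lit 3344) (XT.lf (nat_lit 0) (nat_lit 397152838384) (nat_lit 152) (nat_lit 67360050915) (nat_lit 0) (nat_lit 394620654287) (nat_lit 2) (nat_lit 5) (nat_lit 4) (nat_lit 4) (nat_lit 2)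 (nat_lit 4) (nat_lit 552) (nat_lit 371) (nat_lit 277)) (XT.lf (nat_lit 0) (nat_lit 1633671037) (nat_lit 76) (nat_lit 3351007158) (nat_lit 76) (nat_lit 3351007158) (nat_lit 46) (nat_lit 4) (nat_lit 47) (nat_lit 5) (nat_lit 47) (nat_lit 4) (nat_lit 456) (nat_lit 372) (nat_lit 372))) (XT.nd (nat_lit 78) (nat_lit 0) (nat_lit 0) (XT.lf (nat_lit 0) (nat_lit 701514391) (nat_lit 152) (nat_lit 15971538444) (nat_lit 0) (nat_lit 448255934) (nat_lit 44) (nat_lit 5) (nat_lit 46) (nat_lit 4) (nat_lit 44) (nat_lit 4) (nat_lit 457) (nat_lit 372) (nat_lit 371)) (XT.lf (nat_lit 0) (nat_lit 8334885881) (nat_lit 152) (nat_lit 1408695583) (nat_lit 0) (nat_lit 7840428892) (nat_lit 44) (nat_lit 5) (nat_lit 46) (nat_lit 4) (nat_lit 44) (nat_lit 4) (nat_lit 458) (nat_lit 372) (nat_lit 370)))))) (XT.nd (nat_lit 624) (nat_lit 608) (nat_lit 0) (XT.nd (nat_lit 312) (nat_lit 304) (nat_lit 0) (XT.nd (nat_lit 156) (nat_lit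 228) (nat_lit 0) (XT.nd (nat_lit 78) (nat_lit 152) (nat_lit 0) (XT.lf (nat_lit 0) (nat_lit 13849897071) (nat_lit 76) (nat_lit 2472744394) (nat_lit 76) (nat_lit 1748574519) (nat_lit 43) (nat_lit 4) (nat_lit 44) (nat_lit 5) (nat_lit 44) (nat_lit 4) (nat_lit 459) (nat_lit 372) (nat_lit 369)) (XT.lf (nat_lit 0) (nat_lit 5967411081) (nat_lit 152) (nat_lit 7539397475) (nat_lit 0) (nat_lit 5069369126) (nat_lit 41) (nat_lit 5) (nat_lit 43) (nat_lit 4) (nat_lit 41) (nat_lit 4) (nat_lit 460) (nat_lit 372) (nat_lit 368))) (XT.nd (nat_lit 78) (nat_lit 152) (nat_lit 0) (XT.lf (nat_lit 0) (nat_lit 7804200042) (nat_lit 76) (nat_lit 6198803150) (nat_lit 76) (nat_lit 5102326566) (nat_lit 40) (nat_lit 4) (nat_lit 41) (nat_lit 5) (nat_lit 41) (nat_lit 4) (nat_lit 461) (nat_lit 372) (nat_lit 367)) (XT.lf (nat_lit 0) (nat_lit 2665854774) (nat_lit 152) (nat_lit 15552544404) (nat_lit 0) (nat_lit 1441605304) (nat_lit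 38) (nat_lit 5) (nat_lit 40) (nat_lit 4) (nat_lit 38) (nat_lit 4) (nat_lit 462) (nat_lit 372) (nat_lit 366)))) (XT.nd (nat_lit 156) (nat_lit 228) (nat_lit 0) (XT.nd (nat_lit 78) (nat_lit 76) (nat_lit 0) (XT.lf (nat_lit 0) (nat_lit 10705551635) (nat_lit 152) (nat_lit 220066830) (nat_lit 0) (nat_lit 9309886873) (nat_lit 38) (nat_lit 5) (nat_lit 40) (nat_lit 4) (nat_lit 38) (nat_lit 4) (nat_lit 463) (nat_lit 372) (nat_lit 365)) (XT.lf (nat_lit 0) (nat_lit 15934120759) (nat_lit 76) (nat_lit 3231822877) (nat_lit 76) (nat_lit 1672905454) (nat_lit 37) (nat_lit 4) (nat_lit 38) (nat_lit 5) (nat_lit 38) (nat_lit 4) (nat_lit 464) (nat_lit 372) (nat_lit 364))) (XT.nd (nat_lit 78) (nat_lit 76) (nat_lit 0) (XT.lf (nat_lit 0) (nat_lit 6392622575) (nat_lit 152) (nat_lit 10313435285) (nat_lit 0) (nat_lit 4759864340) (nat_lit 35) (nat_lit 5) (nat_lit 37) (nat_lit 4) (nat_lit 35) (nat_lit 4) (nat_lit 465) (nat_lit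 372) (nat_lit 363)) (XT.lf (nat_lit 0) (nat_lit 5707911695) (nat_lit 76) (nat_lit 9094495465) (nat_lit 76) (nat_lit 7320713445) (nat_lit 34) (nat_lit 4) (nat_lit 35) (nat_lit 5) (nat_lit 35) (nat_lit 4) (nat_lit 466) (nat_lit 372) (nat_lit 362))))) (XT.nd (nat_lit 312) (nat_lit 228) (nat_lit 0) (XT.nd (nat_lit 156) (nat_lit 228) (nat_lit 0) (XT.nd (nat_lit 78) (nat_lit 76) (nat_lit 0) (XT.lf (nat_lit 0) (nat_lit 741700057) (nat_lit 152) (nat_lit 387605269) (nat_lit 76) (nat_lit 21685815146) (nat_lit 33) (nat_lit 5) (nat_lit 35) (nat_lit 5) (nat_lit 34) (nat_lit 4) (nat_lit 467) (nat_lit 372) (nat_lit 361)) (XT.lf (nat_lit 0) (nat_lit 9115006807) (nat_lit 152) (nat_lit 7237069406) (nat_lit 0) (nat_lit 7175956219) (nat_lit 32) (nat_lit 5) (nat_lit 34) (nat_lit 4) (nat_lit 32) (nat_lit 4) (nat_lit 468) (nat_lit 372) (nat_lit 360))) (XT.nd (nat_lit 78) (nat_lit 152) (nat_lit 0) (XT.lf (nat_lit 0)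 (nat_lit 9387926394) (nat_lit 76) (nat_lit 8473019424) (nat_lit 76) (nat_lit 6417948218) (nat_lit 31) (nat_lit 4) (nat_lit 32) (nat_lit 5) (nat_lit 32) (nat_lit 4) (nat_lit 469) (nat_lit 372) (nat_lit 359)) (XT.lf (nat_lit 0) (nat_lit 1618413885) (nat_lit 76) (nat_lit 227430464) (nat_lit 152) (nat_lit 23223301613) (nat_lit 29) (nat_lit 5) (nat_lit 30) (nat_lit 5) (nat_lit 31) (nat_lit 4) (nat_lit 470) (nat_lit 372) (nat_lit 358)))) (XT.nd (nat_lit 156) (nat_lit 152) (nat_lit 0) (XT.nd (nat_lit 78) (nat_lit 76) (nat_lit 0) (XT.lf (nat_lit 0) (nat_lit 10477822747) (nat_lit 152) (nat_lit 7092140141) (nat_lit 0) (nat_lit 8315154983) (nat_lit 29) (nat_lit 5) (nat_lit 31) (nat_lit 4) (nat_lit 29) (nat_lit 4) (nat_lit 471) (nat_lit 372) (nat_lit 357)) (XT.lf (nat_lit 0) (nat_lit 9985867938) (nat_lit 76) (nat_lit 9508252305) (nat_lit 76) (nat_lit 7250134092) (nat_lit 28) (nat_lit 4) (nat_lit 29) (nat_lit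 5) (nat_lit 29) (nat_lit 4) (nat_lit 472) (nat_lit 372) (nat_lit 356))) (XT.nd (nat_lit 78) (nat_lit 0) (nat_lit 0) (XT.lf (nat_lit 0) (nat_lit 89473207) (nat_lit 76) (nat_lit 1100037334) (nat_lit 152) (nat_lit 26459976912) (nat_lit 26) (nat_lit 5) (nat_lit 27) (nat_lit 5) (nat_lit 28) (nat_lit 4) (nat_lit 473) (nat_lit 372) (nat_lit 355)) (XT.lf (nat_lit 0) (nat_lit 10010133669) (nat_lit 152) (nat_lit 10883260270) (nat_lit 0) (nat_lit 7690514837) (nat_lit 26) (nat_lit 5) (nat_lit 28) (nat_lit 4) (nat_lit 26) (nat_lit 4) (nat_lit 474) (nat_lit 372) (nat_lit 354))))))))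
noncomputable def xc38 : XT := (XT.nd (nat_lit 2418) (nat_lit 456) (nat_lit 0) (XT.nd (nat_lit 1170) (nat_lit 456) (nat_lit 0) (XT.nd (nat_lit 546) (nat_lit 456) (nat_lit 0) (XT.nd (nat_lit 234) (nat_lit 228) (nat_lit 0) (XT.nd (nat_lit 78) (nat_lit 152) (nat_lit 0) (XT.lf (nat_lit 0) (nat_lit 6419686626) (nat_lit 76) (nat_lit 12773715796) (nat_lit 76) (nat_lit 10375569643) (nat_lit 25) (nat_lit 4) (nat_lit 26) (nat_lit 5) (nat_lit 26) (nat_lit 4) (nat_lit 475) (nat_lit 372) (nat_lit 353)) (XT.nd (nat_lit 78) (nat_lit 152) (nat_lit 0) (XT.lf (nat_lit 0) (nat_lit 24576913928) (nat_lit 76) (nat_lit 4249881093) (nat_lit 76) (nat_lit 1776947016) (nat_lit 25) (nat_lit 4) (nat_lit 26) (nat_lit 5) (nat_lit 26) (nat_lit 4) (nat_lit 476) (nat_lit 372) (nat_lit 352)) (XT.lf (nat_lit 0) (nat_lit 7092532429) (nat_lit 152) (nat_lit 19918885199) (nat_lit 0) (nat_lit 4669522266) (nat_lit 23) (nat_lit 5) (nat_lit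 25) (nat_lit 4) (nat_lit 23) (nat_lit 4) (nat_lit 477) (nat_lit 372) (nat_lit 351)))) (XT.nd (nat_lit 156) (nat_lit 152) (nat_lit 0) (XT.nd (nat_lit 78) (nat_lit 76) (nat_lit 0) (XT.lf (nat_lit 0) (nat_lit 16332236192) (nat_lit 152) (nat_lit 2634361491) (nat_lit 0) (nat_lit 13844621407) (nat_lit 23) (nat_lit 5) (nat_lit 25) (nat_lit 4) (nat_lit 23) (nat_lit 4) (nat_lit 478) (nat_lit 372) (nat_lit 350)) (XT.lf (nat_lit 0) (nat_lit 15656825531) (nat_lit 76) (nat_lit 10443505347) (nat_lit 76) (nat_lit 7894362351) (nat_lit 22) (nat_lit 4) (nat_lit 23) (nat_lit 5) (nat_lit 23) (nat_lit 4) (nat_lit 479) (nat_lit 372) (nat_lit 349))) (XT.nd (nat_lit 78) (nat_lit 76) (nat_lit 0) (XT.lf (nat_lit 0) (nat_lit 951060227) (nat_lit 152) (nat_lit 658067825) (nat_lit 76) (nat_lit 33633970173) (nat_lit 21) (nat_lit 5) (nat_lit 23) (nat_lit 5) (nat_lit 22) (nat_lit 4) (nat_lit 480) (nat_lit 372) (nat_lit 348))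 (XT.lf (nat_lit 0) (nat_lit 10208930050) (nat_lit 152) (nat_lit 18654533272) (nat_lit 0) (nat_lit 7672216533) (nat_lit 20) (nat_lit 5) (nat_lit 22) (nat_lit 4) (nat_lit 20) (nat_lit 4) (nat_lit 481) (nat_lit 372) (nat_lit 347))))) (XT.nd (nat_lit 312) (nat_lit 228) (nat_lit 0) (XT.nd (nat_lit 156) (nat_lit 152) (nat_lit 0) (XT.nd (nat_lit 78) (nat_lit 76) (nat_lit 0) (XT.lf (nat_lit 0) (nat_lit 19798103881) (nat_lit 152) (nat_lit 890596251) (nat_lit 0) (nat_lit 17210770953) (nat_lit 20) (nat_lit 5) (nat_lit 22) (nat_lit 4) (nat_lit 20) (nat_lit 4) (nat_lit 482) (nat_lit 372) (nat_lit 346)) (XT.lf (nat_lit 0) (nat_lit 18012458878) (nat_lit 76) (nat_lit 11974268175) (nat_lit 76) (nat_lit 9338726285) (nat_lit 19) (nat_lit 4) (nat_lit 20) (nat_lit 5) (nat_lit 20) (nat_lit 4) (nat_lit 483) (nat_lit 372) (nat_lit 345))) (XT.nd (nat_lit 78) (nat_lit 152) (nat_lit 0) (XT.lf (nat_lit 0) (nat_lit 37571247789)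 (nat_lit 76) (nat_lit 2970058404) (nat_lit 76) (nat_lit 288603216) (nat_lit 19) (nat_lit 4) (nat_lit 20) (nat_lit 5) (nat_lit 20) (nat_lit 4) (nat_lit 484) (nat_lit 372) (nat_lit 344)) (XT.lf (nat_lit 0) (nat_lit 9116694668) (nat_lit 152) (nat_lit 26754539778) (nat_lit 0) (nat_lit 6521283108) (nat_lit 17) (nat_lit 5) (nat_lit 19) (nat_lit 4) (nat_lit 17) (nat_lit 4) (nat_lit 485) (nat_lit 372) (nat_lit 343)))) (XT.nd (nat_lit 156) (nat_lit 152) (nat_lit 0) (XT.nd (nat_lit 78) (nat_lit 76) (nat_lit 0) (XT.lf (nat_lit 0) (nat_lit 18933992407) (nat_lit 152) (nat_lit 8802537047) (nat_lit 0) (nat_lit 16298919213) (nat_lit 17) (nat_lit 5) (nat_lit 19) (nat_lit 4) (nat_lit 17) (nat_lit 4) (nat_lit 486) (nat_lit 372) (nat_lit 342)) (XT.lf (nat_lit 0) (nat_lit 10073974564) (nat_lit 76) (nat_lit 19179418416) (nat_lit 76) (nat_lit 16506572238) (nat_lit 16) (nat_lit 4) (nat_lit 17) (nat_lit 5) (nat_lit 17)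 (nat_lit 4) (nat_lit 487) (nat_lit 372) (nat_lit 341))) (XT.nd (nat_lit 78) (nat_lit 152) (nat_lit 0) (XT.lf (nat_lit 0) (nat_lit 29909161084) (nat_lit 76) (nat_lit 10185047721) (nat_lit 76) (nat_lit 7476227273) (nat_lit 16) (nat_lit 4) (nat_lit 17) (nat_lit 5) (nat_lit 17) (nat_lit 4) (nat_lit 488) (nat_lit 372) (nat_lit 340)) (XT.lf (nat_lit 0) (nat_lit 983328352) (nat_lit 76) (nat_lit 834432628) (nat_lit 152) (nat_lit 47658288549) (nat_lit 14) (nat_lit 5) (nat_lit 15) (nat_lit 5) (nat_lit 16) (nat_lit 4) (nat_lit 489) (nat_lit 372) (nat_lit 339)))))) (XT.nd (nat_lit 624) (nat_lit 228) (nat_lit 0) (XT.nd (nat_lit 312) (nat_lit 152) (nat_lit 0) (XT.nd (nat_lit 156) (nat_lit 76) (nat_lit 0) (XT.nd (nat_lit 78) (nat_lit 0) (nat_lit 0) (XT.lf (nat_lit 0) (nat_lit 11630538298) (nat_lit 152) (nat_lit 30838007297) (nat_lit 0) (nat_lit 8987003649) (nat_lit 14) (nat_lit 5) (nat_lit 16) (nat_lit 4) (nat_lit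 14) (nat_lit 4) (nat_lit 490) (nat_lit 372) (nat_lit 338)) (XT.lf (nat_lit 0) (nat_lit 21815322675) (nat_lit 152) (nat_lit 12582441566) (nat_lit 0) (nat_lit 19142191904) (nat_lit 14) (nat_lit 5) (nat_lit 16) (nat_lit 4) (nat_lit 14) (nat_lit 4) (nat_lit 491) (nat_lit 372) (nat_lit 337))) (XT.nd (nat_lit 78) (nat_lit 0) (nat_lit 0) (XT.lf (nat_lit 0) (nat_lit 6539783390) (nat_lit 76) (nat_lit 25945656721) (nat_lit 76) (nat_lit 23244339168) (nat_lit 13) (nat_lit 4) (nat_lit 14) (nat_lit 5) (nat_lit 14) (nat_lit 4) (nat_lit 492) (nat_lit 372) (nat_lit 336)) (XT.lf (nat_lit 0) (nat_lit 26803640469) (nat_lit 76) (nat_lit 16974578981) (nat_lit 76) (nat_lit 14246416874) (nat_lit 13) (nat_lit 4) (nat_lit 14) (nat_lit 5) (nat_lit 14) (nat_lit 4) (nat_lit 493) (nat_lit 372) (nat_lit 335)))) (XT.nd (nat_lit 156) (nat_lit 0) (nat_lit 0) (XT.nd (nat_lit 78) (nat_lit 152) (nat_lit 0) (XT.lf (nat_lit 0) (nat_lit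 47841344608) (nat_lit 76) (nat_lit 7676261047) (nat_lit 76) (nat_lit 4922532698) (nat_lit 13) (nat_lit 4) (nat_lit 14) (nat_lit 5) (nat_lit 14) (nat_lit 4) (nat_lit 494) (nat_lit 372) (nat_lit 334)) (XT.lf (nat_lit 0) (nat_lit 4738458135) (nat_lit 152) (nat_lit 56140152437) (nat_lit 0) (nat_lit 2092670371) (nat_lit 11) (nat_lit 5) (nat_lit 13) (nat_lit 4) (nat_lit 11) (nat_lit 4) (nat_lit 495) (nat_lit 372) (nat_lit 333))) (XT.nd (nat_lit 78) (nat_lit 0) (nat_lit 0) (XT.lf (nat_lit 0) (nat_lit 14945595213) (nat_lit 152) (nat_lit 38390202372) (nat_lit 0) (nat_lit 12277722368) (nat_lit 11) (nat_lit 5) (nat_lit 13) (nat_lit 4) (nat_lit 11) (nat_lit 4) (nat_lit 496) (nat_lit 372) (nat_lit 332)) (XT.lf (nat_lit 0) (nat_lit 25554347481) (nat_lit 152) (nat_lit 19973519724) (nat_lit 0) (nat_lit 22865441225) (nat_lit 11) (nat_lit 5) (nat_lit 13) (nat_lit 4) (nat_lit 11) (nat_lit 4) (nat_lit 497) (nat_lit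 372) (nat_lit 331))))) (XT.nd (nat_lit 312) (nat_lit 152) (nat_lit 0) (XT.nd (nat_lit 156) (nat_lit 0) (nat_lit 0) (XT.nd (nat_lit 78) (nat_lit 76) (nat_lit 0) (XT.lf (nat_lit 0) (nat_lit 36589973873) (nat_lit 152) (nat_lit 846255248) (nat_lit 0) (nat_lit 33881035798) (nat_lit 11) (nat_lit 5) (nat_lit 13) (nat_lit 4) (nat_lit 11) (nat_lit 4) (nat_lit 498) (nat_lit 372) (nat_lit 330)) (XT.lf (nat_lit 0) (nat_lit 19666585724) (nat_lit 76) (nat_lit 28719214484) (nat_lit 76) (nat_lit 25991198485) (nat_lit 10) (nat_lit 4) (nat_lit 11) (nat_lit 5) (nat_lit 11) (nat_lit 4) (nat_lit 499) (nat_lit 372) (nat_lit 329))) (XT.nd (nat_lit 78) (nat_lit 0) (nat_lit 0) (XT.lf (nat_lit 0) (nat_lit 41037438209) (nat_lit 76) (nat_lit 19651300369) (nat_lit 76) (nat_lit 16905114918) (nat_lit 10) (nat_lit 4) (nat_lit 11) (nat_lit 5) (nat_lit 11) (nat_lit 4) (nat_lit 500) (nat_lit 372) (nat_lit 328)) (XT.lf (nat_lit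 0) (nat_lit 63289204167) (nat_lit 76) (nat_lit 10225228245) (nat_lit 76) (nat_lit 7461738556) (nat_lit 10) (nat_lit 4) (nat_lit 11) (nat_lit 5) (nat_lit 11) (nat_lit 4) (nat_lit 501) (nat_lit 372) (nat_lit 327)))) (XT.nd (nat_lit 156) (nat_lit 0) (nat_lit 0) (XT.nd (nat_lit 78) (nat_lit 0) (nat_lit 0) (XT.lf (nat_lit 0) (nat_lit 1969012127) (nat_lit 76) (nat_lit 347564479) (nat_lit 152) (nat_lit 82212047136) (nat_lit 8) (nat_lit 5) (nat_lit 9) (nat_lit 5) (nat_lit 10) (nat_lit 4) (nat_lit 502) (nat_lit 372) (nat_lit 326)) (XT.lf (nat_lit 0) (nat_lit 12704611244) (nat_lit 152) (nat_lit 65487320893) (nat_lit 0) (nat_lit 10042072794) (nat_lit 8) (nat_lit 5) (nat_lit 10) (nat_lit 4) (nat_lit 8) (nat_lit 4) (nat_lit 503) (nat_lit 372) (nat_lit 325))) (XT.nd (nat_lit 78) (nat_lit 0) (nat_lit 0) (XT.lf (nat_lit 0) (nat_lit 23532618546) (nat_lit 152) (nat_lit 47740164524) (nat_lit 0) (nat_lit 20855843856)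 (nat_lit 8) (nat_lit 5) (nat_lit 10) (nat_lit 4) (nat_lit 8) (nat_lit 4) (nat_lit 504) (nat_lit 372) (nat_lit 324)) (XT.lf (nat_lit 0) (nat_lit 34820953028) (nat_lit 152) (nat_lit 29270460917) (nat_lit 0) (nat_lit 32130620014) (nat_lit 8) (nat_lit 5) (nat_lit 10) (nat_lit 4) (nat_lit 8) (nat_lit 4) (nat_lit 505) (nat_lit 372) (nat_lit 323))))))) (XT.nd (nat_lit 1170) (nat_lit 152) (nat_lit 0) (XT.nd (nat_lit 546) (nat_lit 228) (nat_lit 0) (XT.nd (nat_lit 234) (nat_lit 0) (nat_lit 0) (XT.nd (nat_lit 78) (nat_lit 76) (nat_lit 0) (XT.lf (nat_lit 0) (nat_lit 46596491677) (nat_lit 152) (nat_lit 10034234590) (nat_lit 0) (nat_lit 43893245973) (nat_lit 8) (nat_lit 5) (nat_lit 10) (nat_lit 4) (nat_lit 8) (nat_lit 4) (nat_lit 506) (nat_lit 372) (nat_lit 322)) (XT.nd (nat_lit 78) (nat_lit 0) (nat_lit 0) (XT.lf (nat_lit 0) (nat_lit 10345433476) (nat_lit 76) (nat_lit 48703359221) (nat_lit 76) (nat_lit 45987815717)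 (nat_lit 7) (nat_lit 4) (nat_lit 8) (nat_lit 5) (nat_lit 8) (nat_lit 4) (nat_lit 507) (nat_lit 372) (nat_lit 321)) (XT.lf (nat_lit 0) (nat_lit 31945373955) (nat_lit 76) (nat_lit 40275939082) (nat_lit 76) (nat_lit 37548683389) (nat_lit 7) (nat_lit 4) (nat_lit 8) (nat_lit 5) (nat_lit 8) (nat_lit 4) (nat_lit 508) (nat_lit 372) (nat_lit 320)))) (XT.nd (nat_lit 156) (nat_lit 0) (nat_lit 0) (XT.nd (nat_lit 78) (nat_lit 0) (nat_lit 0) (XT.lf (nat_lit 0) (nat_lit 54485238164) (nat_lit 76) (nat_lit 31498335184) (nat_lit 76) (nat_lit 28759925023) (nat_lit 7) (nat_lit 4) (nat_lit 8) (nat_lit 5) (nat_lit 8) (nat_lit 4) (nat_lit 509) (nat_lit 372) (nat_lit 319)) (XT.lf (nat_lit 0) (nat_lit 78018692447) (nat_lit 76) (nat_lit 22349648468) (nat_lit 76) (nat_lit 19600615006) (nat_lit 7) (nat_lit 4) (nat_lit 8) (nat_lit 5) (nat_lit 8) (nat_lit 4) (nat_lit 510) (nat_lit 372) (nat_lit 318))) (XT.nd (nat_lit 78)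 (nat_lit 0) (nat_lit 0) (XT.lf (nat_lit 0) (nat_lit 102601768837) (nat_lit 76) (nat_lit 12808096348) (nat_lit 76) (nat_lit 10048945455) (nat_lit 7) (nat_lit 4) (nat_lit 8) (nat_lit 5) (nat_lit 8) (nat_lit 4) (nat_lit 511) (nat_lit 372) (nat_lit 317)) (XT.lf (nat_lit 0) (nat_lit 128292998469) (nat_lit 76) (nat_lit 2850960842) (nat_lit 76) (nat_lit 82174301) (nat_lit 7) (nat_lit 4) (nat_lit 8) (nat_lit 5) (nat_lit 8) (nat_lit 4) (nat_lit 512) (nat_lit 372) (nat_lit 316))))) (XT.nd (nat_lit 312) (nat_lit 76) (nat_lit 0) (XT.nd (nat_lit 156) (nat_lit 0) (nat_lit 0) (XT.nd (nat_lit 78) (nat_lit 0) (nat_lit 0) (XT.lf (nat_lit 0) (nat_lit 10403753225) (nat_lit 152) (nat_lit 119094233676) (nat_lit 0) (nat_lit 7758073846) (nat_lit 5) (nat_lit 5) (nat_lit 7) (nat_lit 4) (nat_lit 5) (nat_lit 4) (nat_lit 513) (nat_lit 372) (nat_lit 315)) (XT.lf (nat_lit 0) (nat_lit 21450867695) (nat_lit 152) (nat_lit 103337702070)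 (nat_lit 0) (nat_lit 18796864681) (nat_lit 5) (nat_lit 5) (nat_lit 7) (nat_lit 4) (nat_lit 5) (nat_lit 4) (nat_lit 514) (nat_lit 372) (nat_lit 314))) (XT.nd (nat_lit 78) (nat_lit 0) (nat_lit 0) (XT.lf (nat_lit 0) (nat_lit 32995506180) (nat_lit 152) (nat_lit 86904936504) (nat_lit 0) (nat_lit 30333575895) (nat_lit 5) (nat_lit 5) (nat_lit 7) (nat_lit 4) (nat_lit 5) (nat_lit 4) (nat_lit 515) (nat_lit 372) (nat_lit 313)) (XT.lf (nat_lit 0) (nat_lit 45065155916) (nat_lit 152) (nat_lit 69756811345) (nat_lit 0) (nat_lit 42395675848) (nat_lit 5) (nat_lit 5) (nat_lit 7) (nat_lit 4) (nat_lit 5) (nat_lit 4) (nat_lit 516) (nat_lit 372) (nat_lit 312)))) (XT.nd (nat_lit 156) (nat_lit 76) (nat_lit 0) (XT.nd (nat_lit 78) (nat_lit 0) (nat_lit 0) (XT.lf (nat_lit 0) (nat_lit 57688554162) (nat_lit 152) (nat_lit 51852497724) (nat_lit 0) (nat_lit 55011883826) (nat_lit 5) (nat_lit 5) (nat_lit 7) (nat_lit 4) (nat_lit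 5) (nat_lit 4) (nat_lit 517) (nat_lit 372) (nat_lit 311)) (XT.lf (nat_lit 0) (nat_lit 70895756630) (nat_lit 152) (nat_lit 33149366323) (nat_lit 0) (nat_lit 68212238418) (nat_lit 5) (nat_lit 5) (nat_lit 7) (nat_lit 4) (nat_lit 5) (nat_lit 4) (nat_lit 518) (nat_lit 372) (nat_lit 310))) (XT.nd (nat_lit 78) (nat_lit 76) (nat_lit 0) (XT.lf (nat_lit 0) (nat_lit 84718209039) (nat_lit 152) (nat_lit 13602885876) (nat_lit 0) (nat_lit 82028169042) (nat_lit 5) (nat_lit 5) (nat_lit 7) (nat_lit 4) (nat_lit 5) (nat_lit 4) (nat_lit 519) (nat_lit 372) (nat_lit 309)) (XT.lf (nat_lit 0) (nat_lit 7059428659) (nat_lit 76) (nat_lit 92239610796) (nat_lit 76) (nat_lit 89543359575) (nat_lit 4) (nat_lit 4) (nat_lit 5) (nat_lit 5) (nat_lit 5) (nat_lit 4) (nat_lit 520) (nat_lit 372) (nat_lit 308)))))) (XT.nd (nat_lit 624) (nat_lit 152) (nat_lit 0) (XT.nd (nat_lit 312) (nat_lit 0) (nat_lit 0) (XT.nd (nat_lit 156) (nat_lit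 0) (nat_lit 0) (XT.nd (nat_lit 78) (nat_lit 0) (nat_lit 0) (XT.lf (nat_lit 0) (nat_lit 29141094919) (nat_lit 76) (nat_lit 85655928564) (nat_lit 76) (nat_lit 82953761891) (nat_lit 4) (nat_lit 4) (nat_lit 5) (nat_lit 5) (nat_lit 5) (nat_lit 4) (nat_lit 521) (nat_lit 372) (nat_lit 307)) (XT.lf (nat_lit 0) (nat_lit 52244915460) (nat_lit 76) (nat_lit 78784744240) (nat_lit 76) (nat_lit 76076943802) (nat_lit 4) (nat_lit 4) (nat_lit 5) (nat_lit 5) (nat_lit 5) (nat_lit 4) (nat_lit 522) (nat_lit 372) (nat_lit 306))) (XT.nd (nat_lit 78) (nat_lit 0) (nat_lit 0) (XT.lf (nat_lit 0) (nat_lit 76425899379) (nat_lit 76) (nat_lit 71609697860) (nat_lit 76) (nat_lit 68896531934) (nat_lit 4) (nat_lit 4) (nat_lit 5) (nat_lit 5) (nat_lit 5) (nat_lit 4) (nat_lit 523) (nat_lit 372) (nat_lit 305)) (XT.lf (nat_lit 0) (nat_lit 101741620446) (nat_lit 76) (nat_lit 64113705982) (nat_lit 76) (nat_lit 61395430065) (nat_lit 4)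 (nat_lit 4) (nat_lit 5) (nat_lit 5) (nat_lit 5) (nat_lit 4) (nat_lit 524) (nat_lit 372) (nat_lit 304)))) (XT.nd (nat_lit 156) (nat_lit 0) (nat_lit 0) (XT.nd (nat_lit 78) (nat_lit 0) (nat_lit 0) (XT.lf (nat_lit 0) (nat_lit 128252354189) (nat_lit 76) (nat_lit 56278921004) (nat_lit 76) (nat_lit 53555778431) (nat_lit 4) (nat_lit 4) (nat_lit 5) (nat_lit 5) (nat_lit 5) (nat_lit 4) (nat_lit 525) (nat_lit 372) (nat_lit 303)) (XT.lf (nat_lit 0) (nat_lit 156021221400) (nat_lit 76) (nat_lit 48086688679) (nat_lit 76) (nat_lit 45358911194) (nat_lit 4) (nat_lit 4) (nat_lit 5) (nat_lit 5) (nat_lit 5) (nat_lit 4) (nat_lit 526) (nat_lit 372) (nat_lit 302))) (XT.nd (nat_lit 78) (nat_lit 0) (nat_lit 0) (XT.lf (nat_lit 0) (nat_lit 185114338432) (nat_lit 76) (nat_lit 39517503689) (nat_lit 76) (nat_lit 36785312003) (nat_lit 4) (nat_lit 4) (nat_lit 5) (nat_lit 5) (nat_lit 5) (nat_lit 4) (nat_lit 527) (nat_lit 372)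 (nat_lit 301)) (XT.lf (nat_lit 0) (nat_lit 215600974611) (nat_lit 76) (nat_lit 30550963215) (nat_lit 76) (nat_lit 27814567527) (nat_lit 4) (nat_lit 4) (nat_lit 5) (nat_lit 5) (nat_lit 5) (nat_lit 4) (nat_lit 528) (nat_lit 372) (nat_lit 300))))) (XT.nd (nat_lit 312) (nat_lit 0) (nat_lit 0) (XT.nd (nat_lit 156) (nat_lit 152) (nat_lit 0) (XT.nd (nat_lit 78) (nat_lit 0) (nat_lit 0) (XT.lf (nat_lit 0) (nat_lit 247553717164) (nat_lit 76) (nat_lit 21165718349) (nat_lit 76) (nat_lit 18425318851) (nat_lit 4) (nat_lit 4) (nat_lit 5) (nat_lit 5) (nat_lit 5) (nat_lit 4) (nat_lit 529) (nat_lit 372) (nat_lit 299)) (XT.lf (nat_lit 0) (nat_lit 281048644052) (nat_lit 76) (nat_lit 11339423272) (nat_lit 76) (nat_lit 8595210621) (nat_lit 4) (nat_lit 4) (nat_lit 5) (nat_lit 5) (nat_lit 5) (nat_lit 4) (nat_lit 530) (nat_lit 372) (nat_lit 298))) (XT.nd (nat_lit 78) (nat_lit 0) (nat_lit 0) (XT.lf (nat_lit 0) (nat_lit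 644582110) (nat_lit 76) (nat_lit 1010260004) (nat_lit 152) (nat_lit 313858353222) (nat_lit 2) (nat_lit 5) (nat_lit 3) (nat_lit 5) (nat_lit 4) (nat_lit 4) (nat_lit 531) (nat_lit 372) (nat_lit 297)) (XT.lf (nat_lit 0) (nat_lit 12598879131) (nat_lit 152) (nat_lit 308161576739) (nat_lit 0) (nat_lit 9978590686) (nat_lit 2) (nat_lit 5) (nat_lit 4) (nat_lit 4) (nat_lit 2) (nat_lit 4) (nat_lit 532) (nat_lit 372) (nat_lit 296)))) (XT.nd (nat_lit 156) (nat_lit 0) (nat_lit 0) (XT.nd (nat_lit 78) (nat_lit 0) (nat_lit 0) (XT.lf (nat_lit 0) (nat_lit 24081577148) (nat_lit 152) (nat_lit 301186888684) (nat_lit 0) (nat_lit 21458151613) (nat_lit 2) (nat_lit 5) (nat_lit 4) (nat_lit 4) (nat_lit 2) (nat_lit 4) (nat_lit 533) (nat_lit 372) (nat_lit 295)) (XT.lf (nat_lit 0) (nat_lit 36114502934) (nat_lit 152) (nat_lit 293912169670) (nat_lit 0) (nat_lit 33488089693) (nat_lit 2) (nat_lit 5) (nat_lit 4) (nat_lit 4) (nat_lit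 2) (nat_lit 4) (nat_lit 534) (nat_lit 372) (nat_lit 294))) (XT.nd (nat_lit 78) (nat_lit 0) (nat_lit 0) (XT.lf (nat_lit 0) (nat_lit 48726306310) (nat_lit 152) (nat_lit 286320098939) (nat_lit 0) (nat_lit 46097047636) (nat_lit 2) (nat_lit 5) (nat_lit 4) (nat_lit 4) (nat_lit 2) (nat_lit 4) (nat_lit 535) (nat_lit 372) (nat_lit 293)) (XT.lf (nat_lit 0) (nat_lit 61947015381) (nat_lit 152) (nat_lit 278392600130) (nat_lit 0) (nat_lit 59315046770) (nat_lit 2) (nat_lit 5) (nat_lit 4) (nat_lit 4) (nat_lit 2) (nat_lit 4) (nat_lit 536) (nat_lit 372) (nat_lit 292))))))))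
noncomputable def xc39 : XT := (XT.nd (nat_lit 57174) (nat_lit 0) (nat_lit 608) (XT.nd (nat_lit 1170) (nat_lit 0) (nat_lit 0) (XT.nd (nat_lit 546) (nat_lit 0) (nat_lit 0) (XT.nd (nat_lit 234) (nat_lit 0) (nat_lit 0) (XT.nd (nat_lit 78) (nat_lit 0) (nat_lit 0) (XT.lf (nat_lit 0) (nat_lit 75808108025) (nat_lit 152) (nat_lit 270110798247) (nat_lit 0) (nat_lit 73173558522) (nat_lit 2) (nat_lit 5) (nat_lit 4) (nat_lit 4) (nat_lit 2) (nat_lit 4) (nat_lit 537) (nat_lit 372) (nat_lit 291)) (XT.nd (nat_lit 78) (nat_lit 0) (nat_lit 0) (XT.lf (nat_lit 0) (nat_lit 90342586844) (nat_lit 152) (nat_lit 261454974715) (nat_lit 0) (nat_lit 87705579348) (nat_lit 2) (nat_lit 5) (nat_lit 4) (nat_lit 4) (nat_lit 2) (nat_lit 4) (nat_lit 538) (nat_lit 372) (nat_lit 290)) (XT.lf (nat_lit 0) (nat_lit 105585057740) (nat_lit 152) (nat_lit 252404520429) (nat_lit 0) (nat_lit 102945709299) (nat_lit 2) (nat_lit 5) (nat_lit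 4) (nat_lit 4) (nat_lit 2) (nat_lit 4) (nat_lit 539) (nat_lit 372) (nat_lit 289)))) (XT.nd (nat_lit 156) (nat_lit 0) (nat_lit 0) (XT.nd (nat_lit 78) (nat_lit 0) (nat_lit 0) (XT.lf (nat_lit 0) (nat_lit 121571812309) (nat_lit 152) (nat_lit 242937886688) (nat_lit 0) (nat_lit 118930234397) (nat_lit 2) (nat_lit 5) (nat_lit 4) (nat_lit 4) (nat_lit 2) (nat_lit 4) (nat_lit 540) (nat_lit 372) (nat_lit 288)) (XT.lf (nat_lit 0) (nat_lit 138340914255) (nat_lit 152) (nat_lit 233032533889) (nat_lit 0) (nat_lit 135697213036) (nat_lit 2) (nat_lit 5) (nat_lit 4) (nat_lit 4) (nat_lit 2) (nat_lit 4) (nat_lit 541) (nat_lit 372) (nat_lit 287))) (XT.nd (nat_lit 78) (nat_lit 0) (nat_lit 0) (XT.lf (nat_lit 0) (nat_lit 155932290009) (nat_lit 152) (nat_lit 222664877859) (nat_lit 0) (nat_lit 153286566593) (nat_lit 2) (nat_lit 5) (nat_lit 4) (nat_lit 4) (nat_lit 2) (nat_lit 4) (nat_lit 542) (nat_lit 372) (nat_lit 286))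 (XT.lf (nat_lit 0) (nat_lit 174387823799) (nat_lit 152) (nat_lit 211810233701) (nat_lit 0) (nat_lit 171740174483) (nat_lit 2) (nat_lit 5) (nat_lit 4) (nat_lit 4) (nat_lit 2) (nat_lit 4) (nat_lit 543) (nat_lit 372) (nat_lit 285))))) (XT.nd (nat_lit 312) (nat_lit 0) (nat_lit 0) (XT.nd (nat_lit 156) (nat_lit 0) (nat_lit 0) (XT.nd (nat_lit 78) (nat_lit 0) (nat_lit 0) (XT.lf (nat_lit 0) (nat_lit 193751457373) (nat_lit 152) (nat_lit 200442757025) (nat_lit 0) (nat_lit 191101973865) (nat_lit 2) (nat_lit 5) (nat_lit 4) (nat_lit 4) (nat_lit 2) (nat_lit 4) (nat_lit 544) (nat_lit 372) (nat_lit 284)) (XT.lf (nat_lit 0) (nat_lit 214069294621) (nat_lit 152) (nat_lit 188535382411) (nat_lit 0) (nat_lit 211418064263) (nat_lit 2) (nat_lit 5) (nat_lit 4) (nat_lit 4) (nat_lit 2) (nat_lit 4) (nat_lit 545) (nat_lit 372) (nat_lit 283))) (XT.nd (nat_lit 78) (nat_lit 0) (nat_lit 0) (XT.lf (nat_lit 0) (nat_lit 235389711345)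 (nat_lit 152) (nat_lit 176059758966) (nat_lit 0) (nat_lit 232736817321) (nat_lit 2) (nat_lit 5) (nat_lit 4) (nat_lit 4) (nat_lit 2) (nat_lit 4) (nat_lit 546) (nat_lit 372) (nat_lit 282)) (XT.lf (nat_lit 0) (nat_lit 257763470442) (nat_lit 152) (nat_lit 162986182826) (nat_lit 0) (nat_lit 255108991974) (nat_lit 2) (nat_lit 5) (nat_lit 4) (nat_lit 4) (nat_lit 2) (nat_lit 4) (nat_lit 547) (nat_lit 372) (nat_lit 281)))) (XT.nd (nat_lit 156) (nat_lit 0) (nat_lit 0) (XT.nd (nat_lit 78) (nat_lit 0) (nat_lit 0) (XT.lf (nat_lit 0) (nat_lit 281243842767) (nat_lit 152) (nat_lit 149283526427) (nat_lit 0) (nat_lit 278587855305) (nat_lit 2) (nat_lit 5) (nat_lit 4) (nat_lit 4) (nat_lit 2) (nat_lit 4) (nat_lit 548) (nat_lit 372) (nat_lit 280)) (XT.lf (nat_lit 0) (nat_lit 305886733969) (nat_lit 152) (nat_lit 134919164398) (nat_lit 0) (nat_lit 303229309370) (nat_lit 2) (nat_lit 5) (nat_lit 4) (nat_lit 4) (nat_lit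 2) (nat_lit 4) (nat_lit 549) (nat_lit 372) (nat_lit 279))) (XT.nd (nat_lit 78) (nat_lit 0) (nat_lit 0) (XT.lf (nat_lit 0) (nat_lit 331750817597) (nat_lit 152) (nat_lit 119858895876) (nat_lit 0) (nat_lit 329092024296) (nat_lit 2) (nat_lit 5) (nat_lit 4) (nat_lit 4) (nat_lit 2) (nat_lit 4) (nat_lit 550) (nat_lit 372) (nat_lit 278)) (XT.lf (nat_lit 0) (nat_lit 358897674805) (nat_lit 152) (nat_lit 104066863080) (nat_lit 0) (nat_lit 356237577978) (nat_lit 2) (nat_lit 5) (nat_lit 4) (nat_lit 4) (nat_lit 2) (nat_lit 4) (nat_lit 551) (nat_lit 372) (nat_lit 277)))))) (XT.nd (nat_lit 55380) (nat_lit 0) (nat_lit 2280) (XT.nd (nat_lit 55068) (nat_lit 0) (nat_lit 2964) (XT.nd (nat_lit 54912) (nat_lit 0) (nat_lit 3344) (XT.nd (nat_lit 54834) (nat_lit 0) (nat_lit 3572) (XT.lf (nat_lit 0) (nat_lit 387391940965) (nat_lit 152) (nat_lit 87505465931) (nat_lit 0) (nat_lit 384730602684) (nat_lit 2) (nat_lit 5) (nat_lit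 4) (nat_lit 4) (nat_lit 2) (nat_lit 4) (nat_lit 552) (nat_lit 372) (nat_lit 276)) (XT.lf (nat_lit 0) (nat_lit 3444061301) (nat_lit 76) (nat_lit 2234622352) (nat_lit 76) (nat_lit 2234622352) (nat_lit 49) (nat_lit 4) (nat_lit 50) (nat_lit 5) (nat_lit 50) (nat_lit 4) (nat_lit 454) (nat_lit 373) (nat_lit 373))) (XT.nd (nat_lit 78) (nat_lit 76) (nat_lit 0) (XT.lf (nat_lit 0) (nat_lit 2708914825) (nat_lit 152) (nat_lit 11105589359) (nat_lit 0) (nat_lit 2429697375) (nat_lit 47) (nat_lit 5) (nat_lit 49) (nat_lit 4) (nat_lit 47) (nat_lit 4) (nat_lit 455) (nat_lit 373) (nat_lit 372)) (XT.lf (nat_lit 0) (nat_lit 3028251178) (nat_lit 76) (nat_lit 7097208374) (nat_lit 76) (nat_lit 6552069544) (nat_lit 46) (nat_lit 4) (nat_lit 47) (nat_lit 5) (nat_lit 47) (nat_lit 4) (nat_lit 456) (nat_lit 373) (nat_lit 371)))) (XT.nd (nat_lit 156) (nat_lit 228) (nat_lit 0) (XT.nd (nat_lit 78) (nat_lit 0) (nat_lit 0) (XT.lf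 (nat_lit 0) (nat_lit 662277062) (nat_lit 76) (nat_lit 50247010) (nat_lit 152) (nat_lit 16421535256) (nat_lit 44) (nat_lit 5) (nat_lit 45) (nat_lit 5) (nat_lit 46) (nat_lit 4) (nat_lit 457) (nat_lit 373) (nat_lit 370)) (XT.lf (nat_lit 0) (nat_lit 8226320730) (nat_lit 152) (nat_lit 2140191763) (nat_lit 0) (nat_lit 7236229475) (nat_lit 44) (nat_lit 5) (nat_lit 46) (nat_lit 4) (nat_lit 44) (nat_lit 4) (nat_lit 458) (nat_lit 373) (nat_lit 369))) (XT.nd (nat_lit 78) (nat_lit 152) (nat_lit 0) (XT.lf (nat_lit 0) (nat_lit 12865920000) (nat_lit 76) (nat_lit 3219660023) (nat_lit 76) (nat_lit 2010794589) (nat_lit 43) (nat_lit 4) (nat_lit 44) (nat_lit 5) (nat_lit 44) (nat_lit 4) (nat_lit 459) (nat_lit 373) (nat_lit 368)) (XT.lf (nat_lit 0) (nat_lit 5567099293) (nat_lit 152) (nat_lit 8824403680) (nat_lit 0) (nat_lit 4217364252) (nat_lit 41) (nat_lit 5) (nat_lit 43) (nat_lit 4) (nat_lit 41) (nat_lit 4) (nat_lit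 460) (nat_lit 373) (nat_lit 367))))) (XT.nd (nat_lit 312) (nat_lit 380) (nat_lit 0) (XT.nd (nat_lit 156) (nat_lit 76) (nat_lit 0) (XT.nd (nat_lit 78) (nat_lit 152) (nat_lit 0) (XT.lf (nat_lit 0) (nat_lit 6247902857) (nat_lit 76) (nat_lit 7217843012) (nat_lit 76) (nat_lit 5679122611) (nat_lit 40) (nat_lit 4) (nat_lit 41) (nat_lit 5) (nat_lit 41) (nat_lit 4) (nat_lit 461) (nat_lit 373) (nat_lit 366)) (XT.lf (nat_lit 0) (nat_lit 1947609818) (nat_lit 152) (nat_lit 17449634354) (nat_lit 0) (nat_lit 310746525) (nat_lit 38) (nat_lit 5) (nat_lit 40) (nat_lit 4) (nat_lit 38) (nat_lit 4) (nat_lit 462) (nat_lit 373) (nat_lit 365))) (XT.nd (nat_lit 78) (nat_lit 76) (nat_lit 0) (XT.lf (nat_lit 0) (nat_lit 9875079370) (nat_lit 152) (nat_lit 2339061775) (nat_lit 0) (nat_lit 8074963417) (nat_lit 38) (nat_lit 5) (nat_lit 40) (nat_lit 4) (nat_lit 38) (nat_lit 4) (nat_lit 463) (nat_lit 373) (nat_lit 364)) (XT.lf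 (nat_lit 0) (nat_lit 13526736391) (nat_lit 76) (nat_lit 4664265811) (nat_lit 76) (nat_lit 2708671133) (nat_lit 37) (nat_lit 4) (nat_lit 38) (nat_lit 5) (nat_lit 38) (nat_lit 4) (nat_lit 464) (nat_lit 373) (nat_lit 363)))) (XT.nd (nat_lit 156) (nat_lit 152) (nat_lit 0) (XT.nd (nat_lit 78) (nat_lit 76) (nat_lit 0) (XT.lf (nat_lit 0) (nat_lit 5215316539) (nat_lit 152) (nat_lit 13109152820) (nat_lit 0) (nat_lit 3211821633) (nat_lit 35) (nat_lit 5) (nat_lit 37) (nat_lit 4) (nat_lit 35) (nat_lit 4) (nat_lit 465) (nat_lit 373) (nat_lit 362)) (XT.lf (nat_lit 0) (nat_lit 2601067817) (nat_lit 76) (nat_lit 10868989205) (nat_lit 76) (nat_lit 8731185931) (nat_lit 34) (nat_lit 4) (nat_lit 35) (nat_lit 5) (nat_lit 35) (nat_lit 4) (nat_lit 466) (nat_lit 373) (nat_lit 361))) (XT.nd (nat_lit 78) (nat_lit 152) (nat_lit 0) (XT.lf (nat_lit 0) (nat_lit 19124958759) (nat_lit 76) (nat_lit 3019917651) (nat_lit 76) (nat_lit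 754201646) (nat_lit 34) (nat_lit 4) (nat_lit 35) (nat_lit 5) (nat_lit 35) (nat_lit 4) (nat_lit 467) (nat_lit 373) (nat_lit 360)) (XT.lf (nat_lit 0) (nat_lit 7451970855) (nat_lit 152) (nat_lit 10992047286) (nat_lit 0) (nat_lit 5178125471) (nat_lit 32) (nat_lit 5) (nat_lit 34) (nat_lit 4) (nat_lit 32) (nat_lit 4) (nat_lit 468) (nat_lit 373) (nat_lit 359))))))) (XT.nd (nat_lit 1248) (nat_lit 684) (nat_lit 0) (XT.nd (nat_lit 624) (nat_lit 456) (nat_lit 0) (XT.nd (nat_lit 312) (nat_lit 228) (nat_lit 0) (XT.nd (nat_lit 156) (nat_lit 228) (nat_lit 0) (XT.nd (nat_lit 78) (nat_lit 0) (nat_lit 0) (XT.lf (nat_lit 0) (nat_lit 5300221033) (nat_lit 76) (nat_lit 10732688267) (nat_lit 76) (nat_lit 8348347057) (nat_lit 31) (nat_lit 4) (nat_lit 32) (nat_lit 5) (nat_lit 32) (nat_lit 4) (nat_lit 469) (nat_lit 373) (nat_lit 358)) (XT.lf (nat_lit 0) (nat_lit 22381511874) (nat_lit 76) (nat_lit 2643638783) (nat_lit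 76) (nat_lit 154063453) (nat_lit 31) (nat_lit 4) (nat_lit 32) (nat_lit 5) (nat_lit 32) (nat_lit 4) (nat_lit 470) (nat_lit 373) (nat_lit 357))) (XT.nd (nat_lit 78) (nat_lit 76) (nat_lit 0) (XT.lf (nat_lit 0) (nat_lit 8298323756) (nat_lit 152) (nat_lit 11874360418) (nat_lit 0) (nat_lit 5831849183) (nat_lit 29) (nat_lit 5) (nat_lit 31) (nat_lit 4) (nat_lit 29) (nat_lit 4) (nat_lit 471) (nat_lit 373) (nat_lit 356)) (XT.lf (nat_lit 0) (nat_lit 4846642238) (nat_lit 76) (nat_lit 12291613273) (nat_lit 76) (nat_lit 9734233511) (nat_lit 28) (nat_lit 4) (nat_lit 29) (nat_lit 5) (nat_lit 29) (nat_lit 4) (nat_lit 472) (nat_lit 373) (nat_lit 355)))) (XT.nd (nat_lit 156) (nat_lit 76) (nat_lit 0) (XT.nd (nat_lit 78) (nat_lit 152) (nat_lit 0) (XT.lf (nat_lit 0) (nat_lit 22427649409) (nat_lit 76) (nat_lit 3999891563) (nat_lit 76) (nat_lit 1355935429) (nat_lit 28) (nat_lit 4) (nat_lit 29) (nat_lit 5) (nat_lit 29)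 (nat_lit 4) (nat_lit 473) (nat_lit 373) (nat_lit 354)) (XT.lf (nat_lit 0) (nat_lit 7279084840) (nat_lit 152) (nat_lit 16768818177) (nat_lit 0) (nat_lit 4682504059) (nat_lit 26) (nat_lit 5) (nat_lit 28) (nat_lit 4) (nat_lit 26) (nat_lit 4) (nat_lit 474) (nat_lit 373) (nat_lit 353))) (XT.nd (nat_lit 78) (nat_lit 0) (nat_lit 0) (XT.lf (nat_lit 0) (nat_lit 149911370) (nat_lit 76) (nat_lit 16123195396) (nat_lit 76) (nat_lit 13451826691) (nat_lit 25) (nat_lit 4) (nat_lit 26) (nat_lit 5) (nat_lit 26) (nat_lit 4) (nat_lit 475) (nat_lit 373) (nat_lit 352)) (XT.lf (nat_lit 0) (nat_lit 18126553696) (nat_lit 76) (nat_lit 7690118553) (nat_lit 76) (nat_lit 4947523253) (nat_lit 25) (nat_lit 4) (nat_lit 26) (nat_lit 5) (nat_lit 26) (nat_lit 4) (nat_lit 476) (nat_lit 373) (nat_lit 351))))) (XT.nd (nat_lit 312) (nat_lit 228) (nat_lit 0) (XT.nd (nat_lit 156) (nat_lit 76) (nat_lit 0) (XT.nd (nat_lit 78) (nat_lit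 0) (nat_lit 0) (XT.lf (nat_lit 0) (nat_lit 3770156860) (nat_lit 152) (nat_lit 26992819390) (nat_lit 0) (nat_lit 1093556715) (nat_lit 23) (nat_lit 5) (nat_lit 25) (nat_lit 4) (nat_lit 23) (nat_lit 4) (nat_lit 477) (nat_lit 373) (nat_lit 350)) (XT.lf (nat_lit 0) (nat_lit 12923011262) (nat_lit 152) (nat_lit 9883261081) (nat_lit 0) (nat_lit 10184882907) (nat_lit 23) (nat_lit 5) (nat_lit 25) (nat_lit 4) (nat_lit 23) (nat_lit 4) (nat_lit 478) (nat_lit 373) (nat_lit 349))) (XT.nd (nat_lit 78) (nat_lit 0) (nat_lit 0) (XT.lf (nat_lit 0) (nat_lit 7996101207) (nat_lit 76) (nat_lit 14492685688) (nat_lit 76) (nat_lit 11695959036) (nat_lit 22) (nat_lit 4) (nat_lit 23) (nat_lit 5) (nat_lit 23) (nat_lit 4) (nat_lit 479) (nat_lit 373) (nat_lit 348)) (XT.lf (nat_lit 0) (nat_lit 26776466669) (nat_lit 76) (nat_lit 5757026542) (nat_lit 76) (nat_lit 2904491990) (nat_lit 22) (nat_lit 4) (nat_lit 23) (nat_lit 5) (nat_lit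 23) (nat_lit 4) (nat_lit 480) (nat_lit 373) (nat_lit 347)))) (XT.nd (nat_lit 156) (nat_lit 76) (nat_lit 0) (XT.nd (nat_lit 78) (nat_lit 0) (nat_lit 0) (XT.lf (nat_lit 0) (nat_lit 6167791856) (nat_lit 152) (nat_lit 27178497369) (nat_lit 0) (nat_lit 3400472871) (nat_lit 20) (nat_lit 5) (nat_lit 22) (nat_lit 4) (nat_lit 20) (nat_lit 4) (nat_lit 481) (nat_lit 373) (nat_lit 346)) (XT.lf (nat_lit 0) (nat_lit 15678314803) (nat_lit 152) (nat_lit 9573384698) (nat_lit 0) (nat_lit 12862786855) (nat_lit 20) (nat_lit 5) (nat_lit 22) (nat_lit 4) (nat_lit 20) (nat_lit 4) (nat_lit 482) (nat_lit 373) (nat_lit 345))) (XT.nd (nat_lit 78) (nat_lit 0) (nat_lit 0) (XT.lf (nat_lit 0) (nat_lit 8886315566) (nat_lit 76) (nat_lit 16763232132) (nat_lit 76) (nat_lit 13901790886) (nat_lit 19) (nat_lit 4) (nat_lit 20) (nat_lit 5) (nat_lit 20) (nat_lit 4) (nat_lit 483) (nat_lit 373) (nat_lit 344)) (XT.lf (nat_lit 0) (nat_lit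 28296282890) (nat_lit 76) (nat_lit 7834181756) (nat_lit 76) (nat_lit 4929013560) (nat_lit 19) (nat_lit 4) (nat_lit 20) (nat_lit 5) (nat_lit 20) (nat_lit 4) (nat_lit 484) (nat_lit 373) (nat_lit 343)))))) (XT.nd (nat_lit 624) (nat_lit 304) (nat_lit 0) (XT.nd (nat_lit 312) (nat_lit 152) (nat_lit 0) (XT.nd (nat_lit 156) (nat_lit 76) (nat_lit 0) (XT.nd (nat_lit 78) (nat_lit 0) (nat_lit 0) (XT.lf (nat_lit 0) (nat_lit 4318248259) (nat_lit 152) (nat_lit 36811029116) (nat_lit 0) (nat_lit 1511759773) (nat_lit 17) (nat_lit 5) (nat_lit 19) (nat_lit 4) (nat_lit 17) (nat_lit 4) (nat_lit 485) (nat_lit 373) (nat_lit 342)) (XT.lf (nat_lit 0) (nat_lit 14064304521) (nat_lit 152) (nat_lit 19003183144) (nat_lit 0) (nat_lit 11220043051) (nat_lit 17) (nat_lit 5) (nat_lit 19) (nat_lit 4) (nat_lit 17) (nat_lit 4) (nat_lit 486) (nat_lit 373) (nat_lit 341))) (XT.nd (nat_lit 78) (nat_lit 76) (nat_lit 0) (XT.lf (nat_lit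 0) (nat_lit 24158573094) (nat_lit 152) (nat_lit 586393783) (nat_lit 0) (nat_lit 21278337353) (nat_lit 17) (nat_lit 5) (nat_lit 19) (nat_lit 4) (nat_lit 17) (nat_lit 4) (nat_lit 487) (nat_lit 373) (nat_lit 340)) (XT.lf (nat_lit 0) (nat_lit 19094326149) (nat_lit 76) (nat_lit 15828877743) (nat_lit 76) (nat_lit 12914380792) (nat_lit 16) (nat_lit 4) (nat_lit 17) (nat_lit 5) (nat_lit 17) (nat_lit 4) (nat_lit 488) (nat_lit 373) (nat_lit 339)))) (XT.nd (nat_lit 156) (nat_lit 0) (nat_lit 0) (XT.nd (nat_lit 78) (nat_lit 152) (nat_lit 0) (XT.lf (nat_lit 0) (nat_lit 39515717097) (nat_lit 76) (nat_lit 6590003350) (nat_lit 76) (nat_lit 3642876676) (nat_lit 16) (nat_lit 4) (nat_lit 17) (nat_lit 5) (nat_lit 17) (nat_lit 4) (nat_lit 489) (nat_lit 373) (nat_lit 338)) (XT.lf (nat_lit 0) (nat_lit 5964340758) (nat_lit 152) (nat_lit 42654750561) (nat_lit 0) (nat_lit 3127957328) (nat_lit 14) (nat_lit 5) (nat_lit 16)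 (nat_lit 4) (nat_lit 14) (nat_lit 4) (nat_lit 490) (nat_lit 373) (nat_lit 337))) (XT.nd (nat_lit 78) (nat_lit 0) (nat_lit 0) (XT.lf (nat_lit 0) (nat_lit 16087656595) (nat_lit 152) (nat_lit 24523786279) (nat_lit 0) (nat_lit 13223086383) (nat_lit 14) (nat_lit 5) (nat_lit 16) (nat_lit 4) (nat_lit 14) (nat_lit 4) (nat_lit 491) (nat_lit 373) (nat_lit 336)) (XT.lf (nat_lit 0) (nat_lit 26597128220) (nat_lit 152) (nat_lit 5729543279) (nat_lit 0) (nat_lit 23705713454) (nat_lit 14) (nat_lit 5) (nat_lit 16) (nat_lit 4) (nat_lit 14) (nat_lit 4) (nat_lit 492) (nat_lit 373) (nat_lit 335))))) (XT.nd (nat_lit 312) (nat_lit 76) (nat_lit 0) (XT.nd (nat_lit 156) (nat_lit 152) (nat_lit 0) (XT.nd (nat_lit 78) (nat_lit 0) (nat_lit 0) (XT.lf (nat_lit 0) (nat_lit 14228115176) (nat_lit 76) (nat_lit 23511803759) (nat_lit 76) (nat_lit 20594822750) (nat_lit 13) (nat_lit 4) (nat_lit 14) (nat_lit 5) (nat_lit 14) (nat_lit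 4) (nat_lit 493) (nat_lit 373) (nat_lit 334)) (XT.lf (nat_lit 0) (nat_lit 35154624985) (nat_lit 76) (nat_lit 14269845265) (nat_lit 76) (nat_lit 11328515454) (nat_lit 13) (nat_lit 4) (nat_lit 14) (nat_lit 5) (nat_lit 14) (nat_lit 4) (nat_lit 494) (nat_lit 373) (nat_lit 333))) (XT.nd (nat_lit 78) (nat_lit 152) (nat_lit 0) (XT.lf (nat_lit 0) (nat_lit 56910366592) (nat_lit 76) (nat_lit 4675823943) (nat_lit 76) (nat_lit 1711304796) (nat_lit 13) (nat_lit 4) (nat_lit 14) (nat_lit 5) (nat_lit 14) (nat_lit 4) (nat_lit 495) (nat_lit 373) (nat_lit 332)) (XT.lf (nat_lit 0) (nat_lit 8319850264) (nat_lit 152) (nat_lit 52157292640) (nat_lit 0) (nat_lit 5475465285) (nat_lit 11) (nat_lit 5) (nat_lit 13) (nat_lit 4) (nat_lit 11) (nat_lit 4) (nat_lit 496) (nat_lit 373) (nat_lit 331)))) (XT.nd (nat_lit 156) (nat_lit 76) (nat_lit 0) (XT.nd (nat_lit 78) (nat_lit 0) (nat_lit 0) (XT.lf (nat_lit 0) (nat_lit 18878083757)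 (nat_lit 152) (nat_lit 33843172091) (nat_lit 0) (nat_lit 16013666957) (nat_lit 11) (nat_lit 5) (nat_lit 13) (nat_lit 4) (nat_lit 11) (nat_lit 4) (nat_lit 497) (nat_lit 373) (nat_lit 330)) (XT.lf (nat_lit 0) (nat_lit 29865597029) (nat_lit 152) (nat_lit 14813585806) (nat_lit 0) (nat_lit 26982102307) (nat_lit 11) (nat_lit 5) (nat_lit 13) (nat_lit 4) (nat_lit 11) (nat_lit 4) (nat_lit 498) (nat_lit 373) (nat_lit 329))) (XT.nd (nat_lit 78) (nat_lit 0) (nat_lit 0) (XT.lf (nat_lit 0) (nat_lit 5141329404) (nat_lit 76) (nat_lit 36247491984) (nat_lit 76) (nat_lit 33345827810) (nat_lit 10) (nat_lit 4) (nat_lit 11) (nat_lit 5) (nat_lit 11) (nat_lit 4) (nat_lit 499) (nat_lit 373) (nat_lit 328)) (XT.lf (nat_lit 0) (nat_lit 26420655474) (nat_lit 76) (nat_lit 27226035282) (nat_lit 76) (nat_lit 24307066869) (nat_lit 10) (nat_lit 4) (nat_lit 11) (nat_lit 5) (nat_lit 11) (nat_lit 4) (nat_lit 500) (nat_lit 373) (nat_lit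 327))))))))
noncomputable def xc40 : XT := (XT.nd (nat_lit 2418) (nat_lit 152) (nat_lit 0) (XT.nd (nat_lit 1170) (nat_lit 76) (nat_lit 0) (XT.nd (nat_lit 546) (nat_lit 228) (nat_lit 0) (XT.nd (nat_lit 234) (nat_lit 0) (nat_lit 0) (XT.nd (nat_lit 78) (nat_lit 152) (nat_lit 0) (XT.lf (nat_lit 0) (nat_lit 48585253418) (nat_lit 76) (nat_lit 17844208315) (nat_lit 76) (nat_lit 14908759674) (nat_lit 10) (nat_lit 4) (nat_lit 11) (nat_lit 5) (nat_lit 11) (nat_lit 4) (nat_lit 501) (nat_lit 373) (nat_lit 326)) (XT.nd (nat_lit 78) (nat_lit 152) (nat_lit 0) (XT.lf (nat_lit 0) (nat_lit 71687896088) (nat_lit 76) (nat_lit 8079673398) (nat_lit 76) (nat_lit 5128529302) (nat_lit 10) (nat_lit 4) (nat_lit 11) (nat_lit 5) (nat_lit 11) (nat_lit 4) (nat_lit 502) (nat_lit 373) (nat_lit 325)) (XT.lf (nat_lit 0) (nat_lit 5044877207) (nat_lit 152) (nat_lit 81359517562) (nat_lit 0) (nat_lit 2220027542) (nat_lit 8) (nat_lit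 5) (nat_lit 10) (nat_lit 4) (nat_lit 8) (nat_lit 4) (nat_lit 503) (nat_lit 373) (nat_lit 324)))) (XT.nd (nat_lit 156) (nat_lit 0) (nat_lit 0) (XT.nd (nat_lit 78) (nat_lit 0) (nat_lit 0) (XT.lf (nat_lit 0) (nat_lit 15833336614) (nat_lit 152) (nat_lit 63692756598) (nat_lit 0) (nat_lit 12994928625) (nat_lit 8) (nat_lit 5) (nat_lit 10) (nat_lit 4) (nat_lit 8) (nat_lit 4) (nat_lit 504) (nat_lit 373) (nat_lit 323)) (XT.lf (nat_lit 0) (nat_lit 27084006434) (nat_lit 152) (nat_lit 45299620045) (nat_lit 0) (nat_lit 24232685755) (nat_lit 8) (nat_lit 5) (nat_lit 10) (nat_lit 4) (nat_lit 8) (nat_lit 4) (nat_lit 505) (nat_lit 373) (nat_lit 322))) (XT.nd (nat_lit 78) (nat_lit 0) (nat_lit 0) (XT.lf (nat_lit 0) (nat_lit 38823673975) (nat_lit 152) (nat_lit 26136314720) (nat_lit 0) (nat_lit 35960055497) (nat_lit 8) (nat_lit 5) (nat_lit 10) (nat_lit 4) (nat_lit 8) (nat_lit 4) (nat_lit 506) (nat_lit 373) (nat_lit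 321)) (XT.lf (nat_lit 0) (nat_lit 51080290828) (nat_lit 152) (nat_lit 6157213707) (nat_lit 0) (nat_lit 48204960159) (nat_lit 8) (nat_lit 5) (nat_lit 10) (nat_lit 4) (nat_lit 8) (nat_lit 4) (nat_lit 507) (nat_lit 373) (nat_lit 320))))) (XT.nd (nat_lit 312) (nat_lit 152) (nat_lit 0) (XT.nd (nat_lit 156) (nat_lit 0) (nat_lit 0) (XT.nd (nat_lit 78) (nat_lit 0) (nat_lit 0) (XT.lf (nat_lit 0) (nat_lit 15170813043) (nat_lit 76) (nat_lit 48949085277) (nat_lit 76) (nat_lit 46062600141) (nat_lit 7) (nat_lit 4) (nat_lit 8) (nat_lit 5) (nat_lit 8) (nat_lit 4) (nat_lit 508) (nat_lit 373) (nat_lit 319)) (XT.lf (nat_lit 0) (nat_lit 37645602551) (nat_lit 76) (nat_lit 40204553270) (nat_lit 76) (nat_lit 37307444832) (nat_lit 7) (nat_lit 4) (nat_lit 8) (nat_lit 5) (nat_lit 8) (nat_lit 4) (nat_lit 509) (nat_lit 373) (nat_lit 318))) (XT.nd (nat_lit 78) (nat_lit 0) (nat_lit 0) (XT.lf (nat_lit 0) (nat_lit 61117080928)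 (nat_lit 76) (nat_lit 31087363594) (nat_lit 76) (nat_lit 28180137726) (nat_lit 7) (nat_lit 4) (nat_lit 8) (nat_lit 5) (nat_lit 8) (nat_lit 4) (nat_lit 510) (nat_lit 373) (nat_lit 317)) (XT.lf (nat_lit 0) (nat_lit 85641132646) (nat_lit 76) (nat_lit 21575808654) (nat_lit 76) (nat_lit 18658947139) (nat_lit 7) (nat_lit 4) (nat_lit 8) (nat_lit 5) (nat_lit 8) (nat_lit 4) (nat_lit 511) (nat_lit 373) (nat_lit 316)))) (XT.nd (nat_lit 156) (nat_lit 0) (nat_lit 0) (XT.nd (nat_lit 78) (nat_lit 152) (nat_lit 0) (XT.lf (nat_lit 0) (nat_lit 111276148304) (nat_lit 76) (nat_lit 11647241891) (nat_lit 76) (nat_lit 8721203569) (nat_lit 7) (nat_lit 4) (nat_lit 8) (nat_lit 5) (nat_lit 8) (nat_lit 4) (nat_lit 512) (nat_lit 373) (nat_lit 315)) (XT.lf (nat_lit 0) (nat_lit 364531110) (nat_lit 76) (nat_lit 1244888035) (nat_lit 152) (nat_lit 136093436195) (nat_lit 5) (nat_lit 5) (nat_lit 6) (nat_lit 5) (nat_lit 7) (nat_lit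 4) (nat_lit 513) (nat_lit 373) (nat_lit 314))) (XT.nd (nat_lit 78) (nat_lit 0) (nat_lit 0) (XT.lf (nat_lit 0) (nat_lit 12610350250) (nat_lit 152) (nat_lit 121616791858) (nat_lit 0) (nat_lit 9807396179) (nat_lit 5) (nat_lit 5) (nat_lit 7) (nat_lit 4) (nat_lit 5) (nat_lit 4) (nat_lit 514) (nat_lit 373) (nat_lit 313)) (XT.lf (nat_lit 0) (nat_lit 24129515236) (nat_lit 152) (nat_lit 105235869554) (nat_lit 0) (nat_lit 21319011383) (nat_lit 5) (nat_lit 5) (nat_lit 7) (nat_lit 4) (nat_lit 5) (nat_lit 4) (nat_lit 515) (nat_lit 373) (nat_lit 312)))))) (XT.nd (nat_lit 624) (nat_lit 0) (nat_lit 0) (XT.nd (nat_lit 312) (nat_lit 76) (nat_lit 0) (XT.nd (nat_lit 156) (nat_lit 0) (nat_lit 0) (XT.nd (nat_lit 78) (nat_lit 0) (nat_lit 0) (XT.lf (nat_lit 0) (nat_lit 36174904495) (nat_lit 152) (nat_lit 88137118929) (nat_lit 0) (nat_lit 33357210373) (nat_lit 5) (nat_lit 5) (nat_lit 7) (nat_lit 4) (nat_lit 5) (nat_lit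 4) (nat_lit 516) (nat_lit 373) (nat_lit 311)) (XT.lf (nat_lit 0) (nat_lit 48775197526) (nat_lit 152) (nat_lit 70279828675) (nat_lit 0) (nat_lit 45950655529) (nat_lit 5) (nat_lit 5) (nat_lit 7) (nat_lit 4) (nat_lit 5) (nat_lit 4) (nat_lit 517) (nat_lit 373) (nat_lit 310))) (XT.nd (nat_lit 78) (nat_lit 0) (nat_lit 0) (XT.lf (nat_lit 0) (nat_lit 61960395027) (nat_lit 152) (nat_lit 51621481431) (nat_lit 0) (nat_lit 59129331244) (nat_lit 5) (nat_lit 5) (nat_lit 7) (nat_lit 4) (nat_lit 5) (nat_lit 4) (nat_lit 518) (nat_lit 373) (nat_lit 309)) (XT.lf (nat_lit 0) (nat_lit 75761890325) (nat_lit 152) (nat_lit 32117652564) (nat_lit 0) (nat_lit 72924615318) (nat_lit 5) (nat_lit 5) (nat_lit 7) (nat_lit 4) (nat_lit 5) (nat_lit 4) (nat_lit 519) (nat_lit 373) (nat_lit 308)))) (XT.nd (nat_lit 156) (nat_lit 0) (nat_lit 0) (XT.nd (nat_lit 78) (nat_lit 76) (nat_lit 0) (XT.lf (nat_lit 0) (nat_lit 90212544123) (nat_lit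 152) (nat_lit 11721904384) (nat_lit 0) (nat_lit 87369353664) (nat_lit 5) (nat_lit 5) (nat_lit 7) (nat_lit 4) (nat_lit 5) (nat_lit 4) (nat_lit 520) (nat_lit 373) (nat_lit 307)) (XT.lf (nat_lit 0) (nat_lit 9932217398) (nat_lit 76) (nat_lit 95569615090) (nat_lit 76) (nat_lit 92720790867) (nat_lit 4) (nat_lit 4) (nat_lit 5) (nat_lit 5) (nat_lit 5) (nat_lit 4) (nat_lit 521) (nat_lit 373) (nat_lit 306))) (XT.nd (nat_lit 78) (nat_lit 0) (nat_lit 0) (XT.lf (nat_lit 0) (nat_lit 32997975671) (nat_lit 76) (nat_lit 88717795234) (nat_lit 76) (nat_lit 85863605522) (nat_lit 4) (nat_lit 4) (nat_lit 5) (nat_lit 5) (nat_lit 5) (nat_lit 4) (nat_lit 522) (nat_lit 373) (nat_lit 305)) (XT.lf (nat_lit 0) (nat_lit 57142709810) (nat_lit 76) (nat_lit 81561191206) (nat_lit 76) (nat_lit 78701891504) (nat_lit 4) (nat_lit 4) (nat_lit 5) (nat_lit 5) (nat_lit 5) (nat_lit 4) (nat_lit 523) (nat_lit 373) (nat_lit 304))))) (XT.nd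 (nat_lit 312) (nat_lit 0) (nat_lit 0) (XT.nd (nat_lit 156) (nat_lit 0) (nat_lit 0) (XT.nd (nat_lit 78) (nat_lit 0) (nat_lit 0) (XT.lf (nat_lit 0) (nat_lit 82423907278) (nat_lit 76) (nat_lit 74082763471) (nat_lit 76) (nat_lit 71218597113) (nat_lit 4) (nat_lit 4) (nat_lit 5) (nat_lit 5) (nat_lit 5) (nat_lit 4) (nat_lit 524) (nat_lit 373) (nat_lit 303)) (XT.lf (nat_lit 0) (nat_lit 108901761402) (nat_lit 76) (nat_lit 66264706250) (nat_lit 76) (nat_lit 63395904980) (nat_lit 4) (nat_lit 4) (nat_lit 5) (nat_lit 5) (nat_lit 5) (nat_lit 4) (nat_lit 525) (nat_lit 373) (nat_lit 302))) (XT.nd (nat_lit 78) (nat_lit 0) (nat_lit 0) (XT.lf (nat_lit 0) (nat_lit 136639314692) (nat_lit 76) (nat_lit 58088405121) (nat_lit 76) (nat_lit 55215189650) (nat_lit 4) (nat_lit 4) (nat_lit 5) (nat_lit 5) (nat_lit 5) (nat_lit 4) (nat_lit 526) (nat_lit 373) (nat_lit 301)) (XT.lf (nat_lit 0) (nat_lit 165702608941) (nat_lit 76)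 (nat_lit 49534392700) (nat_lit 76) (nat_lit 46656973227) (nat_lit 4) (nat_lit 4) (nat_lit 5) (nat_lit 5) (nat_lit 5) (nat_lit 4) (nat_lit 527) (nat_lit 373) (nat_lit 300)))) (XT.nd (nat_lit 156) (nat_lit 0) (nat_lit 0) (XT.nd (nat_lit 78) (nat_lit 0) (nat_lit 0) (XT.lf (nat_lit 0) (nat_lit 196160842468) (nat_lit 76) (nat_lit 40582302290) (nat_lit 76) (nat_lit 37700879006) (nat_lit 4) (nat_lit 4) (nat_lit 5) (nat_lit 5) (nat_lit 5) (nat_lit 4) (nat_lit 528) (nat_lit 373) (nat_lit 299)) (XT.lf (nat_lit 0) (nat_lit 228086534879) (nat_lit 76) (nat_lit 31210819391) (nat_lit 76) (nat_lit 28325582954) (nat_lit 4) (nat_lit 4) (nat_lit 5) (nat_lit 5) (nat_lit 5) (nat_lit 4) (nat_lit 529) (nat_lit 373) (nat_lit 298))) (XT.nd (nat_lit 78) (nat_lit 0) (nat_lit 0) (XT.lf (nat_lit 0) (nat_lit 261555699725) (nat_lit 76) (nat_lit 21397630948) (nat_lit 76) (nat_lit 18508762937) (nat_lit 4) (nat_lit 4) (nat_lit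 5) (nat_lit 5) (nat_lit 5) (nat_lit 4) (nat_lit 530) (nat_lit 373) (nat_lit 297)) (XT.lf (nat_lit 0) (nat_lit 296648025495) (nat_lit 76) (nat_lit 11119372227) (nat_lit 76) (nat_lit 8227045574) (nat_lit 4) (nat_lit 4) (nat_lit 5) (nat_lit 5) (nat_lit 5) (nat_lit 4) (nat_lit 531) (nat_lit 373) (nat_lit 296))))))) (XT.nd (nat_lit 1170) (nat_lit 0) (nat_lit 0) (XT.nd (nat_lit 546) (nat_lit 0) (nat_lit 0) (XT.nd (nat_lit 234) (nat_lit 0) (nat_lit 0) (XT.nd (nat_lit 78) (nat_lit 0) (nat_lit 0) (XT.lf (nat_lit 0) (nat_lit 2223938407) (nat_lit 76) (nat_lit 273407449) (nat_lit 152) (nat_lit 328753519176) (nat_lit 2) (nat_lit 5) (nat_lit 3) (nat_lit 5) (nat_lit 4) (nat_lit 4) (nat_lit 532) (nat_lit 373) (nat_lit 295)) (XT.nd (nat_lit 78) (nat_lit 0) (nat_lit 0) (XT.lf (nat_lit 0) (nat_lit 13964113200) (nat_lit 152) (nat_lit 322071727691) (nat_lit 0) (nat_lit 11203391592) (nat_lit 2) (nat_lit 5) (nat_lit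 4) (nat_lit 4) (nat_lit 2) (nat_lit 4) (nat_lit 533) (nat_lit 373) (nat_lit 294)) (XT.lf (nat_lit 0) (nat_lit 25985932303) (nat_lit 152) (nat_lit 314819635132) (nat_lit 0) (nat_lit 23222365262) (nat_lit 2) (nat_lit 5) (nat_lit 4) (nat_lit 4) (nat_lit 2) (nat_lit 4) (nat_lit 534) (nat_lit 373) (nat_lit 293)))) (XT.nd (nat_lit 156) (nat_lit 0) (nat_lit 0) (XT.nd (nat_lit 78) (nat_lit 0) (nat_lit 0) (XT.lf (nat_lit 0) (nat_lit 38587157887) (nat_lit 152) (nat_lit 307249113405) (nat_lit 0) (nat_lit 35820880909) (nat_lit 2) (nat_lit 5) (nat_lit 4) (nat_lit 4) (nat_lit 2) (nat_lit 4) (nat_lit 535) (nat_lit 373) (nat_lit 292)) (XT.lf (nat_lit 0) (nat_lit 51797792870) (nat_lit 152) (nat_lit 299342137459) (nat_lit 0) (nat_lit 49028935000) (nat_lit 2) (nat_lit 5) (nat_lit 4) (nat_lit 4) (nat_lit 2) (nat_lit 4) (nat_lit 536) (nat_lit 373) (nat_lit 291))) (XT.nd (nat_lit 78) (nat_lit 0) (nat_lit 0) (XT.lf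 (nat_lit 0) (nat_lit 65649291145) (nat_lit 152) (nat_lit 291079881158) (nat_lit 0) (nat_lit 62877975282) (nat_lit 2) (nat_lit 5) (nat_lit 4) (nat_lit 4) (nat_lit 2) (nat_lit 4) (nat_lit 537) (nat_lit 373) (nat_lit 290)) (XT.lf (nat_lit 0) (nat_lit 80174632469) (nat_lit 152) (nat_lit 282442672466) (nat_lit 0) (nat_lit 77400975661) (nat_lit 2) (nat_lit 5) (nat_lit 4) (nat_lit 4) (nat_lit 2) (nat_lit 4) (nat_lit 538) (nat_lit 373) (nat_lit 289))))) (XT.nd (nat_lit 312) (nat_lit 0) (nat_lit 0) (XT.nd (nat_lit 156) (nat_lit 0) (nat_lit 0) (XT.nd (nat_lit 78) (nat_lit 0) (nat_lit 0) (XT.lf (nat_lit 0) (nat_lit 95408400989) (nat_lit 152) (nat_lit 273409946600) (nat_lit 0) (nat_lit 92632514709) (nat_lit 2) (nat_lit 5) (nat_lit 4) (nat_lit 4) (nat_lit 2) (nat_lit 4) (nat_lit 539) (nat_lit 373) (nat_lit 288)) (XT.lf (nat_lit 0) (nat_lit 111386867582) (nat_lit 152) (nat_lit 263960197068) (nat_lit 0) (nat_lit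 108608857996) (nat_lit 2) (nat_lit 5) (nat_lit 4) (nat_lit 4) (nat_lit 2) (nat_lit 4) (nat_lit 540) (nat_lit 373) (nat_lit 287))) (XT.nd (nat_lit 78) (nat_lit 0) (nat_lit 0) (XT.lf (nat_lit 0) (nat_lit 128148076215) (nat_lit 152) (nat_lit 254070924469) (nat_lit 0) (nat_lit 125368044433) (nat_lit 2) (nat_lit 5) (nat_lit 4) (nat_lit 4) (nat_lit 2) (nat_lit 4) (nat_lit 541) (nat_lit 373) (nat_lit 286)) (XT.lf (nat_lit 0) (nat_lit 145731934530) (nat_lit 152) (nat_lit 243718582913) (nat_lit 0) (nat_lit 142949976846) (nat_lit 2) (nat_lit 5) (nat_lit 4) (nat_lit 4) (nat_lit 2) (nat_lit 4) (nat_lit 542) (nat_lit 373) (nat_lit 285)))) (XT.nd (nat_lit 156) (nat_lit 0) (nat_lit 0) (XT.nd (nat_lit 78) (nat_lit 0) (nat_lit 0) (XT.lf (nat_lit 0) (nat_lit 164180308854) (nat_lit 152) (nat_lit 232878523970) (nat_lit 0) (nat_lit 161396516979) (nat_lit 2) (nat_lit 5) (nat_lit 4) (nat_lit 4) (nat_lit 2) (nat_lit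 4) (nat_lit 543) (nat_lit 373) (nat_lit 284)) (XT.lf (nat_lit 0) (nat_lit 183537123889) (nat_lit 152) (nat_lit 221524937975) (nat_lit 0) (nat_lit 180751585164) (nat_lit 2) (nat_lit 5) (nat_lit 4) (nat_lit 4) (nat_lit 2) (nat_lit 4) (nat_lit 544) (nat_lit 373) (nat_lit 283))) (XT.nd (nat_lit 78) (nat_lit 0) (nat_lit 0) (XT.lf (nat_lit 0) (nat_lit 203848467290) (nat_lit 152) (nat_lit 209630792581) (nat_lit 0) (nat_lit 201061264899) (nat_lit 2) (nat_lit 5) (nat_lit 4) (nat_lit 4) (nat_lit 2) (nat_lit 4) (nat_lit 545) (nat_lit 373) (nat_lit 282)) (XT.lf (nat_lit 0) (nat_lit 225162699398) (nat_lit 152) (nat_lit 197167768393) (nat_lit 0) (nat_lit 222373912563) (nat_lit 2) (nat_lit 5) (nat_lit 4) (nat_lit 4) (nat_lit 2) (nat_lit 4) (nat_lit 546) (nat_lit 373) (nat_lit 281)))))) (XT.nd (nat_lit 55224) (nat_lit 0) (nat_lit 2888) (XT.nd (nat_lit 312) (nat_lit 0) (nat_lit 0) (XT.nd (nat_lit 156) (nat_lit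 0) (nat_lit 0) (XT.nd (nat_lit 78) (nat_lit 0) (nat_lit 0) (XT.lf (nat_lit 0) (nat_lit 247530568384) (nat_lit 152) (nat_lit 184106191544) (nat_lit 0) (nat_lit 244740272555) (nat_lit 2) (nat_lit 5) (nat_lit 4) (nat_lit 4) (nat_lit 2) (nat_lit 4) (nat_lit 547) (nat_lit 373) (nat_lit 280)) (XT.lf (nat_lit 0) (nat_lit 271005331080) (nat_lit 152) (nat_lit 170414963043) (nat_lit 0) (nat_lit 268213598114) (nat_lit 2) (nat_lit 5) (nat_lit 4) (nat_lit 4) (nat_lit 2) (nat_lit 4) (nat_lit 548) (nat_lit 373) (nat_lit 279))) (XT.nd (nat_lit 78) (nat_lit 0) (nat_lit 0) (XT.lf (nat_lit 0) (nat_lit 295642879778) (nat_lit 152) (nat_lit 156061484725) (nat_lit 0) (nat_lit 292849778109) (nat_lit 2) (nat_lit 5) (nat_lit 4) (nat_lit 4) (nat_lit 2) (nat_lit 4) (nat_lit 549) (nat_lit 373) (nat_lit 278)) (XT.lf (nat_lit 0) (nat_lit 321501875308) (nat_lit 152) (nat_lit 141011581643) (nat_lit 0) (nat_lit 318707470113)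 (nat_lit 2) (nat_lit 5) (nat_lit 4) (nat_lit 4) (nat_lit 2) (nat_lit 4) (nat_lit 550) (nat_lit 373) (nat_lit 277)))) (XT.nd (nat_lit 54756) (nat_lit 0) (nat_lit 3648) (XT.nd (nat_lit 78) (nat_lit 0) (nat_lit 0) (XT.lf (nat_lit 0) (nat_lit 348643886706) (nat_lit 152) (nat_lit 125229420694) (nat_lit 0) (nat_lit 345848240059) (nat_lit 2) (nat_lit 5) (nat_lit 4) (nat_lit 4) (nat_lit 2) (nat_lit 4) (nat_lit 551) (nat_lit 373) (nat_lit 276)) (XT.lf (nat_lit 0) (nat_lit 377133537811) (nat_lit 152) (nat_lit 108677425305) (nat_lit 0) (nat_lit 374336708827) (nat_lit 2) (nat_lit 5) (nat_lit 4) (nat_lit 4) (nat_lit 2) (nat_lit 4) (nat_lit 552) (nat_lit 373) (nat_lit 275))) (XT.nd (nat_lit 78) (nat_lit 152) (nat_lit 0) (XT.lf (nat_lit 0) (nat_lit 4913558974) (nat_lit 76) (nat_lit 1302902719) (nat_lit 76) (nat_lit 1302902719) (nat_lit 52) (nat_lit 4) (nat_lit 53) (nat_lit 5) (nat_lit 53) (nat_lit 4) (nat_lit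 452) (nat_lit 374) (nat_lit 374)) (XT.lf (nat_lit 0) (nat_lit 4339891491) (nat_lit 152) (nat_lit 7055081211) (nat_lit 0) (nat_lit 4032054253) (nat_lit 50) (nat_lit 5) (nat_lit 52) (nat_lit 4) (nat_lit 50) (nat_lit 4) (nat_lit 453) (nat_lit 374) (nat_lit 373))))) (XT.nd (nat_lit 312) (nat_lit 380) (nat_lit 0) (XT.nd (nat_lit 156) (nat_lit 152) (nat_lit 0) (XT.nd (nat_lit 78) (nat_lit 152) (nat_lit 0) (XT.lf (nat_lit 0) (nat_lit 6661098491) (nat_lit 76) (nat_lit 4886213332) (nat_lit 76) (nat_lit 4285197773) (nat_lit 49) (nat_lit 4) (nat_lit 50) (nat_lit 5) (nat_lit 50) (nat_lit 4) (nat_lit 454) (nat_lit 374) (nat_lit 372)) (XT.lf (nat_lit 0) (nat_lit 2757361259) (nat_lit 152) (nat_lit 11580038272) (nat_lit 0) (nat_lit 1919044107) (nat_lit 47) (nat_lit 5) (nat_lit 49) (nat_lit 4) (nat_lit 47) (nat_lit 4) (nat_lit 455) (nat_lit 374) (nat_lit 371))) (XT.nd (nat_lit 78) (nat_lit 76) (nat_lit 0) (XT.lf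 (nat_lit 0) (nat_lit 2310409226) (nat_lit 76) (nat_lit 7738592655) (nat_lit 76) (nat_lit 6647017046) (nat_lit 46) (nat_lit 4) (nat_lit 47) (nat_lit 5) (nat_lit 47) (nat_lit 4) (nat_lit 456) (nat_lit 374) (nat_lit 370)) (XT.lf (nat_lit 0) (nat_lit 496774218) (nat_lit 152) (nat_lit 314386992) (nat_lit 76) (nat_lit 16347656444) (nat_lit 45) (nat_lit 5) (nat_lit 47) (nat_lit 5) (nat_lit 46) (nat_lit 4) (nat_lit 457) (nat_lit 374) (nat_lit 369)))) (XT.nd (nat_lit 156) (nat_lit 228) (nat_lit 0) (XT.nd (nat_lit 78) (nat_lit 76) (nat_lit 0) (XT.lf (nat_lit 0) (nat_lit 7880403335) (nat_lit 152) (nat_lit 3361287085) (nat_lit 0) (nat_lit 6392320452) (nat_lit 44) (nat_lit 5) (nat_lit 46) (nat_lit 4) (nat_lit 44) (nat_lit 4) (nat_lit 458) (nat_lit 374) (nat_lit 368)) (XT.lf (nat_lit 0) (nat_lit 11387026587) (nat_lit 76) (nat_lit 4221800034) (nat_lit 76) (nat_lit 2525360792) (nat_lit 43) (nat_lit 4) (nat_lit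 44) (nat_lit 5) (nat_lit 44) (nat_lit 4) (nat_lit 459) (nat_lit 374) (nat_lit 367))) (XT.nd (nat_lit 78) (nat_lit 76) (nat_lit 0) (XT.lf (nat_lit 0) (nat_lit 4915844798) (nat_lit 152) (nat_lit 10627693684) (nat_lit 0) (nat_lit 3111203016) (nat_lit 41) (nat_lit 5) (nat_lit 43) (nat_lit 4) (nat_lit 41) (nat_lit 4) (nat_lit 460) (nat_lit 374) (nat_lit 366)) (XT.lf (nat_lit 0) (nat_lit 4167080445) (nat_lit 76) (nat_lit 8507640246) (nat_lit 76) (nat_lit 6523012407) (nat_lit 40) (nat_lit 4) (nat_lit 41) (nat_lit 5) (nat_lit 41) (nat_lit 4) (nat_lit 461) (nat_lit 374) (nat_lit 365))))))))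
noncomputable def xc41 : XT := (XT.nd (nat_lit 2418) (nat_lit 760) (nat_lit 0) (XT.nd (nat_lit 1170) (nat_lit 836) (nat_lit 0) (XT.nd (nat_lit 546) (nat_lit 532) (nat_lit 0) (XT.nd (nat_lit 234) (nat_lit 380) (nat_lit 0) (XT.nd (nat_lit 78) (nat_lit 152) (nat_lit 0) (XT.lf (nat_lit 0) (nat_lit 983231881) (nat_lit 152) (nat_lit 140417774) (nat_lit 76) (nat_lit 18645240972) (nat_lit 39) (nat_lit 5) (nat_lit 41) (nat_lit 5) (nat_lit 40) (nat_lit 4) (nat_lit 462) (nat_lit 374) (nat_lit 364)) (XT.nd (nat_lit 78) (nat_lit 76) (nat_lit 0) (XT.lf (nat_lit 0) (nat_lit 8783973030) (nat_lit 152) (nat_lit 4997249549) (nat_lit 0) (nat_lit 6575119896) (nat_lit 38) (nat_lit 5) (nat_lit 40) (nat_lit 4) (nat_lit 38) (nat_lit 4) (nat_lit 463) (nat_lit 374) (nat_lit 363)) (XT.lf (nat_lit 0) (nat_lit 10572727514) (nat_lit 76) (nat_lit 6379254513) (nat_lit 76) (nat_lit 4022326403) (nat_lit 37) (nat_lit 4) (nat_lit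 38) (nat_lit 5) (nat_lit 38) (nat_lit 4) (nat_lit 464) (nat_lit 374) (nat_lit 362)))) (XT.nd (nat_lit 156) (nat_lit 228) (nat_lit 0) (XT.nd (nat_lit 78) (nat_lit 0) (nat_lit 0) (XT.lf (nat_lit 0) (nat_lit 3760743198) (nat_lit 152) (nat_lit 16478616502) (nat_lit 0) (nat_lit 1381741393) (nat_lit 35) (nat_lit 5) (nat_lit 37) (nat_lit 4) (nat_lit 35) (nat_lit 4) (nat_lit 465) (nat_lit 374) (nat_lit 361)) (XT.lf (nat_lit 0) (nat_lit 11873409376) (nat_lit 152) (nat_lit 1053253838) (nat_lit 0) (nat_lit 9366494841) (nat_lit 35) (nat_lit 5) (nat_lit 37) (nat_lit 4) (nat_lit 35) (nat_lit 4) (nat_lit 466) (nat_lit 374) (nat_lit 360))) (XT.nd (nat_lit 78) (nat_lit 152) (nat_lit 0) (XT.lf (nat_lit 0) (nat_lit 15237455949) (nat_lit 76) (nat_lit 5194055248) (nat_lit 76) (nat_lit 2565319064) (nat_lit 34) (nat_lit 4) (nat_lit 35) (nat_lit 5) (nat_lit 35) (nat_lit 4) (nat_lit 467) (nat_lit 374) (nat_lit 359))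 (XT.lf (nat_lit 0) (nat_lit 5498364045) (nat_lit 152) (nat_lit 15348659591) (nat_lit 0) (nat_lit 2884309949) (nat_lit 32) (nat_lit 5) (nat_lit 34) (nat_lit 4) (nat_lit 32) (nat_lit 4) (nat_lit 468) (nat_lit 374) (nat_lit 358))))) (XT.nd (nat_lit 312) (nat_lit 304) (nat_lit 0) (XT.nd (nat_lit 156) (nat_lit 152) (nat_lit 0) (XT.nd (nat_lit 78) (nat_lit 0) (nat_lit 0) (XT.lf (nat_lit 0) (nat_lit 600920447) (nat_lit 76) (nat_lit 13308650859) (nat_lit 76) (nat_lit 10589362642) (nat_lit 31) (nat_lit 4) (nat_lit 32) (nat_lit 5) (nat_lit 32) (nat_lit 4) (nat_lit 469) (nat_lit 374) (nat_lit 357)) (XT.lf (nat_lit 0) (nat_lit 17493031285) (nat_lit 76) (nat_lit 5314054478) (nat_lit 76) (nat_lit 2494543290) (nat_lit 31) (nat_lit 4) (nat_lit 32) (nat_lit 5) (nat_lit 32) (nat_lit 4) (nat_lit 470) (nat_lit 374) (nat_lit 356))) (XT.nd (nat_lit 78) (nat_lit 0) (nat_lit 0) (XT.lf (nat_lit 0) (nat_lit 5812787364)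 (nat_lit 152) (nat_lit 17290353825) (nat_lit 0) (nat_lit 3036633424) (nat_lit 29) (nat_lit 5) (nat_lit 31) (nat_lit 4) (nat_lit 29) (nat_lit 4) (nat_lit 471) (nat_lit 374) (nat_lit 355)) (XT.lf (nat_lit 0) (nat_lit 14485498952) (nat_lit 152) (nat_lit 907824565) (nat_lit 0) (nat_lit 11622768641) (nat_lit 29) (nat_lit 5) (nat_lit 31) (nat_lit 4) (nat_lit 29) (nat_lit 4) (nat_lit 472) (nat_lit 374) (nat_lit 354)))) (XT.nd (nat_lit 156) (nat_lit 76) (nat_lit 0) (XT.nd (nat_lit 78) (nat_lit 152) (nat_lit 0) (XT.lf (nat_lit 0) (nat_lit 16462772516) (nat_lit 76) (nat_lit 7207362167) (nat_lit 76) (nat_lit 4262178169) (nat_lit 28) (nat_lit 4) (nat_lit 29) (nat_lit 5) (nat_lit 29) (nat_lit 4) (nat_lit 473) (nat_lit 374) (nat_lit 353)) (XT.lf (nat_lit 0) (nat_lit 4224199540) (nat_lit 152) (nat_lit 23324922019) (nat_lit 0) (nat_lit 1344474475) (nat_lit 26) (nat_lit 5) (nat_lit 28) (nat_lit 4) (nat_lit 26)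 (nat_lit 4) (nat_lit 474) (nat_lit 374) (nat_lit 352))) (XT.nd (nat_lit 78) (nat_lit 76) (nat_lit 0) (XT.lf (nat_lit 0) (nat_lit 13128873251) (nat_lit 152) (nat_lit 6585795701) (nat_lit 0) (nat_lit 10177921591) (nat_lit 26) (nat_lit 5) (nat_lit 28) (nat_lit 4) (nat_lit 26) (nat_lit 4) (nat_lit 475) (nat_lit 374) (nat_lit 351)) (XT.lf (nat_lit 0) (nat_lit 11001104785) (nat_lit 76) (nat_lit 11479561802) (nat_lit 76) (nat_lit 8460775290) (nat_lit 25) (nat_lit 4) (nat_lit 26) (nat_lit 5) (nat_lit 26) (nat_lit 4) (nat_lit 476) (nat_lit 374) (nat_lit 350)))))) (XT.nd (nat_lit 624) (nat_lit 380) (nat_lit 0) (XT.nd (nat_lit 312) (nat_lit 228) (nat_lit 0) (XT.nd (nat_lit 156) (nat_lit 76) (nat_lit 0) (XT.nd (nat_lit 78) (nat_lit 76) (nat_lit 0) (XT.lf (nat_lit 0) (nat_lit 192675329) (nat_lit 152) (nat_lit 2688406707) (nat_lit 76) (nat_lit 29164274284) (nat_lit 24) (nat_lit 5) (nat_lit 26) (nat_lit 5)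 (nat_lit 25) (nat_lit 4) (nat_lit 477) (nat_lit 374) (nat_lit 349)) (XT.lf (nat_lit 0) (nat_lit 9173762048) (nat_lit 152) (nat_lit 17836204762) (nat_lit 0) (nat_lit 6178600768) (nat_lit 23) (nat_lit 5) (nat_lit 25) (nat_lit 4) (nat_lit 23) (nat_lit 4) (nat_lit 478) (nat_lit 374) (nat_lit 348))) (XT.nd (nat_lit 78) (nat_lit 76) (nat_lit 0) (XT.lf (nat_lit 0) (nat_lit 18535921201) (nat_lit 152) (nat_lit 371466423) (nat_lit 0) (nat_lit 15484952020) (nat_lit 23) (nat_lit 5) (nat_lit 25) (nat_lit 4) (nat_lit 23) (nat_lit 4) (nat_lit 479) (nat_lit 374) (nat_lit 347)) (XT.lf (nat_lit 0) (nat_lit 18240477564) (nat_lit 76) (nat_lit 10256697046) (nat_lit 76) (nat_lit 7152577484) (nat_lit 22) (nat_lit 4) (nat_lit 23) (nat_lit 5) (nat_lit 23) (nat_lit 4) (nat_lit 480) (nat_lit 374) (nat_lit 346)))) (XT.nd (nat_lit 156) (nat_lit 76) (nat_lit 0) (XT.nd (nat_lit 78) (nat_lit 0) (nat_lit 0) (XT.lf (nat_lit 0)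 (nat_lit 501192083) (nat_lit 76) (nat_lit 1282188920) (nat_lit 152) (nat_lit 35192079231) (nat_lit 20) (nat_lit 5) (nat_lit 21) (nat_lit 5) (nat_lit 22) (nat_lit 4) (nat_lit 481) (nat_lit 374) (nat_lit 345)) (XT.lf (nat_lit 0) (nat_lit 11198979783) (nat_lit 152) (nat_lit 19000398202) (nat_lit 0) (nat_lit 8148553177) (nat_lit 20) (nat_lit 5) (nat_lit 22) (nat_lit 4) (nat_lit 20) (nat_lit 4) (nat_lit 482) (nat_lit 374) (nat_lit 344))) (XT.nd (nat_lit 78) (nat_lit 76) (nat_lit 0) (XT.lf (nat_lit 0) (nat_lit 20960133718) (nat_lit 152) (nat_lit 969173898) (nat_lit 0) (nat_lit 17865980162) (nat_lit 20) (nat_lit 5) (nat_lit 22) (nat_lit 4) (nat_lit 20) (nat_lit 4) (nat_lit 483) (nat_lit 374) (nat_lit 343)) (XT.lf (nat_lit 0) (nat_lit 18267013314) (nat_lit 76) (nat_lit 13088251046) (nat_lit 76) (nat_lit 9952452775) (nat_lit 19) (nat_lit 4) (nat_lit 20) (nat_lit 5) (nat_lit 20) (nat_lit 4) (nat_lit 484)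 (nat_lit 374) (nat_lit 342))))) (XT.nd (nat_lit 312) (nat_lit 152) (nat_lit 0) (XT.nd (nat_lit 156) (nat_lit 76) (nat_lit 0) (XT.nd (nat_lit 78) (nat_lit 152) (nat_lit 0) (XT.lf (nat_lit 0) (nat_lit 38221937005) (nat_lit 76) (nat_lit 3927659708) (nat_lit 76) (nat_lit 752199804) (nat_lit 19) (nat_lit 4) (nat_lit 20) (nat_lit 5) (nat_lit 20) (nat_lit 4) (nat_lit 485) (nat_lit 374) (nat_lit 341)) (XT.lf (nat_lit 0) (nat_lit 8812041739) (nat_lit 152) (nat_lit 29995310455) (nat_lit 0) (nat_lit 5751819940) (nat_lit 17) (nat_lit 5) (nat_lit 19) (nat_lit 4) (nat_lit 17) (nat_lit 4) (nat_lit 486) (nat_lit 374) (nat_lit 340))) (XT.nd (nat_lit 78) (nat_lit 76) (nat_lit 0) (XT.lf (nat_lit 0) (nat_lit 18841692191) (nat_lit 152) (nat_lit 11709275523) (nat_lit 0) (nat_lit 15747209183) (nat_lit 17) (nat_lit 5) (nat_lit 19) (nat_lit 4) (nat_lit 17) (nat_lit 4) (nat_lit 487) (nat_lit 374) (nat_lit 339)) (XT.lf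 (nat_lit 0) (nat_lit 7475026218) (nat_lit 76) (nat_lit 21888345870) (nat_lit 76) (nat_lit 18761233138) (nat_lit 16) (nat_lit 4) (nat_lit 17) (nat_lit 5) (nat_lit 17) (nat_lit 4) (nat_lit 488) (nat_lit 374) (nat_lit 338)))) (XT.nd (nat_lit 156) (nat_lit 152) (nat_lit 0) (XT.nd (nat_lit 78) (nat_lit 0) (nat_lit 0) (XT.lf (nat_lit 0) (nat_lit 27773897655) (nat_lit 76) (nat_lit 12711467577) (nat_lit 76) (nat_lit 9553278917) (nat_lit 16) (nat_lit 4) (nat_lit 17) (nat_lit 5) (nat_lit 17) (nat_lit 4) (nat_lit 489) (nat_lit 374) (nat_lit 337)) (XT.lf (nat_lit 0) (nat_lit 48848507904) (nat_lit 76) (nat_lit 3196785372) (nat_lit 76) (nat_lit 9000591) (nat_lit 16) (nat_lit 4) (nat_lit 17) (nat_lit 5) (nat_lit 17) (nat_lit 4) (nat_lit 490) (nat_lit 374) (nat_lit 336))) (XT.nd (nat_lit 78) (nat_lit 0) (nat_lit 0) (XT.lf (nat_lit 0) (nat_lit 9953597208) (nat_lit 152) (nat_lit 37305467724) (nat_lit 0) (nat_lit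 6890767148) (nat_lit 14) (nat_lit 5) (nat_lit 16) (nat_lit 4) (nat_lit 14) (nat_lit 4) (nat_lit 491) (nat_lit 374) (nat_lit 335)) (XT.lf (nat_lit 0) (nat_lit 20407315056) (nat_lit 152) (nat_lit 18624241912) (nat_lit 0) (nat_lit 17318918754) (nat_lit 14) (nat_lit 5) (nat_lit 16) (nat_lit 4) (nat_lit 14) (nat_lit 4) (nat_lit 492) (nat_lit 374) (nat_lit 334))))))) (XT.nd (nat_lit 1170) (nat_lit 304) (nat_lit 0) (XT.nd (nat_lit 546) (nat_lit 228) (nat_lit 0) (XT.nd (nat_lit 234) (nat_lit 152) (nat_lit 0) (XT.nd (nat_lit 78) (nat_lit 0) (nat_lit 0) (XT.lf (nat_lit 0) (nat_lit 795865243) (nat_lit 76) (nat_lit 30491426628) (nat_lit 76) (nat_lit 27378681524) (nat_lit 13) (nat_lit 4) (nat_lit 14) (nat_lit 5) (nat_lit 14) (nat_lit 4) (nat_lit 493) (nat_lit 374) (nat_lit 333)) (XT.nd (nat_lit 78) (nat_lit 0) (nat_lit 0) (XT.lf (nat_lit 0) (nat_lit 21616475690) (nat_lit 76) (nat_lit 21303143790) (nat_lit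 76) (nat_lit 18167209351) (nat_lit 13) (nat_lit 4) (nat_lit 14) (nat_lit 5) (nat_lit 14) (nat_lit 4) (nat_lit 494) (nat_lit 374) (nat_lit 332)) (XT.lf (nat_lit 0) (nat_lit 43271360762) (nat_lit 76) (nat_lit 11760242141) (nat_lit 76) (nat_lit 8602222620) (nat_lit 13) (nat_lit 4) (nat_lit 14) (nat_lit 5) (nat_lit 14) (nat_lit 4) (nat_lit 495) (nat_lit 374) (nat_lit 331)))) (XT.nd (nat_lit 156) (nat_lit 0) (nat_lit 0) (XT.nd (nat_lit 78) (nat_lit 76) (nat_lit 0) (XT.lf (nat_lit 0) (nat_lit 1296194405) (nat_lit 152) (nat_lit 521854400) (nat_lit 76) (nat_lit 64493933626) (nat_lit 12) (nat_lit 5) (nat_lit 14) (nat_lit 5) (nat_lit 13) (nat_lit 4) (nat_lit 496) (nat_lit 374) (nat_lit 330)) (XT.lf (nat_lit 0) (nat_lit 11769374951) (nat_lit 152) (nat_lit 48606547368) (nat_lit 0) (nat_lit 8722627569) (nat_lit 11) (nat_lit 5) (nat_lit 13) (nat_lit 4) (nat_lit 11) (nat_lit 4) (nat_lit 497) (nat_lit 374) (nat_lit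 329))) (XT.nd (nat_lit 78) (nat_lit 0) (nat_lit 0) (XT.lf (nat_lit 0) (nat_lit 22711066206) (nat_lit 152) (nat_lit 29669987930) (nat_lit 0) (nat_lit 19646149372) (nat_lit 11) (nat_lit 5) (nat_lit 13) (nat_lit 4) (nat_lit 11) (nat_lit 4) (nat_lit 498) (nat_lit 374) (nat_lit 328)) (XT.lf (nat_lit 0) (nat_lit 34110379987) (nat_lit 152) (nat_lit 9968224366) (nat_lit 0) (nat_lit 31028158914) (nat_lit 11) (nat_lit 5) (nat_lit 13) (nat_lit 4) (nat_lit 11) (nat_lit 4) (nat_lit 499) (nat_lit 374) (nat_lit 327))))) (XT.nd (nat_lit 312) (nat_lit 152) (nat_lit 0) (XT.nd (nat_lit 156) (nat_lit 0) (nat_lit 0) (XT.nd (nat_lit 78) (nat_lit 0) (nat_lit 0) (XT.lf (nat_lit 0) (nat_lit 10894339173) (nat_lit 76) (nat_lit 35270209511) (nat_lit 76) (nat_lit 32171508210) (nat_lit 10) (nat_lit 4) (nat_lit 11) (nat_lit 5) (nat_lit 11) (nat_lit 4) (nat_lit 500) (nat_lit 374) (nat_lit 326)) (XT.lf (nat_lit 0) (nat_lit 32975919960)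 (nat_lit 76) (nat_lit 25930520787) (nat_lit 76) (nat_lit 22816124031) (nat_lit 10) (nat_lit 4) (nat_lit 11) (nat_lit 5) (nat_lit 11) (nat_lit 4) (nat_lit 501) (nat_lit 374) (nat_lit 325))) (XT.nd (nat_lit 78) (nat_lit 0) (nat_lit 0) (XT.lf (nat_lit 0) (nat_lit 55999498672) (nat_lit 76) (nat_lit 16206117531) (nat_lit 76) (nat_lit 13076772723) (nat_lit 10) (nat_lit 4) (nat_lit 11) (nat_lit 5) (nat_lit 11) (nat_lit 4) (nat_lit 502) (nat_lit 374) (nat_lit 324)) (XT.lf (nat_lit 0) (nat_lit 80019893353) (nat_lit 76) (nat_lit 6073846402) (nat_lit 76) (nat_lit 2930265353) (nat_lit 10) (nat_lit 4) (nat_lit 11) (nat_lit 5) (nat_lit 11) (nat_lit 4) (nat_lit 503) (nat_lit 374) (nat_lit 323)))) (XT.nd (nat_lit 156) (nat_lit 0) (nat_lit 0) (XT.nd (nat_lit 78) (nat_lit 0) (nat_lit 0) (XT.lf (nat_lit 0) (nat_lit 7671878028) (nat_lit 152) (nat_lit 80599940735) (nat_lit 0) (nat_lit 4665078625) (nat_lit 8) (nat_lit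 5) (nat_lit 10) (nat_lit 4) (nat_lit 8) (nat_lit 4) (nat_lit 504) (nat_lit 374) (nat_lit 322)) (XT.lf (nat_lit 0) (nat_lit 18886676740) (nat_lit 152) (nat_lit 62279725185) (nat_lit 0) (nat_lit 15867579538) (nat_lit 8) (nat_lit 5) (nat_lit 10) (nat_lit 4) (nat_lit 8) (nat_lit 4) (nat_lit 505) (nat_lit 374) (nat_lit 321))) (XT.nd (nat_lit 78) (nat_lit 0) (nat_lit 0) (XT.lf (nat_lit 0) (nat_lit 30592181323) (nat_lit 152) (nat_lit 43185868435) (nat_lit 0) (nat_lit 27561371931) (nat_lit 8) (nat_lit 5) (nat_lit 10) (nat_lit 4) (nat_lit 8) (nat_lit 4) (nat_lit 506) (nat_lit 374) (nat_lit 320)) (XT.lf (nat_lit 0) (nat_lit 42816262024) (nat_lit 152) (nat_lit 23272908921) (nat_lit 0) (nat_lit 39774298165) (nat_lit 8) (nat_lit 5) (nat_lit 10) (nat_lit 4) (nat_lit 8) (nat_lit 4) (nat_lit 507) (nat_lit 374) (nat_lit 319)))))) (XT.nd (nat_lit 624) (nat_lit 76) (nat_lit 0) (XT.nd (nat_lit 312) (nat_lit 152)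 (nat_lit 0) (XT.nd (nat_lit 156) (nat_lit 0) (nat_lit 0) (XT.nd (nat_lit 78) (nat_lit 76) (nat_lit 0) (XT.lf (nat_lit 0) (nat_lit 55588023797) (nat_lit 152) (nat_lit 2493434835) (nat_lit 0) (nat_lit 52535436636) (nat_lit 8) (nat_lit 5) (nat_lit 10) (nat_lit 4) (nat_lit 8) (nat_lit 4) (nat_lit 508) (nat_lit 374) (nat_lit 318)) (XT.lf (nat_lit 0) (nat_lit 19836934550) (nat_lit 76) (nat_lit 49410651191) (nat_lit 76) (nat_lit 46347946600) (nat_lit 7) (nat_lit 4) (nat_lit 8) (nat_lit 5) (nat_lit 8) (nat_lit 4) (nat_lit 509) (nat_lit 374) (nat_lit 317))) (XT.nd (nat_lit 78) (nat_lit 0) (nat_lit 0) (XT.lf (nat_lit 0) (nat_lit 43249388255) (nat_lit 76) (nat_lit 40323458696) (nat_lit 76) (nat_lit 37251118457) (nat_lit 7) (nat_lit 4) (nat_lit 8) (nat_lit 5) (nat_lit 8) (nat_lit 4) (nat_lit 510) (nat_lit 374) (nat_lit 316)) (XT.lf (nat_lit 0) (nat_lit 67717225999) (nat_lit 76) (nat_lit 30840472499) (nat_lit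 76) (nat_lit 27758955453) (nat_lit 7) (nat_lit 4) (nat_lit 8) (nat_lit 5) (nat_lit 8) (nat_lit 4) (nat_lit 511) (nat_lit 374) (nat_lit 315)))) (XT.nd (nat_lit 156) (nat_lit 152) (nat_lit 0) (XT.nd (nat_lit 78) (nat_lit 0) (nat_lit 0) (XT.lf (nat_lit 0) (nat_lit 93298704540) (nat_lit 76) (nat_lit 20939114064) (nat_lit 76) (nat_lit 17848857201) (nat_lit 7) (nat_lit 4) (nat_lit 8) (nat_lit 5) (nat_lit 8) (nat_lit 4) (nat_lit 512) (nat_lit 374) (nat_lit 314)) (XT.lf (nat_lit 0) (nat_lit 120054732159) (nat_lit 76) (nat_lit 10595808726) (nat_lit 76) (nat_lit 7497228228) (nat_lit 7) (nat_lit 4) (nat_lit 8) (nat_lit 5) (nat_lit 8) (nat_lit 4) (nat_lit 513) (nat_lit 374) (nat_lit 313))) (XT.nd (nat_lit 78) (nat_lit 0) (nat_lit 0) (XT.lf (nat_lit 0) (nat_lit 3275586259) (nat_lit 152) (nat_lit 140916114822) (nat_lit 0) (nat_lit 317007431) (nat_lit 5) (nat_lit 5) (nat_lit 7) (nat_lit 4) (nat_lit 5) (nat_lit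 4) (nat_lit 514) (nat_lit 374) (nat_lit 312)) (XT.lf (nat_lit 0) (nat_lit 14770490768) (nat_lit 152) (nat_lit 124584567051) (nat_lit 0) (nat_lit 11804721672) (nat_lit 5) (nat_lit 5) (nat_lit 7) (nat_lit 4) (nat_lit 5) (nat_lit 4) (nat_lit 515) (nat_lit 374) (nat_lit 311))))) (XT.nd (nat_lit 312) (nat_lit 76) (nat_lit 0) (XT.nd (nat_lit 156) (nat_lit 0) (nat_lit 0) (XT.nd (nat_lit 78) (nat_lit 0) (nat_lit 0) (XT.lf (nat_lit 0) (nat_lit 26792774812) (nat_lit 152) (nat_lit 107532839793) (nat_lit 0) (nat_lit 23820157841) (nat_lit 5) (nat_lit 5) (nat_lit 7) (nat_lit 4) (nat_lit 5) (nat_lit 4) (nat_lit 516) (nat_lit 374) (nat_lit 310)) (XT.lf (nat_lit 0) (nat_lit 39371062877) (nat_lit 152) (nat_lit 89720333697) (nat_lit 0) (nat_lit 36391924119) (nat_lit 5) (nat_lit 5) (nat_lit 7) (nat_lit 4) (nat_lit 5) (nat_lit 4) (nat_lit 517) (nat_lit 374) (nat_lit 309))) (XT.nd (nat_lit 78) (nat_lit 0) (nat_lit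 0) (XT.lf (nat_lit 0) (nat_lit 52535303266) (nat_lit 152) (nat_lit 71104638033) (nat_lit 0) (nat_lit 49549953284) (nat_lit 5) (nat_lit 5) (nat_lit 7) (nat_lit 4) (nat_lit 5) (nat_lit 4) (nat_lit 518) (nat_lit 374) (nat_lit 308)) (XT.lf (nat_lit 0) (nat_lit 66316839411) (nat_lit 152) (nat_lit 51641429717) (nat_lit 0) (nat_lit 63325573977) (nat_lit 5) (nat_lit 5) (nat_lit 7) (nat_lit 4) (nat_lit 5) (nat_lit 4) (nat_lit 519) (nat_lit 374) (nat_lit 307)))) (XT.nd (nat_lit 156) (nat_lit 76) (nat_lit 0) (XT.nd (nat_lit 78) (nat_lit 0) (nat_lit 0) (XT.lf (nat_lit 0) (nat_lit 80748484491) (nat_lit 152) (nat_lit 31284367777) (nat_lit 0) (nat_lit 77751585293) (nat_lit 5) (nat_lit 5) (nat_lit 7) (nat_lit 4) (nat_lit 5) (nat_lit 4) (nat_lit 520) (nat_lit 374) (nat_lit 306)) (XT.lf (nat_lit 0) (nat_lit 95864599567) (nat_lit 152) (nat_lit 9984983017) (nat_lit 0) (nat_lit 92862334880) (nat_lit 5) (nat_lit 5)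 (nat_lit 7) (nat_lit 4) (nat_lit 5) (nat_lit 4) (nat_lit 521) (nat_lit 374) (nat_lit 305))) (XT.nd (nat_lit 78) (nat_lit 0) (nat_lit 0) (XT.lf (nat_lit 0) (nat_lit 12714376844) (nat_lit 76) (nat_lit 99185305599) (nat_lit 76) (nat_lit 96177930922) (nat_lit 4) (nat_lit 4) (nat_lit 5) (nat_lit 5) (nat_lit 5) (nat_lit 4) (nat_lit 522) (nat_lit 374) (nat_lit 304)) (XT.lf (nat_lit 0) (nat_lit 36824587384) (nat_lit 76) (nat_lit 92046265714) (nat_lit 76) (nat_lit 89034024381) (nat_lit 4) (nat_lit 4) (nat_lit 5) (nat_lit 5) (nat_lit 5) (nat_lit 4) (nat_lit 523) (nat_lit 374) (nat_lit 303))))))))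
noncomputable def xc42 : XT := (XT.nd (nat_lit 56862) (nat_lit 0) (nat_lit 1368) (XT.nd (nat_lit 1170) (nat_lit 0) (nat_lit 0) (XT.nd (nat_lit 546) (nat_lit 152) (nat_lit 0) (XT.nd (nat_lit 234) (nat_lit 0) (nat_lit 0) (XT.nd (nat_lit 78) (nat_lit 0) (nat_lit 0) (XT.lf (nat_lit 0) (nat_lit 62072905234) (nat_lit 76) (nat_lit 84584565736) (nat_lit 76) (nat_lit 81567689491) (nat_lit 4) (nat_lit 4) (nat_lit 5) (nat_lit 5) (nat_lit 5) (nat_lit 4) (nat_lit 524) (nat_lit 374) (nat_lit 302)) (XT.nd (nat_lit 78) (nat_lit 0) (nat_lit 0) (XT.lf (nat_lit 0) (nat_lit 88519445436) (nat_lit 76) (nat_lit 76782439711) (nat_lit 76) (nat_lit 73761149265) (nat_lit 4) (nat_lit 4) (nat_lit 5) (nat_lit 5) (nat_lit 5) (nat_lit 4) (nat_lit 525) (nat_lit 374) (nat_lit 301)) (XT.lf (nat_lit 0) (nat_lit 116227175942) (nat_lit 76) (nat_lit 68621311150) (nat_lit 76) (nat_lit 65595816703) (nat_lit 4) (nat_lit 4) (nat_lit 5)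 (nat_lit 5) (nat_lit 5) (nat_lit 4) (nat_lit 526) (nat_lit 374) (nat_lit 300)))) (XT.nd (nat_lit 156) (nat_lit 0) (nat_lit 0) (XT.nd (nat_lit 78) (nat_lit 0) (nat_lit 0) (XT.lf (nat_lit 0) (nat_lit 145262067541) (nat_lit 76) (nat_lit 60081748793) (nat_lit 76) (nat_lit 57052250535) (nat_lit 4) (nat_lit 4) (nat_lit 5) (nat_lit 5) (nat_lit 5) (nat_lit 4) (nat_lit 527) (nat_lit 374) (nat_lit 299)) (XT.lf (nat_lit 0) (nat_lit 175693250925) (nat_lit 76) (nat_lit 51143420350) (nat_lit 76) (nat_lit 48110108939) (nat_lit 4) (nat_lit 4) (nat_lit 5) (nat_lit 5) (nat_lit 5) (nat_lit 4) (nat_lit 528) (nat_lit 374) (nat_lit 298))) (XT.nd (nat_lit 78) (nat_lit 0) (nat_lit 0) (XT.lf (nat_lit 0) (nat_lit 207593181294) (nat_lit 76) (nat_lit 41785044086) (nat_lit 76) (nat_lit 38748101100) (nat_lit 4) (nat_lit 4) (nat_lit 5) (nat_lit 5) (nat_lit 5) (nat_lit 4) (nat_lit 529) (nat_lit 374) (nat_lit 297)) (XT.lf (nat_lit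 0) (nat_lit 241037810863) (nat_lit 76) (nat_lit 31984338152) (nat_lit 76) (nat_lit 28943936524) (nat_lit 4) (nat_lit 4) (nat_lit 5) (nat_lit 5) (nat_lit 5) (nat_lit 4) (nat_lit 530) (nat_lit 374) (nat_lit 296))))) (XT.nd (nat_lit 312) (nat_lit 0) (nat_lit 0) (XT.nd (nat_lit 156) (nat_lit 152) (nat_lit 0) (XT.nd (nat_lit 78) (nat_lit 0) (nat_lit 0) (XT.lf (nat_lit 0) (nat_lit 276106769702) (nat_lit 76) (nat_lit 21717967535) (nat_lit 76) (nat_lit 18674271962) (nat_lit 4) (nat_lit 4) (nat_lit 5) (nat_lit 5) (nat_lit 5) (nat_lit 4) (nat_lit 531) (nat_lit 374) (nat_lit 295)) (XT.lf (nat_lit 0) (nat_lit 312883555332) (nat_lit 76) (nat_lit 10961488495) (nat_lit 76) (nat_lit 7914655832) (nat_lit 4) (nat_lit 4) (nat_lit 5) (nat_lit 5) (nat_lit 5) (nat_lit 4) (nat_lit 532) (nat_lit 374) (nat_lit 294))) (XT.nd (nat_lit 78) (nat_lit 0) (nat_lit 0) (XT.lf (nat_lit 0) (nat_lit 3318007357) (nat_lit 152) (nat_lit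 344047192881) (nat_lit 0) (nat_lit 413416530) (nat_lit 2) (nat_lit 5) (nat_lit 4) (nat_lit 4) (nat_lit 2) (nat_lit 4) (nat_lit 533) (nat_lit 374) (nat_lit 293)) (XT.lf (nat_lit 0) (nat_lit 15329248668) (nat_lit 152) (nat_lit 336816649327) (nat_lit 0) (nat_lit 12421947904) (nat_lit 2) (nat_lit 5) (nat_lit 4) (nat_lit 4) (nat_lit 2) (nat_lit 4) (nat_lit 534) (nat_lit 374) (nat_lit 292)))) (XT.nd (nat_lit 156) (nat_lit 0) (nat_lit 0) (XT.nd (nat_lit 78) (nat_lit 0) (nat_lit 0) (XT.lf (nat_lit 0) (nat_lit 27920400164) (nat_lit 152) (nat_lit 329266650462) (nat_lit 0) (nat_lit 25010518508) (nat_lit 2) (nat_lit 5) (nat_lit 4) (nat_lit 4) (nat_lit 2) (nat_lit 4) (nat_lit 535) (nat_lit 374) (nat_lit 291)) (XT.lf (nat_lit 0) (nat_lit 41121440777) (nat_lit 152) (nat_lit 321379220098) (nat_lit 0) (nat_lit 38209101129) (nat_lit 2) (nat_lit 5) (nat_lit 4) (nat_lit 4) (nat_lit 2) (nat_lit 4) (nat_lit 536) (nat_lit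 374) (nat_lit 290))) (XT.nd (nat_lit 78) (nat_lit 0) (nat_lit 0) (XT.lf (nat_lit 0) (nat_lit 54963801557) (nat_lit 152) (nat_lit 313135578638) (nat_lit 0) (nat_lit 52049120963) (nat_lit 2) (nat_lit 5) (nat_lit 4) (nat_lit 4) (nat_lit 2) (nat_lit 4) (nat_lit 537) (nat_lit 374) (nat_lit 289)) (XT.lf (nat_lit 0) (nat_lit 69480440505) (nat_lit 152) (nat_lit 304516098366) (nat_lit 0) (nat_lit 66563530440) (nat_lit 2) (nat_lit 5) (nat_lit 4) (nat_lit 4) (nat_lit 2) (nat_lit 4) (nat_lit 538) (nat_lit 374) (nat_lit 288)))))) (XT.nd (nat_lit 624) (nat_lit 0) (nat_lit 0) (XT.nd (nat_lit 312) (nat_lit 0) (nat_lit 0) (XT.nd (nat_lit 156) (nat_lit 0) (nat_lit 0) (XT.nd (nat_lit 78) (nat_lit 0) (nat_lit 0) (XT.lf (nat_lit 0) (nat_lit 84705921048) (nat_lit 152) (nat_lit 295500256708) (nat_lit 0) (nat_lit 81786887676) (nat_lit 2) (nat_lit 5) (nat_lit 4) (nat_lit 4) (nat_lit 2) (nat_lit 4) (nat_lit 539) (nat_lit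 374) (nat_lit 287)) (XT.lf (nat_lit 0) (nat_lit 100676494329) (nat_lit 152) (nat_lit 286066587376) (nat_lit 0) (nat_lit 97755438761) (nat_lit 2) (nat_lit 5) (nat_lit 4) (nat_lit 4) (nat_lit 2) (nat_lit 4) (nat_lit 540) (nat_lit 374) (nat_lit 286))) (XT.nd (nat_lit 78) (nat_lit 0) (nat_lit 0) (XT.lf (nat_lit 0) (nat_lit 117430185523) (nat_lit 152) (nat_lit 276192629251) (nat_lit 0) (nat_lit 114507204054) (nat_lit 2) (nat_lit 5) (nat_lit 4) (nat_lit 4) (nat_lit 2) (nat_lit 4) (nat_lit 541) (nat_lit 374) (nat_lit 285)) (XT.lf (nat_lit 0) (nat_lit 135006884372) (nat_lit 152) (nat_lit 265854872911) (nat_lit 0) (nat_lit 132082068710) (nat_lit 2) (nat_lit 5) (nat_lit 4) (nat_lit 4) (nat_lit 2) (nat_lit 4) (nat_lit 542) (nat_lit 374) (nat_lit 284)))) (XT.nd (nat_lit 156) (nat_lit 0) (nat_lit 0) (XT.nd (nat_lit 78) (nat_lit 0) (nat_lit 0) (XT.lf (nat_lit 0) (nat_lit 153448440157) (nat_lit 152) (nat_lit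 255028704648) (nat_lit 0) (nat_lit 150521877646) (nat_lit 2) (nat_lit 5) (nat_lit 4) (nat_lit 4) (nat_lit 2) (nat_lit 4) (nat_lit 543) (nat_lit 374) (nat_lit 283)) (XT.lf (nat_lit 0) (nat_lit 172798761345) (nat_lit 152) (nat_lit 243688347873) (nat_lit 0) (nat_lit 169870535168) (nat_lit 2) (nat_lit 5) (nat_lit 4) (nat_lit 4) (nat_lit 2) (nat_lit 4) (nat_lit 544) (nat_lit 374) (nat_lit 282))) (XT.nd (nat_lit 78) (nat_lit 0) (nat_lit 0) (XT.lf (nat_lit 0) (nat_lit 193103920129) (nat_lit 152) (nat_lit 231806801735) (nat_lit 0) (nat_lit 190174109509) (nat_lit 2) (nat_lit 5) (nat_lit 4) (nat_lit 4) (nat_lit 2) (nat_lit 4) (nat_lit 545) (nat_lit 374) (nat_lit 281)) (XT.lf (nat_lit 0) (nat_lit 214412262127) (nat_lit 152) (nat_lit 219355776839) (nat_lit 0) (nat_lit 211480942512) (nat_lit 2) (nat_lit 5) (nat_lit 4) (nat_lit 4) (nat_lit 2) (nat_lit 4) (nat_lit 546) (nat_lit 374) (nat_lit 280))))) (XT.nd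 (nat_lit 312) (nat_lit 0) (nat_lit 0) (XT.nd (nat_lit 156) (nat_lit 0) (nat_lit 0) (XT.nd (nat_lit 78) (nat_lit 0) (nat_lit 0) (XT.lf (nat_lit 0) (nat_lit 236774521484) (nat_lit 152) (nat_lit 206305627888) (nat_lit 0) (nat_lit 233841764732) (nat_lit 2) (nat_lit 5) (nat_lit 4) (nat_lit 4) (nat_lit 2) (nat_lit 4) (nat_lit 547) (nat_lit 374) (nat_lit 279)) (XT.lf (nat_lit 0) (nat_lit 260243941676) (nat_lit 152) (nat_lit 192625283098) (nat_lit 0) (nat_lit 257309816222) (nat_lit 2) (nat_lit 5) (nat_lit 4) (nat_lit 4) (nat_lit 2) (nat_lit 4) (nat_lit 548) (nat_lit 374) (nat_lit 278))) (XT.nd (nat_lit 78) (nat_lit 0) (nat_lit 0) (XT.lf (nat_lit 0) (nat_lit 284876402275) (nat_lit 152) (nat_lit 178282170220) (nat_lit 0) (nat_lit 281940973295) (nat_lit 2) (nat_lit 5) (nat_lit 4) (nat_lit 4) (nat_lit 2) (nat_lit 4) (nat_lit 549) (nat_lit 374) (nat_lit 277)) (XT.lf (nat_lit 0) (nat_lit 310730551996) (nat_lit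 152) (nat_lit 163242138986) (nat_lit 0) (nat_lit 307793881563) (nat_lit 2) (nat_lit 5) (nat_lit 4) (nat_lit 4) (nat_lit 2) (nat_lit 4) (nat_lit 550) (nat_lit 374) (nat_lit 276)))) (XT.nd (nat_lit 54600) (nat_lit 0) (nat_lit 3876) (XT.nd (nat_lit 78) (nat_lit 0) (nat_lit 0) (XT.lf (nat_lit 0) (nat_lit 337867948339) (nat_lit 152) (nat_lit 147469379796) (nat_lit 0) (nat_lit 334930095569) (nat_lit 2) (nat_lit 5) (nat_lit 4) (nat_lit 4) (nat_lit 2) (nat_lit 4) (nat_lit 551) (nat_lit 374) (nat_lit 275)) (XT.lf (nat_lit 0) (nat_lit 366353204152) (nat_lit 152) (nat_lit 130926338463) (nat_lit 0) (nat_lit 363414225348) (nat_lit 2) (nat_lit 5) (nat_lit 4) (nat_lit 4) (nat_lit 2) (nat_lit 4) (nat_lit 552) (nat_lit 374) (nat_lit 274))) (XT.nd (nat_lit 78) (nat_lit 152) (nat_lit 0) (XT.lf (nat_lit 0) (nat_lit 6111760697) (nat_lit 152) (nat_lit 519830348) (nat_lit 152) (nat_lit 519830348) (nat_lit 55) (nat_lit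 4) (nat_lit 57) (nat_lit 5) (nat_lit 57) (nat_lit 4) (nat_lit 450) (nat_lit 375) (nat_lit 375)) (XT.lf (nat_lit 0) (nat_lit 5670462524) (nat_lit 152) (nat_lit 3662914576) (nat_lit 0) (nat_lit 5331071969) (nat_lit 53) (nat_lit 5) (nat_lit 55) (nat_lit 4) (nat_lit 53) (nat_lit 4) (nat_lit 451) (nat_lit 375) (nat_lit 374))))))) (XT.nd (nat_lit 1170) (nat_lit 1140) (nat_lit 0) (XT.nd (nat_lit 546) (nat_lit 684) (nat_lit 0) (XT.nd (nat_lit 234) (nat_lit 380) (nat_lit 0) (XT.nd (nat_lit 78) (nat_lit 228) (nat_lit 0) (XT.lf (nat_lit 0) (nat_lit 9611655866) (nat_lit 76) (nat_lit 3047672571) (nat_lit 76) (nat_lit 2385052917) (nat_lit 52) (nat_lit 4) (nat_lit 53) (nat_lit 5) (nat_lit 53) (nat_lit 4) (nat_lit 452) (nat_lit 375) (nat_lit 373)) (XT.nd (nat_lit 78) (nat_lit 76) (nat_lit 0) (XT.lf (nat_lit 0) (nat_lit 4428706702) (nat_lit 152) (nat_lit 7505584952) (nat_lit 0) (nat_lit 3504462042) (nat_lit 50)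 (nat_lit 5) (nat_lit 52) (nat_lit 4) (nat_lit 50) (nat_lit 4) (nat_lit 453) (nat_lit 375) (nat_lit 372)) (XT.lf (nat_lit 0) (nat_lit 5979485622) (nat_lit 76) (nat_lit 5537096441) (nat_lit 76) (nat_lit 4333634332) (nat_lit 49) (nat_lit 4) (nat_lit 50) (nat_lit 5) (nat_lit 50) (nat_lit 4) (nat_lit 454) (nat_lit 375) (nat_lit 371)))) (XT.nd (nat_lit 156) (nat_lit 152) (nat_lit 0) (XT.nd (nat_lit 78) (nat_lit 76) (nat_lit 0) (XT.lf (nat_lit 0) (nat_lit 2575152026) (nat_lit 152) (nat_lit 12530065738) (nat_lit 0) (nat_lit 1175739179) (nat_lit 47) (nat_lit 5) (nat_lit 49) (nat_lit 4) (nat_lit 47) (nat_lit 4) (nat_lit 455) (nat_lit 375) (nat_lit 370)) (XT.lf (nat_lit 0) (nat_lit 1112107071) (nat_lit 76) (nat_lit 8627694266) (nat_lit 76) (nat_lit 6987082888) (nat_lit 46) (nat_lit 4) (nat_lit 47) (nat_lit 5) (nat_lit 47) (nat_lit 4) (nat_lit 456) (nat_lit 375) (nat_lit 369))) (XT.nd (nat_lit 78) (nat_lit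 76) (nat_lit 0) (XT.lf (nat_lit 0) (nat_lit 59496164) (nat_lit 152) (nat_lit 1748357127) (nat_lit 76) (nat_lit 15387502153) (nat_lit 45) (nat_lit 5) (nat_lit 47) (nat_lit 5) (nat_lit 46) (nat_lit 4) (nat_lit 457) (nat_lit 375) (nat_lit 368)) (XT.lf (nat_lit 0) (nat_lit 7296310082) (nat_lit 152) (nat_lit 5074888918) (nat_lit 0) (nat_lit 5306692518) (nat_lit 44) (nat_lit 5) (nat_lit 46) (nat_lit 4) (nat_lit 44) (nat_lit 4) (nat_lit 458) (nat_lit 375) (nat_lit 367))))) (XT.nd (nat_lit 312) (nat_lit 380) (nat_lit 0) (XT.nd (nat_lit 156) (nat_lit 76) (nat_lit 0) (XT.nd (nat_lit 78) (nat_lit 152) (nat_lit 0) (XT.lf (nat_lit 0) (nat_lit 9409695657) (nat_lit 76) (nat_lit 5481550476) (nat_lit 76) (nat_lit 3293498283) (nat_lit 43) (nat_lit 4) (nat_lit 44) (nat_lit 5) (nat_lit 44) (nat_lit 4) (nat_lit 459) (nat_lit 375) (nat_lit 366)) (XT.lf (nat_lit 0) (nat_lit 4012096990) (nat_lit 152) (nat_lit 12953561036)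 (nat_lit 0) (nat_lit 1748251702) (nat_lit 41) (nat_lit 5) (nat_lit 43) (nat_lit 4) (nat_lit 41) (nat_lit 4) (nat_lit 460) (nat_lit 375) (nat_lit 365))) (XT.nd (nat_lit 78) (nat_lit 0) (nat_lit 0) (XT.lf (nat_lit 0) (nat_lit 1556778465) (nat_lit 76) (nat_lit 10071265799) (nat_lit 76) (nat_lit 7636005218) (nat_lit 40) (nat_lit 4) (nat_lit 41) (nat_lit 5) (nat_lit 41) (nat_lit 4) (nat_lit 461) (nat_lit 375) (nat_lit 364)) (XT.lf (nat_lit 0) (nat_lit 16837173859) (nat_lit 76) (nat_lit 2801180355) (nat_lit 76) (nat_lit 202667114) (nat_lit 40) (nat_lit 4) (nat_lit 41) (nat_lit 5) (nat_lit 41) (nat_lit 4) (nat_lit 462) (nat_lit 375) (nat_lit 363)))) (XT.nd (nat_lit 156) (nat_lit 152) (nat_lit 0) (XT.nd (nat_lit 78) (nat_lit 76) (nat_lit 0) (XT.lf (nat_lit 0) (nat_lit 7429634744) (nat_lit 152) (nat_lit 8200959172) (nat_lit 0) (nat_lit 4806785254) (nat_lit 38) (nat_lit 5) (nat_lit 40) (nat_lit 4) (nat_lit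 38) (nat_lit 4) (nat_lit 463) (nat_lit 375) (nat_lit 362)) (XT.lf (nat_lit 0) (nat_lit 7065060772) (nat_lit 76) (nat_lit 8380872290) (nat_lit 76) (nat_lit 5616999015) (nat_lit 37) (nat_lit 4) (nat_lit 38) (nat_lit 5) (nat_lit 38) (nat_lit 4) (nat_lit 464) (nat_lit 375) (nat_lit 361))) (XT.nd (nat_lit 78) (nat_lit 0) (nat_lit 0) (XT.lf (nat_lit 0) (nat_lit 1278262496) (nat_lit 76) (nat_lit 759027327) (nat_lit 152) (nat_lit 19682672082) (nat_lit 35) (nat_lit 5) (nat_lit 36) (nat_lit 5) (nat_lit 37) (nat_lit 4) (nat_lit 465) (nat_lit 375) (nat_lit 360)) (XT.lf (nat_lit 0) (nat_lit 10041472748) (nat_lit 152) (nat_lit 5196493401) (nat_lit 0) (nat_lit 7159478106) (nat_lit 35) (nat_lit 5) (nat_lit 37) (nat_lit 4) (nat_lit 35) (nat_lit 4) (nat_lit 466) (nat_lit 375) (nat_lit 359)))))) (XT.nd (nat_lit 624) (nat_lit 532) (nat_lit 0) (XT.nd (nat_lit 312) (nat_lit 304) (nat_lit 0) (XT.nd (nat_lit 156) (nat_lit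 76) (nat_lit 0) (XT.nd (nat_lit 78) (nat_lit 152) (nat_lit 0) (XT.lf (nat_lit 0) (nat_lit 10768311866) (nat_lit 76) (nat_lit 7669455687) (nat_lit 76) (nat_lit 4671440428) (nat_lit 34) (nat_lit 4) (nat_lit 35) (nat_lit 5) (nat_lit 35) (nat_lit 4) (nat_lit 467) (nat_lit 375) (nat_lit 358)) (XT.lf (nat_lit 0) (nat_lit 3249534933) (nat_lit 152) (nat_lit 20317279207) (nat_lit 0) (nat_lit 289048185) (nat_lit 32) (nat_lit 5) (nat_lit 34) (nat_lit 4) (nat_lit 32) (nat_lit 4) (nat_lit 468) (nat_lit 375) (nat_lit 357))) (XT.nd (nat_lit 78) (nat_lit 76) (nat_lit 0) (XT.lf (nat_lit 0) (nat_lit 11559586872) (nat_lit 152) (nat_lit 4570057436) (nat_lit 0) (nat_lit 8498877153) (nat_lit 32) (nat_lit 5) (nat_lit 34) (nat_lit 4) (nat_lit 32) (nat_lit 4) (nat_lit 469) (nat_lit 375) (nat_lit 356)) (XT.lf (nat_lit 0) (nat_lit 11990775231) (nat_lit 76) (nat_lit 8302399400) (nat_lit 76) (nat_lit 5146239231) (nat_lit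 31) (nat_lit 4) (nat_lit 32) (nat_lit 5) (nat_lit 32) (nat_lit 4) (nat_lit 470) (nat_lit 375) (nat_lit 355)))) (XT.nd (nat_lit 156) (nat_lit 152) (nat_lit 0) (XT.nd (nat_lit 78) (nat_lit 0) (nat_lit 0) (XT.lf (nat_lit 0) (nat_lit 2936841528) (nat_lit 76) (nat_lit 79698416) (nat_lit 152) (nat_lit 23274561485) (nat_lit 29) (nat_lit 5) (nat_lit 30) (nat_lit 5) (nat_lit 31) (nat_lit 4) (nat_lit 471) (nat_lit 375) (nat_lit 354)) (XT.lf (nat_lit 0) (nat_lit 11600816264) (nat_lit 152) (nat_lit 7145105923) (nat_lit 0) (nat_lit 8425919380) (nat_lit 29) (nat_lit 5) (nat_lit 31) (nat_lit 4) (nat_lit 29) (nat_lit 4) (nat_lit 472) (nat_lit 375) (nat_lit 353))) (XT.nd (nat_lit 78) (nat_lit 76) (nat_lit 0) (XT.lf (nat_lit 0) (nat_lit 9847455316) (nat_lit 76) (nat_lit 10751674036) (nat_lit 76) (nat_lit 7498249831) (nat_lit 28) (nat_lit 4) (nat_lit 29) (nat_lit 5) (nat_lit 29) (nat_lit 4) (nat_lit 473) (nat_lit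 375) (nat_lit 352)) (XT.lf (nat_lit 0) (nat_lit 899740768) (nat_lit 152) (nat_lit 1483743555) (nat_lit 76) (nat_lit 26687303047) (nat_lit 27) (nat_lit 5) (nat_lit 29) (nat_lit 5) (nat_lit 28) (nat_lit 4) (nat_lit 474) (nat_lit 375) (nat_lit 351))))) (XT.nd (nat_lit 312) (nat_lit 228) (nat_lit 0) (XT.nd (nat_lit 156) (nat_lit 152) (nat_lit 0) (XT.nd (nat_lit 78) (nat_lit 76) (nat_lit 0) (XT.lf (nat_lit 0) (nat_lit 9660013487) (nat_lit 152) (nat_lit 13994536325) (nat_lit 0) (nat_lit 6422452797) (nat_lit 26) (nat_lit 5) (nat_lit 28) (nat_lit 4) (nat_lit 26) (nat_lit 4) (nat_lit 475) (nat_lit 375) (nat_lit 350)) (XT.lf (nat_lit 0) (nat_lit 3183601841) (nat_lit 76) (nat_lit 15627233324) (nat_lit 76) (nat_lit 12325068013) (nat_lit 25) (nat_lit 4) (nat_lit 26) (nat_lit 5) (nat_lit 26) (nat_lit 4) (nat_lit 476) (nat_lit 375) (nat_lit 349))) (XT.nd (nat_lit 78) (nat_lit 152) (nat_lit 0) (XT.lf (nat_lit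 0) (nat_lit 21386713627) (nat_lit 76) (nat_lit 7110416660) (nat_lit 76) (nat_lit 3746723138) (nat_lit 25) (nat_lit 4) (nat_lit 26) (nat_lit 5) (nat_lit 26) (nat_lit 4) (nat_lit 477) (nat_lit 375) (nat_lit 348)) (XT.lf (nat_lit 0) (nat_lit 5075561765) (nat_lit 152) (nat_lit 26512128115) (nat_lit 0) (nat_lit 1816236224) (nat_lit 23) (nat_lit 5) (nat_lit 25) (nat_lit 4) (nat_lit 23) (nat_lit 4) (nat_lit 478) (nat_lit 375) (nat_lit 347)))) (XT.nd (nat_lit 156) (nat_lit 152) (nat_lit 0) (XT.nd (nat_lit 78) (nat_lit 76) (nat_lit 0) (XT.lf (nat_lit 0) (nat_lit 14362697174) (nat_lit 152) (nat_lit 9198531465) (nat_lit 0) (nat_lit 11050221253) (nat_lit 23) (nat_lit 5) (nat_lit 25) (nat_lit 4) (nat_lit 23) (nat_lit 4) (nat_lit 479) (nat_lit 375) (nat_lit 346)) (XT.lf (nat_lit 0) (nat_lit 8972845967) (nat_lit 76) (nat_lit 15134959731) (nat_lit 76) (nat_lit 11771864398) (nat_lit 22) (nat_lit 4) (nat_lit 23)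 (nat_lit 5) (nat_lit 23) (nat_lit 4) (nat_lit 480) (nat_lit 375) (nat_lit 345))) (XT.nd (nat_lit 78) (nat_lit 152) (nat_lit 0) (XT.lf (nat_lit 0) (nat_lit 28081817812) (nat_lit 76) (nat_lit 6270100674) (nat_lit 76) (nat_lit 2858796378) (nat_lit 22) (nat_lit 4) (nat_lit 23) (nat_lit 5) (nat_lit 23) (nat_lit 4) (nat_lit 481) (nat_lit 375) (nat_lit 344)) (XT.lf (nat_lit 0) (nat_lit 6349433738) (nat_lit 152) (nat_lit 29194082034) (nat_lit 0) (nat_lit 3056845553) (nat_lit 20) (nat_lit 5) (nat_lit 22) (nat_lit 4) (nat_lit 20) (nat_lit 4) (nat_lit 482) (nat_lit 375) (nat_lit 343))))))))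
noncomputable def xc43 : XT := (XT.nd (nat_lit 2418) (nat_lit 380) (nat_lit 0) (XT.nd (nat_lit 1170) (nat_lit 304) (nat_lit 0) (XT.nd (nat_lit 546) (nat_lit 380) (nat_lit 0) (XT.nd (nat_lit 234) (nat_lit 228) (nat_lit 0) (XT.nd (nat_lit 78) (nat_lit 76) (nat_lit 0) (XT.lf (nat_lit 0) (nat_lit 16042646082) (nat_lit 152) (nat_lit 11300056175) (nat_lit 0) (nat_lit 12708413183) (nat_lit 20) (nat_lit 5) (nat_lit 22) (nat_lit 4) (nat_lit 20) (nat_lit 4) (nat_lit 483) (nat_lit 375) (nat_lit 342)) (XT.nd (nat_lit 78) (nat_lit 0) (nat_lit 0) (XT.lf (nat_lit 0) (nat_lit 7459559847) (nat_lit 76) (nat_lit 18744775963) (nat_lit 76) (nat_lit 15370881430) (nat_lit 19) (nat_lit 4) (nat_lit 20) (nat_lit 5) (nat_lit 20) (nat_lit 4) (nat_lit 484) (nat_lit 375) (nat_lit 341)) (XT.lf (nat_lit 0) (nat_lit 27285925856) (nat_lit 76) (nat_lit 9649110136) (nat_lit 76) (nat_lit 6237442619) (nat_lit 19) (nat_lit 4) (nat_lit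 20) (nat_lit 5) (nat_lit 20) (nat_lit 4) (nat_lit 485) (nat_lit 375) (nat_lit 340)))) (XT.nd (nat_lit 156) (nat_lit 76) (nat_lit 0) (XT.nd (nat_lit 78) (nat_lit 0) (nat_lit 0) (XT.lf (nat_lit 0) (nat_lit 3043917553) (nat_lit 76) (nat_lit 122696758) (nat_lit 152) (nat_lit 41684309594) (nat_lit 17) (nat_lit 5) (nat_lit 18) (nat_lit 5) (nat_lit 19) (nat_lit 4) (nat_lit 486) (nat_lit 375) (nat_lit 339)) (XT.lf (nat_lit 0) (nat_lit 13132808058) (nat_lit 152) (nat_lit 23643583808) (nat_lit 0) (nat_lit 9816709966) (nat_lit 17) (nat_lit 5) (nat_lit 19) (nat_lit 4) (nat_lit 17) (nat_lit 4) (nat_lit 487) (nat_lit 375) (nat_lit 338))) (XT.nd (nat_lit 78) (nat_lit 76) (nat_lit 0) (XT.lf (nat_lit 0) (nat_lit 23479171308) (nat_lit 152) (nat_lit 4817127709) (nat_lit 0) (nat_lit 20131997288) (nat_lit 17) (nat_lit 5) (nat_lit 19) (nat_lit 4) (nat_lit 17) (nat_lit 4) (nat_lit 488) (nat_lit 375) (nat_lit 337))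 (XT.lf (nat_lit 0) (nat_lit 15205782481) (nat_lit 76) (nat_lit 19260045017) (nat_lit 76) (nat_lit 15883274876) (nat_lit 16) (nat_lit 4) (nat_lit 17) (nat_lit 5) (nat_lit 17) (nat_lit 4) (nat_lit 489) (nat_lit 375) (nat_lit 336))))) (XT.nd (nat_lit 312) (nat_lit 228) (nat_lit 0) (XT.nd (nat_lit 156) (nat_lit 0) (nat_lit 0) (XT.nd (nat_lit 78) (nat_lit 152) (nat_lit 0) (XT.lf (nat_lit 0) (nat_lit 36169263920) (nat_lit 76) (nat_lit 9801595102) (nat_lit 76) (nat_lit 6396638179) (nat_lit 16) (nat_lit 4) (nat_lit 17) (nat_lit 5) (nat_lit 17) (nat_lit 4) (nat_lit 490) (nat_lit 375) (nat_lit 335)) (XT.lf (nat_lit 0) (nat_lit 3398539608) (nat_lit 152) (nat_lit 50957918476) (nat_lit 0) (nat_lit 130157249) (nat_lit 14) (nat_lit 5) (nat_lit 16) (nat_lit 4) (nat_lit 14) (nat_lit 4) (nat_lit 491) (nat_lit 375) (nat_lit 334))) (XT.nd (nat_lit 78) (nat_lit 0) (nat_lit 0) (XT.lf (nat_lit 0) (nat_lit 13799158621)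 (nat_lit 152) (nat_lit 32384328081) (nat_lit 0) (nat_lit 10506427460) (nat_lit 14) (nat_lit 5) (nat_lit 16) (nat_lit 4) (nat_lit 14) (nat_lit 4) (nat_lit 492) (nat_lit 375) (nat_lit 333)) (XT.lf (nat_lit 0) (nat_lit 24616139431) (nat_lit 152) (nat_lit 13092203504) (nat_lit 0) (nat_lit 21300218933) (nat_lit 14) (nat_lit 5) (nat_lit 16) (nat_lit 4) (nat_lit 14) (nat_lit 4) (nat_lit 493) (nat_lit 375) (nat_lit 332)))) (XT.nd (nat_lit 156) (nat_lit 152) (nat_lit 0) (XT.nd (nat_lit 78) (nat_lit 0) (nat_lit 0) (XT.lf (nat_lit 0) (nat_lit 7194663033) (nat_lit 76) (nat_lit 28792902572) (nat_lit 76) (nat_lit 25454896993) (nat_lit 13) (nat_lit 4) (nat_lit 14) (nat_lit 5) (nat_lit 14) (nat_lit 4) (nat_lit 494) (nat_lit 375) (nat_lit 331)) (XT.lf (nat_lit 0) (nat_lit 28753494263) (nat_lit 76) (nat_lit 19298686325) (nat_lit 76) (nat_lit 15939647336) (nat_lit 13) (nat_lit 4) (nat_lit 14) (nat_lit 5) (nat_lit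 14) (nat_lit 4) (nat_lit 495) (nat_lit 375) (nat_lit 330))) (XT.nd (nat_lit 78) (nat_lit 152) (nat_lit 0) (XT.lf (nat_lit 0) (nat_lit 51202733361) (nat_lit 76) (nat_lit 9424811720) (nat_lit 76) (nat_lit 6045740911) (nat_lit 13) (nat_lit 4) (nat_lit 14) (nat_lit 5) (nat_lit 14) (nat_lit 4) (nat_lit 496) (nat_lit 375) (nat_lit 329)) (XT.lf (nat_lit 0) (nat_lit 4211295568) (nat_lit 152) (nat_lit 64298796446) (nat_lit 0) (nat_lit 974963441) (nat_lit 11) (nat_lit 5) (nat_lit 13) (nat_lit 4) (nat_lit 11) (nat_lit 4) (nat_lit 497) (nat_lit 375) (nat_lit 328)))))) (XT.nd (nat_lit 624) (nat_lit 76) (nat_lit 0) (XT.nd (nat_lit 312) (nat_lit 152) (nat_lit 0) (XT.nd (nat_lit 156) (nat_lit 76) (nat_lit 0) (XT.nd (nat_lit 78) (nat_lit 0) (nat_lit 0) (XT.lf (nat_lit 0) (nat_lit 15109346805) (nat_lit 152) (nat_lit 45450834007) (nat_lit 0) (nat_lit 11855710439) (nat_lit 11) (nat_lit 5) (nat_lit 13) (nat_lit 4)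 (nat_lit 11) (nat_lit 4) (nat_lit 498) (nat_lit 375) (nat_lit 327)) (XT.lf (nat_lit 0) (nat_lit 26467098664) (nat_lit 152) (nat_lit 25833448537) (nat_lit 0) (nat_lit 23196982071) (nat_lit 11) (nat_lit 5) (nat_lit 13) (nat_lit 4) (nat_lit 11) (nat_lit 4) (nat_lit 499) (nat_lit 375) (nat_lit 326))) (XT.nd (nat_lit 78) (nat_lit 76) (nat_lit 0) (XT.lf (nat_lit 0) (nat_lit 38311593413) (nat_lit 152) (nat_lit 5399931975) (nat_lit 0) (nat_lit 35025781365) (nat_lit 11) (nat_lit 5) (nat_lit 13) (nat_lit 4) (nat_lit 11) (nat_lit 4) (nat_lit 500) (nat_lit 375) (nat_lit 325)) (XT.lf (nat_lit 0) (nat_lit 16424038715) (nat_lit 76) (nat_lit 34503418787) (nat_lit 76) (nat_lit 31202658686) (nat_lit 10) (nat_lit 4) (nat_lit 11) (nat_lit 5) (nat_lit 11) (nat_lit 4) (nat_lit 501) (nat_lit 375) (nat_lit 324)))) (XT.nd (nat_lit 156) (nat_lit 152) (nat_lit 0) (XT.nd (nat_lit 78) (nat_lit 0) (nat_lit 0) (XT.lf (nat_lit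 0) (nat_lit 39372318419) (nat_lit 76) (nat_lit 24817236160) (nat_lit 76) (nat_lit 21502239819) (nat_lit 10) (nat_lit 4) (nat_lit 11) (nat_lit 5) (nat_lit 11) (nat_lit 4) (nat_lit 502) (nat_lit 375) (nat_lit 323)) (XT.lf (nat_lit 0) (nat_lit 63320999759) (nat_lit 76) (nat_lit 14721365630) (nat_lit 76) (nat_lit 11392810965) (nat_lit 10) (nat_lit 4) (nat_lit 11) (nat_lit 5) (nat_lit 11) (nat_lit 4) (nat_lit 503) (nat_lit 375) (nat_lit 322))) (XT.nd (nat_lit 78) (nat_lit 152) (nat_lit 0) (XT.lf (nat_lit 0) (nat_lit 88327103404) (nat_lit 76) (nat_lit 4191769410) (nat_lit 76) (nat_lit 850302055) (nat_lit 10) (nat_lit 4) (nat_lit 11) (nat_lit 5) (nat_lit 11) (nat_lit 4) (nat_lit 504) (nat_lit 375) (nat_lit 321)) (XT.lf (nat_lit 0) (nat_lit 10209446496) (nat_lit 152) (nat_lit 80251205159) (nat_lit 0) (nat_lit 7015384444) (nat_lit 8) (nat_lit 5) (nat_lit 10) (nat_lit 4) (nat_lit 8) (nat_lit 4) (nat_lit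 505) (nat_lit 375) (nat_lit 320))))) (XT.nd (nat_lit 312) (nat_lit 0) (nat_lit 0) (XT.nd (nat_lit 156) (nat_lit 76) (nat_lit 0) (XT.nd (nat_lit 78) (nat_lit 0) (nat_lit 0) (XT.lf (nat_lit 0) (nat_lit 21882414927) (nat_lit 152) (nat_lit 61223489909) (nat_lit 0) (nat_lit 18677198408) (nat_lit 8) (nat_lit 5) (nat_lit 10) (nat_lit 4) (nat_lit 8) (nat_lit 4) (nat_lit 506) (nat_lit 375) (nat_lit 319)) (XT.lf (nat_lit 0) (nat_lit 34075508817) (nat_lit 152) (nat_lit 41373522299) (nat_lit 0) (nat_lit 30859668997) (nat_lit 8) (nat_lit 5) (nat_lit 10) (nat_lit 4) (nat_lit 8) (nat_lit 4) (nat_lit 507) (nat_lit 375) (nat_lit 318))) (XT.nd (nat_lit 78) (nat_lit 76) (nat_lit 0) (XT.lf (nat_lit 0) (nat_lit 46817759342) (nat_lit 152) (nat_lit 20654040503) (nat_lit 0) (nat_lit 43591802091) (nat_lit 8) (nat_lit 5) (nat_lit 10) (nat_lit 4) (nat_lit 8) (nat_lit 4) (nat_lit 508) (nat_lit 375) (nat_lit 317)) (XT.lf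 (nat_lit 0) (nat_lit 1016832571) (nat_lit 76) (nat_lit 59138548229) (nat_lit 76) (nat_lit 55902955330) (nat_lit 7) (nat_lit 4) (nat_lit 8) (nat_lit 5) (nat_lit 8) (nat_lit 4) (nat_lit 509) (nat_lit 375) (nat_lit 316)))) (XT.nd (nat_lit 156) (nat_lit 0) (nat_lit 0) (XT.nd (nat_lit 78) (nat_lit 0) (nat_lit 0) (XT.lf (nat_lit 0) (nat_lit 24373072302) (nat_lit 76) (nat_lit 50079924477) (nat_lit 76) (nat_lit 46835154770) (nat_lit 7) (nat_lit 4) (nat_lit 8) (nat_lit 5) (nat_lit 8) (nat_lit 4) (nat_lit 510) (nat_lit 375) (nat_lit 315)) (XT.lf (nat_lit 0) (nat_lit 48787372929) (nat_lit 76) (nat_lit 40624146608) (nat_lit 76) (nat_lit 37370637085) (nat_lit 7) (nat_lit 4) (nat_lit 8) (nat_lit 5) (nat_lit 8) (nat_lit 4) (nat_lit 511) (nat_lit 375) (nat_lit 314))) (XT.nd (nat_lit 78) (nat_lit 0) (nat_lit 0) (XT.lf (nat_lit 0) (nat_lit 74317863739) (nat_lit 76) (nat_lit 30748700865) (nat_lit 76) (nat_lit 27486867707)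 (nat_lit 7) (nat_lit 4) (nat_lit 8) (nat_lit 5) (nat_lit 8) (nat_lit 4) (nat_lit 512) (nat_lit 375) (nat_lit 313)) (XT.lf (nat_lit 0) (nat_lit 101025331614) (nat_lit 76) (nat_lit 20430074282) (nat_lit 76) (nat_lit 17160313852) (nat_lit 7) (nat_lit 4) (nat_lit 8) (nat_lit 5) (nat_lit 8) (nat_lit 4) (nat_lit 513) (nat_lit 375) (nat_lit 312))))))) (XT.nd (nat_lit 1248) (nat_lit 152) (nat_lit 0) (XT.nd (nat_lit 624) (nat_lit 76) (nat_lit 0) (XT.nd (nat_lit 312) (nat_lit 0) (nat_lit 0) (XT.nd (nat_lit 156) (nat_lit 0) (nat_lit 0) (XT.nd (nat_lit 78) (nat_lit 152) (nat_lit 0) (XT.lf (nat_lit 0) (nat_lit 128973365764) (nat_lit 76) (nat_lit 9643698700) (nat_lit 76) (nat_lit 6366388489) (nat_lit 7) (nat_lit 4) (nat_lit 8) (nat_lit 5) (nat_lit 8) (nat_lit 4) (nat_lit 514) (nat_lit 375) (nat_lit 311)) (XT.lf (nat_lit 0) (nat_lit 4896149386) (nat_lit 152) (nat_lit 144997097325) (nat_lit 0) (nat_lit 1768053691)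 (nat_lit 5) (nat_lit 5) (nat_lit 7) (nat_lit 4) (nat_lit 5) (nat_lit 4) (nat_lit 515) (nat_lit 375) (nat_lit 310))) (XT.nd (nat_lit 78) (nat_lit 0) (nat_lit 0) (XT.lf (nat_lit 0) (nat_lit 16896428464) (nat_lit 152) (nat_lit 127990154225) (nat_lit 0) (nat_lit 13761810983) (nat_lit 5) (nat_lit 5) (nat_lit 7) (nat_lit 4) (nat_lit 5) (nat_lit 4) (nat_lit 516) (nat_lit 375) (nat_lit 309)) (XT.lf (nat_lit 0) (nat_lit 29453759417) (nat_lit 152) (nat_lit 110220299708) (nat_lit 0) (nat_lit 26312930711) (nat_lit 5) (nat_lit 5) (nat_lit 7) (nat_lit 4) (nat_lit 5) (nat_lit 4) (nat_lit 517) (nat_lit 375) (nat_lit 308)))) (XT.nd (nat_lit 156) (nat_lit 0) (nat_lit 0) (XT.nd (nat_lit 78) (nat_lit 0) (nat_lit 0) (XT.lf (nat_lit 0) (nat_lit 42598040653) (nat_lit 152) (nat_lit 91645224596) (nat_lit 0) (nat_lit 39451296495) (nat_lit 5) (nat_lit 5) (nat_lit 7) (nat_lit 4) (nat_lit 5) (nat_lit 4) (nat_lit 518) (nat_lit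 375) (nat_lit 307)) (XT.lf (nat_lit 0) (nat_lit 56360568079) (nat_lit 152) (nat_lit 72220702519) (nat_lit 0) (nat_lit 53208190158) (nat_lit 5) (nat_lit 5) (nat_lit 7) (nat_lit 4) (nat_lit 5) (nat_lit 4) (nat_lit 519) (nat_lit 375) (nat_lit 306))) (XT.nd (nat_lit 78) (nat_lit 0) (nat_lit 0) (XT.lf (nat_lit 0) (nat_lit 70774109619) (nat_lit 152) (nat_lit 51900484617) (nat_lit 0) (nat_lit 67616366208) (nat_lit 5) (nat_lit 5) (nat_lit 7) (nat_lit 4) (nat_lit 5) (nat_lit 4) (nat_lit 520) (nat_lit 375) (nat_lit 305)) (XT.lf (nat_lit 0) (nat_lit 85872983228) (nat_lit 152) (nat_lit 30636189417) (nat_lit 0) (nat_lit 82710129827) (nat_lit 5) (nat_lit 5) (nat_lit 7) (nat_lit 4) (nat_lit 5) (nat_lit 4) (nat_lit 521) (nat_lit 375) (nat_lit 304))))) (XT.nd (nat_lit 312) (nat_lit 0) (nat_lit 0) (XT.nd (nat_lit 156) (nat_lit 0) (nat_lit 0) (XT.nd (nat_lit 78) (nat_lit 76) (nat_lit 0) (XT.lf (nat_lit 0) (nat_lit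 101693138604) (nat_lit 152) (nat_lit 8377187645) (nat_lit 0) (nat_lit 98525418547) (nat_lit 5) (nat_lit 5) (nat_lit 7) (nat_lit 4) (nat_lit 5) (nat_lit 4) (nat_lit 522) (nat_lit 375) (nat_lit 303)) (XT.lf (nat_lit 0) (nat_lit 15423155620) (nat_lit 76) (nat_lit 103089885848) (nat_lit 76) (nat_lit 99917530880) (nat_lit 4) (nat_lit 4) (nat_lit 5) (nat_lit 5) (nat_lit 5) (nat_lit 4) (nat_lit 523) (nat_lit 375) (nat_lit 302))) (XT.nd (nat_lit 78) (nat_lit 0) (nat_lit 0) (XT.lf (nat_lit 0) (nat_lit 40640159547) (nat_lit 76) (nat_lit 95644117067) (nat_lit 76) (nat_lit 92467347897) (nat_lit 4) (nat_lit 4) (nat_lit 5) (nat_lit 5) (nat_lit 5) (nat_lit 4) (nat_lit 524) (nat_lit 375) (nat_lit 301)) (XT.lf (nat_lit 0) (nat_lit 67056876966) (nat_lit 76) (nat_lit 87857163610) (nat_lit 76) (nat_lit 84676190439) (nat_lit 4) (nat_lit 4) (nat_lit 5) (nat_lit 5) (nat_lit 5) (nat_lit 4) (nat_lit 525) (nat_lit 375)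 (nat_lit 300)))) (XT.nd (nat_lit 156) (nat_lit 0) (nat_lit 0) (XT.nd (nat_lit 78) (nat_lit 0) (nat_lit 0) (XT.lf (nat_lit 0) (nat_lit 94736204822) (nat_lit 76) (nat_lit 79710485113) (nat_lit 76) (nat_lit 76525508131) (nat_lit 4) (nat_lit 4) (nat_lit 5) (nat_lit 5) (nat_lit 5) (nat_lit 4) (nat_lit 526) (nat_lit 375) (nat_lit 299)) (XT.lf (nat_lit 0) (nat_lit 123744046277) (nat_lit 76) (nat_lit 71184684723) (nat_lit 76) (nat_lit 67995894588) (nat_lit 4) (nat_lit 4) (nat_lit 5) (nat_lit 5) (nat_lit 5) (nat_lit 4) (nat_lit 527) (nat_lit 375) (nat_lit 298))) (XT.nd (nat_lit 78) (nat_lit 0) (nat_lit 0) (XT.lf (nat_lit 0) (nat_lit 154149467620) (nat_lit 76) (nat_lit 62259462915) (nat_lit 76) (nat_lit 59067041205) (nat_lit 4) (nat_lit 4) (nat_lit 5) (nat_lit 5) (nat_lit 5) (nat_lit 4) (nat_lit 528) (nat_lit 375) (nat_lit 297)) (XT.lf (nat_lit 0) (nat_lit 186024862712) (nat_lit 76) (nat_lit 52913569160)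 (nat_lit 76) (nat_lit 49717688808) (nat_lit 4) (nat_lit 4) (nat_lit 5) (nat_lit 5) (nat_lit 5) (nat_lit 4) (nat_lit 529) (nat_lit 375) (nat_lit 296)))))) (XT.nd (nat_lit 624) (nat_lit 0) (nat_lit 0) (XT.nd (nat_lit 312) (nat_lit 152) (nat_lit 0) (XT.nd (nat_lit 156) (nat_lit 0) (nat_lit 0) (XT.nd (nat_lit 78) (nat_lit 0) (nat_lit 0) (XT.lf (nat_lit 0) (nat_lit 219446125350) (nat_lit 76) (nat_lit 43124751330) (nat_lit 76) (nat_lit 39925577034) (nat_lit 4) (nat_lit 4) (nat_lit 5) (nat_lit 5) (nat_lit 5) (nat_lit 4) (nat_lit 530) (nat_lit 375) (nat_lit 295)) (XT.lf (nat_lit 0) (nat_lit 254492829969) (nat_lit 76) (nat_lit 32869702717) (nat_lit 76) (nat_lit 29667391330) (nat_lit 4) (nat_lit 4) (nat_lit 5) (nat_lit 5) (nat_lit 5) (nat_lit 4) (nat_lit 531) (nat_lit 375) (nat_lit 294))) (XT.nd (nat_lit 78) (nat_lit 0) (nat_lit 0) (XT.lf (nat_lit 0) (nat_lit 291248421104) (nat_lit 76) (nat_lit 22124006538)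 (nat_lit 76) (nat_lit 18918707446) (nat_lit 4) (nat_lit 4) (nat_lit 5) (nat_lit 5) (nat_lit 5) (nat_lit 4) (nat_lit 532) (nat_lit 375) (nat_lit 293)) (XT.lf (nat_lit 0) (nat_lit 329800412068) (nat_lit 76) (nat_lit 10862077802) (nat_lit 76) (nat_lit 7653933276) (nat_lit 4) (nat_lit 4) (nat_lit 5) (nat_lit 5) (nat_lit 5) (nat_lit 4) (nat_lit 533) (nat_lit 375) (nat_lit 292)))) (XT.nd (nat_lit 156) (nat_lit 0) (nat_lit 0) (XT.nd (nat_lit 78) (nat_lit 0) (nat_lit 0) (XT.lf (nat_lit 0) (nat_lit 4119078970) (nat_lit 152) (nat_lit 359955586098) (nat_lit 0) (nat_lit 1061122339) (nat_lit 2) (nat_lit 5) (nat_lit 4) (nat_lit 4) (nat_lit 2) (nat_lit 4) (nat_lit 534) (nat_lit 375) (nat_lit 291)) (XT.lf (nat_lit 0) (nat_lit 16700636096) (nat_lit 152) (nat_lit 352425132816) (nat_lit 0) (nat_lit 13640221473) (nat_lit 2) (nat_lit 5) (nat_lit 4) (nat_lit 4) (nat_lit 2) (nat_lit 4) (nat_lit 535) (nat_lit 375) (nat_lit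 290))) (XT.nd (nat_lit 78) (nat_lit 0) (nat_lit 0) (XT.lf (nat_lit 0) (nat_lit 29892539215) (nat_lit 152) (nat_lit 344556317292) (nat_lit 0) (nat_lit 26829783646) (nat_lit 2) (nat_lit 5) (nat_lit 4) (nat_lit 4) (nat_lit 2) (nat_lit 4) (nat_lit 536) (nat_lit 375) (nat_lit 289)) (XT.lf (nat_lit 0) (nat_lit 43726197619) (nat_lit 152) (nat_lit 336330404252) (nat_lit 0) (nat_lit 40661212579) (nat_lit 2) (nat_lit 5) (nat_lit 4) (nat_lit 4) (nat_lit 2) (nat_lit 4) (nat_lit 537) (nat_lit 375) (nat_lit 288))))) (XT.nd (nat_lit 312) (nat_lit 0) (nat_lit 0) (XT.nd (nat_lit 156) (nat_lit 0) (nat_lit 0) (XT.nd (nat_lit 78) (nat_lit 0) (nat_lit 0) (XT.lf (nat_lit 0) (nat_lit 58234548590) (nat_lit 152) (nat_lit 327727808188) (nat_lit 0) (nat_lit 55167440244) (nat_lit 2) (nat_lit 5) (nat_lit 4) (nat_lit 4) (nat_lit 2) (nat_lit 4) (nat_lit 538) (nat_lit 375) (nat_lit 287)) (XT.lf (nat_lit 0) (nat_lit 73452135821)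 (nat_lit 152) (nat_lit 318728046730) (nat_lit 0) (nat_lit 70383005278) (nat_lit 2) (nat_lit 5) (nat_lit 4) (nat_lit 4) (nat_lit 2) (nat_lit 4) (nat_lit 539) (nat_lit 375) (nat_lit 286))) (XT.nd (nat_lit 78) (nat_lit 0) (nat_lit 0) (XT.lf (nat_lit 0) (nat_lit 89415191663) (nat_lit 152) (nat_lit 309309691873) (nat_lit 0) (nat_lit 86344135219) (nat_lit 2) (nat_lit 5) (nat_lit 4) (nat_lit 4) (nat_lit 2) (nat_lit 4) (nat_lit 540) (nat_lit 375) (nat_lit 285)) (XT.lf (nat_lit 0) (nat_lit 106161723391) (nat_lit 152) (nat_lit 299450318963) (nat_lit 0) (nat_lit 103088832755) (nat_lit 2) (nat_lit 5) (nat_lit 4) (nat_lit 4) (nat_lit 2) (nat_lit 4) (nat_lit 541) (nat_lit 375) (nat_lit 284)))) (XT.nd (nat_lit 156) (nat_lit 0) (nat_lit 0) (XT.nd (nat_lit 78) (nat_lit 0) (nat_lit 0) (XT.lf (nat_lit 0) (nat_lit 123731603700) (nat_lit 152) (nat_lit 289126453303) (nat_lit 0) (nat_lit 120656966214) (nat_lit 2) (nat_lit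 5) (nat_lit 4) (nat_lit 4) (nat_lit 2) (nat_lit 4) (nat_lit 542) (nat_lit 375) (nat_lit 283)) (XT.lf (nat_lit 0) (nat_lit 142166665638) (nat_lit 152) (nat_lit 278313514260) (nat_lit 0) (nat_lit 139090364487) (nat_lit 2) (nat_lit 5) (nat_lit 4) (nat_lit 4) (nat_lit 2) (nat_lit 4) (nat_lit 543) (nat_lit 375) (nat_lit 282))) (XT.nd (nat_lit 78) (nat_lit 0) (nat_lit 0) (XT.lf (nat_lit 0) (nat_lit 161510802210) (nat_lit 152) (nat_lit 266985756741) (nat_lit 0) (nat_lit 158432916615) (nat_lit 2) (nat_lit 5) (nat_lit 4) (nat_lit 4) (nat_lit 2) (nat_lit 4) (nat_lit 544) (nat_lit 375) (nat_lit 281)) (XT.lf (nat_lit 0) (nat_lit 181810070884) (nat_lit 152) (nat_lit 255116209896) (nat_lit 0) (nat_lit 178730676295) (nat_lit 2) (nat_lit 5) (nat_lit 4) (nat_lit 4) (nat_lit 2) (nat_lit 4) (nat_lit 545) (nat_lit 375) (nat_lit 280))))))))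
noncomputable def xc44 : XT := (XT.nd (nat_lit 56706) (nat_lit 0) (nat_lit 608) (XT.nd (nat_lit 55458) (nat_lit 0) (nat_lit 2128) (XT.nd (nat_lit 54834) (nat_lit 0) (nat_lit 3420) (XT.nd (nat_lit 234) (nat_lit 0) (nat_lit 0) (XT.nd (nat_lit 78) (nat_lit 0) (nat_lit 0) (XT.lf (nat_lit 0) (nat_lit 203112803252) (nat_lit 152) (nat_lit 242676612897) (nat_lit 0) (nat_lit 200031971525) (nat_lit 2) (nat_lit 5) (nat_lit 4) (nat_lit 4) (nat_lit 2) (nat_lit 4) (nat_lit 546) (nat_lit 375) (nat_lit 279)) (XT.nd (nat_lit 78) (nat_lit 0) (nat_lit 0) (XT.lf (nat_lit 0) (nat_lit 225469720105) (nat_lit 152) (nat_lit 229637347658) (nat_lit 0) (nat_lit 222387519676) (nat_lit 2) (nat_lit 5) (nat_lit 4) (nat_lit 4) (nat_lit 2) (nat_lit 4) (nat_lit 547) (nat_lit 375) (nat_lit 278)) (XT.lf (nat_lit 0) (nat_lit 248934052199) (nat_lit 152) (nat_lit 215967368308) (nat_lit 0) (nat_lit 245850548244) (nat_lit 2) (nat_lit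 5) (nat_lit 4) (nat_lit 4) (nat_lit 2) (nat_lit 4) (nat_lit 548) (nat_lit 375) (nat_lit 277)))) (XT.nd (nat_lit 156) (nat_lit 0) (nat_lit 0) (XT.nd (nat_lit 78) (nat_lit 0) (nat_lit 0) (XT.lf (nat_lit 0) (nat_lit 273561666989) (nat_lit 152) (nat_lit 201634127277) (nat_lit 0) (nat_lit 270476921581) (nat_lit 2) (nat_lit 5) (nat_lit 4) (nat_lit 4) (nat_lit 2) (nat_lit 4) (nat_lit 549) (nat_lit 375) (nat_lit 276)) (XT.lf (nat_lit 0) (nat_lit 299411201654) (nat_lit 152) (nat_lit 186603497802) (nat_lit 0) (nat_lit 296325273910) (nat_lit 2) (nat_lit 5) (nat_lit 4) (nat_lit 4) (nat_lit 2) (nat_lit 4) (nat_lit 550) (nat_lit 375) (nat_lit 275))) (XT.nd (nat_lit 78) (nat_lit 0) (nat_lit 0) (XT.lf (nat_lit 0) (nat_lit 326544202706) (nat_lit 152) (nat_lit 170839692669) (nat_lit 0) (nat_lit 323457148927) (nat_lit 2) (nat_lit 5) (nat_lit 4) (nat_lit 4) (nat_lit 2) (nat_lit 4) (nat_lit 551) (nat_lit 375) (nat_lit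 274)) (XT.lf (nat_lit 0) (nat_lit 355025272527) (nat_lit 152) (nat_lit 154305179009) (nat_lit 0) (nat_lit 351937146334) (nat_lit 2) (nat_lit 5) (nat_lit 4) (nat_lit 4) (nat_lit 2) (nat_lit 4) (nat_lit 552) (nat_lit 375) (nat_lit 273))))) (XT.nd (nat_lit 312) (nat_lit 456) (nat_lit 0) (XT.nd (nat_lit 156) (nat_lit 304) (nat_lit 0) (XT.nd (nat_lit 78) (nat_lit 0) (nat_lit 0) (XT.lf (nat_lit 0) (nat_lit 146839784) (nat_lit 152) (nat_lit 6513244383) (nat_lit 0) (nat_lit 146839784) (nat_lit 57) (nat_lit 5) (nat_lit 59) (nat_lit 4) (nat_lit 57) (nat_lit 4) (nat_lit 448) (nat_lit 376) (nat_lit 376)) (XT.lf (nat_lit 0) (nat_lit 6763577336) (nat_lit 152) (nat_lit 798925284) (nat_lit 0) (nat_lit 6389399249) (nat_lit 57) (nat_lit 5) (nat_lit 59) (nat_lit 4) (nat_lit 57) (nat_lit 4) (nat_lit 449) (nat_lit 376) (nat_lit 375))) (XT.nd (nat_lit 78) (nat_lit 152) (nat_lit 0) (XT.lf (nat_lit 0) (nat_lit 12019147783)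 (nat_lit 152) (nat_lit 1509827990) (nat_lit 152) (nat_lit 779289821) (nat_lit 55) (nat_lit 4) (nat_lit 57) (nat_lit 5) (nat_lit 57) (nat_lit 4) (nat_lit 450) (nat_lit 376) (nat_lit 374)) (XT.lf (nat_lit 0) (nat_lit 5802098453) (nat_lit 152) (nat_lit 4090474774) (nat_lit 0) (nat_lit 4783118716) (nat_lit 53) (nat_lit 5) (nat_lit 55) (nat_lit 4) (nat_lit 53) (nat_lit 4) (nat_lit 451) (nat_lit 376) (nat_lit 373)))) (XT.nd (nat_lit 156) (nat_lit 228) (nat_lit 0) (XT.nd (nat_lit 78) (nat_lit 152) (nat_lit 0) (XT.lf (nat_lit 0) (nat_lit 8964756614) (nat_lit 76) (nat_lit 3711706377) (nat_lit 76) (nat_lit 2384889402) (nat_lit 52) (nat_lit 4) (nat_lit 53) (nat_lit 5) (nat_lit 53) (nat_lit 4) (nat_lit 452) (nat_lit 376) (nat_lit 372)) (XT.lf (nat_lit 0) (nat_lit 4298711350) (nat_lit 152) (nat_lit 8407665062) (nat_lit 0) (nat_lit 2755858687) (nat_lit 50) (nat_lit 5) (nat_lit 52) (nat_lit 4) (nat_lit 50)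 (nat_lit 4) (nat_lit 453) (nat_lit 376) (nat_lit 371))) (XT.nd (nat_lit 78) (nat_lit 152) (nat_lit 0) (XT.lf (nat_lit 0) (nat_lit 4841661107) (nat_lit 76) (nat_lit 6423443751) (nat_lit 76) (nat_lit 4614669707) (nat_lit 49) (nat_lit 4) (nat_lit 50) (nat_lit 5) (nat_lit 50) (nat_lit 4) (nat_lit 454) (nat_lit 376) (nat_lit 370)) (XT.lf (nat_lit 0) (nat_lit 2161853295) (nat_lit 152) (nat_lit 13957933728) (nat_lit 0) (nat_lit 198012817) (nat_lit 47) (nat_lit 5) (nat_lit 49) (nat_lit 4) (nat_lit 47) (nat_lit 4) (nat_lit 455) (nat_lit 376) (nat_lit 369)))))) (XT.nd (nat_lit 624) (nat_lit 608) (nat_lit 0) (XT.nd (nat_lit 312) (nat_lit 380) (nat_lit 0) (XT.nd (nat_lit 156) (nat_lit 228) (nat_lit 0) (XT.nd (nat_lit 78) (nat_lit 76) (nat_lit 0) (XT.lf (nat_lit 0) (nat_lit 9206013348) (nat_lit 152) (nat_lit 551280563) (nat_lit 0) (nat_lit 7012459984) (nat_lit 47) (nat_lit 5) (nat_lit 49) (nat_lit 4) (nat_lit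 47) (nat_lit 4) (nat_lit 456) (nat_lit 376) (nat_lit 368)) (XT.lf (nat_lit 0) (nat_lit 13569689782) (nat_lit 76) (nat_lit 3043210979) (nat_lit 76) (nat_lit 630883437) (nat_lit 46) (nat_lit 4) (nat_lit 47) (nat_lit 5) (nat_lit 47) (nat_lit 4) (nat_lit 457) (nat_lit 376) (nat_lit 367))) (XT.nd (nat_lit 78) (nat_lit 76) (nat_lit 0) (XT.lf (nat_lit 0) (nat_lit 6472650273) (nat_lit 152) (nat_lit 7285077268) (nat_lit 0) (nat_lit 3976760842) (nat_lit 44) (nat_lit 5) (nat_lit 46) (nat_lit 4) (nat_lit 44) (nat_lit 4) (nat_lit 458) (nat_lit 376) (nat_lit 366)) (XT.lf (nat_lit 0) (nat_lit 6929219279) (nat_lit 76) (nat_lit 7001910754) (nat_lit 76) (nat_lit 4317035963) (nat_lit 43) (nat_lit 4) (nat_lit 44) (nat_lit 5) (nat_lit 44) (nat_lit 4) (nat_lit 459) (nat_lit 376) (nat_lit 365)))) (XT.nd (nat_lit 156) (nat_lit 228) (nat_lit 0) (XT.nd (nat_lit 78) (nat_lit 0) (nat_lit 0) (XT.lf (nat_lit 0) (nat_lit 2853704088)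 (nat_lit 152) (nat_lit 15807543515) (nat_lit 0) (nat_lit 125265186) (nat_lit 41) (nat_lit 5) (nat_lit 43) (nat_lit 4) (nat_lit 41) (nat_lit 4) (nat_lit 460) (nat_lit 376) (nat_lit 364)) (XT.lf (nat_lit 0) (nat_lit 10348036651) (nat_lit 152) (nat_lit 1538353182) (nat_lit 0) (nat_lit 7456345088) (nat_lit 41) (nat_lit 5) (nat_lit 43) (nat_lit 4) (nat_lit 41) (nat_lit 4) (nat_lit 461) (nat_lit 376) (nat_lit 363))) (XT.nd (nat_lit 78) (nat_lit 152) (nat_lit 0) (XT.lf (nat_lit 0) (nat_lit 13502940618) (nat_lit 76) (nat_lit 4734979657) (nat_lit 76) (nat_lit 1687809371) (nat_lit 40) (nat_lit 4) (nat_lit 41) (nat_lit 5) (nat_lit 41) (nat_lit 4) (nat_lit 462) (nat_lit 376) (nat_lit 362)) (XT.lf (nat_lit 0) (nat_lit 5808839896) (nat_lit 152) (nat_lit 11957818524) (nat_lit 0) (nat_lit 2765749171) (nat_lit 38) (nat_lit 5) (nat_lit 40) (nat_lit 4) (nat_lit 38) (nat_lit 4) (nat_lit 463) (nat_lit 376) (nat_lit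 361))))) (XT.nd (nat_lit 312) (nat_lit 304) (nat_lit 0) (XT.nd (nat_lit 156) (nat_lit 152) (nat_lit 0) (XT.nd (nat_lit 78) (nat_lit 76) (nat_lit 0) (XT.lf (nat_lit 0) (nat_lit 2995384580) (nat_lit 76) (nat_lit 10673884899) (nat_lit 76) (nat_lit 7496485807) (nat_lit 37) (nat_lit 4) (nat_lit 38) (nat_lit 5) (nat_lit 38) (nat_lit 4) (nat_lit 464) (nat_lit 376) (nat_lit 360)) (XT.lf (nat_lit 0) (nat_lit 105774981) (nat_lit 152) (nat_lit 3088473111) (nat_lit 76) (nat_lit 18635614618) (nat_lit 36) (nat_lit 5) (nat_lit 38) (nat_lit 5) (nat_lit 37) (nat_lit 4) (nat_lit 465) (nat_lit 376) (nat_lit 359))) (XT.nd (nat_lit 78) (nat_lit 76) (nat_lit 0) (XT.lf (nat_lit 0) (nat_lit 7929275425) (nat_lit 152) (nat_lit 9921766141) (nat_lit 0) (nat_lit 4665338786) (nat_lit 35) (nat_lit 5) (nat_lit 37) (nat_lit 4) (nat_lit 35) (nat_lit 4) (nat_lit 466) (nat_lit 376) (nat_lit 358)) (XT.lf (nat_lit 0) (nat_lit 5706885689)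 (nat_lit 76) (nat_lit 10452012776) (nat_lit 76) (nat_lit 7077580311) (nat_lit 34) (nat_lit 4) (nat_lit 35) (nat_lit 5) (nat_lit 35) (nat_lit 4) (nat_lit 467) (nat_lit 376) (nat_lit 357)))) (XT.nd (nat_lit 156) (nat_lit 152) (nat_lit 0) (XT.nd (nat_lit 78) (nat_lit 76) (nat_lit 0) (XT.lf (nat_lit 0) (nat_lit 772857356) (nat_lit 152) (nat_lit 1895309003) (nat_lit 76) (nat_lit 21324223558) (nat_lit 33) (nat_lit 5) (nat_lit 35) (nat_lit 5) (nat_lit 34) (nat_lit 4) (nat_lit 468) (nat_lit 376) (nat_lit 356)) (XT.lf (nat_lit 0) (nat_lit 8922777989) (nat_lit 152) (nat_lit 10336919229) (nat_lit 0) (nat_lit 5513359363) (nat_lit 32) (nat_lit 5) (nat_lit 34) (nat_lit 4) (nat_lit 32) (nat_lit 4) (nat_lit 469) (nat_lit 376) (nat_lit 355))) (XT.nd (nat_lit 78) (nat_lit 76) (nat_lit 0) (XT.lf (nat_lit 0) (nat_lit 5861643104) (nat_lit 76) (nat_lit 11615788653) (nat_lit 76) (nat_lit 8115464838) (nat_lit 31) (nat_lit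 4) (nat_lit 32) (nat_lit 5) (nat_lit 32) (nat_lit 4) (nat_lit 470) (nat_lit 376) (nat_lit 354)) (XT.lf (nat_lit 0) (nat_lit 13324819) (nat_lit 152) (nat_lit 3559584305) (nat_lit 76) (nat_lit 22880444928) (nat_lit 30) (nat_lit 5) (nat_lit 32) (nat_lit 5) (nat_lit 31) (nat_lit 4) (nat_lit 471) (nat_lit 376) (nat_lit 353))))))) (XT.nd (nat_lit 1170) (nat_lit 684) (nat_lit 0) (XT.nd (nat_lit 546) (nat_lit 380) (nat_lit 0) (XT.nd (nat_lit 234) (nat_lit 304) (nat_lit 0) (XT.nd (nat_lit 78) (nat_lit 76) (nat_lit 0) (XT.lf (nat_lit 0) (nat_lit 8401669488) (nat_lit 152) (nat_lit 14035175323) (nat_lit 0) (nat_lit 4907046751) (nat_lit 29) (nat_lit 5) (nat_lit 31) (nat_lit 4) (nat_lit 29) (nat_lit 4) (nat_lit 472) (nat_lit 376) (nat_lit 352)) (XT.nd (nat_lit 78) (nat_lit 0) (nat_lit 0) (XT.lf (nat_lit 0) (nat_lit 2565947055) (nat_lit 76) (nat_lit 14641266006) (nat_lit 76) (nat_lit 11071855346) (nat_lit 28)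 (nat_lit 4) (nat_lit 29) (nat_lit 5) (nat_lit 29) (nat_lit 4) (nat_lit 473) (nat_lit 376) (nat_lit 351)) (XT.lf (nat_lit 0) (nat_lit 20164942576) (nat_lit 76) (nat_lit 6366392588) (nat_lit 76) (nat_lit 2725755332) (nat_lit 28) (nat_lit 4) (nat_lit 29) (nat_lit 5) (nat_lit 29) (nat_lit 4) (nat_lit 474) (nat_lit 376) (nat_lit 350)))) (XT.nd (nat_lit 156) (nat_lit 152) (nat_lit 0) (XT.nd (nat_lit 78) (nat_lit 0) (nat_lit 0) (XT.lf (nat_lit 0) (nat_lit 5855927749) (nat_lit 152) (nat_lit 22098748460) (nat_lit 0) (nat_lit 2324049552) (nat_lit 26) (nat_lit 5) (nat_lit 28) (nat_lit 4) (nat_lit 26) (nat_lit 4) (nat_lit 475) (nat_lit 376) (nat_lit 349)) (XT.lf (nat_lit 0) (nat_lit 14881883976) (nat_lit 152) (nat_lit 5173508678) (nat_lit 0) (nat_lit 11288477568) (nat_lit 26) (nat_lit 5) (nat_lit 28) (nat_lit 4) (nat_lit 26) (nat_lit 4) (nat_lit 476) (nat_lit 376) (nat_lit 348))) (XT.nd (nat_lit 78) (nat_lit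 76) (nat_lit 0) (XT.lf (nat_lit 0) (nat_lit 12709975840) (nat_lit 76) (nat_lit 11700858578) (nat_lit 76) (nat_lit 8048853874) (nat_lit 25) (nat_lit 4) (nat_lit 26) (nat_lit 5) (nat_lit 26) (nat_lit 4) (nat_lit 477) (nat_lit 376) (nat_lit 347)) (XT.lf (nat_lit 0) (nat_lit 702215193) (nat_lit 152) (nat_lit 2268271458) (nat_lit 76) (nat_lit 30663078816) (nat_lit 24) (nat_lit 5) (nat_lit 26) (nat_lit 5) (nat_lit 25) (nat_lit 4) (nat_lit 478) (nat_lit 376) (nat_lit 346))))) (XT.nd (nat_lit 312) (nat_lit 152) (nat_lit 0) (XT.nd (nat_lit 156) (nat_lit 152) (nat_lit 0) (XT.nd (nat_lit 78) (nat_lit 0) (nat_lit 0) (XT.lf (nat_lit 0) (nat_lit 9834337019) (nat_lit 152) (nat_lit 18762035916) (nat_lit 0) (nat_lit 6252467508) (nat_lit 23) (nat_lit 5) (nat_lit 25) (nat_lit 4) (nat_lit 23) (nat_lit 4) (nat_lit 479) (nat_lit 376) (nat_lit 345)) (XT.lf (nat_lit 0) (nat_lit 19371305525) (nat_lit 152) (nat_lit 1014935558)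 (nat_lit 0) (nat_lit 15741227051) (nat_lit 23) (nat_lit 5) (nat_lit 25) (nat_lit 4) (nat_lit 23) (nat_lit 4) (nat_lit 480) (nat_lit 376) (nat_lit 344))) (XT.nd (nat_lit 78) (nat_lit 76) (nat_lit 0) (XT.lf (nat_lit 0) (nat_lit 17925599094) (nat_lit 76) (nat_lit 11606535122) (nat_lit 76) (nat_lit 7930543351) (nat_lit 22) (nat_lit 4) (nat_lit 23) (nat_lit 5) (nat_lit 23) (nat_lit 4) (nat_lit 481) (nat_lit 376) (nat_lit 343)) (XT.lf (nat_lit 0) (nat_lit 1178270817) (nat_lit 152) (nat_lit 1304263546) (nat_lit 76) (nat_lit 36386836469) (nat_lit 21) (nat_lit 5) (nat_lit 23) (nat_lit 5) (nat_lit 22) (nat_lit 4) (nat_lit 482) (nat_lit 376) (nat_lit 342)))) (XT.nd (nat_lit 156) (nat_lit 76) (nat_lit 0) (XT.nd (nat_lit 78) (nat_lit 0) (nat_lit 0) (XT.lf (nat_lit 0) (nat_lit 10746636196) (nat_lit 152) (nat_lit 22415346195) (nat_lit 0) (nat_lit 7164385303) (nat_lit 20) (nat_lit 5) (nat_lit 22) (nat_lit 4)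 (nat_lit 20) (nat_lit 4) (nat_lit 483) (nat_lit 376) (nat_lit 341)) (XT.lf (nat_lit 0) (nat_lit 20730236263) (nat_lit 152) (nat_lit 4018925707) (nat_lit 0) (nat_lit 17110212387) (nat_lit 20) (nat_lit 5) (nat_lit 22) (nat_lit 4) (nat_lit 20) (nat_lit 4) (nat_lit 484) (nat_lit 376) (nat_lit 340))) (XT.nd (nat_lit 78) (nat_lit 0) (nat_lit 0) (XT.lf (nat_lit 0) (nat_lit 15552120579) (nat_lit 76) (nat_lit 15783392415) (nat_lit 76) (nat_lit 12127394269) (nat_lit 19) (nat_lit 4) (nat_lit 20) (nat_lit 5) (nat_lit 20) (nat_lit 4) (nat_lit 485) (nat_lit 376) (nat_lit 339)) (XT.lf (nat_lit 0) (nat_lit 36002205710) (nat_lit 76) (nat_lit 6418591980) (nat_lit 76) (nat_lit 2728332624) (nat_lit 19) (nat_lit 4) (nat_lit 20) (nat_lit 5) (nat_lit 20) (nat_lit 4) (nat_lit 486) (nat_lit 376) (nat_lit 338)))))) (XT.nd (nat_lit 624) (nat_lit 304) (nat_lit 0) (XT.nd (nat_lit 312) (nat_lit 152) (nat_lit 0) (XT.nd (nat_lit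 156) (nat_lit 76) (nat_lit 0) (XT.nd (nat_lit 78) (nat_lit 0) (nat_lit 0) (XT.lf (nat_lit 0) (nat_lit 7018328112) (nat_lit 152) (nat_lit 36417733658) (nat_lit 0) (nat_lit 3472719464) (nat_lit 17) (nat_lit 5) (nat_lit 19) (nat_lit 4) (nat_lit 17) (nat_lit 4) (nat_lit 487) (nat_lit 376) (nat_lit 337)) (XT.lf (nat_lit 0) (nat_lit 17308871801) (nat_lit 152) (nat_lit 17704228151) (nat_lit 0) (nat_lit 13733667032) (nat_lit 17) (nat_lit 5) (nat_lit 19) (nat_lit 4) (nat_lit 17) (nat_lit 4) (nat_lit 488) (nat_lit 376) (nat_lit 336))) (XT.nd (nat_lit 78) (nat_lit 0) (nat_lit 0) (XT.lf (nat_lit 0) (nat_lit 1781447490) (nat_lit 76) (nat_lit 26251327523) (nat_lit 76) (nat_lit 22647935972) (nat_lit 16) (nat_lit 4) (nat_lit 17) (nat_lit 5) (nat_lit 17) (nat_lit 4) (nat_lit 489) (nat_lit 376) (nat_lit 335)) (XT.lf (nat_lit 0) (nat_lit 22639091969) (nat_lit 76) (nat_lit 16846432169) (nat_lit 76) (nat_lit 13216196064)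 (nat_lit 16) (nat_lit 4) (nat_lit 17) (nat_lit 5) (nat_lit 17) (nat_lit 4) (nat_lit 490) (nat_lit 376) (nat_lit 334)))) (XT.nd (nat_lit 156) (nat_lit 0) (nat_lit 0) (XT.nd (nat_lit 78) (nat_lit 152) (nat_lit 0) (XT.lf (nat_lit 0) (nat_lit 44332984606) (nat_lit 76) (nat_lit 7075850954) (nat_lit 76) (nat_lit 3420048606) (nat_lit 16) (nat_lit 4) (nat_lit 17) (nat_lit 5) (nat_lit 17) (nat_lit 4) (nat_lit 491) (nat_lit 376) (nat_lit 333)) (XT.lf (nat_lit 0) (nat_lit 6756925211) (nat_lit 152) (nat_lit 47042563896) (nat_lit 0) (nat_lit 3252019353) (nat_lit 14) (nat_lit 5) (nat_lit 16) (nat_lit 4) (nat_lit 14) (nat_lit 4) (nat_lit 492) (nat_lit 376) (nat_lit 332))) (XT.nd (nat_lit 78) (nat_lit 0) (nat_lit 0) (XT.lf (nat_lit 0) (nat_lit 17525743811) (nat_lit 152) (nat_lit 27848067815) (nat_lit 0) (nat_lit 13998752872) (nat_lit 14) (nat_lit 5) (nat_lit 16) (nat_lit 4) (nat_lit 14) (nat_lit 4) (nat_lit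 493) (nat_lit 376) (nat_lit 331)) (XT.lf (nat_lit 0) (nat_lit 28738972363) (nat_lit 152) (nat_lit 7884454945) (nat_lit 0) (nat_lit 25190948013) (nat_lit 14) (nat_lit 5) (nat_lit 16) (nat_lit 4) (nat_lit 14) (nat_lit 4) (nat_lit 494) (nat_lit 376) (nat_lit 330))))) (XT.nd (nat_lit 312) (nat_lit 76) (nat_lit 0) (XT.nd (nat_lit 156) (nat_lit 152) (nat_lit 0) (XT.nd (nat_lit 78) (nat_lit 0) (nat_lit 0) (XT.lf (nat_lit 0) (nat_lit 13322200745) (nat_lit 76) (nat_lit 27309105172) (nat_lit 76) (nat_lit 23741049003) (nat_lit 13) (nat_lit 4) (nat_lit 14) (nat_lit 5) (nat_lit 14) (nat_lit 4) (nat_lit 495) (nat_lit 376) (nat_lit 329)) (XT.lf (nat_lit 0) (nat_lit 35684316176) (nat_lit 76) (nat_lit 17479389662) (nat_lit 76) (nat_lit 13892255569) (nat_lit 13) (nat_lit 4) (nat_lit 14) (nat_lit 5) (nat_lit 14) (nat_lit 4) (nat_lit 496) (nat_lit 376) (nat_lit 328))) (XT.nd (nat_lit 78) (nat_lit 152) (nat_lit 0)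 (XT.lf (nat_lit 0) (nat_lit 58994438791) (nat_lit 76) (nat_lit 7244403754) (nat_lit 76) (nat_lit 3639100210) (nat_lit 13) (nat_lit 4) (nat_lit 14) (nat_lit 5) (nat_lit 14) (nat_lit 4) (nat_lit 497) (nat_lit 376) (nat_lit 327)) (XT.lf (nat_lit 0) (nat_lit 7042339495) (nat_lit 152) (nat_lit 62193697478) (nat_lit 0) (nat_lit 3592236844) (nat_lit 11) (nat_lit 5) (nat_lit 13) (nat_lit 4) (nat_lit 11) (nat_lit 4) (nat_lit 498) (nat_lit 376) (nat_lit 326)))) (XT.nd (nat_lit 156) (nat_lit 76) (nat_lit 0) (XT.nd (nat_lit 78) (nat_lit 0) (nat_lit 0) (XT.lf (nat_lit 0) (nat_lit 18360508572) (nat_lit 152) (nat_lit 42656672097) (nat_lit 0) (nat_lit 14894710466) (nat_lit 11) (nat_lit 5) (nat_lit 13) (nat_lit 4) (nat_lit 11) (nat_lit 4) (nat_lit 499) (nat_lit 376) (nat_lit 325)) (XT.lf (nat_lit 0) (nat_lit 30167305433) (nat_lit 152) (nat_lit 22299688954) (nat_lit 0) (nat_lit 26686559275) (nat_lit 11) (nat_lit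 5) (nat_lit 13) (nat_lit 4) (nat_lit 11) (nat_lit 4) (nat_lit 500) (nat_lit 376) (nat_lit 324))) (XT.nd (nat_lit 78) (nat_lit 76) (nat_lit 0) (XT.lf (nat_lit 0) (nat_lit 42490841499) (nat_lit 152) (nat_lit 1074279042) (nat_lit 0) (nat_lit 38995859100) (nat_lit 11) (nat_lit 5) (nat_lit 13) (nat_lit 4) (nat_lit 11) (nat_lit 4) (nat_lit 501) (nat_lit 376) (nat_lit 323)) (XT.lf (nat_lit 0) (nat_lit 21766766803) (nat_lit 76) (nat_lit 33933531949) (nat_lit 76) (nat_lit 30424991226) (nat_lit 10) (nat_lit 4) (nat_lit 11) (nat_lit 5) (nat_lit 11) (nat_lit 4) (nat_lit 502) (nat_lit 376) (nat_lit 322))))))))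
noncomputable def xc45 : XT := (XT.nd (nat_lit 2418) (nat_lit 152) (nat_lit 0) (XT.nd (nat_lit 1170) (nat_lit 76) (nat_lit 0) (XT.nd (nat_lit 546) (nat_lit 228) (nat_lit 0) (XT.nd (nat_lit 234) (nat_lit 76) (nat_lit 0) (XT.nd (nat_lit 78) (nat_lit 76) (nat_lit 0) (XT.lf (nat_lit 0) (nat_lit 45647149723) (nat_lit 76) (nat_lit 23872328656) (nat_lit 76) (nat_lit 20350875244) (nat_lit 10) (nat_lit 4) (nat_lit 11) (nat_lit 5) (nat_lit 11) (nat_lit 4) (nat_lit 503) (nat_lit 376) (nat_lit 321)) (XT.nd (nat_lit 78) (nat_lit 76) (nat_lit 0) (XT.lf (nat_lit 0) (nat_lit 70588207255) (nat_lit 76) (nat_lit 13375748853) (nat_lit 76) (nat_lit 9841997641) (nat_lit 10) (nat_lit 4) (nat_lit 11) (nat_lit 5) (nat_lit 11) (nat_lit 4) (nat_lit 504) (nat_lit 376) (nat_lit 320)) (XT.lf (nat_lit 0) (nat_lit 1090602476) (nat_lit 152) (nat_lit 1309728324) (nat_lit 76) (nat_lit 95540250511) (nat_lit 9) (nat_lit 5) (nat_lit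 11) (nat_lit 5) (nat_lit 10) (nat_lit 4) (nat_lit 505) (nat_lit 376) (nat_lit 319)))) (XT.nd (nat_lit 156) (nat_lit 0) (nat_lit 0) (XT.nd (nat_lit 78) (nat_lit 0) (nat_lit 0) (XT.lf (nat_lit 0) (nat_lit 12673637249) (nat_lit 152) (nat_lit 80292125860) (nat_lit 0) (nat_lit 9286382136) (nat_lit 8) (nat_lit 5) (nat_lit 10) (nat_lit 4) (nat_lit 8) (nat_lit 4) (nat_lit 506) (nat_lit 376) (nat_lit 318)) (XT.lf (nat_lit 0) (nat_lit 24837219891) (nat_lit 152) (nat_lit 60502150540) (nat_lit 0) (nat_lit 21439847347) (nat_lit 8) (nat_lit 5) (nat_lit 10) (nat_lit 4) (nat_lit 8) (nat_lit 4) (nat_lit 507) (nat_lit 376) (nat_lit 317))) (XT.nd (nat_lit 78) (nat_lit 0) (nat_lit 0) (XT.lf (nat_lit 0) (nat_lit 37551364465) (nat_lit 152) (nat_lit 39839804258) (nat_lit 0) (nat_lit 34144356274) (nat_lit 8) (nat_lit 5) (nat_lit 10) (nat_lit 4) (nat_lit 8) (nat_lit 4) (nat_lit 508) (nat_lit 376) (nat_lit 316)) (XT.lf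 (nat_lit 0) (nat_lit 50846342745) (nat_lit 152) (nat_lit 18255890950) (nat_lit 0) (nat_lit 47430157746) (nat_lit 8) (nat_lit 5) (nat_lit 10) (nat_lit 4) (nat_lit 8) (nat_lit 4) (nat_lit 509) (nat_lit 376) (nat_lit 315))))) (XT.nd (nat_lit 312) (nat_lit 152) (nat_lit 0) (XT.nd (nat_lit 156) (nat_lit 0) (nat_lit 0) (XT.nd (nat_lit 78) (nat_lit 0) (nat_lit 0) (XT.lf (nat_lit 0) (nat_lit 4443189462) (nat_lit 76) (nat_lit 60379990617) (nat_lit 76) (nat_lit 56955065802) (nat_lit 7) (nat_lit 4) (nat_lit 8) (nat_lit 5) (nat_lit 8) (nat_lit 4) (nat_lit 510) (nat_lit 376) (nat_lit 314)) (XT.lf (nat_lit 0) (nat_lit 28806502357) (nat_lit 76) (nat_lit 50950125441) (nat_lit 76) (nat_lit 47516876990) (nat_lit 7) (nat_lit 4) (nat_lit 8) (nat_lit 5) (nat_lit 8) (nat_lit 4) (nat_lit 511) (nat_lit 376) (nat_lit 313))) (XT.nd (nat_lit 78) (nat_lit 0) (nat_lit 0) (XT.lf (nat_lit 0) (nat_lit 54288433423) (nat_lit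 76) (nat_lit 41099358452) (nat_lit 76) (nat_lit 37658182731) (nat_lit 7) (nat_lit 4) (nat_lit 8) (nat_lit 5) (nat_lit 8) (nat_lit 4) (nat_lit 512) (nat_lit 376) (nat_lit 312)) (XT.lf (nat_lit 0) (nat_lit 80949653923) (nat_lit 76) (nat_lit 30804235445) (nat_lit 76) (nat_lit 27355509941) (nat_lit 7) (nat_lit 4) (nat_lit 8) (nat_lit 5) (nat_lit 8) (nat_lit 4) (nat_lit 513) (nat_lit 376) (nat_lit 311)))) (XT.nd (nat_lit 156) (nat_lit 152) (nat_lit 0) (XT.nd (nat_lit 78) (nat_lit 0) (nat_lit 0) (XT.lf (nat_lit 0) (nat_lit 108853642955) (nat_lit 76) (nat_lit 20040244222) (nat_lit 76) (nat_lit 16584328449) (nat_lit 7) (nat_lit 4) (nat_lit 8) (nat_lit 5) (nat_lit 8) (nat_lit 4) (nat_lit 514) (nat_lit 376) (nat_lit 310)) (XT.lf (nat_lit 0) (nat_lit 138066838586) (nat_lit 76) (nat_lit 8781756232) (nat_lit 76) (nat_lit 5318992584) (nat_lit 7) (nat_lit 4) (nat_lit 8) (nat_lit 5) (nat_lit 8) (nat_lit 4) (nat_lit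 515) (nat_lit 376) (nat_lit 309))) (XT.nd (nat_lit 78) (nat_lit 0) (nat_lit 0) (XT.lf (nat_lit 0) (nat_lit 6462302720) (nat_lit 152) (nat_lit 149557770116) (nat_lit 0) (nat_lit 3158221354) (nat_lit 5) (nat_lit 5) (nat_lit 7) (nat_lit 4) (nat_lit 5) (nat_lit 4) (nat_lit 516) (nat_lit 376) (nat_lit 308)) (XT.lf (nat_lit 0) (nat_lit 18999674519) (nat_lit 152) (nat_lit 131828536150) (nat_lit 0) (nat_lit 15689677702) (nat_lit 5) (nat_lit 5) (nat_lit 7) (nat_lit 4) (nat_lit 5) (nat_lit 4) (nat_lit 517) (nat_lit 376) (nat_lit 307)))))) (XT.nd (nat_lit 624) (nat_lit 0) (nat_lit 0) (XT.nd (nat_lit 312) (nat_lit 76) (nat_lit 0) (XT.nd (nat_lit 156) (nat_lit 0) (nat_lit 0) (XT.nd (nat_lit 78) (nat_lit 0) (nat_lit 0) (XT.lf (nat_lit 0) (nat_lit 32124947037) (nat_lit 152) (nat_lit 113292147278) (nat_lit 0) (nat_lit 28809316456) (nat_lit 5) (nat_lit 5) (nat_lit 7) (nat_lit 4) (nat_lit 5) (nat_lit 4) (nat_lit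 518) (nat_lit 376) (nat_lit 306)) (XT.lf (nat_lit 0) (nat_lit 45869370923) (nat_lit 152) (nat_lit 93904469239) (nat_lit 0) (nat_lit 42548374853) (nat_lit 5) (nat_lit 5) (nat_lit 7) (nat_lit 4) (nat_lit 5) (nat_lit 4) (nat_lit 519) (nat_lit 376) (nat_lit 305))) (XT.nd (nat_lit 78) (nat_lit 0) (nat_lit 0) (XT.lf (nat_lit 0) (nat_lit 60265670996) (nat_lit 152) (nat_lit 73619340897) (nat_lit 0) (nat_lit 56939564936) (nat_lit 5) (nat_lit 5) (nat_lit 7) (nat_lit 4) (nat_lit 5) (nat_lit 4) (nat_lit 520) (nat_lit 376) (nat_lit 304)) (XT.lf (nat_lit 0) (nat_lit 75348124159) (nat_lit 152) (nat_lit 52388464325) (nat_lit 0) (nat_lit 72017151442) (nat_lit 5) (nat_lit 5) (nat_lit 7) (nat_lit 4) (nat_lit 5) (nat_lit 4) (nat_lit 521) (nat_lit 376) (nat_lit 303)))) (XT.nd (nat_lit 156) (nat_lit 76) (nat_lit 0) (XT.nd (nat_lit 78) (nat_lit 0) (nat_lit 0) (XT.lf (nat_lit 0) (nat_lit 91152641017) (nat_lit 152) (nat_lit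 30161289819) (nat_lit 0) (nat_lit 87817033388) (nat_lit 5) (nat_lit 5) (nat_lit 7) (nat_lit 4) (nat_lit 5) (nat_lit 4) (nat_lit 522) (nat_lit 376) (nat_lit 302)) (XT.lf (nat_lit 0) (nat_lit 107716851371) (nat_lit 152) (nat_lit 6884895533) (nat_lit 0) (nat_lit 104376829541) (nat_lit 5) (nat_lit 5) (nat_lit 7) (nat_lit 4) (nat_lit 5) (nat_lit 4) (nat_lit 523) (nat_lit 376) (nat_lit 301))) (XT.nd (nat_lit 78) (nat_lit 0) (nat_lit 0) (XT.lf (nat_lit 0) (nat_lit 18074639871) (nat_lit 76) (nat_lit 107287749728) (nat_lit 76) (nat_lit 103943523897) (nat_lit 4) (nat_lit 4) (nat_lit 5) (nat_lit 5) (nat_lit 5) (nat_lit 4) (nat_lit 524) (nat_lit 376) (nat_lit 300)) (XT.lf (nat_lit 0) (nat_lit 44462954639) (nat_lit 76) (nat_lit 99515246336) (nat_lit 76) (nat_lit 96167016695) (nat_lit 4) (nat_lit 4) (nat_lit 5) (nat_lit 5) (nat_lit 5) (nat_lit 4) (nat_lit 525) (nat_lit 376) (nat_lit 299))))) (XT.nd (nat_lit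 312) (nat_lit 0) (nat_lit 0) (XT.nd (nat_lit 156) (nat_lit 0) (nat_lit 0) (XT.nd (nat_lit 78) (nat_lit 0) (nat_lit 0) (XT.lf (nat_lit 0) (nat_lit 72115232352) (nat_lit 76) (nat_lit 91382329806) (nat_lit 76) (nat_lit 88030287011) (nat_lit 4) (nat_lit 4) (nat_lit 5) (nat_lit 5) (nat_lit 5) (nat_lit 4) (nat_lit 526) (nat_lit 376) (nat_lit 298)) (XT.lf (nat_lit 0) (nat_lit 101097311765) (nat_lit 76) (nat_lit 82869636051) (nat_lit 76) (nat_lit 79513961681) (nat_lit 4) (nat_lit 4) (nat_lit 5) (nat_lit 5) (nat_lit 5) (nat_lit 4) (nat_lit 527) (nat_lit 376) (nat_lit 297))) (XT.nd (nat_lit 78) (nat_lit 0) (nat_lit 0) (XT.lf (nat_lit 0) (nat_lit 131478197831) (nat_lit 76) (nat_lit 73956896751) (nat_lit 76) (nat_lit 70597763740) (nat_lit 4) (nat_lit 4) (nat_lit 5) (nat_lit 5) (nat_lit 5) (nat_lit 4) (nat_lit 528) (nat_lit 376) (nat_lit 296)) (XT.lf (nat_lit 0) (nat_lit 163330225992) (nat_lit 76) (nat_lit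 64622891100) (nat_lit 76) (nat_lit 61260464144) (nat_lit 4) (nat_lit 4) (nat_lit 5) (nat_lit 5) (nat_lit 5) (nat_lit 4) (nat_lit 529) (nat_lit 376) (nat_lit 295)))) (XT.nd (nat_lit 156) (nat_lit 0) (nat_lit 0) (XT.nd (nat_lit 78) (nat_lit 0) (nat_lit 0) (XT.lf (nat_lit 0) (nat_lit 196729234410) (nat_lit 76) (nat_lit 54845395275) (nat_lit 76) (nat_lit 51479831228) (nat_lit 4) (nat_lit 4) (nat_lit 5) (nat_lit 5) (nat_lit 5) (nat_lit 4) (nat_lit 530) (nat_lit 376) (nat_lit 294)) (XT.lf (nat_lit 0) (nat_lit 231754744534) (nat_lit 76) (nat_lit 44601129522) (nat_lit 76) (nat_lit 41232577770) (nat_lit 4) (nat_lit 4) (nat_lit 5) (nat_lit 5) (nat_lit 5) (nat_lit 4) (nat_lit 531) (nat_lit 376) (nat_lit 293))) (XT.nd (nat_lit 78) (nat_lit 0) (nat_lit 0) (XT.lf (nat_lit 0) (nat_lit 268490150436) (nat_lit 76) (nat_lit 33865702734) (nat_lit 76) (nat_lit 30494305549) (nat_lit 4) (nat_lit 4) (nat_lit 5) (nat_lit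 5) (nat_lit 5) (nat_lit 4) (nat_lit 532) (nat_lit 376) (nat_lit 292)) (XT.lf (nat_lit 0) (nat_lit 307022917367) (nat_lit 76) (nat_lit 22613554371) (nat_lit 76) (nat_lit 19239447249) (nat_lit 4) (nat_lit 4) (nat_lit 5) (nat_lit 5) (nat_lit 5) (nat_lit 4) (nat_lit 533) (nat_lit 376) (nat_lit 291))))))) (XT.nd (nat_lit 1170) (nat_lit 0) (nat_lit 0) (XT.nd (nat_lit 546) (nat_lit 0) (nat_lit 0) (XT.nd (nat_lit 234) (nat_lit 0) (nat_lit 0) (XT.nd (nat_lit 78) (nat_lit 152) (nat_lit 0) (XT.lf (nat_lit 0) (nat_lit 347444790012) (nat_lit 76) (nat_lit 10817893603) (nat_lit 76) (nat_lit 7441205589) (nat_lit 4) (nat_lit 4) (nat_lit 5) (nat_lit 5) (nat_lit 5) (nat_lit 4) (nat_lit 534) (nat_lit 376) (nat_lit 290)) (XT.nd (nat_lit 78) (nat_lit 0) (nat_lit 0) (XT.lf (nat_lit 0) (nat_lit 4901151961) (nat_lit 152) (nat_lit 376779699710) (nat_lit 0) (nat_lit 1682917669) (nat_lit 2) (nat_lit 5) (nat_lit 4) (nat_lit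 4) (nat_lit 2) (nat_lit 4) (nat_lit 535) (nat_lit 376) (nat_lit 289)) (XT.lf (nat_lit 0) (nat_lit 18084352704) (nat_lit 152) (nat_lit 368928612606) (nat_lit 0) (nat_lit 14863888940) (nat_lit 2) (nat_lit 5) (nat_lit 4) (nat_lit 4) (nat_lit 2) (nat_lit 4) (nat_lit 536) (nat_lit 376) (nat_lit 288)))) (XT.nd (nat_lit 156) (nat_lit 0) (nat_lit 0) (XT.nd (nat_lit 78) (nat_lit 0) (nat_lit 0) (XT.lf (nat_lit 0) (nat_lit 31909723131) (nat_lit 152) (nat_lit 360719583775) (nat_lit 0) (nat_lit 28687136061) (nat_lit 2) (nat_lit 5) (nat_lit 4) (nat_lit 4) (nat_lit 2) (nat_lit 4) (nat_lit 537) (nat_lit 376) (nat_lit 287)) (XT.lf (nat_lit 0) (nat_lit 46410180790) (nat_lit 152) (nat_lit 352133067910) (nat_lit 0) (nat_lit 43185571524) (nat_lit 2) (nat_lit 5) (nat_lit 4) (nat_lit 4) (nat_lit 2) (nat_lit 4) (nat_lit 538) (nat_lit 376) (nat_lit 286))) (XT.nd (nat_lit 78) (nat_lit 0) (nat_lit 0) (XT.lf (nat_lit 0)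 (nat_lit 61620250582) (nat_lit 152) (nat_lit 343148620927) (nat_lit 0) (nat_lit 58393715414) (nat_lit 2) (nat_lit 5) (nat_lit 4) (nat_lit 4) (nat_lit 2) (nat_lit 4) (nat_lit 539) (nat_lit 376) (nat_lit 285)) (XT.lf (nat_lit 0) (nat_lit 77576146958) (nat_lit 152) (nat_lit 333744851285) (nat_lit 0) (nat_lit 74347777598) (nat_lit 2) (nat_lit 5) (nat_lit 4) (nat_lit 4) (nat_lit 2) (nat_lit 4) (nat_lit 540) (nat_lit 376) (nat_lit 284))))) (XT.nd (nat_lit 312) (nat_lit 0) (nat_lit 0) (XT.nd (nat_lit 156) (nat_lit 0) (nat_lit 0) (XT.nd (nat_lit 78) (nat_lit 0) (nat_lit 0) (XT.lf (nat_lit 0) (nat_lit 94315860146) (nat_lit 152) (nat_lit 323899369056) (nat_lit 0) (nat_lit 91085743937) (nat_lit 2) (nat_lit 5) (nat_lit 4) (nat_lit 4) (nat_lit 2) (nat_lit 4) (nat_lit 541) (nat_lit 376) (nat_lit 283)) (XT.lf (nat_lit 0) (nat_lit 111879246608) (nat_lit 152) (nat_lit 313588732615) (nat_lit 0) (nat_lit 108647466733)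 (nat_lit 2) (nat_lit 5) (nat_lit 4) (nat_lit 4) (nat_lit 2) (nat_lit 4) (nat_lit 542) (nat_lit 376) (nat_lit 282))) (XT.nd (nat_lit 78) (nat_lit 0) (nat_lit 0) (XT.lf (nat_lit 0) (nat_lit 130308123930) (nat_lit 152) (nat_lit 302788392829) (nat_lit 0) (nat_lit 127074759611) (nat_lit 2) (nat_lit 5) (nat_lit 4) (nat_lit 4) (nat_lit 2) (nat_lit 4) (nat_lit 543) (nat_lit 376) (nat_lit 281)) (XT.lf (nat_lit 0) (nat_lit 149646370392) (nat_lit 152) (nat_lit 291472634602) (nat_lit 0) (nat_lit 146411497079) (nat_lit 2) (nat_lit 5) (nat_lit 4) (nat_lit 4) (nat_lit 2) (nat_lit 4) (nat_lit 544) (nat_lit 376) (nat_lit 280)))) (XT.nd (nat_lit 156) (nat_lit 0) (nat_lit 0) (XT.nd (nat_lit 78) (nat_lit 0) (nat_lit 0) (XT.lf (nat_lit 0) (nat_lit 169940029437) (nat_lit 152) (nat_lit 279614515654) (nat_lit 0) (nat_lit 166703718986) (nat_lit 2) (nat_lit 5) (nat_lit 4) (nat_lit 4) (nat_lit 2) (nat_lit 4) (nat_lit 545)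 (nat_lit 376) (nat_lit 279)) (XT.lf (nat_lit 0) (nat_lit 191237419301) (nat_lit 152) (nat_lit 267185802367) (nat_lit 0) (nat_lit 187999740148) (nat_lit 2) (nat_lit 5) (nat_lit 4) (nat_lit 4) (nat_lit 2) (nat_lit 4) (nat_lit 546) (nat_lit 376) (nat_lit 278))) (XT.nd (nat_lit 78) (nat_lit 0) (nat_lit 0) (XT.lf (nat_lit 0) (nat_lit 213589248055) (nat_lit 152) (nat_lit 254156902567) (nat_lit 0) (nat_lit 210350265377) (nat_lit 2) (nat_lit 5) (nat_lit 4) (nat_lit 4) (nat_lit 2) (nat_lit 4) (nat_lit 547) (nat_lit 376) (nat_lit 277)) (XT.lf (nat_lit 0) (nat_lit 237048734340) (nat_lit 152) (nat_lit 240496795065) (nat_lit 0) (nat_lit 233808510208) (nat_lit 2) (nat_lit 5) (nat_lit 4) (nat_lit 4) (nat_lit 2) (nat_lit 4) (nat_lit 548) (nat_lit 376) (nat_lit 276)))))) (XT.nd (nat_lit 54756) (nat_lit 0) (nat_lit 3344) (XT.nd (nat_lit 54444) (nat_lit 0) (nat_lit 4180) (XT.nd (nat_lit 156) (nat_lit 0) (nat_lit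 0) (XT.nd (nat_lit 78) (nat_lit 0) (nat_lit 0) (XT.lf (nat_lit 0) (nat_lit 261671734074) (nat_lit 152) (nat_lit 226172955794) (nat_lit 0) (nat_lit 258430327606) (nat_lit 2) (nat_lit 5) (nat_lit 4) (nat_lit 4) (nat_lit 2) (nat_lit 4) (nat_lit 549) (nat_lit 376) (nat_lit 275)) (XT.lf (nat_lit 0) (nat_lit 287516873448) (nat_lit 152) (nat_lit 211151280375) (nat_lit 0) (nat_lit 284274340946) (nat_lit 2) (nat_lit 5) (nat_lit 4) (nat_lit 4) (nat_lit 2) (nat_lit 4) (nat_lit 550) (nat_lit 376) (nat_lit 274))) (XT.nd (nat_lit 78) (nat_lit 0) (nat_lit 0) (XT.lf (nat_lit 0) (nat_lit 314645688509) (nat_lit 152) (nat_lit 195396002915) (nat_lit 0) (nat_lit 311402083592) (nat_lit 2) (nat_lit 5) (nat_lit 4) (nat_lit 4) (nat_lit 2) (nat_lit 4) (nat_lit 551) (nat_lit 376) (nat_lit 273)) (XT.lf (nat_lit 0) (nat_lit 343122771671) (nat_lit 152) (nat_lit 178869610848) (nat_lit 0) (nat_lit 339878145408) (nat_lit 2)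 (nat_lit 5) (nat_lit 4) (nat_lit 4) (nat_lit 2) (nat_lit 4) (nat_lit 552) (nat_lit 376) (nat_lit 272)))) (XT.nd (nat_lit 156) (nat_lit 152) (nat_lit 0) (XT.nd (nat_lit 78) (nat_lit 152) (nat_lit 0) (XT.lf (nat_lit 0) (nat_lit 726575102) (nat_lit 152) (nat_lit 5030025380) (nat_lit 0) (nat_lit 726575102) (nat_lit 61) (nat_lit 5) (nat_lit 63) (nat_lit 4) (nat_lit 61) (nat_lit 4) (nat_lit 446) (nat_lit 377) (nat_lit 377)) (XT.lf (nat_lit 0) (nat_lit 1699393867) (nat_lit 152) (nat_lit 5998639847) (nat_lit 152) (nat_lit 5586108506) (nat_lit 59) (nat_lit 4) (nat_lit 61) (nat_lit 5) (nat_lit 61) (nat_lit 4) (nat_lit 447) (nat_lit 377) (nat_lit 376))) (XT.nd (nat_lit 78) (nat_lit 0) (nat_lit 0) (XT.lf (nat_lit 0) (nat_lit 381927706) (nat_lit 76) (nat_lit 197265483) (nat_lit 152) (nat_lit 13040027148) (nat_lit 57) (nat_lit 5) (nat_lit 58) (nat_lit 5) (nat_lit 59) (nat_lit 4) (nat_lit 448) (nat_lit 377)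 (nat_lit 375)) (XT.lf (nat_lit 0) (nat_lit 6940817528) (nat_lit 152) (nat_lit 1204481662) (nat_lit 0) (nat_lit 5817392368) (nat_lit 57) (nat_lit 5) (nat_lit 59) (nat_lit 4) (nat_lit 57) (nat_lit 4) (nat_lit 449) (nat_lit 377) (nat_lit 374))))) (XT.nd (nat_lit 312) (nat_lit 304) (nat_lit 0) (XT.nd (nat_lit 156) (nat_lit 228) (nat_lit 0) (XT.nd (nat_lit 78) (nat_lit 152) (nat_lit 0) (XT.lf (nat_lit 0) (nat_lit 11405540344) (nat_lit 152) (nat_lit 2190911146) (nat_lit 152) (nat_lit 728095431) (nat_lit 55) (nat_lit 4) (nat_lit 57) (nat_lit 5) (nat_lit 57) (nat_lit 4) (nat_lit 450) (nat_lit 377) (nat_lit 373)) (XT.lf (nat_lit 0) (nat_lit 5726293176) (nat_lit 152) (nat_lit 4946613170) (nat_lit 0) (nat_lit 4025298114) (nat_lit 53) (nat_lit 5) (nat_lit 55) (nat_lit 4) (nat_lit 53) (nat_lit 4) (nat_lit 451) (nat_lit 377) (nat_lit 372))) (XT.nd (nat_lit 78) (nat_lit 152) (nat_lit 0) (XT.lf (nat_lit 0) (nat_lit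 7884879956) (nat_lit 76) (nat_lit 4599487890) (nat_lit 76) (nat_lit 2605314507) (nat_lit 52) (nat_lit 4) (nat_lit 53) (nat_lit 5) (nat_lit 53) (nat_lit 4) (nat_lit 452) (nat_lit 377) (nat_lit 371)) (XT.lf (nat_lit 0) (nat_lit 3949595924) (nat_lit 152) (nat_lit 9763469351) (nat_lit 0) (nat_lit 1784461797) (nat_lit 50) (nat_lit 5) (nat_lit 52) (nat_lit 4) (nat_lit 50) (nat_lit 4) (nat_lit 453) (nat_lit 377) (nat_lit 370)))) (XT.nd (nat_lit 156) (nat_lit 76) (nat_lit 0) (XT.nd (nat_lit 78) (nat_lit 152) (nat_lit 0) (XT.lf (nat_lit 0) (nat_lit 3244915842) (nat_lit 76) (nat_lit 7547365613) (nat_lit 76) (nat_lit 5128973029) (nat_lit 49) (nat_lit 4) (nat_lit 50) (nat_lit 5) (nat_lit 50) (nat_lit 4) (nat_lit 454) (nat_lit 377) (nat_lit 369)) (XT.lf (nat_lit 0) (nat_lit 482803831) (nat_lit 76) (nat_lit 1050071751) (nat_lit 152) (nat_lit 14833364737) (nat_lit 47) (nat_lit 5) (nat_lit 48) (nat_lit 5) (nat_lit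 49) (nat_lit 4) (nat_lit 455) (nat_lit 377) (nat_lit 368))) (XT.nd (nat_lit 78) (nat_lit 76) (nat_lit 0) (XT.lf (nat_lit 0) (nat_lit 8462425694) (nat_lit 152) (nat_lit 2650793783) (nat_lit 0) (nat_lit 5710707597) (nat_lit 47) (nat_lit 5) (nat_lit 49) (nat_lit 4) (nat_lit 47) (nat_lit 4) (nat_lit 456) (nat_lit 377) (nat_lit 367)) (XT.lf (nat_lit 0) (nat_lit 11213423199) (nat_lit 76) (nat_lit 4525563525) (nat_lit 76) (nat_lit 1565489068) (nat_lit 46) (nat_lit 4) (nat_lit 47) (nat_lit 5) (nat_lit 47) (nat_lit 4) (nat_lit 457) (nat_lit 377) (nat_lit 366))))))))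
noncomputable def xc46 : XT := (XT.nd (nat_lit 2418) (nat_lit 912) (nat_lit 0) (XT.nd (nat_lit 1170) (nat_lit 912) (nat_lit 0) (XT.nd (nat_lit 546) (nat_lit 684) (nat_lit 0) (XT.nd (nat_lit 234) (nat_lit 304) (nat_lit 0) (XT.nd (nat_lit 78) (nat_lit 152) (nat_lit 0) (XT.lf (nat_lit 0) (nat_lit 5407462813) (nat_lit 152) (nat_lit 9997114486) (nat_lit 0) (nat_lit 2399358923) (nat_lit 44) (nat_lit 5) (nat_lit 46) (nat_lit 4) (nat_lit 44) (nat_lit 4) (nat_lit 458) (nat_lit 377) (nat_lit 365)) (XT.nd (nat_lit 78) (nat_lit 76) (nat_lit 0) (XT.lf (nat_lit 0) (nat_lit 3939691558) (nat_lit 76) (nat_lit 8786500774) (nat_lit 76) (nat_lit 5598410826) (nat_lit 43) (nat_lit 4) (nat_lit 44) (nat_lit 5) (nat_lit 44) (nat_lit 4) (nat_lit 459) (nat_lit 377) (nat_lit 364)) (XT.lf (nat_lit 0) (nat_lit 1471841108) (nat_lit 152) (nat_lit 342230968) (nat_lit 76) (nat_lit 17056954815) (nat_lit 42) (nat_lit 5) (nat_lit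 44) (nat_lit 5) (nat_lit 43) (nat_lit 4) (nat_lit 460) (nat_lit 377) (nat_lit 363)))) (XT.nd (nat_lit 156) (nat_lit 152) (nat_lit 0) (XT.nd (nat_lit 78) (nat_lit 76) (nat_lit 0) (XT.lf (nat_lit 0) (nat_lit 8839565304) (nat_lit 152) (nat_lit 5109457923) (nat_lit 0) (nat_lit 5484557780) (nat_lit 41) (nat_lit 5) (nat_lit 43) (nat_lit 4) (nat_lit 41) (nat_lit 4) (nat_lit 461) (nat_lit 377) (nat_lit 362)) (XT.lf (nat_lit 0) (nat_lit 9634485990) (nat_lit 76) (nat_lit 6946303354) (nat_lit 76) (nat_lit 3443220855) (nat_lit 40) (nat_lit 4) (nat_lit 41) (nat_lit 5) (nat_lit 41) (nat_lit 4) (nat_lit 462) (nat_lit 377) (nat_lit 361))) (XT.nd (nat_lit 78) (nat_lit 0) (nat_lit 0) (XT.lf (nat_lit 0) (nat_lit 3917729451) (nat_lit 152) (nat_lit 16276772507) (nat_lit 0) (nat_lit 447152037) (nat_lit 38) (nat_lit 5) (nat_lit 40) (nat_lit 4) (nat_lit 38) (nat_lit 4) (nat_lit 463) (nat_lit 377) (nat_lit 360)) (XT.lf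 (nat_lit 0) (nat_lit 11643459653) (nat_lit 152) (nat_lit 1593308785) (nat_lit 0) (nat_lit 8044969508) (nat_lit 38) (nat_lit 5) (nat_lit 40) (nat_lit 4) (nat_lit 38) (nat_lit 4) (nat_lit 464) (nat_lit 377) (nat_lit 359))))) (XT.nd (nat_lit 312) (nat_lit 380) (nat_lit 0) (XT.nd (nat_lit 156) (nat_lit 76) (nat_lit 0) (XT.nd (nat_lit 78) (nat_lit 152) (nat_lit 0) (XT.lf (nat_lit 0) (nat_lit 13930741560) (nat_lit 76) (nat_lit 5870553942) (nat_lit 76) (nat_lit 2150242149) (nat_lit 37) (nat_lit 4) (nat_lit 38) (nat_lit 5) (nat_lit 38) (nat_lit 4) (nat_lit 465) (nat_lit 377) (nat_lit 358)) (XT.lf (nat_lit 0) (nat_lit 5531788366) (nat_lit 152) (nat_lit 15240322708) (nat_lit 0) (nat_lit 1878138451) (nat_lit 35) (nat_lit 5) (nat_lit 37) (nat_lit 4) (nat_lit 35) (nat_lit 4) (nat_lit 466) (nat_lit 377) (nat_lit 357))) (XT.nd (nat_lit 78) (nat_lit 0) (nat_lit 0) (XT.lf (nat_lit 0) (nat_lit 41126404) (nat_lit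 76) (nat_lit 13548351653) (nat_lit 76) (nat_lit 9789467619) (nat_lit 34) (nat_lit 4) (nat_lit 35) (nat_lit 5) (nat_lit 35) (nat_lit 4) (nat_lit 467) (nat_lit 377) (nat_lit 356)) (XT.lf (nat_lit 0) (nat_lit 16281222516) (nat_lit 76) (nat_lit 5858733989) (nat_lit 76) (nat_lit 1999626983) (nat_lit 34) (nat_lit 4) (nat_lit 35) (nat_lit 5) (nat_lit 35) (nat_lit 4) (nat_lit 468) (nat_lit 377) (nat_lit 355)))) (XT.nd (nat_lit 156) (nat_lit 228) (nat_lit 0) (XT.nd (nat_lit 78) (nat_lit 0) (nat_lit 0) (XT.lf (nat_lit 0) (nat_lit 5983484487) (nat_lit 152) (nat_lit 16732628761) (nat_lit 0) (nat_lit 2217239291) (nat_lit 32) (nat_lit 5) (nat_lit 34) (nat_lit 4) (nat_lit 32) (nat_lit 4) (nat_lit 469) (nat_lit 377) (nat_lit 354)) (XT.lf (nat_lit 0) (nat_lit 14367344380) (nat_lit 152) (nat_lit 879865927) (nat_lit 0) (nat_lit 10514522813) (nat_lit 32) (nat_lit 5) (nat_lit 34) (nat_lit 4) (nat_lit 32) (nat_lit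 4) (nat_lit 470) (nat_lit 377) (nat_lit 353))) (XT.nd (nat_lit 78) (nat_lit 152) (nat_lit 0) (XT.lf (nat_lit 0) (nat_lit 15967755180) (nat_lit 76) (nat_lit 7297164198) (nat_lit 76) (nat_lit 3361888945) (nat_lit 31) (nat_lit 4) (nat_lit 32) (nat_lit 5) (nat_lit 32) (nat_lit 4) (nat_lit 471) (nat_lit 377) (nat_lit 352)) (XT.lf (nat_lit 0) (nat_lit 4880441606) (nat_lit 152) (nat_lit 21594437694) (nat_lit 0) (nat_lit 1057772488) (nat_lit 29) (nat_lit 5) (nat_lit 31) (nat_lit 4) (nat_lit 29) (nat_lit 4) (nat_lit 472) (nat_lit 377) (nat_lit 351)))))) (XT.nd (nat_lit 624) (nat_lit 456) (nat_lit 0) (XT.nd (nat_lit 312) (nat_lit 228) (nat_lit 0) (XT.nd (nat_lit 156) (nat_lit 152) (nat_lit 0) (XT.nd (nat_lit 78) (nat_lit 76) (nat_lit 0) (XT.lf (nat_lit 0) (nat_lit 13570604734) (nat_lit 152) (nat_lit 5226284619) (nat_lit 0) (nat_lit 9676709021) (nat_lit 29) (nat_lit 5) (nat_lit 31) (nat_lit 4) (nat_lit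 29) (nat_lit 4) (nat_lit 473) (nat_lit 377) (nat_lit 350)) (XT.lf (nat_lit 0) (nat_lit 12051496307) (nat_lit 76) (nat_lit 10684886306) (nat_lit 76) (nat_lit 6723155741) (nat_lit 28) (nat_lit 4) (nat_lit 29) (nat_lit 5) (nat_lit 29) (nat_lit 4) (nat_lit 474) (nat_lit 377) (nat_lit 349))) (XT.nd (nat_lit 78) (nat_lit 76) (nat_lit 0) (XT.lf (nat_lit 0) (nat_lit 1748977677) (nat_lit 152) (nat_lit 440930946) (nat_lit 76) (nat_lit 28306260719) (nat_lit 27) (nat_lit 5) (nat_lit 29) (nat_lit 5) (nat_lit 28) (nat_lit 4) (nat_lit 475) (nat_lit 377) (nat_lit 348)) (XT.lf (nat_lit 0) (nat_lit 10661933484) (nat_lit 152) (nat_lit 14136300680) (nat_lit 0) (nat_lit 6768730249) (nat_lit 26) (nat_lit 5) (nat_lit 28) (nat_lit 4) (nat_lit 26) (nat_lit 4) (nat_lit 476) (nat_lit 377) (nat_lit 347)))) (XT.nd (nat_lit 156) (nat_lit 152) (nat_lit 0) (XT.nd (nat_lit 78) (nat_lit 0) (nat_lit 0) (XT.lf (nat_lit 0) (nat_lit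 3309340403) (nat_lit 76) (nat_lit 16666600466) (nat_lit 76) (nat_lit 12717589330) (nat_lit 25) (nat_lit 4) (nat_lit 26) (nat_lit 5) (nat_lit 26) (nat_lit 4) (nat_lit 477) (nat_lit 377) (nat_lit 346)) (XT.lf (nat_lit 0) (nat_lit 21841795636) (nat_lit 76) (nat_lit 8015845805) (nat_lit 76) (nat_lit 4013684287) (nat_lit 25) (nat_lit 4) (nat_lit 26) (nat_lit 5) (nat_lit 26) (nat_lit 4) (nat_lit 478) (nat_lit 377) (nat_lit 345))) (XT.nd (nat_lit 78) (nat_lit 0) (nat_lit 0) (XT.lf (nat_lit 0) (nat_lit 4940058924) (nat_lit 152) (nat_lit 29084750023) (nat_lit 0) (nat_lit 1080267564) (nat_lit 23) (nat_lit 5) (nat_lit 25) (nat_lit 4) (nat_lit 23) (nat_lit 4) (nat_lit 479) (nat_lit 377) (nat_lit 344)) (XT.lf (nat_lit 0) (nat_lit 14412219100) (nat_lit 152) (nat_lit 11468211539) (nat_lit 0) (nat_lit 10506514442) (nat_lit 23) (nat_lit 5) (nat_lit 25) (nat_lit 4) (nat_lit 23) (nat_lit 4) (nat_lit 480) (nat_lit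 377) (nat_lit 343))))) (XT.nd (nat_lit 312) (nat_lit 228) (nat_lit 0) (XT.nd (nat_lit 156) (nat_lit 152) (nat_lit 0) (XT.nd (nat_lit 78) (nat_lit 0) (nat_lit 0) (XT.lf (nat_lit 0) (nat_lit 6998234562) (nat_lit 76) (nat_lit 17342484225) (nat_lit 76) (nat_lit 13393052617) (nat_lit 22) (nat_lit 4) (nat_lit 23) (nat_lit 5) (nat_lit 23) (nat_lit 4) (nat_lit 481) (nat_lit 377) (nat_lit 342)) (XT.lf (nat_lit 0) (nat_lit 26535358257) (nat_lit 76) (nat_lit 8300084014) (nat_lit 76) (nat_lit 4309007691) (nat_lit 22) (nat_lit 4) (nat_lit 23) (nat_lit 5) (nat_lit 23) (nat_lit 4) (nat_lit 482) (nat_lit 377) (nat_lit 341))) (XT.nd (nat_lit 78) (nat_lit 0) (nat_lit 0) (XT.lf (nat_lit 0) (nat_lit 5059494512) (nat_lit 152) (nat_lit 34341508935) (nat_lit 0) (nat_lit 1220696458) (nat_lit 20) (nat_lit 5) (nat_lit 22) (nat_lit 4) (nat_lit 20) (nat_lit 4) (nat_lit 483) (nat_lit 377) (nat_lit 340)) (XT.lf (nat_lit 0)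 (nat_lit 14984404079) (nat_lit 152) (nat_lit 16063605622) (nat_lit 0) (nat_lit 11109631755) (nat_lit 20) (nat_lit 5) (nat_lit 22) (nat_lit 4) (nat_lit 20) (nat_lit 4) (nat_lit 484) (nat_lit 377) (nat_lit 339)))) (XT.nd (nat_lit 156) (nat_lit 152) (nat_lit 0) (XT.nd (nat_lit 78) (nat_lit 0) (nat_lit 0) (XT.lf (nat_lit 0) (nat_lit 2992583543) (nat_lit 76) (nat_lit 22345111981) (nat_lit 76) (nat_lit 18436078447) (nat_lit 19) (nat_lit 4) (nat_lit 20) (nat_lit 5) (nat_lit 20) (nat_lit 4) (nat_lit 485) (nat_lit 377) (nat_lit 338)) (XT.lf (nat_lit 0) (nat_lit 23331615714) (nat_lit 76) (nat_lit 13036396644) (nat_lit 76) (nat_lit 9094733386) (nat_lit 19) (nat_lit 4) (nat_lit 20) (nat_lit 5) (nat_lit 20) (nat_lit 4) (nat_lit 486) (nat_lit 377) (nat_lit 337))) (XT.nd (nat_lit 78) (nat_lit 76) (nat_lit 0) (XT.lf (nat_lit 0) (nat_lit 581758603) (nat_lit 152) (nat_lit 2780134048) (nat_lit 76) (nat_lit 43879170845)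 (nat_lit 18) (nat_lit 5) (nat_lit 20) (nat_lit 5) (nat_lit 19) (nat_lit 4) (nat_lit 487) (nat_lit 377) (nat_lit 336)) (XT.lf (nat_lit 0) (nat_lit 10721076270) (nat_lit 152) (nat_lit 31456206200) (nat_lit 0) (nat_lit 6909328359) (nat_lit 17) (nat_lit 5) (nat_lit 19) (nat_lit 4) (nat_lit 17) (nat_lit 4) (nat_lit 488) (nat_lit 377) (nat_lit 335))))))) (XT.nd (nat_lit 1170) (nat_lit 380) (nat_lit 0) (XT.nd (nat_lit 546) (nat_lit 304) (nat_lit 0) (XT.nd (nat_lit 234) (nat_lit 152) (nat_lit 0) (XT.nd (nat_lit 78) (nat_lit 76) (nat_lit 0) (XT.lf (nat_lit 0) (nat_lit 21366536107) (nat_lit 152) (nat_lit 12129997520) (nat_lit 0) (nat_lit 17527943642) (nat_lit 17) (nat_lit 5) (nat_lit 19) (nat_lit 4) (nat_lit 17) (nat_lit 4) (nat_lit 489) (nat_lit 377) (nat_lit 334)) (XT.nd (nat_lit 78) (nat_lit 0) (nat_lit 0) (XT.lf (nat_lit 0) (nat_lit 8225777354) (nat_lit 76) (nat_lit 24348069996) (nat_lit 76) (nat_lit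 20483911288) (nat_lit 16) (nat_lit 4) (nat_lit 17) (nat_lit 5) (nat_lit 17) (nat_lit 4) (nat_lit 490) (nat_lit 377) (nat_lit 333)) (XT.lf (nat_lit 0) (nat_lit 29823672748) (nat_lit 76) (nat_lit 14626064346) (nat_lit 76) (nat_lit 10737556836) (nat_lit 16) (nat_lit 4) (nat_lit 17) (nat_lit 5) (nat_lit 17) (nat_lit 4) (nat_lit 491) (nat_lit 377) (nat_lit 332)))) (XT.nd (nat_lit 156) (nat_lit 0) (nat_lit 0) (XT.nd (nat_lit 78) (nat_lit 152) (nat_lit 0) (XT.lf (nat_lit 0) (nat_lit 52314039723) (nat_lit 76) (nat_lit 4512796423) (nat_lit 76) (nat_lit 601099578) (nat_lit 16) (nat_lit 4) (nat_lit 17) (nat_lit 5) (nat_lit 17) (nat_lit 4) (nat_lit 492) (nat_lit 377) (nat_lit 331)) (XT.lf (nat_lit 0) (nat_lit 9986797432) (nat_lit 152) (nat_lit 43532333357) (nat_lit 0) (nat_lit 6240338454) (nat_lit 14) (nat_lit 5) (nat_lit 16) (nat_lit 4) (nat_lit 14) (nat_lit 4) (nat_lit 493) (nat_lit 377) (nat_lit 330)))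 (XT.nd (nat_lit 78) (nat_lit 0) (nat_lit 0) (XT.lf (nat_lit 0) (nat_lit 21156341441) (nat_lit 152) (nat_lit 23657272412) (nat_lit 0) (nat_lit 17389850643) (nat_lit 14) (nat_lit 5) (nat_lit 16) (nat_lit 4) (nat_lit 14) (nat_lit 4) (nat_lit 494) (nat_lit 377) (nat_lit 329)) (XT.lf (nat_lit 0) (nat_lit 32799073780) (nat_lit 152) (nat_lit 2961345508) (nat_lit 0) (nat_lit 29013505059) (nat_lit 14) (nat_lit 5) (nat_lit 16) (nat_lit 4) (nat_lit 14) (nat_lit 4) (nat_lit 495) (nat_lit 377) (nat_lit 328))))) (XT.nd (nat_lit 312) (nat_lit 76) (nat_lit 0) (XT.nd (nat_lit 156) (nat_lit 152) (nat_lit 0) (XT.nd (nat_lit 78) (nat_lit 0) (nat_lit 0) (XT.lf (nat_lit 0) (nat_lit 19219879545) (nat_lit 76) (nat_lit 26022911879) (nat_lit 76) (nat_lit 22219173707) (nat_lit 13) (nat_lit 4) (nat_lit 14) (nat_lit 5) (nat_lit 14) (nat_lit 4) (nat_lit 496) (nat_lit 377) (nat_lit 327)) (XT.lf (nat_lit 0) (nat_lit 42450978426)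 (nat_lit 76) (nat_lit 15827979573) (nat_lit 76) (nat_lit 12006937161) (nat_lit 13) (nat_lit 4) (nat_lit 14) (nat_lit 5) (nat_lit 14) (nat_lit 4) (nat_lit 497) (nat_lit 377) (nat_lit 326))) (XT.nd (nat_lit 78) (nat_lit 152) (nat_lit 0) (XT.lf (nat_lit 0) (nat_lit 66689347817) (nat_lit 76) (nat_lit 5201500539) (nat_lit 76) (nat_lit 1363977900) (nat_lit 13) (nat_lit 4) (nat_lit 14) (nat_lit 5) (nat_lit 14) (nat_lit 4) (nat_lit 498) (nat_lit 377) (nat_lit 325)) (XT.lf (nat_lit 0) (nat_lit 9771308305) (nat_lit 152) (nat_lit 60477950343) (nat_lit 0) (nat_lit 6101576786) (nat_lit 11) (nat_lit 5) (nat_lit 13) (nat_lit 4) (nat_lit 11) (nat_lit 4) (nat_lit 499) (nat_lit 377) (nat_lit 324)))) (XT.nd (nat_lit 156) (nat_lit 76) (nat_lit 0) (XT.nd (nat_lit 78) (nat_lit 0) (nat_lit 0) (XT.lf (nat_lit 0) (nat_lit 21542202415) (nat_lit 152) (nat_lit 40193856170) (nat_lit 0) (nat_lit 17858234657) (nat_lit 11)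 (nat_lit 5) (nat_lit 13) (nat_lit 4) (nat_lit 11) (nat_lit 4) (nat_lit 500) (nat_lit 377) (nat_lit 323)) (XT.lf (nat_lit 0) (nat_lit 33831545385) (nat_lit 152) (nat_lit 19037864324) (nat_lit 0) (nat_lit 30134019302) (nat_lit 11) (nat_lit 5) (nat_lit 13) (nat_lit 4) (nat_lit 11) (nat_lit 4) (nat_lit 501) (nat_lit 377) (nat_lit 322))) (XT.nd (nat_lit 78) (nat_lit 0) (nat_lit 0) (XT.lf (nat_lit 0) (nat_lit 3140925846) (nat_lit 76) (nat_lit 43576710363) (nat_lit 76) (nat_lit 39866271591) (nat_lit 10) (nat_lit 4) (nat_lit 11) (nat_lit 5) (nat_lit 11) (nat_lit 4) (nat_lit 502) (nat_lit 377) (nat_lit 321)) (XT.lf (nat_lit 0) (nat_lit 26956262652) (nat_lit 76) (nat_lit 33548523487) (nat_lit 76) (nat_lit 29825786915) (nat_lit 10) (nat_lit 4) (nat_lit 11) (nat_lit 5) (nat_lit 11) (nat_lit 4) (nat_lit 503) (nat_lit 377) (nat_lit 320)))))) (XT.nd (nat_lit 624) (nat_lit 152) (nat_lit 0) (XT.nd (nat_lit 312)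 (nat_lit 76) (nat_lit 0) (XT.nd (nat_lit 156) (nat_lit 152) (nat_lit 0) (XT.nd (nat_lit 78) (nat_lit 0) (nat_lit 0) (XT.lf (nat_lit 0) (nat_lit 51835371503) (nat_lit 76) (nat_lit 23083387890) (nat_lit 76) (nat_lit 19348939127) (nat_lit 10) (nat_lit 4) (nat_lit 11) (nat_lit 5) (nat_lit 11) (nat_lit 4) (nat_lit 504) (nat_lit 377) (nat_lit 319)) (XT.lf (nat_lit 0) (nat_lit 77837488373) (nat_lit 76) (nat_lit 12156386582) (nat_lit 76) (nat_lit 8410783353) (nat_lit 10) (nat_lit 4) (nat_lit 11) (nat_lit 5) (nat_lit 11) (nat_lit 4) (nat_lit 505) (nat_lit 377) (nat_lit 318))) (XT.nd (nat_lit 78) (nat_lit 0) (nat_lit 0) (XT.lf (nat_lit 0) (nat_lit 2299759111) (nat_lit 76) (nat_lit 654380226) (nat_lit 152) (nat_lit 99793014285) (nat_lit 8) (nat_lit 5) (nat_lit 9) (nat_lit 5) (nat_lit 10) (nat_lit 4) (nat_lit 506) (nat_lit 377) (nat_lit 317)) (XT.lf (nat_lit 0) (nat_lit 15079399319) (nat_lit 152) (nat_lit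 80704337996) (nat_lit 0) (nat_lit 11492405070) (nat_lit 8) (nat_lit 5) (nat_lit 10) (nat_lit 4) (nat_lit 8) (nat_lit 4) (nat_lit 507) (nat_lit 377) (nat_lit 316)))) (XT.nd (nat_lit 156) (nat_lit 76) (nat_lit 0) (XT.nd (nat_lit 78) (nat_lit 0) (nat_lit 0) (XT.lf (nat_lit 0) (nat_lit 27766776321) (nat_lit 152) (nat_lit 60096406489) (nat_lit 0) (nat_lit 24170605264) (nat_lit 8) (nat_lit 5) (nat_lit 10) (nat_lit 4) (nat_lit 8) (nat_lit 4) (nat_lit 508) (nat_lit 377) (nat_lit 315)) (XT.lf (nat_lit 0) (nat_lit 41036261674) (nat_lit 152) (nat_lit 38564316778) (nat_lit 0) (nat_lit 37431350801) (nat_lit 8) (nat_lit 5) (nat_lit 10) (nat_lit 4) (nat_lit 8) (nat_lit 4) (nat_lit 509) (nat_lit 377) (nat_lit 314))) (XT.nd (nat_lit 78) (nat_lit 76) (nat_lit 0) (XT.lf (nat_lit 0) (nat_lit 54919449392) (nat_lit 152) (nat_lit 16056801981) (nat_lit 0) (nat_lit 51306214884) (nat_lit 8) (nat_lit 5) (nat_lit 10) (nat_lit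 4) (nat_lit 8) (nat_lit 4) (nat_lit 510) (nat_lit 377) (nat_lit 313)) (XT.lf (nat_lit 0) (nat_lit 7727040782) (nat_lit 76) (nat_lit 61842994663) (nat_lit 76) (nat_lit 58221832883) (nat_lit 7) (nat_lit 4) (nat_lit 8) (nat_lit 5) (nat_lit 8) (nat_lit 4) (nat_lit 511) (nat_lit 377) (nat_lit 312))))) (XT.nd (nat_lit 312) (nat_lit 152) (nat_lit 0) (XT.nd (nat_lit 156) (nat_lit 0) (nat_lit 0) (XT.nd (nat_lit 78) (nat_lit 0) (nat_lit 0) (XT.lf (nat_lit 0) (nat_lit 33162724473) (nat_lit 76) (nat_lit 52015731250) (nat_lit 76) (nat_lit 48387019689) (nat_lit 7) (nat_lit 4) (nat_lit 8) (nat_lit 5) (nat_lit 8) (nat_lit 4) (nat_lit 512) (nat_lit 377) (nat_lit 311)) (XT.lf (nat_lit 0) (nat_lit 59779899854) (nat_lit 76) (nat_lit 41742992601) (nat_lit 76) (nat_lit 38107090771) (nat_lit 7) (nat_lit 4) (nat_lit 8) (nat_lit 5) (nat_lit 8) (nat_lit 4) (nat_lit 513) (nat_lit 377) (nat_lit 310))) (XT.nd (nat_lit 78)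 (nat_lit 0) (nat_lit 0) (XT.lf (nat_lit 0) (nat_lit 87641941153) (nat_lit 76) (nat_lit 31000319814) (nat_lit 76) (nat_lit 27357570109) (nat_lit 7) (nat_lit 4) (nat_lit 8) (nat_lit 5) (nat_lit 8) (nat_lit 4) (nat_lit 514) (nat_lit 377) (nat_lit 309)) (XT.lf (nat_lit 0) (nat_lit 116815186562) (nat_lit 76) (nat_lit 19762135096) (nat_lit 76) (nat_lit 16112863605) (nat_lit 7) (nat_lit 4) (nat_lit 8) (nat_lit 5) (nat_lit 8) (nat_lit 4) (nat_lit 515) (nat_lit 377) (nat_lit 308)))) (XT.nd (nat_lit 156) (nat_lit 0) (nat_lit 0) (XT.nd (nat_lit 78) (nat_lit 152) (nat_lit 0) (XT.lf (nat_lit 0) (nat_lit 147369096191) (nat_lit 76) (nat_lit 8001680865) (nat_lit 76) (nat_lit 4346198150) (nat_lit 7) (nat_lit 4) (nat_lit 8) (nat_lit 5) (nat_lit 8) (nat_lit 4) (nat_lit 516) (nat_lit 377) (nat_lit 307)) (XT.lf (nat_lit 0) (nat_lit 7983917505) (nat_lit 152) (nat_lit 154596491206) (nat_lit 0) (nat_lit 4496871631)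 (nat_lit 5) (nat_lit 5) (nat_lit 7) (nat_lit 4) (nat_lit 5) (nat_lit 4) (nat_lit 517) (nat_lit 377) (nat_lit 306))) (XT.nd (nat_lit 78) (nat_lit 0) (nat_lit 0) (XT.lf (nat_lit 0) (nat_lit 21091086483) (nat_lit 152) (nat_lit 136096946372) (nat_lit 0) (nat_lit 17598675120) (nat_lit 5) (nat_lit 5) (nat_lit 7) (nat_lit 4) (nat_lit 5) (nat_lit 4) (nat_lit 518) (nat_lit 377) (nat_lit 305)) (XT.lf (nat_lit 0) (nat_lit 34818268902) (nat_lit 152) (nat_lit 116744357893) (nat_lit 0) (nat_lit 31320747549) (nat_lit 5) (nat_lit 5) (nat_lit 7) (nat_lit 4) (nat_lit 5) (nat_lit 4) (nat_lit 519) (nat_lit 377) (nat_lit 304))))))))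
noncomputable def xc47 : XT := (XT.nd (nat_lit 2418) (nat_lit 0) (nat_lit 0) (XT.nd (nat_lit 1170) (nat_lit 152) (nat_lit 0) (XT.nd (nat_lit 546) (nat_lit 0) (nat_lit 0) (XT.nd (nat_lit 234) (nat_lit 76) (nat_lit 0) (XT.nd (nat_lit 78) (nat_lit 0) (nat_lit 0) (XT.lf (nat_lit 0) (nat_lit 49198148529) (nat_lit 152) (nat_lit 96492648179) (nat_lit 0) (nat_lit 45695760519) (nat_lit 5) (nat_lit 5) (nat_lit 7) (nat_lit 4) (nat_lit 5) (nat_lit 4) (nat_lit 520) (nat_lit 377) (nat_lit 303)) (XT.nd (nat_lit 78) (nat_lit 0) (nat_lit 0) (XT.lf (nat_lit 0) (nat_lit 64264963173) (nat_lit 152) (nat_lit 75293598873) (nat_lit 0) (nat_lit 60757940252) (nat_lit 5) (nat_lit 5) (nat_lit 7) (nat_lit 4) (nat_lit 5) (nat_lit 4) (nat_lit 521) (nat_lit 377) (nat_lit 302)) (XT.lf (nat_lit 0) (nat_lit 80054586203) (nat_lit 152) (nat_lit 53096736047) (nat_lit 0) (nat_lit 76543149081) (nat_lit 5) (nat_lit 5) (nat_lit 7) (nat_lit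 4) (nat_lit 5) (nat_lit 4) (nat_lit 522) (nat_lit 377) (nat_lit 301)))) (XT.nd (nat_lit 156) (nat_lit 76) (nat_lit 0) (XT.nd (nat_lit 78) (nat_lit 0) (nat_lit 0) (XT.lf (nat_lit 0) (nat_lit 96604611959) (nat_lit 152) (nat_lit 29849210030) (nat_lit 0) (nat_lit 93088970835) (nat_lit 5) (nat_lit 5) (nat_lit 7) (nat_lit 4) (nat_lit 5) (nat_lit 4) (nat_lit 523) (nat_lit 377) (nat_lit 300)) (XT.lf (nat_lit 0) (nat_lit 113954445264) (nat_lit 152) (nat_lit 5495669567) (nat_lit 0) (nat_lit 110434800330) (nat_lit 5) (nat_lit 5) (nat_lit 7) (nat_lit 4) (nat_lit 5) (nat_lit 4) (nat_lit 524) (nat_lit 377) (nat_lit 299))) (XT.nd (nat_lit 78) (nat_lit 0) (nat_lit 0) (XT.lf (nat_lit 0) (nat_lit 20683883402) (nat_lit 76) (nat_lit 111784445230) (nat_lit 76) (nat_lit 108260987142) (nat_lit 4) (nat_lit 4) (nat_lit 5) (nat_lit 5) (nat_lit 5) (nat_lit 4) (nat_lit 525) (nat_lit 377) (nat_lit 298)) (XT.lf (nat_lit 0)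 (nat_lit 48310399073) (nat_lit 76) (nat_lit 103664635335) (nat_lit 76) (nat_lit 100137545673) (nat_lit 4) (nat_lit 4) (nat_lit 5) (nat_lit 5) (nat_lit 5) (nat_lit 4) (nat_lit 526) (nat_lit 377) (nat_lit 297))))) (XT.nd (nat_lit 312) (nat_lit 0) (nat_lit 0) (XT.nd (nat_lit 156) (nat_lit 0) (nat_lit 0) (XT.nd (nat_lit 78) (nat_lit 0) (nat_lit 0) (XT.lf (nat_lit 0) (nat_lit 77267943210) (nat_lit 76) (nat_lit 95164424088) (nat_lit 76) (nat_lit 91633875784) (nat_lit 4) (nat_lit 4) (nat_lit 5) (nat_lit 5) (nat_lit 5) (nat_lit 4) (nat_lit 527) (nat_lit 377) (nat_lit 296)) (XT.lf (nat_lit 0) (nat_lit 107625462345) (nat_lit 76) (nat_lit 86263572893) (nat_lit 76) (nat_lit 82729730644) (nat_lit 4) (nat_lit 4) (nat_lit 5) (nat_lit 5) (nat_lit 5) (nat_lit 4) (nat_lit 528) (nat_lit 377) (nat_lit 295))) (XT.nd (nat_lit 78) (nat_lit 0) (nat_lit 0) (XT.lf (nat_lit 0) (nat_lit 139455236286) (nat_lit 76) (nat_lit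 76940889246) (nat_lit 76) (nat_lit 73403909906) (nat_lit 4) (nat_lit 4) (nat_lit 5) (nat_lit 5) (nat_lit 5) (nat_lit 4) (nat_lit 529) (nat_lit 377) (nat_lit 294)) (XT.lf (nat_lit 0) (nat_lit 172833050209) (nat_lit 76) (nat_lit 67174176281) (nat_lit 76) (nat_lit 63634209236) (nat_lit 4) (nat_lit 4) (nat_lit 5) (nat_lit 5) (nat_lit 5) (nat_lit 4) (nat_lit 530) (nat_lit 377) (nat_lit 293)))) (XT.nd (nat_lit 156) (nat_lit 0) (nat_lit 0) (XT.nd (nat_lit 78) (nat_lit 0) (nat_lit 0) (XT.lf (nat_lit 0) (nat_lit 207838375099) (nat_lit 76) (nat_lit 56940179920) (nat_lit 76) (nat_lit 53397367442) (nat_lit 4) (nat_lit 4) (nat_lit 5) (nat_lit 5) (nat_lit 5) (nat_lit 4) (nat_lit 531) (nat_lit 377) (nat_lit 292)) (XT.lf (nat_lit 0) (nat_lit 244554556969) (nat_lit 76) (nat_lit 46214533505) (nat_lit 76) (nat_lit 42669011090) (nat_lit 4) (nat_lit 4) (nat_lit 5) (nat_lit 5) (nat_lit 5) (nat_lit 4) (nat_lit 532)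 (nat_lit 377) (nat_lit 291))) (XT.nd (nat_lit 78) (nat_lit 0) (nat_lit 0) (XT.lf (nat_lit 0) (nat_lit 283069015299) (nat_lit 76) (nat_lit 34971699782) (nat_lit 76) (nat_lit 31423596475) (nat_lit 4) (nat_lit 4) (nat_lit 5) (nat_lit 5) (nat_lit 5) (nat_lit 4) (nat_lit 533) (nat_lit 377) (nat_lit 290)) (XT.lf (nat_lit 0) (nat_lit 323473451180) (nat_lit 76) (nat_lit 23184910100) (nat_lit 76) (nat_lit 19634348801) (nat_lit 4) (nat_lit 4) (nat_lit 5) (nat_lit 5) (nat_lit 5) (nat_lit 4) (nat_lit 534) (nat_lit 377) (nat_lit 289)))))) (XT.nd (nat_lit 624) (nat_lit 0) (nat_lit 0) (XT.nd (nat_lit 312) (nat_lit 0) (nat_lit 0) (XT.nd (nat_lit 156) (nat_lit 0) (nat_lit 0) (XT.nd (nat_lit 78) (nat_lit 152) (nat_lit 0) (XT.lf (nat_lit 0) (nat_lit 365864065650) (nat_lit 76) (nat_lit 10826100674) (nat_lit 76) (nat_lit 7273198429) (nat_lit 4) (nat_lit 4) (nat_lit 5) (nat_lit 5) (nat_lit 5) (nat_lit 4) (nat_lit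 535) (nat_lit 377) (nat_lit 288)) (XT.lf (nat_lit 0) (nat_lit 5668766514) (nat_lit 152) (nat_lit 394554135314) (nat_lit 0) (nat_lit 2282926785) (nat_lit 2) (nat_lit 5) (nat_lit 4) (nat_lit 4) (nat_lit 2) (nat_lit 4) (nat_lit 536) (nat_lit 377) (nat_lit 287))) (XT.nd (nat_lit 78) (nat_lit 0) (nat_lit 0) (XT.lf (nat_lit 0) (nat_lit 19486243630) (nat_lit 152) (nat_lit 386361186682) (nat_lit 0) (nat_lit 16098381703) (nat_lit 2) (nat_lit 5) (nat_lit 4) (nat_lit 4) (nat_lit 2) (nat_lit 4) (nat_lit 537) (nat_lit 377) (nat_lit 286)) (XT.lf (nat_lit 0) (nat_lit 33979183850) (nat_lit 152) (nat_lit 377789985293) (nat_lit 0) (nat_lit 30589396022) (nat_lit 2) (nat_lit 5) (nat_lit 4) (nat_lit 4) (nat_lit 2) (nat_lit 4) (nat_lit 538) (nat_lit 377) (nat_lit 285)))) (XT.nd (nat_lit 156) (nat_lit 0) (nat_lit 0) (XT.nd (nat_lit 78) (nat_lit 0) (nat_lit 0) (XT.lf (nat_lit 0) (nat_lit 49182094175) (nat_lit 152) (nat_lit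 368820123524) (nat_lit 0) (nat_lit 45790472156) (nat_lit 2) (nat_lit 5) (nat_lit 4) (nat_lit 4) (nat_lit 2) (nat_lit 4) (nat_lit 539) (nat_lit 377) (nat_lit 284)) (XT.lf (nat_lit 0) (nat_lit 65131172011) (nat_lit 152) (nat_lit 359430244562) (nat_lit 0) (nat_lit 61737803143) (nat_lit 2) (nat_lit 5) (nat_lit 4) (nat_lit 4) (nat_lit 2) (nat_lit 4) (nat_lit 540) (nat_lit 377) (nat_lit 283))) (XT.nd (nat_lit 78) (nat_lit 0) (nat_lit 0) (XT.lf (nat_lit 0) (nat_lit 81864391353) (nat_lit 152) (nat_lit 349597991553) (nat_lit 0) (nat_lit 78469358818) (nat_lit 2) (nat_lit 5) (nat_lit 4) (nat_lit 4) (nat_lit 2) (nat_lit 4) (nat_lit 541) (nat_lit 377) (nat_lit 282)) (XT.lf (nat_lit 0) (nat_lit 99421593199) (nat_lit 152) (nat_lit 339299954369) (nat_lit 0) (nat_lit 96024976220) (nat_lit 2) (nat_lit 5) (nat_lit 4) (nat_lit 4) (nat_lit 2) (nat_lit 4) (nat_lit 542) (nat_lit 377) (nat_lit 281))))) (XT.nd (nat_lit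 312) (nat_lit 0) (nat_lit 0) (XT.nd (nat_lit 156) (nat_lit 0) (nat_lit 0) (XT.nd (nat_lit 78) (nat_lit 0) (nat_lit 0) (XT.lf (nat_lit 0) (nat_lit 117844580411) (nat_lit 152) (nat_lit 328511613875) (nat_lit 0) (nat_lit 114446454438) (nat_lit 2) (nat_lit 5) (nat_lit 4) (nat_lit 4) (nat_lit 2) (nat_lit 4) (nat_lit 543) (nat_lit 377) (nat_lit 280)) (XT.lf (nat_lit 0) (nat_lit 137177217243) (nat_lit 152) (nat_lit 317207283546) (nat_lit 0) (nat_lit 133777654133) (nat_lit 2) (nat_lit 5) (nat_lit 4) (nat_lit 4) (nat_lit 2) (nat_lit 4) (nat_lit 544) (nat_lit 377) (nat_lit 279))) (XT.nd (nat_lit 78) (nat_lit 0) (nat_lit 0) (XT.lf (nat_lit 0) (nat_lit 157465533784) (nat_lit 152) (nat_lit 305360048309) (nat_lit 0) (nat_lit 154064601972) (nat_lit 2) (nat_lit 5) (nat_lit 4) (nat_lit 4) (nat_lit 2) (nat_lit 4) (nat_lit 545) (nat_lit 377) (nat_lit 278)) (XT.lf (nat_lit 0) (nat_lit 178757835549) (nat_lit 152)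 (nat_lit 292941700462) (nat_lit 0) (nat_lit 175355600211) (nat_lit 2) (nat_lit 5) (nat_lit 4) (nat_lit 4) (nat_lit 2) (nat_lit 4) (nat_lit 546) (nat_lit 377) (nat_lit 277)))) (XT.nd (nat_lit 156) (nat_lit 0) (nat_lit 0) (XT.nd (nat_lit 78) (nat_lit 0) (nat_lit 0) (XT.lf (nat_lit 0) (nat_lit 201104818495) (nat_lit 152) (nat_lit 279922672510) (nat_lit 0) (nat_lit 197701341703) (nat_lit 2) (nat_lit 5) (nat_lit 4) (nat_lit 4) (nat_lit 2) (nat_lit 4) (nat_lit 547) (nat_lit 377) (nat_lit 276)) (XT.lf (nat_lit 0) (nat_lit 224559689724) (nat_lit 152) (nat_lit 266271966767) (nat_lit 0) (nat_lit 221155030596) (nat_lit 2) (nat_lit 5) (nat_lit 4) (nat_lit 4) (nat_lit 2) (nat_lit 4) (nat_lit 548) (nat_lit 377) (nat_lit 275))) (XT.nd (nat_lit 78) (nat_lit 0) (nat_lit 0) (XT.lf (nat_lit 0) (nat_lit 249178294167) (nat_lit 152) (nat_lit 251957081552) (nat_lit 0) (nat_lit 245772509004) (nat_lit 2) (nat_lit 5)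 (nat_lit 4) (nat_lit 4) (nat_lit 2) (nat_lit 4) (nat_lit 549) (nat_lit 377) (nat_lit 274)) (XT.lf (nat_lit 0) (nat_lit 275019247550) (nat_lit 152) (nat_lit 236943933806) (nat_lit 0) (nat_lit 271612389973) (nat_lit 2) (nat_lit 5) (nat_lit 4) (nat_lit 4) (nat_lit 2) (nat_lit 4) (nat_lit 550) (nat_lit 377) (nat_lit 273))))))) (XT.nd (nat_lit 55224) (nat_lit 0) (nat_lit 2052) (XT.nd (nat_lit 54600) (nat_lit 0) (nat_lit 3344) (XT.nd (nat_lit 54288) (nat_lit 0) (nat_lit 4180) (XT.nd (nat_lit 54132) (nat_lit 0) (nat_lit 4636) (XT.nd (nat_lit 78) (nat_lit 0) (nat_lit 0) (XT.lf (nat_lit 0) (nat_lit 302144075951) (nat_lit 152) (nat_lit 221196777940) (nat_lit 0) (nat_lit 298736197028) (nat_lit 2) (nat_lit 5) (nat_lit 4) (nat_lit 4) (nat_lit 2) (nat_lit 4) (nat_lit 551) (nat_lit 377) (nat_lit 272)) (XT.lf (nat_lit 0) (nat_lit 330617362296) (nat_lit 152) (nat_lit 204678120723) (nat_lit 0) (nat_lit 327208510662)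 (nat_lit 2) (nat_lit 5) (nat_lit 4) (nat_lit 4) (nat_lit 2) (nat_lit 4) (nat_lit 552) (nat_lit 377) (nat_lit 271))) (XT.nd (nat_lit 78) (nat_lit 152) (nat_lit 0) (XT.lf (nat_lit 0) (nat_lit 1231947413) (nat_lit 152) (nat_lit 3716333852) (nat_lit 0) (nat_lit 1231947413) (nat_lit 65) (nat_lit 5) (nat_lit 67) (nat_lit 4) (nat_lit 65) (nat_lit 4) (nat_lit 444) (nat_lit 378) (nat_lit 378)) (XT.lf (nat_lit 0) (nat_lit 3883256698) (nat_lit 152) (nat_lit 4615155833) (nat_lit 152) (nat_lit 4160340030) (nat_lit 63) (nat_lit 4) (nat_lit 65) (nat_lit 5) (nat_lit 65) (nat_lit 4) (nat_lit 445) (nat_lit 378) (nat_lit 377)))) (XT.nd (nat_lit 156) (nat_lit 152) (nat_lit 0) (XT.nd (nat_lit 78) (nat_lit 152) (nat_lit 0) (XT.lf (nat_lit 0) (nat_lit 1780197603) (nat_lit 152) (nat_lit 10256954890) (nat_lit 0) (nat_lit 934508354) (nat_lit 61) (nat_lit 5) (nat_lit 63) (nat_lit 4) (nat_lit 61) (nat_lit 4) (nat_lit 446)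 (nat_lit 378) (nat_lit 376)) (XT.lf (nat_lit 0) (nat_lit 1302250944) (nat_lit 152) (nat_lit 6615572026) (nat_lit 152) (nat_lit 5376995786) (nat_lit 59) (nat_lit 4) (nat_lit 61) (nat_lit 5) (nat_lit 61) (nat_lit 4) (nat_lit 447) (nat_lit 378) (nat_lit 375))) (XT.nd (nat_lit 78) (nat_lit 76) (nat_lit 0) (XT.lf (nat_lit 0) (nat_lit 674895403) (nat_lit 228) (nat_lit 229218748) (nat_lit 76) (nat_lit 12730958944) (nat_lit 58) (nat_lit 5) (nat_lit 61) (nat_lit 5) (nat_lit 59) (nat_lit 4) (nat_lit 448) (nat_lit 378) (nat_lit 374)) (XT.lf (nat_lit 0) (nat_lit 6921541827) (nat_lit 152) (nat_lit 2016560030) (nat_lit 0) (nat_lit 5046194771) (nat_lit 57) (nat_lit 5) (nat_lit 59) (nat_lit 4) (nat_lit 57) (nat_lit 4) (nat_lit 449) (nat_lit 378) (nat_lit 373))))) (XT.nd (nat_lit 312) (nat_lit 304) (nat_lit 0) (XT.nd (nat_lit 156) (nat_lit 228) (nat_lit 0) (XT.nd (nat_lit 78) (nat_lit 152) (nat_lit 0) (XT.lf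 (nat_lit 0) (nat_lit 10381238108) (nat_lit 152) (nat_lit 3084531792) (nat_lit 152) (nat_lit 885955636) (nat_lit 55) (nat_lit 4) (nat_lit 57) (nat_lit 5) (nat_lit 57) (nat_lit 4) (nat_lit 450) (nat_lit 378) (nat_lit 372)) (XT.lf (nat_lit 0) (nat_lit 5442866203) (nat_lit 152) (nat_lit 6233368189) (nat_lit 0) (nat_lit 3055805828) (nat_lit 53) (nat_lit 5) (nat_lit 55) (nat_lit 4) (nat_lit 53) (nat_lit 4) (nat_lit 451) (nat_lit 378) (nat_lit 371))) (XT.nd (nat_lit 78) (nat_lit 152) (nat_lit 0) (XT.lf (nat_lit 0) (nat_lit 6369454756) (nat_lit 76) (nat_lit 5713130876) (nat_lit 76) (nat_lit 3046853052) (nat_lit 52) (nat_lit 4) (nat_lit 53) (nat_lit 5) (nat_lit 53) (nat_lit 4) (nat_lit 452) (nat_lit 378) (nat_lit 370)) (XT.lf (nat_lit 0) (nat_lit 3380529195) (nat_lit 152) (nat_lit 11576225924) (nat_lit 0) (nat_lit 587958524) (nat_lit 50) (nat_lit 5) (nat_lit 52) (nat_lit 4) (nat_lit 50) (nat_lit 4) (nat_lit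 453) (nat_lit 378) (nat_lit 369)))) (XT.nd (nat_lit 156) (nat_lit 152) (nat_lit 0) (XT.nd (nat_lit 78) (nat_lit 76) (nat_lit 0) (XT.lf (nat_lit 0) (nat_lit 1185448051) (nat_lit 76) (nat_lit 8911538032) (nat_lit 76) (nat_lit 5877768830) (nat_lit 49) (nat_lit 4) (nat_lit 50) (nat_lit 5) (nat_lit 50) (nat_lit 4) (nat_lit 454) (nat_lit 378) (nat_lit 368)) (XT.lf (nat_lit 0) (nat_lit 706619439) (nat_lit 152) (nat_lit 1814912237) (nat_lit 76) (nat_lit 13903867139) (nat_lit 48) (nat_lit 5) (nat_lit 50) (nat_lit 5) (nat_lit 49) (nat_lit 4) (nat_lit 455) (nat_lit 378) (nat_lit 367))) (XT.nd (nat_lit 78) (nat_lit 76) (nat_lit 0) (XT.lf (nat_lit 0) (nat_lit 7489904819) (nat_lit 152) (nat_lit 5227025803) (nat_lit 0) (nat_lit 4173470280) (nat_lit 47) (nat_lit 5) (nat_lit 49) (nat_lit 4) (nat_lit 47) (nat_lit 4) (nat_lit 456) (nat_lit 378) (nat_lit 366)) (XT.lf (nat_lit 0) (nat_lit 8373596007) (nat_lit 76)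 (nat_lit 6259447936) (nat_lit 76) (nat_lit 2744578769) (nat_lit 46) (nat_lit 4) (nat_lit 47) (nat_lit 5) (nat_lit 47) (nat_lit 4) (nat_lit 457) (nat_lit 378) (nat_lit 365)))))) (XT.nd (nat_lit 624) (nat_lit 608) (nat_lit 0) (XT.nd (nat_lit 312) (nat_lit 304) (nat_lit 0) (XT.nd (nat_lit 156) (nat_lit 152) (nat_lit 0) (XT.nd (nat_lit 78) (nat_lit 76) (nat_lit 0) (XT.lf (nat_lit 0) (nat_lit 4098211542) (nat_lit 152) (nat_lit 13217457805) (nat_lit 0) (nat_lit 570731039) (nat_lit 44) (nat_lit 5) (nat_lit 46) (nat_lit 4) (nat_lit 44) (nat_lit 4) (nat_lit 458) (nat_lit 378) (nat_lit 364)) (XT.lf (nat_lit 0) (nat_lit 433994569) (nat_lit 76) (nat_lit 10839569560) (nat_lit 76) (nat_lit 7140673765) (nat_lit 43) (nat_lit 4) (nat_lit 44) (nat_lit 5) (nat_lit 44) (nat_lit 4) (nat_lit 459) (nat_lit 378) (nat_lit 363))) (XT.nd (nat_lit 78) (nat_lit 152) (nat_lit 0) (XT.lf (nat_lit 0) (nat_lit 14877668537) (nat_lit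 76) (nat_lit 3975342123) (nat_lit 76) (nat_lit 113193668) (nat_lit 43) (nat_lit 4) (nat_lit 44) (nat_lit 5) (nat_lit 44) (nat_lit 4) (nat_lit 460) (nat_lit 378) (nat_lit 362)) (XT.lf (nat_lit 0) (nat_lit 7074732950) (nat_lit 152) (nat_lit 9214865020) (nat_lit 0) (nat_lit 3248421351) (nat_lit 41) (nat_lit 5) (nat_lit 43) (nat_lit 4) (nat_lit 41) (nat_lit 4) (nat_lit 461) (nat_lit 378) (nat_lit 361)))) (XT.nd (nat_lit 156) (nat_lit 152) (nat_lit 0) (XT.nd (nat_lit 78) (nat_lit 76) (nat_lit 0) (XT.lf (nat_lit 0) (nat_lit 5222599368) (nat_lit 76) (nat_lit 9440416503) (nat_lit 76) (nat_lit 5473081118) (nat_lit 40) (nat_lit 4) (nat_lit 41) (nat_lit 5) (nat_lit 41) (nat_lit 4) (nat_lit 462) (nat_lit 378) (nat_lit 360)) (XT.lf (nat_lit 0) (nat_lit 1793408552) (nat_lit 152) (nat_lit 425156218) (nat_lit 76) (nat_lit 18544733333) (nat_lit 39) (nat_lit 5) (nat_lit 41) (nat_lit 5) (nat_lit 40) (nat_lit 4)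 (nat_lit 463) (nat_lit 378) (nat_lit 359))) (XT.nd (nat_lit 78) (nat_lit 76) (nat_lit 0) (XT.lf (nat_lit 0) (nat_lit 9393785221) (nat_lit 152) (nat_lit 6650229547) (nat_lit 0) (nat_lit 5365636190) (nat_lit 38) (nat_lit 5) (nat_lit 40) (nat_lit 4) (nat_lit 38) (nat_lit 4) (nat_lit 464) (nat_lit 378) (nat_lit 358)) (XT.lf (nat_lit 0) (nat_lit 8543698026) (nat_lit 76) (nat_lit 8844058343) (nat_lit 76) (nat_lit 4699888695) (nat_lit 37) (nat_lit 4) (nat_lit 38) (nat_lit 5) (nat_lit 38) (nat_lit 4) (nat_lit 465) (nat_lit 378) (nat_lit 357))))) (XT.nd (nat_lit 312) (nat_lit 228) (nat_lit 0) (XT.nd (nat_lit 156) (nat_lit 228) (nat_lit 0) (XT.nd (nat_lit 78) (nat_lit 0) (nat_lit 0) (XT.lf (nat_lit 0) (nat_lit 1614073261) (nat_lit 76) (nat_lit 1248726121) (nat_lit 152) (nat_lit 19935596324) (nat_lit 35) (nat_lit 5) (nat_lit 36) (nat_lit 5) (nat_lit 37) (nat_lit 4) (nat_lit 466) (nat_lit 378) (nat_lit 356))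 (XT.lf (nat_lit 0) (nat_lit 10820850892) (nat_lit 152) (nat_lit 6042658318) (nat_lit 0) (nat_lit 6668565564) (nat_lit 35) (nat_lit 5) (nat_lit 37) (nat_lit 4) (nat_lit 35) (nat_lit 4) (nat_lit 467) (nat_lit 378) (nat_lit 355))) (XT.nd (nat_lit 78) (nat_lit 152) (nat_lit 0) (XT.lf (nat_lit 0) (nat_lit 9842223240) (nat_lit 76) (nat_lit 9353503116) (nat_lit 76) (nat_lit 5105767339) (nat_lit 34) (nat_lit 4) (nat_lit 35) (nat_lit 5) (nat_lit 35) (nat_lit 4) (nat_lit 468) (nat_lit 378) (nat_lit 354)) (XT.lf (nat_lit 0) (nat_lit 1313712606) (nat_lit 76) (nat_lit 1443533038) (nat_lit 152) (nat_lit 22351418470) (nat_lit 32) (nat_lit 5) (nat_lit 33) (nat_lit 5) (nat_lit 34) (nat_lit 4) (nat_lit 469) (nat_lit 378) (nat_lit 353)))) (XT.nd (nat_lit 156) (nat_lit 152) (nat_lit 0) (XT.nd (nat_lit 78) (nat_lit 76) (nat_lit 0) (XT.lf (nat_lit 0) (nat_lit 11043065846) (nat_lit 152) (nat_lit 8070308520) (nat_lit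 0) (nat_lit 6828573143) (nat_lit 32) (nat_lit 5) (nat_lit 34) (nat_lit 4) (nat_lit 32) (nat_lit 4) (nat_lit 470) (nat_lit 378) (nat_lit 352)) (XT.lf (nat_lit 0) (nat_lit 8391336599) (nat_lit 76) (nat_lit 11359108360) (nat_lit 76) (nat_lit 7066088337) (nat_lit 31) (nat_lit 4) (nat_lit 32) (nat_lit 5) (nat_lit 32) (nat_lit 4) (nat_lit 471) (nat_lit 378) (nat_lit 351))) (XT.nd (nat_lit 78) (nat_lit 76) (nat_lit 0) (XT.lf (nat_lit 0) (nat_lit 1112900835) (nat_lit 152) (nat_lit 2086361235) (nat_lit 76) (nat_lit 24535102001) (nat_lit 30) (nat_lit 5) (nat_lit 32) (nat_lit 5) (nat_lit 31) (nat_lit 4) (nat_lit 472) (nat_lit 378) (nat_lit 350)) (XT.lf (nat_lit 0) (nat_lit 9647179660) (nat_lit 152) (nat_lit 13616398178) (nat_lit 0) (nat_lit 5419527714) (nat_lit 29) (nat_lit 5) (nat_lit 31) (nat_lit 4) (nat_lit 29) (nat_lit 4) (nat_lit 473) (nat_lit 378) (nat_lit 349))))))))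
noncomputable def xc48 : XT := (XT.nd (nat_lit 2418) (nat_lit 456) (nat_lit 0) (XT.nd (nat_lit 1170) (nat_lit 532) (nat_lit 0) (XT.nd (nat_lit 546) (nat_lit 456) (nat_lit 0) (XT.nd (nat_lit 234) (nat_lit 228) (nat_lit 0) (XT.nd (nat_lit 78) (nat_lit 152) (nat_lit 0) (XT.lf (nat_lit 0) (nat_lit 3242624824) (nat_lit 76) (nat_lit 15364485152) (nat_lit 76) (nat_lit 11072228586) (nat_lit 28) (nat_lit 4) (nat_lit 29) (nat_lit 5) (nat_lit 29) (nat_lit 4) (nat_lit 474) (nat_lit 378) (nat_lit 348)) (XT.nd (nat_lit 78) (nat_lit 152) (nat_lit 0) (XT.lf (nat_lit 0) (nat_lit 21141374432) (nat_lit 76) (nat_lit 6966574612) (nat_lit 76) (nat_lit 2612789835) (nat_lit 28) (nat_lit 4) (nat_lit 29) (nat_lit 5) (nat_lit 29) (nat_lit 4) (nat_lit 475) (nat_lit 378) (nat_lit 347)) (XT.lf (nat_lit 0) (nat_lit 6091231241) (nat_lit 152) (nat_lit 23828009288) (nat_lit 0) (nat_lit 1888961648) (nat_lit 26) (nat_lit 5) (nat_lit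 28) (nat_lit 4) (nat_lit 26) (nat_lit 4) (nat_lit 476) (nat_lit 378) (nat_lit 346)))) (XT.nd (nat_lit 156) (nat_lit 152) (nat_lit 0) (XT.nd (nat_lit 78) (nat_lit 76) (nat_lit 0) (XT.lf (nat_lit 0) (nat_lit 15288644078) (nat_lit 152) (nat_lit 6618730043) (nat_lit 0) (nat_lit 11033224103) (nat_lit 26) (nat_lit 5) (nat_lit 28) (nat_lit 4) (nat_lit 26) (nat_lit 4) (nat_lit 477) (nat_lit 378) (nat_lit 345)) (XT.lf (nat_lit 0) (nat_lit 11566541713) (nat_lit 76) (nat_lit 13433210772) (nat_lit 76) (nat_lit 9127171387) (nat_lit 25) (nat_lit 4) (nat_lit 26) (nat_lit 5) (nat_lit 26) (nat_lit 4) (nat_lit 478) (nat_lit 378) (nat_lit 344))) (XT.nd (nat_lit 78) (nat_lit 152) (nat_lit 0) (XT.lf (nat_lit 0) (nat_lit 30640299028) (nat_lit 76) (nat_lit 4543571698) (nat_lit 76) (nat_lit 189323349) (nat_lit 25) (nat_lit 4) (nat_lit 26) (nat_lit 5) (nat_lit 26) (nat_lit 4) (nat_lit 479) (nat_lit 378) (nat_lit 343))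 (XT.lf (nat_lit 0) (nat_lit 9078647804) (nat_lit 152) (nat_lit 22699057836) (nat_lit 0) (nat_lit 4888017664) (nat_lit 23) (nat_lit 5) (nat_lit 25) (nat_lit 4) (nat_lit 23) (nat_lit 4) (nat_lit 480) (nat_lit 378) (nat_lit 342))))) (XT.nd (nat_lit 312) (nat_lit 228) (nat_lit 0) (XT.nd (nat_lit 156) (nat_lit 152) (nat_lit 0) (XT.nd (nat_lit 78) (nat_lit 76) (nat_lit 0) (XT.lf (nat_lit 0) (nat_lit 18839102372) (nat_lit 152) (nat_lit 4575022414) (nat_lit 0) (nat_lit 14606827518) (nat_lit 23) (nat_lit 5) (nat_lit 25) (nat_lit 4) (nat_lit 23) (nat_lit 4) (nat_lit 481) (nat_lit 378) (nat_lit 341)) (XT.lf (nat_lit 0) (nat_lit 14694316966) (nat_lit 76) (nat_lit 14507915233) (nat_lit 76) (nat_lit 10235978745) (nat_lit 22) (nat_lit 4) (nat_lit 23) (nat_lit 5) (nat_lit 23) (nat_lit 4) (nat_lit 482) (nat_lit 378) (nat_lit 340))) (XT.nd (nat_lit 78) (nat_lit 152) (nat_lit 0) (XT.lf (nat_lit 0) (nat_lit 34858479194)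 (nat_lit 76) (nat_lit 5189666116) (nat_lit 76) (nat_lit 879956645) (nat_lit 22) (nat_lit 4) (nat_lit 23) (nat_lit 5) (nat_lit 23) (nat_lit 4) (nat_lit 483) (nat_lit 378) (nat_lit 339)) (XT.lf (nat_lit 0) (nat_lit 8836694070) (nat_lit 152) (nat_lit 28941910209) (nat_lit 0) (nat_lit 4697947649) (nat_lit 20) (nat_lit 5) (nat_lit 22) (nat_lit 4) (nat_lit 20) (nat_lit 4) (nat_lit 484) (nat_lit 378) (nat_lit 338)))) (XT.nd (nat_lit 156) (nat_lit 152) (nat_lit 0) (XT.nd (nat_lit 78) (nat_lit 76) (nat_lit 0) (XT.lf (nat_lit 0) (nat_lit 19090028885) (nat_lit 152) (nat_lit 10089000976) (nat_lit 0) (nat_lit 14918652741) (nat_lit 20) (nat_lit 5) (nat_lit 22) (nat_lit 4) (nat_lit 20) (nat_lit 4) (nat_lit 485) (nat_lit 378) (nat_lit 337)) (XT.lf (nat_lit 0) (nat_lit 9810678535) (nat_lit 76) (nat_lit 20094591016) (nat_lit 76) (nat_lit 15892138944) (nat_lit 19) (nat_lit 4) (nat_lit 20) (nat_lit 5) (nat_lit 20)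 (nat_lit 4) (nat_lit 486) (nat_lit 378) (nat_lit 336))) (XT.nd (nat_lit 78) (nat_lit 152) (nat_lit 0) (XT.lf (nat_lit 0) (nat_lit 30849116325) (nat_lit 76) (nat_lit 10480810224) (nat_lit 76) (nat_lit 6248762031) (nat_lit 19) (nat_lit 4) (nat_lit 20) (nat_lit 5) (nat_lit 20) (nat_lit 4) (nat_lit 487) (nat_lit 378) (nat_lit 335)) (XT.lf (nat_lit 0) (nat_lit 3336781842) (nat_lit 76) (nat_lit 369080019) (nat_lit 152) (nat_lit 45742487015) (nat_lit 17) (nat_lit 5) (nat_lit 18) (nat_lit 5) (nat_lit 19) (nat_lit 4) (nat_lit 488) (nat_lit 378) (nat_lit 334)))))) (XT.nd (nat_lit 624) (nat_lit 228) (nat_lit 0) (XT.nd (nat_lit 312) (nat_lit 228) (nat_lit 0) (XT.nd (nat_lit 156) (nat_lit 76) (nat_lit 0) (XT.nd (nat_lit 78) (nat_lit 0) (nat_lit 0) (XT.lf (nat_lit 0) (nat_lit 14297340290) (nat_lit 152) (nat_lit 26877166950) (nat_lit 0) (nat_lit 10214407405) (nat_lit 17) (nat_lit 5) (nat_lit 19) (nat_lit 4)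 (nat_lit 17) (nat_lit 4) (nat_lit 489) (nat_lit 378) (nat_lit 333)) (XT.lf (nat_lit 0) (nat_lit 25330301204) (nat_lit 152) (nat_lit 6877593053) (nat_lit 0) (nat_lit 21223019517) (nat_lit 17) (nat_lit 5) (nat_lit 19) (nat_lit 4) (nat_lit 17) (nat_lit 4) (nat_lit 490) (nat_lit 378) (nat_lit 332))) (XT.nd (nat_lit 78) (nat_lit 0) (nat_lit 0) (XT.lf (nat_lit 0) (nat_lit 14401472108) (nat_lit 76) (nat_lit 22648626418) (nat_lit 76) (nat_lit 18518155395) (nat_lit 16) (nat_lit 4) (nat_lit 17) (nat_lit 5) (nat_lit 17) (nat_lit 4) (nat_lit 491) (nat_lit 378) (nat_lit 331)) (XT.lf (nat_lit 0) (nat_lit 36804766753) (nat_lit 76) (nat_lit 12579417965) (nat_lit 76) (nat_lit 8426861861) (nat_lit 16) (nat_lit 4) (nat_lit 17) (nat_lit 5) (nat_lit 17) (nat_lit 4) (nat_lit 492) (nat_lit 378) (nat_lit 330)))) (XT.nd (nat_lit 156) (nat_lit 76) (nat_lit 0) (XT.nd (nat_lit 78) (nat_lit 76) (nat_lit 0) (XT.lf (nat_lit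 0) (nat_lit 2014220333) (nat_lit 152) (nat_lit 44437831) (nat_lit 76) (nat_lit 58109895644) (nat_lit 15) (nat_lit 5) (nat_lit 17) (nat_lit 5) (nat_lit 16) (nat_lit 4) (nat_lit 493) (nat_lit 378) (nat_lit 329)) (XT.lf (nat_lit 0) (nat_lit 13109290103) (nat_lit 152) (nat_lit 40391617840) (nat_lit 0) (nat_lit 9115365021) (nat_lit 14) (nat_lit 5) (nat_lit 16) (nat_lit 4) (nat_lit 14) (nat_lit 4) (nat_lit 494) (nat_lit 378) (nat_lit 328))) (XT.nd (nat_lit 78) (nat_lit 76) (nat_lit 0) (XT.lf (nat_lit 0) (nat_lit 24712399274) (nat_lit 152) (nat_lit 19776010142) (nat_lit 0) (nat_lit 20700304741) (nat_lit 14) (nat_lit 5) (nat_lit 16) (nat_lit 4) (nat_lit 14) (nat_lit 4) (nat_lit 495) (nat_lit 378) (nat_lit 327)) (XT.lf (nat_lit 0) (nat_lit 1770222427) (nat_lit 76) (nat_lit 35075720090) (nat_lit 76) (nat_lit 31046321319) (nat_lit 13) (nat_lit 4) (nat_lit 14) (nat_lit 5) (nat_lit 14) (nat_lit 4) (nat_lit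 496) (nat_lit 378) (nat_lit 326))))) (XT.nd (nat_lit 312) (nat_lit 76) (nat_lit 0) (XT.nd (nat_lit 156) (nat_lit 152) (nat_lit 0) (XT.nd (nat_lit 78) (nat_lit 0) (nat_lit 0) (XT.lf (nat_lit 0) (nat_lit 24926060608) (nat_lit 76) (nat_lit 24918934070) (nat_lit 76) (nat_lit 20873055071) (nat_lit 13) (nat_lit 4) (nat_lit 14) (nat_lit 5) (nat_lit 14) (nat_lit 4) (nat_lit 497) (nat_lit 378) (nat_lit 325)) (XT.lf (nat_lit 0) (nat_lit 49092753143) (nat_lit 76) (nat_lit 14328784834) (nat_lit 76) (nat_lit 10267210380) (nat_lit 13) (nat_lit 4) (nat_lit 14) (nat_lit 5) (nat_lit 14) (nat_lit 4) (nat_lit 498) (nat_lit 378) (nat_lit 324))) (XT.nd (nat_lit 78) (nat_lit 76) (nat_lit 0) (XT.lf (nat_lit 0) (nat_lit 770972919) (nat_lit 152) (nat_lit 2496028022) (nat_lit 76) (nat_lit 73543810057) (nat_lit 12) (nat_lit 5) (nat_lit 14) (nat_lit 5) (nat_lit 13) (nat_lit 4) (nat_lit 499) (nat_lit 378) (nat_lit 323))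 (XT.lf (nat_lit 0) (nat_lit 12415748401) (nat_lit 152) (nat_lit 59125038782) (nat_lit 0) (nat_lit 8519787690) (nat_lit 11) (nat_lit 5) (nat_lit 13) (nat_lit 4) (nat_lit 11) (nat_lit 4) (nat_lit 500) (nat_lit 378) (nat_lit 322)))) (XT.nd (nat_lit 156) (nat_lit 76) (nat_lit 0) (XT.nd (nat_lit 78) (nat_lit 0) (nat_lit 0) (XT.lf (nat_lit 0) (nat_lit 24672526518) (nat_lit 152) (nat_lit 38035159380) (nat_lit 0) (nat_lit 20763653117) (nat_lit 11) (nat_lit 5) (nat_lit 13) (nat_lit 4) (nat_lit 11) (nat_lit 4) (nat_lit 501) (nat_lit 378) (nat_lit 321)) (XT.lf (nat_lit 0) (nat_lit 37478564542) (nat_lit 152) (nat_lit 16019862684) (nat_lit 0) (nat_lit 33557393341) (nat_lit 11) (nat_lit 5) (nat_lit 13) (nat_lit 4) (nat_lit 11) (nat_lit 4) (nat_lit 502) (nat_lit 378) (nat_lit 320))) (XT.nd (nat_lit 78) (nat_lit 0) (nat_lit 0) (XT.lf (nat_lit 0) (nat_lit 7203836432) (nat_lit 76) (nat_lit 43772988683) (nat_lit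 76) (nat_lit 39840105292) (nat_lit 10) (nat_lit 4) (nat_lit 11) (nat_lit 5) (nat_lit 11) (nat_lit 4) (nat_lit 503) (nat_lit 378) (nat_lit 319)) (XT.lf (nat_lit 0) (nat_lit 32023946540) (nat_lit 76) (nat_lit 33337799948) (nat_lit 76) (nat_lit 29393762091) (nat_lit 10) (nat_lit 4) (nat_lit 11) (nat_lit 5) (nat_lit 11) (nat_lit 4) (nat_lit 504) (nat_lit 378) (nat_lit 318))))))) (XT.nd (nat_lit 1170) (nat_lit 76) (nat_lit 0) (XT.nd (nat_lit 546) (nat_lit 228) (nat_lit 0) (XT.nd (nat_lit 234) (nat_lit 0) (nat_lit 0) (XT.nd (nat_lit 78) (nat_lit 152) (nat_lit 0) (XT.lf (nat_lit 0) (nat_lit 57969874131) (nat_lit 76) (nat_lit 22439319462) (nat_lit 76) (nat_lit 18484658303) (nat_lit 10) (nat_lit 4) (nat_lit 11) (nat_lit 5) (nat_lit 11) (nat_lit 4) (nat_lit 505) (nat_lit 378) (nat_lit 317)) (XT.nd (nat_lit 78) (nat_lit 152) (nat_lit 0) (XT.lf (nat_lit 0) (nat_lit 85103395223) (nat_lit 76) (nat_lit 11051598462)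 (nat_lit 76) (nat_lit 7086819872) (nat_lit 10) (nat_lit 4) (nat_lit 11) (nat_lit 5) (nat_lit 11) (nat_lit 4) (nat_lit 506) (nat_lit 378) (nat_lit 316)) (XT.lf (nat_lit 0) (nat_lit 4778814195) (nat_lit 152) (nat_lit 102028185115) (nat_lit 0) (nat_lit 993657778) (nat_lit 8) (nat_lit 5) (nat_lit 10) (nat_lit 4) (nat_lit 8) (nat_lit 4) (nat_lit 507) (nat_lit 378) (nat_lit 315)))) (XT.nd (nat_lit 156) (nat_lit 0) (nat_lit 0) (XT.nd (nat_lit 78) (nat_lit 0) (nat_lit 0) (XT.lf (nat_lit 0) (nat_lit 17440698271) (nat_lit 152) (nat_lit 81472077203) (nat_lit 0) (nat_lit 13646802037) (nat_lit 8) (nat_lit 5) (nat_lit 10) (nat_lit 4) (nat_lit 8) (nat_lit 4) (nat_lit 508) (nat_lit 378) (nat_lit 314)) (XT.lf (nat_lit 0) (nat_lit 30685904647) (nat_lit 152) (nat_lit 59989343297) (nat_lit 0) (nat_lit 26883684779) (nat_lit 8) (nat_lit 5) (nat_lit 10) (nat_lit 4) (nat_lit 8) (nat_lit 4) (nat_lit 509) (nat_lit 378)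 (nat_lit 313))) (XT.nd (nat_lit 78) (nat_lit 0) (nat_lit 0) (XT.lf (nat_lit 0) (nat_lit 44545969530) (nat_lit 152) (nat_lit 37528834029) (nat_lit 0) (nat_lit 40735822390) (nat_lit 8) (nat_lit 5) (nat_lit 10) (nat_lit 4) (nat_lit 8) (nat_lit 4) (nat_lit 510) (nat_lit 378) (nat_lit 312)) (XT.lf (nat_lit 0) (nat_lit 59053893073) (nat_lit 152) (nat_lit 14037071996) (nat_lit 0) (nat_lit 55236196151) (nat_lit 8) (nat_lit 5) (nat_lit 10) (nat_lit 4) (nat_lit 8) (nat_lit 4) (nat_lit 511) (nat_lit 378) (nat_lit 311))))) (XT.nd (nat_lit 312) (nat_lit 152) (nat_lit 0) (XT.nd (nat_lit 156) (nat_lit 0) (nat_lit 0) (XT.nd (nat_lit 78) (nat_lit 0) (nat_lit 0) (XT.lf (nat_lit 0) (nat_lit 10890437581) (nat_lit 76) (nat_lit 63523810622) (nat_lit 76) (nat_lit 59698923432) (nat_lit 7) (nat_lit 4) (nat_lit 8) (nat_lit 5) (nat_lit 8) (nat_lit 4) (nat_lit 512) (nat_lit 378) (nat_lit 310)) (XT.lf (nat_lit 0) (nat_lit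 37465665230) (nat_lit 76) (nat_lit 53272390409) (nat_lit 76) (nat_lit 49440655344) (nat_lit 7) (nat_lit 4) (nat_lit 8) (nat_lit 5) (nat_lit 8) (nat_lit 4) (nat_lit 513) (nat_lit 378) (nat_lit 309))) (XT.nd (nat_lit 78) (nat_lit 0) (nat_lit 0) (XT.lf (nat_lit 0) (nat_lit 65287756307) (nat_lit 76) (nat_lit 42550020895) (nat_lit 76) (nat_lit 38711764043) (nat_lit 7) (nat_lit 4) (nat_lit 8) (nat_lit 5) (nat_lit 8) (nat_lit 4) (nat_lit 514) (nat_lit 378) (nat_lit 308)) (XT.lf (nat_lit 0) (nat_lit 94422953886) (nat_lit 76) (nat_lit 31331172627) (nat_lit 76) (nat_lit 27486704551) (nat_lit 7) (nat_lit 4) (nat_lit 8) (nat_lit 5) (nat_lit 8) (nat_lit 4) (nat_lit 515) (nat_lit 378) (nat_lit 307)))) (XT.nd (nat_lit 156) (nat_lit 152) (nat_lit 0) (XT.nd (nat_lit 78) (nat_lit 0) (nat_lit 0) (XT.lf (nat_lit 0) (nat_lit 124940627487) (nat_lit 76) (nat_lit 19589134063) (nat_lit 76) (nat_lit 15738750535) (nat_lit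 7) (nat_lit 4) (nat_lit 8) (nat_lit 5) (nat_lit 8) (nat_lit 4) (nat_lit 516) (nat_lit 378) (nat_lit 306)) (XT.lf (nat_lit 0) (nat_lit 156913438235) (nat_lit 76) (nat_lit 7295947967) (nat_lit 76) (nat_lit 3439930676) (nat_lit 7) (nat_lit 4) (nat_lit 8) (nat_lit 5) (nat_lit 8) (nat_lit 4) (nat_lit 517) (nat_lit 378) (nat_lit 305))) (XT.nd (nat_lit 78) (nat_lit 0) (nat_lit 0) (XT.lf (nat_lit 0) (nat_lit 9470187893) (nat_lit 152) (nat_lit 160113919018) (nat_lit 0) (nat_lit 5792680482) (nat_lit 5) (nat_lit 5) (nat_lit 7) (nat_lit 4) (nat_lit 5) (nat_lit 4) (nat_lit 518) (nat_lit 378) (nat_lit 304)) (XT.lf (nat_lit 0) (nat_lit 23180949866) (nat_lit 152) (nat_lit 140794749168) (nat_lit 0) (nat_lit 19498575799) (nat_lit 5) (nat_lit 5) (nat_lit 7) (nat_lit 4) (nat_lit 5) (nat_lit 4) (nat_lit 519) (nat_lit 378) (nat_lit 303)))))) (XT.nd (nat_lit 624) (nat_lit 0) (nat_lit 0) (XT.nd (nat_lit 312) (nat_lit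 76) (nat_lit 0) (XT.nd (nat_lit 156) (nat_lit 0) (nat_lit 0) (XT.nd (nat_lit 78) (nat_lit 0) (nat_lit 0) (XT.lf (nat_lit 0) (nat_lit 37545190975) (nat_lit 152) (nat_lit 120574866719) (nat_lit 0) (nat_lit 33858181996) (nat_lit 5) (nat_lit 5) (nat_lit 7) (nat_lit 4) (nat_lit 5) (nat_lit 4) (nat_lit 520) (nat_lit 378) (nat_lit 302)) (XT.lf (nat_lit 0) (nat_lit 52597111791) (nat_lit 152) (nat_lit 99406129094) (nat_lit 0) (nat_lit 48905688611) (nat_lit 5) (nat_lit 5) (nat_lit 7) (nat_lit 4) (nat_lit 5) (nat_lit 4) (nat_lit 521) (nat_lit 378) (nat_lit 301))) (XT.nd (nat_lit 78) (nat_lit 0) (nat_lit 0) (XT.lf (nat_lit 0) (nat_lit 68372550224) (nat_lit 152) (nat_lit 77238134536) (nat_lit 0) (nat_lit 64676923042) (nat_lit 5) (nat_lit 5) (nat_lit 7) (nat_lit 4) (nat_lit 5) (nat_lit 4) (nat_lit 522) (nat_lit 378) (nat_lit 300)) (XT.lf (nat_lit 0) (nat_lit 84909066839) (nat_lit 152) (nat_lit 54018102107)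 (nat_lit 0) (nat_lit 81209435847) (nat_lit 5) (nat_lit 5) (nat_lit 7) (nat_lit 4) (nat_lit 5) (nat_lit 4) (nat_lit 523) (nat_lit 378) (nat_lit 299)))) (XT.nd (nat_lit 156) (nat_lit 76) (nat_lit 0) (XT.nd (nat_lit 78) (nat_lit 0) (nat_lit 0) (XT.lf (nat_lit 0) (nat_lit 102246034296) (nat_lit 152) (nat_lit 29690746014) (nat_lit 0) (nat_lit 98542590151) (nat_lit 5) (nat_lit 5) (nat_lit 7) (nat_lit 4) (nat_lit 5) (nat_lit 4) (nat_lit 524) (nat_lit 378) (nat_lit 298)) (XT.lf (nat_lit 0) (nat_lit 120424731088) (nat_lit 152) (nat_lit 4198143981) (nat_lit 0) (nat_lit 116717655369) (nat_lit 5) (nat_lit 5) (nat_lit 7) (nat_lit 4) (nat_lit 5) (nat_lit 4) (nat_lit 525) (nat_lit 378) (nat_lit 297))) (XT.nd (nat_lit 78) (nat_lit 0) (nat_lit 0) (XT.lf (nat_lit 0) (nat_lit 23265026812) (nat_lit 76) (nat_lit 116586645283) (nat_lit 76) (nat_lit 112876110922) (nat_lit 4) (nat_lit 4) (nat_lit 5) (nat_lit 5) (nat_lit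 5) (nat_lit 4) (nat_lit 526) (nat_lit 378) (nat_lit 296)) (XT.lf (nat_lit 0) (nat_lit 52199204018) (nat_lit 76) (nat_lit 108098322141) (nat_lit 76) (nat_lit 104384493835) (nat_lit 4) (nat_lit 4) (nat_lit 5) (nat_lit 5) (nat_lit 5) (nat_lit 4) (nat_lit 527) (nat_lit 378) (nat_lit 295))))) (XT.nd (nat_lit 312) (nat_lit 0) (nat_lit 0) (XT.nd (nat_lit 156) (nat_lit 0) (nat_lit 0) (XT.nd (nat_lit 78) (nat_lit 0) (nat_lit 0) (XT.lf (nat_lit 0) (nat_lit 82534468933) (nat_lit 76) (nat_lit 99208792950) (nat_lit 76) (nat_lit 95491827553) (nat_lit 4) (nat_lit 4) (nat_lit 5) (nat_lit 5) (nat_lit 5) (nat_lit 4) (nat_lit 528) (nat_lit 378) (nat_lit 294)) (XT.lf (nat_lit 0) (nat_lit 114343048379) (nat_lit 76) (nat_lit 89896892163) (nat_lit 76) (nat_lit 86176939061) (nat_lit 4) (nat_lit 4) (nat_lit 5) (nat_lit 5) (nat_lit 5) (nat_lit 4) (nat_lit 529) (nat_lit 378) (nat_lit 293))) (XT.nd (nat_lit 78) (nat_lit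 0) (nat_lit 0) (XT.lf (nat_lit 0) (nat_lit 147700677068) (nat_lit 76) (nat_lit 80140448590) (nat_lit 76) (nat_lit 76417650054) (nat_lit 4) (nat_lit 4) (nat_lit 5) (nat_lit 5) (nat_lit 5) (nat_lit 4) (nat_lit 530) (nat_lit 378) (nat_lit 292)) (XT.lf (nat_lit 0) (nat_lit 182686777927) (nat_lit 76) (nat_lit 69916232601) (nat_lit 76) (nat_lit 66190724129) (nat_lit 4) (nat_lit 4) (nat_lit 5) (nat_lit 5) (nat_lit 5) (nat_lit 4) (nat_lit 531) (nat_lit 378) (nat_lit 291)))) (XT.nd (nat_lit 156) (nat_lit 0) (nat_lit 0) (XT.nd (nat_lit 78) (nat_lit 0) (nat_lit 0) (XT.lf (nat_lit 0) (nat_lit 219384651195) (nat_lit 76) (nat_lit 59199900827) (nat_lit 76) (nat_lit 55471811462) (nat_lit 4) (nat_lit 4) (nat_lit 5) (nat_lit 5) (nat_lit 5) (nat_lit 4) (nat_lit 532) (nat_lit 378) (nat_lit 290)) (XT.lf (nat_lit 0) (nat_lit 257881672761) (nat_lit 76) (nat_lit 47965938190) (nat_lit 76) (nat_lit 44235390833) (nat_lit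 4) (nat_lit 4) (nat_lit 5) (nat_lit 5) (nat_lit 5) (nat_lit 4) (nat_lit 533) (nat_lit 378) (nat_lit 289))) (XT.nd (nat_lit 78) (nat_lit 0) (nat_lit 0) (XT.lf (nat_lit 0) (nat_lit 298269502201) (nat_lit 76) (nat_lit 36187597162) (nat_lit 76) (nat_lit 32454708860) (nat_lit 4) (nat_lit 4) (nat_lit 5) (nat_lit 5) (nat_lit 5) (nat_lit 4) (nat_lit 534) (nat_lit 378) (nat_lit 288)) (XT.lf (nat_lit 0) (nat_lit 340644301012) (nat_lit 76) (nat_lit 23836834072) (nat_lit 76) (nat_lit 20101716299) (nat_lit 4) (nat_lit 4) (nat_lit 5) (nat_lit 5) (nat_lit 5) (nat_lit 4) (nat_lit 535) (nat_lit 378) (nat_lit 287))))))))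
noncomputable def xc49 : XT := (XT.nd (nat_lit 56238) (nat_lit 0) (nat_lit 1368) (XT.nd (nat_lit 1170) (nat_lit 0) (nat_lit 0) (XT.nd (nat_lit 546) (nat_lit 0) (nat_lit 0) (XT.nd (nat_lit 234) (nat_lit 0) (nat_lit 0) (XT.nd (nat_lit 78) (nat_lit 152) (nat_lit 0) (XT.lf (nat_lit 0) (nat_lit 385106961573) (nat_lit 76) (nat_lit 10884242343) (nat_lit 76) (nat_lit 7147001263) (nat_lit 4) (nat_lit 4) (nat_lit 5) (nat_lit 5) (nat_lit 5) (nat_lit 4) (nat_lit 536) (nat_lit 378) (nat_lit 286)) (XT.nd (nat_lit 78) (nat_lit 0) (nat_lit 0) (XT.lf (nat_lit 0) (nat_lit 6426179403) (nat_lit 152) (nat_lit 413316264409) (nat_lit 0) (nat_lit 2864976282) (nat_lit 2) (nat_lit 5) (nat_lit 4) (nat_lit 4) (nat_lit 2) (nat_lit 4) (nat_lit 537) (nat_lit 378) (nat_lit 285)) (XT.lf (nat_lit 0) (nat_lit 20911960157) (nat_lit 152) (nat_lit 404759648234) (nat_lit 0) (nat_lit 17348922844) (nat_lit 2) (nat_lit 5) (nat_lit 4)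 (nat_lit 4) (nat_lit 2) (nat_lit 4) (nat_lit 538) (nat_lit 378) (nat_lit 284)))) (XT.nd (nat_lit 156) (nat_lit 0) (nat_lit 0) (XT.nd (nat_lit 78) (nat_lit 0) (nat_lit 0) (XT.lf (nat_lit 0) (nat_lit 36108051943) (nat_lit 152) (nat_lit 395803677146) (nat_lit 0) (nat_lit 32543267781) (nat_lit 2) (nat_lit 5) (nat_lit 4) (nat_lit 4) (nat_lit 2) (nat_lit 4) (nat_lit 539) (nat_lit 378) (nat_lit 283)) (XT.lf (nat_lit 0) (nat_lit 52050635932) (nat_lit 152) (nat_lit 386427027404) (nat_lit 0) (nat_lit 48484188104) (nat_lit 2) (nat_lit 5) (nat_lit 4) (nat_lit 4) (nat_lit 2) (nat_lit 4) (nat_lit 540) (nat_lit 378) (nat_lit 282))) (XT.nd (nat_lit 78) (nat_lit 0) (nat_lit 0) (XT.lf (nat_lit 0) (nat_lit 68777670658) (nat_lit 152) (nat_lit 376607373651) (nat_lit 0) (nat_lit 65209638386) (nat_lit 2) (nat_lit 5) (nat_lit 4) (nat_lit 4) (nat_lit 2) (nat_lit 4) (nat_lit 541) (nat_lit 378) (nat_lit 281)) (XT.lf (nat_lit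 0) (nat_lit 86328982393) (nat_lit 152) (nat_lit 366321335760) (nat_lit 0) (nat_lit 82759441127) (nat_lit 2) (nat_lit 5) (nat_lit 4) (nat_lit 4) (nat_lit 2) (nat_lit 4) (nat_lit 542) (nat_lit 378) (nat_lit 280))))) (XT.nd (nat_lit 312) (nat_lit 0) (nat_lit 0) (XT.nd (nat_lit 156) (nat_lit 0) (nat_lit 0) (XT.nd (nat_lit 78) (nat_lit 0) (nat_lit 0) (XT.lf (nat_lit 0) (nat_lit 104746359975) (nat_lit 152) (nat_lit 355544423163) (nat_lit 0) (nat_lit 101175381572) (nat_lit 2) (nat_lit 5) (nat_lit 4) (nat_lit 4) (nat_lit 2) (nat_lit 4) (nat_lit 543) (nat_lit 378) (nat_lit 279)) (XT.lf (nat_lit 0) (nat_lit 124073654304) (nat_lit 152) (nat_lit 344250976546) (nat_lit 0) (nat_lit 120501307199) (nat_lit 2) (nat_lit 5) (nat_lit 4) (nat_lit 4) (nat_lit 2) (nat_lit 4) (nat_lit 544) (nat_lit 378) (nat_lit 278))) (XT.nd (nat_lit 78) (nat_lit 0) (nat_lit 0) (XT.lf (nat_lit 0) (nat_lit 144356882746) (nat_lit 152)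 (nat_lit 332414106749) (nat_lit 0) (nat_lit 140783232115) (nat_lit 2) (nat_lit 5) (nat_lit 4) (nat_lit 4) (nat_lit 2) (nat_lit 4) (nat_lit 545) (nat_lit 378) (nat_lit 277)) (XT.lf (nat_lit 0) (nat_lit 165644338702) (nat_lit 152) (nat_lit 320005630749) (nat_lit 0) (nat_lit 162069446618) (nat_lit 2) (nat_lit 5) (nat_lit 4) (nat_lit 4) (nat_lit 2) (nat_lit 4) (nat_lit 546) (nat_lit 378) (nat_lit 276)))) (XT.nd (nat_lit 156) (nat_lit 0) (nat_lit 0) (XT.nd (nat_lit 78) (nat_lit 0) (nat_lit 0) (XT.lf (nat_lit 0) (nat_lit 187986706592) (nat_lit 152) (nat_lit 306996004556) (nat_lit 0) (nat_lit 184410632172) (nat_lit 2) (nat_lit 5) (nat_lit 4) (nat_lit 4) (nat_lit 2) (nat_lit 4) (nat_lit 547) (nat_lit 378) (nat_lit 275)) (XT.lf (nat_lit 0) (nat_lit 211437182530) (nat_lit 152) (nat_lit 293354252869) (nat_lit 0) (nat_lit 207859982075) (nat_lit 2) (nat_lit 5) (nat_lit 4) (nat_lit 4) (nat_lit 2) (nat_lit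 4) (nat_lit 548) (nat_lit 378) (nat_lit 274))) (XT.nd (nat_lit 78) (nat_lit 0) (nat_lit 0) (XT.lf (nat_lit 0) (nat_lit 236051600982) (nat_lit 152) (nat_lit 279047895328) (nat_lit 0) (nat_lit 232473328112) (nat_lit 2) (nat_lit 5) (nat_lit 4) (nat_lit 4) (nat_lit 2) (nat_lit 4) (nat_lit 549) (nat_lit 378) (nat_lit 273)) (XT.lf (nat_lit 0) (nat_lit 261888567706) (nat_lit 152) (nat_lit 264042869175) (nat_lit 0) (nat_lit 258309273490) (nat_lit 2) (nat_lit 5) (nat_lit 4) (nat_lit 4) (nat_lit 2) (nat_lit 4) (nat_lit 550) (nat_lit 378) (nat_lit 272)))))) (XT.nd (nat_lit 54444) (nat_lit 0) (nat_lit 3572) (XT.nd (nat_lit 54132) (nat_lit 0) (nat_lit 4332) (XT.nd (nat_lit 53976) (nat_lit 0) (nat_lit 4940) (XT.nd (nat_lit 78) (nat_lit 0) (nat_lit 0) (XT.lf (nat_lit 0) (nat_lit 289009599289) (nat_lit 152) (nat_lit 248303448159) (nat_lit 0) (nat_lit 285429332362) (nat_lit 2) (nat_lit 5) (nat_lit 4) (nat_lit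 4) (nat_lit 2) (nat_lit 4) (nat_lit 551) (nat_lit 378) (nat_lit 271)) (XT.lf (nat_lit 0) (nat_lit 317479269617) (nat_lit 152) (nat_lit 231792157468) (nat_lit 0) (nat_lit 313898076299) (nat_lit 2) (nat_lit 5) (nat_lit 4) (nat_lit 4) (nat_lit 2) (nat_lit 4) (nat_lit 552) (nat_lit 378) (nat_lit 270))) (XT.nd (nat_lit 78) (nat_lit 152) (nat_lit 0) (XT.lf (nat_lit 0) (nat_lit 1680657689) (nat_lit 152) (nat_lit 2535381638) (nat_lit 0) (nat_lit 1680657689) (nat_lit 69) (nat_lit 5) (nat_lit 71) (nat_lit 4) (nat_lit 69) (nat_lit 4) (nat_lit 442) (nat_lit 379) (nat_lit 379)) (XT.lf (nat_lit 0) (nat_lit 5804150761) (nat_lit 152) (nat_lit 3385351630) (nat_lit 152) (nat_lit 2883917208) (nat_lit 67) (nat_lit 4) (nat_lit 69) (nat_lit 5) (nat_lit 69) (nat_lit 4) (nat_lit 443) (nat_lit 379) (nat_lit 378)))) (XT.nd (nat_lit 156) (nat_lit 304) (nat_lit 0) (XT.nd (nat_lit 78) (nat_lit 152) (nat_lit 0) (XT.lf (nat_lit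 0) (nat_lit 2839382855) (nat_lit 152) (nat_lit 7619172048) (nat_lit 0) (nat_lit 1907010459) (nat_lit 65) (nat_lit 5) (nat_lit 67) (nat_lit 4) (nat_lit 65) (nat_lit 4) (nat_lit 444) (nat_lit 379) (nat_lit 377)) (XT.lf (nat_lit 0) (nat_lit 3507089469) (nat_lit 152) (nat_lit 5263729908) (nat_lit 152) (nat_lit 3898199605) (nat_lit 63) (nat_lit 4) (nat_lit 65) (nat_lit 5) (nat_lit 65) (nat_lit 4) (nat_lit 445) (nat_lit 379) (nat_lit 376))) (XT.nd (nat_lit 78) (nat_lit 152) (nat_lit 0) (XT.lf (nat_lit 0) (nat_lit 1916429232) (nat_lit 152) (nat_lit 10848136094) (nat_lit 0) (nat_lit 223037190) (nat_lit 61) (nat_lit 5) (nat_lit 63) (nat_lit 4) (nat_lit 61) (nat_lit 4) (nat_lit 446) (nat_lit 379) (nat_lit 375)) (XT.lf (nat_lit 0) (nat_lit 507019519) (nat_lit 152) (nat_lit 7438373928) (nat_lit 152) (nat_lit 5370803799) (nat_lit 59) (nat_lit 4) (nat_lit 61) (nat_lit 5) (nat_lit 61) (nat_lit 4) (nat_lit 447)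 (nat_lit 379) (nat_lit 374))))) (XT.nd (nat_lit 312) (nat_lit 304) (nat_lit 0) (XT.nd (nat_lit 156) (nat_lit 304) (nat_lit 0) (XT.nd (nat_lit 78) (nat_lit 76) (nat_lit 0) (XT.lf (nat_lit 0) (nat_lit 584932417) (nat_lit 228) (nat_lit 1224818755) (nat_lit 76) (nat_lit 11851496834) (nat_lit 58) (nat_lit 5) (nat_lit 61) (nat_lit 5) (nat_lit 59) (nat_lit 4) (nat_lit 448) (nat_lit 379) (nat_lit 373)) (XT.lf (nat_lit 0) (nat_lit 6705704336) (nat_lit 152) (nat_lit 3237093906) (nat_lit 0) (nat_lit 4073970273) (nat_lit 57) (nat_lit 5) (nat_lit 59) (nat_lit 4) (nat_lit 57) (nat_lit 4) (nat_lit 449) (nat_lit 379) (nat_lit 372))) (XT.nd (nat_lit 78) (nat_lit 152) (nat_lit 0) (XT.lf (nat_lit 0) (nat_lit 8943802260) (nat_lit 152) (nat_lit 4192817595) (nat_lit 152) (nat_lit 1253246294) (nat_lit 55) (nat_lit 4) (nat_lit 57) (nat_lit 5) (nat_lit 57) (nat_lit 4) (nat_lit 450) (nat_lit 379) (nat_lit 371)) (XT.lf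 (nat_lit 0) (nat_lit 4951142708) (nat_lit 152) (nat_lit 7953803534) (nat_lit 0) (nat_lit 1872333544) (nat_lit 53) (nat_lit 5) (nat_lit 55) (nat_lit 4) (nat_lit 53) (nat_lit 4) (nat_lit 451) (nat_lit 379) (nat_lit 370)))) (XT.nd (nat_lit 156) (nat_lit 76) (nat_lit 0) (XT.nd (nat_lit 78) (nat_lit 152) (nat_lit 0) (XT.lf (nat_lit 0) (nat_lit 4414872861) (nat_lit 76) (nat_lit 7055286865) (nat_lit 76) (nat_lit 3710556320) (nat_lit 52) (nat_lit 4) (nat_lit 53) (nat_lit 5) (nat_lit 53) (nat_lit 4) (nat_lit 452) (nat_lit 379) (nat_lit 369)) (XT.lf (nat_lit 0) (nat_lit 1739489761) (nat_lit 76) (nat_lit 864158416) (nat_lit 152) (nat_lit 12999584387) (nat_lit 50) (nat_lit 5) (nat_lit 51) (nat_lit 5) (nat_lit 52) (nat_lit 4) (nat_lit 453) (nat_lit 379) (nat_lit 368))) (XT.nd (nat_lit 78) (nat_lit 76) (nat_lit 0) (XT.lf (nat_lit 0) (nat_lit 9198510128) (nat_lit 152) (nat_lit 1298704716) (nat_lit 0) (nat_lit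 5542141049) (nat_lit 50) (nat_lit 5) (nat_lit 52) (nat_lit 4) (nat_lit 50) (nat_lit 4) (nat_lit 454) (nat_lit 379) (nat_lit 367)) (XT.lf (nat_lit 0) (nat_lit 11925950821) (nat_lit 76) (nat_lit 4222605148) (nat_lit 76) (nat_lit 347461891) (nat_lit 49) (nat_lit 4) (nat_lit 50) (nat_lit 5) (nat_lit 50) (nat_lit 4) (nat_lit 455) (nat_lit 379) (nat_lit 366))))))) (XT.nd (nat_lit 1170) (nat_lit 912) (nat_lit 0) (XT.nd (nat_lit 546) (nat_lit 608) (nat_lit 0) (XT.nd (nat_lit 234) (nat_lit 304) (nat_lit 0) (XT.nd (nat_lit 78) (nat_lit 228) (nat_lit 0) (XT.lf (nat_lit 0) (nat_lit 6286135197) (nat_lit 152) (nat_lit 8286110508) (nat_lit 0) (nat_lit 2397087943) (nat_lit 47) (nat_lit 5) (nat_lit 49) (nat_lit 4) (nat_lit 47) (nat_lit 4) (nat_lit 456) (nat_lit 379) (nat_lit 365)) (XT.nd (nat_lit 78) (nat_lit 152) (nat_lit 0) (XT.lf (nat_lit 0) (nat_lit 5043446711) (nat_lit 76) (nat_lit 8248992509) (nat_lit 76)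 (nat_lit 4170959895) (nat_lit 46) (nat_lit 4) (nat_lit 47) (nat_lit 5) (nat_lit 47) (nat_lit 4) (nat_lit 457) (nat_lit 379) (nat_lit 364)) (XT.lf (nat_lit 0) (nat_lit 1002671052) (nat_lit 76) (nat_lit 1563519057) (nat_lit 152) (nat_lit 15414666566) (nat_lit 44) (nat_lit 5) (nat_lit 45) (nat_lit 5) (nat_lit 46) (nat_lit 4) (nat_lit 458) (nat_lit 379) (nat_lit 363)))) (XT.nd (nat_lit 156) (nat_lit 228) (nat_lit 0) (XT.nd (nat_lit 78) (nat_lit 76) (nat_lit 0) (XT.lf (nat_lit 0) (nat_lit 9625933838) (nat_lit 152) (nat_lit 3481117129) (nat_lit 0) (nat_lit 5407425300) (nat_lit 44) (nat_lit 5) (nat_lit 46) (nat_lit 4) (nat_lit 44) (nat_lit 4) (nat_lit 459) (nat_lit 379) (nat_lit 362)) (XT.lf (nat_lit 0) (nat_lit 10685210870) (nat_lit 76) (nat_lit 6381087382) (nat_lit 76) (nat_lit 2007100120) (nat_lit 43) (nat_lit 4) (nat_lit 44) (nat_lit 5) (nat_lit 44) (nat_lit 4) (nat_lit 460) (nat_lit 379) (nat_lit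 361))) (XT.nd (nat_lit 78) (nat_lit 76) (nat_lit 0) (XT.lf (nat_lit 0) (nat_lit 5049337608) (nat_lit 152) (nat_lit 13864349252) (nat_lit 0) (nat_lit 742611669) (nat_lit 41) (nat_lit 5) (nat_lit 43) (nat_lit 4) (nat_lit 41) (nat_lit 4) (nat_lit 461) (nat_lit 379) (nat_lit 360)) (XT.lf (nat_lit 0) (nat_lit 256776260) (nat_lit 76) (nat_lit 12223257467) (nat_lit 76) (nat_lit 7782223161) (nat_lit 40) (nat_lit 4) (nat_lit 41) (nat_lit 5) (nat_lit 41) (nat_lit 4) (nat_lit 462) (nat_lit 379) (nat_lit 359))))) (XT.nd (nat_lit 312) (nat_lit 304) (nat_lit 0) (XT.nd (nat_lit 156) (nat_lit 152) (nat_lit 0) (XT.nd (nat_lit 78) (nat_lit 152) (nat_lit 0) (XT.lf (nat_lit 0) (nat_lit 15247828230) (nat_lit 76) (nat_lit 5107978747) (nat_lit 76) (nat_lit 539031710) (nat_lit 40) (nat_lit 4) (nat_lit 41) (nat_lit 5) (nat_lit 41) (nat_lit 4) (nat_lit 463) (nat_lit 379) (nat_lit 358)) (XT.lf (nat_lit 0) (nat_lit 6868123467)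 (nat_lit 152) (nat_lit 12283289006) (nat_lit 0) (nat_lit 2400724719) (nat_lit 38) (nat_lit 5) (nat_lit 40) (nat_lit 4) (nat_lit 38) (nat_lit 4) (nat_lit 464) (nat_lit 379) (nat_lit 357))) (XT.nd (nat_lit 78) (nat_lit 76) (nat_lit 0) (XT.lf (nat_lit 0) (nat_lit 2569224054) (nat_lit 76) (nat_lit 12123632419) (nat_lit 76) (nat_lit 7545737845) (nat_lit 37) (nat_lit 4) (nat_lit 38) (nat_lit 5) (nat_lit 38) (nat_lit 4) (nat_lit 465) (nat_lit 379) (nat_lit 356)) (XT.lf (nat_lit 0) (nat_lit 6960327) (nat_lit 152) (nat_lit 4668860023) (nat_lit 76) (nat_lit 18280800945) (nat_lit 36) (nat_lit 5) (nat_lit 38) (nat_lit 5) (nat_lit 37) (nat_lit 4) (nat_lit 466) (nat_lit 379) (nat_lit 355)))) (XT.nd (nat_lit 156) (nat_lit 152) (nat_lit 0) (XT.nd (nat_lit 78) (nat_lit 76) (nat_lit 0) (XT.lf (nat_lit 0) (nat_lit 7759252344) (nat_lit 152) (nat_lit 12737657624) (nat_lit 0) (nat_lit 3203679329) (nat_lit 35) (nat_lit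 5) (nat_lit 37) (nat_lit 4) (nat_lit 35) (nat_lit 4) (nat_lit 467) (nat_lit 379) (nat_lit 354)) (XT.lf (nat_lit 0) (nat_lit 2777840852) (nat_lit 76) (nat_lit 13173883333) (nat_lit 76) (nat_lit 8527405128) (nat_lit 34) (nat_lit 4) (nat_lit 35) (nat_lit 5) (nat_lit 35) (nat_lit 4) (nat_lit 468) (nat_lit 379) (nat_lit 353))) (XT.nd (nat_lit 78) (nat_lit 152) (nat_lit 0) (XT.lf (nat_lit 0) (nat_lit 19222353011) (nat_lit 76) (nat_lit 5401889274) (nat_lit 76) (nat_lit 668834698) (nat_lit 34) (nat_lit 4) (nat_lit 35) (nat_lit 5) (nat_lit 35) (nat_lit 4) (nat_lit 469) (nat_lit 379) (nat_lit 352)) (XT.lf (nat_lit 0) (nat_lit 7405164532) (nat_lit 152) (nat_lit 15914413961) (nat_lit 0) (nat_lit 2818966187) (nat_lit 32) (nat_lit 5) (nat_lit 34) (nat_lit 4) (nat_lit 32) (nat_lit 4) (nat_lit 470) (nat_lit 379) (nat_lit 351)))))) (XT.nd (nat_lit 624) (nat_lit 380) (nat_lit 0) (XT.nd (nat_lit 312) (nat_lit 304)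 (nat_lit 0) (XT.nd (nat_lit 156) (nat_lit 152) (nat_lit 0) (XT.nd (nat_lit 78) (nat_lit 0) (nat_lit 0) (XT.lf (nat_lit 0) (nat_lit 146700576) (nat_lit 76) (nat_lit 15768638569) (nat_lit 76) (nat_lit 11107652300) (nat_lit 31) (nat_lit 4) (nat_lit 32) (nat_lit 5) (nat_lit 32) (nat_lit 4) (nat_lit 471) (nat_lit 379) (nat_lit 350)) (XT.lf (nat_lit 0) (nat_lit 17287767630) (nat_lit 76) (nat_lit 7694765851) (nat_lit 76) (nat_lit 2962552987) (nat_lit 31) (nat_lit 4) (nat_lit 32) (nat_lit 5) (nat_lit 32) (nat_lit 4) (nat_lit 472) (nat_lit 379) (nat_lit 349))) (XT.nd (nat_lit 78) (nat_lit 0) (nat_lit 0) (XT.lf (nat_lit 0) (nat_lit 5387534727) (nat_lit 152) (nat_lit 22706496414) (nat_lit 0) (nat_lit 816060712) (nat_lit 29) (nat_lit 5) (nat_lit 31) (nat_lit 4) (nat_lit 29) (nat_lit 4) (nat_lit 473) (nat_lit 379) (nat_lit 348)) (XT.lf (nat_lit 0) (nat_lit 14231775353) (nat_lit 152) (nat_lit 6081561487) (nat_lit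 0) (nat_lit 9598773126) (nat_lit 29) (nat_lit 5) (nat_lit 31) (nat_lit 4) (nat_lit 29) (nat_lit 4) (nat_lit 474) (nat_lit 379) (nat_lit 347)))) (XT.nd (nat_lit 156) (nat_lit 152) (nat_lit 0) (XT.nd (nat_lit 78) (nat_lit 76) (nat_lit 0) (XT.lf (nat_lit 0) (nat_lit 11487902074) (nat_lit 76) (nat_lit 12082656068) (nat_lit 76) (nat_lit 7391055546) (nat_lit 28) (nat_lit 4) (nat_lit 29) (nat_lit 5) (nat_lit 29) (nat_lit 4) (nat_lit 475) (nat_lit 379) (nat_lit 346)) (XT.lf (nat_lit 0) (nat_lit 1248420324) (nat_lit 152) (nat_lit 2188146757) (nat_lit 76) (nat_lit 28627114521) (nat_lit 27) (nat_lit 5) (nat_lit 29) (nat_lit 5) (nat_lit 28) (nat_lit 4) (nat_lit 476) (nat_lit 379) (nat_lit 345))) (XT.nd (nat_lit 78) (nat_lit 76) (nat_lit 0) (XT.lf (nat_lit 0) (nat_lit 10294472727) (nat_lit 152) (nat_lit 17186661494) (nat_lit 0) (nat_lit 5722511961) (nat_lit 26) (nat_lit 5) (nat_lit 28) (nat_lit 4) (nat_lit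 26) (nat_lit 4) (nat_lit 477) (nat_lit 379) (nat_lit 344)) (XT.lf (nat_lit 0) (nat_lit 526959702) (nat_lit 76) (nat_lit 19247372396) (nat_lit 76) (nat_lit 14627202667) (nat_lit 25) (nat_lit 4) (nat_lit 26) (nat_lit 5) (nat_lit 26) (nat_lit 4) (nat_lit 478) (nat_lit 379) (nat_lit 343))))) (XT.nd (nat_lit 312) (nat_lit 152) (nat_lit 0) (XT.nd (nat_lit 156) (nat_lit 76) (nat_lit 0) (XT.nd (nat_lit 78) (nat_lit 152) (nat_lit 0) (XT.lf (nat_lit 0) (nat_lit 19484310331) (nat_lit 76) (nat_lit 10416236647) (nat_lit 76) (nat_lit 5750153620) (nat_lit 25) (nat_lit 4) (nat_lit 26) (nat_lit 5) (nat_lit 26) (nat_lit 4) (nat_lit 479) (nat_lit 379) (nat_lit 342)) (XT.lf (nat_lit 0) (nat_lit 2211154864) (nat_lit 76) (nat_lit 1164925546) (nat_lit 152) (nat_lit 33587476766) (nat_lit 23) (nat_lit 5) (nat_lit 24) (nat_lit 5) (nat_lit 25) (nat_lit 4) (nat_lit 480) (nat_lit 379) (nat_lit 341))) (XT.nd (nat_lit 78)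 (nat_lit 76) (nat_lit 0) (XT.lf (nat_lit 0) (nat_lit 13062363354) (nat_lit 152) (nat_lit 16722963392) (nat_lit 0) (nat_lit 8537168409) (nat_lit 23) (nat_lit 5) (nat_lit 25) (nat_lit 4) (nat_lit 23) (nat_lit 4) (nat_lit 481) (nat_lit 379) (nat_lit 340)) (XT.lf (nat_lit 0) (nat_lit 2033745041) (nat_lit 76) (nat_lit 21140763156) (nat_lit 76) (nat_lit 16577795227) (nat_lit 22) (nat_lit 4) (nat_lit 23) (nat_lit 5) (nat_lit 23) (nat_lit 4) (nat_lit 482) (nat_lit 379) (nat_lit 339)))) (XT.nd (nat_lit 156) (nat_lit 0) (nat_lit 0) (XT.nd (nat_lit 78) (nat_lit 152) (nat_lit 0) (XT.lf (nat_lit 0) (nat_lit 22092226170) (nat_lit 76) (nat_lit 11875766138) (nat_lit 76) (nat_lit 7276823939) (nat_lit 22) (nat_lit 4) (nat_lit 23) (nat_lit 5) (nat_lit 23) (nat_lit 4) (nat_lit 483) (nat_lit 379) (nat_lit 338)) (XT.lf (nat_lit 0) (nat_lit 96119259) (nat_lit 76) (nat_lit 2210867408) (nat_lit 152) (nat_lit 40508152523)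 (nat_lit 20) (nat_lit 5) (nat_lit 21) (nat_lit 5) (nat_lit 22) (nat_lit 4) (nat_lit 484) (nat_lit 379) (nat_lit 337))) (XT.nd (nat_lit 78) (nat_lit 0) (nat_lit 0) (XT.lf (nat_lit 0) (nat_lit 12475104585) (nat_lit 152) (nat_lit 23933972455) (nat_lit 0) (nat_lit 8031453982) (nat_lit 20) (nat_lit 5) (nat_lit 22) (nat_lit 4) (nat_lit 20) (nat_lit 4) (nat_lit 485) (nat_lit 379) (nat_lit 336)) (XT.lf (nat_lit 0) (nat_lit 23088888245) (nat_lit 152) (nat_lit 4445800297) (nat_lit 0) (nat_lit 18615641521) (nat_lit 20) (nat_lit 5) (nat_lit 22) (nat_lit 4) (nat_lit 20) (nat_lit 4) (nat_lit 486) (nat_lit 379) (nat_lit 335))))))))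
noncomputable def xc50 : XT := (XT.nd (nat_lit 2418) (nat_lit 380) (nat_lit 0) (XT.nd (nat_lit 1170) (nat_lit 304) (nat_lit 0) (XT.nd (nat_lit 546) (nat_lit 380) (nat_lit 0) (XT.nd (nat_lit 234) (nat_lit 76) (nat_lit 0) (XT.nd (nat_lit 78) (nat_lit 152) (nat_lit 0) (XT.lf (nat_lit 0) (nat_lit 16349707533) (nat_lit 76) (nat_lit 18044647946) (nat_lit 76) (nat_lit 13543214440) (nat_lit 19) (nat_lit 4) (nat_lit 20) (nat_lit 5) (nat_lit 20) (nat_lit 4) (nat_lit 487) (nat_lit 379) (nat_lit 334)) (XT.nd (nat_lit 78) (nat_lit 152) (nat_lit 0) (XT.lf (nat_lit 0) (nat_lit 38152043637) (nat_lit 76) (nat_lit 8095638715) (nat_lit 76) (nat_lit 3567360655) (nat_lit 19) (nat_lit 4) (nat_lit 20) (nat_lit 5) (nat_lit 20) (nat_lit 4) (nat_lit 488) (nat_lit 379) (nat_lit 333)) (XT.lf (nat_lit 0) (nat_lit 6780542755) (nat_lit 152) (nat_lit 42552190551) (nat_lit 0) (nat_lit 2443548180) (nat_lit 17) (nat_lit 5) (nat_lit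 19) (nat_lit 4) (nat_lit 17) (nat_lit 4) (nat_lit 489) (nat_lit 379) (nat_lit 332)))) (XT.nd (nat_lit 156) (nat_lit 76) (nat_lit 0) (XT.nd (nat_lit 78) (nat_lit 0) (nat_lit 0) (XT.lf (nat_lit 0) (nat_lit 17769767582) (nat_lit 152) (nat_lit 22641116399) (nat_lit 0) (nat_lit 13409583673) (nat_lit 17) (nat_lit 5) (nat_lit 19) (nat_lit 4) (nat_lit 17) (nat_lit 4) (nat_lit 490) (nat_lit 379) (nat_lit 331)) (XT.lf (nat_lit 0) (nat_lit 29223064148) (nat_lit 152) (nat_lit 1907273754) (nat_lit 0) (nat_lit 24840795157) (nat_lit 17) (nat_lit 5) (nat_lit 19) (nat_lit 4) (nat_lit 17) (nat_lit 4) (nat_lit 491) (nat_lit 379) (nat_lit 330))) (XT.nd (nat_lit 78) (nat_lit 0) (nat_lit 0) (XT.lf (nat_lit 0) (nat_lit 20350031778) (nat_lit 76) (nat_lit 21135391455) (nat_lit 76) (nat_lit 16732089053) (nat_lit 16) (nat_lit 4) (nat_lit 17) (nat_lit 5) (nat_lit 17) (nat_lit 4) (nat_lit 492) (nat_lit 379) (nat_lit 329))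 (XT.lf (nat_lit 0) (nat_lit 43624515629) (nat_lit 76) (nat_lit 10688706689) (nat_lit 76) (nat_lit 6265372467) (nat_lit 16) (nat_lit 4) (nat_lit 17) (nat_lit 5) (nat_lit 17) (nat_lit 4) (nat_lit 493) (nat_lit 379) (nat_lit 328))))) (XT.nd (nat_lit 312) (nat_lit 152) (nat_lit 0) (XT.nd (nat_lit 156) (nat_lit 76) (nat_lit 0) (XT.nd (nat_lit 78) (nat_lit 0) (nat_lit 0) (XT.lf (nat_lit 0) (nat_lit 4578658703) (nat_lit 152) (nat_lit 58127334911) (nat_lit 0) (nat_lit 347789993) (nat_lit 14) (nat_lit 5) (nat_lit 16) (nat_lit 4) (nat_lit 14) (nat_lit 4) (nat_lit 494) (nat_lit 379) (nat_lit 327)) (XT.lf (nat_lit 0) (nat_lit 16144031523) (nat_lit 152) (nat_lit 37588221694) (nat_lit 0) (nat_lit 11895858574) (nat_lit 14) (nat_lit 5) (nat_lit 16) (nat_lit 4) (nat_lit 14) (nat_lit 4) (nat_lit 495) (nat_lit 379) (nat_lit 326))) (XT.nd (nat_lit 78) (nat_lit 76) (nat_lit 0) (XT.lf (nat_lit 0) (nat_lit 28213997252)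 (nat_lit 152) (nat_lit 16171499184) (nat_lit 0) (nat_lit 23949344075) (nat_lit 14) (nat_lit 5) (nat_lit 16) (nat_lit 4) (nat_lit 14) (nat_lit 4) (nat_lit 496) (nat_lit 379) (nat_lit 325)) (XT.lf (nat_lit 0) (nat_lit 6377959344) (nat_lit 76) (nat_lit 34538912378) (nat_lit 76) (nat_lit 30258563746) (nat_lit 13) (nat_lit 4) (nat_lit 14) (nat_lit 5) (nat_lit 14) (nat_lit 4) (nat_lit 497) (nat_lit 379) (nat_lit 324)))) (XT.nd (nat_lit 156) (nat_lit 152) (nat_lit 0) (XT.nd (nat_lit 78) (nat_lit 0) (nat_lit 0) (XT.lf (nat_lit 0) (nat_lit 30476388207) (nat_lit 76) (nat_lit 23983362948) (nat_lit 76) (nat_lit 19688066264) (nat_lit 13) (nat_lit 4) (nat_lit 14) (nat_lit 5) (nat_lit 14) (nat_lit 4) (nat_lit 498) (nat_lit 379) (nat_lit 323)) (XT.lf (nat_lit 0) (nat_lit 55646461818) (nat_lit 76) (nat_lit 12967588051) (nat_lit 76) (nat_lit 8658055127) (nat_lit 13) (nat_lit 4) (nat_lit 14) (nat_lit 5) (nat_lit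 14) (nat_lit 4) (nat_lit 499) (nat_lit 379) (nat_lit 322))) (XT.nd (nat_lit 78) (nat_lit 0) (nat_lit 0) (XT.lf (nat_lit 0) (nat_lit 1392317603) (nat_lit 76) (nat_lit 1395686714) (nat_lit 152) (nat_lit 77764414902) (nat_lit 11) (nat_lit 5) (nat_lit 12) (nat_lit 5) (nat_lit 13) (nat_lit 4) (nat_lit 500) (nat_lit 379) (nat_lit 321)) (XT.lf (nat_lit 0) (nat_lit 14991977708) (nat_lit 152) (nat_lit 58111395866) (nat_lit 0) (nat_lit 10862450148) (nat_lit 11) (nat_lit 5) (nat_lit 13) (nat_lit 4) (nat_lit 11) (nat_lit 4) (nat_lit 501) (nat_lit 379) (nat_lit 320)))))) (XT.nd (nat_lit 624) (nat_lit 76) (nat_lit 0) (XT.nd (nat_lit 312) (nat_lit 152) (nat_lit 0) (XT.nd (nat_lit 156) (nat_lit 76) (nat_lit 0) (XT.nd (nat_lit 78) (nat_lit 0) (nat_lit 0) (XT.lf (nat_lit 0) (nat_lit 27768478451) (nat_lit 152) (nat_lit 36156065105) (nat_lit 0) (nat_lit 23627238700) (nat_lit 11) (nat_lit 5) (nat_lit 13) (nat_lit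 4) (nat_lit 11) (nat_lit 4) (nat_lit 502) (nat_lit 379) (nat_lit 319)) (XT.lf (nat_lit 0) (nat_lit 41126136204) (nat_lit 152) (nat_lit 13220044158) (nat_lit 0) (nat_lit 36973741986) (nat_lit 11) (nat_lit 5) (nat_lit 13) (nat_lit 4) (nat_lit 11) (nat_lit 4) (nat_lit 503) (nat_lit 379) (nat_lit 318))) (XT.nd (nat_lit 78) (nat_lit 0) (nat_lit 0) (XT.lf (nat_lit 0) (nat_lit 11106762307) (nat_lit 76) (nat_lit 44163400295) (nat_lit 76) (nat_lit 40000382775) (nat_lit 10) (nat_lit 4) (nat_lit 11) (nat_lit 5) (nat_lit 11) (nat_lit 4) (nat_lit 504) (nat_lit 379) (nat_lit 317)) (XT.lf (nat_lit 0) (nat_lit 36999176299) (nat_lit 76) (nat_lit 33292082496) (nat_lit 76) (nat_lit 29118947547) (nat_lit 10) (nat_lit 4) (nat_lit 11) (nat_lit 5) (nat_lit 11) (nat_lit 4) (nat_lit 505) (nat_lit 379) (nat_lit 316)))) (XT.nd (nat_lit 156) (nat_lit 152) (nat_lit 0) (XT.nd (nat_lit 78) (nat_lit 0) (nat_lit 0) (XT.lf (nat_lit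 0) (nat_lit 64081732058) (nat_lit 76) (nat_lit 21930230722) (nat_lit 76) (nat_lit 17747460124) (nat_lit 10) (nat_lit 4) (nat_lit 11) (nat_lit 5) (nat_lit 11) (nat_lit 4) (nat_lit 506) (nat_lit 379) (nat_lit 315)) (XT.lf (nat_lit 0) (nat_lit 92418911861) (nat_lit 76) (nat_lit 10050792943) (nat_lit 76) (nat_lit 5858845538) (nat_lit 10) (nat_lit 4) (nat_lit 11) (nat_lit 5) (nat_lit 11) (nat_lit 4) (nat_lit 507) (nat_lit 379) (nat_lit 314))) (XT.nd (nat_lit 78) (nat_lit 0) (nat_lit 0) (XT.lf (nat_lit 0) (nat_lit 6548544415) (nat_lit 152) (nat_lit 104017710854) (nat_lit 0) (nat_lit 2547889919) (nat_lit 8) (nat_lit 5) (nat_lit 10) (nat_lit 4) (nat_lit 8) (nat_lit 4) (nat_lit 508) (nat_lit 379) (nat_lit 313)) (XT.lf (nat_lit 0) (nat_lit 19770627956) (nat_lit 152) (nat_lit 82581982476) (nat_lit 0) (nat_lit 15762046188) (nat_lit 8) (nat_lit 5) (nat_lit 10) (nat_lit 4) (nat_lit 8) (nat_lit 4) (nat_lit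 509) (nat_lit 379) (nat_lit 312))))) (XT.nd (nat_lit 312) (nat_lit 0) (nat_lit 0) (XT.nd (nat_lit 156) (nat_lit 76) (nat_lit 0) (XT.nd (nat_lit 78) (nat_lit 0) (nat_lit 0) (XT.lf (nat_lit 0) (nat_lit 33608671091) (nat_lit 152) (nat_lit 60166240378) (nat_lit 0) (nat_lit 29592539541) (nat_lit 8) (nat_lit 5) (nat_lit 10) (nat_lit 4) (nat_lit 8) (nat_lit 4) (nat_lit 510) (nat_lit 379) (nat_lit 311)) (XT.lf (nat_lit 0) (nat_lit 48095621541) (nat_lit 152) (nat_lit 36717113746) (nat_lit 0) (nat_lit 44072299722) (nat_lit 8) (nat_lit 5) (nat_lit 10) (nat_lit 4) (nat_lit 8) (nat_lit 4) (nat_lit 511) (nat_lit 379) (nat_lit 310))) (XT.nd (nat_lit 78) (nat_lit 76) (nat_lit 0) (XT.lf (nat_lit 0) (nat_lit 63265972046) (nat_lit 152) (nat_lit 12178771325) (nat_lit 0) (nat_lit 59235802352) (nat_lit 8) (nat_lit 5) (nat_lit 10) (nat_lit 4) (nat_lit 8) (nat_lit 4) (nat_lit 512) (nat_lit 379) (nat_lit 309)) (XT.lf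 (nat_lit 0) (nat_lit 13953820920) (nat_lit 76) (nat_lit 65419879817) (nat_lit 76) (nat_lit 61383188337) (nat_lit 7) (nat_lit 4) (nat_lit 8) (nat_lit 5) (nat_lit 8) (nat_lit 4) (nat_lit 513) (nat_lit 379) (nat_lit 308)))) (XT.nd (nat_lit 156) (nat_lit 0) (nat_lit 0) (XT.nd (nat_lit 78) (nat_lit 0) (nat_lit 0) (XT.lf (nat_lit 0) (nat_lit 41737864167) (nat_lit 76) (nat_lit 54716846752) (nat_lit 76) (nat_lit 50673944048) (nat_lit 7) (nat_lit 4) (nat_lit 8) (nat_lit 5) (nat_lit 8) (nat_lit 4) (nat_lit 514) (nat_lit 379) (nat_lit 307)) (XT.lf (nat_lit 0) (nat_lit 70836825718) (nat_lit 76) (nat_lit 43516414151) (nat_lit 76) (nat_lit 39467595995) (nat_lit 7) (nat_lit 4) (nat_lit 8) (nat_lit 5) (nat_lit 8) (nat_lit 4) (nat_lit 515) (nat_lit 379) (nat_lit 306))) (XT.nd (nat_lit 78) (nat_lit 0) (nat_lit 0) (XT.lf (nat_lit 0) (nat_lit 101319988815) (nat_lit 76) (nat_lit 31791914317) (nat_lit 76) (nat_lit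 27737462397) (nat_lit 7) (nat_lit 4) (nat_lit 8) (nat_lit 5) (nat_lit 8) (nat_lit 4) (nat_lit 516) (nat_lit 379) (nat_lit 305)) (XT.lf (nat_lit 0) (nat_lit 133259932418) (nat_lit 76) (nat_lit 19515431774) (nat_lit 76) (nat_lit 15455614365) (nat_lit 7) (nat_lit 4) (nat_lit 8) (nat_lit 5) (nat_lit 8) (nat_lit 4) (nat_lit 517) (nat_lit 379) (nat_lit 304))))))) (XT.nd (nat_lit 1170) (nat_lit 152) (nat_lit 0) (XT.nd (nat_lit 546) (nat_lit 76) (nat_lit 0) (XT.nd (nat_lit 234) (nat_lit 0) (nat_lit 0) (XT.nd (nat_lit 78) (nat_lit 152) (nat_lit 0) (XT.lf (nat_lit 0) (nat_lit 166732704011) (nat_lit 76) (nat_lit 6657736802) (nat_lit 76) (nat_lit 2592809403) (nat_lit 7) (nat_lit 4) (nat_lit 8) (nat_lit 5) (nat_lit 8) (nat_lit 4) (nat_lit 518) (nat_lit 379) (nat_lit 303)) (XT.nd (nat_lit 78) (nat_lit 0) (nat_lit 0) (XT.lf (nat_lit 0) (nat_lit 10929705915) (nat_lit 152) (nat_lit 166112905900) (nat_lit 0) (nat_lit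 7053711576) (nat_lit 5) (nat_lit 5) (nat_lit 7) (nat_lit 4) (nat_lit 5) (nat_lit 4) (nat_lit 519) (nat_lit 379) (nat_lit 302)) (XT.lf (nat_lit 0) (nat_lit 25279053196) (nat_lit 152) (nat_lit 145923335132) (nat_lit 0) (nat_lit 21398644655) (nat_lit 5) (nat_lit 5) (nat_lit 7) (nat_lit 4) (nat_lit 5) (nat_lit 4) (nat_lit 520) (nat_lit 379) (nat_lit 301)))) (XT.nd (nat_lit 156) (nat_lit 0) (nat_lit 0) (XT.nd (nat_lit 78) (nat_lit 0) (nat_lit 0) (XT.lf (nat_lit 0) (nat_lit 40316789415) (nat_lit 152) (nat_lit 124783465775) (nat_lit 0) (nat_lit 36432176873) (nat_lit 5) (nat_lit 5) (nat_lit 7) (nat_lit 4) (nat_lit 5) (nat_lit 4) (nat_lit 521) (nat_lit 379) (nat_lit 300)) (XT.lf (nat_lit 0) (nat_lit 56078718706) (nat_lit 152) (nat_lit 102642964805) (nat_lit 0) (nat_lit 52190102354) (nat_lit 5) (nat_lit 5) (nat_lit 7) (nat_lit 4) (nat_lit 5) (nat_lit 4) (nat_lit 522) (nat_lit 379) (nat_lit 299))) (XT.nd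 (nat_lit 78) (nat_lit 0) (nat_lit 0) (XT.lf (nat_lit 0) (nat_lit 72602369473) (nat_lit 152) (nat_lit 79449116746) (nat_lit 0) (nat_lit 68709939968) (nat_lit 5) (nat_lit 5) (nat_lit 7) (nat_lit 4) (nat_lit 5) (nat_lit 4) (nat_lit 523) (nat_lit 379) (nat_lit 298)) (XT.lf (nat_lit 0) (nat_lit 89927083741) (nat_lit 152) (nat_lit 55146698148) (nat_lit 0) (nat_lit 86031022661) (nat_lit 5) (nat_lit 5) (nat_lit 7) (nat_lit 4) (nat_lit 5) (nat_lit 4) (nat_lit 524) (nat_lit 379) (nat_lit 297))))) (XT.nd (nat_lit 312) (nat_lit 0) (nat_lit 0) (XT.nd (nat_lit 156) (nat_lit 76) (nat_lit 0) (XT.nd (nat_lit 78) (nat_lit 0) (nat_lit 0) (XT.lf (nat_lit 0) (nat_lit 108094110830) (nat_lit 152) (nat_lit 29677846111) (nat_lit 0) (nat_lit 104194591108) (nat_lit 5) (nat_lit 5) (nat_lit 7) (nat_lit 4) (nat_lit 5) (nat_lit 4) (nat_lit 525) (nat_lit 379) (nat_lit 296)) (XT.lf (nat_lit 0) (nat_lit 127146705566) (nat_lit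 152) (nat_lit 2981920510) (nat_lit 0) (nat_lit 123243891899) (nat_lit 5) (nat_lit 5) (nat_lit 7) (nat_lit 4) (nat_lit 5) (nat_lit 4) (nat_lit 526) (nat_lit 379) (nat_lit 295))) (XT.nd (nat_lit 78) (nat_lit 0) (nat_lit 0) (XT.lf (nat_lit 0) (nat_lit 25831406716) (nat_lit 76) (nat_lit 121702125205) (nat_lit 76) (nat_lit 117796174447) (nat_lit 4) (nat_lit 4) (nat_lit 5) (nat_lit 5) (nat_lit 5) (nat_lit 4) (nat_lit 527) (nat_lit 379) (nat_lit 294)) (XT.lf (nat_lit 0) (nat_lit 56145477136) (nat_lit 76) (nat_lit 112823378874) (nat_lit 76) (nat_lit 108914440411) (nat_lit 4) (nat_lit 4) (nat_lit 5) (nat_lit 5) (nat_lit 5) (nat_lit 4) (nat_lit 528) (nat_lit 379) (nat_lit 293)))) (XT.nd (nat_lit 156) (nat_lit 0) (nat_lit 0) (XT.nd (nat_lit 78) (nat_lit 0) (nat_lit 0) (XT.lf (nat_lit 0) (nat_lit 87933871348) (nat_lit 76) (nat_lit 103521747479) (nat_lit 76) (nat_lit 99609963583) (nat_lit 4) (nat_lit 4) (nat_lit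 5) (nat_lit 5) (nat_lit 5) (nat_lit 4) (nat_lit 529) (nat_lit 379) (nat_lit 292)) (XT.lf (nat_lit 0) (nat_lit 121272276006) (nat_lit 76) (nat_lit 93775084278) (nat_lit 76) (nat_lit 89860590445) (nat_lit 4) (nat_lit 4) (nat_lit 5) (nat_lit 5) (nat_lit 5) (nat_lit 4) (nat_lit 530) (nat_lit 379) (nat_lit 291))) (XT.nd (nat_lit 78) (nat_lit 0) (nat_lit 0) (XT.lf (nat_lit 0) (nat_lit 156240068263) (nat_lit 76) (nat_lit 83560182930) (nat_lit 76) (nat_lit 79643108205) (nat_lit 4) (nat_lit 4) (nat_lit 5) (nat_lit 5) (nat_lit 5) (nat_lit 4) (nat_lit 531) (nat_lit 379) (nat_lit 290)) (XT.lf (nat_lit 0) (nat_lit 192920504767) (nat_lit 76) (nat_lit 72852722242) (nat_lit 76) (nat_lit 68933189525) (nat_lit 4) (nat_lit 4) (nat_lit 5) (nat_lit 5) (nat_lit 5) (nat_lit 4) (nat_lit 532) (nat_lit 379) (nat_lit 289)))))) (XT.nd (nat_lit 624) (nat_lit 0) (nat_lit 0) (XT.nd (nat_lit 312) (nat_lit 152) (nat_lit 0) (XT.nd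 (nat_lit 156) (nat_lit 0) (nat_lit 0) (XT.nd (nat_lit 78) (nat_lit 0) (nat_lit 0) (XT.lf (nat_lit 0) (nat_lit 231400919892) (nat_lit 76) (nat_lit 61627208259) (nat_lit 76) (nat_lit 57705334597) (nat_lit 4) (nat_lit 4) (nat_lit 5) (nat_lit 5) (nat_lit 5) (nat_lit 4) (nat_lit 533) (nat_lit 379) (nat_lit 288)) (XT.lf (nat_lit 0) (nat_lit 271772933673) (nat_lit 76) (nat_lit 49856913567) (nat_lit 76) (nat_lit 45932810433) (nat_lit 4) (nat_lit 4) (nat_lit 5) (nat_lit 5) (nat_lit 5) (nat_lit 4) (nat_lit 534) (nat_lit 379) (nat_lit 287))) (XT.nd (nat_lit 78) (nat_lit 0) (nat_lit 0) (XT.lf (nat_lit 0) (nat_lit 314132669952) (nat_lit 76) (nat_lit 37513813656) (nat_lit 76) (nat_lit 33587587215) (nat_lit 4) (nat_lit 4) (nat_lit 5) (nat_lit 5) (nat_lit 5) (nat_lit 4) (nat_lit 535) (nat_lit 379) (nat_lit 286)) (XT.lf (nat_lit 0) (nat_lit 358580985245) (nat_lit 76) (nat_lit 24568520191) (nat_lit 76) (nat_lit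 20640271554) (nat_lit 4) (nat_lit 4) (nat_lit 5) (nat_lit 5) (nat_lit 5) (nat_lit 4) (nat_lit 536) (nat_lit 379) (nat_lit 285)))) (XT.nd (nat_lit 156) (nat_lit 0) (nat_lit 0) (XT.nd (nat_lit 78) (nat_lit 152) (nat_lit 0) (XT.lf (nat_lit 0) (nat_lit 405223708873) (nat_lit 76) (nat_lit 10990211046) (nat_lit 76) (nat_lit 7060036508) (nat_lit 4) (nat_lit 4) (nat_lit 5) (nat_lit 5) (nat_lit 5) (nat_lit 4) (nat_lit 537) (nat_lit 379) (nat_lit 284)) (XT.lf (nat_lit 0) (nat_lit 7177397273) (nat_lit 152) (nat_lit 433106270218) (nat_lit 0) (nat_lit 3432627054) (nat_lit 2) (nat_lit 5) (nat_lit 4) (nat_lit 4) (nat_lit 2) (nat_lit 4) (nat_lit 538) (nat_lit 379) (nat_lit 283))) (XT.nd (nat_lit 78) (nat_lit 0) (nat_lit 0) (XT.lf (nat_lit 0) (nat_lit 22366995212) (nat_lit 152) (nat_lit 424163528350) (nat_lit 0) (nat_lit 18620561327) (nat_lit 2) (nat_lit 5) (nat_lit 4) (nat_lit 4) (nat_lit 2) (nat_lit 4) (nat_lit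 539) (nat_lit 379) (nat_lit 282)) (XT.lf (nat_lit 0) (nat_lit 38303394585) (nat_lit 152) (nat_lit 414799477865) (nat_lit 0) (nat_lit 34555376256) (nat_lit 2) (nat_lit 5) (nat_lit 4) (nat_lit 4) (nat_lit 2) (nat_lit 4) (nat_lit 540) (nat_lit 379) (nat_lit 281))))) (XT.nd (nat_lit 312) (nat_lit 0) (nat_lit 0) (XT.nd (nat_lit 156) (nat_lit 0) (nat_lit 0) (XT.nd (nat_lit 78) (nat_lit 0) (nat_lit 0) (XT.lf (nat_lit 0) (nat_lit 55024539200) (nat_lit 152) (nat_lit 404991823404) (nat_lit 0) (nat_lit 51275011877) (nat_lit 2) (nat_lit 5) (nat_lit 4) (nat_lit 4) (nat_lit 2) (nat_lit 4) (nat_lit 541) (nat_lit 379) (nat_lit 280)) (XT.lf (nat_lit 0) (nat_lit 72570241307) (nat_lit 152) (nat_lit 394717213410) (nat_lit 0) (nat_lit 68819276846) (nat_lit 2) (nat_lit 5) (nat_lit 4) (nat_lit 4) (nat_lit 2) (nat_lit 4) (nat_lit 542) (nat_lit 379) (nat_lit 279))) (XT.nd (nat_lit 78) (nat_lit 0) (nat_lit 0) (XT.lf (nat_lit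 0) (nat_lit 90982276385) (nat_lit 152) (nat_lit 383951184525) (nat_lit 0) (nat_lit 87229943223) (nat_lit 2) (nat_lit 5) (nat_lit 4) (nat_lit 4) (nat_lit 2) (nat_lit 4) (nat_lit 543) (nat_lit 379) (nat_lit 278)) (XT.lf (nat_lit 0) (nat_lit 110304482615) (nat_lit 152) (nat_lit 372668103347) (nat_lit 0) (nat_lit 106550845926) (nat_lit 2) (nat_lit 5) (nat_lit 4) (nat_lit 4) (nat_lit 2) (nat_lit 4) (nat_lit 544) (nat_lit 379) (nat_lit 277)))) (XT.nd (nat_lit 156) (nat_lit 0) (nat_lit 0) (XT.nd (nat_lit 78) (nat_lit 0) (nat_lit 0) (XT.lf (nat_lit 0) (nat_lit 130582865248) (nat_lit 152) (nat_lit 360841105397) (nat_lit 0) (nat_lit 126827987106) (nat_lit 2) (nat_lit 5) (nat_lit 4) (nat_lit 4) (nat_lit 2) (nat_lit 4) (nat_lit 545) (nat_lit 379) (nat_lit 276)) (XT.lf (nat_lit 0) (nat_lit 151865706149) (nat_lit 152) (nat_lit 348442031157) (nat_lit 0) (nat_lit 148109645671) (nat_lit 2) (nat_lit 5) (nat_lit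 4) (nat_lit 4) (nat_lit 2) (nat_lit 4) (nat_lit 546) (nat_lit 379) (nat_lit 275))) (XT.nd (nat_lit 78) (nat_lit 0) (nat_lit 0) (XT.lf (nat_lit 0) (nat_lit 174203678748) (nat_lit 152) (nat_lit 335441359021) (nat_lit 0) (nat_lit 170446492235) (nat_lit 2) (nat_lit 5) (nat_lit 4) (nat_lit 4) (nat_lit 2) (nat_lit 4) (nat_lit 547) (nat_lit 379) (nat_lit 274)) (XT.lf (nat_lit 0) (nat_lit 197649968694) (nat_lit 152) (nat_lit 321808135007) (nat_lit 0) (nat_lit 193891709767) (nat_lit 2) (nat_lit 5) (nat_lit 4) (nat_lit 4) (nat_lit 2) (nat_lit 4) (nat_lit 548) (nat_lit 379) (nat_lit 273))))))))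
noncomputable def xc51 : XT := (XT.nd (nat_lit 56082) (nat_lit 0) (nat_lit 912) (XT.nd (nat_lit 54834) (nat_lit 0) (nat_lit 2660) (XT.nd (nat_lit 54210) (nat_lit 0) (nat_lit 4028) (XT.nd (nat_lit 234) (nat_lit 0) (nat_lit 0) (XT.nd (nat_lit 78) (nat_lit 0) (nat_lit 0) (XT.lf (nat_lit 0) (nat_lit 222260400487) (nat_lit 152) (nat_lit 307509899058) (nat_lit 0) (nat_lit 218501120213) (nat_lit 2) (nat_lit 5) (nat_lit 4) (nat_lit 4) (nat_lit 2) (nat_lit 4) (nat_lit 549) (nat_lit 379) (nat_lit 272)) (XT.nd (nat_lit 78) (nat_lit 0) (nat_lit 0) (XT.lf (nat_lit 0) (nat_lit 248093570393) (nat_lit 152) (nat_lit 292512607757) (nat_lit 0) (nat_lit 244333317408) (nat_lit 2) (nat_lit 5) (nat_lit 4) (nat_lit 4) (nat_lit 2) (nat_lit 4) (nat_lit 550) (nat_lit 379) (nat_lit 271)) (XT.lf (nat_lit 0) (nat_lit 275210985959) (nat_lit 152) (nat_lit 276780553265) (nat_lit 0) (nat_lit 271449806584) (nat_lit 2) (nat_lit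 5) (nat_lit 4) (nat_lit 4) (nat_lit 2) (nat_lit 4) (nat_lit 551) (nat_lit 379) (nat_lit 270)))) (XT.nd (nat_lit 53820) (nat_lit 0) (nat_lit 5092) (XT.nd (nat_lit 53742) (nat_lit 0) (nat_lit 5396) (XT.lf (nat_lit 0) (nat_lit 303677212462) (nat_lit 152) (nat_lit 260276278311) (nat_lit 0) (nat_lit 299915150808) (nat_lit 2) (nat_lit 5) (nat_lit 4) (nat_lit 4) (nat_lit 2) (nat_lit 4) (nat_lit 552) (nat_lit 379) (nat_lit 269)) (XT.lf (nat_lit 0) (nat_lit 2087655166) (nat_lit 228) (nat_lit 1456077512) (nat_lit 0) (nat_lit 2087655166) (nat_lit 73) (nat_lit 5) (nat_lit 76) (nat_lit 4) (nat_lit 73) (nat_lit 4) (nat_lit 440) (nat_lit 380) (nat_lit 380))) (XT.nd (nat_lit 78) (nat_lit 152) (nat_lit 0) (XT.lf (nat_lit 0) (nat_lit 7527647292) (nat_lit 152) (nat_lit 2275391016) (nat_lit 152) (nat_lit 1722559565) (nat_lit 71) (nat_lit 4) (nat_lit 73) (nat_lit 5) (nat_lit 73) (nat_lit 4) (nat_lit 441) (nat_lit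 380) (nat_lit 379)) (XT.lf (nat_lit 0) (nat_lit 3789498807) (nat_lit 152) (nat_lit 5247258166) (nat_lit 0) (nat_lit 2761558241) (nat_lit 69) (nat_lit 5) (nat_lit 71) (nat_lit 4) (nat_lit 69) (nat_lit 4) (nat_lit 442) (nat_lit 380) (nat_lit 378))))) (XT.nd (nat_lit 312) (nat_lit 456) (nat_lit 0) (XT.nd (nat_lit 156) (nat_lit 304) (nat_lit 0) (XT.nd (nat_lit 78) (nat_lit 152) (nat_lit 0) (XT.lf (nat_lit 0) (nat_lit 5448171957) (nat_lit 152) (nat_lit 4070315356) (nat_lit 152) (nat_lit 2564818197) (nat_lit 67) (nat_lit 4) (nat_lit 69) (nat_lit 5) (nat_lit 69) (nat_lit 4) (nat_lit 443) (nat_lit 380) (nat_lit 377)) (XT.lf (nat_lit 0) (nat_lit 3034368562) (nat_lit 152) (nat_lit 8179129138) (nat_lit 0) (nat_lit 1167403836) (nat_lit 65) (nat_lit 5) (nat_lit 67) (nat_lit 4) (nat_lit 65) (nat_lit 4) (nat_lit 444) (nat_lit 380) (nat_lit 376))) (XT.nd (nat_lit 78) (nat_lit 152) (nat_lit 0) (XT.lf (nat_lit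 0) (nat_lit 2753859374) (nat_lit 152) (nat_lit 6107606480) (nat_lit 152) (nat_lit 3828110413) (nat_lit 63) (nat_lit 4) (nat_lit 65) (nat_lit 5) (nat_lit 65) (nat_lit 4) (nat_lit 445) (nat_lit 380) (nat_lit 375)) (XT.lf (nat_lit 0) (nat_lit 1167645976) (nat_lit 76) (nat_lit 705538918) (nat_lit 152) (nat_lit 11140478469) (nat_lit 61) (nat_lit 5) (nat_lit 62) (nat_lit 5) (nat_lit 63) (nat_lit 4) (nat_lit 446) (nat_lit 380) (nat_lit 374)))) (XT.nd (nat_lit 156) (nat_lit 228) (nat_lit 0) (XT.nd (nat_lit 78) (nat_lit 228) (nat_lit 0) (XT.lf (nat_lit 0) (nat_lit 7791555427) (nat_lit 152) (nat_lit 666167314) (nat_lit 0) (nat_lit 4890068622) (nat_lit 61) (nat_lit 5) (nat_lit 63) (nat_lit 4) (nat_lit 61) (nat_lit 4) (nat_lit 447) (nat_lit 380) (nat_lit 373)) (XT.lf (nat_lit 0) (nat_lit 303127070) (nat_lit 228) (nat_lit 2619466864) (nat_lit 76) (nat_lit 10775511606) (nat_lit 58) (nat_lit 5) (nat_lit 61)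 (nat_lit 5) (nat_lit 59) (nat_lit 4) (nat_lit 448) (nat_lit 380) (nat_lit 372))) (XT.nd (nat_lit 78) (nat_lit 152) (nat_lit 0) (XT.lf (nat_lit 0) (nat_lit 6292791159) (nat_lit 152) (nat_lit 4868989324) (nat_lit 0) (nat_lit 2898404055) (nat_lit 57) (nat_lit 5) (nat_lit 59) (nat_lit 4) (nat_lit 57) (nat_lit 4) (nat_lit 449) (nat_lit 380) (nat_lit 371)) (XT.lf (nat_lit 0) (nat_lit 7089810334) (nat_lit 152) (nat_lit 5518407332) (nat_lit 152) (nat_lit 1830841906) (nat_lit 55) (nat_lit 4) (nat_lit 57) (nat_lit 5) (nat_lit 57) (nat_lit 4) (nat_lit 450) (nat_lit 380) (nat_lit 370)))))) (XT.nd (nat_lit 624) (nat_lit 608) (nat_lit 0) (XT.nd (nat_lit 312) (nat_lit 380) (nat_lit 0) (XT.nd (nat_lit 156) (nat_lit 152) (nat_lit 0) (XT.nd (nat_lit 78) (nat_lit 76) (nat_lit 0) (XT.lf (nat_lit 0) (nat_lit 4249951922) (nat_lit 152) (nat_lit 10112015479) (nat_lit 0) (nat_lit 472063469) (nat_lit 53) (nat_lit 5) (nat_lit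 55) (nat_lit 4) (nat_lit 53) (nat_lit 4) (nat_lit 451) (nat_lit 380) (nat_lit 369)) (XT.lf (nat_lit 0) (nat_lit 2016480503) (nat_lit 76) (nat_lit 8629151466) (nat_lit 76) (nat_lit 4598004556) (nat_lit 52) (nat_lit 4) (nat_lit 53) (nat_lit 5) (nat_lit 53) (nat_lit 4) (nat_lit 452) (nat_lit 380) (nat_lit 368))) (XT.nd (nat_lit 78) (nat_lit 76) (nat_lit 0) (XT.lf (nat_lit 0) (nat_lit 1631749487) (nat_lit 152) (nat_lit 927258990) (nat_lit 76) (nat_lit 13113482372) (nat_lit 51) (nat_lit 5) (nat_lit 53) (nat_lit 5) (nat_lit 52) (nat_lit 4) (nat_lit 453) (nat_lit 380) (nat_lit 367)) (XT.lf (nat_lit 0) (nat_lit 8099620696) (nat_lit 152) (nat_lit 4203399122) (nat_lit 0) (nat_lit 3811946098) (nat_lit 50) (nat_lit 5) (nat_lit 52) (nat_lit 4) (nat_lit 50) (nat_lit 4) (nat_lit 454) (nat_lit 380) (nat_lit 366)))) (XT.nd (nat_lit 156) (nat_lit 152) (nat_lit 0) (XT.nd (nat_lit 78) (nat_lit 152) (nat_lit 0) (XT.lf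 (nat_lit 0) (nat_lit 8763872302) (nat_lit 76) (nat_lit 6155160169) (nat_lit 76) (nat_lit 1659129212) (nat_lit 49) (nat_lit 4) (nat_lit 50) (nat_lit 5) (nat_lit 50) (nat_lit 4) (nat_lit 455) (nat_lit 380) (nat_lit 365)) (XT.lf (nat_lit 0) (nat_lit 4848250711) (nat_lit 152) (nat_lit 11835331432) (nat_lit 0) (nat_lit 377331105) (nat_lit 47) (nat_lit 5) (nat_lit 49) (nat_lit 4) (nat_lit 47) (nat_lit 4) (nat_lit 456) (nat_lit 380) (nat_lit 364))) (XT.nd (nat_lit 78) (nat_lit 76) (nat_lit 0) (XT.lf (nat_lit 0) (nat_lit 1215046384) (nat_lit 76) (nat_lit 10498934255) (nat_lit 76) (nat_lit 5848028592) (nat_lit 46) (nat_lit 4) (nat_lit 47) (nat_lit 5) (nat_lit 47) (nat_lit 4) (nat_lit 457) (nat_lit 380) (nat_lit 363)) (XT.lf (nat_lit 0) (nat_lit 846480349) (nat_lit 152) (nat_lit 3087036239) (nat_lit 76) (nat_lit 14152076918) (nat_lit 45) (nat_lit 5) (nat_lit 47) (nat_lit 5) (nat_lit 46) (nat_lit 4) (nat_lit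 458) (nat_lit 380) (nat_lit 362))))) (XT.nd (nat_lit 312) (nat_lit 304) (nat_lit 0) (XT.nd (nat_lit 156) (nat_lit 152) (nat_lit 0) (XT.nd (nat_lit 78) (nat_lit 76) (nat_lit 0) (XT.lf (nat_lit 0) (nat_lit 7738212649) (nat_lit 152) (nat_lit 7899355286) (nat_lit 0) (nat_lit 2990047300) (nat_lit 44) (nat_lit 5) (nat_lit 46) (nat_lit 4) (nat_lit 44) (nat_lit 4) (nat_lit 459) (nat_lit 380) (nat_lit 361)) (XT.lf (nat_lit 0) (nat_lit 5966367223) (nat_lit 76) (nat_lit 9061962157) (nat_lit 76) (nat_lit 4165721834) (nat_lit 43) (nat_lit 4) (nat_lit 44) (nat_lit 5) (nat_lit 44) (nat_lit 4) (nat_lit 460) (nat_lit 380) (nat_lit 360))) (XT.nd (nat_lit 78) (nat_lit 0) (nat_lit 0) (XT.lf (nat_lit 0) (nat_lit 685190727) (nat_lit 76) (nat_lit 2106250655) (nat_lit 152) (nat_lit 16995614640) (nat_lit 41) (nat_lit 5) (nat_lit 42) (nat_lit 5) (nat_lit 43) (nat_lit 4) (nat_lit 461) (nat_lit 380) (nat_lit 359)) (XT.lf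 (nat_lit 0) (nat_lit 10108999854) (nat_lit 152) (nat_lit 5105979964) (nat_lit 0) (nat_lit 5183692734) (nat_lit 41) (nat_lit 5) (nat_lit 43) (nat_lit 4) (nat_lit 41) (nat_lit 4) (nat_lit 462) (nat_lit 380) (nat_lit 358)))) (XT.nd (nat_lit 156) (nat_lit 76) (nat_lit 0) (XT.nd (nat_lit 78) (nat_lit 152) (nat_lit 0) (XT.lf (nat_lit 0) (nat_lit 9568756876) (nat_lit 76) (nat_lit 8258745502) (nat_lit 76) (nat_lit 3211616734) (nat_lit 40) (nat_lit 4) (nat_lit 41) (nat_lit 5) (nat_lit 41) (nat_lit 4) (nat_lit 463) (nat_lit 380) (nat_lit 357)) (XT.lf (nat_lit 0) (nat_lit 3189125962) (nat_lit 76) (nat_lit 885154694) (nat_lit 152) (nat_lit 17634564259) (nat_lit 38) (nat_lit 5) (nat_lit 39) (nat_lit 5) (nat_lit 40) (nat_lit 4) (nat_lit 464) (nat_lit 380) (nat_lit 356))) (XT.nd (nat_lit 78) (nat_lit 76) (nat_lit 0) (XT.lf (nat_lit 0) (nat_lit 11772738406) (nat_lit 152) (nat_lit 3878659299) (nat_lit 0) (nat_lit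 6750219157) (nat_lit 38) (nat_lit 5) (nat_lit 40) (nat_lit 4) (nat_lit 38) (nat_lit 4) (nat_lit 465) (nat_lit 380) (nat_lit 355)) (XT.lf (nat_lit 0) (nat_lit 11571014992) (nat_lit 76) (nat_lit 8339030198) (nat_lit 76) (nat_lit 3216287977) (nat_lit 37) (nat_lit 4) (nat_lit 38) (nat_lit 5) (nat_lit 38) (nat_lit 4) (nat_lit 466) (nat_lit 380) (nat_lit 354))))))) (XT.nd (nat_lit 1170) (nat_lit 684) (nat_lit 0) (XT.nd (nat_lit 546) (nat_lit 532) (nat_lit 0) (XT.nd (nat_lit 234) (nat_lit 304) (nat_lit 0) (XT.nd (nat_lit 78) (nat_lit 76) (nat_lit 0) (XT.lf (nat_lit 0) (nat_lit 3814090992) (nat_lit 76) (nat_lit 591901037) (nat_lit 152) (nat_lit 19478468484) (nat_lit 35) (nat_lit 5) (nat_lit 36) (nat_lit 5) (nat_lit 37) (nat_lit 4) (nat_lit 467) (nat_lit 380) (nat_lit 353)) (XT.nd (nat_lit 78) (nat_lit 76) (nat_lit 0) (XT.lf (nat_lit 0) (nat_lit 12477177694) (nat_lit 152) (nat_lit 4770993998) (nat_lit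 0) (nat_lit 7420894018) (nat_lit 35) (nat_lit 5) (nat_lit 37) (nat_lit 4) (nat_lit 35) (nat_lit 4) (nat_lit 468) (nat_lit 380) (nat_lit 352)) (XT.lf (nat_lit 0) (nat_lit 11381512522) (nat_lit 76) (nat_lit 9623730835) (nat_lit 76) (nat_lit 4484993473) (nat_lit 34) (nat_lit 4) (nat_lit 35) (nat_lit 5) (nat_lit 35) (nat_lit 4) (nat_lit 469) (nat_lit 380) (nat_lit 351)))) (XT.nd (nat_lit 156) (nat_lit 152) (nat_lit 0) (XT.nd (nat_lit 78) (nat_lit 0) (nat_lit 0) (XT.lf (nat_lit 0) (nat_lit 1895326981) (nat_lit 76) (nat_lit 1574229928) (nat_lit 152) (nat_lit 22881206905) (nat_lit 32) (nat_lit 5) (nat_lit 33) (nat_lit 5) (nat_lit 34) (nat_lit 4) (nat_lit 470) (nat_lit 380) (nat_lit 350)) (XT.lf (nat_lit 0) (nat_lit 11887641426) (nat_lit 152) (nat_lit 8504583052) (nat_lit 0) (nat_lit 6847591323) (nat_lit 32) (nat_lit 5) (nat_lit 34) (nat_lit 4) (nat_lit 32) (nat_lit 4) (nat_lit 471) (nat_lit 380) (nat_lit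 349))) (XT.nd (nat_lit 78) (nat_lit 76) (nat_lit 0) (XT.lf (nat_lit 0) (nat_lit 8227239606) (nat_lit 76) (nat_lit 12526310567) (nat_lit 76) (nat_lit 7418425613) (nat_lit 31) (nat_lit 4) (nat_lit 32) (nat_lit 5) (nat_lit 32) (nat_lit 4) (nat_lit 472) (nat_lit 380) (nat_lit 348)) (XT.lf (nat_lit 0) (nat_lit 901980852) (nat_lit 152) (nat_lit 3323428828) (nat_lit 76) (nat_lit 24923665393) (nat_lit 30) (nat_lit 5) (nat_lit 32) (nat_lit 5) (nat_lit 31) (nat_lit 4) (nat_lit 473) (nat_lit 380) (nat_lit 347))))) (XT.nd (nat_lit 312) (nat_lit 228) (nat_lit 0) (XT.nd (nat_lit 156) (nat_lit 152) (nat_lit 0) (XT.nd (nat_lit 78) (nat_lit 76) (nat_lit 0) (XT.lf (nat_lit 0) (nat_lit 9563803569) (nat_lit 152) (nat_lit 16017386378) (nat_lit 0) (nat_lit 4579024725) (nat_lit 29) (nat_lit 5) (nat_lit 31) (nat_lit 4) (nat_lit 29) (nat_lit 4) (nat_lit 474) (nat_lit 380) (nat_lit 346)) (XT.lf (nat_lit 0) (nat_lit 1101456649)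 (nat_lit 76) (nat_lit 17579953919) (nat_lit 76) (nat_lit 12539367175) (nat_lit 28) (nat_lit 4) (nat_lit 29) (nat_lit 5) (nat_lit 29) (nat_lit 4) (nat_lit 475) (nat_lit 380) (nat_lit 345))) (XT.nd (nat_lit 78) (nat_lit 152) (nat_lit 0) (XT.lf (nat_lit 0) (nat_lit 19393948887) (nat_lit 76) (nat_lit 9013271100) (nat_lit 76) (nat_lit 3919533974) (nat_lit 28) (nat_lit 4) (nat_lit 29) (nat_lit 5) (nat_lit 29) (nat_lit 4) (nat_lit 476) (nat_lit 380) (nat_lit 344)) (XT.lf (nat_lit 0) (nat_lit 4929867853) (nat_lit 152) (nat_lit 28525535251) (nat_lit 0) (nat_lit 30480674) (nat_lit 26) (nat_lit 5) (nat_lit 28) (nat_lit 4) (nat_lit 26) (nat_lit 4) (nat_lit 477) (nat_lit 380) (nat_lit 343)))) (XT.nd (nat_lit 156) (nat_lit 152) (nat_lit 0) (XT.nd (nat_lit 78) (nat_lit 76) (nat_lit 0) (XT.lf (nat_lit 0) (nat_lit 14345413981) (nat_lit 152) (nat_lit 10941461000) (nat_lit 0) (nat_lit 9400113505) (nat_lit 26) (nat_lit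 5) (nat_lit 28) (nat_lit 4) (nat_lit 26) (nat_lit 4) (nat_lit 478) (nat_lit 380) (nat_lit 342)) (XT.lf (nat_lit 0) (nat_lit 7543252004) (nat_lit 76) (nat_lit 16696755622) (nat_lit 76) (nat_lit 11707728195) (nat_lit 25) (nat_lit 4) (nat_lit 26) (nat_lit 5) (nat_lit 26) (nat_lit 4) (nat_lit 479) (nat_lit 380) (nat_lit 341))) (XT.nd (nat_lit 78) (nat_lit 152) (nat_lit 0) (XT.lf (nat_lit 0) (nat_lit 27115615673) (nat_lit 76) (nat_lit 7591348105) (nat_lit 76) (nat_lit 2560675963) (nat_lit 25) (nat_lit 4) (nat_lit 26) (nat_lit 5) (nat_lit 26) (nat_lit 4) (nat_lit 480) (nat_lit 380) (nat_lit 340)) (XT.lf (nat_lit 0) (nat_lit 6887485538) (nat_lit 152) (nat_lit 29698499253) (nat_lit 0) (nat_lit 2058596229) (nat_lit 23) (nat_lit 5) (nat_lit 25) (nat_lit 4) (nat_lit 23) (nat_lit 4) (nat_lit 481) (nat_lit 380) (nat_lit 339)))))) (XT.nd (nat_lit 624) (nat_lit 380) (nat_lit 0) (XT.nd (nat_lit 312) (nat_lit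 76) (nat_lit 0) (XT.nd (nat_lit 156) (nat_lit 152) (nat_lit 0) (XT.nd (nat_lit 78) (nat_lit 76) (nat_lit 0) (XT.lf (nat_lit 0) (nat_lit 16917098899) (nat_lit 152) (nat_lit 11109182005) (nat_lit 0) (nat_lit 12052235320) (nat_lit 23) (nat_lit 5) (nat_lit 25) (nat_lit 4) (nat_lit 23) (nat_lit 4) (nat_lit 482) (nat_lit 380) (nat_lit 338)) (XT.lf (nat_lit 0) (nat_lit 8481330728) (nat_lit 76) (nat_lit 19000139545) (nat_lit 76) (nat_lit 14101014756) (nat_lit 22) (nat_lit 4) (nat_lit 23) (nat_lit 5) (nat_lit 23) (nat_lit 4) (nat_lit 483) (nat_lit 380) (nat_lit 337))) (XT.nd (nat_lit 78) (nat_lit 152) (nat_lit 0) (XT.lf (nat_lit 0) (nat_lit 29240550273) (nat_lit 76) (nat_lit 9424162285) (nat_lit 76) (nat_lit 4492407772) (nat_lit 22) (nat_lit 4) (nat_lit 23) (nat_lit 5) (nat_lit 23) (nat_lit 4) (nat_lit 484) (nat_lit 380) (nat_lit 336)) (XT.lf (nat_lit 0) (nat_lit 5430450188) (nat_lit 152) (nat_lit 38671076472)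 (nat_lit 0) (nat_lit 703945007) (nat_lit 20) (nat_lit 5) (nat_lit 22) (nat_lit 4) (nat_lit 20) (nat_lit 4) (nat_lit 485) (nat_lit 380) (nat_lit 335)))) (XT.nd (nat_lit 156) (nat_lit 0) (nat_lit 0) (XT.nd (nat_lit 78) (nat_lit 76) (nat_lit 0) (XT.lf (nat_lit 0) (nat_lit 15998248305) (nat_lit 152) (nat_lit 19275765623) (nat_lit 0) (nat_lit 11243556341) (nat_lit 20) (nat_lit 5) (nat_lit 22) (nat_lit 4) (nat_lit 20) (nat_lit 4) (nat_lit 486) (nat_lit 380) (nat_lit 334)) (XT.lf (nat_lit 0) (nat_lit 938033035) (nat_lit 76) (nat_lit 26081267319) (nat_lit 76) (nat_lit 21299730800) (nat_lit 19) (nat_lit 4) (nat_lit 20) (nat_lit 5) (nat_lit 20) (nat_lit 4) (nat_lit 487) (nat_lit 380) (nat_lit 333))) (XT.nd (nat_lit 78) (nat_lit 0) (nat_lit 0) (XT.lf (nat_lit 0) (nat_lit 22653356239) (nat_lit 76) (nat_lit 16176202229) (nat_lit 76) (nat_lit 11369099469) (nat_lit 19) (nat_lit 4) (nat_lit 20) (nat_lit 5) (nat_lit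 20) (nat_lit 4) (nat_lit 488) (nat_lit 380) (nat_lit 332)) (XT.lf (nat_lit 0) (nat_lit 45284563275) (nat_lit 76) (nat_lit 5861679590) (nat_lit 76) (nat_lit 1030228027) (nat_lit 19) (nat_lit 4) (nat_lit 20) (nat_lit 5) (nat_lit 20) (nat_lit 4) (nat_lit 489) (nat_lit 380) (nat_lit 331))))) (XT.nd (nat_lit 312) (nat_lit 152) (nat_lit 0) (XT.nd (nat_lit 156) (nat_lit 76) (nat_lit 0) (XT.nd (nat_lit 78) (nat_lit 0) (nat_lit 0) (XT.lf (nat_lit 0) (nat_lit 9745817776) (nat_lit 152) (nat_lit 39365601128) (nat_lit 0) (nat_lit 5122350254) (nat_lit 17) (nat_lit 5) (nat_lit 19) (nat_lit 4) (nat_lit 17) (nat_lit 4) (nat_lit 490) (nat_lit 380) (nat_lit 330)) (XT.lf (nat_lit 0) (nat_lit 21159444422) (nat_lit 152) (nat_lit 18712030361) (nat_lit 0) (nat_lit 16514943489) (nat_lit 17) (nat_lit 5) (nat_lit 19) (nat_lit 4) (nat_lit 17) (nat_lit 4) (nat_lit 491) (nat_lit 380) (nat_lit 329))) (XT.nd (nat_lit 78) (nat_lit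 0) (nat_lit 0) (XT.lf (nat_lit 0) (nat_lit 2910656857) (nat_lit 76) (nat_lit 30201088258) (nat_lit 76) (nat_lit 25536555505) (nat_lit 16) (nat_lit 4) (nat_lit 17) (nat_lit 5) (nat_lit 17) (nat_lit 4) (nat_lit 492) (nat_lit 380) (nat_lit 328)) (XT.lf (nat_lit 0) (nat_lit 26109924355) (nat_lit 76) (nat_lit 19792463718) (nat_lit 76) (nat_lit 15108853042) (nat_lit 16) (nat_lit 4) (nat_lit 17) (nat_lit 5) (nat_lit 17) (nat_lit 4) (nat_lit 493) (nat_lit 380) (nat_lit 327)))) (XT.nd (nat_lit 156) (nat_lit 0) (nat_lit 0) (XT.nd (nat_lit 78) (nat_lit 152) (nat_lit 0) (XT.lf (nat_lit 0) (nat_lit 50322304256) (nat_lit 76) (nat_lit 8937716014) (nat_lit 76) (nat_lit 4235935886) (nat_lit 16) (nat_lit 4) (nat_lit 17) (nat_lit 5) (nat_lit 17) (nat_lit 4) (nat_lit 494) (nat_lit 380) (nat_lit 326)) (XT.lf (nat_lit 0) (nat_lit 7073569652) (nat_lit 152) (nat_lit 56440390192) (nat_lit 0) (nat_lit 2579203589) (nat_lit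 14) (nat_lit 5) (nat_lit 16) (nat_lit 4) (nat_lit 14) (nat_lit 4) (nat_lit 495) (nat_lit 380) (nat_lit 325))) (XT.nd (nat_lit 78) (nat_lit 0) (nat_lit 0) (XT.lf (nat_lit 0) (nat_lit 19109307398) (nat_lit 152) (nat_lit 35093050431) (nat_lit 0) (nat_lit 14599245880) (nat_lit 14) (nat_lit 5) (nat_lit 16) (nat_lit 4) (nat_lit 14) (nat_lit 4) (nat_lit 496) (nat_lit 380) (nat_lit 324)) (XT.lf (nat_lit 0) (nat_lit 31680005971) (nat_lit 152) (nat_lit 12813805241) (nat_lit 0) (nat_lit 27154996400) (nat_lit 14) (nat_lit 5) (nat_lit 16) (nat_lit 4) (nat_lit 14) (nat_lit 4) (nat_lit 497) (nat_lit 380) (nat_lit 323))))))))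
noncomputable def xc52 : XT := (XT.nd (nat_lit 2418) (nat_lit 152) (nat_lit 0) (XT.nd (nat_lit 1170) (nat_lit 304) (nat_lit 0) (XT.nd (nat_lit 546) (nat_lit 228) (nat_lit 0) (XT.nd (nat_lit 234) (nat_lit 152) (nat_lit 0) (XT.nd (nat_lit 78) (nat_lit 0) (nat_lit 0) (XT.lf (nat_lit 0) (nat_lit 10795928329) (nat_lit 76) (nat_lit 34188221972) (nat_lit 76) (nat_lit 29648976161) (nat_lit 13) (nat_lit 4) (nat_lit 14) (nat_lit 5) (nat_lit 14) (nat_lit 4) (nat_lit 498) (nat_lit 380) (nat_lit 322)) (XT.nd (nat_lit 78) (nat_lit 0) (nat_lit 0) (XT.lf (nat_lit 0) (nat_lit 35904084776) (nat_lit 76) (nat_lit 23203830120) (nat_lit 76) (nat_lit 18651025985) (nat_lit 13) (nat_lit 4) (nat_lit 14) (nat_lit 5) (nat_lit 14) (nat_lit 4) (nat_lit 499) (nat_lit 380) (nat_lit 321)) (XT.lf (nat_lit 0) (nat_lit 62146763155) (nat_lit 76) (nat_lit 11731490334) (nat_lit 76) (nat_lit 7165773509) (nat_lit 13) (nat_lit 4) (nat_lit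 14) (nat_lit 5) (nat_lit 14) (nat_lit 4) (nat_lit 500) (nat_lit 380) (nat_lit 320)))) (XT.nd (nat_lit 156) (nat_lit 0) (nat_lit 0) (XT.nd (nat_lit 78) (nat_lit 0) (nat_lit 0) (XT.lf (nat_lit 0) (nat_lit 4766850031) (nat_lit 152) (nat_lit 79314374344) (nat_lit 0) (nat_lit 406836102) (nat_lit 11) (nat_lit 5) (nat_lit 13) (nat_lit 4) (nat_lit 11) (nat_lit 4) (nat_lit 501) (nat_lit 380) (nat_lit 319)) (XT.lf (nat_lit 0) (nat_lit 17515220029) (nat_lit 152) (nat_lit 57416153998) (nat_lit 0) (nat_lit 13144051633) (nat_lit 11) (nat_lit 5) (nat_lit 13) (nat_lit 4) (nat_lit 11) (nat_lit 4) (nat_lit 502) (nat_lit 380) (nat_lit 318))) (XT.nd (nat_lit 78) (nat_lit 0) (nat_lit 0) (XT.lf (nat_lit 0) (nat_lit 30846086597) (nat_lit 152) (nat_lit 34534523922) (nat_lit 0) (nat_lit 26464294900) (nat_lit 11) (nat_lit 5) (nat_lit 13) (nat_lit 4) (nat_lit 11) (nat_lit 4) (nat_lit 503) (nat_lit 380) (nat_lit 317)) (XT.lf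 (nat_lit 0) (nat_lit 44791189894) (nat_lit 152) (nat_lit 10615004043) (nat_lit 0) (nat_lit 40399280767) (nat_lit 11) (nat_lit 5) (nat_lit 13) (nat_lit 4) (nat_lit 11) (nat_lit 4) (nat_lit 504) (nat_lit 380) (nat_lit 316))))) (XT.nd (nat_lit 312) (nat_lit 152) (nat_lit 0) (XT.nd (nat_lit 156) (nat_lit 0) (nat_lit 0) (XT.nd (nat_lit 78) (nat_lit 0) (nat_lit 0) (XT.lf (nat_lit 0) (nat_lit 14875464643) (nat_lit 76) (nat_lit 44740515595) (nat_lit 76) (nat_lit 40338970820) (nat_lit 10) (nat_lit 4) (nat_lit 11) (nat_lit 5) (nat_lit 11) (nat_lit 4) (nat_lit 505) (nat_lit 380) (nat_lit 315)) (XT.lf (nat_lit 0) (nat_lit 41909481990) (nat_lit 76) (nat_lit 33403301179) (nat_lit 76) (nat_lit 28992579597) (nat_lit 10) (nat_lit 4) (nat_lit 11) (nat_lit 5) (nat_lit 11) (nat_lit 4) (nat_lit 506) (nat_lit 380) (nat_lit 314))) (XT.nd (nat_lit 78) (nat_lit 0) (nat_lit 0) (XT.lf (nat_lit 0) (nat_lit 70200434734)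 (nat_lit 76) (nat_lit 21547327551) (nat_lit 76) (nat_lit 17127866152) (nat_lit 10) (nat_lit 4) (nat_lit 11) (nat_lit 5) (nat_lit 11) (nat_lit 4) (nat_lit 507) (nat_lit 380) (nat_lit 313)) (XT.lf (nat_lit 0) (nat_lit 99815682286) (nat_lit 76) (nat_lit 9144366203) (nat_lit 76) (nat_lit 4716581169) (nat_lit 10) (nat_lit 4) (nat_lit 11) (nat_lit 5) (nat_lit 11) (nat_lit 4) (nat_lit 508) (nat_lit 380) (nat_lit 312)))) (XT.nd (nat_lit 156) (nat_lit 0) (nat_lit 0) (XT.nd (nat_lit 78) (nat_lit 0) (nat_lit 0) (XT.lf (nat_lit 0) (nat_lit 8264442847) (nat_lit 152) (nat_lit 106396026313) (nat_lit 0) (nat_lit 4039954937) (nat_lit 8) (nat_lit 5) (nat_lit 10) (nat_lit 4) (nat_lit 8) (nat_lit 4) (nat_lit 509) (nat_lit 380) (nat_lit 311)) (XT.lf (nat_lit 0) (nat_lit 22081512889) (nat_lit 152) (nat_lit 84022919615) (nat_lit 0) (nat_lit 17849834710) (nat_lit 8) (nat_lit 5) (nat_lit 10) (nat_lit 4) (nat_lit 8) (nat_lit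 4) (nat_lit 510) (nat_lit 380) (nat_lit 310))) (XT.nd (nat_lit 78) (nat_lit 0) (nat_lit 0) (XT.lf (nat_lit 0) (nat_lit 36548488964) (nat_lit 152) (nat_lit 60614398126) (nat_lit 0) (nat_lit 32309962910) (nat_lit 8) (nat_lit 5) (nat_lit 10) (nat_lit 4) (nat_lit 8) (nat_lit 4) (nat_lit 511) (nat_lit 380) (nat_lit 309)) (XT.lf (nat_lit 0) (nat_lit 51699816255) (nat_lit 152) (nat_lit 36114727270) (nat_lit 0) (nat_lit 47454768415) (nat_lit 8) (nat_lit 5) (nat_lit 10) (nat_lit 4) (nat_lit 8) (nat_lit 4) (nat_lit 512) (nat_lit 380) (nat_lit 308)))))) (XT.nd (nat_lit 624) (nat_lit 76) (nat_lit 0) (XT.nd (nat_lit 312) (nat_lit 152) (nat_lit 0) (XT.nd (nat_lit 156) (nat_lit 0) (nat_lit 0) (XT.nd (nat_lit 78) (nat_lit 76) (nat_lit 0) (XT.lf (nat_lit 0) (nat_lit 67571569350) (nat_lit 152) (nat_lit 10465574499) (nat_lit 0) (nat_lit 63320310286) (nat_lit 8) (nat_lit 5) (nat_lit 10) (nat_lit 4) (nat_lit 8) (nat_lit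 4) (nat_lit 513) (nat_lit 380) (nat_lit 307)) (XT.lf (nat_lit 0) (nat_lit 16936193562) (nat_lit 76) (nat_lit 67529766019) (nat_lit 76) (nat_lit 63272591503) (nat_lit 7) (nat_lit 4) (nat_lit 8) (nat_lit 5) (nat_lit 8) (nat_lit 4) (nat_lit 514) (nat_lit 380) (nat_lit 306))) (XT.nd (nat_lit 78) (nat_lit 0) (nat_lit 0) (XT.lf (nat_lit 0) (nat_lit 46000644610) (nat_lit 76) (nat_lit 56346872148) (nat_lit 76) (nat_lit 52084063869) (nat_lit 7) (nat_lit 4) (nat_lit 8) (nat_lit 5) (nat_lit 8) (nat_lit 4) (nat_lit 515) (nat_lit 380) (nat_lit 305)) (XT.lf (nat_lit 0) (nat_lit 76450940561) (nat_lit 76) (nat_lit 44639075867) (nat_lit 76) (nat_lit 40370902098) (nat_lit 7) (nat_lit 4) (nat_lit 8) (nat_lit 5) (nat_lit 8) (nat_lit 4) (nat_lit 516) (nat_lit 380) (nat_lit 304)))) (XT.nd (nat_lit 156) (nat_lit 152) (nat_lit 0) (XT.nd (nat_lit 78) (nat_lit 0) (nat_lit 0) (XT.lf (nat_lit 0) (nat_lit 108359582120) (nat_lit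 76) (nat_lit 32378501470) (nat_lit 76) (nat_lit 28105217711) (nat_lit 7) (nat_lit 4) (nat_lit 8) (nat_lit 5) (nat_lit 8) (nat_lit 4) (nat_lit 517) (nat_lit 380) (nat_lit 303)) (XT.lf (nat_lit 0) (nat_lit 141802542242) (nat_lit 76) (nat_lit 19535957112) (nat_lit 76) (nat_lit 15257806696) (nat_lit 7) (nat_lit 4) (nat_lit 8) (nat_lit 5) (nat_lit 8) (nat_lit 4) (nat_lit 518) (nat_lit 380) (nat_lit 302))) (XT.nd (nat_lit 78) (nat_lit 152) (nat_lit 0) (XT.lf (nat_lit 0) (nat_lit 176859447024) (nat_lit 76) (nat_lit 6080865308) (nat_lit 76) (nat_lit 1798079981) (nat_lit 7) (nat_lit 4) (nat_lit 8) (nat_lit 5) (nat_lit 8) (nat_lit 4) (nat_lit 519) (nat_lit 380) (nat_lit 301)) (XT.lf (nat_lit 0) (nat_lit 12370530103) (nat_lit 152) (nat_lit 172598406915) (nat_lit 0) (nat_lit 8287482933) (nat_lit 5) (nat_lit 5) (nat_lit 7) (nat_lit 4) (nat_lit 5) (nat_lit 4) (nat_lit 520) (nat_lit 380) (nat_lit 300))))) (XT.nd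 (nat_lit 312) (nat_lit 76) (nat_lit 0) (XT.nd (nat_lit 156) (nat_lit 0) (nat_lit 0) (XT.nd (nat_lit 78) (nat_lit 0) (nat_lit 0) (XT.lf (nat_lit 0) (nat_lit 27394757181) (nat_lit 152) (nat_lit 151486031146) (nat_lit 0) (nat_lit 23307706200) (nat_lit 5) (nat_lit 5) (nat_lit 7) (nat_lit 4) (nat_lit 5) (nat_lit 4) (nat_lit 521) (nat_lit 380) (nat_lit 299)) (XT.lf (nat_lit 0) (nat_lit 43143820624) (nat_lit 152) (nat_lit 129371714546) (nat_lit 0) (nat_lit 39052956490) (nat_lit 5) (nat_lit 5) (nat_lit 7) (nat_lit 4) (nat_lit 5) (nat_lit 4) (nat_lit 522) (nat_lit 380) (nat_lit 298))) (XT.nd (nat_lit 78) (nat_lit 0) (nat_lit 0) (XT.lf (nat_lit 0) (nat_lit 59655218202) (nat_lit 152) (nat_lit 106202803982) (nat_lit 0) (nat_lit 55560722494) (nat_lit 5) (nat_lit 5) (nat_lit 7) (nat_lit 4) (nat_lit 5) (nat_lit 4) (nat_lit 523) (nat_lit 380) (nat_lit 297)) (XT.lf (nat_lit 0) (nat_lit 76968262766) (nat_lit 152)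 (nat_lit 81924135379) (nat_lit 0) (nat_lit 72870308416) (nat_lit 5) (nat_lit 5) (nat_lit 7) (nat_lit 4) (nat_lit 5) (nat_lit 4) (nat_lit 524) (nat_lit 380) (nat_lit 296)))) (XT.nd (nat_lit 156) (nat_lit 76) (nat_lit 0) (XT.nd (nat_lit 78) (nat_lit 0) (nat_lit 0) (XT.lf (nat_lit 0) (nat_lit 95124175851) (nat_lit 152) (nat_lit 56477902385) (nat_lit 0) (nat_lit 91022927556) (nat_lit 5) (nat_lit 5) (nat_lit 7) (nat_lit 4) (nat_lit 5) (nat_lit 4) (nat_lit 525) (nat_lit 380) (nat_lit 295)) (XT.lf (nat_lit 0) (nat_lit 114166185822) (nat_lit 152) (nat_lit 29803518730) (nat_lit 0) (nat_lit 110061800436) (nat_lit 5) (nat_lit 5) (nat_lit 7) (nat_lit 4) (nat_lit 5) (nat_lit 4) (nat_lit 526) (nat_lit 380) (nat_lit 294))) (XT.nd (nat_lit 78) (nat_lit 76) (nat_lit 0) (XT.lf (nat_lit 0) (nat_lit 134139630797) (nat_lit 152) (nat_lit 1837473978) (nat_lit 0) (nat_lit 130032257706) (nat_lit 5) (nat_lit 5) (nat_lit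 7) (nat_lit 4) (nat_lit 5) (nat_lit 4) (nat_lit 527) (nat_lit 380) (nat_lit 293)) (XT.lf (nat_lit 0) (nat_lit 28395656020) (nat_lit 76) (nat_lit 127139746346) (nat_lit 76) (nat_lit 123029527822) (nat_lit 4) (nat_lit 4) (nat_lit 5) (nat_lit 5) (nat_lit 5) (nat_lit 4) (nat_lit 528) (nat_lit 380) (nat_lit 292))))))) (XT.nd (nat_lit 1170) (nat_lit 0) (nat_lit 0) (XT.nd (nat_lit 546) (nat_lit 152) (nat_lit 0) (XT.nd (nat_lit 234) (nat_lit 0) (nat_lit 0) (XT.nd (nat_lit 78) (nat_lit 0) (nat_lit 0) (XT.lf (nat_lit 0) (nat_lit 60164826201) (nat_lit 76) (nat_lit 117847895324) (nat_lit 76) (nat_lit 113734966863) (nat_lit 4) (nat_lit 4) (nat_lit 5) (nat_lit 5) (nat_lit 5) (nat_lit 4) (nat_lit 529) (nat_lit 380) (nat_lit 291)) (XT.nd (nat_lit 78) (nat_lit 0) (nat_lit 0) (XT.lf (nat_lit 0) (nat_lit 93484922257) (nat_lit 76) (nat_lit 108110546764) (nat_lit 76) (nat_lit 103995037411) (nat_lit 4) (nat_lit 4)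 (nat_lit 5) (nat_lit 5) (nat_lit 5) (nat_lit 4) (nat_lit 530) (nat_lit 380) (nat_lit 290)) (XT.lf (nat_lit 0) (nat_lit 128435277750) (nat_lit 76) (nat_lit 97904516502) (nat_lit 76) (nat_lit 93786549157) (nat_lit 4) (nat_lit 4) (nat_lit 5) (nat_lit 5) (nat_lit 5) (nat_lit 4) (nat_lit 531) (nat_lit 380) (nat_lit 289)))) (XT.nd (nat_lit 156) (nat_lit 0) (nat_lit 0) (XT.nd (nat_lit 78) (nat_lit 0) (nat_lit 0) (XT.lf (nat_lit 0) (nat_lit 165099107813) (nat_lit 76) (nat_lit 87205504467) (nat_lit 76) (nat_lit 83085196177) (nat_lit 4) (nat_lit 4) (nat_lit 5) (nat_lit 5) (nat_lit 5) (nat_lit 4) (nat_lit 532) (nat_lit 380) (nat_lit 288)) (XT.lf (nat_lit 0) (nat_lit 203563707279) (nat_lit 76) (nat_lit 75988036821) (nat_lit 76) (nat_lit 71865499059) (nat_lit 4) (nat_lit 4) (nat_lit 5) (nat_lit 5) (nat_lit 5) (nat_lit 4) (nat_lit 533) (nat_lit 380) (nat_lit 287))) (XT.nd (nat_lit 78) (nat_lit 0) (nat_lit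 0) (XT.lf (nat_lit 0) (nat_lit 243920658528) (nat_lit 76) (nat_lit 64225405307) (nat_lit 76) (nat_lit 60100744239) (nat_lit 4) (nat_lit 4) (nat_lit 5) (nat_lit 5) (nat_lit 5) (nat_lit 4) (nat_lit 534) (nat_lit 380) (nat_lit 286)) (XT.lf (nat_lit 0) (nat_lit 286266049539) (nat_lit 76) (nat_lit 51889603660) (nat_lit 76) (nat_lit 47762920395) (nat_lit 4) (nat_lit 4) (nat_lit 5) (nat_lit 5) (nat_lit 5) (nat_lit 4) (nat_lit 535) (nat_lit 380) (nat_lit 285))))) (XT.nd (nat_lit 312) (nat_lit 0) (nat_lit 0) (XT.nd (nat_lit 156) (nat_lit 152) (nat_lit 0) (XT.nd (nat_lit 78) (nat_lit 0) (nat_lit 0) (XT.lf (nat_lit 0) (nat_lit 330700702671) (nat_lit 76) (nat_lit 38951260924) (nat_lit 76) (nat_lit 34822651757) (nat_lit 4) (nat_lit 4) (nat_lit 5) (nat_lit 5) (nat_lit 5) (nat_lit 4) (nat_lit 536) (nat_lit 380) (nat_lit 284)) (XT.lf (nat_lit 0) (nat_lit 377330414718) (nat_lit 76) (nat_lit 25379571520) (nat_lit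 76) (nat_lit 21249128162) (nat_lit 4) (nat_lit 4) (nat_lit 5) (nat_lit 5) (nat_lit 5) (nat_lit 4) (nat_lit 537) (nat_lit 380) (nat_lit 283))) (XT.nd (nat_lit 78) (nat_lit 152) (nat_lit 0) (XT.lf (nat_lit 0) (nat_lit 426266208803) (nat_lit 76) (nat_lit 11142221903) (nat_lit 76) (nat_lit 7010031695) (nat_lit 4) (nat_lit 4) (nat_lit 5) (nat_lit 5) (nat_lit 5) (nat_lit 4) (nat_lit 538) (nat_lit 380) (nat_lit 282)) (XT.lf (nat_lit 0) (nat_lit 7926207182) (nat_lit 152) (nat_lit 453967200590) (nat_lit 0) (nat_lit 3989203493) (nat_lit 2) (nat_lit 5) (nat_lit 4) (nat_lit 4) (nat_lit 2) (nat_lit 4) (nat_lit 539) (nat_lit 380) (nat_lit 281)))) (XT.nd (nat_lit 156) (nat_lit 0) (nat_lit 0) (XT.nd (nat_lit 78) (nat_lit 0) (nat_lit 0) (XT.lf (nat_lit 0) (nat_lit 23856716445) (nat_lit 152) (nat_lit 444615149397) (nat_lit 0) (nat_lit 19918203761) (nat_lit 2) (nat_lit 5) (nat_lit 4) (nat_lit 4) (nat_lit 2) (nat_lit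 4) (nat_lit 540) (nat_lit 380) (nat_lit 280)) (XT.lf (nat_lit 0) (nat_lit 40572251431) (nat_lit 152) (nat_lit 434818922833) (nat_lit 0) (nat_lit 36632301610) (nat_lit 2) (nat_lit 5) (nat_lit 4) (nat_lit 4) (nat_lit 2) (nat_lit 4) (nat_lit 541) (nat_lit 380) (nat_lit 279))) (XT.nd (nat_lit 78) (nat_lit 0) (nat_lit 0) (XT.lf (nat_lit 0) (nat_lit 58112611033) (nat_lit 152) (nat_lit 424555196551) (nat_lit 0) (nat_lit 54171292510) (nat_lit 2) (nat_lit 5) (nat_lit 4) (nat_lit 4) (nat_lit 2) (nat_lit 4) (nat_lit 542) (nat_lit 380) (nat_lit 278)) (XT.lf (nat_lit 0) (nat_lit 76519558013) (nat_lit 152) (nat_lit 413799533106) (nat_lit 0) (nat_lit 72576935964) (nat_lit 2) (nat_lit 5) (nat_lit 4) (nat_lit 4) (nat_lit 2) (nat_lit 4) (nat_lit 543) (nat_lit 380) (nat_lit 277)))))) (XT.nd (nat_lit 624) (nat_lit 0) (nat_lit 0) (XT.nd (nat_lit 312) (nat_lit 0) (nat_lit 0) (XT.nd (nat_lit 156) (nat_lit 0) (nat_lit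 0) (XT.nd (nat_lit 78) (nat_lit 0) (nat_lit 0) (XT.lf (nat_lit 0) (nat_lit 95836918433) (nat_lit 152) (nat_lit 402526323775) (nat_lit 0) (nat_lit 91893054932) (nat_lit 2) (nat_lit 5) (nat_lit 4) (nat_lit 4) (nat_lit 2) (nat_lit 4) (nat_lit 544) (nat_lit 380) (nat_lit 276)) (XT.lf (nat_lit 0) (nat_lit 116110686011) (nat_lit 152) (nat_lit 390708727585) (nat_lit 0) (nat_lit 112165640173) (nat_lit 2) (nat_lit 5) (nat_lit 4) (nat_lit 4) (nat_lit 2) (nat_lit 4) (nat_lit 545) (nat_lit 380) (nat_lit 275))) (XT.nd (nat_lit 78) (nat_lit 0) (nat_lit 0) (XT.lf (nat_lit 0) (nat_lit 137389131621) (nat_lit 152) (nat_lit 378318607401) (nat_lit 0) (nat_lit 133442959748) (nat_lit 2) (nat_lit 5) (nat_lit 4) (nat_lit 4) (nat_lit 2) (nat_lit 4) (nat_lit 546) (nat_lit 380) (nat_lit 274)) (XT.lf (nat_lit 0) (nat_lit 159722918228) (nat_lit 152) (nat_lit 365326462938) (nat_lit 0) (nat_lit 155775673941) (nat_lit 2) (nat_lit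 5) (nat_lit 4) (nat_lit 4) (nat_lit 2) (nat_lit 4) (nat_lit 547) (nat_lit 380) (nat_lit 273)))) (XT.nd (nat_lit 156) (nat_lit 0) (nat_lit 0) (XT.nd (nat_lit 78) (nat_lit 0) (nat_lit 0) (XT.lf (nat_lit 0) (nat_lit 183165221515) (nat_lit 152) (nat_lit 351701360517) (nat_lit 0) (nat_lit 179216955882) (nat_lit 2) (nat_lit 5) (nat_lit 4) (nat_lit 4) (nat_lit 2) (nat_lit 4) (nat_lit 548) (nat_lit 380) (nat_lit 272)) (XT.lf (nat_lit 0) (nat_lit 207771856490) (nat_lit 152) (nat_lit 337410859420) (nat_lit 0) (nat_lit 203822618146) (nat_lit 2) (nat_lit 5) (nat_lit 4) (nat_lit 4) (nat_lit 2) (nat_lit 4) (nat_lit 549) (nat_lit 380) (nat_lit 271))) (XT.nd (nat_lit 78) (nat_lit 0) (nat_lit 0) (XT.lf (nat_lit 0) (nat_lit 233601410380) (nat_lit 152) (nat_lit 322420934642) (nat_lit 0) (nat_lit 229651245643) (nat_lit 2) (nat_lit 5) (nat_lit 4) (nat_lit 4) (nat_lit 2) (nat_lit 4) (nat_lit 550) (nat_lit 380) (nat_lit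 270)) (XT.lf (nat_lit 0) (nat_lit 260715382121) (nat_lit 152) (nat_lit 306695895888) (nat_lit 0) (nat_lit 256764335107) (nat_lit 2) (nat_lit 5) (nat_lit 4) (nat_lit 4) (nat_lit 2) (nat_lit 4) (nat_lit 551) (nat_lit 380) (nat_lit 269))))) (XT.nd (nat_lit 53820) (nat_lit 0) (nat_lit 4788) (XT.nd (nat_lit 53664) (nat_lit 0) (nat_lit 5396) (XT.nd (nat_lit 53586) (nat_lit 0) (nat_lit 5776) (XT.lf (nat_lit 0) (nat_lit 289178328789) (nat_lit 152) (nat_lit 290198302589) (nat_lit 0) (nat_lit 285226441511) (nat_lit 2) (nat_lit 5) (nat_lit 4) (nat_lit 4) (nat_lit 2) (nat_lit 4) (nat_lit 552) (nat_lit 380) (nat_lit 268)) (XT.lf (nat_lit 0) (nat_lit 2465668485) (nat_lit 228) (nat_lit 451938967) (nat_lit 0) (nat_lit 2465668485) (nat_lit 78) (nat_lit 5) (nat_lit 81) (nat_lit 4) (nat_lit 78) (nat_lit 4) (nat_lit 438) (nat_lit 381) (nat_lit 381))) (XT.nd (nat_lit 78) (nat_lit 228) (nat_lit 0) (XT.lf (nat_lit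 0) (nat_lit 9109338101) (nat_lit 152) (nat_lit 1256628090) (nat_lit 152) (nat_lit 647131415) (nat_lit 76) (nat_lit 4) (nat_lit 78) (nat_lit 5) (nat_lit 78) (nat_lit 4) (nat_lit 439) (nat_lit 381) (nat_lit 380)) (XT.lf (nat_lit 0) (nat_lit 4660913875) (nat_lit 228) (nat_lit 3079001449) (nat_lit 0) (nat_lit 3527609400) (nat_lit 73) (nat_lit 5) (nat_lit 76) (nat_lit 4) (nat_lit 73) (nat_lit 4) (nat_lit 440) (nat_lit 381) (nat_lit 379)))) (XT.nd (nat_lit 156) (nat_lit 304) (nat_lit 0) (XT.nd (nat_lit 78) (nat_lit 152) (nat_lit 0) (XT.lf (nat_lit 0) (nat_lit 7191128817) (nat_lit 152) (nat_lit 3001907151) (nat_lit 152) (nat_lit 1342096532) (nat_lit 71) (nat_lit 4) (nat_lit 73) (nat_lit 5) (nat_lit 73) (nat_lit 4) (nat_lit 441) (nat_lit 381) (nat_lit 378)) (XT.lf (nat_lit 0) (nat_lit 4047128012) (nat_lit 152) (nat_lit 5777163059) (nat_lit 0) (nat_lit 1988799401) (nat_lit 69) (nat_lit 5) (nat_lit 71)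 (nat_lit 4) (nat_lit 69) (nat_lit 4) (nat_lit 442) (nat_lit 381) (nat_lit 377))) (XT.nd (nat_lit 78) (nat_lit 152) (nat_lit 0) (XT.lf (nat_lit 0) (nat_lit 4735366779) (nat_lit 152) (nat_lit 4940439252) (nat_lit 152) (nat_lit 2427294838) (nat_lit 67) (nat_lit 4) (nat_lit 69) (nat_lit 5) (nat_lit 69) (nat_lit 4) (nat_lit 443) (nat_lit 381) (nat_lit 376)) (XT.lf (nat_lit 0) (nat_lit 3049316200) (nat_lit 152) (nat_lit 9113872205) (nat_lit 0) (nat_lit 243313989) (nat_lit 65) (nat_lit 5) (nat_lit 67) (nat_lit 4) (nat_lit 65) (nat_lit 4) (nat_lit 444) (nat_lit 381) (nat_lit 375))))))))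
noncomputable def xc53 : XT := (XT.nd (nat_lit 2418) (nat_lit 1444) (nat_lit 0) (XT.nd (nat_lit 1170) (nat_lit 1140) (nat_lit 0) (XT.nd (nat_lit 546) (nat_lit 684) (nat_lit 0) (XT.nd (nat_lit 234) (nat_lit 608) (nat_lit 0) (XT.nd (nat_lit 78) (nat_lit 152) (nat_lit 0) (XT.lf (nat_lit 0) (nat_lit 1621773010) (nat_lit 152) (nat_lit 7148794778) (nat_lit 152) (nat_lit 3949905576) (nat_lit 63) (nat_lit 4) (nat_lit 65) (nat_lit 5) (nat_lit 65) (nat_lit 4) (nat_lit 445) (nat_lit 381) (nat_lit 374)) (XT.nd (nat_lit 78) (nat_lit 76) (nat_lit 0) (XT.lf (nat_lit 0) (nat_lit 1649190045) (nat_lit 228) (nat_lit 192227695) (nat_lit 76) (nat_lit 11208546276) (nat_lit 62) (nat_lit 5) (nat_lit 65) (nat_lit 5) (nat_lit 63) (nat_lit 4) (nat_lit 446) (nat_lit 381) (nat_lit 373)) (XT.lf (nat_lit 0) (nat_lit 7459377673) (nat_lit 152) (nat_lit 2213061013) (nat_lit 0) (nat_lit 3717065891) (nat_lit 61) (nat_lit 5) (nat_lit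 63) (nat_lit 4) (nat_lit 61) (nat_lit 4) (nat_lit 447) (nat_lit 381) (nat_lit 372)))) (XT.nd (nat_lit 156) (nat_lit 304) (nat_lit 0) (XT.nd (nat_lit 78) (nat_lit 152) (nat_lit 0) (XT.lf (nat_lit 0) (nat_lit 9326350575) (nat_lit 152) (nat_lit 4242392851) (nat_lit 152) (nat_lit 176851969) (nat_lit 59) (nat_lit 4) (nat_lit 61) (nat_lit 5) (nat_lit 61) (nat_lit 4) (nat_lit 448) (nat_lit 381) (nat_lit 371)) (XT.lf (nat_lit 0) (nat_lit 5681819168) (nat_lit 152) (nat_lit 6916131749) (nat_lit 0) (nat_lit 1516697149) (nat_lit 57) (nat_lit 5) (nat_lit 59) (nat_lit 4) (nat_lit 57) (nat_lit 4) (nat_lit 449) (nat_lit 381) (nat_lit 370))) (XT.nd (nat_lit 78) (nat_lit 152) (nat_lit 0) (XT.lf (nat_lit 0) (nat_lit 4814848062) (nat_lit 152) (nat_lit 7064457168) (nat_lit 152) (nat_lit 2620117699) (nat_lit 55) (nat_lit 4) (nat_lit 57) (nat_lit 5) (nat_lit 57) (nat_lit 4) (nat_lit 450) (nat_lit 381) (nat_lit 369))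 (XT.lf (nat_lit 0) (nat_lit 2169838304) (nat_lit 76) (nat_lit 1186307623) (nat_lit 152) (nat_lit 11545356587) (nat_lit 53) (nat_lit 5) (nat_lit 54) (nat_lit 5) (nat_lit 55) (nat_lit 4) (nat_lit 451) (nat_lit 381) (nat_lit 368))))) (XT.nd (nat_lit 312) (nat_lit 380) (nat_lit 0) (XT.nd (nat_lit 156) (nat_lit 152) (nat_lit 0) (XT.nd (nat_lit 78) (nat_lit 152) (nat_lit 0) (XT.lf (nat_lit 0) (nat_lit 9620020198) (nat_lit 152) (nat_lit 804821733) (nat_lit 0) (nat_lit 4892858954) (nat_lit 53) (nat_lit 5) (nat_lit 55) (nat_lit 4) (nat_lit 53) (nat_lit 4) (nat_lit 452) (nat_lit 381) (nat_lit 367)) (XT.lf (nat_lit 0) (nat_lit 472460795) (nat_lit 152) (nat_lit 3988329499) (nat_lit 76) (nat_lit 11291366021) (nat_lit 51) (nat_lit 5) (nat_lit 53) (nat_lit 5) (nat_lit 52) (nat_lit 4) (nat_lit 453) (nat_lit 381) (nat_lit 366))) (XT.nd (nat_lit 78) (nat_lit 76) (nat_lit 0) (XT.lf (nat_lit 0) (nat_lit 6779193218)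 (nat_lit 152) (nat_lit 7573492846) (nat_lit 0) (nat_lit 1850004353) (nat_lit 50) (nat_lit 5) (nat_lit 52) (nat_lit 4) (nat_lit 50) (nat_lit 4) (nat_lit 454) (nat_lit 381) (nat_lit 365)) (XT.lf (nat_lit 0) (nat_lit 5128689204) (nat_lit 76) (nat_lit 8335765005) (nat_lit 76) (nat_lit 3208141511) (nat_lit 49) (nat_lit 4) (nat_lit 50) (nat_lit 5) (nat_lit 50) (nat_lit 4) (nat_lit 455) (nat_lit 381) (nat_lit 364)))) (XT.nd (nat_lit 156) (nat_lit 228) (nat_lit 0) (XT.nd (nat_lit 78) (nat_lit 0) (nat_lit 0) (XT.lf (nat_lit 0) (nat_lit 1250200267) (nat_lit 76) (nat_lit 1953121255) (nat_lit 152) (nat_lit 13960511543) (nat_lit 47) (nat_lit 5) (nat_lit 48) (nat_lit 5) (nat_lit 49) (nat_lit 4) (nat_lit 456) (nat_lit 381) (nat_lit 363)) (XT.lf (nat_lit 0) (nat_lit 9942633154) (nat_lit 152) (nat_lit 3020837674) (nat_lit 0) (nat_lit 4707780858) (nat_lit 47) (nat_lit 5) (nat_lit 49) (nat_lit 4) (nat_lit 47) (nat_lit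 4) (nat_lit 457) (nat_lit 381) (nat_lit 362))) (XT.nd (nat_lit 78) (nat_lit 152) (nat_lit 0) (XT.lf (nat_lit 0) (nat_lit 10530345157) (nat_lit 76) (nat_lit 6534747641) (nat_lit 76) (nat_lit 1136642685) (nat_lit 46) (nat_lit 4) (nat_lit 47) (nat_lit 5) (nat_lit 47) (nat_lit 4) (nat_lit 458) (nat_lit 381) (nat_lit 361)) (XT.lf (nat_lit 0) (nat_lit 5599130116) (nat_lit 152) (nat_lit 12845130051) (nat_lit 0) (nat_lit 310002802) (nat_lit 44) (nat_lit 5) (nat_lit 46) (nat_lit 4) (nat_lit 44) (nat_lit 4) (nat_lit 459) (nat_lit 381) (nat_lit 360)))))) (XT.nd (nat_lit 624) (nat_lit 532) (nat_lit 0) (XT.nd (nat_lit 312) (nat_lit 304) (nat_lit 0) (XT.nd (nat_lit 156) (nat_lit 152) (nat_lit 0) (XT.nd (nat_lit 78) (nat_lit 76) (nat_lit 0) (XT.lf (nat_lit 0) (nat_lit 709902252) (nat_lit 76) (nat_lit 12024349485) (nat_lit 76) (nat_lit 6594198385) (nat_lit 43) (nat_lit 4) (nat_lit 44) (nat_lit 5) (nat_lit 44)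 (nat_lit 4) (nat_lit 460) (nat_lit 381) (nat_lit 359)) (XT.lf (nat_lit 0) (nat_lit 357175298) (nat_lit 152) (nat_lit 4832250105) (nat_lit 76) (nat_lit 14738102379) (nat_lit 42) (nat_lit 5) (nat_lit 44) (nat_lit 5) (nat_lit 43) (nat_lit 4) (nat_lit 461) (nat_lit 381) (nat_lit 358))) (XT.nd (nat_lit 78) (nat_lit 76) (nat_lit 0) (XT.lf (nat_lit 0) (nat_lit 7474766053) (nat_lit 152) (nat_lit 11020918670) (nat_lit 0) (nat_lit 2053459198) (nat_lit 41) (nat_lit 5) (nat_lit 43) (nat_lit 4) (nat_lit 41) (nat_lit 4) (nat_lit 462) (nat_lit 381) (nat_lit 357)) (XT.lf (nat_lit 0) (nat_lit 3317778468) (nat_lit 76) (nat_lit 11708739102) (nat_lit 76) (nat_lit 6171411630) (nat_lit 40) (nat_lit 4) (nat_lit 41) (nat_lit 5) (nat_lit 41) (nat_lit 4) (nat_lit 463) (nat_lit 381) (nat_lit 356)))) (XT.nd (nat_lit 156) (nat_lit 152) (nat_lit 0) (XT.nd (nat_lit 78) (nat_lit 76) (nat_lit 0) (XT.lf (nat_lit 0) (nat_lit 1090360249)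 (nat_lit 152) (nat_lit 3412584787) (nat_lit 76) (nat_lit 17372964432) (nat_lit 39) (nat_lit 5) (nat_lit 41) (nat_lit 5) (nat_lit 40) (nat_lit 4) (nat_lit 464) (nat_lit 381) (nat_lit 355)) (XT.lf (nat_lit 0) (nat_lit 8607492306) (nat_lit 152) (nat_lit 10841866400) (nat_lit 0) (nat_lit 3128390002) (nat_lit 38) (nat_lit 5) (nat_lit 40) (nat_lit 4) (nat_lit 38) (nat_lit 4) (nat_lit 465) (nat_lit 381) (nat_lit 354))) (XT.nd (nat_lit 78) (nat_lit 76) (nat_lit 0) (XT.lf (nat_lit 0) (nat_lit 4243539666) (nat_lit 76) (nat_lit 12321240015) (nat_lit 76) (nat_lit 6746687263) (nat_lit 37) (nat_lit 4) (nat_lit 38) (nat_lit 5) (nat_lit 38) (nat_lit 4) (nat_lit 466) (nat_lit 381) (nat_lit 353)) (XT.lf (nat_lit 0) (nat_lit 863495549) (nat_lit 152) (nat_lit 3895292066) (nat_lit 76) (nat_lit 19319818119) (nat_lit 36) (nat_lit 5) (nat_lit 38) (nat_lit 5) (nat_lit 37) (nat_lit 4) (nat_lit 467) (nat_lit 381) (nat_lit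 352))))) (XT.nd (nat_lit 312) (nat_lit 228) (nat_lit 0) (XT.nd (nat_lit 156) (nat_lit 152) (nat_lit 0) (XT.nd (nat_lit 78) (nat_lit 76) (nat_lit 0) (XT.lf (nat_lit 0) (nat_lit 8740362366) (nat_lit 152) (nat_lit 12870330886) (nat_lit 0) (nat_lit 3262234449) (nat_lit 35) (nat_lit 5) (nat_lit 37) (nat_lit 4) (nat_lit 35) (nat_lit 4) (nat_lit 468) (nat_lit 381) (nat_lit 351)) (XT.lf (nat_lit 0) (nat_lit 2886513046) (nat_lit 76) (nat_lit 14186993928) (nat_lit 76) (nat_lit 8630338691) (nat_lit 34) (nat_lit 4) (nat_lit 35) (nat_lit 5) (nat_lit 35) (nat_lit 4) (nat_lit 469) (nat_lit 381) (nat_lit 350))) (XT.nd (nat_lit 78) (nat_lit 152) (nat_lit 0) (XT.lf (nat_lit 0) (nat_lit 19628392800) (nat_lit 76) (nat_lit 6287369382) (nat_lit 76) (nat_lit 655926220) (nat_lit 34) (nat_lit 4) (nat_lit 35) (nat_lit 5) (nat_lit 35) (nat_lit 4) (nat_lit 470) (nat_lit 381) (nat_lit 349)) (XT.lf (nat_lit 0) (nat_lit 7533626437)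 (nat_lit 152) (nat_lit 17837590572) (nat_lit 0) (nat_lit 2102512383) (nat_lit 32) (nat_lit 5) (nat_lit 34) (nat_lit 4) (nat_lit 32) (nat_lit 4) (nat_lit 471) (nat_lit 381) (nat_lit 348)))) (XT.nd (nat_lit 156) (nat_lit 152) (nat_lit 0) (XT.nd (nat_lit 78) (nat_lit 76) (nat_lit 0) (XT.lf (nat_lit 0) (nat_lit 16211927050) (nat_lit 152) (nat_lit 1487135009) (nat_lit 0) (nat_lit 10716208375) (nat_lit 32) (nat_lit 5) (nat_lit 34) (nat_lit 4) (nat_lit 32) (nat_lit 4) (nat_lit 472) (nat_lit 381) (nat_lit 347)) (XT.lf (nat_lit 0) (nat_lit 15961235600) (nat_lit 76) (nat_lit 9496608018) (nat_lit 76) (nat_lit 3939361132) (nat_lit 31) (nat_lit 4) (nat_lit 32) (nat_lit 5) (nat_lit 32) (nat_lit 4) (nat_lit 473) (nat_lit 381) (nat_lit 346))) (XT.nd (nat_lit 78) (nat_lit 0) (nat_lit 0) (XT.lf (nat_lit 0) (nat_lit 3720817480) (nat_lit 76) (nat_lit 833652110) (nat_lit 152) (nat_lit 25871654351) (nat_lit 29) (nat_lit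 5) (nat_lit 30) (nat_lit 5) (nat_lit 31) (nat_lit 4) (nat_lit 474) (nat_lit 381) (nat_lit 345)) (XT.lf (nat_lit 0) (nat_lit 13585660055) (nat_lit 152) (nat_lit 9721262629) (nat_lit 0) (nat_lit 8184085691) (nat_lit 29) (nat_lit 5) (nat_lit 31) (nat_lit 4) (nat_lit 29) (nat_lit 4) (nat_lit 475) (nat_lit 381) (nat_lit 344))))))) (XT.nd (nat_lit 1170) (nat_lit 608) (nat_lit 0) (XT.nd (nat_lit 546) (nat_lit 380) (nat_lit 0) (XT.nd (nat_lit 234) (nat_lit 228) (nat_lit 0) (XT.nd (nat_lit 78) (nat_lit 152) (nat_lit 0) (XT.lf (nat_lit 0) (nat_lit 8139054919) (nat_lit 76) (nat_lit 14960363262) (nat_lit 76) (nat_lit 9508169487) (nat_lit 28) (nat_lit 4) (nat_lit 29) (nat_lit 5) (nat_lit 29) (nat_lit 4) (nat_lit 476) (nat_lit 381) (nat_lit 343)) (XT.nd (nat_lit 78) (nat_lit 152) (nat_lit 0) (XT.lf (nat_lit 0) (nat_lit 27013670558) (nat_lit 76) (nat_lit 6131945748) (nat_lit 76) (nat_lit 631543009) (nat_lit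 28) (nat_lit 4) (nat_lit 29) (nat_lit 5) (nat_lit 29) (nat_lit 4) (nat_lit 477) (nat_lit 381) (nat_lit 342)) (XT.lf (nat_lit 0) (nat_lit 8544187548) (nat_lit 152) (nat_lit 23185589568) (nat_lit 0) (nat_lit 3261981799) (nat_lit 26) (nat_lit 5) (nat_lit 28) (nat_lit 4) (nat_lit 26) (nat_lit 4) (nat_lit 478) (nat_lit 381) (nat_lit 341)))) (XT.nd (nat_lit 156) (nat_lit 152) (nat_lit 0) (XT.nd (nat_lit 78) (nat_lit 76) (nat_lit 0) (XT.lf (nat_lit 0) (nat_lit 18270138302) (nat_lit 152) (nat_lit 5044512674) (nat_lit 0) (nat_lit 12946287838) (nat_lit 26) (nat_lit 5) (nat_lit 28) (nat_lit 4) (nat_lit 26) (nat_lit 4) (nat_lit 479) (nat_lit 381) (nat_lit 340)) (XT.lf (nat_lit 0) (nat_lit 14260500152) (nat_lit 76) (nat_lit 14345212094) (nat_lit 76) (nat_lit 8981699997) (nat_lit 25) (nat_lit 4) (nat_lit 26) (nat_lit 5) (nat_lit 26) (nat_lit 4) (nat_lit 480) (nat_lit 381) (nat_lit 339))) (XT.nd (nat_lit 78)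 (nat_lit 76) (nat_lit 0) (XT.lf (nat_lit 0) (nat_lit 450134942) (nat_lit 152) (nat_lit 4478508448) (nat_lit 76) (nat_lit 34051814974) (nat_lit 24) (nat_lit 5) (nat_lit 26) (nat_lit 5) (nat_lit 25) (nat_lit 4) (nat_lit 481) (nat_lit 381) (nat_lit 338)) (XT.lf (nat_lit 0) (nat_lit 10281019222) (nat_lit 152) (nat_lit 25040634162) (nat_lit 0) (nat_lit 5102676984) (nat_lit 23) (nat_lit 5) (nat_lit 25) (nat_lit 4) (nat_lit 23) (nat_lit 4) (nat_lit 482) (nat_lit 381) (nat_lit 337))))) (XT.nd (nat_lit 312) (nat_lit 152) (nat_lit 0) (XT.nd (nat_lit 156) (nat_lit 152) (nat_lit 0) (XT.nd (nat_lit 78) (nat_lit 76) (nat_lit 0) (XT.lf (nat_lit 0) (nat_lit 20666915185) (nat_lit 152) (nat_lit 5814364864) (nat_lit 0) (nat_lit 15455943222) (nat_lit 23) (nat_lit 5) (nat_lit 25) (nat_lit 4) (nat_lit 23) (nat_lit 4) (nat_lit 483) (nat_lit 381) (nat_lit 336)) (XT.lf (nat_lit 0) (nat_lit 14661314212) (nat_lit 76) (nat_lit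 17049773037) (nat_lit 76) (nat_lit 11807725147) (nat_lit 22) (nat_lit 4) (nat_lit 23) (nat_lit 5) (nat_lit 23) (nat_lit 4) (nat_lit 484) (nat_lit 381) (nat_lit 335))) (XT.nd (nat_lit 78) (nat_lit 152) (nat_lit 0) (XT.lf (nat_lit 0) (nat_lit 36184403451) (nat_lit 76) (nat_lit 7133109937) (nat_lit 76) (nat_lit 1861465926) (nat_lit 22) (nat_lit 4) (nat_lit 23) (nat_lit 5) (nat_lit 23) (nat_lit 4) (nat_lit 485) (nat_lit 381) (nat_lit 334)) (XT.lf (nat_lit 0) (nat_lit 8463295070) (nat_lit 152) (nat_lit 35028529863) (nat_lit 0) (nat_lit 3415837171) (nat_lit 20) (nat_lit 5) (nat_lit 22) (nat_lit 4) (nat_lit 20) (nat_lit 4) (nat_lit 486) (nat_lit 381) (nat_lit 333)))) (XT.nd (nat_lit 156) (nat_lit 76) (nat_lit 0) (XT.nd (nat_lit 78) (nat_lit 76) (nat_lit 0) (XT.lf (nat_lit 0) (nat_lit 19427991551) (nat_lit 152) (nat_lit 14928982063) (nat_lit 0) (nat_lit 14354967411) (nat_lit 20) (nat_lit 5) (nat_lit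 22) (nat_lit 4) (nat_lit 20) (nat_lit 4) (nat_lit 487) (nat_lit 381) (nat_lit 332)) (XT.lf (nat_lit 0) (nat_lit 6209852144) (nat_lit 76) (nat_lit 24746589623) (nat_lit 76) (nat_lit 19649216680) (nat_lit 19) (nat_lit 4) (nat_lit 20) (nat_lit 5) (nat_lit 20) (nat_lit 4) (nat_lit 488) (nat_lit 381) (nat_lit 331))) (XT.nd (nat_lit 78) (nat_lit 76) (nat_lit 0) (XT.lf (nat_lit 0) (nat_lit 28762135915) (nat_lit 76) (nat_lit 14471925616) (nat_lit 76) (nat_lit 9351363337) (nat_lit 19) (nat_lit 4) (nat_lit 20) (nat_lit 5) (nat_lit 20) (nat_lit 4) (nat_lit 489) (nat_lit 381) (nat_lit 330)) (XT.lf (nat_lit 0) (nat_lit 1337089500) (nat_lit 152) (nat_lit 2401613883) (nat_lit 76) (nat_lit 50928211837) (nat_lit 18) (nat_lit 5) (nat_lit 20) (nat_lit 5) (nat_lit 19) (nat_lit 4) (nat_lit 490) (nat_lit 381) (nat_lit 329)))))) (XT.nd (nat_lit 624) (nat_lit 304) (nat_lit 0) (XT.nd (nat_lit 312) (nat_lit 152) (nat_lit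 0) (XT.nd (nat_lit 156) (nat_lit 76) (nat_lit 0) (XT.nd (nat_lit 78) (nat_lit 0) (nat_lit 0) (XT.lf (nat_lit 0) (nat_lit 12615192913) (nat_lit 152) (nat_lit 36513746081) (nat_lit 0) (nat_lit 7697401703) (nat_lit 17) (nat_lit 5) (nat_lit 19) (nat_lit 4) (nat_lit 17) (nat_lit 4) (nat_lit 491) (nat_lit 381) (nat_lit 328)) (XT.lf (nat_lit 0) (nat_lit 24486068308) (nat_lit 152) (nat_lit 15057027019) (nat_lit 0) (nat_lit 19549199174) (nat_lit 17) (nat_lit 5) (nat_lit 19) (nat_lit 4) (nat_lit 17) (nat_lit 4) (nat_lit 492) (nat_lit 381) (nat_lit 327))) (XT.nd (nat_lit 78) (nat_lit 0) (nat_lit 0) (XT.lf (nat_lit 0) (nat_lit 7572752545) (nat_lit 76) (nat_lit 29425716661) (nat_lit 76) (nat_lit 24470678076) (nat_lit 16) (nat_lit 4) (nat_lit 17) (nat_lit 5) (nat_lit 17) (nat_lit 4) (nat_lit 493) (nat_lit 381) (nat_lit 326)) (XT.lf (nat_lit 0) (nat_lit 31716908998) (nat_lit 76) (nat_lit 18605490705) (nat_lit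 76) (nat_lit 13633147881) (nat_lit 16) (nat_lit 4) (nat_lit 17) (nat_lit 5) (nat_lit 17) (nat_lit 4) (nat_lit 494) (nat_lit 381) (nat_lit 325)))) (XT.nd (nat_lit 156) (nat_lit 0) (nat_lit 0) (XT.nd (nat_lit 78) (nat_lit 152) (nat_lit 0) (XT.lf (nat_lit 0) (nat_lit 56935075112) (nat_lit 76) (nat_lit 7311653054) (nat_lit 76) (nat_lit 2322830002) (nat_lit 16) (nat_lit 4) (nat_lit 17) (nat_lit 5) (nat_lit 17) (nat_lit 4) (nat_lit 495) (nat_lit 381) (nat_lit 324)) (XT.lf (nat_lit 0) (nat_lit 9482556991) (nat_lit 152) (nat_lit 55096140799) (nat_lit 0) (nat_lit 4716348890) (nat_lit 14) (nat_lit 5) (nat_lit 16) (nat_lit 4) (nat_lit 14) (nat_lit 4) (nat_lit 496) (nat_lit 381) (nat_lit 323))) (XT.nd (nat_lit 78) (nat_lit 0) (nat_lit 0) (XT.lf (nat_lit 0) (nat_lit 22022209775) (nat_lit 152) (nat_lit 32879827807) (nat_lit 0) (nat_lit 17241765433) (nat_lit 14) (nat_lit 5) (nat_lit 16) (nat_lit 4) (nat_lit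 14) (nat_lit 4) (nat_lit 497) (nat_lit 381) (nat_lit 322)) (XT.lf (nat_lit 0) (nat_lit 35128231990) (nat_lit 152) (nat_lit 9675566793) (nat_lit 0) (nat_lit 30334229324) (nat_lit 14) (nat_lit 5) (nat_lit 16) (nat_lit 4) (nat_lit 14) (nat_lit 4) (nat_lit 498) (nat_lit 381) (nat_lit 321))))) (XT.nd (nat_lit 312) (nat_lit 76) (nat_lit 0) (XT.nd (nat_lit 156) (nat_lit 152) (nat_lit 0) (XT.nd (nat_lit 78) (nat_lit 0) (nat_lit 0) (XT.lf (nat_lit 0) (nat_lit 15053702992) (nat_lit 76) (nat_lit 34013155951) (nat_lit 76) (nat_lit 29206240595) (nat_lit 13) (nat_lit 4) (nat_lit 14) (nat_lit 5) (nat_lit 14) (nat_lit 4) (nat_lit 499) (nat_lit 381) (nat_lit 320)) (XT.lf (nat_lit 0) (nat_lit 41240220679) (nat_lit 76) (nat_lit 22569281512) (nat_lit 76) (nat_lit 17750068356) (nat_lit 13) (nat_lit 4) (nat_lit 14) (nat_lit 5) (nat_lit 14) (nat_lit 4) (nat_lit 500) (nat_lit 381) (nat_lit 319))) (XT.nd (nat_lit 78)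 (nat_lit 152) (nat_lit 0) (XT.lf (nat_lit 0) (nat_lit 68626417183) (nat_lit 76) (nat_lit 10608788552) (nat_lit 76) (nat_lit 5777863206) (nat_lit 13) (nat_lit 4) (nat_lit 14) (nat_lit 5) (nat_lit 14) (nat_lit 4) (nat_lit 501) (nat_lit 381) (nat_lit 318)) (XT.lf (nat_lit 0) (nat_lit 6694376756) (nat_lit 152) (nat_lit 79850748622) (nat_lit 0) (nat_lit 2082872172) (nat_lit 11) (nat_lit 5) (nat_lit 13) (nat_lit 4) (nat_lit 11) (nat_lit 4) (nat_lit 502) (nat_lit 381) (nat_lit 317)))) (XT.nd (nat_lit 156) (nat_lit 76) (nat_lit 0) (XT.nd (nat_lit 78) (nat_lit 0) (nat_lit 0) (XT.lf (nat_lit 0) (nat_lit 19999727910) (nat_lit 152) (nat_lit 57020919376) (nat_lit 0) (nat_lit 15378105896) (nat_lit 11) (nat_lit 5) (nat_lit 13) (nat_lit 4) (nat_lit 11) (nat_lit 4) (nat_lit 503) (nat_lit 381) (nat_lit 316)) (XT.lf (nat_lit 0) (nat_lit 33920530812) (nat_lit 152) (nat_lit 33150733621) (nat_lit 0) (nat_lit 29289273151)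 (nat_lit 11) (nat_lit 5) (nat_lit 13) (nat_lit 4) (nat_lit 11) (nat_lit 4) (nat_lit 504) (nat_lit 381) (nat_lit 315))) (XT.nd (nat_lit 78) (nat_lit 76) (nat_lit 0) (XT.lf (nat_lit 0) (nat_lit 48489930232) (nat_lit 152) (nat_lit 8183357581) (nat_lit 0) (nat_lit 43849495763) (nat_lit 11) (nat_lit 5) (nat_lit 13) (nat_lit 4) (nat_lit 11) (nat_lit 4) (nat_lit 505) (nat_lit 381) (nat_lit 314)) (XT.lf (nat_lit 0) (nat_lit 18533853948) (nat_lit 76) (nat_lit 45498126669) (nat_lit 76) (nat_lit 40848952383) (nat_lit 10) (nat_lit 4) (nat_lit 11) (nat_lit 5) (nat_lit 11) (nat_lit 4) (nat_lit 506) (nat_lit 381) (nat_lit 313))))))))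
noncomputable def xc54 : XT := (XT.nd (nat_lit 2418) (nat_lit 152) (nat_lit 0) (XT.nd (nat_lit 1170) (nat_lit 76) (nat_lit 0) (XT.nd (nat_lit 546) (nat_lit 228) (nat_lit 0) (XT.nd (nat_lit 234) (nat_lit 152) (nat_lit 0) (XT.nd (nat_lit 78) (nat_lit 0) (nat_lit 0) (XT.lf (nat_lit 0) (nat_lit 46780780921) (nat_lit 76) (nat_lit 33664499851) (nat_lit 76) (nat_lit 29007001930) (nat_lit 10) (nat_lit 4) (nat_lit 11) (nat_lit 5) (nat_lit 11) (nat_lit 4) (nat_lit 507) (nat_lit 381) (nat_lit 312)) (XT.nd (nat_lit 78) (nat_lit 0) (nat_lit 0) (XT.lf (nat_lit 0) (nat_lit 76354099168) (nat_lit 76) (nat_lit 21282821179) (nat_lit 76) (nat_lit 16617395987) (nat_lit 10) (nat_lit 4) (nat_lit 11) (nat_lit 5) (nat_lit 11) (nat_lit 4) (nat_lit 508) (nat_lit 381) (nat_lit 311)) (XT.lf (nat_lit 0) (nat_lit 107324221349) (nat_lit 76) (nat_lit 8323610466) (nat_lit 76) (nat_lit 3650635491) (nat_lit 10) (nat_lit 4) (nat_lit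 11) (nat_lit 5) (nat_lit 11) (nat_lit 4) (nat_lit 509) (nat_lit 381) (nat_lit 310)))) (XT.nd (nat_lit 156) (nat_lit 0) (nat_lit 0) (XT.nd (nat_lit 78) (nat_lit 0) (nat_lit 0) (XT.lf (nat_lit 0) (nat_lit 9937049308) (nat_lit 152) (nat_lit 109155673358) (nat_lit 0) (nat_lit 5479749077) (nat_lit 8) (nat_lit 5) (nat_lit 10) (nat_lit 4) (nat_lit 8) (nat_lit 4) (nat_lit 510) (nat_lit 381) (nat_lit 309)) (XT.lf (nat_lit 0) (nat_lit 24385002170) (nat_lit 152) (nat_lit 85785823433) (nat_lit 0) (nat_lit 19921180153) (nat_lit 8) (nat_lit 5) (nat_lit 10) (nat_lit 4) (nat_lit 8) (nat_lit 4) (nat_lit 511) (nat_lit 381) (nat_lit 308))) (XT.nd (nat_lit 78) (nat_lit 0) (nat_lit 0) (XT.lf (nat_lit 0) (nat_lit 39518212114) (nat_lit 152) (nat_lit 61322982639) (nat_lit 0) (nat_lit 35048178872) (nat_lit 8) (nat_lit 5) (nat_lit 10) (nat_lit 4) (nat_lit 8) (nat_lit 4) (nat_lit 512) (nat_lit 381) (nat_lit 307)) (XT.lf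 (nat_lit 0) (nat_lit 55372710593) (nat_lit 152) (nat_lit 35708906117) (nat_lit 0) (nat_lit 50896761899) (nat_lit 8) (nat_lit 5) (nat_lit 10) (nat_lit 4) (nat_lit 8) (nat_lit 4) (nat_lit 513) (nat_lit 381) (nat_lit 306))))) (XT.nd (nat_lit 312) (nat_lit 152) (nat_lit 0) (XT.nd (nat_lit 156) (nat_lit 0) (nat_lit 0) (XT.nd (nat_lit 78) (nat_lit 76) (nat_lit 0) (XT.lf (nat_lit 0) (nat_lit 71986246413) (nat_lit 152) (nat_lit 8882607969) (nat_lit 0) (nat_lit 67504663955) (nat_lit 8) (nat_lit 5) (nat_lit 10) (nat_lit 4) (nat_lit 8) (nat_lit 4) (nat_lit 514) (nat_lit 381) (nat_lit 305)) (XT.lf (nat_lit 0) (nat_lit 19855276797) (nat_lit 76) (nat_lit 69853095328) (nat_lit 76) (nat_lit 65366147382) (nat_lit 7) (nat_lit 4) (nat_lit 8) (nat_lit 5) (nat_lit 8) (nat_lit 4) (nat_lit 515) (nat_lit 381) (nat_lit 304))) (XT.nd (nat_lit 78) (nat_lit 0) (nat_lit 0) (XT.lf (nat_lit 0) (nat_lit 50274270704) (nat_lit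 76) (nat_lit 58161207192) (nat_lit 76) (nat_lit 53669149256) (nat_lit 7) (nat_lit 4) (nat_lit 8) (nat_lit 5) (nat_lit 8) (nat_lit 4) (nat_lit 516) (nat_lit 381) (nat_lit 303)) (XT.lf (nat_lit 0) (nat_lit 82153100793) (nat_lit 76) (nat_lit 45915783409) (nat_lit 76) (nat_lit 41418858816) (nat_lit 7) (nat_lit 4) (nat_lit 8) (nat_lit 5) (nat_lit 8) (nat_lit 4) (nat_lit 517) (nat_lit 381) (nat_lit 302)))) (XT.nd (nat_lit 156) (nat_lit 152) (nat_lit 0) (XT.nd (nat_lit 78) (nat_lit 0) (nat_lit 0) (XT.lf (nat_lit 0) (nat_lit 115567669039) (nat_lit 76) (nat_lit 33087668209) (nat_lit 76) (nat_lit 28586108704) (nat_lit 7) (nat_lit 4) (nat_lit 8) (nat_lit 5) (nat_lit 8) (nat_lit 4) (nat_lit 518) (nat_lit 381) (nat_lit 301)) (XT.lf (nat_lit 0) (nat_lit 150597533938) (nat_lit 76) (nat_lit 19646318459) (nat_lit 76) (nat_lit 15140344753) (nat_lit 7) (nat_lit 4) (nat_lit 8) (nat_lit 5) (nat_lit 8) (nat_lit 4)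 (nat_lit 519) (nat_lit 381) (nat_lit 300))) (XT.nd (nat_lit 78) (nat_lit 152) (nat_lit 0) (XT.lf (nat_lit 0) (nat_lit 187326099931) (nat_lit 76) (nat_lit 5559730946) (nat_lit 76) (nat_lit 1049553239) (nat_lit 7) (nat_lit 4) (nat_lit 8) (nat_lit 5) (nat_lit 8) (nat_lit 4) (nat_lit 520) (nat_lit 381) (nat_lit 299)) (XT.lf (nat_lit 0) (nat_lit 13800248346) (nat_lit 152) (nat_lit 179577402743) (nat_lit 0) (nat_lit 9501027853) (nat_lit 5) (nat_lit 5) (nat_lit 7) (nat_lit 4) (nat_lit 5) (nat_lit 4) (nat_lit 521) (nat_lit 381) (nat_lit 298)))))) (XT.nd (nat_lit 624) (nat_lit 0) (nat_lit 0) (XT.nd (nat_lit 312) (nat_lit 76) (nat_lit 0) (XT.nd (nat_lit 156) (nat_lit 0) (nat_lit 0) (XT.nd (nat_lit 78) (nat_lit 0) (nat_lit 0) (XT.lf (nat_lit 0) (nat_lit 29537058600) (nat_lit 152) (nat_lit 157488023639) (nat_lit 0) (nat_lit 25234206533) (nat_lit 5) (nat_lit 5) (nat_lit 7) (nat_lit 4) (nat_lit 5) (nat_lit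 4) (nat_lit 522) (nat_lit 381) (nat_lit 297)) (XT.lf (nat_lit 0) (nat_lit 46036786474) (nat_lit 152) (nat_lit 134342863070) (nat_lit 0) (nat_lit 41730475765) (nat_lit 5) (nat_lit 5) (nat_lit 7) (nat_lit 4) (nat_lit 5) (nat_lit 4) (nat_lit 523) (nat_lit 381) (nat_lit 296))) (XT.nd (nat_lit 78) (nat_lit 0) (nat_lit 0) (XT.lf (nat_lit 0) (nat_lit 63338717035) (nat_lit 152) (nat_lit 110086813510) (nat_lit 0) (nat_lit 59029112380) (nat_lit 5) (nat_lit 5) (nat_lit 7) (nat_lit 4) (nat_lit 5) (nat_lit 4) (nat_lit 524) (nat_lit 381) (nat_lit 295)) (XT.lf (nat_lit 0) (nat_lit 81484045355) (nat_lit 152) (nat_lit 84662122462) (nat_lit 0) (nat_lit 77171303610) (nat_lit 5) (nat_lit 5) (nat_lit 7) (nat_lit 4) (nat_lit 5) (nat_lit 4) (nat_lit 525) (nat_lit 381) (nat_lit 294)))) (XT.nd (nat_lit 156) (nat_lit 76) (nat_lit 0) (XT.nd (nat_lit 78) (nat_lit 0) (nat_lit 0) (XT.lf (nat_lit 0) (nat_lit 100515974597)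 (nat_lit 152) (nat_lit 58008254946) (nat_lit 0) (nat_lit 96200245146) (nat_lit 5) (nat_lit 5) (nat_lit 7) (nat_lit 4) (nat_lit 5) (nat_lit 4) (nat_lit 526) (nat_lit 381) (nat_lit 293)) (XT.lf (nat_lit 0) (nat_lit 120479818878) (nat_lit 152) (nat_lit 30061749373) (nat_lit 0) (nat_lit 116161243994) (nat_lit 5) (nat_lit 5) (nat_lit 7) (nat_lit 4) (nat_lit 5) (nat_lit 4) (nat_lit 527) (nat_lit 381) (nat_lit 292))) (XT.nd (nat_lit 78) (nat_lit 76) (nat_lit 0) (XT.lf (nat_lit 0) (nat_lit 141423111160) (nat_lit 152) (nat_lit 756066445) (nat_lit 0) (nat_lit 137101826340) (nat_lit 5) (nat_lit 5) (nat_lit 7) (nat_lit 4) (nat_lit 5) (nat_lit 4) (nat_lit 528) (nat_lit 381) (nat_lit 291)) (XT.lf (nat_lit 0) (nat_lit 30969796162) (nat_lit 76) (nat_lit 132909445575) (nat_lit 76) (nat_lit 128585579862) (nat_lit 4) (nat_lit 4) (nat_lit 5) (nat_lit 5) (nat_lit 5) (nat_lit 4) (nat_lit 529) (nat_lit 381) (nat_lit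 290))))) (XT.nd (nat_lit 312) (nat_lit 0) (nat_lit 0) (XT.nd (nat_lit 156) (nat_lit 0) (nat_lit 0) (XT.nd (nat_lit 78) (nat_lit 0) (nat_lit 0) (XT.lf (nat_lit 0) (nat_lit 64272455454) (nat_lit 76) (nat_lit 123180968101) (nat_lit 76) (nat_lit 118854644395) (nat_lit 4) (nat_lit 4) (nat_lit 5) (nat_lit 5) (nat_lit 5) (nat_lit 4) (nat_lit 530) (nat_lit 381) (nat_lit 289)) (XT.lf (nat_lit 0) (nat_lit 99206204506) (nat_lit 76) (nat_lit 112983386493) (nat_lit 76) (nat_lit 108654721842) (nat_lit 4) (nat_lit 4) (nat_lit 5) (nat_lit 5) (nat_lit 5) (nat_lit 4) (nat_lit 531) (nat_lit 381) (nat_lit 288))) (XT.nd (nat_lit 78) (nat_lit 0) (nat_lit 0) (XT.lf (nat_lit 0) (nat_lit 135854218911) (nat_lit 76) (nat_lit 102292420795) (nat_lit 76) (nat_lit 97961526673) (nat_lit 4) (nat_lit 4) (nat_lit 5) (nat_lit 5) (nat_lit 5) (nat_lit 4) (nat_lit 532) (nat_lit 381) (nat_lit 287)) (XT.lf (nat_lit 0) (nat_lit 174303755845)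 (nat_lit 76) (nat_lit 91082616326) (nat_lit 76) (nat_lit 86749598898) (nat_lit 4) (nat_lit 4) (nat_lit 5) (nat_lit 5) (nat_lit 5) (nat_lit 4) (nat_lit 533) (nat_lit 381) (nat_lit 286)))) (XT.nd (nat_lit 156) (nat_lit 0) (nat_lit 0) (XT.nd (nat_lit 78) (nat_lit 0) (nat_lit 0) (XT.lf (nat_lit 0) (nat_lit 214646361825) (nat_lit 76) (nat_lit 79327283077) (nat_lit 76) (nat_lit 74992243452) (nat_lit 4) (nat_lit 4) (nat_lit 5) (nat_lit 5) (nat_lit 5) (nat_lit 4) (nat_lit 534) (nat_lit 381) (nat_lit 285)) (XT.lf (nat_lit 0) (nat_lit 256978090675) (nat_lit 76) (nat_lit 66998432158) (nat_lit 76) (nat_lit 62661466632) (nat_lit 4) (nat_lit 4) (nat_lit 5) (nat_lit 5) (nat_lit 5) (nat_lit 4) (nat_lit 535) (nat_lit 381) (nat_lit 284))) (XT.nd (nat_lit 78) (nat_lit 0) (nat_lit 0) (XT.lf (nat_lit 0) (nat_lit 301399732226) (nat_lit 76) (nat_lit 54066709163) (nat_lit 76) (nat_lit 49727909445) (nat_lit 4) (nat_lit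 4) (nat_lit 5) (nat_lit 5) (nat_lit 5) (nat_lit 4) (nat_lit 536) (nat_lit 381) (nat_lit 283)) (XT.lf (nat_lit 0) (nat_lit 348017052291) (nat_lit 76) (nat_lit 40501324275) (nat_lit 76) (nat_lit 36160777707) (nat_lit 4) (nat_lit 4) (nat_lit 5) (nat_lit 5) (nat_lit 5) (nat_lit 4) (nat_lit 537) (nat_lit 381) (nat_lit 282))))))) (XT.nd (nat_lit 54522) (nat_lit 0) (nat_lit 3952) (XT.nd (nat_lit 546) (nat_lit 0) (nat_lit 0) (XT.nd (nat_lit 234) (nat_lit 0) (nat_lit 0) (XT.nd (nat_lit 78) (nat_lit 152) (nat_lit 0) (XT.lf (nat_lit 0) (nat_lit 396941044488) (nat_lit 76) (nat_lit 26269978957) (nat_lit 76) (nat_lit 21927768724) (nat_lit 4) (nat_lit 4) (nat_lit 5) (nat_lit 5) (nat_lit 5) (nat_lit 4) (nat_lit 538) (nat_lit 381) (nat_lit 281)) (XT.nd (nat_lit 78) (nat_lit 152) (nat_lit 0) (XT.lf (nat_lit 0) (nat_lit 448288194514) (nat_lit 76) (nat_lit 11338789056) (nat_lit 76) (nat_lit 6994994379) (nat_lit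 4) (nat_lit 4) (nat_lit 5) (nat_lit 5) (nat_lit 5) (nat_lit 4) (nat_lit 539) (nat_lit 381) (nat_lit 280)) (XT.lf (nat_lit 0) (nat_lit 8676204657) (nat_lit 152) (nat_lit 475945031695) (nat_lit 0) (nat_lit 4537820208) (nat_lit 2) (nat_lit 5) (nat_lit 4) (nat_lit 4) (nat_lit 2) (nat_lit 4) (nat_lit 540) (nat_lit 381) (nat_lit 279)))) (XT.nd (nat_lit 156) (nat_lit 0) (nat_lit 0) (XT.nd (nat_lit 78) (nat_lit 0) (nat_lit 0) (XT.lf (nat_lit 0) (nat_lit 25386397140) (nat_lit 152) (nat_lit 466159688843) (nat_lit 0) (nat_lit 21246643988) (nat_lit 2) (nat_lit 5) (nat_lit 4) (nat_lit 4) (nat_lit 2) (nat_lit 4) (nat_lit 541) (nat_lit 381) (nat_lit 278)) (XT.lf (nat_lit 0) (nat_lit 42921668643) (nat_lit 152) (nat_lit 455906328001) (nat_lit 0) (nat_lit 38780611966) (nat_lit 2) (nat_lit 5) (nat_lit 4) (nat_lit 4) (nat_lit 2) (nat_lit 4) (nat_lit 542) (nat_lit 381) (nat_lit 277))) (XT.nd (nat_lit 78) (nat_lit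 0) (nat_lit 0) (XT.lf (nat_lit 0) (nat_lit 61323769814) (nat_lit 152) (nat_lit 445160536403) (nat_lit 0) (nat_lit 57181471684) (nat_lit 2) (nat_lit 5) (nat_lit 4) (nat_lit 4) (nat_lit 2) (nat_lit 4) (nat_lit 543) (nat_lit 381) (nat_lit 276)) (XT.lf (nat_lit 0) (nat_lit 80636515179) (nat_lit 152) (nat_lit 433896728832) (nat_lit 0) (nat_lit 76493034712) (nat_lit 2) (nat_lit 5) (nat_lit 4) (nat_lit 4) (nat_lit 2) (nat_lit 4) (nat_lit 544) (nat_lit 381) (nat_lit 275))))) (XT.nd (nat_lit 312) (nat_lit 0) (nat_lit 0) (XT.nd (nat_lit 156) (nat_lit 0) (nat_lit 0) (XT.nd (nat_lit 78) (nat_lit 0) (nat_lit 0) (XT.lf (nat_lit 0) (nat_lit 100905887465) (nat_lit 152) (nat_lit 422088086698) (nat_lit 0) (nat_lit 96761280964) (nat_lit 2) (nat_lit 5) (nat_lit 4) (nat_lit 4) (nat_lit 2) (nat_lit 4) (nat_lit 545) (nat_lit 381) (nat_lit 274)) (XT.lf (nat_lit 0) (nat_lit 122180147083) (nat_lit 152) (nat_lit 409706494187)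 (nat_lit 0) (nat_lit 118034468168) (nat_lit 2) (nat_lit 5) (nat_lit 4) (nat_lit 4) (nat_lit 2) (nat_lit 4) (nat_lit 546) (nat_lit 381) (nat_lit 273))) (XT.nd (nat_lit 78) (nat_lit 0) (nat_lit 0) (XT.lf (nat_lit 0) (nat_lit 144509947032) (nat_lit 152) (nat_lit 396722471317) (nat_lit 0) (nat_lit 140363246770) (nat_lit 2) (nat_lit 5) (nat_lit 4) (nat_lit 4) (nat_lit 2) (nat_lit 4) (nat_lit 547) (nat_lit 381) (nat_lit 272)) (XT.lf (nat_lit 0) (nat_lit 167948453501) (nat_lit 152) (nat_lit 383105103747) (nat_lit 0) (nat_lit 163800780528) (nat_lit 2) (nat_lit 5) (nat_lit 4) (nat_lit 4) (nat_lit 2) (nat_lit 4) (nat_lit 548) (nat_lit 381) (nat_lit 271)))) (XT.nd (nat_lit 156) (nat_lit 0) (nat_lit 0) (XT.nd (nat_lit 78) (nat_lit 0) (nat_lit 0) (XT.lf (nat_lit 0) (nat_lit 192551472460) (nat_lit 152) (nat_lit 368821969174) (nat_lit 0) (nat_lit 188402873095) (nat_lit 2) (nat_lit 5) (nat_lit 4) (nat_lit 4)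 (nat_lit 2) (nat_lit 4) (nat_lit 549) (nat_lit 381) (nat_lit 270)) (XT.lf (nat_lit 0) (nat_lit 218377582523) (nat_lit 152) (nat_lit 353839060134) (nat_lit 0) (nat_lit 214228100881) (nat_lit 2) (nat_lit 5) (nat_lit 4) (nat_lit 4) (nat_lit 2) (nat_lit 4) (nat_lit 550) (nat_lit 381) (nat_lit 269))) (XT.nd (nat_lit 78) (nat_lit 0) (nat_lit 0) (XT.lf (nat_lit 0) (nat_lit 245488274430) (nat_lit 152) (nat_lit 338120703035) (nat_lit 0) (nat_lit 241337952524) (nat_lit 2) (nat_lit 5) (nat_lit 4) (nat_lit 4) (nat_lit 2) (nat_lit 4) (nat_lit 551) (nat_lit 381) (nat_lit 268)) (XT.lf (nat_lit 0) (nat_lit 273948097447) (nat_lit 152) (nat_lit 321629473217) (nat_lit 0) (nat_lit 269796975289) (nat_lit 2) (nat_lit 5) (nat_lit 4) (nat_lit 4) (nat_lit 2) (nat_lit 4) (nat_lit 552) (nat_lit 381) (nat_lit 267)))))) (XT.nd (nat_lit 624) (nat_lit 988) (nat_lit 0) (XT.nd (nat_lit 312) (nat_lit 684) (nat_lit 0) (XT.nd (nat_lit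 156) (nat_lit 152) (nat_lit 0) (XT.nd (nat_lit 78) (nat_lit 228) (nat_lit 0) (XT.lf (nat_lit 0) (nat_lit 516337399) (nat_lit 152) (nat_lit 2317370997) (nat_lit 152) (nat_lit 2317370997) (nat_lit 81) (nat_lit 4) (nat_lit 83) (nat_lit 5) (nat_lit 83) (nat_lit 4) (nat_lit 436) (nat_lit 382) (nat_lit 382)) (XT.lf (nat_lit 0) (nat_lit 58898709) (nat_lit 152) (nat_lit 297622653) (nat_lit 228) (nat_lit 10177184515) (nat_lit 78) (nat_lit 5) (nat_lit 80) (nat_lit 5) (nat_lit 81) (nat_lit 4) (nat_lit 437) (nat_lit 382) (nat_lit 381))) (XT.nd (nat_lit 78) (nat_lit 152) (nat_lit 0) (XT.lf (nat_lit 0) (nat_lit 5479601841) (nat_lit 228) (nat_lit 1061407840) (nat_lit 0) (nat_lit 4230133657) (nat_lit 78) (nat_lit 5) (nat_lit 81) (nat_lit 4) (nat_lit 78) (nat_lit 4) (nat_lit 438) (nat_lit 382) (nat_lit 380)) (XT.lf (nat_lit 0) (nat_lit 8791610442) (nat_lit 152) (nat_lit 2030320344) (nat_lit 152) (nat_lit 200379137)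 (nat_lit 76) (nat_lit 4) (nat_lit 78) (nat_lit 5) (nat_lit 78) (nat_lit 4) (nat_lit 439) (nat_lit 382) (nat_lit 379)))) (XT.nd (nat_lit 156) (nat_lit 304) (nat_lit 0) (XT.nd (nat_lit 78) (nat_lit 152) (nat_lit 0) (XT.lf (nat_lit 0) (nat_lit 4985576227) (nat_lit 228) (nat_lit 3579937977) (nat_lit 0) (nat_lit 2716268934) (nat_lit 73) (nat_lit 5) (nat_lit 76) (nat_lit 4) (nat_lit 73) (nat_lit 4) (nat_lit 440) (nat_lit 382) (nat_lit 378)) (XT.lf (nat_lit 0) (nat_lit 6517290633) (nat_lit 152) (nat_lit 3903837769) (nat_lit 152) (nat_lit 1133096053) (nat_lit 71) (nat_lit 4) (nat_lit 73) (nat_lit 5) (nat_lit 73) (nat_lit 4) (nat_lit 441) (nat_lit 382) (nat_lit 377))) (XT.nd (nat_lit 78) (nat_lit 152) (nat_lit 0) (XT.lf (nat_lit 0) (nat_lit 4134816395) (nat_lit 152) (nat_lit 6661739635) (nat_lit 0) (nat_lit 1041198957) (nat_lit 69) (nat_lit 5) (nat_lit 71) (nat_lit 4) (nat_lit 69) (nat_lit 4) (nat_lit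 442) (nat_lit 382) (nat_lit 376)) (XT.lf (nat_lit 0) (nat_lit 3664038072) (nat_lit 152) (nat_lit 5997795040) (nat_lit 152) (nat_lit 2471019694) (nat_lit 67) (nat_lit 4) (nat_lit 69) (nat_lit 5) (nat_lit 69) (nat_lit 4) (nat_lit 443) (nat_lit 382) (nat_lit 375))))) (XT.nd (nat_lit 312) (nat_lit 532) (nat_lit 0) (XT.nd (nat_lit 156) (nat_lit 152) (nat_lit 0) (XT.nd (nat_lit 78) (nat_lit 152) (nat_lit 0) (XT.lf (nat_lit 0) (nat_lit 2002111221) (nat_lit 76) (nat_lit 896141416) (nat_lit 152) (nat_lit 9543476690) (nat_lit 65) (nat_lit 5) (nat_lit 66) (nat_lit 5) (nat_lit 67) (nat_lit 4) (nat_lit 444) (nat_lit 382) (nat_lit 374)) (XT.lf (nat_lit 0) (nat_lit 108134930) (nat_lit 152) (nat_lit 8389773821) (nat_lit 152) (nat_lit 4263875082) (nat_lit 63) (nat_lit 4) (nat_lit 65) (nat_lit 5) (nat_lit 65) (nat_lit 4) (nat_lit 445) (nat_lit 382) (nat_lit 373))) (XT.nd (nat_lit 78) (nat_lit 76) (nat_lit 0) (XT.lf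 (nat_lit 0) (nat_lit 1261586032) (nat_lit 228) (nat_lit 1896007455) (nat_lit 76) (nat_lit 9938113686) (nat_lit 62) (nat_lit 5) (nat_lit 65) (nat_lit 5) (nat_lit 63) (nat_lit 4) (nat_lit 446) (nat_lit 382) (nat_lit 372)) (XT.lf (nat_lit 0) (nat_lit 6940153292) (nat_lit 152) (nat_lit 4153572447) (nat_lit 0) (nat_lit 2348106266) (nat_lit 61) (nat_lit 5) (nat_lit 63) (nat_lit 4) (nat_lit 61) (nat_lit 4) (nat_lit 447) (nat_lit 382) (nat_lit 371)))) (XT.nd (nat_lit 156) (nat_lit 228) (nat_lit 0) (XT.nd (nat_lit 78) (nat_lit 152) (nat_lit 0) (XT.lf (nat_lit 0) (nat_lit 7169885912) (nat_lit 152) (nat_lit 5766783379) (nat_lit 152) (nat_lit 866899115) (nat_lit 59) (nat_lit 4) (nat_lit 61) (nat_lit 5) (nat_lit 61) (nat_lit 4) (nat_lit 448) (nat_lit 382) (nat_lit 370)) (XT.lf (nat_lit 0) (nat_lit 4795632763) (nat_lit 76) (nat_lit 76901553) (nat_lit 152) (nat_lit 9307694425) (nat_lit 57) (nat_lit 5) (nat_lit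 58) (nat_lit 5) (nat_lit 59) (nat_lit 4) (nat_lit 449) (nat_lit 382) (nat_lit 369))) (XT.nd (nat_lit 78) (nat_lit 76) (nat_lit 0) (XT.lf (nat_lit 0) (nat_lit 2113498870) (nat_lit 152) (nat_lit 8834648175) (nat_lit 152) (nat_lit 3622952903) (nat_lit 55) (nat_lit 4) (nat_lit 57) (nat_lit 5) (nat_lit 57) (nat_lit 4) (nat_lit 450) (nat_lit 382) (nat_lit 368)) (XT.lf (nat_lit 0) (nat_lit 2273238483) (nat_lit 228) (nat_lit 804814836) (nat_lit 76) (nat_lit 11901519954) (nat_lit 54) (nat_lit 5) (nat_lit 57) (nat_lit 5) (nat_lit 55) (nat_lit 4) (nat_lit 451) (nat_lit 382) (nat_lit 367))))))))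
noncomputable def xc55 : XT := (XT.nd (nat_lit 2418) (nat_lit 1140) (nat_lit 0) (XT.nd (nat_lit 1170) (nat_lit 1140) (nat_lit 0) (XT.nd (nat_lit 546) (nat_lit 608) (nat_lit 0) (XT.nd (nat_lit 234) (nat_lit 304) (nat_lit 0) (XT.nd (nat_lit 78) (nat_lit 228) (nat_lit 0) (XT.lf (nat_lit 0) (nat_lit 8416477635) (nat_lit 152) (nat_lit 4003281165) (nat_lit 0) (nat_lit 2982046911) (nat_lit 53) (nat_lit 5) (nat_lit 55) (nat_lit 4) (nat_lit 53) (nat_lit 4) (nat_lit 452) (nat_lit 382) (nat_lit 366)) (XT.nd (nat_lit 78) (nat_lit 152) (nat_lit 0) (XT.lf (nat_lit 0) (nat_lit 8321780005) (nat_lit 76) (nat_lit 6587236155) (nat_lit 76) (nat_lit 934031253) (nat_lit 52) (nat_lit 4) (nat_lit 53) (nat_lit 5) (nat_lit 53) (nat_lit 4) (nat_lit 453) (nat_lit 382) (nat_lit 365)) (XT.lf (nat_lit 0) (nat_lit 4879828773) (nat_lit 76) (nat_lit 359873682) (nat_lit 152) (nat_lit 11062754876) (nat_lit 50) (nat_lit 5) (nat_lit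 51) (nat_lit 5) (nat_lit 52) (nat_lit 4) (nat_lit 454) (nat_lit 382) (nat_lit 364)))) (XT.nd (nat_lit 156) (nat_lit 152) (nat_lit 0) (XT.nd (nat_lit 78) (nat_lit 76) (nat_lit 0) (XT.lf (nat_lit 0) (nat_lit 1011746330) (nat_lit 76) (nat_lit 10769611570) (nat_lit 76) (nat_lit 4998186913) (nat_lit 49) (nat_lit 4) (nat_lit 50) (nat_lit 5) (nat_lit 50) (nat_lit 4) (nat_lit 455) (nat_lit 382) (nat_lit 363)) (XT.lf (nat_lit 0) (nat_lit 1377485475) (nat_lit 152) (nat_lit 3127565489) (nat_lit 76) (nat_lit 12771784463) (nat_lit 48) (nat_lit 5) (nat_lit 50) (nat_lit 5) (nat_lit 49) (nat_lit 4) (nat_lit 456) (nat_lit 382) (nat_lit 362))) (XT.nd (nat_lit 78) (nat_lit 76) (nat_lit 0) (XT.lf (nat_lit 0) (nat_lit 7952392938) (nat_lit 152) (nat_lit 7718952886) (nat_lit 0) (nat_lit 2121130074) (nat_lit 47) (nat_lit 5) (nat_lit 49) (nat_lit 4) (nat_lit 47) (nat_lit 4) (nat_lit 457) (nat_lit 382) (nat_lit 361))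 (XT.lf (nat_lit 0) (nat_lit 5537097543) (nat_lit 76) (nat_lit 9389996613) (nat_lit 76) (nat_lit 3403255026) (nat_lit 46) (nat_lit 4) (nat_lit 47) (nat_lit 5) (nat_lit 47) (nat_lit 4) (nat_lit 458) (nat_lit 382) (nat_lit 360))))) (XT.nd (nat_lit 312) (nat_lit 228) (nat_lit 0) (XT.nd (nat_lit 156) (nat_lit 228) (nat_lit 0) (XT.nd (nat_lit 78) (nat_lit 0) (nat_lit 0) (XT.lf (nat_lit 0) (nat_lit 519809681) (nat_lit 76) (nat_lit 2726349461) (nat_lit 152) (nat_lit 15646433572) (nat_lit 44) (nat_lit 5) (nat_lit 45) (nat_lit 5) (nat_lit 46) (nat_lit 4) (nat_lit 459) (nat_lit 382) (nat_lit 359)) (XT.lf (nat_lit 0) (nat_lit 10258176996) (nat_lit 152) (nat_lit 4933573222) (nat_lit 0) (nat_lit 4281186188) (nat_lit 44) (nat_lit 5) (nat_lit 46) (nat_lit 4) (nat_lit 44) (nat_lit 4) (nat_lit 460) (nat_lit 382) (nat_lit 358))) (XT.nd (nat_lit 78) (nat_lit 152) (nat_lit 0) (XT.lf (nat_lit 0) (nat_lit 9161245965)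 (nat_lit 76) (nat_lit 8511675602) (nat_lit 76) (nat_lit 2406772063) (nat_lit 43) (nat_lit 4) (nat_lit 44) (nat_lit 5) (nat_lit 44) (nat_lit 4) (nat_lit 461) (nat_lit 382) (nat_lit 357)) (XT.lf (nat_lit 0) (nat_lit 3180802399) (nat_lit 76) (nat_lit 1408235447) (nat_lit 152) (nat_lit 16124092543) (nat_lit 41) (nat_lit 5) (nat_lit 42) (nat_lit 5) (nat_lit 43) (nat_lit 4) (nat_lit 462) (nat_lit 382) (nat_lit 356)))) (XT.nd (nat_lit 156) (nat_lit 152) (nat_lit 0) (XT.nd (nat_lit 78) (nat_lit 76) (nat_lit 0) (XT.lf (nat_lit 0) (nat_lit 12001140456) (nat_lit 152) (nat_lit 3407328603) (nat_lit 0) (nat_lit 5960430166) (nat_lit 41) (nat_lit 5) (nat_lit 43) (nat_lit 4) (nat_lit 41) (nat_lit 4) (nat_lit 463) (nat_lit 382) (nat_lit 355)) (XT.lf (nat_lit 0) (nat_lit 11516615715) (nat_lit 76) (nat_lit 8341536093) (nat_lit 76) (nat_lit 2195591683) (nat_lit 40) (nat_lit 4) (nat_lit 41) (nat_lit 5) (nat_lit 41)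 (nat_lit 4) (nat_lit 464) (nat_lit 382) (nat_lit 354))) (XT.nd (nat_lit 78) (nat_lit 0) (nat_lit 0) (XT.lf (nat_lit 0) (nat_lit 4336671445) (nat_lit 76) (nat_lit 825688957) (nat_lit 152) (nat_lit 17606409888) (nat_lit 38) (nat_lit 5) (nat_lit 39) (nat_lit 5) (nat_lit 40) (nat_lit 4) (nat_lit 465) (nat_lit 382) (nat_lit 353)) (XT.lf (nat_lit 0) (nat_lit 12978010548) (nat_lit 152) (nat_lit 3593186234) (nat_lit 0) (nat_lit 6938374519) (nat_lit 38) (nat_lit 5) (nat_lit 40) (nat_lit 4) (nat_lit 38) (nat_lit 4) (nat_lit 466) (nat_lit 382) (nat_lit 352)))))) (XT.nd (nat_lit 624) (nat_lit 608) (nat_lit 0) (XT.nd (nat_lit 312) (nat_lit 228) (nat_lit 0) (XT.nd (nat_lit 156) (nat_lit 76) (nat_lit 0) (XT.nd (nat_lit 78) (nat_lit 152) (nat_lit 0) (XT.lf (nat_lit 0) (nat_lit 12120832498) (nat_lit 76) (nat_lit 9144377846) (nat_lit 76) (nat_lit 3018165447) (nat_lit 37) (nat_lit 4) (nat_lit 38) (nat_lit 5) (nat_lit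 38) (nat_lit 4) (nat_lit 467) (nat_lit 382) (nat_lit 351)) (XT.lf (nat_lit 0) (nat_lit 3444277864) (nat_lit 76) (nat_lit 1264475282) (nat_lit 152) (nat_lit 20383628922) (nat_lit 35) (nat_lit 5) (nat_lit 36) (nat_lit 5) (nat_lit 37) (nat_lit 4) (nat_lit 468) (nat_lit 382) (nat_lit 350))) (XT.nd (nat_lit 78) (nat_lit 76) (nat_lit 0) (XT.lf (nat_lit 0) (nat_lit 12917765093) (nat_lit 152) (nat_lit 6081780477) (nat_lit 0) (nat_lit 6929961848) (nat_lit 35) (nat_lit 5) (nat_lit 37) (nat_lit 4) (nat_lit 35) (nat_lit 4) (nat_lit 469) (nat_lit 382) (nat_lit 349)) (XT.lf (nat_lit 0) (nat_lit 10343033604) (nat_lit 76) (nat_lit 11260583629) (nat_lit 76) (nat_lit 5201553790) (nat_lit 34) (nat_lit 4) (nat_lit 35) (nat_lit 5) (nat_lit 35) (nat_lit 4) (nat_lit 470) (nat_lit 382) (nat_lit 348)))) (XT.nd (nat_lit 156) (nat_lit 76) (nat_lit 0) (XT.nd (nat_lit 78) (nat_lit 76) (nat_lit 0) (XT.lf (nat_lit 0) (nat_lit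 2892128575) (nat_lit 152) (nat_lit 198001112) (nat_lit 76) (nat_lit 24632699416) (nat_lit 33) (nat_lit 5) (nat_lit 35) (nat_lit 5) (nat_lit 34) (nat_lit 4) (nat_lit 471) (nat_lit 382) (nat_lit 347)) (XT.lf (nat_lit 0) (nat_lit 11462596857) (nat_lit 152) (nat_lit 11641206106) (nat_lit 0) (nat_lit 5565959417) (nat_lit 32) (nat_lit 5) (nat_lit 34) (nat_lit 4) (nat_lit 32) (nat_lit 4) (nat_lit 472) (nat_lit 382) (nat_lit 346))) (XT.nd (nat_lit 78) (nat_lit 0) (nat_lit 0) (XT.lf (nat_lit 0) (nat_lit 5360815427) (nat_lit 76) (nat_lit 15128537803) (nat_lit 76) (nat_lit 9173302066) (nat_lit 31) (nat_lit 4) (nat_lit 32) (nat_lit 5) (nat_lit 32) (nat_lit 4) (nat_lit 473) (nat_lit 382) (nat_lit 345)) (XT.lf (nat_lit 0) (nat_lit 23401142292) (nat_lit 76) (nat_lit 6655322249) (nat_lit 76) (nat_lit 644278612) (nat_lit 31) (nat_lit 4) (nat_lit 32) (nat_lit 5) (nat_lit 32) (nat_lit 4) (nat_lit 474) (nat_lit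 382) (nat_lit 344))))) (XT.nd (nat_lit 312) (nat_lit 304) (nat_lit 0) (XT.nd (nat_lit 156) (nat_lit 152) (nat_lit 0) (XT.nd (nat_lit 78) (nat_lit 0) (nat_lit 0) (XT.lf (nat_lit 0) (nat_lit 8143446936) (nat_lit 152) (nat_lit 21267864341) (nat_lit 0) (nat_lit 2368024061) (nat_lit 29) (nat_lit 5) (nat_lit 31) (nat_lit 4) (nat_lit 29) (nat_lit 4) (nat_lit 475) (nat_lit 382) (nat_lit 343)) (XT.lf (nat_lit 0) (nat_lit 17479152861) (nat_lit 152) (nat_lit 3770143840) (nat_lit 0) (nat_lit 11655521023) (nat_lit 29) (nat_lit 5) (nat_lit 31) (nat_lit 4) (nat_lit 29) (nat_lit 4) (nat_lit 476) (nat_lit 382) (nat_lit 342))) (XT.nd (nat_lit 78) (nat_lit 76) (nat_lit 0) (XT.lf (nat_lit 0) (nat_lit 14879364071) (nat_lit 76) (nat_lit 12535058656) (nat_lit 76) (nat_lit 6665513520) (nat_lit 28) (nat_lit 4) (nat_lit 29) (nat_lit 5) (nat_lit 29) (nat_lit 4) (nat_lit 477) (nat_lit 382) (nat_lit 341)) (XT.lf (nat_lit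 0) (nat_lit 2417023499) (nat_lit 152) (nat_lit 958373912) (nat_lit 76) (nat_lit 31938165129) (nat_lit 27) (nat_lit 5) (nat_lit 29) (nat_lit 5) (nat_lit 28) (nat_lit 4) (nat_lit 478) (nat_lit 382) (nat_lit 340)))) (XT.nd (nat_lit 156) (nat_lit 152) (nat_lit 0) (XT.nd (nat_lit 78) (nat_lit 76) (nat_lit 0) (XT.lf (nat_lit 0) (nat_lit 12026114661) (nat_lit 152) (nat_lit 18207705830) (nat_lit 0) (nat_lit 6354765326) (nat_lit 26) (nat_lit 5) (nat_lit 28) (nat_lit 4) (nat_lit 26) (nat_lit 4) (nat_lit 479) (nat_lit 382) (nat_lit 339)) (XT.lf (nat_lit 0) (nat_lit 566304315) (nat_lit 76) (nat_lit 21535437485) (nat_lit 76) (nat_lit 15826315166) (nat_lit 25) (nat_lit 4) (nat_lit 26) (nat_lit 5) (nat_lit 26) (nat_lit 4) (nat_lit 480) (nat_lit 382) (nat_lit 338))) (XT.nd (nat_lit 78) (nat_lit 152) (nat_lit 0) (XT.lf (nat_lit 0) (nat_lit 20724169648) (nat_lit 76) (nat_lit 12172330921) (nat_lit 76) (nat_lit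 6427234332) (nat_lit 25) (nat_lit 4) (nat_lit 26) (nat_lit 5) (nat_lit 26) (nat_lit 4) (nat_lit 481) (nat_lit 382) (nat_lit 337)) (XT.lf (nat_lit 0) (nat_lit 894577824) (nat_lit 76) (nat_lit 2361000528) (nat_lit 152) (nat_lit 37534735400) (nat_lit 23) (nat_lit 5) (nat_lit 24) (nat_lit 5) (nat_lit 25) (nat_lit 4) (nat_lit 482) (nat_lit 382) (nat_lit 336))))))) (XT.nd (nat_lit 1248) (nat_lit 456) (nat_lit 0) (XT.nd (nat_lit 624) (nat_lit 380) (nat_lit 0) (XT.nd (nat_lit 312) (nat_lit 152) (nat_lit 0) (XT.nd (nat_lit 156) (nat_lit 152) (nat_lit 0) (XT.nd (nat_lit 78) (nat_lit 0) (nat_lit 0) (XT.lf (nat_lit 0) (nat_lit 13560747651) (nat_lit 152) (nat_lit 20720974211) (nat_lit 0) (nat_lit 8025521439) (nat_lit 23) (nat_lit 5) (nat_lit 25) (nat_lit 4) (nat_lit 23) (nat_lit 4) (nat_lit 483) (nat_lit 382) (nat_lit 335)) (XT.lf (nat_lit 0) (nat_lit 24334239485) (nat_lit 152) (nat_lit 798710099) (nat_lit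 0) (nat_lit 18769417152) (nat_lit 23) (nat_lit 5) (nat_lit 25) (nat_lit 4) (nat_lit 23) (nat_lit 4) (nat_lit 484) (nat_lit 382) (nat_lit 334))) (XT.nd (nat_lit 78) (nat_lit 76) (nat_lit 0) (XT.lf (nat_lit 0) (nat_lit 20615166269) (nat_lit 76) (nat_lit 15271537439) (nat_lit 76) (nat_lit 9678528324) (nat_lit 22) (nat_lit 4) (nat_lit 23) (nat_lit 5) (nat_lit 23) (nat_lit 4) (nat_lit 485) (nat_lit 382) (nat_lit 333)) (XT.lf (nat_lit 0) (nat_lit 615198656) (nat_lit 152) (nat_lit 4358696424) (nat_lit 76) (nat_lit 42340183754) (nat_lit 21) (nat_lit 5) (nat_lit 23) (nat_lit 5) (nat_lit 22) (nat_lit 4) (nat_lit 486) (nat_lit 382) (nat_lit 332)))) (XT.nd (nat_lit 156) (nat_lit 76) (nat_lit 0) (XT.nd (nat_lit 78) (nat_lit 0) (nat_lit 0) (XT.lf (nat_lit 0) (nat_lit 11391060615) (nat_lit 152) (nat_lit 31722268888) (nat_lit 0) (nat_lit 6014470222) (nat_lit 20) (nat_lit 5) (nat_lit 22) (nat_lit 4) (nat_lit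 20) (nat_lit 4) (nat_lit 487) (nat_lit 382) (nat_lit 331)) (XT.lf (nat_lit 0) (nat_lit 22784725216) (nat_lit 152) (nat_lit 10858585958) (nat_lit 0) (nat_lit 17384945488) (nat_lit 20) (nat_lit 5) (nat_lit 22) (nat_lit 4) (nat_lit 20) (nat_lit 4) (nat_lit 488) (nat_lit 382) (nat_lit 330))) (XT.nd (nat_lit 78) (nat_lit 0) (nat_lit 0) (XT.lf (nat_lit 0) (nat_lit 11259498907) (nat_lit 76) (nat_lit 23590503176) (nat_lit 76) (nat_lit 18168638367) (nat_lit 19) (nat_lit 4) (nat_lit 20) (nat_lit 5) (nat_lit 20) (nat_lit 4) (nat_lit 489) (nat_lit 382) (nat_lit 329)) (XT.lf (nat_lit 0) (nat_lit 34713722859) (nat_lit 76) (nat_lit 12916078155) (nat_lit 76) (nat_lit 7473179935) (nat_lit 19) (nat_lit 4) (nat_lit 20) (nat_lit 5) (nat_lit 20) (nat_lit 4) (nat_lit 490) (nat_lit 382) (nat_lit 328))))) (XT.nd (nat_lit 312) (nat_lit 152) (nat_lit 0) (XT.nd (nat_lit 156) (nat_lit 76) (nat_lit 0) (XT.nd (nat_lit 78)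 (nat_lit 0) (nat_lit 0) (XT.lf (nat_lit 0) (nat_lit 1909489147) (nat_lit 76) (nat_lit 1686812895) (nat_lit 152) (nat_lit 53694328935) (nat_lit 17) (nat_lit 5) (nat_lit 18) (nat_lit 5) (nat_lit 19) (nat_lit 4) (nat_lit 491) (nat_lit 382) (nat_lit 327)) (XT.lf (nat_lit 0) (nat_lit 15406573192) (nat_lit 152) (nat_lit 33967428757) (nat_lit 0) (nat_lit 10185613227) (nat_lit 17) (nat_lit 5) (nat_lit 19) (nat_lit 4) (nat_lit 17) (nat_lit 4) (nat_lit 492) (nat_lit 382) (nat_lit 326))) (XT.nd (nat_lit 78) (nat_lit 76) (nat_lit 0) (XT.lf (nat_lit 0) (nat_lit 27768105660) (nat_lit 152) (nat_lit 11646064438) (nat_lit 0) (nat_lit 22529841455) (nat_lit 17) (nat_lit 5) (nat_lit 19) (nat_lit 4) (nat_lit 17) (nat_lit 4) (nat_lit 493) (nat_lit 382) (nat_lit 325)) (XT.lf (nat_lit 0) (nat_lit 12048045815) (nat_lit 76) (nat_lit 28824053733) (nat_lit 76) (nat_lit 23569309301) (nat_lit 16) (nat_lit 4) (nat_lit 17)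 (nat_lit 5) (nat_lit 17) (nat_lit 4) (nat_lit 494) (nat_lit 382) (nat_lit 324)))) (XT.nd (nat_lit 156) (nat_lit 152) (nat_lit 0) (XT.nd (nat_lit 78) (nat_lit 0) (nat_lit 0) (XT.lf (nat_lit 0) (nat_lit 37204331250) (nat_lit 76) (nat_lit 17561528325) (nat_lit 76) (nat_lit 12291088438) (nat_lit 16) (nat_lit 4) (nat_lit 17) (nat_lit 5) (nat_lit 17) (nat_lit 4) (nat_lit 495) (nat_lit 382) (nat_lit 323)) (XT.lf (nat_lit 0) (nat_lit 63497616299) (nat_lit 76) (nat_lit 5797010073) (nat_lit 76) (nat_lit 511622133) (nat_lit 16) (nat_lit 4) (nat_lit 17) (nat_lit 5) (nat_lit 17) (nat_lit 4) (nat_lit 496) (nat_lit 382) (nat_lit 322))) (XT.nd (nat_lit 78) (nat_lit 0) (nat_lit 0) (XT.lf (nat_lit 0) (nat_lit 11820910561) (nat_lit 152) (nat_lit 54072019129) (nat_lit 0) (nat_lit 6773649437) (nat_lit 14) (nat_lit 5) (nat_lit 16) (nat_lit 4) (nat_lit 14) (nat_lit 4) (nat_lit 497) (nat_lit 382) (nat_lit 321)) (XT.lf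 (nat_lit 0) (nat_lit 24898773330) (nat_lit 152) (nat_lit 30924839474) (nat_lit 0) (nat_lit 19838599517) (nat_lit 14) (nat_lit 5) (nat_lit 16) (nat_lit 4) (nat_lit 14) (nat_lit 4) (nat_lit 498) (nat_lit 382) (nat_lit 320)))))) (XT.nd (nat_lit 624) (nat_lit 228) (nat_lit 0) (XT.nd (nat_lit 312) (nat_lit 152) (nat_lit 0) (XT.nd (nat_lit 156) (nat_lit 0) (nat_lit 0) (XT.nd (nat_lit 78) (nat_lit 76) (nat_lit 0) (XT.lf (nat_lit 0) (nat_lit 38575551272) (nat_lit 152) (nat_lit 6731745396) (nat_lit 0) (nat_lit 33503079659) (nat_lit 14) (nat_lit 5) (nat_lit 16) (nat_lit 4) (nat_lit 14) (nat_lit 4) (nat_lit 499) (nat_lit 382) (nat_lit 319)) (XT.lf (nat_lit 0) (nat_lit 19178704012) (nat_lit 76) (nat_lit 34004537449) (nat_lit 76) (nat_lit 28920353646) (nat_lit 13) (nat_lit 4) (nat_lit 14) (nat_lit 5) (nat_lit 14) (nat_lit 4) (nat_lit 500) (nat_lit 382) (nat_lit 318))) (XT.nd (nat_lit 78) (nat_lit 0) (nat_lit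 0) (XT.lf (nat_lit 0) (nat_lit 46513961113) (nat_lit 76) (nat_lit 22069863398) (nat_lit 76) (nat_lit 16974525128) (nat_lit 13) (nat_lit 4) (nat_lit 14) (nat_lit 5) (nat_lit 14) (nat_lit 4) (nat_lit 501) (nat_lit 382) (nat_lit 317)) (XT.lf (nat_lit 0) (nat_lit 75116527947) (nat_lit 76) (nat_lit 9588863989) (nat_lit 76) (nat_lit 4482902417) (nat_lit 13) (nat_lit 4) (nat_lit 14) (nat_lit 5) (nat_lit 14) (nat_lit 4) (nat_lit 502) (nat_lit 382) (nat_lit 316)))) (XT.nd (nat_lit 156) (nat_lit 0) (nat_lit 0) (XT.nd (nat_lit 78) (nat_lit 0) (nat_lit 0) (XT.lf (nat_lit 0) (nat_lit 8561235479) (nat_lit 152) (nat_lit 80732769556) (nat_lit 0) (nat_lit 3688779287) (nat_lit 11) (nat_lit 5) (nat_lit 13) (nat_lit 4) (nat_lit 11) (nat_lit 4) (nat_lit 503) (nat_lit 382) (nat_lit 315)) (XT.lf (nat_lit 0) (nat_lit 22458895149) (nat_lit 152) (nat_lit 56909568680) (nat_lit 0) (nat_lit 17577262149) (nat_lit 11) (nat_lit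 5) (nat_lit 13) (nat_lit 4) (nat_lit 11) (nat_lit 4) (nat_lit 504) (nat_lit 382) (nat_lit 314))) (XT.nd (nat_lit 78) (nat_lit 0) (nat_lit 0) (XT.lf (nat_lit 0) (nat_lit 37006253394) (nat_lit 152) (nat_lit 31986940145) (nat_lit 0) (nat_lit 32115880578) (nat_lit 11) (nat_lit 5) (nat_lit 13) (nat_lit 4) (nat_lit 11) (nat_lit 4) (nat_lit 505) (nat_lit 382) (nat_lit 313)) (XT.lf (nat_lit 0) (nat_lit 52237946783) (nat_lit 152) (nat_lit 5905544359) (nat_lit 0) (nat_lit 47339250332) (nat_lit 11) (nat_lit 5) (nat_lit 13) (nat_lit 4) (nat_lit 11) (nat_lit 4) (nat_lit 506) (nat_lit 382) (nat_lit 312))))) (XT.nd (nat_lit 312) (nat_lit 152) (nat_lit 0) (XT.nd (nat_lit 156) (nat_lit 0) (nat_lit 0) (XT.nd (nat_lit 78) (nat_lit 0) (nat_lit 0) (XT.lf (nat_lit 0) (nat_lit 22104189342) (nat_lit 76) (nat_lit 46431160253) (nat_lit 76) (nat_lit 41524536530) (nat_lit 10) (nat_lit 4) (nat_lit 11) (nat_lit 5) (nat_lit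 11) (nat_lit 4) (nat_lit 507) (nat_lit 382) (nat_lit 311)) (XT.lf (nat_lit 0) (nat_lit 51637574916) (nat_lit 76) (nat_lit 34069750796) (nat_lit 76) (nat_lit 29155577291) (nat_lit 10) (nat_lit 4) (nat_lit 11) (nat_lit 5) (nat_lit 11) (nat_lit 4) (nat_lit 508) (nat_lit 382) (nat_lit 310))) (XT.nd (nat_lit 78) (nat_lit 0) (nat_lit 0) (XT.lf (nat_lit 0) (nat_lit 82569665982) (nat_lit 76) (nat_lit 21129844098) (nat_lit 76) (nat_lit 16208480324) (nat_lit 10) (nat_lit 4) (nat_lit 11) (nat_lit 5) (nat_lit 11) (nat_lit 4) (nat_lit 509) (nat_lit 382) (nat_lit 309)) (XT.lf (nat_lit 0) (nat_lit 114974110375) (nat_lit 76) (nat_lit 7580630855) (nat_lit 76) (nat_lit 2652419206) (nat_lit 10) (nat_lit 4) (nat_lit 11) (nat_lit 5) (nat_lit 11) (nat_lit 4) (nat_lit 510) (nat_lit 382) (nat_lit 308)))) (XT.nd (nat_lit 156) (nat_lit 0) (nat_lit 0) (XT.nd (nat_lit 78) (nat_lit 0) (nat_lit 0) (XT.lf (nat_lit 0) (nat_lit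 11576200476) (nat_lit 152) (nat_lit 112291321632) (nat_lit 0) (nat_lit 6876454347) (nat_lit 8) (nat_lit 5) (nat_lit 10) (nat_lit 4) (nat_lit 8) (nat_lit 4) (nat_lit 511) (nat_lit 382) (nat_lit 307)) (XT.lf (nat_lit 0) (nat_lit 26692155804) (nat_lit 152) (nat_lit 87863557088) (nat_lit 0) (nat_lit 21986494224) (nat_lit 8) (nat_lit 5) (nat_lit 10) (nat_lit 4) (nat_lit 8) (nat_lit 4) (nat_lit 512) (nat_lit 382) (nat_lit 306))) (XT.nd (nat_lit 78) (nat_lit 0) (nat_lit 0) (XT.lf (nat_lit 0) (nat_lit 42530221315) (nat_lit 152) (nat_lit 62282886517) (nat_lit 0) (nat_lit 37818925971) (nat_lit 8) (nat_lit 5) (nat_lit 10) (nat_lit 4) (nat_lit 8) (nat_lit 4) (nat_lit 513) (nat_lit 382) (nat_lit 305)) (XT.lf (nat_lit 0) (nat_lit 59128106690) (nat_lit 152) (nat_lit 35488403561) (nat_lit 0) (nat_lit 54411445857) (nat_lit 8) (nat_lit 5) (nat_lit 10) (nat_lit 4) (nat_lit 8) (nat_lit 4) (nat_lit 514) (nat_lit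 382) (nat_lit 304))))))))
noncomputable def xc56 : XT := (XT.nd (nat_lit 2418) (nat_lit 0) (nat_lit 0) (XT.nd (nat_lit 1170) (nat_lit 152) (nat_lit 0) (XT.nd (nat_lit 546) (nat_lit 228) (nat_lit 0) (XT.nd (nat_lit 234) (nat_lit 0) (nat_lit 0) (XT.nd (nat_lit 78) (nat_lit 76) (nat_lit 0) (XT.lf (nat_lit 0) (nat_lit 76525330702) (nat_lit 152) (nat_lit 7416311833) (nat_lit 0) (nat_lit 71803559879) (nat_lit 8) (nat_lit 5) (nat_lit 10) (nat_lit 4) (nat_lit 8) (nat_lit 4) (nat_lit 515) (nat_lit 382) (nat_lit 303)) (XT.nd (nat_lit 78) (nat_lit 0) (nat_lit 0) (XT.lf (nat_lit 0) (nat_lit 22727653840) (nat_lit 76) (nat_lit 72390503844) (nat_lit 76) (nat_lit 67663866364) (nat_lit 7) (nat_lit 4) (nat_lit 8) (nat_lit 5) (nat_lit 8) (nat_lit 4) (nat_lit 516) (nat_lit 382) (nat_lit 302)) (XT.lf (nat_lit 0) (nat_lit 54578092052) (nat_lit 76) (nat_lit 60159509218) (nat_lit 76) (nat_lit 55428236826) (nat_lit 7)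 (nat_lit 4) (nat_lit 8) (nat_lit 5) (nat_lit 8) (nat_lit 4) (nat_lit 517) (nat_lit 382) (nat_lit 301)))) (XT.nd (nat_lit 156) (nat_lit 0) (nat_lit 0) (XT.nd (nat_lit 78) (nat_lit 0) (nat_lit 0) (XT.lf (nat_lit 0) (nat_lit 87965620416) (nat_lit 76) (nat_lit 47345136071) (nat_lit 76) (nat_lit 42609449478) (nat_lit 7) (nat_lit 4) (nat_lit 8) (nat_lit 5) (nat_lit 8) (nat_lit 4) (nat_lit 518) (nat_lit 382) (nat_lit 300)) (XT.lf (nat_lit 0) (nat_lit 122969733046) (nat_lit 76) (nat_lit 33916873992) (nat_lit 76) (nat_lit 29176983398) (nat_lit 7) (nat_lit 4) (nat_lit 8) (nat_lit 5) (nat_lit 8) (nat_lit 4) (nat_lit 519) (nat_lit 382) (nat_lit 299))) (XT.nd (nat_lit 78) (nat_lit 0) (nat_lit 0) (XT.lf (nat_lit 0) (nat_lit 159673773069) (nat_lit 76) (nat_lit 19842750927) (nat_lit 76) (nat_lit 15098856523) (nat_lit 7) (nat_lit 4) (nat_lit 8) (nat_lit 5) (nat_lit 8) (nat_lit 4) (nat_lit 520) (nat_lit 382) (nat_lit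 298)) (XT.lf (nat_lit 0) (nat_lit 198165131055) (nat_lit 76) (nat_lit 5089257060) (nat_lit 76) (nat_lit 341549503) (nat_lit 7) (nat_lit 4) (nat_lit 8) (nat_lit 5) (nat_lit 8) (nat_lit 4) (nat_lit 521) (nat_lit 382) (nat_lit 297))))) (XT.nd (nat_lit 312) (nat_lit 76) (nat_lit 0) (XT.nd (nat_lit 156) (nat_lit 0) (nat_lit 0) (XT.nd (nat_lit 78) (nat_lit 0) (nat_lit 0) (XT.lf (nat_lit 0) (nat_lit 15226035583) (nat_lit 152) (nat_lit 187058835677) (nat_lit 0) (nat_lit 10700950695) (nat_lit 5) (nat_lit 5) (nat_lit 7) (nat_lit 4) (nat_lit 5) (nat_lit 4) (nat_lit 522) (nat_lit 382) (nat_lit 296)) (XT.lf (nat_lit 0) (nat_lit 31714649453) (nat_lit 152) (nat_lit 163936294150) (nat_lit 0) (nat_lit 27186270621) (nat_lit 5) (nat_lit 5) (nat_lit 7) (nat_lit 4) (nat_lit 5) (nat_lit 4) (nat_lit 523) (nat_lit 382) (nat_lit 295))) (XT.nd (nat_lit 78) (nat_lit 0) (nat_lit 0) (XT.lf (nat_lit 0) (nat_lit 49005995249)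 (nat_lit 152) (nat_lit 139701786537) (nat_lit 0) (nat_lit 44474479326) (nat_lit 5) (nat_lit 5) (nat_lit 7) (nat_lit 4) (nat_lit 5) (nat_lit 4) (nat_lit 524) (nat_lit 382) (nat_lit 294)) (XT.lf (nat_lit 0) (nat_lit 67141242840) (nat_lit 152) (nat_lit 114297611628) (nat_lit 0) (nat_lit 62606739212) (nat_lit 5) (nat_lit 5) (nat_lit 7) (nat_lit 4) (nat_lit 5) (nat_lit 4) (nat_lit 525) (nat_lit 382) (nat_lit 293)))) (XT.nd (nat_lit 156) (nat_lit 76) (nat_lit 0) (XT.nd (nat_lit 78) (nat_lit 0) (nat_lit 0) (XT.lf (nat_lit 0) (nat_lit 86163571388) (nat_lit 152) (nat_lit 87663283292) (nat_lit 0) (nat_lit 81626222326) (nat_lit 5) (nat_lit 5) (nat_lit 7) (nat_lit 4) (nat_lit 5) (nat_lit 4) (nat_lit 526) (nat_lit 382) (nat_lit 292)) (XT.lf (nat_lit 0) (nat_lit 106118272150) (nat_lit 152) (nat_lit 59735386462) (nat_lit 0) (nat_lit 101578213152) (nat_lit 5) (nat_lit 5) (nat_lit 7) (nat_lit 4) (nat_lit 5) (nat_lit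 4) (nat_lit 527) (nat_lit 382) (nat_lit 291))) (XT.nd (nat_lit 78) (nat_lit 76) (nat_lit 0) (XT.lf (nat_lit 0) (nat_lit 127052856320) (nat_lit 152) (nat_lit 30447426145) (nat_lit 0) (nat_lit 122510216430) (nat_lit 5) (nat_lit 5) (nat_lit 7) (nat_lit 4) (nat_lit 5) (nat_lit 4) (nat_lit 528) (nat_lit 382) (nat_lit 290)) (XT.lf (nat_lit 0) (nat_lit 279269256) (nat_lit 76) (nat_lit 148742259065) (nat_lit 76) (nat_lit 144197161182) (nat_lit 4) (nat_lit 4) (nat_lit 5) (nat_lit 5) (nat_lit 5) (nat_lit 4) (nat_lit 529) (nat_lit 382) (nat_lit 289)))))) (XT.nd (nat_lit 624) (nat_lit 152) (nat_lit 0) (XT.nd (nat_lit 312) (nat_lit 0) (nat_lit 0) (XT.nd (nat_lit 156) (nat_lit 0) (nat_lit 0) (XT.nd (nat_lit 78) (nat_lit 0) (nat_lit 0) (XT.lf (nat_lit 0) (nat_lit 33565322107) (nat_lit 76) (nat_lit 139022230244) (nat_lit 76) (nat_lit 134474791416) (nat_lit 4) (nat_lit 4) (nat_lit 5) (nat_lit 5) (nat_lit 5) (nat_lit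 4) (nat_lit 530) (nat_lit 382) (nat_lit 288)) (XT.lf (nat_lit 0) (nat_lit 68483255500) (nat_lit 76) (nat_lit 128832694973) (nat_lit 76) (nat_lit 124283026673) (nat_lit 4) (nat_lit 4) (nat_lit 5) (nat_lit 5) (nat_lit 5) (nat_lit 4) (nat_lit 531) (nat_lit 382) (nat_lit 287))) (XT.nd (nat_lit 78) (nat_lit 0) (nat_lit 0) (XT.lf (nat_lit 0) (nat_lit 105116207373) (nat_lit 76) (nat_lit 118149392453) (nat_lit 76) (nat_lit 113597600847) (nat_lit 4) (nat_lit 4) (nat_lit 5) (nat_lit 5) (nat_lit 5) (nat_lit 4) (nat_lit 532) (nat_lit 382) (nat_lit 286)) (XT.lf (nat_lit 0) (nat_lit 143551399038) (nat_lit 76) (nat_lit 106946886249) (nat_lit 76) (nat_lit 102393072447) (nat_lit 4) (nat_lit 4) (nat_lit 5) (nat_lit 5) (nat_lit 5) (nat_lit 4) (nat_lit 533) (nat_lit 382) (nat_lit 285)))) (XT.nd (nat_lit 156) (nat_lit 0) (nat_lit 0) (XT.nd (nat_lit 78) (nat_lit 0) (nat_lit 0) (XT.lf (nat_lit 0) (nat_lit 183880342858)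 (nat_lit 76) (nat_lit 95198503728) (nat_lit 76) (nat_lit 90642764024) (nat_lit 4) (nat_lit 4) (nat_lit 5) (nat_lit 5) (nat_lit 5) (nat_lit 4) (nat_lit 534) (nat_lit 382) (nat_lit 284)) (XT.lf (nat_lit 0) (nat_lit 226199060127) (nat_lit 76) (nat_lit 82876272551) (nat_lit 76) (nat_lit 78318698655) (nat_lit 4) (nat_lit 4) (nat_lit 5) (nat_lit 5) (nat_lit 5) (nat_lit 4) (nat_lit 535) (nat_lit 382) (nat_lit 283))) (XT.nd (nat_lit 78) (nat_lit 0) (nat_lit 0) (XT.lf (nat_lit 0) (nat_lit 270608309695) (nat_lit 76) (nat_lit 69950854071) (nat_lit 76) (nat_lit 65391533326) (nat_lit 4) (nat_lit 4) (nat_lit 5) (nat_lit 5) (nat_lit 5) (nat_lit 4) (nat_lit 536) (nat_lit 382) (nat_lit 282)) (XT.lf (nat_lit 0) (nat_lit 317213827872) (nat_lit 76) (nat_lit 56391473483) (nat_lit 76) (nat_lit 51830489071) (nat_lit 4) (nat_lit 4) (nat_lit 5) (nat_lit 5) (nat_lit 5) (nat_lit 4) (nat_lit 537) (nat_lit 382) (nat_lit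 281))))) (XT.nd (nat_lit 312) (nat_lit 0) (nat_lit 0) (XT.nd (nat_lit 156) (nat_lit 152) (nat_lit 0) (XT.nd (nat_lit 78) (nat_lit 0) (nat_lit 0) (XT.lf (nat_lit 0) (nat_lit 366126580176) (nat_lit 76) (nat_lit 42165846547) (nat_lit 76) (nat_lit 37603277692) (nat_lit 4) (nat_lit 4) (nat_lit 5) (nat_lit 5) (nat_lit 5) (nat_lit 4) (nat_lit 538) (nat_lit 382) (nat_lit 280)) (XT.lf (nat_lit 0) (nat_lit 417463025542) (nat_lit 76) (nat_lit 27240102723) (nat_lit 76) (nat_lit 22676024874) (nat_lit 4) (nat_lit 4) (nat_lit 5) (nat_lit 5) (nat_lit 5) (nat_lit 4) (nat_lit 539) (nat_lit 382) (nat_lit 279))) (XT.nd (nat_lit 78) (nat_lit 152) (nat_lit 0) (XT.lf (nat_lit 0) (nat_lit 471345393601) (nat_lit 76) (nat_lit 11578704526) (nat_lit 76) (nat_lit 7013189539) (nat_lit 4) (nat_lit 4) (nat_lit 5) (nat_lit 5) (nat_lit 5) (nat_lit 4) (nat_lit 540) (nat_lit 382) (nat_lit 278)) (XT.lf (nat_lit 0) (nat_lit 9430819531)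 (nat_lit 152) (nat_lit 499088742305) (nat_lit 0) (nat_lit 5081406494) (nat_lit 2) (nat_lit 5) (nat_lit 4) (nat_lit 4) (nat_lit 2) (nat_lit 4) (nat_lit 541) (nat_lit 382) (nat_lit 277)))) (XT.nd (nat_lit 156) (nat_lit 0) (nat_lit 0) (XT.nd (nat_lit 78) (nat_lit 0) (nat_lit 0) (XT.lf (nat_lit 0) (nat_lit 26961245226) (nat_lit 152) (nat_lit 488845253310) (nat_lit 0) (nat_lit 22610590736) (nat_lit 2) (nat_lit 5) (nat_lit 4) (nat_lit 4) (nat_lit 2) (nat_lit 4) (nat_lit 542) (nat_lit 382) (nat_lit 276)) (XT.lf (nat_lit 0) (nat_lit 45358731341) (nat_lit 152) (nat_lit 478108863471) (nat_lit 0) (nat_lit 41006894514) (nat_lit 2) (nat_lit 5) (nat_lit 4) (nat_lit 4) (nat_lit 2) (nat_lit 4) (nat_lit 543) (nat_lit 382) (nat_lit 275))) (XT.nd (nat_lit 78) (nat_lit 0) (nat_lit 0) (XT.lf (nat_lit 0) (nat_lit 64667081415) (nat_lit 152) (nat_lit 466854009957) (nat_lit 0) (nat_lit 60314118554) (nat_lit 2) (nat_lit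 5) (nat_lit 4) (nat_lit 4) (nat_lit 2) (nat_lit 4) (nat_lit 544) (nat_lit 382) (nat_lit 274)) (XT.lf (nat_lit 0) (nat_lit 84932267710) (nat_lit 152) (nat_lit 455053895496) (nat_lit 0) (nat_lit 80578232435) (nat_lit 2) (nat_lit 5) (nat_lit 4) (nat_lit 4) (nat_lit 2) (nat_lit 4) (nat_lit 545) (nat_lit 382) (nat_lit 273))))))) (XT.nd (nat_lit 54366) (nat_lit 0) (nat_lit 3420) (XT.nd (nat_lit 53742) (nat_lit 0) (nat_lit 5244) (XT.nd (nat_lit 234) (nat_lit 0) (nat_lit 0) (XT.nd (nat_lit 78) (nat_lit 0) (nat_lit 0) (XT.lf (nat_lit 0) (nat_lit 106202540669) (nat_lit 152) (nat_lit 442680424579) (nat_lit 0) (nat_lit 101847484047) (nat_lit 2) (nat_lit 5) (nat_lit 4) (nat_lit 4) (nat_lit 2) (nat_lit 4) (nat_lit 546) (nat_lit 382) (nat_lit 272)) (XT.nd (nat_lit 78) (nat_lit 0) (nat_lit 0) (XT.lf (nat_lit 0) (nat_lit 128528543800) (nat_lit 152) (nat_lit 429704136559) (nat_lit 0) (nat_lit 124172514467) (nat_lit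 2) (nat_lit 5) (nat_lit 4) (nat_lit 4) (nat_lit 2) (nat_lit 4) (nat_lit 547) (nat_lit 382) (nat_lit 271)) (XT.lf (nat_lit 0) (nat_lit 151963434252) (nat_lit 152) (nat_lit 416094135514) (nat_lit 0) (nat_lit 147606478528) (nat_lit 2) (nat_lit 5) (nat_lit 4) (nat_lit 4) (nat_lit 2) (nat_lit 4) (nat_lit 548) (nat_lit 382) (nat_lit 270)))) (XT.nd (nat_lit 156) (nat_lit 0) (nat_lit 0) (XT.nd (nat_lit 78) (nat_lit 0) (nat_lit 0) (XT.lf (nat_lit 0) (nat_lit 176563009385) (nat_lit 152) (nat_lit 401818016678) (nat_lit 0) (nat_lit 172205171383) (nat_lit 2) (nat_lit 5) (nat_lit 4) (nat_lit 4) (nat_lit 2) (nat_lit 4) (nat_lit 549) (nat_lit 382) (nat_lit 269)) (XT.lf (nat_lit 0) (nat_lit 202385839614) (nat_lit 152) (nat_lit 386841789293) (nat_lit 0) (nat_lit 198027161348) (nat_lit 2) (nat_lit 5) (nat_lit 4) (nat_lit 4) (nat_lit 2) (nat_lit 4) (nat_lit 550) (nat_lit 382) (nat_lit 268))) (XT.nd (nat_lit 78)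 (nat_lit 0) (nat_lit 0) (XT.lf (nat_lit 0) (nat_lit 229493407870) (nat_lit 152) (nat_lit 371129795675) (nat_lit 0) (nat_lit 225133929352) (nat_lit 2) (nat_lit 5) (nat_lit 4) (nat_lit 4) (nat_lit 2) (nat_lit 4) (nat_lit 551) (nat_lit 382) (nat_lit 267)) (XT.lf (nat_lit 0) (nat_lit 257950255981) (nat_lit 152) (nat_lit 354644626315) (nat_lit 0) (nat_lit 253590015318) (nat_lit 2) (nat_lit 5) (nat_lit 4) (nat_lit 4) (nat_lit 2) (nat_lit 4) (nat_lit 552) (nat_lit 382) (nat_lit 266))))) (XT.nd (nat_lit 312) (nat_lit 684) (nat_lit 0) (XT.nd (nat_lit 156) (nat_lit 228) (nat_lit 0) (XT.nd (nat_lit 78) (nat_lit 228) (nat_lit 0) (XT.lf (nat_lit 0) (nat_lit 1465916817) (nat_lit 228) (nat_lit 1734098347) (nat_lit 228) (nat_lit 1734098347) (nat_lit 86) (nat_lit 4) (nat_lit 89) (nat_lit 5) (nat_lit 89) (nat_lit 4) (nat_lit 434) (nat_lit 383) (nat_lit 383)) (XT.lf (nat_lit 0) (nat_lit 1340893838) (nat_lit 228)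 (nat_lit 8107482317) (nat_lit 0) (nat_lit 635325250) (nat_lit 83) (nat_lit 5) (nat_lit 86) (nat_lit 4) (nat_lit 83) (nat_lit 4) (nat_lit 435) (nat_lit 383) (nat_lit 382))) (XT.nd (nat_lit 78) (nat_lit 76) (nat_lit 0) (XT.lf (nat_lit 0) (nat_lit 879247715) (nat_lit 152) (nat_lit 5402508970) (nat_lit 152) (nat_lit 4024970297) (nat_lit 81) (nat_lit 4) (nat_lit 83) (nat_lit 5) (nat_lit 83) (nat_lit 4) (nat_lit 436) (nat_lit 383) (nat_lit 381)) (XT.lf (nat_lit 0) (nat_lit 857541942) (nat_lit 228) (nat_lit 259549198) (nat_lit 76) (nat_lit 9425174782) (nat_lit 80) (nat_lit 5) (nat_lit 83) (nat_lit 5) (nat_lit 81) (nat_lit 4) (nat_lit 437) (nat_lit 383) (nat_lit 380)))) (XT.nd (nat_lit 156) (nat_lit 304) (nat_lit 0) (XT.nd (nat_lit 78) (nat_lit 228) (nat_lit 0) (XT.lf (nat_lit 0) (nat_lit 5876233660) (nat_lit 228) (nat_lit 1534372632) (nat_lit 0) (nat_lit 3374322369) (nat_lit 78) (nat_lit 5) (nat_lit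 81) (nat_lit 4) (nat_lit 78) (nat_lit 4) (nat_lit 438) (nat_lit 383) (nat_lit 379)) (XT.lf (nat_lit 0) (nat_lit 81981752) (nat_lit 228) (nat_lit 2886680148) (nat_lit 76) (nat_lit 8072028476) (nat_lit 75) (nat_lit 5) (nat_lit 78) (nat_lit 5) (nat_lit 76) (nat_lit 4) (nat_lit 439) (nat_lit 383) (nat_lit 378))) (XT.nd (nat_lit 78) (nat_lit 152) (nat_lit 0) (XT.lf (nat_lit 0) (nat_lit 5150070395) (nat_lit 228) (nat_lit 4416157314) (nat_lit 0) (nat_lit 1739357170) (nat_lit 73) (nat_lit 5) (nat_lit 76) (nat_lit 4) (nat_lit 73) (nat_lit 4) (nat_lit 440) (nat_lit 383) (nat_lit 377)) (XT.lf (nat_lit 0) (nat_lit 5504528364) (nat_lit 152) (nat_lit 4983330325) (nat_lit 152) (nat_lit 1095060507) (nat_lit 71) (nat_lit 4) (nat_lit 73) (nat_lit 5) (nat_lit 73) (nat_lit 4) (nat_lit 441) (nat_lit 383) (nat_lit 376)))))) (XT.nd (nat_lit 624) (nat_lit 760) (nat_lit 0) (XT.nd (nat_lit 312) (nat_lit 608) (nat_lit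 0) (XT.nd (nat_lit 156) (nat_lit 152) (nat_lit 0) (XT.nd (nat_lit 78) (nat_lit 152) (nat_lit 0) (XT.lf (nat_lit 0) (nat_lit 3967859355) (nat_lit 76) (nat_lit 86260145) (nat_lit 152) (nat_lit 7818180646) (nat_lit 69) (nat_lit 5) (nat_lit 70) (nat_lit 5) (nat_lit 71) (nat_lit 4) (nat_lit 442) (nat_lit 383) (nat_lit 375)) (XT.lf (nat_lit 0) (nat_lit 2231635054) (nat_lit 152) (nat_lit 7244900234) (nat_lit 152) (nat_lit 2696096873) (nat_lit 67) (nat_lit 4) (nat_lit 69) (nat_lit 5) (nat_lit 69) (nat_lit 4) (nat_lit 443) (nat_lit 383) (nat_lit 374))) (XT.nd (nat_lit 78) (nat_lit 0) (nat_lit 0) (XT.lf (nat_lit 0) (nat_lit 334541646) (nat_lit 76) (nat_lit 2239230059) (nat_lit 152) (nat_lit 9913246827) (nat_lit 65) (nat_lit 5) (nat_lit 66) (nat_lit 5) (nat_lit 67) (nat_lit 4) (nat_lit 444) (nat_lit 383) (nat_lit 373)) (XT.lf (nat_lit 0) (nat_lit 8070796762) (nat_lit 152) (nat_lit 1733346499) (nat_lit 0)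 (nat_lit 3008064916) (nat_lit 65) (nat_lit 5) (nat_lit 67) (nat_lit 4) (nat_lit 65) (nat_lit 4) (nat_lit 445) (nat_lit 383) (nat_lit 372)))) (XT.nd (nat_lit 156) (nat_lit 304) (nat_lit 0) (XT.nd (nat_lit 78) (nat_lit 76) (nat_lit 0) (XT.lf (nat_lit 0) (nat_lit 691219763) (nat_lit 228) (nat_lit 3985121885) (nat_lit 76) (nat_lit 8475571609) (nat_lit 62) (nat_lit 5) (nat_lit 65) (nat_lit 5) (nat_lit 63) (nat_lit 4) (nat_lit 446) (nat_lit 383) (nat_lit 371)) (XT.lf (nat_lit 0) (nat_lit 6232646034) (nat_lit 152) (nat_lit 6492321881) (nat_lit 0) (nat_lit 779930319) (nat_lit 61) (nat_lit 5) (nat_lit 63) (nat_lit 4) (nat_lit 61) (nat_lit 4) (nat_lit 447) (nat_lit 383) (nat_lit 370))) (XT.nd (nat_lit 78) (nat_lit 152) (nat_lit 0) (XT.lf (nat_lit 0) (nat_lit 4609243852) (nat_lit 152) (nat_lit 7504528624) (nat_lit 152) (nat_lit 1758634587) (nat_lit 59) (nat_lit 4) (nat_lit 61) (nat_lit 5) (nat_lit 61) (nat_lit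 4) (nat_lit 448) (nat_lit 383) (nat_lit 369)) (XT.lf (nat_lit 0) (nat_lit 1948790119) (nat_lit 76) (nat_lit 1940917981) (nat_lit 152) (nat_lit 10366039691) (nat_lit 57) (nat_lit 5) (nat_lit 58) (nat_lit 5) (nat_lit 59) (nat_lit 4) (nat_lit 449) (nat_lit 383) (nat_lit 368))))) (XT.nd (nat_lit 312) (nat_lit 380) (nat_lit 0) (XT.nd (nat_lit 156) (nat_lit 152) (nat_lit 0) (XT.nd (nat_lit 78) (nat_lit 228) (nat_lit 0) (XT.lf (nat_lit 0) (nat_lit 9828461568) (nat_lit 152) (nat_lit 988001245) (nat_lit 0) (nat_lit 3837001695) (nat_lit 57) (nat_lit 5) (nat_lit 59) (nat_lit 4) (nat_lit 57) (nat_lit 4) (nat_lit 450) (nat_lit 383) (nat_lit 367)) (XT.lf (nat_lit 0) (nat_lit 1018901028) (nat_lit 228) (nat_lit 4143911294) (nat_lit 76) (nat_lit 9904604217) (nat_lit 54) (nat_lit 5) (nat_lit 57) (nat_lit 5) (nat_lit 55) (nat_lit 4) (nat_lit 451) (nat_lit 383) (nat_lit 366))) (XT.nd (nat_lit 78) (nat_lit 76) (nat_lit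 0) (XT.lf (nat_lit 0) (nat_lit 7000655791) (nat_lit 152) (nat_lit 7651053140) (nat_lit 0) (nat_lit 846016467) (nat_lit 53) (nat_lit 5) (nat_lit 55) (nat_lit 4) (nat_lit 53) (nat_lit 4) (nat_lit 452) (nat_lit 383) (nat_lit 365)) (XT.lf (nat_lit 0) (nat_lit 4414507436) (nat_lit 76) (nat_lit 8947020384) (nat_lit 76) (nat_lit 2584024700) (nat_lit 52) (nat_lit 4) (nat_lit 53) (nat_lit 5) (nat_lit 53) (nat_lit 4) (nat_lit 453) (nat_lit 383) (nat_lit 364)))) (XT.nd (nat_lit 156) (nat_lit 228) (nat_lit 0) (XT.nd (nat_lit 78) (nat_lit 0) (nat_lit 0) (XT.lf (nat_lit 0) (nat_lit 625023730) (nat_lit 76) (nat_lit 2880563607) (nat_lit 152) (nat_lit 12907511643) (nat_lit 50) (nat_lit 5) (nat_lit 51) (nat_lit 5) (nat_lit 52) (nat_lit 4) (nat_lit 454) (nat_lit 383) (nat_lit 363)) (XT.lf (nat_lit 0) (nat_lit 9921891653) (nat_lit 152) (nat_lit 3481639829) (nat_lit 0) (nat_lit 3492924346) (nat_lit 50) (nat_lit 5)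 (nat_lit 52) (nat_lit 4) (nat_lit 50) (nat_lit 4) (nat_lit 455) (nat_lit 383) (nat_lit 362))) (XT.nd (nat_lit 78) (nat_lit 152) (nat_lit 0) (XT.lf (nat_lit 0) (nat_lit 9431357130) (nat_lit 76) (nat_lit 7285069379) (nat_lit 76) (nat_lit 684686779) (nat_lit 49) (nat_lit 4) (nat_lit 50) (nat_lit 5) (nat_lit 50) (nat_lit 4) (nat_lit 456) (nat_lit 383) (nat_lit 361)) (XT.lf (nat_lit 0) (nat_lit 4985317174) (nat_lit 76) (nat_lit 745879134) (nat_lit 152) (nat_lit 12195140441) (nat_lit 47) (nat_lit 5) (nat_lit 48) (nat_lit 5) (nat_lit 49) (nat_lit 4) (nat_lit 457) (nat_lit 383) (nat_lit 360))))))))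
noncomputable def xc57 : XT := (XT.nd (nat_lit 2418) (nat_lit 988) (nat_lit 0) (XT.nd (nat_lit 1170) (nat_lit 912) (nat_lit 0) (XT.nd (nat_lit 546) (nat_lit 608) (nat_lit 0) (XT.nd (nat_lit 234) (nat_lit 304) (nat_lit 0) (XT.nd (nat_lit 78) (nat_lit 152) (nat_lit 0) (XT.lf (nat_lit 0) (nat_lit 21261297) (nat_lit 76) (nat_lit 12520397269) (nat_lit 76) (nat_lit 5930764904) (nat_lit 46) (nat_lit 4) (nat_lit 47) (nat_lit 5) (nat_lit 47) (nat_lit 4) (nat_lit 458) (nat_lit 383) (nat_lit 359)) (XT.nd (nat_lit 78) (nat_lit 76) (nat_lit 0) (XT.lf (nat_lit 0) (nat_lit 725067840) (nat_lit 152) (nat_lit 5244267076) (nat_lit 76) (nat_lit 13071030388) (nat_lit 45) (nat_lit 5) (nat_lit 47) (nat_lit 5) (nat_lit 46) (nat_lit 4) (nat_lit 459) (nat_lit 383) (nat_lit 358)) (XT.lf (nat_lit 0) (nat_lit 7534335107) (nat_lit 152) (nat_lit 11100239045) (nat_lit 0) (nat_lit 996273662) (nat_lit 44) (nat_lit 5) (nat_lit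 46) (nat_lit 4) (nat_lit 44) (nat_lit 4) (nat_lit 460) (nat_lit 383) (nat_lit 357)))) (XT.nd (nat_lit 156) (nat_lit 152) (nat_lit 0) (XT.nd (nat_lit 78) (nat_lit 76) (nat_lit 0) (XT.lf (nat_lit 0) (nat_lit 2663559499) (nat_lit 76) (nat_lit 12121076033) (nat_lit 76) (nat_lit 5461192939) (nat_lit 43) (nat_lit 4) (nat_lit 44) (nat_lit 5) (nat_lit 44) (nat_lit 4) (nat_lit 461) (nat_lit 383) (nat_lit 356)) (XT.lf (nat_lit 0) (nat_lit 1519813174) (nat_lit 152) (nat_lit 3660286704) (nat_lit 76) (nat_lit 15707179084) (nat_lit 42) (nat_lit 5) (nat_lit 44) (nat_lit 5) (nat_lit 43) (nat_lit 4) (nat_lit 462) (nat_lit 383) (nat_lit 355))) (XT.nd (nat_lit 78) (nat_lit 76) (nat_lit 0) (XT.lf (nat_lit 0) (nat_lit 8750295435) (nat_lit 152) (nat_lit 10610014753) (nat_lit 0) (nat_lit 2191819685) (nat_lit 41) (nat_lit 5) (nat_lit 43) (nat_lit 4) (nat_lit 41) (nat_lit 4) (nat_lit 463) (nat_lit 383) (nat_lit 354))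 (XT.lf (nat_lit 0) (nat_lit 3954437185) (nat_lit 76) (nat_lit 12475063495) (nat_lit 76) (nat_lit 5816364773) (nat_lit 40) (nat_lit 4) (nat_lit 41) (nat_lit 5) (nat_lit 41) (nat_lit 4) (nat_lit 464) (nat_lit 383) (nat_lit 353))))) (XT.nd (nat_lit 312) (nat_lit 304) (nat_lit 0) (XT.nd (nat_lit 156) (nat_lit 152) (nat_lit 0) (XT.nd (nat_lit 78) (nat_lit 76) (nat_lit 0) (XT.lf (nat_lit 0) (nat_lit 1530105054) (nat_lit 152) (nat_lit 3617433808) (nat_lit 76) (nat_lit 17822549305) (nat_lit 39) (nat_lit 5) (nat_lit 41) (nat_lit 5) (nat_lit 40) (nat_lit 4) (nat_lit 465) (nat_lit 383) (nat_lit 352)) (XT.lf (nat_lit 0) (nat_lit 9159460278) (nat_lit 152) (nat_lit 11920383631) (nat_lit 0) (nat_lit 2640360887) (nat_lit 38) (nat_lit 5) (nat_lit 40) (nat_lit 4) (nat_lit 38) (nat_lit 4) (nat_lit 466) (nat_lit 383) (nat_lit 351))) (XT.nd (nat_lit 78) (nat_lit 76) (nat_lit 0) (XT.lf (nat_lit 0) (nat_lit 3402517473)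 (nat_lit 76) (nat_lit 13851342854) (nat_lit 76) (nat_lit 7249789776) (nat_lit 37) (nat_lit 4) (nat_lit 38) (nat_lit 5) (nat_lit 38) (nat_lit 4) (nat_lit 467) (nat_lit 383) (nat_lit 350)) (XT.lf (nat_lit 0) (nat_lit 502173564) (nat_lit 152) (nat_lit 5650624590) (nat_lit 76) (nat_lit 19168682037) (nat_lit 36) (nat_lit 5) (nat_lit 38) (nat_lit 5) (nat_lit 37) (nat_lit 4) (nat_lit 468) (nat_lit 383) (nat_lit 349)))) (XT.nd (nat_lit 156) (nat_lit 152) (nat_lit 0) (XT.nd (nat_lit 78) (nat_lit 76) (nat_lit 0) (XT.lf (nat_lit 0) (nat_lit 8485732756) (nat_lit 152) (nat_lit 15631621309) (nat_lit 0) (nat_lit 2052524830) (nat_lit 35) (nat_lit 5) (nat_lit 37) (nat_lit 4) (nat_lit 35) (nat_lit 4) (nat_lit 469) (nat_lit 383) (nat_lit 348)) (XT.lf (nat_lit 0) (nat_lit 366979961) (nat_lit 76) (nat_lit 16595042072) (nat_lit 76) (nat_lit 10093999293) (nat_lit 34) (nat_lit 4) (nat_lit 35) (nat_lit 5) (nat_lit 35)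 (nat_lit 4) (nat_lit 470) (nat_lit 383) (nat_lit 347))) (XT.nd (nat_lit 78) (nat_lit 152) (nat_lit 0) (XT.lf (nat_lit 0) (nat_lit 17492561616) (nat_lit 76) (nat_lit 8525871318) (nat_lit 76) (nat_lit 1960223919) (nat_lit 34) (nat_lit 4) (nat_lit 35) (nat_lit 5) (nat_lit 35) (nat_lit 4) (nat_lit 471) (nat_lit 383) (nat_lit 346)) (XT.lf (nat_lit 0) (nat_lit 6365801398) (nat_lit 152) (nat_lit 22522473090) (nat_lit 0) (nat_lit 54205579) (nat_lit 32) (nat_lit 5) (nat_lit 34) (nat_lit 4) (nat_lit 32) (nat_lit 4) (nat_lit 472) (nat_lit 383) (nat_lit 345)))))) (XT.nd (nat_lit 624) (nat_lit 456) (nat_lit 0) (XT.nd (nat_lit 312) (nat_lit 228) (nat_lit 0) (XT.nd (nat_lit 156) (nat_lit 152) (nat_lit 0) (XT.nd (nat_lit 78) (nat_lit 76) (nat_lit 0) (XT.lf (nat_lit 0) (nat_lit 15257757628) (nat_lit 152) (nat_lit 5794002016) (nat_lit 0) (nat_lit 8890353908) (nat_lit 32) (nat_lit 5) (nat_lit 34) (nat_lit 4) (nat_lit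 32) (nat_lit 4) (nat_lit 473) (nat_lit 383) (nat_lit 344)) (XT.lf (nat_lit 0) (nat_lit 11954422780) (nat_lit 76) (nat_lit 12726758816) (nat_lit 76) (nat_lit 6306204715) (nat_lit 31) (nat_lit 4) (nat_lit 32) (nat_lit 5) (nat_lit 32) (nat_lit 4) (nat_lit 474) (nat_lit 383) (nat_lit 343))) (XT.nd (nat_lit 78) (nat_lit 76) (nat_lit 0) (XT.lf (nat_lit 0) (nat_lit 2411175906) (nat_lit 152) (nat_lit 1528262904) (nat_lit 76) (nat_lit 28143538195) (nat_lit 30) (nat_lit 5) (nat_lit 32) (nat_lit 5) (nat_lit 31) (nat_lit 4) (nat_lit 475) (nat_lit 383) (nat_lit 342)) (XT.lf (nat_lit 0) (nat_lit 11611771476) (nat_lit 152) (nat_lit 16200608110) (nat_lit 0) (nat_lit 5402835786) (nat_lit 29) (nat_lit 5) (nat_lit 31) (nat_lit 4) (nat_lit 29) (nat_lit 4) (nat_lit 476) (nat_lit 383) (nat_lit 341)))) (XT.nd (nat_lit 156) (nat_lit 152) (nat_lit 0) (XT.nd (nat_lit 78) (nat_lit 0) (nat_lit 0) (XT.lf (nat_lit 0) (nat_lit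 1942226091) (nat_lit 76) (nat_lit 19356591047) (nat_lit 76) (nat_lit 13103928405) (nat_lit 28) (nat_lit 4) (nat_lit 29) (nat_lit 5) (nat_lit 29) (nat_lit 4) (nat_lit 477) (nat_lit 383) (nat_lit 340)) (XT.lf (nat_lit 0) (nat_lit 21367873232) (nat_lit 76) (nat_lit 10283514292) (nat_lit 76) (nat_lit 3989206936) (nat_lit 28) (nat_lit 4) (nat_lit 29) (nat_lit 5) (nat_lit 29) (nat_lit 4) (nat_lit 478) (nat_lit 383) (nat_lit 339))) (XT.nd (nat_lit 78) (nat_lit 0) (nat_lit 0) (XT.lf (nat_lit 0) (nat_lit 4707118428) (nat_lit 76) (nat_lit 678777872) (nat_lit 152) (nat_lit 31550919325) (nat_lit 26) (nat_lit 5) (nat_lit 27) (nat_lit 5) (nat_lit 28) (nat_lit 4) (nat_lit 479) (nat_lit 383) (nat_lit 338)) (XT.lf (nat_lit 0) (nat_lit 15398139428) (nat_lit 152) (nat_lit 13551503170) (nat_lit 0) (nat_lit 9329813739) (nat_lit 26) (nat_lit 5) (nat_lit 28) (nat_lit 4) (nat_lit 26) (nat_lit 4) (nat_lit 480) (nat_lit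 383) (nat_lit 337))))) (XT.nd (nat_lit 312) (nat_lit 228) (nat_lit 0) (XT.nd (nat_lit 156) (nat_lit 152) (nat_lit 0) (XT.nd (nat_lit 78) (nat_lit 0) (nat_lit 0) (XT.lf (nat_lit 0) (nat_lit 6071423805) (nat_lit 76) (nat_lit 19859693380) (nat_lit 76) (nat_lit 13757106482) (nat_lit 25) (nat_lit 4) (nat_lit 26) (nat_lit 5) (nat_lit 26) (nat_lit 4) (nat_lit 481) (nat_lit 383) (nat_lit 336)) (XT.lf (nat_lit 0) (nat_lit 26976382201) (nat_lit 76) (nat_lit 10159503678) (nat_lit 76) (nat_lit 4024287055) (nat_lit 25) (nat_lit 4) (nat_lit 26) (nat_lit 5) (nat_lit 26) (nat_lit 4) (nat_lit 482) (nat_lit 383) (nat_lit 335))) (XT.nd (nat_lit 78) (nat_lit 0) (nat_lit 0) (XT.lf (nat_lit 0) (nat_lit 6013630884) (nat_lit 152) (nat_lit 36545444790) (nat_lit 0) (nat_lit 140971313) (nat_lit 23) (nat_lit 5) (nat_lit 25) (nat_lit 4) (nat_lit 23) (nat_lit 4) (nat_lit 483) (nat_lit 383) (nat_lit 334)) (XT.lf (nat_lit 0)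 (nat_lit 16747336024) (nat_lit 152) (nat_lit 16703334342) (nat_lit 0) (nat_lit 10846489671) (nat_lit 23) (nat_lit 5) (nat_lit 25) (nat_lit 4) (nat_lit 23) (nat_lit 4) (nat_lit 484) (nat_lit 383) (nat_lit 333)))) (XT.nd (nat_lit 156) (nat_lit 152) (nat_lit 0) (XT.nd (nat_lit 78) (nat_lit 0) (nat_lit 0) (XT.lf (nat_lit 0) (nat_lit 4105802457) (nat_lit 76) (nat_lit 23898348266) (nat_lit 76) (nat_lit 17970657358) (nat_lit 22) (nat_lit 4) (nat_lit 23) (nat_lit 5) (nat_lit 23) (nat_lit 4) (nat_lit 485) (nat_lit 383) (nat_lit 332)) (XT.lf (nat_lit 0) (nat_lit 26381331700) (nat_lit 76) (nat_lit 13648969867) (nat_lit 76) (nat_lit 7695712717) (nat_lit 22) (nat_lit 4) (nat_lit 23) (nat_lit 5) (nat_lit 23) (nat_lit 4) (nat_lit 486) (nat_lit 383) (nat_lit 331))) (XT.nd (nat_lit 78) (nat_lit 0) (nat_lit 0) (XT.lf (nat_lit 0) (nat_lit 8767179) (nat_lit 76) (nat_lit 2911414835) (nat_lit 152) (nat_lit 46645874881)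 (nat_lit 20) (nat_lit 5) (nat_lit 21) (nat_lit 5) (nat_lit 22) (nat_lit 4) (nat_lit 487) (nat_lit 383) (nat_lit 330)) (XT.lf (nat_lit 0) (nat_lit 14232360395) (nat_lit 152) (nat_lit 28720910706) (nat_lit 0) (nat_lit 8517317264) (nat_lit 20) (nat_lit 5) (nat_lit 22) (nat_lit 4) (nat_lit 20) (nat_lit 4) (nat_lit 488) (nat_lit 383) (nat_lit 329))))))) (XT.nd (nat_lit 1170) (nat_lit 456) (nat_lit 0) (XT.nd (nat_lit 546) (nat_lit 228) (nat_lit 0) (XT.nd (nat_lit 234) (nat_lit 228) (nat_lit 0) (XT.nd (nat_lit 78) (nat_lit 76) (nat_lit 0) (XT.lf (nat_lit 0) (nat_lit 26087529810) (nat_lit 152) (nat_lit 7032494660) (nat_lit 0) (nat_lit 20351453268) (nat_lit 20) (nat_lit 5) (nat_lit 22) (nat_lit 4) (nat_lit 20) (nat_lit 4) (nat_lit 489) (nat_lit 383) (nat_lit 328)) (XT.nd (nat_lit 78) (nat_lit 0) (nat_lit 0) (XT.lf (nat_lit 0) (nat_lit 16121026374) (nat_lit 76) (nat_lit 22599129534) (nat_lit 76) (nat_lit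 16843021172) (nat_lit 19) (nat_lit 4) (nat_lit 20) (nat_lit 5) (nat_lit 20) (nat_lit 4) (nat_lit 490) (nat_lit 383) (nat_lit 327)) (XT.lf (nat_lit 0) (nat_lit 40543268547) (nat_lit 76) (nat_lit 11494359395) (nat_lit 76) (nat_lit 5719173110) (nat_lit 19) (nat_lit 4) (nat_lit 20) (nat_lit 5) (nat_lit 20) (nat_lit 4) (nat_lit 491) (nat_lit 383) (nat_lit 326)))) (XT.nd (nat_lit 156) (nat_lit 76) (nat_lit 0) (XT.nd (nat_lit 78) (nat_lit 0) (nat_lit 0) (XT.lf (nat_lit 0) (nat_lit 5806198410) (nat_lit 152) (nat_lit 53958732319) (nat_lit 0) (nat_lit 288716756) (nat_lit 17) (nat_lit 5) (nat_lit 19) (nat_lit 4) (nat_lit 17) (nat_lit 4) (nat_lit 492) (nat_lit 383) (nat_lit 325)) (XT.lf (nat_lit 0) (nat_lit 18136648458) (nat_lit 152) (nat_lit 31700263117) (nat_lit 0) (nat_lit 12602686576) (nat_lit 17) (nat_lit 5) (nat_lit 19) (nat_lit 4) (nat_lit 17) (nat_lit 4) (nat_lit 493) (nat_lit 383) (nat_lit 324)))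 (XT.nd (nat_lit 78) (nat_lit 76) (nat_lit 0) (XT.lf (nat_lit 0) (nat_lit 31022936282) (nat_lit 152) (nat_lit 8451665681) (nat_lit 0) (nat_lit 25473278945) (nat_lit 17) (nat_lit 5) (nat_lit 19) (nat_lit 4) (nat_lit 17) (nat_lit 4) (nat_lit 494) (nat_lit 383) (nat_lit 323)) (XT.lf (nat_lit 0) (nat_lit 16366235537) (nat_lit 76) (nat_lit 28385030786) (nat_lit 76) (nat_lit 22820425397) (nat_lit 16) (nat_lit 4) (nat_lit 17) (nat_lit 5) (nat_lit 17) (nat_lit 4) (nat_lit 495) (nat_lit 383) (nat_lit 322))))) (XT.nd (nat_lit 312) (nat_lit 76) (nat_lit 0) (XT.nd (nat_lit 156) (nat_lit 76) (nat_lit 0) (XT.nd (nat_lit 78) (nat_lit 76) (nat_lit 0) (XT.lf (nat_lit 0) (nat_lit 42603392985) (nat_lit 76) (nat_lit 16648913661) (nat_lit 76) (nat_lit 11070072032) (nat_lit 16) (nat_lit 4) (nat_lit 17) (nat_lit 5) (nat_lit 17) (nat_lit 4) (nat_lit 496) (nat_lit 383) (nat_lit 321)) (XT.lf (nat_lit 0) (nat_lit 1172201187)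 (nat_lit 152) (nat_lit 3189387518) (nat_lit 76) (nat_lit 68850772867) (nat_lit 15) (nat_lit 5) (nat_lit 17) (nat_lit 5) (nat_lit 16) (nat_lit 4) (nat_lit 497) (nat_lit 383) (nat_lit 320))) (XT.nd (nat_lit 78) (nat_lit 0) (nat_lit 0) (XT.lf (nat_lit 0) (nat_lit 14102863772) (nat_lit 152) (nat_lit 53348020349) (nat_lit 0) (nat_lit 8764470779) (nat_lit 14) (nat_lit 5) (nat_lit 16) (nat_lit 4) (nat_lit 14) (nat_lit 4) (nat_lit 498) (nat_lit 383) (nat_lit 319)) (XT.lf (nat_lit 0) (nat_lit 27754100266) (nat_lit 152) (nat_lit 29206700746) (nat_lit 0) (nat_lit 22403995083) (nat_lit 14) (nat_lit 5) (nat_lit 16) (nat_lit 4) (nat_lit 14) (nat_lit 4) (nat_lit 499) (nat_lit 383) (nat_lit 318)))) (XT.nd (nat_lit 156) (nat_lit 0) (nat_lit 0) (XT.nd (nat_lit 78) (nat_lit 76) (nat_lit 0) (XT.lf (nat_lit 0) (nat_lit 42038031950) (nat_lit 152) (nat_lit 3959398664) (nat_lit 0) (nat_lit 36676772299) (nat_lit 14)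 (nat_lit 5) (nat_lit 16) (nat_lit 4) (nat_lit 14) (nat_lit 4) (nat_lit 500) (nat_lit 383) (nat_lit 317)) (XT.lf (nat_lit 0) (nat_lit 23196429117) (nat_lit 76) (nat_lit 34154400332) (nat_lit 76) (nat_lit 28782517379) (nat_lit 13) (nat_lit 4) (nat_lit 14) (nat_lit 5) (nat_lit 14) (nat_lit 4) (nat_lit 501) (nat_lit 383) (nat_lit 316))) (XT.nd (nat_lit 78) (nat_lit 0) (nat_lit 0) (XT.lf (nat_lit 0) (nat_lit 51752792411) (nat_lit 76) (nat_lit 21696819434) (nat_lit 76) (nat_lit 16314819052) (nat_lit 13) (nat_lit 4) (nat_lit 14) (nat_lit 5) (nat_lit 14) (nat_lit 4) (nat_lit 502) (nat_lit 383) (nat_lit 315)) (XT.lf (nat_lit 0) (nat_lit 81646766957) (nat_lit 76) (nat_lit 8662081348) (nat_lit 76) (nat_lit 3270445317) (nat_lit 13) (nat_lit 4) (nat_lit 14) (nat_lit 5) (nat_lit 14) (nat_lit 4) (nat_lit 503) (nat_lit 383) (nat_lit 314)))))) (XT.nd (nat_lit 624) (nat_lit 228) (nat_lit 0) (XT.nd (nat_lit 312)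 (nat_lit 76) (nat_lit 0) (XT.nd (nat_lit 156) (nat_lit 0) (nat_lit 0) (XT.nd (nat_lit 78) (nat_lit 0) (nat_lit 0) (XT.lf (nat_lit 0) (nat_lit 10378993295) (nat_lit 152) (nat_lit 81948077877) (nat_lit 0) (nat_lit 5235362021) (nat_lit 11) (nat_lit 5) (nat_lit 13) (nat_lit 4) (nat_lit 11) (nat_lit 4) (nat_lit 504) (nat_lit 383) (nat_lit 313)) (XT.lf (nat_lit 0) (nat_lit 24905359946) (nat_lit 152) (nat_lit 57068066013) (nat_lit 0) (nat_lit 19753405037) (nat_lit 11) (nat_lit 5) (nat_lit 13) (nat_lit 4) (nat_lit 11) (nat_lit 4) (nat_lit 505) (nat_lit 383) (nat_lit 312))) (XT.nd (nat_lit 78) (nat_lit 0) (nat_lit 0) (XT.lf (nat_lit 0) (nat_lit 40117061340) (nat_lit 152) (nat_lit 31027257532) (nat_lit 0) (nat_lit 34957179159) (nat_lit 11) (nat_lit 5) (nat_lit 13) (nat_lit 4) (nat_lit 11) (nat_lit 4) (nat_lit 506) (nat_lit 383) (nat_lit 311)) (XT.lf (nat_lit 0) (nat_lit 56050315814) (nat_lit 152) (nat_lit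 3763650510) (nat_lit 0) (nat_lit 50882883851) (nat_lit 11) (nat_lit 5) (nat_lit 13) (nat_lit 4) (nat_lit 11) (nat_lit 4) (nat_lit 507) (nat_lit 383) (nat_lit 310)))) (XT.nd (nat_lit 156) (nat_lit 0) (nat_lit 0) (XT.nd (nat_lit 78) (nat_lit 0) (nat_lit 0) (XT.lf (nat_lit 0) (nat_lit 25607260665) (nat_lit 76) (nat_lit 47535600125) (nat_lit 76) (nat_lit 42360977893) (nat_lit 10) (nat_lit 4) (nat_lit 11) (nat_lit 5) (nat_lit 11) (nat_lit 4) (nat_lit 508) (nat_lit 383) (nat_lit 309)) (XT.lf (nat_lit 0) (nat_lit 56503131621) (nat_lit 76) (nat_lit 34614078202) (nat_lit 76) (nat_lit 29432608096) (nat_lit 10) (nat_lit 4) (nat_lit 11) (nat_lit 5) (nat_lit 11) (nat_lit 4) (nat_lit 509) (nat_lit 383) (nat_lit 308))) (XT.nd (nat_lit 78) (nat_lit 0) (nat_lit 0) (XT.lf (nat_lit 0) (nat_lit 88873080670) (nat_lit 76) (nat_lit 21082374271) (nat_lit 76) (nat_lit 15894382378) (nat_lit 10) (nat_lit 4) (nat_lit 11)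 (nat_lit 5) (nat_lit 11) (nat_lit 4) (nat_lit 510) (nat_lit 383) (nat_lit 307)) (XT.lf (nat_lit 0) (nat_lit 122794179122) (nat_lit 76) (nat_lit 6908269987) (nat_lit 76) (nat_lit 1714066870) (nat_lit 10) (nat_lit 4) (nat_lit 11) (nat_lit 5) (nat_lit 11) (nat_lit 4) (nat_lit 511) (nat_lit 383) (nat_lit 306))))) (XT.nd (nat_lit 312) (nat_lit 76) (nat_lit 0) (XT.nd (nat_lit 156) (nat_lit 0) (nat_lit 0) (XT.nd (nat_lit 78) (nat_lit 0) (nat_lit 0) (XT.lf (nat_lit 0) (nat_lit 13191109095) (nat_lit 152) (nat_lit 115799642460) (nat_lit 0) (nat_lit 8238615220) (nat_lit 8) (nat_lit 5) (nat_lit 10) (nat_lit 4) (nat_lit 8) (nat_lit 4) (nat_lit 512) (nat_lit 383) (nat_lit 305)) (XT.lf (nat_lit 0) (nat_lit 29013524161) (nat_lit 152) (nat_lit 90250787081) (nat_lit 0) (nat_lit 24055664797) (nat_lit 8) (nat_lit 5) (nat_lit 10) (nat_lit 4) (nat_lit 8) (nat_lit 4) (nat_lit 513) (nat_lit 383) (nat_lit 304))) (XT.nd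 (nat_lit 78) (nat_lit 0) (nat_lit 0) (XT.lf (nat_lit 0) (nat_lit 45596504350) (nat_lit 152) (nat_lit 63486604308) (nat_lit 0) (nat_lit 40633534996) (nat_lit 8) (nat_lit 5) (nat_lit 10) (nat_lit 4) (nat_lit 8) (nat_lit 4) (nat_lit 514) (nat_lit 383) (nat_lit 303)) (XT.lf (nat_lit 0) (nat_lit 62979532947) (nat_lit 152) (nat_lit 35443369897) (nat_lit 0) (nat_lit 58011696936) (nat_lit 8) (nat_lit 5) (nat_lit 10) (nat_lit 4) (nat_lit 8) (nat_lit 4) (nat_lit 515) (nat_lit 383) (nat_lit 302)))) (XT.nd (nat_lit 156) (nat_lit 0) (nat_lit 0) (XT.nd (nat_lit 78) (nat_lit 76) (nat_lit 0) (XT.lf (nat_lit 0) (nat_lit 81203998116) (nat_lit 152) (nat_lit 6054314241) (nat_lit 0) (nat_lit 76231527194) (nat_lit 8) (nat_lit 5) (nat_lit 10) (nat_lit 4) (nat_lit 8) (nat_lit 4) (nat_lit 516) (nat_lit 383) (nat_lit 301)) (XT.lf (nat_lit 0) (nat_lit 25568901116) (nat_lit 76) (nat_lit 75143592527) (nat_lit 76) (nat_lit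 70166707404) (nat_lit 7) (nat_lit 4) (nat_lit 8) (nat_lit 5) (nat_lit 8) (nat_lit 4) (nat_lit 517) (nat_lit 383) (nat_lit 300))) (XT.nd (nat_lit 78) (nat_lit 0) (nat_lit 0) (XT.lf (nat_lit 0) (nat_lit 58930677211) (nat_lit 76) (nat_lit 62342307051) (nat_lit 76) (nat_lit 57361217926) (nat_lit 7) (nat_lit 4) (nat_lit 8) (nat_lit 5) (nat_lit 8) (nat_lit 4) (nat_lit 518) (nat_lit 383) (nat_lit 299)) (XT.lf (nat_lit 0) (nat_lit 93910263871) (nat_lit 76) (nat_lit 48926509420) (nat_lit 76) (nat_lit 43941416484) (nat_lit 7) (nat_lit 4) (nat_lit 8) (nat_lit 5) (nat_lit 8) (nat_lit 4) (nat_lit 519) (nat_lit 383) (nat_lit 298))))))))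
noncomputable def xc58 : XT := (XT.nd (nat_lit 2418) (nat_lit 0) (nat_lit 0) (XT.nd (nat_lit 1170) (nat_lit 152) (nat_lit 0) (XT.nd (nat_lit 546) (nat_lit 76) (nat_lit 0) (XT.nd (nat_lit 234) (nat_lit 76) (nat_lit 0) (XT.nd (nat_lit 78) (nat_lit 76) (nat_lit 0) (XT.lf (nat_lit 0) (nat_lit 130590945826) (nat_lit 76) (nat_lit 34864257258) (nat_lit 76) (nat_lit 29875351170) (nat_lit 7) (nat_lit 4) (nat_lit 8) (nat_lit 5) (nat_lit 8) (nat_lit 4) (nat_lit 520) (nat_lit 383) (nat_lit 297)) (XT.nd (nat_lit 78) (nat_lit 76) (nat_lit 0) (XT.lf (nat_lit 0) (nat_lit 169060058035) (nat_lit 76) (nat_lit 20122069013) (nat_lit 76) (nat_lit 15129531350) (nat_lit 7) (nat_lit 4) (nat_lit 8) (nat_lit 5) (nat_lit 8) (nat_lit 4) (nat_lit 521) (nat_lit 383) (nat_lit 296)) (XT.lf (nat_lit 0) (nat_lit 320553133) (nat_lit 152) (nat_lit 4338862381) (nat_lit 76) (nat_lit 209083211764) (nat_lit 6) (nat_lit 5) (nat_lit 8)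 (nat_lit 5) (nat_lit 7) (nat_lit 4) (nat_lit 522) (nat_lit 383) (nat_lit 295)))) (XT.nd (nat_lit 156) (nat_lit 0) (nat_lit 0) (XT.nd (nat_lit 78) (nat_lit 0) (nat_lit 0) (XT.lf (nat_lit 0) (nat_lit 16654706812) (nat_lit 152) (nat_lit 195053557774) (nat_lit 0) (nat_lit 11893478003) (nat_lit 5) (nat_lit 5) (nat_lit 7) (nat_lit 4) (nat_lit 5) (nat_lit 4) (nat_lit 523) (nat_lit 383) (nat_lit 294)) (XT.lf (nat_lit 0) (nat_lit 33935971879) (nat_lit 152) (nat_lit 170839566300) (nat_lit 0) (nat_lit 29171755364) (nat_lit 5) (nat_lit 5) (nat_lit 7) (nat_lit 4) (nat_lit 5) (nat_lit 4) (nat_lit 524) (nat_lit 383) (nat_lit 293))) (XT.nd (nat_lit 78) (nat_lit 0) (nat_lit 0) (XT.lf (nat_lit 0) (nat_lit 52061618776) (nat_lit 152) (nat_lit 145454930570) (nat_lit 0) (nat_lit 47294556828) (nat_lit 5) (nat_lit 5) (nat_lit 7) (nat_lit 4) (nat_lit 5) (nat_lit 4) (nat_lit 525) (nat_lit 383) (nat_lit 292)) (XT.lf (nat_lit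 0) (nat_lit 71074803805) (nat_lit 152) (nat_lit 118839210977) (nat_lit 0) (nat_lit 66305031920) (nat_lit 5) (nat_lit 5) (nat_lit 7) (nat_lit 4) (nat_lit 5) (nat_lit 4) (nat_lit 526) (nat_lit 383) (nat_lit 291))))) (XT.nd (nat_lit 312) (nat_lit 0) (nat_lit 0) (XT.nd (nat_lit 156) (nat_lit 76) (nat_lit 0) (XT.nd (nat_lit 78) (nat_lit 0) (nat_lit 0) (XT.lf (nat_lit 0) (nat_lit 91020796456) (nat_lit 152) (nat_lit 90929036759) (nat_lit 0) (nat_lit 86248443678) (nat_lit 5) (nat_lit 5) (nat_lit 7) (nat_lit 4) (nat_lit 5) (nat_lit 4) (nat_lit 527) (nat_lit 383) (nat_lit 290)) (XT.lf (nat_lit 0) (nat_lit 111947087185) (nat_lit 152) (nat_lit 61657955121) (nat_lit 0) (nat_lit 107172276415) (nat_lit 5) (nat_lit 5) (nat_lit 7) (nat_lit 4) (nat_lit 5) (nat_lit 4) (nat_lit 528) (nat_lit 383) (nat_lit 289))) (XT.nd (nat_lit 78) (nat_lit 76) (nat_lit 0) (XT.lf (nat_lit 0) (nat_lit 133903500496) (nat_lit 152)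 (nat_lit 30956273011) (nat_lit 0) (nat_lit 129126348781) (nat_lit 5) (nat_lit 5) (nat_lit 7) (nat_lit 4) (nat_lit 5) (nat_lit 4) (nat_lit 529) (nat_lit 383) (nat_lit 288)) (XT.lf (nat_lit 0) (nat_lit 1290409992) (nat_lit 76) (nat_lit 155672050485) (nat_lit 76) (nat_lit 150892669299) (nat_lit 4) (nat_lit 4) (nat_lit 5) (nat_lit 5) (nat_lit 5) (nat_lit 4) (nat_lit 530) (nat_lit 383) (nat_lit 287)))) (XT.nd (nat_lit 156) (nat_lit 0) (nat_lit 0) (XT.nd (nat_lit 78) (nat_lit 0) (nat_lit 0) (XT.lf (nat_lit 0) (nat_lit 36193280854) (nat_lit 76) (nat_lit 145490178392) (nat_lit 76) (nat_lit 140708673899) (nat_lit 4) (nat_lit 4) (nat_lit 5) (nat_lit 5) (nat_lit 5) (nat_lit 4) (nat_lit 531) (nat_lit 383) (nat_lit 286)) (XT.lf (nat_lit 0) (nat_lit 72811887458) (nat_lit 76) (nat_lit 134814174136) (nat_lit 76) (nat_lit 130030647447) (nat_lit 4) (nat_lit 4) (nat_lit 5) (nat_lit 5) (nat_lit 5) (nat_lit 4) (nat_lit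 532) (nat_lit 383) (nat_lit 285))) (XT.nd (nat_lit 78) (nat_lit 0) (nat_lit 0) (XT.lf (nat_lit 0) (nat_lit 111233416963) (nat_lit 76) (nat_lit 123618618661) (nat_lit 76) (nat_lit 118833166071) (nat_lit 4) (nat_lit 4) (nat_lit 5) (nat_lit 5) (nat_lit 5) (nat_lit 4) (nat_lit 533) (nat_lit 383) (nat_lit 284)) (XT.lf (nat_lit 0) (nat_lit 151549349201) (nat_lit 76) (nat_lit 111876855881) (nat_lit 76) (nat_lit 107089569099) (nat_lit 4) (nat_lit 4) (nat_lit 5) (nat_lit 5) (nat_lit 5) (nat_lit 4) (nat_lit 534) (nat_lit 383) (nat_lit 283)))))) (XT.nd (nat_lit 624) (nat_lit 0) (nat_lit 0) (XT.nd (nat_lit 312) (nat_lit 152) (nat_lit 0) (XT.nd (nat_lit 156) (nat_lit 0) (nat_lit 0) (XT.nd (nat_lit 78) (nat_lit 0) (nat_lit 0) (XT.lf (nat_lit 0) (nat_lit 193855674487) (nat_lit 76) (nat_lit 99560929219) (nat_lit 76) (nat_lit 94771895587) (nat_lit 4) (nat_lit 4) (nat_lit 5) (nat_lit 5) (nat_lit 5) (nat_lit 4)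 (nat_lit 535) (nat_lit 383) (nat_lit 282)) (XT.lf (nat_lit 0) (nat_lit 238253122168) (nat_lit 76) (nat_lit 86641515040) (nat_lit 76) (nat_lit 81850817742) (nat_lit 4) (nat_lit 4) (nat_lit 5) (nat_lit 5) (nat_lit 5) (nat_lit 4) (nat_lit 536) (nat_lit 383) (nat_lit 281))) (XT.nd (nat_lit 78) (nat_lit 0) (nat_lit 0) (XT.lf (nat_lit 0) (nat_lit 284847400451) (nat_lit 76) (nat_lit 73087852833) (nat_lit 76) (nat_lit 68295571091) (nat_lit 4) (nat_lit 4) (nat_lit 5) (nat_lit 5) (nat_lit 5) (nat_lit 4) (nat_lit 537) (nat_lit 383) (nat_lit 280)) (XT.lf (nat_lit 0) (nat_lit 333749448095) (nat_lit 76) (nat_lit 58867671974) (nat_lit 76) (nat_lit 54073881239) (nat_lit 4) (nat_lit 4) (nat_lit 5) (nat_lit 5) (nat_lit 5) (nat_lit 4) (nat_lit 538) (nat_lit 383) (nat_lit 279)))) (XT.nd (nat_lit 156) (nat_lit 152) (nat_lit 0) (XT.nd (nat_lit 78) (nat_lit 0) (nat_lit 0) (XT.lf (nat_lit 0) (nat_lit 385075698546) (nat_lit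 76) (nat_lit 43947114891) (nat_lit 76) (nat_lit 39151887018) (nat_lit 4) (nat_lit 4) (nat_lit 5) (nat_lit 5) (nat_lit 5) (nat_lit 4) (nat_lit 539) (nat_lit 383) (nat_lit 278)) (XT.lf (nat_lit 0) (nat_lit 438948357163) (nat_lit 76) (nat_lit 28290656446) (nat_lit 76) (nat_lit 23494059871) (nat_lit 4) (nat_lit 4) (nat_lit 5) (nat_lit 5) (nat_lit 5) (nat_lit 4) (nat_lit 540) (nat_lit 383) (nat_lit 277))) (XT.nd (nat_lit 78) (nat_lit 152) (nat_lit 0) (XT.lf (nat_lit 0) (nat_lit 495495692181) (nat_lit 76) (nat_lit 11861019359) (nat_lit 76) (nat_lit 7063119258) (nat_lit 4) (nat_lit 4) (nat_lit 5) (nat_lit 5) (nat_lit 5) (nat_lit 4) (nat_lit 541) (nat_lit 383) (nat_lit 276)) (XT.lf (nat_lit 0) (nat_lit 10193339773) (nat_lit 152) (nat_lit 523450398491) (nat_lit 0) (nat_lit 5622728769) (nat_lit 2) (nat_lit 5) (nat_lit 4) (nat_lit 4) (nat_lit 2) (nat_lit 4) (nat_lit 542) (nat_lit 383) (nat_lit 275)))))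 (XT.nd (nat_lit 312) (nat_lit 0) (nat_lit 0) (XT.nd (nat_lit 156) (nat_lit 0) (nat_lit 0) (XT.nd (nat_lit 78) (nat_lit 0) (nat_lit 0) (XT.lf (nat_lit 0) (nat_lit 28586430597) (nat_lit 152) (nat_lit 512722962709) (nat_lit 0) (nat_lit 24014693558) (nat_lit 2) (nat_lit 5) (nat_lit 4) (nat_lit 4) (nat_lit 2) (nat_lit 4) (nat_lit 543) (nat_lit 383) (nat_lit 274)) (XT.lf (nat_lit 0) (nat_lit 47890594680) (nat_lit 152) (nat_lit 501476636868) (nat_lit 0) (nat_lit 43317785227) (nat_lit 2) (nat_lit 5) (nat_lit 4) (nat_lit 4) (nat_lit 2) (nat_lit 4) (nat_lit 544) (nat_lit 383) (nat_lit 273))) (XT.nd (nat_lit 78) (nat_lit 0) (nat_lit 0) (XT.lf (nat_lit 0) (nat_lit 68151794316) (nat_lit 152) (nat_lit 489684644000) (nat_lit 0) (nat_lit 63577963516) (nat_lit 2) (nat_lit 5) (nat_lit 4) (nat_lit 4) (nat_lit 2) (nat_lit 4) (nat_lit 545) (nat_lit 383) (nat_lit 272)) (XT.lf (nat_lit 0) (nat_lit 89418270457) (nat_lit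 152) (nat_lit 477318907933) (nat_lit 0) (nat_lit 84843466947) (nat_lit 2) (nat_lit 5) (nat_lit 4) (nat_lit 4) (nat_lit 2) (nat_lit 4) (nat_lit 546) (nat_lit 383) (nat_lit 271)))) (XT.nd (nat_lit 156) (nat_lit 0) (nat_lit 0) (XT.nd (nat_lit 78) (nat_lit 0) (nat_lit 0) (XT.lf (nat_lit 0) (nat_lit 111740657571) (nat_lit 152) (nat_lit 464349986438) (nat_lit 0) (nat_lit 107164927669) (nat_lit 2) (nat_lit 5) (nat_lit 4) (nat_lit 4) (nat_lit 2) (nat_lit 4) (nat_lit 547) (nat_lit 383) (nat_lit 270)) (XT.lf (nat_lit 0) (nat_lit 135172104198) (nat_lit 152) (nat_lit 450747001131) (nat_lit 0) (nat_lit 130595492018) (nat_lit 2) (nat_lit 5) (nat_lit 4) (nat_lit 4) (nat_lit 2) (nat_lit 4) (nat_lit 548) (nat_lit 383) (nat_lit 269))) (XT.nd (nat_lit 78) (nat_lit 0) (nat_lit 0) (XT.lf (nat_lit 0) (nat_lit 159768399496) (nat_lit 152) (nat_lit 436477563950) (nat_lit 0) (nat_lit 155190947052) (nat_lit 2) (nat_lit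 5) (nat_lit 4) (nat_lit 4) (nat_lit 2) (nat_lit 4) (nat_lit 549) (nat_lit 383) (nat_lit 268)) (XT.lf (nat_lit 0) (nat_lit 185588106075) (nat_lit 152) (nat_lit 421507700046) (nat_lit 0) (nat_lit 181009853379) (nat_lit 2) (nat_lit 5) (nat_lit 4) (nat_lit 4) (nat_lit 2) (nat_lit 4) (nat_lit 550) (nat_lit 383) (nat_lit 267))))))) (XT.nd (nat_lit 54210) (nat_lit 0) (nat_lit 3192) (XT.nd (nat_lit 53586) (nat_lit 0) (nat_lit 4864) (XT.nd (nat_lit 53274) (nat_lit 0) (nat_lit 6004) (XT.nd (nat_lit 78) (nat_lit 0) (nat_lit 0) (XT.lf (nat_lit 0) (nat_lit 212692699424) (nat_lit 152) (nat_lit 405801766886) (nat_lit 0) (nat_lit 208113684584) (nat_lit 2) (nat_lit 5) (nat_lit 4) (nat_lit 4) (nat_lit 2) (nat_lit 4) (nat_lit 551) (nat_lit 383) (nat_lit 266)) (XT.nd (nat_lit 53118) (nat_lit 0) (nat_lit 6840) (XT.lf (nat_lit 0) (nat_lit 241146714291) (nat_lit 152) (nat_lit 389322369390) (nat_lit 0) (nat_lit 236566973599)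 (nat_lit 2) (nat_lit 5) (nat_lit 4) (nat_lit 4) (nat_lit 2) (nat_lit 4) (nat_lit 552) (nat_lit 383) (nat_lit 265)) (XT.lf (nat_lit 0) (nat_lit 2399936242) (nat_lit 228) (nat_lit 1166079158) (nat_lit 228) (nat_lit 1166079158) (nat_lit 92) (nat_lit 4) (nat_lit 95) (nat_lit 5) (nat_lit 95) (nat_lit 4) (nat_lit 432) (nat_lit 384) (nat_lit 384)))) (XT.nd (nat_lit 156) (nat_lit 380) (nat_lit 0) (XT.nd (nat_lit 78) (nat_lit 228) (nat_lit 0) (XT.lf (nat_lit 0) (nat_lit 2309169722) (nat_lit 228) (nat_lit 5823557702) (nat_lit 0) (nat_lit 1531280354) (nat_lit 89) (nat_lit 5) (nat_lit 92) (nat_lit 4) (nat_lit 89) (nat_lit 4) (nat_lit 433) (nat_lit 384) (nat_lit 383)) (XT.lf (nat_lit 0) (nat_lit 2787434727) (nat_lit 228) (nat_lit 4301980676) (nat_lit 228) (nat_lit 2783244290) (nat_lit 86) (nat_lit 4) (nat_lit 89) (nat_lit 5) (nat_lit 89) (nat_lit 4) (nat_lit 434) (nat_lit 384) (nat_lit 382))) (XT.nd (nat_lit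 78) (nat_lit 152) (nat_lit 0) (XT.lf (nat_lit 0) (nat_lit 1677174928) (nat_lit 152) (nat_lit 225985999) (nat_lit 228) (nat_lit 8189483332) (nat_lit 83) (nat_lit 5) (nat_lit 85) (nat_lit 5) (nat_lit 86) (nat_lit 4) (nat_lit 435) (nat_lit 384) (nat_lit 381)) (XT.lf (nat_lit 0) (nat_lit 418601161) (nat_lit 152) (nat_lit 6330099241) (nat_lit 152) (nat_lit 3571742042) (nat_lit 81) (nat_lit 4) (nat_lit 83) (nat_lit 5) (nat_lit 83) (nat_lit 4) (nat_lit 436) (nat_lit 384) (nat_lit 380))))) (XT.nd (nat_lit 312) (nat_lit 532) (nat_lit 0) (XT.nd (nat_lit 156) (nat_lit 380) (nat_lit 0) (XT.nd (nat_lit 78) (nat_lit 152) (nat_lit 0) (XT.lf (nat_lit 0) (nat_lit 1212154500) (nat_lit 228) (nat_lit 882937147) (nat_lit 76) (nat_lit 8464747247) (nat_lit 80) (nat_lit 5) (nat_lit 83) (nat_lit 5) (nat_lit 81) (nat_lit 4) (nat_lit 437) (nat_lit 384) (nat_lit 379)) (XT.lf (nat_lit 0) (nat_lit 6122176791) (nat_lit 228)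 (nat_lit 2323898415) (nat_lit 0) (nat_lit 2361865460) (nat_lit 78) (nat_lit 5) (nat_lit 81) (nat_lit 4) (nat_lit 78) (nat_lit 4) (nat_lit 438) (nat_lit 384) (nat_lit 378))) (XT.nd (nat_lit 78) (nat_lit 152) (nat_lit 0) (XT.lf (nat_lit 0) (nat_lit 202080368) (nat_lit 228) (nat_lit 3872552718) (nat_lit 76) (nat_lit 6993685177) (nat_lit 75) (nat_lit 5) (nat_lit 78) (nat_lit 5) (nat_lit 76) (nat_lit 4) (nat_lit 439) (nat_lit 384) (nat_lit 377)) (XT.lf (nat_lit 0) (nat_lit 5154788031) (nat_lit 228) (nat_lit 5589650459) (nat_lit 0) (nat_lit 594548129) (nat_lit 73) (nat_lit 5) (nat_lit 76) (nat_lit 4) (nat_lit 73) (nat_lit 4) (nat_lit 440) (nat_lit 384) (nat_lit 376)))) (XT.nd (nat_lit 156) (nat_lit 228) (nat_lit 0) (XT.nd (nat_lit 78) (nat_lit 152) (nat_lit 0) (XT.lf (nat_lit 0) (nat_lit 4150430669) (nat_lit 152) (nat_lit 6242955039) (nat_lit 152) (nat_lit 1227899334) (nat_lit 71) (nat_lit 4) (nat_lit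 73) (nat_lit 5) (nat_lit 73) (nat_lit 4) (nat_lit 441) (nat_lit 384) (nat_lit 375)) (XT.lf (nat_lit 0) (nat_lit 2389322532) (nat_lit 76) (nat_lit 1433865831) (nat_lit 152) (nat_lit 8092702678) (nat_lit 69) (nat_lit 5) (nat_lit 70) (nat_lit 5) (nat_lit 71) (nat_lit 4) (nat_lit 442) (nat_lit 384) (nat_lit 374))) (XT.nd (nat_lit 78) (nat_lit 76) (nat_lit 0) (XT.lf (nat_lit 0) (nat_lit 434747242) (nat_lit 152) (nat_lit 8684724133) (nat_lit 152) (nat_lit 3103062273) (nat_lit 67) (nat_lit 4) (nat_lit 69) (nat_lit 5) (nat_lit 69) (nat_lit 4) (nat_lit 443) (nat_lit 384) (nat_lit 373)) (XT.lf (nat_lit 0) (nat_lit 2097873186) (nat_lit 228) (nat_lit 1655199914) (nat_lit 76) (nat_lit 8788266125) (nat_lit 66) (nat_lit 5) (nat_lit 69) (nat_lit 5) (nat_lit 67) (nat_lit 4) (nat_lit 444) (nat_lit 384) (nat_lit 372)))))) (XT.nd (nat_lit 624) (nat_lit 684) (nat_lit 0) (XT.nd (nat_lit 312) (nat_lit 456) (nat_lit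 0) (XT.nd (nat_lit 156) (nat_lit 304) (nat_lit 0) (XT.nd (nat_lit 78) (nat_lit 152) (nat_lit 0) (XT.lf (nat_lit 0) (nat_lit 7467963350) (nat_lit 152) (nat_lit 3948571404) (nat_lit 0) (nat_lit 1456344275) (nat_lit 65) (nat_lit 5) (nat_lit 67) (nat_lit 4) (nat_lit 65) (nat_lit 4) (nat_lit 445) (nat_lit 384) (nat_lit 371)) (XT.lf (nat_lit 0) (nat_lit 6753099572) (nat_lit 152) (nat_lit 6400206837) (nat_lit 152) (nat_lit 65358661) (nat_lit 63) (nat_lit 4) (nat_lit 65) (nat_lit 5) (nat_lit 65) (nat_lit 4) (nat_lit 446) (nat_lit 384) (nat_lit 370))) (XT.nd (nat_lit 78) (nat_lit 152) (nat_lit 0) (XT.lf (nat_lit 0) (nat_lit 4327189279) (nat_lit 76) (nat_lit 1023969107) (nat_lit 152) (nat_lit 8226895687) (nat_lit 61) (nat_lit 5) (nat_lit 62) (nat_lit 5) (nat_lit 63) (nat_lit 4) (nat_lit 447) (nat_lit 384) (nat_lit 369)) (XT.lf (nat_lit 0) (nat_lit 1638327629) (nat_lit 152) (nat_lit 9459766075) (nat_lit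 152) (nat_lit 2854181565) (nat_lit 59) (nat_lit 4) (nat_lit 61) (nat_lit 5) (nat_lit 61) (nat_lit 4) (nat_lit 448) (nat_lit 384) (nat_lit 368)))) (XT.nd (nat_lit 156) (nat_lit 304) (nat_lit 0) (XT.nd (nat_lit 78) (nat_lit 76) (nat_lit 0) (XT.lf (nat_lit 0) (nat_lit 2727194957) (nat_lit 228) (nat_lit 1280756227) (nat_lit 76) (nat_lit 10333624112) (nat_lit 58) (nat_lit 5) (nat_lit 61) (nat_lit 5) (nat_lit 59) (nat_lit 4) (nat_lit 449) (nat_lit 384) (nat_lit 367)) (XT.lf (nat_lit 0) (nat_lit 8541481098) (nat_lit 152) (nat_lit 4448045465) (nat_lit 0) (nat_lit 1755991243) (nat_lit 57) (nat_lit 5) (nat_lit 59) (nat_lit 4) (nat_lit 57) (nat_lit 4) (nat_lit 450) (nat_lit 384) (nat_lit 366))) (XT.nd (nat_lit 78) (nat_lit 152) (nat_lit 0) (XT.lf (nat_lit 0) (nat_lit 7234570867) (nat_lit 152) (nat_lit 7473604677) (nat_lit 152) (nat_lit 458401935) (nat_lit 55) (nat_lit 4) (nat_lit 57) (nat_lit 5) (nat_lit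 57) (nat_lit 4) (nat_lit 451) (nat_lit 384) (nat_lit 365)) (XT.lf (nat_lit 0) (nat_lit 3823118174) (nat_lit 76) (nat_lit 1570586749) (nat_lit 152) (nat_lit 10210757340) (nat_lit 53) (nat_lit 5) (nat_lit 54) (nat_lit 5) (nat_lit 55) (nat_lit 4) (nat_lit 452) (nat_lit 384) (nat_lit 364))))) (XT.nd (nat_lit 312) (nat_lit 380) (nat_lit 0) (XT.nd (nat_lit 156) (nat_lit 152) (nat_lit 0) (XT.nd (nat_lit 78) (nat_lit 76) (nat_lit 0) (XT.lf (nat_lit 0) (nat_lit 40707430) (nat_lit 76) (nat_lit 11553762870) (nat_lit 76) (nat_lit 4465826414) (nat_lit 52) (nat_lit 4) (nat_lit 53) (nat_lit 5) (nat_lit 53) (nat_lit 4) (nat_lit 453) (nat_lit 384) (nat_lit 363)) (XT.lf (nat_lit 0) (nat_lit 1607111578) (nat_lit 152) (nat_lit 3982343080) (nat_lit 76) (nat_lit 10943704508) (nat_lit 51) (nat_lit 5) (nat_lit 53) (nat_lit 5) (nat_lit 52) (nat_lit 4) (nat_lit 454) (nat_lit 384) (nat_lit 362))) (XT.nd (nat_lit 78) (nat_lit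 76) (nat_lit 0) (XT.lf (nat_lit 0) (nat_lit 7848981153) (nat_lit 152) (nat_lit 8429094192) (nat_lit 0) (nat_lit 747164131) (nat_lit 50) (nat_lit 5) (nat_lit 52) (nat_lit 4) (nat_lit 50) (nat_lit 4) (nat_lit 455) (nat_lit 384) (nat_lit 361)) (XT.lf (nat_lit 0) (nat_lit 4193902061) (nat_lit 76) (nat_lit 10304169218) (nat_lit 76) (nat_lit 3039099536) (nat_lit 49) (nat_lit 4) (nat_lit 50) (nat_lit 5) (nat_lit 50) (nat_lit 4) (nat_lit 456) (nat_lit 384) (nat_lit 360)))) (XT.nd (nat_lit 156) (nat_lit 228) (nat_lit 0) (XT.nd (nat_lit 78) (nat_lit 76) (nat_lit 0) (XT.lf (nat_lit 0) (nat_lit 3310757216) (nat_lit 152) (nat_lit 633496113) (nat_lit 76) (nat_lit 14127049499) (nat_lit 48) (nat_lit 5) (nat_lit 50) (nat_lit 5) (nat_lit 49) (nat_lit 4) (nat_lit 457) (nat_lit 384) (nat_lit 359)) (XT.lf (nat_lit 0) (nat_lit 9997256248) (nat_lit 152) (nat_lit 5837289376) (nat_lit 0) (nat_lit 2789043504) (nat_lit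 47) (nat_lit 5) (nat_lit 49) (nat_lit 4) (nat_lit 47) (nat_lit 4) (nat_lit 458) (nat_lit 384) (nat_lit 358))) (XT.nd (nat_lit 78) (nat_lit 152) (nat_lit 0) (XT.lf (nat_lit 0) (nat_lit 7636062632) (nat_lit 76) (nat_lit 9453196036) (nat_lit 76) (nat_lit 2110674925) (nat_lit 46) (nat_lit 4) (nat_lit 47) (nat_lit 5) (nat_lit 47) (nat_lit 4) (nat_lit 459) (nat_lit 384) (nat_lit 357)) (XT.lf (nat_lit 0) (nat_lit 1932099011) (nat_lit 76) (nat_lit 2654502380) (nat_lit 152) (nat_lit 15214440900) (nat_lit 44) (nat_lit 5) (nat_lit 45) (nat_lit 5) (nat_lit 46) (nat_lit 4) (nat_lit 460) (nat_lit 384) (nat_lit 356))))))))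
noncomputable def xc59 : XT := (XT.nd (nat_lit 2418) (nat_lit 988) (nat_lit 0) (XT.nd (nat_lit 1170) (nat_lit 912) (nat_lit 0) (XT.nd (nat_lit 546) (nat_lit 532) (nat_lit 0) (XT.nd (nat_lit 234) (nat_lit 228) (nat_lit 0) (XT.nd (nat_lit 78) (nat_lit 228) (nat_lit 0) (XT.lf (nat_lit 0) (nat_lit 11693874775) (nat_lit 152) (nat_lit 4266145431) (nat_lit 0) (nat_lit 4463155261) (nat_lit 44) (nat_lit 5) (nat_lit 46) (nat_lit 4) (nat_lit 44) (nat_lit 4) (nat_lit 461) (nat_lit 384) (nat_lit 355)) (XT.nd (nat_lit 78) (nat_lit 152) (nat_lit 0) (XT.lf (nat_lit 0) (nat_lit 10066663918) (nat_lit 76) (nat_lit 9173395804) (nat_lit 76) (nat_lit 1832180463) (nat_lit 43) (nat_lit 4) (nat_lit 44) (nat_lit 5) (nat_lit 44) (nat_lit 4) (nat_lit 462) (nat_lit 384) (nat_lit 354)) (XT.lf (nat_lit 0) (nat_lit 3305233622) (nat_lit 76) (nat_lit 1939489832) (nat_lit 152) (nat_lit 16504409902) (nat_lit 41) (nat_lit 5) (nat_lit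 42) (nat_lit 5) (nat_lit 43) (nat_lit 4) (nat_lit 463) (nat_lit 384) (nat_lit 353)))) (XT.nd (nat_lit 156) (nat_lit 152) (nat_lit 0) (XT.nd (nat_lit 78) (nat_lit 76) (nat_lit 0) (XT.lf (nat_lit 0) (nat_lit 12775013403) (nat_lit 152) (nat_lit 4087595934) (nat_lit 0) (nat_lit 5587706325) (nat_lit 41) (nat_lit 5) (nat_lit 43) (nat_lit 4) (nat_lit 41) (nat_lit 4) (nat_lit 464) (nat_lit 384) (nat_lit 352)) (XT.lf (nat_lit 0) (nat_lit 11091321834) (nat_lit 76) (nat_lit 9684377655) (nat_lit 76) (nat_lit 2406165387) (nat_lit 40) (nat_lit 4) (nat_lit 41) (nat_lit 5) (nat_lit 41) (nat_lit 4) (nat_lit 465) (nat_lit 384) (nat_lit 351))) (XT.nd (nat_lit 78) (nat_lit 0) (nat_lit 0) (XT.lf (nat_lit 0) (nat_lit 3019945307) (nat_lit 76) (nat_lit 2045778568) (nat_lit 152) (nat_lit 18879860722) (nat_lit 38) (nat_lit 5) (nat_lit 39) (nat_lit 5) (nat_lit 40) (nat_lit 4) (nat_lit 466) (nat_lit 384) (nat_lit 350))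 (XT.lf (nat_lit 0) (nat_lit 13021077500) (nat_lit 152) (nat_lit 5786439753) (nat_lit 0) (nat_lit 5928465761) (nat_lit 38) (nat_lit 5) (nat_lit 40) (nat_lit 4) (nat_lit 38) (nat_lit 4) (nat_lit 467) (nat_lit 384) (nat_lit 349))))) (XT.nd (nat_lit 312) (nat_lit 228) (nat_lit 0) (XT.nd (nat_lit 156) (nat_lit 76) (nat_lit 0) (XT.nd (nat_lit 78) (nat_lit 152) (nat_lit 0) (XT.lf (nat_lit 0) (nat_lit 10194058614) (nat_lit 76) (nat_lit 11267439490) (nat_lit 76) (nat_lit 4100039827) (nat_lit 37) (nat_lit 4) (nat_lit 38) (nat_lit 5) (nat_lit 38) (nat_lit 4) (nat_lit 468) (nat_lit 384) (nat_lit 348)) (XT.lf (nat_lit 0) (nat_lit 495930424) (nat_lit 76) (nat_lit 3277024054) (nat_lit 152) (nat_lit 22652273083) (nat_lit 35) (nat_lit 5) (nat_lit 36) (nat_lit 5) (nat_lit 37) (nat_lit 4) (nat_lit 469) (nat_lit 384) (nat_lit 347))) (XT.nd (nat_lit 78) (nat_lit 76) (nat_lit 0) (XT.lf (nat_lit 0) (nat_lit 12141104252)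 (nat_lit 152) (nat_lit 9993103505) (nat_lit 0) (nat_lit 5182569861) (nat_lit 35) (nat_lit 5) (nat_lit 37) (nat_lit 4) (nat_lit 35) (nat_lit 4) (nat_lit 470) (nat_lit 384) (nat_lit 346)) (XT.lf (nat_lit 0) (nat_lit 6701877847) (nat_lit 76) (nat_lit 14284087992) (nat_lit 76) (nat_lit 7264025391) (nat_lit 34) (nat_lit 4) (nat_lit 35) (nat_lit 5) (nat_lit 35) (nat_lit 4) (nat_lit 471) (nat_lit 384) (nat_lit 345)))) (XT.nd (nat_lit 156) (nat_lit 76) (nat_lit 0) (XT.nd (nat_lit 78) (nat_lit 76) (nat_lit 0) (XT.lf (nat_lit 0) (nat_lit 1081873145) (nat_lit 152) (nat_lit 4860820947) (nat_lit 76) (nat_lit 23282755351) (nat_lit 33) (nat_lit 5) (nat_lit 35) (nat_lit 5) (nat_lit 34) (nat_lit 4) (nat_lit 472) (nat_lit 384) (nat_lit 344)) (XT.lf (nat_lit 0) (nat_lit 9752692352) (nat_lit 152) (nat_lit 17525487798) (nat_lit 0) (nat_lit 2957960164) (nat_lit 32) (nat_lit 5) (nat_lit 34) (nat_lit 4) (nat_lit 32)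 (nat_lit 4) (nat_lit 473) (nat_lit 384) (nat_lit 343))) (XT.nd (nat_lit 78) (nat_lit 76) (nat_lit 0) (XT.lf (nat_lit 0) (nat_lit 18943122542) (nat_lit 152) (nat_lit 252169786) (nat_lit 0) (nat_lit 12097770943) (nat_lit 32) (nat_lit 5) (nat_lit 34) (nat_lit 4) (nat_lit 32) (nat_lit 4) (nat_lit 474) (nat_lit 384) (nat_lit 342)) (XT.lf (nat_lit 0) (nat_lit 18289619277) (nat_lit 76) (nat_lit 10498510928) (nat_lit 76) (nat_lit 3604950366) (nat_lit 31) (nat_lit 4) (nat_lit 32) (nat_lit 5) (nat_lit 32) (nat_lit 4) (nat_lit 475) (nat_lit 384) (nat_lit 341)))))) (XT.nd (nat_lit 624) (nat_lit 456) (nat_lit 0) (XT.nd (nat_lit 312) (nat_lit 228) (nat_lit 0) (XT.nd (nat_lit 156) (nat_lit 76) (nat_lit 0) (XT.nd (nat_lit 78) (nat_lit 0) (nat_lit 0) (XT.lf (nat_lit 0) (nat_lit 4082221864) (nat_lit 76) (nat_lit 1294215074) (nat_lit 152) (nat_lit 28168426069) (nat_lit 29) (nat_lit 5) (nat_lit 30) (nat_lit 5) (nat_lit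 31) (nat_lit 4) (nat_lit 476) (nat_lit 384) (nat_lit 340)) (XT.lf (nat_lit 0) (nat_lit 14968915328) (nat_lit 152) (nat_lit 11449958744) (nat_lit 0) (nat_lit 8318247889) (nat_lit 29) (nat_lit 5) (nat_lit 31) (nat_lit 4) (nat_lit 29) (nat_lit 4) (nat_lit 477) (nat_lit 384) (nat_lit 339))) (XT.nd (nat_lit 78) (nat_lit 0) (nat_lit 0) (XT.lf (nat_lit 0) (nat_lit 7510328784) (nat_lit 76) (nat_lit 17583185079) (nat_lit 76) (nat_lit 10892856007) (nat_lit 28) (nat_lit 4) (nat_lit 29) (nat_lit 5) (nat_lit 29) (nat_lit 4) (nat_lit 478) (nat_lit 384) (nat_lit 338)) (XT.lf (nat_lit 0) (nat_lit 27646734882) (nat_lit 76) (nat_lit 8186989511) (nat_lit 76) (nat_lit 1458887456) (nat_lit 28) (nat_lit 4) (nat_lit 29) (nat_lit 5) (nat_lit 29) (nat_lit 4) (nat_lit 479) (nat_lit 384) (nat_lit 337)))) (XT.nd (nat_lit 156) (nat_lit 76) (nat_lit 0) (XT.nd (nat_lit 78) (nat_lit 0) (nat_lit 0) (XT.lf (nat_lit 0) (nat_lit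 8282843642) (nat_lit 152) (nat_lit 28528542217) (nat_lit 0) (nat_lit 1840866189) (nat_lit 26) (nat_lit 5) (nat_lit 28) (nat_lit 4) (nat_lit 26) (nat_lit 4) (nat_lit 480) (nat_lit 384) (nat_lit 336)) (XT.lf (nat_lit 0) (nat_lit 18681170240) (nat_lit 152) (nat_lit 9180018963) (nat_lit 0) (nat_lit 12206563062) (nat_lit 26) (nat_lit 5) (nat_lit 28) (nat_lit 4) (nat_lit 26) (nat_lit 4) (nat_lit 481) (nat_lit 384) (nat_lit 335))) (XT.nd (nat_lit 78) (nat_lit 0) (nat_lit 0) (XT.lf (nat_lit 0) (nat_lit 11342617920) (nat_lit 76) (nat_lit 18356064917) (nat_lit 76) (nat_lit 11850381812) (nat_lit 25) (nat_lit 4) (nat_lit 26) (nat_lit 5) (nat_lit 26) (nat_lit 4) (nat_lit 482) (nat_lit 384) (nat_lit 334)) (XT.lf (nat_lit 0) (nat_lit 33056270764) (nat_lit 76) (nat_lit 8289752069) (nat_lit 76) (nat_lit 1754472843) (nat_lit 25) (nat_lit 4) (nat_lit 26) (nat_lit 5) (nat_lit 26) (nat_lit 4) (nat_lit 483) (nat_lit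 384) (nat_lit 333))))) (XT.nd (nat_lit 312) (nat_lit 228) (nat_lit 0) (XT.nd (nat_lit 156) (nat_lit 76) (nat_lit 0) (XT.nd (nat_lit 78) (nat_lit 0) (nat_lit 0) (XT.lf (nat_lit 0) (nat_lit 8703408609) (nat_lit 152) (nat_lit 33559680287) (nat_lit 0) (nat_lit 2452488602) (nat_lit 23) (nat_lit 5) (nat_lit 25) (nat_lit 4) (nat_lit 23) (nat_lit 4) (nat_lit 484) (nat_lit 384) (nat_lit 332)) (XT.lf (nat_lit 0) (nat_lit 19860032522) (nat_lit 152) (nat_lit 12954656543) (nat_lit 0) (nat_lit 13583546273) (nat_lit 23) (nat_lit 5) (nat_lit 25) (nat_lit 4) (nat_lit 23) (nat_lit 4) (nat_lit 485) (nat_lit 384) (nat_lit 331))) (XT.nd (nat_lit 78) (nat_lit 0) (nat_lit 0) (XT.lf (nat_lit 0) (nat_lit 8821004120) (nat_lit 76) (nat_lit 22820747161) (nat_lit 76) (nat_lit 16519912109) (nat_lit 22) (nat_lit 4) (nat_lit 23) (nat_lit 5) (nat_lit 23) (nat_lit 4) (nat_lit 486) (nat_lit 384) (nat_lit 330)) (XT.lf (nat_lit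 0) (nat_lit 31995552133) (nat_lit 76) (nat_lit 12167115009) (nat_lit 76) (nat_lit 5843090621) (nat_lit 22) (nat_lit 4) (nat_lit 23) (nat_lit 5) (nat_lit 23) (nat_lit 4) (nat_lit 487) (nat_lit 384) (nat_lit 329)))) (XT.nd (nat_lit 156) (nat_lit 76) (nat_lit 0) (XT.nd (nat_lit 78) (nat_lit 0) (nat_lit 0) (XT.lf (nat_lit 0) (nat_lit 4305552498) (nat_lit 76) (nat_lit 890380168) (nat_lit 152) (nat_lit 46741926655) (nat_lit 20) (nat_lit 5) (nat_lit 21) (nat_lit 5) (nat_lit 22) (nat_lit 4) (nat_lit 488) (nat_lit 384) (nat_lit 328)) (XT.lf (nat_lit 0) (nat_lit 17004519684) (nat_lit 152) (nat_lit 25995984245) (nat_lit 0) (nat_lit 10940574085) (nat_lit 20) (nat_lit 5) (nat_lit 22) (nat_lit 4) (nat_lit 20) (nat_lit 4) (nat_lit 489) (nat_lit 384) (nat_lit 327))) (XT.nd (nat_lit 78) (nat_lit 76) (nat_lit 0) (XT.lf (nat_lit 0) (nat_lit 29354326557) (nat_lit 152) (nat_lit 3421288920) (nat_lit 0) (nat_lit 23271303033)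 (nat_lit 20) (nat_lit 5) (nat_lit 22) (nat_lit 4) (nat_lit 20) (nat_lit 4) (nat_lit 490) (nat_lit 384) (nat_lit 326)) (XT.lf (nat_lit 0) (nat_lit 20825991545) (nat_lit 76) (nat_lit 21760016803) (nat_lit 76) (nat_lit 15658823829) (nat_lit 19) (nat_lit 4) (nat_lit 20) (nat_lit 5) (nat_lit 20) (nat_lit 4) (nat_lit 491) (nat_lit 384) (nat_lit 325))))))) (XT.nd (nat_lit 1248) (nat_lit 380) (nat_lit 0) (XT.nd (nat_lit 624) (nat_lit 228) (nat_lit 0) (XT.nd (nat_lit 312) (nat_lit 228) (nat_lit 0) (XT.nd (nat_lit 156) (nat_lit 0) (nat_lit 0) (XT.nd (nat_lit 78) (nat_lit 152) (nat_lit 0) (XT.lf (nat_lit 0) (nat_lit 46283683262) (nat_lit 76) (nat_lit 10193773358) (nat_lit 76) (nat_lit 4075276144) (nat_lit 19) (nat_lit 4) (nat_lit 20) (nat_lit 5) (nat_lit 20) (nat_lit 4) (nat_lit 492) (nat_lit 384) (nat_lit 324)) (XT.lf (nat_lit 0) (nat_lit 7962933670) (nat_lit 152) (nat_lit 52879966956) (nat_lit 0) (nat_lit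 2120098011) (nat_lit 17) (nat_lit 5) (nat_lit 19) (nat_lit 4) (nat_lit 17) (nat_lit 4) (nat_lit 493) (nat_lit 384) (nat_lit 323))) (XT.nd (nat_lit 78) (nat_lit 0) (nat_lit 0) (XT.lf (nat_lit 0) (nat_lit 20821028823) (nat_lit 152) (nat_lit 29688417245) (nat_lit 0) (nat_lit 14963245112) (nat_lit 17) (nat_lit 5) (nat_lit 19) (nat_lit 4) (nat_lit 17) (nat_lit 4) (nat_lit 494) (nat_lit 384) (nat_lit 322)) (XT.lf (nat_lit 0) (nat_lit 34266985898) (nat_lit 152) (nat_lit 5448668938) (nat_lit 0) (nat_lit 28394965947) (nat_lit 17) (nat_lit 5) (nat_lit 19) (nat_lit 4) (nat_lit 17) (nat_lit 4) (nat_lit 495) (nat_lit 384) (nat_lit 321)))) (XT.nd (nat_lit 156) (nat_lit 152) (nat_lit 0) (XT.nd (nat_lit 78) (nat_lit 0) (nat_lit 0) (XT.lf (nat_lit 0) (nat_lit 20554876050) (nat_lit 76) (nat_lit 28098862250) (nat_lit 76) (nat_lit 22213283974) (nat_lit 16) (nat_lit 4) (nat_lit 17) (nat_lit 5) (nat_lit 17) (nat_lit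 4) (nat_lit 496) (nat_lit 384) (nat_lit 320)) (XT.lf (nat_lit 0) (nat_lit 47943399526) (nat_lit 76) (nat_lit 15857149748) (nat_lit 76) (nat_lit 9958658783) (nat_lit 16) (nat_lit 4) (nat_lit 17) (nat_lit 5) (nat_lit 17) (nat_lit 4) (nat_lit 497) (nat_lit 384) (nat_lit 319))) (XT.nd (nat_lit 78) (nat_lit 76) (nat_lit 0) (XT.lf (nat_lit 0) (nat_lit 2765696117) (nat_lit 152) (nat_lit 241111724) (nat_lit 76) (nat_lit 73789420138) (nat_lit 15) (nat_lit 5) (nat_lit 17) (nat_lit 5) (nat_lit 16) (nat_lit 4) (nat_lit 498) (nat_lit 384) (nat_lit 318)) (XT.lf (nat_lit 0) (nat_lit 16341710074) (nat_lit 152) (nat_lit 52906487365) (nat_lit 0) (nat_lit 10701232974) (nat_lit 14) (nat_lit 5) (nat_lit 16) (nat_lit 4) (nat_lit 14) (nat_lit 4) (nat_lit 499) (nat_lit 384) (nat_lit 317))))) (XT.nd (nat_lit 312) (nat_lit 152) (nat_lit 0) (XT.nd (nat_lit 156) (nat_lit 76) (nat_lit 0) (XT.nd (nat_lit 78) (nat_lit 0) (nat_lit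 0) (XT.lf (nat_lit 0) (nat_lit 30602474912) (nat_lit 152) (nat_lit 27706146258) (nat_lit 0) (nat_lit 24951374510) (nat_lit 14) (nat_lit 5) (nat_lit 16) (nat_lit 4) (nat_lit 14) (nat_lit 4) (nat_lit 500) (nat_lit 384) (nat_lit 316)) (XT.lf (nat_lit 0) (nat_lit 45531047482) (nat_lit 152) (nat_lit 1337473811) (nat_lit 0) (nat_lit 39869829650) (nat_lit 14) (nat_lit 5) (nat_lit 16) (nat_lit 4) (nat_lit 14) (nat_lit 4) (nat_lit 501) (nat_lit 384) (nat_lit 315))) (XT.nd (nat_lit 78) (nat_lit 0) (nat_lit 0) (XT.lf (nat_lit 0) (nat_lit 27130663185) (nat_lit 76) (nat_lit 34455894507) (nat_lit 76) (nat_lit 28785041027) (nat_lit 13) (nat_lit 4) (nat_lit 14) (nat_lit 5) (nat_lit 14) (nat_lit 4) (nat_lit 502) (nat_lit 384) (nat_lit 314)) (XT.lf (nat_lit 0) (nat_lit 56982729757) (nat_lit 76) (nat_lit 21442397700) (nat_lit 76) (nat_lit 15762367413) (nat_lit 13) (nat_lit 4) (nat_lit 14) (nat_lit 5) (nat_lit 14)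 (nat_lit 4) (nat_lit 503) (nat_lit 384) (nat_lit 313)))) (XT.nd (nat_lit 156) (nat_lit 0) (nat_lit 0) (XT.nd (nat_lit 78) (nat_lit 152) (nat_lit 0) (XT.lf (nat_lit 0) (nat_lit 88245579329) (nat_lit 76) (nat_lit 7819697124) (nat_lit 76) (nat_lit 2130927020) (nat_lit 13) (nat_lit 4) (nat_lit 14) (nat_lit 5) (nat_lit 14) (nat_lit 4) (nat_lit 504) (nat_lit 384) (nat_lit 312)) (XT.lf (nat_lit 0) (nat_lit 12158438235) (nat_lit 152) (nat_lit 83486452150) (nat_lit 0) (nat_lit 6732634674) (nat_lit 11) (nat_lit 5) (nat_lit 13) (nat_lit 4) (nat_lit 11) (nat_lit 4) (nat_lit 505) (nat_lit 384) (nat_lit 311))) (XT.nd (nat_lit 78) (nat_lit 0) (nat_lit 0) (XT.lf (nat_lit 0) (nat_lit 27351099634) (nat_lit 152) (nat_lit 57484298246) (nat_lit 0) (nat_lit 21917746291) (nat_lit 11) (nat_lit 5) (nat_lit 13) (nat_lit 4) (nat_lit 11) (nat_lit 4) (nat_lit 506) (nat_lit 384) (nat_lit 310)) (XT.lf (nat_lit 0) (nat_lit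 43266220779) (nat_lit 152) (nat_lit 30257505107) (nat_lit 0) (nat_lit 37825677167) (nat_lit 11) (nat_lit 5) (nat_lit 13) (nat_lit 4) (nat_lit 11) (nat_lit 4) (nat_lit 507) (nat_lit 384) (nat_lit 309)))))) (XT.nd (nat_lit 624) (nat_lit 152) (nat_lit 0) (XT.nd (nat_lit 312) (nat_lit 152) (nat_lit 0) (XT.nd (nat_lit 156) (nat_lit 0) (nat_lit 0) (XT.nd (nat_lit 78) (nat_lit 76) (nat_lit 0) (XT.lf (nat_lit 0) (nat_lit 59941694816) (nat_lit 152) (nat_lit 1741247033) (nat_lit 0) (nat_lit 54494303329) (nat_lit 11) (nat_lit 5) (nat_lit 13) (nat_lit 4) (nat_lit 11) (nat_lit 4) (nat_lit 508) (nat_lit 384) (nat_lit 308)) (XT.lf (nat_lit 0) (nat_lit 29062555087) (nat_lit 76) (nat_lit 48808418099) (nat_lit 76) (nat_lit 43354504826) (nat_lit 10) (nat_lit 4) (nat_lit 11) (nat_lit 5) (nat_lit 11) (nat_lit 4) (nat_lit 509) (nat_lit 384) (nat_lit 307))) (XT.nd (nat_lit 78) (nat_lit 0) (nat_lit 0) (XT.lf (nat_lit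 0) (nat_lit 61399651429) (nat_lit 76) (nat_lit 35293389701) (nat_lit 76) (nat_lit 29833265204) (nat_lit 10) (nat_lit 4) (nat_lit 11) (nat_lit 5) (nat_lit 11) (nat_lit 4) (nat_lit 510) (nat_lit 384) (nat_lit 306)) (XT.lf (nat_lit 0) (nat_lit 95289461587) (nat_lit 76) (nat_lit 21135166878) (nat_lit 76) (nat_lit 15669126929) (nat_lit 10) (nat_lit 4) (nat_lit 11) (nat_lit 5) (nat_lit 11) (nat_lit 4) (nat_lit 511) (nat_lit 384) (nat_lit 305)))) (XT.nd (nat_lit 156) (nat_lit 0) (nat_lit 0) (XT.nd (nat_lit 78) (nat_lit 152) (nat_lit 0) (XT.lf (nat_lit 0) (nat_lit 130812675586) (nat_lit 76) (nat_lit 6300039575) (nat_lit 76) (nat_lit 828365863) (nat_lit 10) (nat_lit 4) (nat_lit 11) (nat_lit 5) (nat_lit 11) (nat_lit 4) (nat_lit 512) (nat_lit 384) (nat_lit 304)) (XT.lf (nat_lit 0) (nat_lit 14790436519) (nat_lit 152) (nat_lit 119679198048) (nat_lit 0) (nat_lit 9574208707) (nat_lit 8) (nat_lit 5) (nat_lit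 10) (nat_lit 4) (nat_lit 8) (nat_lit 4) (nat_lit 513) (nat_lit 384) (nat_lit 303))) (XT.nd (nat_lit 78) (nat_lit 0) (nat_lit 0) (XT.lf (nat_lit 0) (nat_lit 31359221292) (nat_lit 152) (nat_lit 92943872592) (nat_lit 0) (nat_lit 26138126824) (nat_lit 8) (nat_lit 5) (nat_lit 10) (nat_lit 4) (nat_lit 8) (nat_lit 4) (nat_lit 514) (nat_lit 384) (nat_lit 302)) (XT.lf (nat_lit 0) (nat_lit 48728730446) (nat_lit 152) (nat_lit 64928121340) (nat_lit 0) (nat_lit 43503001067) (nat_lit 8) (nat_lit 5) (nat_lit 10) (nat_lit 4) (nat_lit 8) (nat_lit 4) (nat_lit 515) (nat_lit 384) (nat_lit 301))))) (XT.nd (nat_lit 312) (nat_lit 76) (nat_lit 0) (XT.nd (nat_lit 156) (nat_lit 76) (nat_lit 0) (XT.nd (nat_lit 78) (nat_lit 0) (nat_lit 0) (XT.lf (nat_lit 0) (nat_lit 66940319955) (nat_lit 152) (nat_lit 35565240122) (nat_lit 0) (nat_lit 61710176374) (nat_lit 8) (nat_lit 5) (nat_lit 10) (nat_lit 4) (nat_lit 8) (nat_lit 4)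 (nat_lit 516) (nat_lit 384) (nat_lit 300)) (XT.lf (nat_lit 0) (nat_lit 86037350747) (nat_lit 152) (nat_lit 4785317316) (nat_lit 0) (nat_lit 80803003164) (nat_lit 8) (nat_lit 5) (nat_lit 10) (nat_lit 4) (nat_lit 8) (nat_lit 4) (nat_lit 517) (nat_lit 384) (nat_lit 299))) (XT.nd (nat_lit 78) (nat_lit 0) (nat_lit 0) (XT.lf (nat_lit 0) (nat_lit 28393708606) (nat_lit 76) (nat_lit 78114888699) (nat_lit 76) (nat_lit 72876537306) (nat_lit 7) (nat_lit 4) (nat_lit 8) (nat_lit 5) (nat_lit 8) (nat_lit 4) (nat_lit 518) (nat_lit 384) (nat_lit 298)) (XT.lf (nat_lit 0) (nat_lit 63349937199) (nat_lit 76) (nat_lit 64710961971) (nat_lit 76) (nat_lit 59468797425) (nat_lit 7) (nat_lit 4) (nat_lit 8) (nat_lit 5) (nat_lit 8) (nat_lit 4) (nat_lit 519) (nat_lit 384) (nat_lit 297)))) (XT.nd (nat_lit 156) (nat_lit 76) (nat_lit 0) (XT.nd (nat_lit 78) (nat_lit 0) (nat_lit 0) (XT.lf (nat_lit 0) (nat_lit 100008373377) (nat_lit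 76) (nat_lit 50660015431) (nat_lit 76) (nat_lit 45414219310) (nat_lit 7) (nat_lit 4) (nat_lit 8) (nat_lit 5) (nat_lit 8) (nat_lit 4) (nat_lit 520) (nat_lit 384) (nat_lit 296)) (XT.lf (nat_lit 0) (nat_lit 138456299129) (nat_lit 76) (nat_lit 35928594445) (nat_lit 76) (nat_lit 30679339682) (nat_lit 7) (nat_lit 4) (nat_lit 8) (nat_lit 5) (nat_lit 8) (nat_lit 4) (nat_lit 521) (nat_lit 384) (nat_lit 295))) (XT.nd (nat_lit 78) (nat_lit 76) (nat_lit 0) (XT.lf (nat_lit 0) (nat_lit 178785257138) (nat_lit 76) (nat_lit 20481624201) (nat_lit 76) (nat_lit 15229075493) (nat_lit 7) (nat_lit 4) (nat_lit 8) (nat_lit 5) (nat_lit 8) (nat_lit 4) (nat_lit 522) (nat_lit 384) (nat_lit 294)) (XT.lf (nat_lit 0) (nat_lit 942206013) (nat_lit 152) (nat_lit 3324163471) (nat_lit 76) (nat_lit 220133106003) (nat_lit 6) (nat_lit 5) (nat_lit 8) (nat_lit 5) (nat_lit 7) (nat_lit 4) (nat_lit 523) (nat_lit 384) (nat_lit 293))))))))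
noncomputable def xc60 : XT := (XT.nd (nat_lit 55302) (nat_lit 0) (nat_lit 3116) (XT.nd (nat_lit 1170) (nat_lit 152) (nat_lit 0) (XT.nd (nat_lit 546) (nat_lit 76) (nat_lit 0) (XT.nd (nat_lit 234) (nat_lit 0) (nat_lit 0) (XT.nd (nat_lit 78) (nat_lit 0) (nat_lit 0) (XT.lf (nat_lit 0) (nat_lit 18092765918) (nat_lit 152) (nat_lit 203574290370) (nat_lit 0) (nat_lit 13084505439) (nat_lit 5) (nat_lit 5) (nat_lit 7) (nat_lit 4) (nat_lit 5) (nat_lit 4) (nat_lit 524) (nat_lit 384) (nat_lit 292)) (XT.nd (nat_lit 78) (nat_lit 0) (nat_lit 0) (XT.lf (nat_lit 0) (nat_lit 36209269297) (nat_lit 152) (nat_lit 178208263383) (nat_lit 0) (nat_lit 31198298881) (nat_lit 5) (nat_lit 5) (nat_lit 7) (nat_lit 4) (nat_lit 5) (nat_lit 4) (nat_lit 525) (nat_lit 384) (nat_lit 291)) (XT.lf (nat_lit 0) (nat_lit 55213746213) (nat_lit 152) (nat_lit 151610266402) (nat_lit 0) (nat_lit 50200194905) (nat_lit 5) (nat_lit 5) (nat_lit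 7) (nat_lit 4) (nat_lit 5) (nat_lit 4) (nat_lit 526) (nat_lit 384) (nat_lit 290)))) (XT.nd (nat_lit 156) (nat_lit 0) (nat_lit 0) (XT.nd (nat_lit 78) (nat_lit 0) (nat_lit 0) (XT.lf (nat_lit 0) (nat_lit 75151445423) (nat_lit 152) (nat_lit 123716970862) (nat_lit 0) (nat_lit 70135436123) (nat_lit 5) (nat_lit 5) (nat_lit 7) (nat_lit 4) (nat_lit 5) (nat_lit 4) (nat_lit 527) (nat_lit 384) (nat_lit 289)) (XT.lf (nat_lit 0) (nat_lit 96069837638) (nat_lit 152) (nat_lit 94461964156) (nat_lit 0) (nat_lit 91051487392) (nat_lit 5) (nat_lit 5) (nat_lit 7) (nat_lit 4) (nat_lit 5) (nat_lit 4) (nat_lit 528) (nat_lit 384) (nat_lit 288))) (XT.nd (nat_lit 78) (nat_lit 0) (nat_lit 0) (XT.lf (nat_lit 0) (nat_lit 118018728553) (nat_lit 152) (nat_lit 63775591504) (nat_lit 0) (nat_lit 112998148836) (nat_lit 5) (nat_lit 5) (nat_lit 7) (nat_lit 4) (nat_lit 5) (nat_lit 4) (nat_lit 529) (nat_lit 384) (nat_lit 287)) (XT.lf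 (nat_lit 0) (nat_lit 141050377434) (nat_lit 152) (nat_lit 31584790115) (nat_lit 0) (nat_lit 136027674410) (nat_lit 5) (nat_lit 5) (nat_lit 7) (nat_lit 4) (nat_lit 5) (nat_lit 4) (nat_lit 530) (nat_lit 384) (nat_lit 286))))) (XT.nd (nat_lit 312) (nat_lit 0) (nat_lit 0) (XT.nd (nat_lit 156) (nat_lit 0) (nat_lit 0) (XT.nd (nat_lit 78) (nat_lit 0) (nat_lit 0) (XT.lf (nat_lit 0) (nat_lit 2259399674) (nat_lit 76) (nat_lit 162995497424) (nat_lit 76) (nat_lit 157970772204) (nat_lit 4) (nat_lit 4) (nat_lit 5) (nat_lit 5) (nat_lit 5) (nat_lit 4) (nat_lit 531) (nat_lit 384) (nat_lit 285)) (XT.lf (nat_lit 0) (nat_lit 38864344118) (nat_lit 76) (nat_lit 152326443897) (nat_lit 76) (nat_lit 147299792776) (nat_lit 4) (nat_lit 4) (nat_lit 5) (nat_lit 5) (nat_lit 5) (nat_lit 4) (nat_lit 532) (nat_lit 384) (nat_lit 284))) (XT.nd (nat_lit 78) (nat_lit 0) (nat_lit 0) (XT.lf (nat_lit 0) (nat_lit 77272862041) (nat_lit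 76) (nat_lit 141137508163) (nat_lit 76) (nat_lit 136109022850) (nat_lit 4) (nat_lit 4) (nat_lit 5) (nat_lit 5) (nat_lit 5) (nat_lit 4) (nat_lit 533) (nat_lit 384) (nat_lit 283)) (XT.lf (nat_lit 0) (nat_lit 117576402297) (nat_lit 76) (nat_lit 129402049899) (nat_lit 76) (nat_lit 124371817736) (nat_lit 4) (nat_lit 4) (nat_lit 5) (nat_lit 5) (nat_lit 5) (nat_lit 4) (nat_lit 534) (nat_lit 384) (nat_lit 282)))) (XT.nd (nat_lit 156) (nat_lit 0) (nat_lit 0) (XT.nd (nat_lit 78) (nat_lit 0) (nat_lit 0) (XT.lf (nat_lit 0) (nat_lit 159870925696) (nat_lit 76) (nat_lit 117092127537) (nat_lit 76) (nat_lit 112060231708) (nat_lit 4) (nat_lit 4) (nat_lit 5) (nat_lit 5) (nat_lit 5) (nat_lit 4) (nat_lit 535) (nat_lit 384) (nat_lit 281)) (XT.lf (nat_lit 0) (nat_lit 204257133483) (nat_lit 76) (nat_lit 104178431738) (nat_lit 76) (nat_lit 99144951466) (nat_lit 4) (nat_lit 4) (nat_lit 5) (nat_lit 5) (nat_lit 5) (nat_lit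 4) (nat_lit 536) (nat_lit 384) (nat_lit 280))) (XT.nd (nat_lit 78) (nat_lit 0) (nat_lit 0) (XT.lf (nat_lit 0) (nat_lit 250840707106) (nat_lit 76) (nat_lit 90630215609) (nat_lit 76) (nat_lit 85595226342) (nat_lit 4) (nat_lit 4) (nat_lit 5) (nat_lit 5) (nat_lit 5) (nat_lit 4) (nat_lit 537) (nat_lit 384) (nat_lit 279)) (XT.lf (nat_lit 0) (nat_lit 299732559835) (nat_lit 76) (nat_lit 76415221491) (nat_lit 76) (nat_lit 71378795087) (nat_lit 4) (nat_lit 4) (nat_lit 5) (nat_lit 5) (nat_lit 5) (nat_lit 4) (nat_lit 538) (nat_lit 384) (nat_lit 278)))))) (XT.nd (nat_lit 624) (nat_lit 0) (nat_lit 0) (XT.nd (nat_lit 312) (nat_lit 152) (nat_lit 0) (XT.nd (nat_lit 156) (nat_lit 0) (nat_lit 0) (XT.nd (nat_lit 78) (nat_lit 0) (nat_lit 0) (XT.lf (nat_lit 0) (nat_lit 351049100844) (nat_lit 76) (nat_lit 61499604160) (nat_lit 76) (nat_lit 56461809054) (nat_lit 4) (nat_lit 4) (nat_lit 5) (nat_lit 5) (nat_lit 5) (nat_lit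 4) (nat_lit 539) (nat_lit 384) (nat_lit 277)) (XT.lf (nat_lit 0) (nat_lit 404912512373) (nat_lit 76) (nat_lit 45847850242) (nat_lit 76) (nat_lit 40808751610) (nat_lit 4) (nat_lit 4) (nat_lit 5) (nat_lit 5) (nat_lit 5) (nat_lit 4) (nat_lit 540) (nat_lit 384) (nat_lit 276))) (XT.nd (nat_lit 78) (nat_lit 0) (nat_lit 0) (XT.lf (nat_lit 0) (nat_lit 461451040640) (nat_lit 76) (nat_lit 29422693656) (nat_lit 76) (nat_lit 24382353571) (nat_lit 4) (nat_lit 4) (nat_lit 5) (nat_lit 5) (nat_lit 5) (nat_lit 4) (nat_lit 541) (nat_lit 384) (nat_lit 275)) (XT.lf (nat_lit 0) (nat_lit 520799301188) (nat_lit 76) (nat_lit 12185026886) (nat_lit 76) (nat_lit 7143504465) (nat_lit 4) (nat_lit 4) (nat_lit 5) (nat_lit 5) (nat_lit 5) (nat_lit 4) (nat_lit 542) (nat_lit 384) (nat_lit 274)))) (XT.nd (nat_lit 156) (nat_lit 0) (nat_lit 0) (XT.nd (nat_lit 78) (nat_lit 0) (nat_lit 0) (XT.lf (nat_lit 0) (nat_lit 10966933534) (nat_lit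 152) (nat_lit 549085248639) (nat_lit 0) (nat_lit 6164411194) (nat_lit 2) (nat_lit 5) (nat_lit 4) (nat_lit 4) (nat_lit 2) (nat_lit 4) (nat_lit 543) (nat_lit 384) (nat_lit 273)) (XT.lf (nat_lit 0) (nat_lit 30267110957) (nat_lit 152) (nat_lit 537847044391) (nat_lit 0) (nat_lit 25463567271) (nat_lit 2) (nat_lit 5) (nat_lit 4) (nat_lit 4) (nat_lit 2) (nat_lit 4) (nat_lit 544) (nat_lit 384) (nat_lit 272))) (XT.nd (nat_lit 78) (nat_lit 0) (nat_lit 0) (XT.lf (nat_lit 0) (nat_lit 50524513776) (nat_lit 152) (nat_lit 526062786374) (nat_lit 0) (nat_lit 45719997379) (nat_lit 2) (nat_lit 5) (nat_lit 4) (nat_lit 4) (nat_lit 2) (nat_lit 4) (nat_lit 545) (nat_lit 384) (nat_lit 271)) (XT.lf (nat_lit 0) (nat_lit 71787373900) (nat_lit 152) (nat_lit 513704416831) (nat_lit 0) (nat_lit 66981931112) (nat_lit 2) (nat_lit 5) (nat_lit 4) (nat_lit 4) (nat_lit 2) (nat_lit 4) (nat_lit 546) (nat_lit 384) (nat_lit 270)))))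 (XT.nd (nat_lit 312) (nat_lit 0) (nat_lit 0) (XT.nd (nat_lit 156) (nat_lit 0) (nat_lit 0) (XT.nd (nat_lit 78) (nat_lit 0) (nat_lit 0) (XT.lf (nat_lit 0) (nat_lit 94106317188) (nat_lit 152) (nat_lit 500742511074) (nat_lit 0) (nat_lit 89299992122) (nat_lit 2) (nat_lit 5) (nat_lit 4) (nat_lit 4) (nat_lit 2) (nat_lit 4) (nat_lit 547) (nat_lit 384) (nat_lit 269)) (XT.lf (nat_lit 0) (nat_lit 117534483981) (nat_lit 152) (nat_lit 487146207421) (nat_lit 0) (nat_lit 112727318651) (nat_lit 2) (nat_lit 5) (nat_lit 4) (nat_lit 4) (nat_lit 2) (nat_lit 4) (nat_lit 548) (nat_lit 384) (nat_lit 268))) (XT.nd (nat_lit 78) (nat_lit 0) (nat_lit 0) (XT.lf (nat_lit 0) (nat_lit 142127655628) (nat_lit 152) (nat_lit 472883133721) (nat_lit 0) (nat_lit 137319690046) (nat_lit 2) (nat_lit 5) (nat_lit 4) (nat_lit 4) (nat_lit 2) (nat_lit 4) (nat_lit 549) (nat_lit 384) (nat_lit 267)) (XT.lf (nat_lit 0) (nat_lit 167944387300)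 (nat_lit 152) (nat_lit 457919330275) (nat_lit 0) (nat_lit 163135659573) (nat_lit 2) (nat_lit 5) (nat_lit 4) (nat_lit 4) (nat_lit 2) (nat_lit 4) (nat_lit 550) (nat_lit 384) (nat_lit 266)))) (XT.nd (nat_lit 53040) (nat_lit 0) (nat_lit 7068) (XT.nd (nat_lit 78) (nat_lit 0) (nat_lit 0) (XT.lf (nat_lit 0) (nat_lit 195046147406) (nat_lit 152) (nat_lit 442219168980) (nat_lit 0) (nat_lit 190236693827) (nat_lit 2) (nat_lit 5) (nat_lit 4) (nat_lit 4) (nat_lit 2) (nat_lit 4) (nat_lit 551) (nat_lit 384) (nat_lit 265)) (XT.lf (nat_lit 0) (nat_lit 223497463946) (nat_lit 152) (nat_lit 425745268498) (nat_lit 0) (nat_lit 218687319079) (nat_lit 2) (nat_lit 5) (nat_lit 4) (nat_lit 4) (nat_lit 2) (nat_lit 4) (nat_lit 552) (nat_lit 384) (nat_lit 264))) (XT.nd (nat_lit 78) (nat_lit 228) (nat_lit 0) (XT.lf (nat_lit 0) (nat_lit 3334621809) (nat_lit 228) (nat_lit 604929242) (nat_lit 228) (nat_lit 604929242) (nat_lit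 98) (nat_lit 4) (nat_lit 101) (nat_lit 5) (nat_lit 101) (nat_lit 4) (nat_lit 430) (nat_lit 385) (nat_lit 385)) (XT.lf (nat_lit 0) (nat_lit 3273996889) (nat_lit 228) (nat_lit 3583284957) (nat_lit 0) (nat_lit 2416373860) (nat_lit 95) (nat_lit 5) (nat_lit 98) (nat_lit 4) (nat_lit 95) (nat_lit 4) (nat_lit 431) (nat_lit 385) (nat_lit 384))))))) (XT.nd (nat_lit 1170) (nat_lit 1520) (nat_lit 0) (XT.nd (nat_lit 546) (nat_lit 1140) (nat_lit 0) (XT.nd (nat_lit 234) (nat_lit 608) (nat_lit 0) (XT.nd (nat_lit 78) (nat_lit 456) (nat_lit 0) (XT.lf (nat_lit 0) (nat_lit 4664248359) (nat_lit 228) (nat_lit 3239329813) (nat_lit 228) (nat_lit 1564922947) (nat_lit 92) (nat_lit 4) (nat_lit 95) (nat_lit 5) (nat_lit 95) (nat_lit 4) (nat_lit 432) (nat_lit 385) (nat_lit 383)) (XT.nd (nat_lit 78) (nat_lit 228) (nat_lit 0) (XT.lf (nat_lit 0) (nat_lit 2949141421) (nat_lit 228) (nat_lit 6110101045) (nat_lit 0) (nat_lit 613621198)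 (nat_lit 89) (nat_lit 5) (nat_lit 92) (nat_lit 4) (nat_lit 89) (nat_lit 4) (nat_lit 433) (nat_lit 385) (nat_lit 382)) (XT.lf (nat_lit 0) (nat_lit 2353894199) (nat_lit 228) (nat_lit 5286581431) (nat_lit 228) (nat_lit 2245492620) (nat_lit 86) (nat_lit 4) (nat_lit 89) (nat_lit 5) (nat_lit 89) (nat_lit 4) (nat_lit 434) (nat_lit 385) (nat_lit 381)))) (XT.nd (nat_lit 156) (nat_lit 380) (nat_lit 0) (XT.nd (nat_lit 78) (nat_lit 0) (nat_lit 0) (XT.lf (nat_lit 0) (nat_lit 1068779043) (nat_lit 152) (nat_lit 1263824828) (nat_lit 228) (nat_lit 7777490459) (nat_lit 83) (nat_lit 5) (nat_lit 85) (nat_lit 5) (nat_lit 86) (nat_lit 4) (nat_lit 435) (nat_lit 385) (nat_lit 380)) (XT.lf (nat_lit 0) (nat_lit 7074829843) (nat_lit 228) (nat_lit 339147879) (nat_lit 0) (nat_lit 2929086601) (nat_lit 83) (nat_lit 5) (nat_lit 86) (nat_lit 4) (nat_lit 83) (nat_lit 4) (nat_lit 436) (nat_lit 385) (nat_lit 379))) (XT.nd (nat_lit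 78) (nat_lit 152) (nat_lit 0) (XT.lf (nat_lit 0) (nat_lit 1420283778) (nat_lit 228) (nat_lit 1814634518) (nat_lit 76) (nat_lit 7351594314) (nat_lit 80) (nat_lit 5) (nat_lit 83) (nat_lit 5) (nat_lit 81) (nat_lit 4) (nat_lit 437) (nat_lit 385) (nat_lit 378)) (XT.lf (nat_lit 0) (nat_lit 6218016811) (nat_lit 228) (nat_lit 3431865014) (nat_lit 0) (nat_lit 1190352319) (nat_lit 78) (nat_lit 5) (nat_lit 81) (nat_lit 4) (nat_lit 78) (nat_lit 4) (nat_lit 438) (nat_lit 385) (nat_lit 377))))) (XT.nd (nat_lit 312) (nat_lit 456) (nat_lit 0) (XT.nd (nat_lit 156) (nat_lit 304) (nat_lit 0) (XT.nd (nat_lit 78) (nat_lit 152) (nat_lit 0) (XT.lf (nat_lit 0) (nat_lit 166616042) (nat_lit 228) (nat_lit 5187536027) (nat_lit 76) (nat_lit 5751263717) (nat_lit 75) (nat_lit 5) (nat_lit 78) (nat_lit 5) (nat_lit 76) (nat_lit 4) (nat_lit 439) (nat_lit 385) (nat_lit 376)) (XT.lf (nat_lit 0) (nat_lit 4266647925) (nat_lit 152)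 (nat_lit 744719603) (nat_lit 228) (nat_lit 6370119000) (nat_lit 73) (nat_lit 5) (nat_lit 75) (nat_lit 5) (nat_lit 76) (nat_lit 4) (nat_lit 440) (nat_lit 385) (nat_lit 375))) (XT.nd (nat_lit 78) (nat_lit 152) (nat_lit 0) (XT.lf (nat_lit 0) (nat_lit 2451773508) (nat_lit 152) (nat_lit 7685711017) (nat_lit 152) (nat_lit 1531928816) (nat_lit 71) (nat_lit 4) (nat_lit 73) (nat_lit 5) (nat_lit 73) (nat_lit 4) (nat_lit 441) (nat_lit 385) (nat_lit 374)) (XT.lf (nat_lit 0) (nat_lit 454279670) (nat_lit 76) (nat_lit 2970399945) (nat_lit 152) (nat_lit 8544791521) (nat_lit 69) (nat_lit 5) (nat_lit 70) (nat_lit 5) (nat_lit 71) (nat_lit 4) (nat_lit 442) (nat_lit 385) (nat_lit 373)))) (XT.nd (nat_lit 156) (nat_lit 228) (nat_lit 0) (XT.nd (nat_lit 78) (nat_lit 228) (nat_lit 0) (XT.lf (nat_lit 0) (nat_lit 8616815477) (nat_lit 152) (nat_lit 1675503941) (nat_lit 0) (nat_lit 1989005446) (nat_lit 69) (nat_lit 5) (nat_lit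 71) (nat_lit 4) (nat_lit 69) (nat_lit 4) (nat_lit 443) (nat_lit 385) (nat_lit 372)) (XT.lf (nat_lit 0) (nat_lit 1453847253) (nat_lit 228) (nat_lit 4003783244) (nat_lit 76) (nat_lit 7147969079) (nat_lit 66) (nat_lit 5) (nat_lit 69) (nat_lit 5) (nat_lit 67) (nat_lit 4) (nat_lit 444) (nat_lit 385) (nat_lit 371))) (XT.nd (nat_lit 78) (nat_lit 152) (nat_lit 0) (XT.lf (nat_lit 0) (nat_lit 6392863659) (nat_lit 76) (nat_lit 298075037) (nat_lit 152) (nat_lit 6252853872) (nat_lit 65) (nat_lit 5) (nat_lit 66) (nat_lit 5) (nat_lit 67) (nat_lit 4) (nat_lit 445) (nat_lit 385) (nat_lit 370)) (XT.lf (nat_lit 0) (nat_lit 3939096706) (nat_lit 152) (nat_lit 8319512768) (nat_lit 152) (nat_lit 1036855846) (nat_lit 63) (nat_lit 4) (nat_lit 65) (nat_lit 5) (nat_lit 65) (nat_lit 4) (nat_lit 446) (nat_lit 385) (nat_lit 369)))))) (XT.nd (nat_lit 624) (nat_lit 684) (nat_lit 0) (XT.nd (nat_lit 312) (nat_lit 380) (nat_lit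 0) (XT.nd (nat_lit 156) (nat_lit 304) (nat_lit 0) (XT.nd (nat_lit 78) (nat_lit 0) (nat_lit 0) (XT.lf (nat_lit 0) (nat_lit 1225813931) (nat_lit 76) (nat_lit 3067673470) (nat_lit 152) (nat_lit 9367991509) (nat_lit 61) (nat_lit 5) (nat_lit 62) (nat_lit 5) (nat_lit 63) (nat_lit 4) (nat_lit 447) (nat_lit 385) (nat_lit 368)) (XT.lf (nat_lit 0) (nat_lit 9914536101) (nat_lit 152) (nat_lit 1693927475) (nat_lit 0) (nat_lit 2433533536) (nat_lit 61) (nat_lit 5) (nat_lit 63) (nat_lit 4) (nat_lit 61) (nat_lit 4) (nat_lit 448) (nat_lit 385) (nat_lit 367))) (XT.nd (nat_lit 78) (nat_lit 76) (nat_lit 0) (XT.lf (nat_lit 0) (nat_lit 1398704402) (nat_lit 228) (nat_lit 4866916998) (nat_lit 76) (nat_lit 8171470340) (nat_lit 58) (nat_lit 5) (nat_lit 61) (nat_lit 5) (nat_lit 59) (nat_lit 4) (nat_lit 449) (nat_lit 385) (nat_lit 366)) (XT.lf (nat_lit 0) (nat_lit 6497389834) (nat_lit 76) (nat_lit 562536696) (nat_lit 152)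 (nat_lit 7788763232) (nat_lit 57) (nat_lit 5) (nat_lit 58) (nat_lit 5) (nat_lit 59) (nat_lit 4) (nat_lit 450) (nat_lit 385) (nat_lit 365)))) (XT.nd (nat_lit 156) (nat_lit 152) (nat_lit 0) (XT.nd (nat_lit 78) (nat_lit 76) (nat_lit 0) (XT.lf (nat_lit 0) (nat_lit 3085862687) (nat_lit 152) (nat_lit 10002622832) (nat_lit 152) (nat_lit 2188172889) (nat_lit 55) (nat_lit 4) (nat_lit 57) (nat_lit 5) (nat_lit 57) (nat_lit 4) (nat_lit 451) (nat_lit 385) (nat_lit 364)) (XT.lf (nat_lit 0) (nat_lit 3595196853) (nat_lit 228) (nat_lit 652652752) (nat_lit 76) (nat_lit 11474250941) (nat_lit 54) (nat_lit 5) (nat_lit 57) (nat_lit 5) (nat_lit 55) (nat_lit 4) (nat_lit 452) (nat_lit 385) (nat_lit 363))) (XT.nd (nat_lit 78) (nat_lit 76) (nat_lit 0) (XT.lf (nat_lit 0) (nat_lit 9678734429) (nat_lit 152) (nat_lit 4656082698) (nat_lit 0) (nat_lit 1848981161) (nat_lit 53) (nat_lit 5) (nat_lit 55) (nat_lit 4) (nat_lit 53)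 (nat_lit 4) (nat_lit 453) (nat_lit 385) (nat_lit 362)) (XT.lf (nat_lit 0) (nat_lit 7607314699) (nat_lit 76) (nat_lit 8533641934) (nat_lit 76) (nat_lit 523902609) (nat_lit 52) (nat_lit 4) (nat_lit 53) (nat_lit 5) (nat_lit 53) (nat_lit 4) (nat_lit 454) (nat_lit 385) (nat_lit 361))))) (XT.nd (nat_lit 312) (nat_lit 304) (nat_lit 0) (XT.nd (nat_lit 156) (nat_lit 228) (nat_lit 0) (XT.nd (nat_lit 78) (nat_lit 0) (nat_lit 0) (XT.lf (nat_lit 0) (nat_lit 3254114143) (nat_lit 76) (nat_lit 2324065739) (nat_lit 152) (nat_lit 11586998054) (nat_lit 50) (nat_lit 5) (nat_lit 51) (nat_lit 5) (nat_lit 52) (nat_lit 4) (nat_lit 455) (nat_lit 385) (nat_lit 360)) (XT.lf (nat_lit 0) (nat_lit 12064864953) (nat_lit 152) (nat_lit 1502555736) (nat_lit 0) (nat_lit 4117810403) (nat_lit 50) (nat_lit 5) (nat_lit 52) (nat_lit 4) (nat_lit 50) (nat_lit 4) (nat_lit 456) (nat_lit 385) (nat_lit 359))) (XT.nd (nat_lit 78) (nat_lit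 76) (nat_lit 0) (XT.lf (nat_lit 0) (nat_lit 726953797) (nat_lit 152) (nat_lit 6604874240) (nat_lit 76) (nat_lit 10893809200) (nat_lit 48) (nat_lit 5) (nat_lit 50) (nat_lit 5) (nat_lit 49) (nat_lit 4) (nat_lit 457) (nat_lit 385) (nat_lit 358)) (XT.lf (nat_lit 0) (nat_lit 6549931261) (nat_lit 76) (nat_lit 662792920) (nat_lit 152) (nat_lit 11575237141) (nat_lit 47) (nat_lit 5) (nat_lit 48) (nat_lit 5) (nat_lit 49) (nat_lit 4) (nat_lit 458) (nat_lit 385) (nat_lit 357)))) (XT.nd (nat_lit 156) (nat_lit 152) (nat_lit 0) (XT.nd (nat_lit 78) (nat_lit 76) (nat_lit 0) (XT.lf (nat_lit 0) (nat_lit 919367953) (nat_lit 76) (nat_lit 13212719667) (nat_lit 76) (nat_lit 5240851402) (nat_lit 46) (nat_lit 4) (nat_lit 47) (nat_lit 5) (nat_lit 47) (nat_lit 4) (nat_lit 459) (nat_lit 385) (nat_lit 356)) (XT.lf (nat_lit 0) (nat_lit 1469118778) (nat_lit 152) (nat_lit 5081996417) (nat_lit 76) (nat_lit 13429751800) (nat_lit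 45) (nat_lit 5) (nat_lit 47) (nat_lit 5) (nat_lit 46) (nat_lit 4) (nat_lit 460) (nat_lit 385) (nat_lit 355))) (XT.nd (nat_lit 78) (nat_lit 76) (nat_lit 0) (XT.lf (nat_lit 0) (nat_lit 8375103516) (nat_lit 152) (nat_lit 11681630615) (nat_lit 0) (nat_lit 556331583) (nat_lit 44) (nat_lit 5) (nat_lit 46) (nat_lit 4) (nat_lit 44) (nat_lit 4) (nat_lit 461) (nat_lit 385) (nat_lit 354)) (XT.lf (nat_lit 0) (nat_lit 2296175831) (nat_lit 76) (nat_lit 13449374315) (nat_lit 76) (nat_lit 5525368261) (nat_lit 43) (nat_lit 4) (nat_lit 44) (nat_lit 5) (nat_lit 44) (nat_lit 4) (nat_lit 462) (nat_lit 385) (nat_lit 353))))))))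
noncomputable def xc61 : XT := (XT.nd (nat_lit 2418) (nat_lit 988) (nat_lit 0) (XT.nd (nat_lit 1170) (nat_lit 760) (nat_lit 0) (XT.nd (nat_lit 546) (nat_lit 608) (nat_lit 0) (XT.nd (nat_lit 234) (nat_lit 228) (nat_lit 0) (XT.nd (nat_lit 78) (nat_lit 152) (nat_lit 0) (XT.lf (nat_lit 0) (nat_lit 1563798707) (nat_lit 152) (nat_lit 4818441674) (nat_lit 76) (nat_lit 15573752310) (nat_lit 42) (nat_lit 5) (nat_lit 44) (nat_lit 5) (nat_lit 43) (nat_lit 4) (nat_lit 463) (nat_lit 385) (nat_lit 352)) (XT.nd (nat_lit 78) (nat_lit 76) (nat_lit 0) (XT.lf (nat_lit 0) (nat_lit 8891548708) (nat_lit 152) (nat_lit 12617233563) (nat_lit 0) (nat_lit 1158520638) (nat_lit 41) (nat_lit 5) (nat_lit 43) (nat_lit 4) (nat_lit 41) (nat_lit 4) (nat_lit 464) (nat_lit 385) (nat_lit 351)) (XT.lf (nat_lit 0) (nat_lit 2174838633) (nat_lit 76) (nat_lit 14526579810) (nat_lit 76) (nat_lit 6706975368) (nat_lit 40) (nat_lit 4) (nat_lit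 41) (nat_lit 5) (nat_lit 41) (nat_lit 4) (nat_lit 465) (nat_lit 385) (nat_lit 350)))) (XT.nd (nat_lit 156) (nat_lit 76) (nat_lit 0) (XT.nd (nat_lit 78) (nat_lit 76) (nat_lit 0) (XT.lf (nat_lit 0) (nat_lit 803878572) (nat_lit 152) (nat_lit 6254107054) (nat_lit 76) (nat_lit 17122420485) (nat_lit 39) (nat_lit 5) (nat_lit 41) (nat_lit 5) (nat_lit 40) (nat_lit 4) (nat_lit 466) (nat_lit 385) (nat_lit 349)) (XT.lf (nat_lit 0) (nat_lit 8527038629) (nat_lit 152) (nat_lit 15528895274) (nat_lit 0) (nat_lit 926481058) (nat_lit 38) (nat_lit 5) (nat_lit 40) (nat_lit 4) (nat_lit 38) (nat_lit 4) (nat_lit 467) (nat_lit 385) (nat_lit 348))) (XT.nd (nat_lit 78) (nat_lit 0) (nat_lit 0) (XT.lf (nat_lit 0) (nat_lit 29455914) (nat_lit 76) (nat_lit 16730340981) (nat_lit 76) (nat_lit 9058556815) (nat_lit 37) (nat_lit 4) (nat_lit 38) (nat_lit 5) (nat_lit 38) (nat_lit 4) (nat_lit 468) (nat_lit 385) (nat_lit 347)) (XT.lf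 (nat_lit 0) (nat_lit 16709580382) (nat_lit 76) (nat_lit 8858956130) (nat_lit 76) (nat_lit 1119337113) (nat_lit 37) (nat_lit 4) (nat_lit 38) (nat_lit 5) (nat_lit 38) (nat_lit 4) (nat_lit 469) (nat_lit 385) (nat_lit 346))))) (XT.nd (nat_lit 312) (nat_lit 228) (nat_lit 0) (XT.nd (nat_lit 156) (nat_lit 228) (nat_lit 0) (XT.nd (nat_lit 78) (nat_lit 0) (nat_lit 0) (XT.lf (nat_lit 0) (nat_lit 6530035945) (nat_lit 76) (nat_lit 462285802) (nat_lit 152) (nat_lit 20602592187) (nat_lit 35) (nat_lit 5) (nat_lit 36) (nat_lit 5) (nat_lit 37) (nat_lit 4) (nat_lit 470) (nat_lit 385) (nat_lit 345)) (XT.lf (nat_lit 0) (nat_lit 15678848677) (nat_lit 152) (nat_lit 4669539751) (nat_lit 0) (nat_lit 8187656440) (nat_lit 35) (nat_lit 5) (nat_lit 37) (nat_lit 4) (nat_lit 35) (nat_lit 4) (nat_lit 471) (nat_lit 385) (nat_lit 344))) (XT.nd (nat_lit 78) (nat_lit 152) (nat_lit 0) (XT.lf (nat_lit 0) (nat_lit 12766267782) (nat_lit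 76) (nat_lit 12149579300) (nat_lit 76) (nat_lit 4602579162) (nat_lit 34) (nat_lit 4) (nat_lit 35) (nat_lit 5) (nat_lit 35) (nat_lit 4) (nat_lit 472) (nat_lit 385) (nat_lit 343)) (XT.lf (nat_lit 0) (nat_lit 459548685) (nat_lit 76) (nat_lit 3472011902) (nat_lit 152) (nat_lit 26615349532) (nat_lit 32) (nat_lit 5) (nat_lit 33) (nat_lit 5) (nat_lit 34) (nat_lit 4) (nat_lit 473) (nat_lit 385) (nat_lit 342)))) (XT.nd (nat_lit 156) (nat_lit 152) (nat_lit 0) (XT.nd (nat_lit 78) (nat_lit 76) (nat_lit 0) (XT.lf (nat_lit 0) (nat_lit 13023638429) (nat_lit 152) (nat_lit 12847921872) (nat_lit 0) (nat_lit 5737190876) (nat_lit 32) (nat_lit 5) (nat_lit 34) (nat_lit 4) (nat_lit 32) (nat_lit 4) (nat_lit 474) (nat_lit 385) (nat_lit 341)) (XT.lf (nat_lit 0) (nat_lit 5190729203) (nat_lit 76) (nat_lit 17431364113) (nat_lit 76) (nat_lit 10099003262) (nat_lit 31) (nat_lit 4) (nat_lit 32) (nat_lit 5) (nat_lit 32) (nat_lit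 4) (nat_lit 475) (nat_lit 385) (nat_lit 340))) (XT.nd (nat_lit 78) (nat_lit 152) (nat_lit 0) (XT.lf (nat_lit 0) (nat_lit 24408159522) (nat_lit 76) (nat_lit 8425172684) (nat_lit 76) (nat_lit 1049084883) (nat_lit 31) (nat_lit 4) (nat_lit 32) (nat_lit 5) (nat_lit 32) (nat_lit 4) (nat_lit 476) (nat_lit 385) (nat_lit 339)) (XT.lf (nat_lit 0) (nat_lit 8268380504) (nat_lit 152) (nat_lit 25618671063) (nat_lit 0) (nat_lit 1203873346) (nat_lit 29) (nat_lit 5) (nat_lit 31) (nat_lit 4) (nat_lit 29) (nat_lit 4) (nat_lit 477) (nat_lit 385) (nat_lit 338)))))) (XT.nd (nat_lit 624) (nat_lit 304) (nat_lit 0) (XT.nd (nat_lit 312) (nat_lit 228) (nat_lit 0) (XT.nd (nat_lit 156) (nat_lit 152) (nat_lit 0) (XT.nd (nat_lit 78) (nat_lit 76) (nat_lit 0) (XT.lf (nat_lit 0) (nat_lit 18235778580) (nat_lit 152) (nat_lit 6978756208) (nat_lit 0) (nat_lit 11133498437) (nat_lit 29) (nat_lit 5) (nat_lit 31) (nat_lit 4) (nat_lit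 29) (nat_lit 4) (nat_lit 478) (nat_lit 385) (nat_lit 337)) (XT.lf (nat_lit 0) (nat_lit 12848195689) (nat_lit 76) (nat_lit 15975962908) (nat_lit 76) (nat_lit 8837708496) (nat_lit 28) (nat_lit 4) (nat_lit 29) (nat_lit 5) (nat_lit 29) (nat_lit 4) (nat_lit 479) (nat_lit 385) (nat_lit 336))) (XT.nd (nat_lit 78) (nat_lit 76) (nat_lit 0) (XT.lf (nat_lit 0) (nat_lit 913939961) (nat_lit 152) (nat_lit 5298938701) (nat_lit 76) (nat_lit 32825701711) (nat_lit 27) (nat_lit 5) (nat_lit 29) (nat_lit 5) (nat_lit 28) (nat_lit 4) (nat_lit 480) (nat_lit 385) (nat_lit 335)) (XT.lf (nat_lit 0) (nat_lit 11090437101) (nat_lit 152) (nat_lit 25146341360) (nat_lit 0) (nat_lit 4228393914) (nat_lit 26) (nat_lit 5) (nat_lit 28) (nat_lit 4) (nat_lit 26) (nat_lit 4) (nat_lit 481) (nat_lit 385) (nat_lit 334)))) (XT.nd (nat_lit 156) (nat_lit 152) (nat_lit 0) (XT.nd (nat_lit 78) (nat_lit 76) (nat_lit 0) (XT.lf (nat_lit 0) (nat_lit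 21894706158) (nat_lit 152) (nat_lit 5059374227) (nat_lit 0) (nat_lit 15003066850) (nat_lit 26) (nat_lit 5) (nat_lit 28) (nat_lit 4) (nat_lit 26) (nat_lit 4) (nat_lit 482) (nat_lit 385) (nat_lit 333)) (XT.lf (nat_lit 0) (nat_lit 16415529247) (nat_lit 76) (nat_lit 17009366455) (nat_lit 76) (nat_lit 10089540365) (nat_lit 25) (nat_lit 4) (nat_lit 26) (nat_lit 5) (nat_lit 26) (nat_lit 4) (nat_lit 483) (nat_lit 385) (nat_lit 332))) (XT.nd (nat_lit 78) (nat_lit 76) (nat_lit 0) (XT.lf (nat_lit 0) (nat_lit 386325596) (nat_lit 152) (nat_lit 6154703172) (nat_lit 76) (nat_lit 38607435552) (nat_lit 24) (nat_lit 5) (nat_lit 26) (nat_lit 5) (nat_lit 25) (nat_lit 4) (nat_lit 484) (nat_lit 385) (nat_lit 331)) (XT.lf (nat_lit 0) (nat_lit 11305559704) (nat_lit 152) (nat_lit 30872098095) (nat_lit 0) (nat_lit 4665334097) (nat_lit 23) (nat_lit 5) (nat_lit 25) (nat_lit 4) (nat_lit 23) (nat_lit 4) (nat_lit 485) (nat_lit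 385) (nat_lit 330))))) (XT.nd (nat_lit 312) (nat_lit 76) (nat_lit 0) (XT.nd (nat_lit 156) (nat_lit 152) (nat_lit 0) (XT.nd (nat_lit 78) (nat_lit 76) (nat_lit 0) (XT.lf (nat_lit 0) (nat_lit 22916825257) (nat_lit 152) (nat_lit 9444707269) (nat_lit 0) (nat_lit 16253410315) (nat_lit 23) (nat_lit 5) (nat_lit 25) (nat_lit 4) (nat_lit 23) (nat_lit 4) (nat_lit 486) (nat_lit 385) (nat_lit 329)) (XT.lf (nat_lit 0) (nat_lit 13352677039) (nat_lit 76) (nat_lit 21900543232) (nat_lit 76) (nat_lit 15215043208) (nat_lit 22) (nat_lit 4) (nat_lit 23) (nat_lit 5) (nat_lit 23) (nat_lit 4) (nat_lit 487) (nat_lit 385) (nat_lit 328))) (XT.nd (nat_lit 78) (nat_lit 152) (nat_lit 0) (XT.lf (nat_lit 0) (nat_lit 37491160895) (nat_lit 76) (nat_lit 10812383820) (nat_lit 76) (nat_lit 4105850385) (nat_lit 22) (nat_lit 4) (nat_lit 23) (nat_lit 5) (nat_lit 23) (nat_lit 4) (nat_lit 488) (nat_lit 385) (nat_lit 327)) (XT.lf (nat_lit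 0) (nat_lit 7403553160) (nat_lit 152) (nat_lit 46036495296) (nat_lit 0) (nat_lit 997300537) (nat_lit 20) (nat_lit 5) (nat_lit 22) (nat_lit 4) (nat_lit 20) (nat_lit 4) (nat_lit 489) (nat_lit 385) (nat_lit 326)))) (XT.nd (nat_lit 156) (nat_lit 0) (nat_lit 0) (XT.nd (nat_lit 78) (nat_lit 76) (nat_lit 0) (XT.lf (nat_lit 0) (nat_lit 19723717341) (nat_lit 152) (nat_lit 23521659198) (nat_lit 0) (nat_lit 13299295267) (nat_lit 20) (nat_lit 5) (nat_lit 22) (nat_lit 4) (nat_lit 20) (nat_lit 4) (nat_lit 490) (nat_lit 385) (nat_lit 325)) (XT.lf (nat_lit 0) (nat_lit 2118495) (nat_lit 76) (nat_lit 32599930487) (nat_lit 76) (nat_lit 26158204173) (nat_lit 19) (nat_lit 4) (nat_lit 20) (nat_lit 5) (nat_lit 20) (nat_lit 4) (nat_lit 491) (nat_lit 385) (nat_lit 324))) (XT.nd (nat_lit 78) (nat_lit 0) (nat_lit 0) (XT.lf (nat_lit 0) (nat_lit 25403720921) (nat_lit 76) (nat_lit 21062013827) (nat_lit 76) (nat_lit 14603807286)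 (nat_lit 19) (nat_lit 4) (nat_lit 20) (nat_lit 5) (nat_lit 20) (nat_lit 4) (nat_lit 492) (nat_lit 385) (nat_lit 323)) (XT.lf (nat_lit 0) (nat_lit 51965895804) (nat_lit 76) (nat_lit 9002506011) (nat_lit 76) (nat_lit 2528604014) (nat_lit 19) (nat_lit 4) (nat_lit 20) (nat_lit 5) (nat_lit 20) (nat_lit 4) (nat_lit 493) (nat_lit 385) (nat_lit 322))))))) (XT.nd (nat_lit 1170) (nat_lit 380) (nat_lit 0) (XT.nd (nat_lit 546) (nat_lit 228) (nat_lit 0) (XT.nd (nat_lit 234) (nat_lit 228) (nat_lit 0) (XT.nd (nat_lit 78) (nat_lit 0) (nat_lit 0) (XT.lf (nat_lit 0) (nat_lit 10053983155) (nat_lit 152) (nat_lit 52098385278) (nat_lit 0) (nat_lit 3874125966) (nat_lit 17) (nat_lit 5) (nat_lit 19) (nat_lit 4) (nat_lit 17) (nat_lit 4) (nat_lit 494) (nat_lit 385) (nat_lit 321)) (XT.nd (nat_lit 78) (nat_lit 0) (nat_lit 0) (XT.lf (nat_lit 0) (nat_lit 23474368647) (nat_lit 152) (nat_lit 27910380939) (nat_lit 0) (nat_lit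 17280953133) (nat_lit 17) (nat_lit 5) (nat_lit 19) (nat_lit 4) (nat_lit 17) (nat_lit 4) (nat_lit 495) (nat_lit 385) (nat_lit 320)) (XT.lf (nat_lit 0) (nat_lit 37515847939) (nat_lit 152) (nat_lit 2614000321) (nat_lit 0) (nat_lit 31309519736) (nat_lit 17) (nat_lit 5) (nat_lit 19) (nat_lit 4) (nat_lit 17) (nat_lit 4) (nat_lit 496) (nat_lit 385) (nat_lit 319)))) (XT.nd (nat_lit 156) (nat_lit 152) (nat_lit 0) (XT.nd (nat_lit 78) (nat_lit 0) (nat_lit 0) (XT.lf (nat_lit 0) (nat_lit 24639607368) (nat_lit 76) (nat_lit 27956939080) (nat_lit 76) (nat_lit 21738313078) (nat_lit 16) (nat_lit 4) (nat_lit 17) (nat_lit 5) (nat_lit 17) (nat_lit 4) (nat_lit 497) (nat_lit 385) (nat_lit 318)) (XT.lf (nat_lit 0) (nat_lit 53251986183) (nat_lit 76) (nat_lit 15176801253) (nat_lit 76) (nat_lit 8946463060) (nat_lit 16) (nat_lit 4) (nat_lit 17) (nat_lit 5) (nat_lit 17) (nat_lit 4) (nat_lit 498) (nat_lit 385) (nat_lit 317)))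 (XT.nd (nat_lit 78) (nat_lit 0) (nat_lit 0) (XT.lf (nat_lit 0) (nat_lit 2650481118) (nat_lit 76) (nat_lit 1687067066) (nat_lit 152) (nat_lit 76226806093) (nat_lit 14) (nat_lit 5) (nat_lit 15) (nat_lit 5) (nat_lit 16) (nat_lit 4) (nat_lit 499) (nat_lit 385) (nat_lit 316)) (XT.lf (nat_lit 0) (nat_lit 18549909513) (nat_lit 152) (nat_lit 52731916947) (nat_lit 0) (nat_lit 12595513360) (nat_lit 14) (nat_lit 5) (nat_lit 16) (nat_lit 4) (nat_lit 14) (nat_lit 4) (nat_lit 500) (nat_lit 385) (nat_lit 315))))) (XT.nd (nat_lit 312) (nat_lit 152) (nat_lit 0) (XT.nd (nat_lit 156) (nat_lit 0) (nat_lit 0) (XT.nd (nat_lit 78) (nat_lit 76) (nat_lit 0) (XT.lf (nat_lit 0) (nat_lit 33457469072) (nat_lit 152) (nat_lit 26405839489) (nat_lit 0) (nat_lit 27493437270) (nat_lit 14) (nat_lit 5) (nat_lit 16) (nat_lit 4) (nat_lit 14) (nat_lit 4) (nat_lit 501) (nat_lit 385) (nat_lit 314)) (XT.lf (nat_lit 0) (nat_lit 1191516152)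 (nat_lit 76) (nat_lit 47896467957) (nat_lit 76) (nat_lit 41923259348) (nat_lit 13) (nat_lit 4) (nat_lit 14) (nat_lit 5) (nat_lit 14) (nat_lit 4) (nat_lit 502) (nat_lit 385) (nat_lit 313))) (XT.nd (nat_lit 78) (nat_lit 0) (nat_lit 0) (XT.lf (nat_lit 0) (nat_lit 31003670369) (nat_lit 76) (nat_lit 34903200941) (nat_lit 76) (nat_lit 28921252515) (nat_lit 13) (nat_lit 4) (nat_lit 14) (nat_lit 5) (nat_lit 14) (nat_lit 4) (nat_lit 503) (nat_lit 385) (nat_lit 312)) (XT.lf (nat_lit 0) (nat_lit 62228508173) (nat_lit 76) (nat_lit 21299766831) (nat_lit 76) (nat_lit 15309494771) (nat_lit 13) (nat_lit 4) (nat_lit 14) (nat_lit 5) (nat_lit 14) (nat_lit 4) (nat_lit 504) (nat_lit 385) (nat_lit 311)))) (XT.nd (nat_lit 156) (nat_lit 0) (nat_lit 0) (XT.nd (nat_lit 78) (nat_lit 152) (nat_lit 0) (XT.lf (nat_lit 0) (nat_lit 94940374417) (nat_lit 76) (nat_lit 7053776500) (nat_lit 76) (nat_lit 1055577168) (nat_lit 13)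 (nat_lit 4) (nat_lit 14) (nat_lit 5) (nat_lit 14) (nat_lit 4) (nat_lit 505) (nat_lit 385) (nat_lit 310)) (XT.lf (nat_lit 0) (nat_lit 13909666519) (nat_lit 152) (nat_lit 85339659456) (nat_lit 0) (nat_lit 8189905458) (nat_lit 11) (nat_lit 5) (nat_lit 13) (nat_lit 4) (nat_lit 11) (nat_lit 4) (nat_lit 506) (nat_lit 385) (nat_lit 309))) (XT.nd (nat_lit 78) (nat_lit 0) (nat_lit 0) (XT.lf (nat_lit 0) (nat_lit 29807517828) (nat_lit 152) (nat_lit 58147927157) (nat_lit 0) (nat_lit 24080908892) (nat_lit 11) (nat_lit 5) (nat_lit 13) (nat_lit 4) (nat_lit 11) (nat_lit 4) (nat_lit 507) (nat_lit 385) (nat_lit 308)) (XT.lf (nat_lit 0) (nat_lit 46466544401) (nat_lit 152) (nat_lit 29665060360) (nat_lit 0) (nat_lit 40733413679) (nat_lit 11) (nat_lit 5) (nat_lit 13) (nat_lit 4) (nat_lit 11) (nat_lit 4) (nat_lit 508) (nat_lit 385) (nat_lit 307)))))) (XT.nd (nat_lit 624) (nat_lit 152) (nat_lit 0) (XT.nd (nat_lit 312)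 (nat_lit 152) (nat_lit 0) (XT.nd (nat_lit 156) (nat_lit 0) (nat_lit 0) (XT.nd (nat_lit 78) (nat_lit 0) (nat_lit 0) (XT.lf (nat_lit 0) (nat_lit 182601676) (nat_lit 76) (nat_lit 63746659835) (nat_lit 76) (nat_lit 58007317889) (nat_lit 10) (nat_lit 4) (nat_lit 11) (nat_lit 5) (nat_lit 11) (nat_lit 4) (nat_lit 509) (nat_lit 385) (nat_lit 306)) (XT.lf (nat_lit 0) (nat_lit 32488409725) (nat_lit 76) (nat_lit 50247512898) (nat_lit 76) (nat_lit 44502255500) (nat_lit 10) (nat_lit 4) (nat_lit 11) (nat_lit 5) (nat_lit 11) (nat_lit 4) (nat_lit 510) (nat_lit 385) (nat_lit 305))) (XT.nd (nat_lit 78) (nat_lit 0) (nat_lit 0) (XT.lf (nat_lit 0) (nat_lit 66348421509) (nat_lit 76) (nat_lit 36104415276) (nat_lit 76) (nat_lit 30353524113) (nat_lit 10) (nat_lit 4) (nat_lit 11) (nat_lit 5) (nat_lit 11) (nat_lit 4) (nat_lit 511) (nat_lit 385) (nat_lit 304)) (XT.lf (nat_lit 0) (nat_lit 101843256103) (nat_lit 76) (nat_lit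 21283692926) (nat_lit 76) (nat_lit 15527436275) (nat_lit 10) (nat_lit 4) (nat_lit 11) (nat_lit 5) (nat_lit 11) (nat_lit 4) (nat_lit 512) (nat_lit 385) (nat_lit 303)))) (XT.nd (nat_lit 156) (nat_lit 0) (nat_lit 0) (XT.nd (nat_lit 78) (nat_lit 76) (nat_lit 0) (XT.lf (nat_lit 0) (nat_lit 10946291) (nat_lit 152) (nat_lit 5738926743) (nat_lit 76) (nat_lit 139046293346) (nat_lit 9) (nat_lit 5) (nat_lit 11) (nat_lit 5) (nat_lit 10) (nat_lit 4) (nat_lit 513) (nat_lit 385) (nat_lit 302)) (XT.lf (nat_lit 0) (nat_lit 16382359223) (nat_lit 152) (nat_lit 123930344767) (nat_lit 0) (nat_lit 10890708463) (nat_lit 8) (nat_lit 5) (nat_lit 10) (nat_lit 4) (nat_lit 8) (nat_lit 4) (nat_lit 514) (nat_lit 385) (nat_lit 301))) (XT.nd (nat_lit 78) (nat_lit 0) (nat_lit 0) (XT.lf (nat_lit 0) (nat_lit 33738992718) (nat_lit 152) (nat_lit 95940767952) (nat_lit 0) (nat_lit 28242927756) (nat_lit 8) (nat_lit 5) (nat_lit 10)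 (nat_lit 4) (nat_lit 8) (nat_lit 4) (nat_lit 515) (nat_lit 385) (nat_lit 300)) (XT.lf (nat_lit 0) (nat_lit 51938319693) (nat_lit 152) (nat_lit 66602814769) (nat_lit 0) (nat_lit 46438050731) (nat_lit 8) (nat_lit 5) (nat_lit 10) (nat_lit 4) (nat_lit 8) (nat_lit 4) (nat_lit 516) (nat_lit 385) (nat_lit 299))))) (XT.nd (nat_lit 312) (nat_lit 76) (nat_lit 0) (XT.nd (nat_lit 156) (nat_lit 76) (nat_lit 0) (XT.nd (nat_lit 78) (nat_lit 0) (nat_lit 0) (XT.lf (nat_lit 0) (nat_lit 71023671881) (nat_lit 152) (nat_lit 35846632949) (nat_lit 0) (nat_lit 65519399108) (nat_lit 8) (nat_lit 5) (nat_lit 10) (nat_lit 4) (nat_lit 8) (nat_lit 4) (nat_lit 517) (nat_lit 385) (nat_lit 298)) (XT.lf (nat_lit 0) (nat_lit 91040490596) (nat_lit 152) (nat_lit 3598993487) (nat_lit 0) (nat_lit 85532404670) (nat_lit 8) (nat_lit 5) (nat_lit 10) (nat_lit 4) (nat_lit 8) (nat_lit 4) (nat_lit 518) (nat_lit 385) (nat_lit 297))) (XT.nd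 (nat_lit 78) (nat_lit 0) (nat_lit 0) (XT.lf (nat_lit 0) (nat_lit 31215990349) (nat_lit 76) (nat_lit 81307813674) (nat_lit 76) (nat_lit 75796096173) (nat_lit 7) (nat_lit 4) (nat_lit 8) (nat_lit 5) (nat_lit 8) (nat_lit 4) (nat_lit 519) (nat_lit 385) (nat_lit 296)) (XT.lf (nat_lit 0) (nat_lit 67853240071) (nat_lit 76) (nat_lit 67267634393) (nat_lit 76) (nat_lit 61752458250) (nat_lit 7) (nat_lit 4) (nat_lit 8) (nat_lit 5) (nat_lit 8) (nat_lit 4) (nat_lit 520) (nat_lit 385) (nat_lit 295)))) (XT.nd (nat_lit 156) (nat_lit 76) (nat_lit 0) (XT.nd (nat_lit 78) (nat_lit 0) (nat_lit 0) (XT.lf (nat_lit 0) (nat_lit 106280988247) (nat_lit 76) (nat_lit 52546467939) (nat_lit 76) (nat_lit 47027997851) (nat_lit 7) (nat_lit 4) (nat_lit 8) (nat_lit 5) (nat_lit 8) (nat_lit 4) (nat_lit 521) (nat_lit 385) (nat_lit 294)) (XT.lf (nat_lit 0) (nat_lit 146590729516) (nat_lit 76) (nat_lit 37109263917) (nat_lit 76) (nat_lit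 31587656738) (nat_lit 7) (nat_lit 4) (nat_lit 8) (nat_lit 5) (nat_lit 8) (nat_lit 4) (nat_lit 522) (nat_lit 385) (nat_lit 293))) (XT.nd (nat_lit 78) (nat_lit 76) (nat_lit 0) (XT.lf (nat_lit 0) (nat_lit 188878439452) (nat_lit 76) (nat_lit 20919267077) (nat_lit 76) (nat_lit 15394672194) (nat_lit 7) (nat_lit 4) (nat_lit 8) (nat_lit 5) (nat_lit 8) (nat_lit 4) (nat_lit 523) (nat_lit 385) (nat_lit 292)) (XT.lf (nat_lit 0) (nat_lit 1538636244) (nat_lit 152) (nat_lit 2373236016) (nat_lit 76) (nat_lit 231680109285) (nat_lit 6) (nat_lit 5) (nat_lit 8) (nat_lit 5) (nat_lit 7) (nat_lit 4) (nat_lit 524) (nat_lit 385) (nat_lit 291))))))))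
noncomputable def xc62 : XT := (XT.nd (nat_lit 55146) (nat_lit 0) (nat_lit 3192) (XT.nd (nat_lit 1170) (nat_lit 152) (nat_lit 0) (XT.nd (nat_lit 546) (nat_lit 76) (nat_lit 0) (XT.nd (nat_lit 234) (nat_lit 0) (nat_lit 0) (XT.nd (nat_lit 78) (nat_lit 0) (nat_lit 0) (XT.lf (nat_lit 0) (nat_lit 19546450712) (nat_lit 152) (nat_lit 212635594191) (nat_lit 0) (nat_lit 14279640947) (nat_lit 5) (nat_lit 5) (nat_lit 7) (nat_lit 4) (nat_lit 5) (nat_lit 4) (nat_lit 525) (nat_lit 385) (nat_lit 290)) (XT.nd (nat_lit 78) (nat_lit 0) (nat_lit 0) (XT.lf (nat_lit 0) (nat_lit 38542634189) (nat_lit 152) (nat_lit 186054475888) (nat_lit 0) (nat_lit 33273366431) (nat_lit 5) (nat_lit 5) (nat_lit 7) (nat_lit 4) (nat_lit 5) (nat_lit 4) (nat_lit 526) (nat_lit 385) (nat_lit 289)) (XT.lf (nat_lit 0) (nat_lit 58472434883) (nat_lit 152) (nat_lit 158177255280) (nat_lit 0) (nat_lit 53200826180) (nat_lit 5) (nat_lit 5) (nat_lit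 7) (nat_lit 4) (nat_lit 5) (nat_lit 4) (nat_lit 527) (nat_lit 385) (nat_lit 288)))) (XT.nd (nat_lit 156) (nat_lit 0) (nat_lit 0) (XT.nd (nat_lit 78) (nat_lit 0) (nat_lit 0) (XT.lf (nat_lit 0) (nat_lit 79383304703) (nat_lit 152) (nat_lit 128937558032) (nat_lit 0) (nat_lit 74109466528) (nat_lit 5) (nat_lit 5) (nat_lit 7) (nat_lit 4) (nat_lit 5) (nat_lit 4) (nat_lit 528) (nat_lit 385) (nat_lit 287)) (XT.lf (nat_lit 0) (nat_lit 101325031433) (nat_lit 152) (nat_lit 98265765818) (nat_lit 0) (nat_lit 96049069952) (nat_lit 5) (nat_lit 5) (nat_lit 7) (nat_lit 4) (nat_lit 5) (nat_lit 4) (nat_lit 529) (nat_lit 385) (nat_lit 286))) (XT.nd (nat_lit 78) (nat_lit 0) (nat_lit 0) (XT.lf (nat_lit 0) (nat_lit 124349857279) (nat_lit 152) (nat_lit 66088850559) (nat_lit 0) (nat_lit 119071873602) (nat_lit 5) (nat_lit 5) (nat_lit 7) (nat_lit 4) (nat_lit 5) (nat_lit 4) (nat_lit 530) (nat_lit 385) (nat_lit 285)) (XT.lf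 (nat_lit 0) (nat_lit 148512603256) (nat_lit 152) (nat_lit 32330200555) (nat_lit 0) (nat_lit 143232693677) (nat_lit 5) (nat_lit 5) (nat_lit 7) (nat_lit 4) (nat_lit 5) (nat_lit 4) (nat_lit 531) (nat_lit 385) (nat_lit 284))))) (XT.nd (nat_lit 312) (nat_lit 0) (nat_lit 0) (XT.nd (nat_lit 156) (nat_lit 0) (nat_lit 0) (XT.nd (nat_lit 78) (nat_lit 0) (nat_lit 0) (XT.lf (nat_lit 0) (nat_lit 3192749868) (nat_lit 76) (nat_lit 170727897615) (nat_lit 76) (nat_lit 165446153844) (nat_lit 4) (nat_lit 4) (nat_lit 5) (nat_lit 5) (nat_lit 5) (nat_lit 4) (nat_lit 532) (nat_lit 385) (nat_lit 283)) (XT.lf (nat_lit 0) (nat_lit 41588875810) (nat_lit 76) (nat_lit 159545266396) (nat_lit 76) (nat_lit 154261775776) (nat_lit 4) (nat_lit 4) (nat_lit 5) (nat_lit 5) (nat_lit 5) (nat_lit 4) (nat_lit 533) (nat_lit 385) (nat_lit 282))) (XT.nd (nat_lit 78) (nat_lit 0) (nat_lit 0) (XT.lf (nat_lit 0) (nat_lit 81880614178) (nat_lit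 76) (nat_lit 147815812432) (nat_lit 76) (nat_lit 142530658146) (nat_lit 4) (nat_lit 4) (nat_lit 5) (nat_lit 5) (nat_lit 5) (nat_lit 4) (nat_lit 534) (nat_lit 385) (nat_lit 281)) (XT.lf (nat_lit 0) (nat_lit 124163897683) (nat_lit 76) (nat_lit 135511608452) (nat_lit 76) (nat_lit 130224869722) (nat_lit 4) (nat_lit 4) (nat_lit 5) (nat_lit 5) (nat_lit 5) (nat_lit 4) (nat_lit 535) (nat_lit 385) (nat_lit 280)))) (XT.nd (nat_lit 156) (nat_lit 0) (nat_lit 0) (XT.nd (nat_lit 78) (nat_lit 0) (nat_lit 0) (XT.lf (nat_lit 0) (nat_lit 168539400810) (nat_lit 76) (nat_lit 122603358731) (nat_lit 76) (nat_lit 117315111007) (nat_lit 4) (nat_lit 4) (nat_lit 5) (nat_lit 5) (nat_lit 5) (nat_lit 4) (nat_lit 536) (nat_lit 385) (nat_lit 279)) (XT.lf (nat_lit 0) (nat_lit 215112779518) (nat_lit 76) (nat_lit 109060329342) (nat_lit 76) (nat_lit 103770644481) (nat_lit 4) (nat_lit 4) (nat_lit 5) (nat_lit 5) (nat_lit 5) (nat_lit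 4) (nat_lit 537) (nat_lit 385) (nat_lit 278))) (XT.nd (nat_lit 78) (nat_lit 0) (nat_lit 0) (XT.lf (nat_lit 0) (nat_lit 263994922805) (nat_lit 76) (nat_lit 94850274977) (nat_lit 76) (nat_lit 89559221413) (nat_lit 4) (nat_lit 4) (nat_lit 5) (nat_lit 5) (nat_lit 5) (nat_lit 4) (nat_lit 538) (nat_lit 385) (nat_lit 277)) (XT.lf (nat_lit 0) (nat_lit 315302216726) (nat_lit 76) (nat_lit 79939362173) (nat_lit 76) (nat_lit 74647005083) (nat_lit 4) (nat_lit 4) (nat_lit 5) (nat_lit 5) (nat_lit 5) (nat_lit 4) (nat_lit 539) (nat_lit 385) (nat_lit 276)))))) (XT.nd (nat_lit 624) (nat_lit 0) (nat_lit 0) (XT.nd (nat_lit 312) (nat_lit 152) (nat_lit 0) (XT.nd (nat_lit 156) (nat_lit 0) (nat_lit 0) (XT.nd (nat_lit 78) (nat_lit 0) (nat_lit 0) (XT.lf (nat_lit 0) (nat_lit 369156821505) (nat_lit 76) (nat_lit 64292088756) (nat_lit 76) (nat_lit 58998490213) (nat_lit 4) (nat_lit 4) (nat_lit 5) (nat_lit 5) (nat_lit 5) (nat_lit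 4) (nat_lit 540) (nat_lit 385) (nat_lit 275)) (XT.lf (nat_lit 0) (nat_lit 425686962390) (nat_lit 76) (nat_lit 47871199314) (nat_lit 76) (nat_lit 42576418435) (nat_lit 4) (nat_lit 4) (nat_lit 5) (nat_lit 5) (nat_lit 5) (nat_lit 4) (nat_lit 541) (nat_lit 385) (nat_lit 274))) (XT.nd (nat_lit 78) (nat_lit 0) (nat_lit 0) (XT.lf (nat_lit 0) (nat_lit 485027234956) (nat_lit 76) (nat_lit 30637596491) (nat_lit 76) (nat_lit 25341689577) (nat_lit 4) (nat_lit 4) (nat_lit 5) (nat_lit 5) (nat_lit 5) (nat_lit 4) (nat_lit 542) (nat_lit 385) (nat_lit 273)) (XT.lf (nat_lit 0) (nat_lit 547318925566) (nat_lit 76) (nat_lit 12550247899) (nat_lit 76) (nat_lit 7253268572) (nat_lit 4) (nat_lit 4) (nat_lit 5) (nat_lit 5) (nat_lit 5) (nat_lit 4) (nat_lit 543) (nat_lit 385) (nat_lit 272)))) (XT.nd (nat_lit 156) (nat_lit 0) (nat_lit 0) (XT.nd (nat_lit 78) (nat_lit 0) (nat_lit 0) (XT.lf (nat_lit 0) (nat_lit 11754669572) (nat_lit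 152) (nat_lit 576051828733) (nat_lit 0) (nat_lit 6708954644) (nat_lit 2) (nat_lit 5) (nat_lit 4) (nat_lit 4) (nat_lit 2) (nat_lit 4) (nat_lit 544) (nat_lit 385) (nat_lit 271)) (XT.lf (nat_lit 0) (nat_lit 32008456374) (nat_lit 152) (nat_lit 564274937241) (nat_lit 0) (nat_lit 26961815054) (nat_lit 2) (nat_lit 5) (nat_lit 4) (nat_lit 4) (nat_lit 2) (nat_lit 4) (nat_lit 545) (nat_lit 385) (nat_lit 270))) (XT.nd (nat_lit 78) (nat_lit 0) (nat_lit 0) (XT.lf (nat_lit 0) (nat_lit 53267872673) (nat_lit 152) (nat_lit 551923583436) (nat_lit 0) (nat_lit 48220349075) (nat_lit 2) (nat_lit 5) (nat_lit 4) (nat_lit 4) (nat_lit 2) (nat_lit 4) (nat_lit 546) (nat_lit 385) (nat_lit 269)) (XT.lf (nat_lit 0) (nat_lit 75583536127) (nat_lit 152) (nat_lit 538968359334) (nat_lit 0) (nat_lit 70535172265) (nat_lit 2) (nat_lit 5) (nat_lit 4) (nat_lit 4) (nat_lit 2) (nat_lit 4) (nat_lit 547) (nat_lit 385) (nat_lit 268)))))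 (XT.nd (nat_lit 312) (nat_lit 0) (nat_lit 0) (XT.nd (nat_lit 156) (nat_lit 0) (nat_lit 0) (XT.nd (nat_lit 78) (nat_lit 0) (nat_lit 0) (XT.lf (nat_lit 0) (nat_lit 99008579268) (nat_lit 152) (nat_lit 525378419162) (nat_lit 0) (nat_lit 93959415155) (nat_lit 2) (nat_lit 5) (nat_lit 4) (nat_lit 4) (nat_lit 2) (nat_lit 4) (nat_lit 548) (nat_lit 385) (nat_lit 267)) (XT.lf (nat_lit 0) (nat_lit 123598776009) (nat_lit 152) (nat_lit 511121405920) (nat_lit 0) (nat_lit 118548849751) (nat_lit 2) (nat_lit 5) (nat_lit 4) (nat_lit 4) (nat_lit 2) (nat_lit 4) (nat_lit 549) (nat_lit 385) (nat_lit 266))) (XT.nd (nat_lit 78) (nat_lit 0) (nat_lit 0) (XT.lf (nat_lit 0) (nat_lit 149412674438) (nat_lit 152) (nat_lit 496163374338) (nat_lit 0) (nat_lit 144362022328) (nat_lit 2) (nat_lit 5) (nat_lit 4) (nat_lit 4) (nat_lit 2) (nat_lit 4) (nat_lit 550) (nat_lit 385) (nat_lit 265)) (XT.lf (nat_lit 0) (nat_lit 176511736216)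 (nat_lit 152) (nat_lit 480468710057) (nat_lit 0) (nat_lit 171460392818) (nat_lit 2) (nat_lit 5) (nat_lit 4) (nat_lit 4) (nat_lit 2) (nat_lit 4) (nat_lit 551) (nat_lit 385) (nat_lit 264)))) (XT.nd (nat_lit 52884) (nat_lit 0) (nat_lit 7296) (XT.nd (nat_lit 52806) (nat_lit 0) (nat_lit 7828) (XT.lf (nat_lit 0) (nat_lit 204960482920) (nat_lit 152) (nat_lit 464000044826) (nat_lit 0) (nat_lit 199908481153) (nat_lit 2) (nat_lit 5) (nat_lit 4) (nat_lit 4) (nat_lit 2) (nat_lit 4) (nat_lit 552) (nat_lit 385) (nat_lit 263)) (XT.lf (nat_lit 0) (nat_lit 4284807700) (nat_lit 228) (nat_lit 43008895) (nat_lit 228) (nat_lit 43008895) (nat_lit 105) (nat_lit 4) (nat_lit 108) (nat_lit 5) (nat_lit 108) (nat_lit 4) (nat_lit 428) (nat_lit 386) (nat_lit 386))) (XT.nd (nat_lit 78) (nat_lit 228) (nat_lit 0) (XT.lf (nat_lit 0) (nat_lit 4251105583) (nat_lit 304) (nat_lit 1354965526) (nat_lit 0) (nat_lit 3305576194) (nat_lit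 101) (nat_lit 5) (nat_lit 105) (nat_lit 4) (nat_lit 101) (nat_lit 4) (nat_lit 429) (nat_lit 386) (nat_lit 385)) (XT.lf (nat_lit 0) (nat_lit 6542171038) (nat_lit 228) (nat_lit 2198514733) (nat_lit 228) (nat_lit 352481164) (nat_lit 98) (nat_lit 4) (nat_lit 101) (nat_lit 5) (nat_lit 101) (nat_lit 4) (nat_lit 430) (nat_lit 386) (nat_lit 384))))))) (XT.nd (nat_lit 1170) (nat_lit 1596) (nat_lit 0) (XT.nd (nat_lit 546) (nat_lit 1140) (nat_lit 0) (XT.nd (nat_lit 234) (nat_lit 684) (nat_lit 0) (XT.nd (nat_lit 78) (nat_lit 456) (nat_lit 0) (XT.lf (nat_lit 0) (nat_lit 4002386787) (nat_lit 228) (nat_lit 3852415736) (nat_lit 0) (nat_lit 1427475741) (nat_lit 95) (nat_lit 5) (nat_lit 98) (nat_lit 4) (nat_lit 95) (nat_lit 4) (nat_lit 431) (nat_lit 386) (nat_lit 383)) (XT.nd (nat_lit 78) (nat_lit 228) (nat_lit 0) (XT.lf (nat_lit 0) (nat_lit 4257053067) (nat_lit 228) (nat_lit 4288597366) (nat_lit 228) (nat_lit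 935796952) (nat_lit 92) (nat_lit 4) (nat_lit 95) (nat_lit 5) (nat_lit 95) (nat_lit 4) (nat_lit 432) (nat_lit 386) (nat_lit 382)) (XT.lf (nat_lit 0) (nat_lit 2999173445) (nat_lit 152) (nat_lit 460739177) (nat_lit 228) (nat_lit 6230324228) (nat_lit 89) (nat_lit 5) (nat_lit 91) (nat_lit 5) (nat_lit 92) (nat_lit 4) (nat_lit 433) (nat_lit 386) (nat_lit 381)))) (XT.nd (nat_lit 156) (nat_lit 228) (nat_lit 0) (XT.nd (nat_lit 78) (nat_lit 228) (nat_lit 0) (XT.lf (nat_lit 0) (nat_lit 1630179810) (nat_lit 228) (nat_lit 6424343249) (nat_lit 228) (nat_lit 1853661325) (nat_lit 86) (nat_lit 4) (nat_lit 89) (nat_lit 5) (nat_lit 89) (nat_lit 4) (nat_lit 434) (nat_lit 386) (nat_lit 380)) (XT.lf (nat_lit 0) (nat_lit 160342414) (nat_lit 152) (nat_lit 2459655559) (nat_lit 228) (nat_lit 7516607552) (nat_lit 83) (nat_lit 5) (nat_lit 85) (nat_lit 5) (nat_lit 86) (nat_lit 4) (nat_lit 435) (nat_lit 386) (nat_lit 379)))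 (XT.nd (nat_lit 78) (nat_lit 228) (nat_lit 0) (XT.lf (nat_lit 0) (nat_lit 7266816157) (nat_lit 228) (nat_lit 1383719535) (nat_lit 0) (nat_lit 1723816054) (nat_lit 83) (nat_lit 5) (nat_lit 86) (nat_lit 4) (nat_lit 83) (nat_lit 4) (nat_lit 436) (nat_lit 386) (nat_lit 378)) (XT.lf (nat_lit 0) (nat_lit 1482425323) (nat_lit 228) (nat_lit 3056859641) (nat_lit 76) (nat_lit 6083065619) (nat_lit 80) (nat_lit 5) (nat_lit 83) (nat_lit 5) (nat_lit 81) (nat_lit 4) (nat_lit 437) (nat_lit 386) (nat_lit 377))))) (XT.nd (nat_lit 312) (nat_lit 456) (nat_lit 0) (XT.nd (nat_lit 156) (nat_lit 380) (nat_lit 0) (XT.nd (nat_lit 78) (nat_lit 152) (nat_lit 0) (XT.lf (nat_lit 0) (nat_lit 6018553658) (nat_lit 152) (nat_lit 147734808) (nat_lit 228) (nat_lit 4715482188) (nat_lit 78) (nat_lit 5) (nat_lit 80) (nat_lit 5) (nat_lit 81) (nat_lit 4) (nat_lit 438) (nat_lit 386) (nat_lit 376)) (XT.lf (nat_lit 0) (nat_lit 4316895441)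 (nat_lit 152) (nat_lit 6809850478) (nat_lit 152) (nat_lit 25305601) (nat_lit 76) (nat_lit 4) (nat_lit 78) (nat_lit 5) (nat_lit 78) (nat_lit 4) (nat_lit 439) (nat_lit 386) (nat_lit 375))) (XT.nd (nat_lit 78) (nat_lit 152) (nat_lit 0) (XT.lf (nat_lit 0) (nat_lit 2437058648) (nat_lit 152) (nat_lit 2283145901) (nat_lit 228) (nat_lit 6712944387) (nat_lit 73) (nat_lit 5) (nat_lit 75) (nat_lit 5) (nat_lit 76) (nat_lit 4) (nat_lit 440) (nat_lit 386) (nat_lit 374)) (XT.lf (nat_lit 0) (nat_lit 404512459) (nat_lit 152) (nat_lit 9315033393) (nat_lit 152) (nat_lit 2007872834) (nat_lit 71) (nat_lit 4) (nat_lit 73) (nat_lit 5) (nat_lit 73) (nat_lit 4) (nat_lit 441) (nat_lit 386) (nat_lit 373)))) (XT.nd (nat_lit 156) (nat_lit 304) (nat_lit 0) (XT.nd (nat_lit 78) (nat_lit 76) (nat_lit 0) (XT.lf (nat_lit 0) (nat_lit 2886401280) (nat_lit 228) (nat_lit 1782924925) (nat_lit 76) (nat_lit 7362403955) (nat_lit 70) (nat_lit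 5) (nat_lit 73) (nat_lit 5) (nat_lit 71) (nat_lit 4) (nat_lit 442) (nat_lit 386) (nat_lit 372)) (XT.lf (nat_lit 0) (nat_lit 7952907747) (nat_lit 152) (nat_lit 4133792153) (nat_lit 0) (nat_lit 263169045) (nat_lit 69) (nat_lit 5) (nat_lit 71) (nat_lit 4) (nat_lit 69) (nat_lit 4) (nat_lit 443) (nat_lit 386) (nat_lit 371))) (XT.nd (nat_lit 78) (nat_lit 76) (nat_lit 0) (XT.lf (nat_lit 0) (nat_lit 634937378) (nat_lit 228) (nat_lit 6727507630) (nat_lit 76) (nat_lit 5317768735) (nat_lit 66) (nat_lit 5) (nat_lit 69) (nat_lit 5) (nat_lit 67) (nat_lit 4) (nat_lit 444) (nat_lit 386) (nat_lit 370)) (XT.lf (nat_lit 0) (nat_lit 3455395158) (nat_lit 76) (nat_lit 2304484604) (nat_lit 152) (nat_lit 7264137522) (nat_lit 65) (nat_lit 5) (nat_lit 66) (nat_lit 5) (nat_lit 67) (nat_lit 4) (nat_lit 445) (nat_lit 386) (nat_lit 369)))))) (XT.nd (nat_lit 624) (nat_lit 684) (nat_lit 0) (XT.nd (nat_lit 312) (nat_lit 456)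 (nat_lit 0) (XT.nd (nat_lit 156) (nat_lit 228) (nat_lit 0) (XT.nd (nat_lit 78) (nat_lit 76) (nat_lit 0) (XT.lf (nat_lit 0) (nat_lit 729788910) (nat_lit 152) (nat_lit 10450535359) (nat_lit 152) (nat_lit 2202730031) (nat_lit 63) (nat_lit 4) (nat_lit 65) (nat_lit 5) (nat_lit 65) (nat_lit 4) (nat_lit 446) (nat_lit 386) (nat_lit 368)) (XT.lf (nat_lit 0) (nat_lit 3080221876) (nat_lit 228) (nat_lit 2212567930) (nat_lit 76) (nat_lit 8461426218) (nat_lit 62) (nat_lit 5) (nat_lit 65) (nat_lit 5) (nat_lit 63) (nat_lit 4) (nat_lit 447) (nat_lit 386) (nat_lit 367))) (XT.nd (nat_lit 78) (nat_lit 152) (nat_lit 0) (XT.lf (nat_lit 0) (nat_lit 8565116019) (nat_lit 152) (nat_lit 5385544995) (nat_lit 0) (nat_lit 190883487) (nat_lit 61) (nat_lit 5) (nat_lit 63) (nat_lit 4) (nat_lit 61) (nat_lit 4) (nat_lit 448) (nat_lit 386) (nat_lit 366)) (XT.lf (nat_lit 0) (nat_lit 5661251068) (nat_lit 152) (nat_lit 8749060761)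 (nat_lit 152) (nat_lit 133629699) (nat_lit 59) (nat_lit 4) (nat_lit 61) (nat_lit 5) (nat_lit 61) (nat_lit 4) (nat_lit 449) (nat_lit 386) (nat_lit 365)))) (XT.nd (nat_lit 156) (nat_lit 304) (nat_lit 0) (XT.nd (nat_lit 78) (nat_lit 0) (nat_lit 0) (XT.lf (nat_lit 0) (nat_lit 2231862913) (nat_lit 76) (nat_lit 3171555068) (nat_lit 152) (nat_lit 9558650658) (nat_lit 57) (nat_lit 5) (nat_lit 58) (nat_lit 5) (nat_lit 59) (nat_lit 4) (nat_lit 450) (nat_lit 386) (nat_lit 364)) (XT.lf (nat_lit 0) (nat_lit 11281559422) (nat_lit 152) (nat_lit 1466744393) (nat_lit 0) (nat_lit 2649256444) (nat_lit 57) (nat_lit 5) (nat_lit 59) (nat_lit 4) (nat_lit 57) (nat_lit 4) (nat_lit 451) (nat_lit 386) (nat_lit 363))) (XT.nd (nat_lit 78) (nat_lit 76) (nat_lit 0) (XT.lf (nat_lit 0) (nat_lit 1643682638) (nat_lit 228) (nat_lit 5461188196) (nat_lit 76) (nat_lit 8743907844) (nat_lit 54) (nat_lit 5) (nat_lit 57) (nat_lit 5) (nat_lit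 55) (nat_lit 4) (nat_lit 452) (nat_lit 386) (nat_lit 362)) (XT.lf (nat_lit 0) (nat_lit 6477536836) (nat_lit 76) (nat_lit 1082102091) (nat_lit 152) (nat_lit 8759218369) (nat_lit 53) (nat_lit 5) (nat_lit 54) (nat_lit 5) (nat_lit 55) (nat_lit 4) (nat_lit 453) (nat_lit 386) (nat_lit 361))))) (XT.nd (nat_lit 312) (nat_lit 380) (nat_lit 0) (XT.nd (nat_lit 156) (nat_lit 152) (nat_lit 0) (XT.nd (nat_lit 78) (nat_lit 76) (nat_lit 0) (XT.lf (nat_lit 0) (nat_lit 2153818676) (nat_lit 76) (nat_lit 11707868811) (nat_lit 76) (nat_lit 2946241169) (nat_lit 52) (nat_lit 4) (nat_lit 53) (nat_lit 5) (nat_lit 53) (nat_lit 4) (nat_lit 454) (nat_lit 386) (nat_lit 360)) (XT.lf (nat_lit 0) (nat_lit 3124562998) (nat_lit 152) (nat_lit 2519526154) (nat_lit 76) (nat_lit 11671491152) (nat_lit 51) (nat_lit 5) (nat_lit 53) (nat_lit 5) (nat_lit 52) (nat_lit 4) (nat_lit 455) (nat_lit 386) (nat_lit 359))) (XT.nd (nat_lit 78) (nat_lit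 76) (nat_lit 0) (XT.lf (nat_lit 0) (nat_lit 9460355860) (nat_lit 152) (nat_lit 7570428815) (nat_lit 0) (nat_lit 812394884) (nat_lit 50) (nat_lit 5) (nat_lit 52) (nat_lit 4) (nat_lit 50) (nat_lit 4) (nat_lit 456) (nat_lit 386) (nat_lit 358)) (XT.lf (nat_lit 0) (nat_lit 5255367465) (nat_lit 76) (nat_lit 10962759770) (nat_lit 76) (nat_lit 2173775008) (nat_lit 49) (nat_lit 4) (nat_lit 50) (nat_lit 5) (nat_lit 50) (nat_lit 4) (nat_lit 457) (nat_lit 386) (nat_lit 357)))) (XT.nd (nat_lit 156) (nat_lit 228) (nat_lit 0) (XT.nd (nat_lit 78) (nat_lit 76) (nat_lit 0) (XT.lf (nat_lit 0) (nat_lit 4224412269) (nat_lit 152) (nat_lit 263247977) (nat_lit 76) (nat_lit 14476122179) (nat_lit 48) (nat_lit 5) (nat_lit 50) (nat_lit 5) (nat_lit 49) (nat_lit 4) (nat_lit 458) (nat_lit 386) (nat_lit 356)) (XT.lf (nat_lit 0) (nat_lit 11010699360) (nat_lit 152) (nat_lit 6154212504) (nat_lit 0) (nat_lit 2390503303) (nat_lit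 47) (nat_lit 5) (nat_lit 49) (nat_lit 4) (nat_lit 47) (nat_lit 4) (nat_lit 459) (nat_lit 386) (nat_lit 355))) (XT.nd (nat_lit 78) (nat_lit 152) (nat_lit 0) (XT.lf (nat_lit 0) (nat_lit 7542369733) (nat_lit 76) (nat_lit 10683012407) (nat_lit 76) (nat_lit 1946795733) (nat_lit 46) (nat_lit 4) (nat_lit 47) (nat_lit 5) (nat_lit 47) (nat_lit 4) (nat_lit 460) (nat_lit 386) (nat_lit 354)) (XT.lf (nat_lit 0) (nat_lit 1070471067) (nat_lit 76) (nat_lit 3767179453) (nat_lit 152) (nat_lit 15977439284) (nat_lit 44) (nat_lit 5) (nat_lit 45) (nat_lit 5) (nat_lit 46) (nat_lit 4) (nat_lit 461) (nat_lit 386) (nat_lit 353))))))))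
noncomputable def xc63 : XT := (XT.nd (nat_lit 2418) (nat_lit 912) (nat_lit 0) (XT.nd (nat_lit 1170) (nat_lit 912) (nat_lit 0) (XT.nd (nat_lit 546) (nat_lit 532) (nat_lit 0) (XT.nd (nat_lit 234) (nat_lit 228) (nat_lit 0) (XT.nd (nat_lit 78) (nat_lit 228) (nat_lit 0) (XT.lf (nat_lit 0) (nat_lit 12061603353) (nat_lit 152) (nat_lit 5882724938) (nat_lit 0) (nat_lit 3535939904) (nat_lit 44) (nat_lit 5) (nat_lit 46) (nat_lit 4) (nat_lit 44) (nat_lit 4) (nat_lit 462) (nat_lit 386) (nat_lit 352)) (XT.nd (nat_lit 78) (nat_lit 152) (nat_lit 0) (XT.lf (nat_lit 0) (nat_lit 8691020424) (nat_lit 76) (nat_lit 11051993960) (nat_lit 76) (nat_lit 2430880063) (nat_lit 43) (nat_lit 4) (nat_lit 44) (nat_lit 5) (nat_lit 44) (nat_lit 4) (nat_lit 463) (nat_lit 386) (nat_lit 351)) (XT.lf (nat_lit 0) (nat_lit 1058297637) (nat_lit 76) (nat_lit 3707710520) (nat_lit 152) (nat_lit 18131528277) (nat_lit 41) (nat_lit 5) (nat_lit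 42) (nat_lit 5) (nat_lit 43) (nat_lit 4) (nat_lit 464) (nat_lit 386) (nat_lit 350)))) (XT.nd (nat_lit 156) (nat_lit 152) (nat_lit 0) (XT.nd (nat_lit 78) (nat_lit 76) (nat_lit 0) (XT.lf (nat_lit 0) (nat_lit 12434887138) (nat_lit 152) (nat_lit 7155518149) (nat_lit 0) (nat_lit 4055272416) (nat_lit 41) (nat_lit 5) (nat_lit 43) (nat_lit 4) (nat_lit 41) (nat_lit 4) (nat_lit 465) (nat_lit 386) (nat_lit 349)) (XT.lf (nat_lit 0) (nat_lit 8277890284) (nat_lit 76) (nat_lit 12303388002) (nat_lit 76) (nat_lit 3845245960) (nat_lit 40) (nat_lit 4) (nat_lit 41) (nat_lit 5) (nat_lit 41) (nat_lit 4) (nat_lit 466) (nat_lit 386) (nat_lit 348))) (XT.nd (nat_lit 78) (nat_lit 76) (nat_lit 0) (XT.lf (nat_lit 0) (nat_lit 3791455081) (nat_lit 152) (nat_lit 760447049) (nat_lit 76) (nat_lit 20690109979) (nat_lit 39) (nat_lit 5) (nat_lit 41) (nat_lit 5) (nat_lit 40) (nat_lit 4) (nat_lit 467) (nat_lit 386) (nat_lit 347))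 (XT.lf (nat_lit 0) (nat_lit 11893586399) (nat_lit 152) (nat_lit 10491744911) (nat_lit 0) (nat_lit 3699151579) (nat_lit 38) (nat_lit 5) (nat_lit 40) (nat_lit 4) (nat_lit 38) (nat_lit 4) (nat_lit 468) (nat_lit 386) (nat_lit 346))))) (XT.nd (nat_lit 312) (nat_lit 228) (nat_lit 0) (XT.nd (nat_lit 156) (nat_lit 152) (nat_lit 0) (XT.nd (nat_lit 78) (nat_lit 76) (nat_lit 0) (XT.lf (nat_lit 0) (nat_lit 5750756174) (nat_lit 76) (nat_lit 14736519616) (nat_lit 76) (nat_lit 6477480174) (nat_lit 37) (nat_lit 4) (nat_lit 38) (nat_lit 5) (nat_lit 38) (nat_lit 4) (nat_lit 469) (nat_lit 386) (nat_lit 345)) (XT.lf (nat_lit 0) (nat_lit 1659358231) (nat_lit 152) (nat_lit 4918883277) (nat_lit 76) (nat_lit 21305053862) (nat_lit 36) (nat_lit 5) (nat_lit 38) (nat_lit 5) (nat_lit 37) (nat_lit 4) (nat_lit 470) (nat_lit 386) (nat_lit 344))) (XT.nd (nat_lit 78) (nat_lit 76) (nat_lit 0) (XT.lf (nat_lit 0) (nat_lit 10125491963)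 (nat_lit 152) (nat_lit 16564620644) (nat_lit 0) (nat_lit 2145333918) (nat_lit 35) (nat_lit 5) (nat_lit 37) (nat_lit 4) (nat_lit 35) (nat_lit 4) (nat_lit 471) (nat_lit 386) (nat_lit 343)) (XT.lf (nat_lit 0) (nat_lit 391339806) (nat_lit 76) (nat_lit 18735782725) (nat_lit 76) (nat_lit 10702474297) (nat_lit 34) (nat_lit 4) (nat_lit 35) (nat_lit 5) (nat_lit 35) (nat_lit 4) (nat_lit 472) (nat_lit 386) (nat_lit 342)))) (XT.nd (nat_lit 156) (nat_lit 76) (nat_lit 0) (XT.nd (nat_lit 78) (nat_lit 152) (nat_lit 0) (XT.lf (nat_lit 0) (nat_lit 18601221573) (nat_lit 76) (nat_lit 10173191516) (nat_lit 76) (nat_lit 2089263677) (nat_lit 34) (nat_lit 4) (nat_lit 35) (nat_lit 5) (nat_lit 35) (nat_lit 4) (nat_lit 473) (nat_lit 386) (nat_lit 341)) (XT.lf (nat_lit 0) (nat_lit 5681770934) (nat_lit 76) (nat_lit 1056720643) (nat_lit 152) (nat_lit 25205217276) (nat_lit 32) (nat_lit 5) (nat_lit 33) (nat_lit 5) (nat_lit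 34) (nat_lit 4) (nat_lit 474) (nat_lit 386) (nat_lit 340))) (XT.nd (nat_lit 78) (nat_lit 76) (nat_lit 0) (XT.lf (nat_lit 0) (nat_lit 16199365892) (nat_lit 152) (nat_lit 8452821082) (nat_lit 0) (nat_lit 8410746750) (nat_lit 32) (nat_lit 5) (nat_lit 34) (nat_lit 4) (nat_lit 32) (nat_lit 4) (nat_lit 475) (nat_lit 386) (nat_lit 339)) (XT.lf (nat_lit 0) (nat_lit 10406512598) (nat_lit 76) (nat_lit 15828395376) (nat_lit 76) (nat_lit 7998131519) (nat_lit 31) (nat_lit 4) (nat_lit 32) (nat_lit 5) (nat_lit 32) (nat_lit 4) (nat_lit 476) (nat_lit 386) (nat_lit 338)))))) (XT.nd (nat_lit 624) (nat_lit 456) (nat_lit 0) (XT.nd (nat_lit 312) (nat_lit 228) (nat_lit 0) (XT.nd (nat_lit 156) (nat_lit 76) (nat_lit 0) (XT.nd (nat_lit 78) (nat_lit 76) (nat_lit 0) (XT.lf (nat_lit 0) (nat_lit 1336021129) (nat_lit 152) (nat_lit 5131082174) (nat_lit 76) (nat_lit 28990155380) (nat_lit 30) (nat_lit 5) (nat_lit 32) (nat_lit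 5) (nat_lit 31) (nat_lit 4) (nat_lit 477) (nat_lit 386) (nat_lit 337)) (XT.lf (nat_lit 0) (nat_lit 11080292373) (nat_lit 152) (nat_lit 22096080357) (nat_lit 0) (nat_lit 3549150969) (nat_lit 29) (nat_lit 5) (nat_lit 31) (nat_lit 4) (nat_lit 29) (nat_lit 4) (nat_lit 478) (nat_lit 386) (nat_lit 336))) (XT.nd (nat_lit 78) (nat_lit 76) (nat_lit 0) (XT.lf (nat_lit 0) (nat_lit 21431846407) (nat_lit 152) (nat_lit 2752909009) (nat_lit 0) (nat_lit 13866443793) (nat_lit 29) (nat_lit 5) (nat_lit 31) (nat_lit 4) (nat_lit 29) (nat_lit 4) (nat_lit 479) (nat_lit 386) (nat_lit 335)) (XT.lf (nat_lit 0) (nat_lit 17991603627) (nat_lit 76) (nat_lit 14519539807) (nat_lit 76) (nat_lit 6921507470) (nat_lit 28) (nat_lit 4) (nat_lit 29) (nat_lit 5) (nat_lit 29) (nat_lit 4) (nat_lit 480) (nat_lit 386) (nat_lit 334)))) (XT.nd (nat_lit 156) (nat_lit 76) (nat_lit 0) (XT.nd (nat_lit 78) (nat_lit 76) (nat_lit 0) (XT.lf (nat_lit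 0) (nat_lit 3133554062) (nat_lit 152) (nat_lit 1205322437) (nat_lit 76) (nat_lit 36542918266) (nat_lit 27) (nat_lit 5) (nat_lit 29) (nat_lit 5) (nat_lit 28) (nat_lit 4) (nat_lit 481) (nat_lit 386) (nat_lit 333)) (XT.lf (nat_lit 0) (nat_lit 13815889819) (nat_lit 152) (nat_lit 22042091111) (nat_lit 0) (nat_lit 6521885642) (nat_lit 26) (nat_lit 5) (nat_lit 28) (nat_lit 4) (nat_lit 26) (nat_lit 4) (nat_lit 482) (nat_lit 386) (nat_lit 332))) (XT.nd (nat_lit 78) (nat_lit 76) (nat_lit 0) (XT.lf (nat_lit 0) (nat_lit 25056994669) (nat_lit 152) (nat_lit 1158469303) (nat_lit 0) (nat_lit 17736145937) (nat_lit 26) (nat_lit 5) (nat_lit 28) (nat_lit 4) (nat_lit 26) (nat_lit 4) (nat_lit 483) (nat_lit 386) (nat_lit 331)) (XT.lf (nat_lit 0) (nat_lit 21323181383) (nat_lit 76) (nat_lit 15805864975) (nat_lit 76) (nat_lit 8459450001) (nat_lit 25) (nat_lit 4) (nat_lit 26) (nat_lit 5) (nat_lit 26) (nat_lit 4) (nat_lit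 484) (nat_lit 386) (nat_lit 330))))) (XT.nd (nat_lit 312) (nat_lit 228) (nat_lit 0) (XT.nd (nat_lit 156) (nat_lit 76) (nat_lit 0) (XT.nd (nat_lit 78) (nat_lit 76) (nat_lit 0) (XT.lf (nat_lit 0) (nat_lit 2373497013) (nat_lit 152) (nat_lit 2505094897) (nat_lit 76) (nat_lit 42428888160) (nat_lit 24) (nat_lit 5) (nat_lit 26) (nat_lit 5) (nat_lit 25) (nat_lit 4) (nat_lit 485) (nat_lit 386) (nat_lit 329)) (XT.lf (nat_lit 0) (nat_lit 13836353030) (nat_lit 152) (nat_lit 28456005761) (nat_lit 0) (nat_lit 6794492924) (nat_lit 23) (nat_lit 5) (nat_lit 25) (nat_lit 4) (nat_lit 23) (nat_lit 4) (nat_lit 486) (nat_lit 386) (nat_lit 328))) (XT.nd (nat_lit 78) (nat_lit 76) (nat_lit 0) (XT.lf (nat_lit 0) (nat_lit 25934585892) (nat_lit 152) (nat_lit 6145802405) (nat_lit 0) (nat_lit 18871692375) (nat_lit 23) (nat_lit 5) (nat_lit 25) (nat_lit 4) (nat_lit 23) (nat_lit 4) (nat_lit 487) (nat_lit 386) (nat_lit 327))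 (XT.lf (nat_lit 0) (nat_lit 17730626276) (nat_lit 76) (nat_lit 21125963784) (nat_lit 76) (nat_lit 14043038448) (nat_lit 22) (nat_lit 4) (nat_lit 23) (nat_lit 5) (nat_lit 23) (nat_lit 4) (nat_lit 488) (nat_lit 386) (nat_lit 326)))) (XT.nd (nat_lit 156) (nat_lit 76) (nat_lit 0) (XT.nd (nat_lit 78) (nat_lit 152) (nat_lit 0) (XT.lf (nat_lit 0) (nat_lit 42899352640) (nat_lit 76) (nat_lit 9572425288) (nat_lit 76) (nat_lit 2470422027) (nat_lit 22) (nat_lit 4) (nat_lit 23) (nat_lit 5) (nat_lit 23) (nat_lit 4) (nat_lit 489) (nat_lit 386) (nat_lit 325)) (XT.lf (nat_lit 0) (nat_lit 9553703840) (nat_lit 152) (nat_lit 44743916004) (nat_lit 0) (nat_lit 2772586972) (nat_lit 20) (nat_lit 5) (nat_lit 22) (nat_lit 4) (nat_lit 20) (nat_lit 4) (nat_lit 490) (nat_lit 386) (nat_lit 324))) (XT.nd (nat_lit 78) (nat_lit 76) (nat_lit 0) (XT.lf (nat_lit 0) (nat_lit 22405115610) (nat_lit 152) (nat_lit 21274500198) (nat_lit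 0) (nat_lit 15607518514) (nat_lit 20) (nat_lit 5) (nat_lit 22) (nat_lit 4) (nat_lit 20) (nat_lit 4) (nat_lit 491) (nat_lit 386) (nat_lit 323)) (XT.lf (nat_lit 0) (nat_lit 3370252799) (nat_lit 76) (nat_lit 32528970995) (nat_lit 76) (nat_lit 25715678444) (nat_lit 19) (nat_lit 4) (nat_lit 20) (nat_lit 5) (nat_lit 20) (nat_lit 4) (nat_lit 492) (nat_lit 386) (nat_lit 322))))))) (XT.nd (nat_lit 1248) (nat_lit 304) (nat_lit 0) (XT.nd (nat_lit 624) (nat_lit 228) (nat_lit 0) (XT.nd (nat_lit 312) (nat_lit 228) (nat_lit 0) (XT.nd (nat_lit 156) (nat_lit 152) (nat_lit 0) (XT.nd (nat_lit 78) (nat_lit 0) (nat_lit 0) (XT.lf (nat_lit 0) (nat_lit 29881553042) (nat_lit 76) (nat_lit 20495156408) (nat_lit 76) (nat_lit 13666915805) (nat_lit 19) (nat_lit 4) (nat_lit 20) (nat_lit 5) (nat_lit 20) (nat_lit 4) (nat_lit 493) (nat_lit 386) (nat_lit 321)) (XT.lf (nat_lit 0) (nat_lit 57619091619) (nat_lit 76) (nat_lit 7909814063)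 (nat_lit 76) (nat_lit 1067337220) (nat_lit 19) (nat_lit 4) (nat_lit 20) (nat_lit 5) (nat_lit 20) (nat_lit 4) (nat_lit 494) (nat_lit 386) (nat_lit 320))) (XT.nd (nat_lit 78) (nat_lit 0) (nat_lit 0) (XT.lf (nat_lit 0) (nat_lit 12092195059) (nat_lit 152) (nat_lit 51596202477) (nat_lit 0) (nat_lit 5562637756) (nat_lit 17) (nat_lit 5) (nat_lit 19) (nat_lit 4) (nat_lit 17) (nat_lit 4) (nat_lit 495) (nat_lit 386) (nat_lit 319)) (XT.lf (nat_lit 0) (nat_lit 26110480170) (nat_lit 152) (nat_lit 26346755163) (nat_lit 0) (nat_lit 19568625067) (nat_lit 17) (nat_lit 5) (nat_lit 19) (nat_lit 4) (nat_lit 17) (nat_lit 4) (nat_lit 496) (nat_lit 386) (nat_lit 318)))) (XT.nd (nat_lit 156) (nat_lit 152) (nat_lit 0) (XT.nd (nat_lit 78) (nat_lit 0) (nat_lit 0) (XT.lf (nat_lit 0) (nat_lit 75964155) (nat_lit 76) (nat_lit 40709617518) (nat_lit 76) (nat_lit 34156050225) (nat_lit 16) (nat_lit 4) (nat_lit 17) (nat_lit 5)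 (nat_lit 17) (nat_lit 4) (nat_lit 497) (nat_lit 386) (nat_lit 317)) (XT.lf (nat_lit 0) (nat_lit 28644365528) (nat_lit 76) (nat_lit 27951732717) (nat_lit 76) (nat_lit 21387010958) (nat_lit 16) (nat_lit 4) (nat_lit 17) (nat_lit 5) (nat_lit 17) (nat_lit 4) (nat_lit 498) (nat_lit 386) (nat_lit 316))) (XT.nd (nat_lit 78) (nat_lit 152) (nat_lit 0) (XT.lf (nat_lit 0) (nat_lit 58555326246) (nat_lit 76) (nat_lit 14599400061) (nat_lit 76) (nat_lit 8024055000) (nat_lit 16) (nat_lit 4) (nat_lit 17) (nat_lit 5) (nat_lit 17) (nat_lit 4) (nat_lit 499) (nat_lit 386) (nat_lit 315)) (XT.lf (nat_lit 0) (nat_lit 5424292506) (nat_lit 76) (nat_lit 434124565) (nat_lit 152) (nat_lit 78668949233) (nat_lit 14) (nat_lit 5) (nat_lit 15) (nat_lit 5) (nat_lit 16) (nat_lit 4) (nat_lit 500) (nat_lit 386) (nat_lit 314))))) (XT.nd (nat_lit 312) (nat_lit 152) (nat_lit 0) (XT.nd (nat_lit 156) (nat_lit 76) (nat_lit 0) (XT.nd (nat_lit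 78) (nat_lit 0) (nat_lit 0) (XT.lf (nat_lit 0) (nat_lit 20739186336) (nat_lit 152) (nat_lit 52810785097) (nat_lit 0) (nat_lit 14458140489) (nat_lit 14) (nat_lit 5) (nat_lit 16) (nat_lit 4) (nat_lit 14) (nat_lit 4) (nat_lit 501) (nat_lit 386) (nat_lit 313)) (XT.lf (nat_lit 0) (nat_lit 36332039047) (nat_lit 152) (nat_lit 25290200324) (nat_lit 0) (nat_lit 30042253383) (nat_lit 14) (nat_lit 5) (nat_lit 16) (nat_lit 4) (nat_lit 14) (nat_lit 4) (nat_lit 502) (nat_lit 386) (nat_lit 312))) (XT.nd (nat_lit 78) (nat_lit 0) (nat_lit 0) (XT.lf (nat_lit 0) (nat_lit 3647733888) (nat_lit 76) (nat_lit 49076540601) (nat_lit 76) (nat_lit 42778431303) (nat_lit 13) (nat_lit 4) (nat_lit 14) (nat_lit 5) (nat_lit 14) (nat_lit 4) (nat_lit 503) (nat_lit 386) (nat_lit 311)) (XT.lf (nat_lit 0) (nat_lit 34836370009) (nat_lit 76) (nat_lit 35491455508) (nat_lit 76) (nat_lit 29185418938) (nat_lit 13) (nat_lit 4) (nat_lit 14)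 (nat_lit 5) (nat_lit 14) (nat_lit 4) (nat_lit 504) (nat_lit 386) (nat_lit 310)))) (XT.nd (nat_lit 156) (nat_lit 152) (nat_lit 0) (XT.nd (nat_lit 78) (nat_lit 0) (nat_lit 0) (XT.lf (nat_lit 0) (nat_lit 67513758460) (nat_lit 76) (nat_lit 21262940430) (nat_lit 76) (nat_lit 14949354078) (nat_lit 13) (nat_lit 4) (nat_lit 14) (nat_lit 5) (nat_lit 14) (nat_lit 4) (nat_lit 505) (nat_lit 386) (nat_lit 309)) (XT.lf (nat_lit 0) (nat_lit 101757702546) (nat_lit 76) (nat_lit 6357117951) (nat_lit 76) (nat_lit 36341330) (nat_lit 13) (nat_lit 4) (nat_lit 14) (nat_lit 5) (nat_lit 14) (nat_lit 4) (nat_lit 506) (nat_lit 386) (nat_lit 308))) (XT.nd (nat_lit 78) (nat_lit 0) (nat_lit 0) (XT.lf (nat_lit 0) (nat_lit 15642162428) (nat_lit 152) (nat_lit 87501322427) (nat_lit 0) (nat_lit 9615853384) (nat_lit 11) (nat_lit 5) (nat_lit 13) (nat_lit 4) (nat_lit 11) (nat_lit 4) (nat_lit 507) (nat_lit 386) (nat_lit 307)) (XT.lf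 (nat_lit 0) (nat_lit 32285524750) (nat_lit 152) (nat_lit 59050256846) (nat_lit 0) (nat_lit 26253004482) (nat_lit 11) (nat_lit 5) (nat_lit 13) (nat_lit 4) (nat_lit 11) (nat_lit 4) (nat_lit 508) (nat_lit 386) (nat_lit 306)))))) (XT.nd (nat_lit 624) (nat_lit 76) (nat_lit 0) (XT.nd (nat_lit 312) (nat_lit 152) (nat_lit 0) (XT.nd (nat_lit 156) (nat_lit 0) (nat_lit 0) (XT.nd (nat_lit 78) (nat_lit 76) (nat_lit 0) (XT.lf (nat_lit 0) (nat_lit 49730472603) (nat_lit 152) (nat_lit 29238726075) (nat_lit 0) (nat_lit 43692036883) (nat_lit 11) (nat_lit 5) (nat_lit 13) (nat_lit 4) (nat_lit 11) (nat_lit 4) (nat_lit 509) (nat_lit 386) (nat_lit 305)) (XT.lf (nat_lit 0) (nat_lit 2070519268) (nat_lit 76) (nat_lit 65980348916) (nat_lit 76) (nat_lit 59936279432) (nat_lit 10) (nat_lit 4) (nat_lit 11) (nat_lit 5) (nat_lit 11) (nat_lit 4) (nat_lit 510) (nat_lit 386) (nat_lit 304))) (XT.nd (nat_lit 78) (nat_lit 0) (nat_lit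 0) (XT.lf (nat_lit 0) (nat_lit 35902151648) (nat_lit 76) (nat_lit 51851656247) (nat_lit 76) (nat_lit 45802221274) (nat_lit 10) (nat_lit 4) (nat_lit 11) (nat_lit 5) (nat_lit 11) (nat_lit 4) (nat_lit 511) (nat_lit 386) (nat_lit 303)) (XT.lf (nat_lit 0) (nat_lit 71369958238) (nat_lit 76) (nat_lit 37044652901) (nat_lit 76) (nat_lit 30990107937) (nat_lit 10) (nat_lit 4) (nat_lit 11) (nat_lit 5) (nat_lit 11) (nat_lit 4) (nat_lit 512) (nat_lit 386) (nat_lit 302)))) (XT.nd (nat_lit 156) (nat_lit 76) (nat_lit 0) (XT.nd (nat_lit 78) (nat_lit 76) (nat_lit 0) (XT.lf (nat_lit 0) (nat_lit 108558386197) (nat_lit 76) (nat_lit 21524084107) (nat_lit 76) (nat_lit 15464672487) (nat_lit 10) (nat_lit 4) (nat_lit 11) (nat_lit 5) (nat_lit 11) (nat_lit 4) (nat_lit 513) (nat_lit 386) (nat_lit 301)) (XT.lf (nat_lit 0) (nat_lit 785091722) (nat_lit 152) (nat_lit 4454608500) (nat_lit 76) (nat_lit 146757591772) (nat_lit 9)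 (nat_lit 5) (nat_lit 11) (nat_lit 5) (nat_lit 10) (nat_lit 4) (nat_lit 514) (nat_lit 386) (nat_lit 300))) (XT.nd (nat_lit 78) (nat_lit 0) (nat_lit 0) (XT.lf (nat_lit 0) (nat_lit 17974629909) (nat_lit 152) (nat_lit 128555149368) (nat_lit 0) (nat_lit 12195143497) (nat_lit 8) (nat_lit 5) (nat_lit 10) (nat_lit 4) (nat_lit 8) (nat_lit 4) (nat_lit 515) (nat_lit 386) (nat_lit 299)) (XT.lf (nat_lit 0) (nat_lit 36162278282) (nat_lit 152) (nat_lit 99240937171) (nat_lit 0) (nat_lit 30378788059) (nat_lit 8) (nat_lit 5) (nat_lit 10) (nat_lit 4) (nat_lit 8) (nat_lit 4) (nat_lit 516) (nat_lit 386) (nat_lit 298))))) (XT.nd (nat_lit 312) (nat_lit 0) (nat_lit 0) (XT.nd (nat_lit 156) (nat_lit 76) (nat_lit 0) (XT.nd (nat_lit 78) (nat_lit 0) (nat_lit 0) (XT.lf (nat_lit 0) (nat_lit 55236507990) (nat_lit 152) (nat_lit 68507365814) (nat_lit 0) (nat_lit 49449204615) (nat_lit 8) (nat_lit 5) (nat_lit 10) (nat_lit 4) (nat_lit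 8) (nat_lit 4) (nat_lit 517) (nat_lit 386) (nat_lit 297)) (XT.lf (nat_lit 0) (nat_lit 75242733868) (nat_lit 152) (nat_lit 36281260126) (nat_lit 0) (nat_lit 69451798918) (nat_lit 8) (nat_lit 5) (nat_lit 10) (nat_lit 4) (nat_lit 8) (nat_lit 4) (nat_lit 518) (nat_lit 386) (nat_lit 296))) (XT.nd (nat_lit 78) (nat_lit 76) (nat_lit 0) (XT.lf (nat_lit 0) (nat_lit 96228589786) (nat_lit 152) (nat_lit 2485891285) (nat_lit 0) (nat_lit 90434196194) (nat_lit 8) (nat_lit 5) (nat_lit 10) (nat_lit 4) (nat_lit 8) (nat_lit 4) (nat_lit 519) (nat_lit 386) (nat_lit 295)) (XT.lf (nat_lit 0) (nat_lit 34048986067) (nat_lit 76) (nat_lit 84726656094) (nat_lit 76) (nat_lit 78928968557) (nat_lit 7) (nat_lit 4) (nat_lit 8) (nat_lit 5) (nat_lit 8) (nat_lit 4) (nat_lit 520) (nat_lit 386) (nat_lit 294)))) (XT.nd (nat_lit 156) (nat_lit 0) (nat_lit 0) (XT.nd (nat_lit 78) (nat_lit 0) (nat_lit 0) (XT.lf (nat_lit 0) (nat_lit 72457517504)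 (nat_lit 76) (nat_lit 70015255862) (nat_lit 76) (nat_lit 64214431234) (nat_lit 7) (nat_lit 4) (nat_lit 8) (nat_lit 5) (nat_lit 8) (nat_lit 4) (nat_lit 521) (nat_lit 386) (nat_lit 293)) (XT.lf (nat_lit 0) (nat_lit 112748957116) (nat_lit 76) (nat_lit 54587353002) (nat_lit 76) (nat_lit 48783540669) (nat_lit 7) (nat_lit 4) (nat_lit 8) (nat_lit 5) (nat_lit 8) (nat_lit 4) (nat_lit 522) (nat_lit 386) (nat_lit 292))) (XT.nd (nat_lit 78) (nat_lit 0) (nat_lit 0) (XT.lf (nat_lit 0) (nat_lit 155019236903) (nat_lit 76) (nat_lit 38406214414) (nat_lit 76) (nat_lit 32599556647) (nat_lit 7) (nat_lit 4) (nat_lit 8) (nat_lit 5) (nat_lit 8) (nat_lit 4) (nat_lit 523) (nat_lit 386) (nat_lit 291)) (XT.lf (nat_lit 0) (nat_lit 199369000388) (nat_lit 76) (nat_lit 21433313575) (nat_lit 76) (nat_lit 15623945872) (nat_lit 7) (nat_lit 4) (nat_lit 8) (nat_lit 5) (nat_lit 8) (nat_lit 4) (nat_lit 524) (nat_lit 386) (nat_lit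 290))))))))
noncomputable def xc64 : XT := (XT.nd (nat_lit 54990) (nat_lit 0) (nat_lit 3420) (XT.nd (nat_lit 1170) (nat_lit 152) (nat_lit 0) (XT.nd (nat_lit 546) (nat_lit 76) (nat_lit 0) (XT.nd (nat_lit 234) (nat_lit 0) (nat_lit 0) (XT.nd (nat_lit 78) (nat_lit 76) (nat_lit 0) (XT.lf (nat_lit 0) (nat_lit 2113817426) (nat_lit 152) (nat_lit 1478622871) (nat_lit 76) (nat_lit 243754226298) (nat_lit 6) (nat_lit 5) (nat_lit 8) (nat_lit 5) (nat_lit 7) (nat_lit 4) (nat_lit 525) (nat_lit 386) (nat_lit 289)) (XT.nd (nat_lit 78) (nat_lit 0) (nat_lit 0) (XT.lf (nat_lit 0) (nat_lit 21021774607) (nat_lit 152) (nat_lit 222253849459) (nat_lit 0) (nat_lit 15484244524) (nat_lit 5) (nat_lit 5) (nat_lit 7) (nat_lit 4) (nat_lit 5) (nat_lit 4) (nat_lit 526) (nat_lit 386) (nat_lit 288)) (XT.lf (nat_lit 0) (nat_lit 40944052907) (nat_lit 152) (nat_lit 194391938310) (nat_lit 0) (nat_lit 35404293352) (nat_lit 5) (nat_lit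 5) (nat_lit 7) (nat_lit 4) (nat_lit 5) (nat_lit 4) (nat_lit 527) (nat_lit 386) (nat_lit 287)))) (XT.nd (nat_lit 156) (nat_lit 0) (nat_lit 0) (XT.nd (nat_lit 78) (nat_lit 0) (nat_lit 0) (XT.lf (nat_lit 0) (nat_lit 61847758541) (nat_lit 152) (nat_lit 165166821499) (nat_lit 0) (nat_lit 56305875679) (nat_lit 5) (nat_lit 5) (nat_lit 7) (nat_lit 4) (nat_lit 5) (nat_lit 4) (nat_lit 528) (nat_lit 386) (nat_lit 286)) (XT.lf (nat_lit 0) (nat_lit 83782662237) (nat_lit 152) (nat_lit 134508915414) (nat_lit 0) (nat_lit 78238757179) (nat_lit 5) (nat_lit 5) (nat_lit 7) (nat_lit 4) (nat_lit 5) (nat_lit 4) (nat_lit 529) (nat_lit 386) (nat_lit 285))) (XT.nd (nat_lit 78) (nat_lit 0) (nat_lit 0) (XT.lf (nat_lit 0) (nat_lit 106800989955) (nat_lit 152) (nat_lit 102345225042) (nat_lit 0) (nat_lit 101255158996) (nat_lit 5) (nat_lit 5) (nat_lit 7) (nat_lit 4) (nat_lit 5) (nat_lit 4) (nat_lit 530) (nat_lit 386) (nat_lit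 284)) (XT.lf (nat_lit 0) (nat_lit 130957547239) (nat_lit 152) (nat_lit 68599170167) (nat_lit 0) (nat_lit 125409882088) (nat_lit 5) (nat_lit 5) (nat_lit 7) (nat_lit 4) (nat_lit 5) (nat_lit 4) (nat_lit 531) (nat_lit 386) (nat_lit 283))))) (XT.nd (nat_lit 312) (nat_lit 0) (nat_lit 0) (XT.nd (nat_lit 156) (nat_lit 0) (nat_lit 0) (XT.nd (nat_lit 78) (nat_lit 76) (nat_lit 0) (XT.lf (nat_lit 0) (nat_lit 156309849701) (nat_lit 152) (nat_lit 33190403039) (nat_lit 0) (nat_lit 150760437700) (nat_lit 5) (nat_lit 5) (nat_lit 7) (nat_lit 4) (nat_lit 5) (nat_lit 4) (nat_lit 532) (nat_lit 386) (nat_lit 282)) (XT.lf (nat_lit 0) (nat_lit 4096496396) (nat_lit 76) (nat_lit 178885721357) (nat_lit 76) (nat_lit 173334645691) (nat_lit 4) (nat_lit 4) (nat_lit 5) (nat_lit 5) (nat_lit 5) (nat_lit 4) (nat_lit 533) (nat_lit 386) (nat_lit 281))) (XT.nd (nat_lit 78) (nat_lit 0) (nat_lit 0) (XT.lf (nat_lit 0) (nat_lit 44376994871)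 (nat_lit 76) (nat_lit 167161985775) (nat_lit 76) (nat_lit 161609325664) (nat_lit 4) (nat_lit 4) (nat_lit 5) (nat_lit 5) (nat_lit 5) (nat_lit 4) (nat_lit 534) (nat_lit 386) (nat_lit 280)) (XT.lf (nat_lit 0) (nat_lit 86649573716) (nat_lit 76) (nat_lit 154863227872) (nat_lit 76) (nat_lit 149309058767) (nat_lit 4) (nat_lit 4) (nat_lit 5) (nat_lit 5) (nat_lit 5) (nat_lit 4) (nat_lit 535) (nat_lit 386) (nat_lit 279)))) (XT.nd (nat_lit 156) (nat_lit 0) (nat_lit 0) (XT.nd (nat_lit 78) (nat_lit 0) (nat_lit 0) (XT.lf (nat_lit 0) (nat_lit 131014881929) (nat_lit 76) (nat_lit 141960164891) (nat_lit 76) (nat_lit 136404558649) (nat_lit 4) (nat_lit 4) (nat_lit 5) (nat_lit 5) (nat_lit 5) (nat_lit 4) (nat_lit 536) (nat_lit 386) (nat_lit 278)) (XT.lf (nat_lit 0) (nat_lit 177578551195) (nat_lit 76) (nat_lit 128422075255) (nat_lit 76) (nat_lit 122865100311) (nat_lit 4) (nat_lit 4) (nat_lit 5) (nat_lit 5) (nat_lit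 5) (nat_lit 4) (nat_lit 537) (nat_lit 386) (nat_lit 277))) (XT.nd (nat_lit 78) (nat_lit 0) (nat_lit 0) (XT.lf (nat_lit 0) (nat_lit 226451447394) (nat_lit 76) (nat_lit 114216725416) (nat_lit 76) (nat_lit 108658446946) (nat_lit 4) (nat_lit 4) (nat_lit 5) (nat_lit 5) (nat_lit 5) (nat_lit 4) (nat_lit 538) (nat_lit 386) (nat_lit 276)) (XT.lf (nat_lit 0) (nat_lit 277749934564) (nat_lit 76) (nat_lit 99310293113) (nat_lit 76) (nat_lit 93750773190) (nat_lit 4) (nat_lit 4) (nat_lit 5) (nat_lit 5) (nat_lit 5) (nat_lit 4) (nat_lit 539) (nat_lit 386) (nat_lit 275)))))) (XT.nd (nat_lit 624) (nat_lit 0) (nat_lit 0) (XT.nd (nat_lit 312) (nat_lit 152) (nat_lit 0) (XT.nd (nat_lit 156) (nat_lit 0) (nat_lit 0) (XT.nd (nat_lit 78) (nat_lit 0) (nat_lit 0) (XT.lf (nat_lit 0) (nat_lit 331596151961) (nat_lit 76) (nat_lit 83667286841) (nat_lit 76) (nat_lit 78106584581) (nat_lit 4) (nat_lit 4) (nat_lit 5) (nat_lit 5) (nat_lit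 5) (nat_lit 4) (nat_lit 540) (nat_lit 386) (nat_lit 274)) (XT.lf (nat_lit 0) (nat_lit 388118304864) (nat_lit 76) (nat_lit 67250461346) (nat_lit 76) (nat_lit 61688633052) (nat_lit 4) (nat_lit 4) (nat_lit 5) (nat_lit 5) (nat_lit 5) (nat_lit 4) (nat_lit 541) (nat_lit 386) (nat_lit 273))) (XT.nd (nat_lit 78) (nat_lit 0) (nat_lit 0) (XT.lf (nat_lit 0) (nat_lit 447450969828) (nat_lit 76) (nat_lit 50020728948) (nat_lit 76) (nat_lit 44457828240) (nat_lit 4) (nat_lit 4) (nat_lit 5) (nat_lit 5) (nat_lit 5) (nat_lit 4) (nat_lit 542) (nat_lit 386) (nat_lit 272)) (XT.lf (nat_lit 0) (nat_lit 509735415102) (nat_lit 76) (nat_lit 31937066476) (nat_lit 76) (nat_lit 26373144421) (nat_lit 4) (nat_lit 4) (nat_lit 5) (nat_lit 5) (nat_lit 5) (nat_lit 4) (nat_lit 543) (nat_lit 386) (nat_lit 271)))) (XT.nd (nat_lit 156) (nat_lit 0) (nat_lit 0) (XT.nd (nat_lit 78) (nat_lit 152) (nat_lit 0) (XT.lf (nat_lit 0) (nat_lit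 575119936985) (nat_lit 76) (nat_lit 12956417590) (nat_lit 76) (nat_lit 7391522824) (nat_lit 4) (nat_lit 4) (nat_lit 5) (nat_lit 5) (nat_lit 5) (nat_lit 4) (nat_lit 544) (nat_lit 386) (nat_lit 270)) (XT.lf (nat_lit 0) (nat_lit 12559536259) (nat_lit 152) (nat_lit 604412077914) (nat_lit 0) (nat_lit 7258754205) (nat_lit 2) (nat_lit 5) (nat_lit 4) (nat_lit 4) (nat_lit 2) (nat_lit 4) (nat_lit 545) (nat_lit 386) (nat_lit 269))) (XT.nd (nat_lit 78) (nat_lit 0) (nat_lit 0) (XT.lf (nat_lit 0) (nat_lit 33815672724) (nat_lit 152) (nat_lit 592067405764) (nat_lit 0) (nat_lit 28514050405) (nat_lit 2) (nat_lit 5) (nat_lit 4) (nat_lit 4) (nat_lit 2) (nat_lit 4) (nat_lit 546) (nat_lit 386) (nat_lit 268)) (XT.lf (nat_lit 0) (nat_lit 56128212527) (nat_lit 152) (nat_lit 579118545142) (nat_lit 0) (nat_lit 50825789956) (nat_lit 2) (nat_lit 5) (nat_lit 4) (nat_lit 4) (nat_lit 2) (nat_lit 4) (nat_lit 547) (nat_lit 386)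 (nat_lit 267))))) (XT.nd (nat_lit 312) (nat_lit 0) (nat_lit 0) (XT.nd (nat_lit 156) (nat_lit 0) (nat_lit 0) (XT.nd (nat_lit 78) (nat_lit 0) (nat_lit 0) (XT.lf (nat_lit 0) (nat_lit 79550280762) (nat_lit 152) (nat_lit 565534665428) (nat_lit 0) (nat_lit 74247096047) (nat_lit 2) (nat_lit 5) (nat_lit 4) (nat_lit 4) (nat_lit 2) (nat_lit 4) (nat_lit 548) (nat_lit 386) (nat_lit 266)) (XT.lf (nat_lit 0) (nat_lit 104137644260) (nat_lit 152) (nat_lit 551283424051) (nat_lit 0) (nat_lit 98833733692) (nat_lit 2) (nat_lit 5) (nat_lit 4) (nat_lit 4) (nat_lit 2) (nat_lit 4) (nat_lit 549) (nat_lit 386) (nat_lit 265))) (XT.nd (nat_lit 78) (nat_lit 0) (nat_lit 0) (XT.lf (nat_lit 0) (nat_lit 129948844360) (nat_lit 152) (nat_lit 536330889483) (nat_lit 0) (nat_lit 124644242505) (nat_lit 2) (nat_lit 5) (nat_lit 4) (nat_lit 4) (nat_lit 2) (nat_lit 4) (nat_lit 550) (nat_lit 386) (nat_lit 264)) (XT.lf (nat_lit 0) (nat_lit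 157045336303) (nat_lit 152) (nat_lit 520641460453) (nat_lit 0) (nat_lit 151740076078) (nat_lit 2) (nat_lit 5) (nat_lit 4) (nat_lit 4) (nat_lit 2) (nat_lit 4) (nat_lit 551) (nat_lit 386) (nat_lit 263)))) (XT.nd (nat_lit 52728) (nat_lit 0) (nat_lit 7752) (XT.nd (nat_lit 52650) (nat_lit 0) (nat_lit 8056) (XT.lf (nat_lit 0) (nat_lit 185491635544) (nat_lit 152) (nat_lit 504177781176) (nat_lit 0) (nat_lit 180185748301) (nat_lit 2) (nat_lit 5) (nat_lit 4) (nat_lit 4) (nat_lit 2) (nat_lit 4) (nat_lit 552) (nat_lit 386) (nat_lit 262)) (XT.lf (nat_lit 0) (nat_lit 535413243) (nat_lit 304) (nat_lit 3138262569) (nat_lit 0) (nat_lit 535413243) (nat_lit 108) (nat_lit 5) (nat_lit 112) (nat_lit 4) (nat_lit 108) (nat_lit 4) (nat_lit 426) (nat_lit 387) (nat_lit 387))) (XT.nd (nat_lit 78) (nat_lit 76) (nat_lit 0) (XT.lf (nat_lit 0) (nat_lit 920003220) (nat_lit 228) (nat_lit 4349448554) (nat_lit 228) (nat_lit 3307002402)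 (nat_lit 105) (nat_lit 4) (nat_lit 108) (nat_lit 5) (nat_lit 108) (nat_lit 4) (nat_lit 427) (nat_lit 387) (nat_lit 386)) (XT.lf (nat_lit 0) (nat_lit 842341774) (nat_lit 304) (nat_lit 308451372) (nat_lit 76) (nat_lit 7594294467) (nat_lit 104) (nat_lit 5) (nat_lit 108) (nat_lit 5) (nat_lit 105) (nat_lit 4) (nat_lit 428) (nat_lit 387) (nat_lit 385))))))) (XT.nd (nat_lit 1170) (nat_lit 1672) (nat_lit 0) (XT.nd (nat_lit 546) (nat_lit 1216) (nat_lit 0) (XT.nd (nat_lit 234) (nat_lit 760) (nat_lit 0) (XT.nd (nat_lit 78) (nat_lit 456) (nat_lit 0) (XT.lf (nat_lit 0) (nat_lit 5075889828) (nat_lit 304) (nat_lit 1607126728) (nat_lit 0) (nat_lit 2237050400) (nat_lit 101) (nat_lit 5) (nat_lit 105) (nat_lit 4) (nat_lit 101) (nat_lit 4) (nat_lit 429) (nat_lit 387) (nat_lit 384)) (XT.nd (nat_lit 78) (nat_lit 152) (nat_lit 0) (XT.lf (nat_lit 0) (nat_lit 363635185) (nat_lit 304) (nat_lit 2951010327) (nat_lit 76)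 (nat_lit 5790857221) (nat_lit 97) (nat_lit 5) (nat_lit 101) (nat_lit 5) (nat_lit 98) (nat_lit 4) (nat_lit 430) (nat_lit 387) (nat_lit 383)) (XT.lf (nat_lit 0) (nat_lit 4603277818) (nat_lit 228) (nat_lit 4391318081) (nat_lit 0) (nat_lit 304948014) (nat_lit 95) (nat_lit 5) (nat_lit 98) (nat_lit 4) (nat_lit 95) (nat_lit 4) (nat_lit 431) (nat_lit 387) (nat_lit 382)))) (XT.nd (nat_lit 156) (nat_lit 304) (nat_lit 0) (XT.nd (nat_lit 78) (nat_lit 228) (nat_lit 0) (XT.lf (nat_lit 0) (nat_lit 3577317097) (nat_lit 228) (nat_lit 5482459234) (nat_lit 228) (nat_lit 443282413) (nat_lit 92) (nat_lit 4) (nat_lit 95) (nat_lit 5) (nat_lit 95) (nat_lit 4) (nat_lit 432) (nat_lit 387) (nat_lit 381)) (XT.lf (nat_lit 0) (nat_lit 2143072988) (nat_lit 152) (nat_lit 1704643303) (nat_lit 228) (nat_lit 5868201568) (nat_lit 89) (nat_lit 5) (nat_lit 91) (nat_lit 5) (nat_lit 92) (nat_lit 4) (nat_lit 433) (nat_lit 387) (nat_lit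 380))) (XT.nd (nat_lit 78) (nat_lit 76) (nat_lit 0) (XT.lf (nat_lit 0) (nat_lit 614568432) (nat_lit 228) (nat_lit 7717975086) (nat_lit 228) (nat_lit 1606817473) (nat_lit 86) (nat_lit 4) (nat_lit 89) (nat_lit 5) (nat_lit 89) (nat_lit 4) (nat_lit 434) (nat_lit 387) (nat_lit 379)) (XT.lf (nat_lit 0) (nat_lit 2782425597) (nat_lit 304) (nat_lit 1016681812) (nat_lit 76) (nat_lit 6372313651) (nat_lit 85) (nat_lit 5) (nat_lit 89) (nat_lit 5) (nat_lit 86) (nat_lit 4) (nat_lit 435) (nat_lit 387) (nat_lit 378))))) (XT.nd (nat_lit 312) (nat_lit 532) (nat_lit 0) (XT.nd (nat_lit 156) (nat_lit 304) (nat_lit 0) (XT.nd (nat_lit 78) (nat_lit 228) (nat_lit 0) (XT.lf (nat_lit 0) (nat_lit 7318580917) (nat_lit 228) (nat_lit 2730998733) (nat_lit 0) (nat_lit 365126335) (nat_lit 83) (nat_lit 5) (nat_lit 86) (nat_lit 4) (nat_lit 83) (nat_lit 4) (nat_lit 436) (nat_lit 387) (nat_lit 377)) (XT.lf (nat_lit 0) (nat_lit 1398727089)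 (nat_lit 228) (nat_lit 4612570193) (nat_lit 76) (nat_lit 4656140855) (nat_lit 80) (nat_lit 5) (nat_lit 83) (nat_lit 5) (nat_lit 81) (nat_lit 4) (nat_lit 437) (nat_lit 387) (nat_lit 376))) (XT.nd (nat_lit 78) (nat_lit 152) (nat_lit 0) (XT.lf (nat_lit 0) (nat_lit 4290760508) (nat_lit 152) (nat_lit 1695656885) (nat_lit 228) (nat_lit 4945254261) (nat_lit 78) (nat_lit 5) (nat_lit 80) (nat_lit 5) (nat_lit 81) (nat_lit 4) (nat_lit 438) (nat_lit 387) (nat_lit 375)) (XT.lf (nat_lit 0) (nat_lit 2383951163) (nat_lit 152) (nat_lit 8440144700) (nat_lit 152) (nat_lit 384000183) (nat_lit 76) (nat_lit 4) (nat_lit 78) (nat_lit 5) (nat_lit 78) (nat_lit 4) (nat_lit 439) (nat_lit 387) (nat_lit 374)))) (XT.nd (nat_lit 156) (nat_lit 304) (nat_lit 0) (XT.nd (nat_lit 78) (nat_lit 0) (nat_lit 0) (XT.lf (nat_lit 0) (nat_lit 266281127) (nat_lit 152) (nat_lit 4004735239) (nat_lit 228) (nat_lit 7223559961) (nat_lit 73) (nat_lit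 5) (nat_lit 75) (nat_lit 5) (nat_lit 76) (nat_lit 4) (nat_lit 440) (nat_lit 387) (nat_lit 373)) (XT.lf (nat_lit 0) (nat_lit 9169741292) (nat_lit 228) (nat_lit 1932335182) (nat_lit 0) (nat_lit 691804373) (nat_lit 73) (nat_lit 5) (nat_lit 76) (nat_lit 4) (nat_lit 73) (nat_lit 4) (nat_lit 441) (nat_lit 387) (nat_lit 372))) (XT.nd (nat_lit 78) (nat_lit 76) (nat_lit 0) (XT.lf (nat_lit 0) (nat_lit 2191062345) (nat_lit 228) (nat_lit 4360437197) (nat_lit 76) (nat_lit 5552117277) (nat_lit 70) (nat_lit 5) (nat_lit 73) (nat_lit 5) (nat_lit 71) (nat_lit 4) (nat_lit 442) (nat_lit 387) (nat_lit 371)) (XT.lf (nat_lit 0) (nat_lit 5440829732) (nat_lit 76) (nat_lit 1705172619) (nat_lit 152) (nat_lit 5281334990) (nat_lit 69) (nat_lit 5) (nat_lit 70) (nat_lit 5) (nat_lit 71) (nat_lit 4) (nat_lit 443) (nat_lit 387) (nat_lit 370)))))) (XT.nd (nat_lit 624) (nat_lit 760) (nat_lit 0) (XT.nd (nat_lit 312) (nat_lit 380)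 (nat_lit 0) (XT.nd (nat_lit 156) (nat_lit 228) (nat_lit 0) (XT.nd (nat_lit 78) (nat_lit 152) (nat_lit 0) (XT.lf (nat_lit 0) (nat_lit 2926390822) (nat_lit 152) (nat_lit 9465941479) (nat_lit 152) (nat_lit 372736105) (nat_lit 67) (nat_lit 4) (nat_lit 69) (nat_lit 5) (nat_lit 69) (nat_lit 4) (nat_lit 444) (nat_lit 387) (nat_lit 369)) (XT.lf (nat_lit 0) (nat_lit 129572046) (nat_lit 76) (nat_lit 4519508274) (nat_lit 152) (nat_lit 8465838342) (nat_lit 65) (nat_lit 5) (nat_lit 66) (nat_lit 5) (nat_lit 67) (nat_lit 4) (nat_lit 445) (nat_lit 387) (nat_lit 368))) (XT.nd (nat_lit 78) (nat_lit 228) (nat_lit 0) (XT.lf (nat_lit 0) (nat_lit 9960886805) (nat_lit 152) (nat_lit 2790208143) (nat_lit 0) (nat_lit 728295439) (nat_lit 65) (nat_lit 5) (nat_lit 67) (nat_lit 4) (nat_lit 65) (nat_lit 4) (nat_lit 446) (nat_lit 387) (nat_lit 367)) (XT.lf (nat_lit 0) (nat_lit 1698374268) (nat_lit 228) (nat_lit 6016845496)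 (nat_lit 76) (nat_lit 6141771393) (nat_lit 62) (nat_lit 5) (nat_lit 65) (nat_lit 5) (nat_lit 63) (nat_lit 4) (nat_lit 447) (nat_lit 387) (nat_lit 366)))) (XT.nd (nat_lit 156) (nat_lit 152) (nat_lit 0) (XT.nd (nat_lit 78) (nat_lit 152) (nat_lit 0) (XT.lf (nat_lit 0) (nat_lit 4716300293) (nat_lit 76) (nat_lit 2341295558) (nat_lit 152) (nat_lit 7193009836) (nat_lit 61) (nat_lit 5) (nat_lit 62) (nat_lit 5) (nat_lit 63) (nat_lit 4) (nat_lit 448) (nat_lit 387) (nat_lit 365)) (XT.lf (nat_lit 0) (nat_lit 1299807845) (nat_lit 152) (nat_lit 11439248977) (nat_lit 152) (nat_lit 1922134945) (nat_lit 59) (nat_lit 4) (nat_lit 61) (nat_lit 5) (nat_lit 61) (nat_lit 4) (nat_lit 449) (nat_lit 387) (nat_lit 364))) (XT.nd (nat_lit 78) (nat_lit 76) (nat_lit 0) (XT.lf (nat_lit 0) (nat_lit 3578401292) (nat_lit 228) (nat_lit 2400165561) (nat_lit 76) (nat_lit 9106838040) (nat_lit 58) (nat_lit 5) (nat_lit 61) (nat_lit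 5) (nat_lit 59) (nat_lit 4) (nat_lit 450) (nat_lit 387) (nat_lit 363)) (XT.lf (nat_lit 0) (nat_lit 9156239850) (nat_lit 76) (nat_lit 161069622) (nat_lit 152) (nat_lit 6210550700) (nat_lit 57) (nat_lit 5) (nat_lit 58) (nat_lit 5) (nat_lit 59) (nat_lit 4) (nat_lit 451) (nat_lit 387) (nat_lit 362))))) (XT.nd (nat_lit 312) (nat_lit 304) (nat_lit 0) (XT.nd (nat_lit 156) (nat_lit 152) (nat_lit 0) (XT.nd (nat_lit 78) (nat_lit 152) (nat_lit 0) (XT.lf (nat_lit 0) (nat_lit 5242587972) (nat_lit 152) (nat_lit 10202232865) (nat_lit 152) (nat_lit 542538390) (nat_lit 55) (nat_lit 4) (nat_lit 57) (nat_lit 5) (nat_lit 57) (nat_lit 4) (nat_lit 452) (nat_lit 387) (nat_lit 361)) (XT.lf (nat_lit 0) (nat_lit 919467372) (nat_lit 76) (nat_lit 4328897459) (nat_lit 152) (nat_lit 11216619149) (nat_lit 53) (nat_lit 5) (nat_lit 54) (nat_lit 5) (nat_lit 55) (nat_lit 4) (nat_lit 453) (nat_lit 387) (nat_lit 360))) (XT.nd (nat_lit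 78) (nat_lit 152) (nat_lit 0) (XT.lf (nat_lit 0) (nat_lit 11410728345) (nat_lit 152) (nat_lit 3673961522) (nat_lit 0) (nat_lit 1876351368) (nat_lit 53) (nat_lit 5) (nat_lit 55) (nat_lit 4) (nat_lit 53) (nat_lit 4) (nat_lit 454) (nat_lit 387) (nat_lit 359)) (XT.lf (nat_lit 0) (nat_lit 488368533) (nat_lit 152) (nat_lit 8688700206) (nat_lit 76) (nat_lit 8299431941) (nat_lit 51) (nat_lit 5) (nat_lit 53) (nat_lit 5) (nat_lit 52) (nat_lit 4) (nat_lit 455) (nat_lit 387) (nat_lit 358)))) (XT.nd (nat_lit 156) (nat_lit 228) (nat_lit 0) (XT.nd (nat_lit 78) (nat_lit 0) (nat_lit 0) (XT.lf (nat_lit 0) (nat_lit 3809586417) (nat_lit 76) (nat_lit 2847738993) (nat_lit 152) (nat_lit 11355117744) (nat_lit 50) (nat_lit 5) (nat_lit 51) (nat_lit 5) (nat_lit 52) (nat_lit 4) (nat_lit 456) (nat_lit 387) (nat_lit 357)) (XT.lf (nat_lit 0) (nat_lit 13236200339) (nat_lit 152) (nat_lit 1601477485) (nat_lit 0) (nat_lit 3732434186)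 (nat_lit 50) (nat_lit 5) (nat_lit 52) (nat_lit 4) (nat_lit 50) (nat_lit 4) (nat_lit 457) (nat_lit 387) (nat_lit 356))) (XT.nd (nat_lit 78) (nat_lit 76) (nat_lit 0) (XT.lf (nat_lit 0) (nat_lit 1086885318) (nat_lit 152) (nat_lit 7403563979) (nat_lit 76) (nat_lit 10657937769) (nat_lit 48) (nat_lit 5) (nat_lit 50) (nat_lit 5) (nat_lit 49) (nat_lit 4) (nat_lit 458) (nat_lit 387) (nat_lit 355)) (XT.lf (nat_lit 0) (nat_lit 5966125648) (nat_lit 76) (nat_lit 1701984683) (nat_lit 152) (nat_lit 12082163750) (nat_lit 47) (nat_lit 5) (nat_lit 48) (nat_lit 5) (nat_lit 49) (nat_lit 4) (nat_lit 459) (nat_lit 387) (nat_lit 354))))))))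
noncomputable def xc65 : XT := (XT.nd (nat_lit 2418) (nat_lit 1140) (nat_lit 0) (XT.nd (nat_lit 1170) (nat_lit 836) (nat_lit 0) (XT.nd (nat_lit 546) (nat_lit 608) (nat_lit 0) (XT.nd (nat_lit 234) (nat_lit 228) (nat_lit 0) (XT.nd (nat_lit 78) (nat_lit 228) (nat_lit 0) (XT.lf (nat_lit 0) (nat_lit 14688857391) (nat_lit 152) (nat_lit 398563853) (nat_lit 0) (nat_lit 5289313440) (nat_lit 47) (nat_lit 5) (nat_lit 49) (nat_lit 4) (nat_lit 47) (nat_lit 4) (nat_lit 460) (nat_lit 387) (nat_lit 353)) (XT.nd (nat_lit 78) (nat_lit 76) (nat_lit 0) (XT.lf (nat_lit 0) (nat_lit 1143539820) (nat_lit 152) (nat_lit 7160521438) (nat_lit 76) (nat_lit 12722145158) (nat_lit 45) (nat_lit 5) (nat_lit 47) (nat_lit 5) (nat_lit 46) (nat_lit 4) (nat_lit 461) (nat_lit 387) (nat_lit 352)) (XT.lf (nat_lit 0) (nat_lit 7094972167) (nat_lit 76) (nat_lit 1051356227) (nat_lit 152) (nat_lit 13556115587) (nat_lit 44) (nat_lit 5) (nat_lit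 45) (nat_lit 5) (nat_lit 46) (nat_lit 4) (nat_lit 462) (nat_lit 387) (nat_lit 351)))) (XT.nd (nat_lit 156) (nat_lit 76) (nat_lit 0) (XT.nd (nat_lit 78) (nat_lit 152) (nat_lit 0) (XT.lf (nat_lit 0) (nat_lit 15628624255) (nat_lit 152) (nat_lit 387303627) (nat_lit 0) (nat_lit 6390099024) (nat_lit 44) (nat_lit 5) (nat_lit 46) (nat_lit 4) (nat_lit 44) (nat_lit 4) (nat_lit 463) (nat_lit 387) (nat_lit 350)) (XT.lf (nat_lit 0) (nat_lit 488789942) (nat_lit 152) (nat_lit 8323082220) (nat_lit 76) (nat_lit 14324681206) (nat_lit 42) (nat_lit 5) (nat_lit 44) (nat_lit 5) (nat_lit 43) (nat_lit 4) (nat_lit 464) (nat_lit 387) (nat_lit 349))) (XT.nd (nat_lit 78) (nat_lit 0) (nat_lit 0) (XT.lf (nat_lit 0) (nat_lit 6811844547) (nat_lit 76) (nat_lit 1100057811) (nat_lit 152) (nat_lit 15985081398) (nat_lit 41) (nat_lit 5) (nat_lit 42) (nat_lit 5) (nat_lit 43) (nat_lit 4) (nat_lit 465) (nat_lit 387) (nat_lit 348)) (XT.lf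 (nat_lit 0) (nat_lit 15867299064) (nat_lit 152) (nat_lit 1987147034) (nat_lit 0) (nat_lit 6832934674) (nat_lit 41) (nat_lit 5) (nat_lit 43) (nat_lit 4) (nat_lit 41) (nat_lit 4) (nat_lit 466) (nat_lit 387) (nat_lit 347))))) (XT.nd (nat_lit 312) (nat_lit 304) (nat_lit 0) (XT.nd (nat_lit 156) (nat_lit 76) (nat_lit 0) (XT.nd (nat_lit 78) (nat_lit 152) (nat_lit 0) (XT.lf (nat_lit 0) (nat_lit 14128800416) (nat_lit 76) (nat_lit 10243255091) (nat_lit 76) (nat_lit 1137664106) (nat_lit 40) (nat_lit 4) (nat_lit 41) (nat_lit 5) (nat_lit 41) (nat_lit 4) (nat_lit 467) (nat_lit 387) (nat_lit 346)) (XT.lf (nat_lit 0) (nat_lit 4615809882) (nat_lit 76) (nat_lit 2110646565) (nat_lit 152) (nat_lit 19640343858) (nat_lit 38) (nat_lit 5) (nat_lit 39) (nat_lit 5) (nat_lit 40) (nat_lit 4) (nat_lit 468) (nat_lit 387) (nat_lit 345))) (XT.nd (nat_lit 78) (nat_lit 76) (nat_lit 0) (XT.lf (nat_lit 0) (nat_lit 15155110018)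 (nat_lit 152) (nat_lit 5743230000) (nat_lit 0) (nat_lit 6356985773) (nat_lit 38) (nat_lit 5) (nat_lit 40) (nat_lit 4) (nat_lit 38) (nat_lit 4) (nat_lit 469) (nat_lit 387) (nat_lit 344)) (XT.lf (nat_lit 0) (nat_lit 11226346104) (nat_lit 76) (nat_lit 12906145222) (nat_lit 76) (nat_lit 4049422681) (nat_lit 37) (nat_lit 4) (nat_lit 38) (nat_lit 5) (nat_lit 38) (nat_lit 4) (nat_lit 470) (nat_lit 387) (nat_lit 343)))) (XT.nd (nat_lit 156) (nat_lit 152) (nat_lit 0) (XT.nd (nat_lit 78) (nat_lit 76) (nat_lit 0) (XT.lf (nat_lit 0) (nat_lit 4279328532) (nat_lit 152) (nat_lit 139906950) (nat_lit 76) (nat_lit 24731340823) (nat_lit 36) (nat_lit 5) (nat_lit 38) (nat_lit 5) (nat_lit 37) (nat_lit 4) (nat_lit 471) (nat_lit 387) (nat_lit 342)) (XT.lf (nat_lit 0) (nat_lit 13163406094) (nat_lit 152) (nat_lit 12362536221) (nat_lit 0) (nat_lit 4624662452) (nat_lit 35) (nat_lit 5) (nat_lit 37) (nat_lit 4) (nat_lit 35)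 (nat_lit 4) (nat_lit 472) (nat_lit 387) (nat_lit 341))) (XT.nd (nat_lit 78) (nat_lit 76) (nat_lit 0) (XT.lf (nat_lit 0) (nat_lit 5360088131) (nat_lit 76) (nat_lit 17211746385) (nat_lit 76) (nat_lit 8624793781) (nat_lit 34) (nat_lit 4) (nat_lit 35) (nat_lit 5) (nat_lit 35) (nat_lit 4) (nat_lit 473) (nat_lit 387) (nat_lit 340)) (XT.lf (nat_lit 0) (nat_lit 285227220) (nat_lit 152) (nat_lit 8048150100) (nat_lit 76) (nat_lit 23954731003) (nat_lit 33) (nat_lit 5) (nat_lit 35) (nat_lit 5) (nat_lit 34) (nat_lit 4) (nat_lit 474) (nat_lit 387) (nat_lit 339)))))) (XT.nd (nat_lit 624) (nat_lit 304) (nat_lit 0) (XT.nd (nat_lit 312) (nat_lit 304) (nat_lit 0) (XT.nd (nat_lit 156) (nat_lit 152) (nat_lit 0) (XT.nd (nat_lit 78) (nat_lit 0) (nat_lit 0) (XT.lf (nat_lit 0) (nat_lit 9462421955) (nat_lit 152) (nat_lit 22760095446) (nat_lit 0) (nat_lit 1199000190) (nat_lit 32) (nat_lit 5) (nat_lit 34) (nat_lit 4) (nat_lit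 32) (nat_lit 4) (nat_lit 475) (nat_lit 387) (nat_lit 338)) (XT.lf (nat_lit 0) (nat_lit 19299171412) (nat_lit 152) (nat_lit 4306303964) (nat_lit 0) (nat_lit 10996088015) (nat_lit 32) (nat_lit 5) (nat_lit 34) (nat_lit 4) (nat_lit 32) (nat_lit 4) (nat_lit 476) (nat_lit 387) (nat_lit 337))) (XT.nd (nat_lit 78) (nat_lit 76) (nat_lit 0) (XT.lf (nat_lit 0) (nat_lit 15422300300) (nat_lit 76) (nat_lit 14375337192) (nat_lit 76) (nat_lit 6034480810) (nat_lit 31) (nat_lit 4) (nat_lit 32) (nat_lit 5) (nat_lit 32) (nat_lit 4) (nat_lit 477) (nat_lit 387) (nat_lit 336)) (XT.lf (nat_lit 0) (nat_lit 3581782843) (nat_lit 152) (nat_lit 1034175821) (nat_lit 76) (nat_lit 32505193188) (nat_lit 30) (nat_lit 5) (nat_lit 32) (nat_lit 5) (nat_lit 31) (nat_lit 4) (nat_lit 478) (nat_lit 387) (nat_lit 335)))) (XT.nd (nat_lit 156) (nat_lit 152) (nat_lit 0) (XT.nd (nat_lit 78) (nat_lit 76) (nat_lit 0) (XT.lf (nat_lit 0) (nat_lit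 13809810704) (nat_lit 152) (nat_lit 18843946270) (nat_lit 0) (nat_lit 5799247026) (nat_lit 29) (nat_lit 5) (nat_lit 31) (nat_lit 4) (nat_lit 29) (nat_lit 4) (nat_lit 479) (nat_lit 387) (nat_lit 334)) (XT.lf (nat_lit 0) (nat_lit 1300535664) (nat_lit 76) (nat_lit 23295116367) (nat_lit 76) (nat_lit 15253476762) (nat_lit 28) (nat_lit 4) (nat_lit 29) (nat_lit 5) (nat_lit 29) (nat_lit 4) (nat_lit 480) (nat_lit 387) (nat_lit 333))) (XT.nd (nat_lit 78) (nat_lit 152) (nat_lit 0) (XT.lf (nat_lit 0) (nat_lit 22973721818) (nat_lit 76) (nat_lit 13199964646) (nat_lit 76) (nat_lit 5128728920) (nat_lit 28) (nat_lit 4) (nat_lit 29) (nat_lit 5) (nat_lit 29) (nat_lit 4) (nat_lit 481) (nat_lit 387) (nat_lit 332)) (XT.lf (nat_lit 0) (nat_lit 2776626122) (nat_lit 76) (nat_lit 2528763453) (nat_lit 152) (nat_lit 37519720009) (nat_lit 26) (nat_lit 5) (nat_lit 27) (nat_lit 5) (nat_lit 28) (nat_lit 4) (nat_lit 482) (nat_lit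 387) (nat_lit 331))))) (XT.nd (nat_lit 312) (nat_lit 76) (nat_lit 0) (XT.nd (nat_lit 156) (nat_lit 152) (nat_lit 0) (XT.nd (nat_lit 78) (nat_lit 76) (nat_lit 0) (XT.lf (nat_lit 0) (nat_lit 16475782599) (nat_lit 152) (nat_lit 19188125537) (nat_lit 0) (nat_lit 8736480634) (nat_lit 26) (nat_lit 5) (nat_lit 28) (nat_lit 4) (nat_lit 26) (nat_lit 4) (nat_lit 483) (nat_lit 387) (nat_lit 330)) (XT.lf (nat_lit 0) (nat_lit 2635650339) (nat_lit 76) (nat_lit 25590675654) (nat_lit 76) (nat_lit 17827024887) (nat_lit 25) (nat_lit 4) (nat_lit 26) (nat_lit 5) (nat_lit 26) (nat_lit 4) (nat_lit 484) (nat_lit 387) (nat_lit 329))) (XT.nd (nat_lit 78) (nat_lit 152) (nat_lit 0) (XT.lf (nat_lit 0) (nat_lit 26096257163) (nat_lit 76) (nat_lit 14733147065) (nat_lit 76) (nat_lit 6946306963) (nat_lit 25) (nat_lit 4) (nat_lit 26) (nat_lit 5) (nat_lit 26) (nat_lit 4) (nat_lit 485) (nat_lit 387) (nat_lit 328)) (XT.lf (nat_lit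 0) (nat_lit 990788941) (nat_lit 76) (nat_lit 3301754534) (nat_lit 152) (nat_lit 45290278677) (nat_lit 23) (nat_lit 5) (nat_lit 24) (nat_lit 5) (nat_lit 25) (nat_lit 4) (nat_lit 486) (nat_lit 387) (nat_lit 327)))) (XT.nd (nat_lit 156) (nat_lit 76) (nat_lit 0) (XT.nd (nat_lit 78) (nat_lit 0) (nat_lit 0) (XT.lf (nat_lit 0) (nat_lit 16310951036) (nat_lit 152) (nat_lit 26287243927) (nat_lit 0) (nat_lit 8853847613) (nat_lit 23) (nat_lit 5) (nat_lit 25) (nat_lit 4) (nat_lit 23) (nat_lit 4) (nat_lit 487) (nat_lit 387) (nat_lit 326)) (XT.lf (nat_lit 0) (nat_lit 28929201239) (nat_lit 152) (nat_lit 3032557171) (nat_lit 0) (nat_lit 21453019892) (nat_lit 23) (nat_lit 5) (nat_lit 25) (nat_lit 4) (nat_lit 23) (nat_lit 4) (nat_lit 488) (nat_lit 387) (nat_lit 325))) (XT.nd (nat_lit 78) (nat_lit 0) (nat_lit 0) (XT.lf (nat_lit 0) (nat_lit 21982523019) (nat_lit 76) (nat_lit 20486473666) (nat_lit 76) (nat_lit 12992122868)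 (nat_lit 22) (nat_lit 4) (nat_lit 23) (nat_lit 5) (nat_lit 23) (nat_lit 4) (nat_lit 489) (nat_lit 387) (nat_lit 324)) (XT.lf (nat_lit 0) (nat_lit 48249430204) (nat_lit 76) (nat_lit 8436010069) (nat_lit 76) (nat_lit 924355031) (nat_lit 22) (nat_lit 4) (nat_lit 23) (nat_lit 5) (nat_lit 23) (nat_lit 4) (nat_lit 490) (nat_lit 387) (nat_lit 323))))))) (XT.nd (nat_lit 1170) (nat_lit 456) (nat_lit 0) (XT.nd (nat_lit 546) (nat_lit 304) (nat_lit 0) (XT.nd (nat_lit 234) (nat_lit 152) (nat_lit 0) (XT.nd (nat_lit 78) (nat_lit 76) (nat_lit 0) (XT.lf (nat_lit 0) (nat_lit 11645877034) (nat_lit 152) (nat_lit 43720881367) (nat_lit 0) (nat_lit 4476224400) (nat_lit 20) (nat_lit 5) (nat_lit 22) (nat_lit 4) (nat_lit 20) (nat_lit 4) (nat_lit 491) (nat_lit 387) (nat_lit 322)) (XT.nd (nat_lit 78) (nat_lit 76) (nat_lit 0) (XT.lf (nat_lit 0) (nat_lit 25062979011) (nat_lit 152) (nat_lit 19233243840) (nat_lit 0) (nat_lit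 17878378325) (nat_lit 20) (nat_lit 5) (nat_lit 22) (nat_lit 4) (nat_lit 20) (nat_lit 4) (nat_lit 492) (nat_lit 387) (nat_lit 321)) (XT.lf (nat_lit 0) (nat_lit 6593666463) (nat_lit 76) (nat_lit 32612602298) (nat_lit 76) (nat_lit 25413765371) (nat_lit 19) (nat_lit 4) (nat_lit 20) (nat_lit 5) (nat_lit 20) (nat_lit 4) (nat_lit 493) (nat_lit 387) (nat_lit 320)))) (XT.nd (nat_lit 156) (nat_lit 76) (nat_lit 0) (XT.nd (nat_lit 78) (nat_lit 76) (nat_lit 0) (XT.lf (nat_lit 0) (nat_lit 34285060241) (nat_lit 76) (nat_lit 20050564469) (nat_lit 76) (nat_lit 12838169218) (nat_lit 19) (nat_lit 4) (nat_lit 20) (nat_lit 5) (nat_lit 20) (nat_lit 4) (nat_lit 494) (nat_lit 387) (nat_lit 319)) (XT.lf (nat_lit 0) (nat_lit 309161617) (nat_lit 152) (nat_lit 6591526624) (nat_lit 76) (nat_lit 62956534063) (nat_lit 18) (nat_lit 5) (nat_lit 20) (nat_lit 5) (nat_lit 19) (nat_lit 4) (nat_lit 495) (nat_lit 387) (nat_lit 318)))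 (XT.nd (nat_lit 78) (nat_lit 0) (nat_lit 0) (XT.lf (nat_lit 0) (nat_lit 14089560136) (nat_lit 152) (nat_lit 51357779436) (nat_lit 0) (nat_lit 7196602289) (nat_lit 17) (nat_lit 5) (nat_lit 19) (nat_lit 4) (nat_lit 17) (nat_lit 4) (nat_lit 496) (nat_lit 387) (nat_lit 317)) (XT.lf (nat_lit 0) (nat_lit 28742437821) (nat_lit 152) (nat_lit 24980061335) (nat_lit 0) (nat_lit 21838325507) (nat_lit 17) (nat_lit 5) (nat_lit 19) (nat_lit 4) (nat_lit 17) (nat_lit 4) (nat_lit 497) (nat_lit 387) (nat_lit 316))))) (XT.nd (nat_lit 312) (nat_lit 76) (nat_lit 0) (XT.nd (nat_lit 156) (nat_lit 152) (nat_lit 0) (XT.nd (nat_lit 78) (nat_lit 0) (nat_lit 0) (XT.lf (nat_lit 0) (nat_lit 2720503117) (nat_lit 76) (nat_lit 41408857140) (nat_lit 76) (nat_lit 34494121524) (nat_lit 16) (nat_lit 4) (nat_lit 17) (nat_lit 5) (nat_lit 17) (nat_lit 4) (nat_lit 498) (nat_lit 387) (nat_lit 315)) (XT.lf (nat_lit 0) (nat_lit 32591574998)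 (nat_lit 76) (nat_lit 28076708635) (nat_lit 76) (nat_lit 21151855588) (nat_lit 16) (nat_lit 4) (nat_lit 17) (nat_lit 5) (nat_lit 17) (nat_lit 4) (nat_lit 499) (nat_lit 387) (nat_lit 314))) (XT.nd (nat_lit 78) (nat_lit 152) (nat_lit 0) (XT.lf (nat_lit 0) (nat_lit 63878322268) (nat_lit 76) (nat_lit 14117359856) (nat_lit 76) (nat_lit 7182871162) (nat_lit 16) (nat_lit 4) (nat_lit 17) (nat_lit 5) (nat_lit 17) (nat_lit 4) (nat_lit 500) (nat_lit 387) (nat_lit 313)) (XT.lf (nat_lit 0) (nat_lit 7345917650) (nat_lit 152) (nat_lit 80615179553) (nat_lit 0) (nat_lit 732902887) (nat_lit 14) (nat_lit 5) (nat_lit 16) (nat_lit 4) (nat_lit 14) (nat_lit 4) (nat_lit 501) (nat_lit 387) (nat_lit 312)))) (XT.nd (nat_lit 156) (nat_lit 76) (nat_lit 0) (XT.nd (nat_lit 78) (nat_lit 0) (nat_lit 0) (XT.lf (nat_lit 0) (nat_lit 22920618530) (nat_lit 152) (nat_lit 53131389933) (nat_lit 0) (nat_lit 16299280132) (nat_lit 14)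 (nat_lit 5) (nat_lit 16) (nat_lit 4) (nat_lit 14) (nat_lit 4) (nat_lit 502) (nat_lit 387) (nat_lit 311)) (XT.lf (nat_lit 0) (nat_lit 39238615168) (nat_lit 152) (nat_lit 24345248988) (nat_lit 0) (nat_lit 32609349498) (nat_lit 14) (nat_lit 5) (nat_lit 16) (nat_lit 4) (nat_lit 14) (nat_lit 4) (nat_lit 503) (nat_lit 387) (nat_lit 310))) (XT.nd (nat_lit 78) (nat_lit 0) (nat_lit 0) (XT.lf (nat_lit 0) (nat_lit 6003945461) (nat_lit 76) (nat_lit 50428552889) (nat_lit 76) (nat_lit 43791737437) (nat_lit 13) (nat_lit 4) (nat_lit 14) (nat_lit 5) (nat_lit 14) (nat_lit 4) (nat_lit 504) (nat_lit 387) (nat_lit 309)) (XT.lf (nat_lit 0) (nat_lit 38648497918) (nat_lit 76) (nat_lit 36216680910) (nat_lit 76) (nat_lit 29572675189) (nat_lit 13) (nat_lit 4) (nat_lit 14) (nat_lit 5) (nat_lit 14) (nat_lit 4) (nat_lit 505) (nat_lit 387) (nat_lit 308)))))) (XT.nd (nat_lit 624) (nat_lit 228) (nat_lit 0) (XT.nd (nat_lit 312)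 (nat_lit 76) (nat_lit 0) (XT.nd (nat_lit 156) (nat_lit 76) (nat_lit 0) (XT.nd (nat_lit 78) (nat_lit 76) (nat_lit 0) (XT.lf (nat_lit 0) (nat_lit 72861169629) (nat_lit 76) (nat_lit 21326709000) (nat_lit 76) (nat_lit 14675855405) (nat_lit 13) (nat_lit 4) (nat_lit 14) (nat_lit 5) (nat_lit 14) (nat_lit 4) (nat_lit 506) (nat_lit 387) (nat_lit 307)) (XT.lf (nat_lit 0) (nat_lit 904290602) (nat_lit 152) (nat_lit 4803579646) (nat_lit 76) (nat_lit 107803814134) (nat_lit 12) (nat_lit 5) (nat_lit 14) (nat_lit 5) (nat_lit 13) (nat_lit 4) (nat_lit 507) (nat_lit 387) (nat_lit 306))) (XT.nd (nat_lit 78) (nat_lit 0) (nat_lit 0) (XT.lf (nat_lit 0) (nat_lit 17364871532) (nat_lit 152) (nat_lit 89966801245) (nat_lit 0) (nat_lit 11018598573) (nat_lit 11) (nat_lit 5) (nat_lit 13) (nat_lit 4) (nat_lit 11) (nat_lit 4) (nat_lit 508) (nat_lit 387) (nat_lit 305)) (XT.lf (nat_lit 0) (nat_lit 34795611447) (nat_lit 152) (nat_lit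 60184115114) (nat_lit 0) (nat_lit 28443704725) (nat_lit 11) (nat_lit 5) (nat_lit 13) (nat_lit 4) (nat_lit 11) (nat_lit 4) (nat_lit 509) (nat_lit 387) (nat_lit 304)))) (XT.nd (nat_lit 156) (nat_lit 0) (nat_lit 0) (XT.nd (nat_lit 78) (nat_lit 76) (nat_lit 0) (XT.lf (nat_lit 0) (nat_lit 53070149051) (nat_lit 152) (nat_lit 28968610403) (nat_lit 0) (nat_lit 46712876840) (nat_lit 11) (nat_lit 5) (nat_lit 13) (nat_lit 4) (nat_lit 11) (nat_lit 4) (nat_lit 510) (nat_lit 387) (nat_lit 303)) (XT.lf (nat_lit 0) (nat_lit 3878160885) (nat_lit 76) (nat_lit 68414383223) (nat_lit 76) (nat_lit 62052001022) (nat_lit 10) (nat_lit 4) (nat_lit 11) (nat_lit 5) (nat_lit 11) (nat_lit 4) (nat_lit 511) (nat_lit 387) (nat_lit 302))) (XT.nd (nat_lit 78) (nat_lit 0) (nat_lit 0) (XT.lf (nat_lit 0) (nat_lit 39320226519) (nat_lit 76) (nat_lit 53620445594) (nat_lit 76) (nat_lit 47253196736) (nat_lit 10) (nat_lit 4) (nat_lit 11)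 (nat_lit 5) (nat_lit 11) (nat_lit 4) (nat_lit 512) (nat_lit 387) (nat_lit 301)) (XT.lf (nat_lit 0) (nat_lit 76484139282) (nat_lit 76) (nat_lit 38112320340) (nat_lit 76) (nat_lit 31740436571) (nat_lit 10) (nat_lit 4) (nat_lit 11) (nat_lit 5) (nat_lit 11) (nat_lit 4) (nat_lit 513) (nat_lit 387) (nat_lit 300))))) (XT.nd (nat_lit 312) (nat_lit 76) (nat_lit 0) (XT.nd (nat_lit 156) (nat_lit 76) (nat_lit 0) (XT.nd (nat_lit 78) (nat_lit 76) (nat_lit 0) (XT.lf (nat_lit 0) (nat_lit 115458384681) (nat_lit 76) (nat_lit 21853083355) (nat_lit 76) (nat_lit 15476785384) (nat_lit 10) (nat_lit 4) (nat_lit 11) (nat_lit 5) (nat_lit 11) (nat_lit 4) (nat_lit 514) (nat_lit 387) (nat_lit 299)) (XT.lf (nat_lit 0) (nat_lit 1526022604) (nat_lit 152) (nat_lit 3252155633) (nat_lit 76) (nat_lit 154783892002) (nat_lit 9) (nat_lit 5) (nat_lit 11) (nat_lit 5) (nat_lit 10) (nat_lit 4) (nat_lit 515) (nat_lit 387) (nat_lit 298)))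 (XT.nd (nat_lit 78) (nat_lit 0) (nat_lit 0) (XT.lf (nat_lit 0) (nat_lit 19574633717) (nat_lit 152) (nat_lit 133557317142) (nat_lit 0) (nat_lit 13494152019) (nat_lit 8) (nat_lit 5) (nat_lit 10) (nat_lit 4) (nat_lit 8) (nat_lit 4) (nat_lit 516) (nat_lit 387) (nat_lit 297)) (XT.lf (nat_lit 0) (nat_lit 38638270589) (nat_lit 152) (nat_lit 102845279559) (nat_lit 0) (nat_lit 32554157317) (nat_lit 8) (nat_lit 5) (nat_lit 10) (nat_lit 4) (nat_lit 8) (nat_lit 4) (nat_lit 517) (nat_lit 387) (nat_lit 296)))) (XT.nd (nat_lit 156) (nat_lit 76) (nat_lit 0) (XT.nd (nat_lit 78) (nat_lit 0) (nat_lit 0) (XT.lf (nat_lit 0) (nat_lit 58634408050) (nat_lit 152) (nat_lit 70639682227) (nat_lit 0) (nat_lit 52546836136) (nat_lit 8) (nat_lit 5) (nat_lit 10) (nat_lit 4) (nat_lit 8) (nat_lit 4) (nat_lit 518) (nat_lit 387) (nat_lit 295)) (XT.lf (nat_lit 0) (nat_lit 79610655952) (nat_lit 152) (nat_lit 36863845154) (nat_lit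 0) (nat_lit 73519790093) (nat_lit 8) (nat_lit 5) (nat_lit 10) (nat_lit 4) (nat_lit 8) (nat_lit 4) (nat_lit 519) (nat_lit 387) (nat_lit 294))) (XT.nd (nat_lit 78) (nat_lit 76) (nat_lit 0) (XT.lf (nat_lit 0) (nat_lit 101616957742) (nat_lit 152) (nat_lit 1437349679) (nat_lit 0) (nat_lit 95522954793) (nat_lit 8) (nat_lit 5) (nat_lit 10) (nat_lit 4) (nat_lit 8) (nat_lit 4) (nat_lit 520) (nat_lit 387) (nat_lit 293)) (XT.lf (nat_lit 0) (nat_lit 36905354828) (nat_lit 76) (nat_lit 88376550565) (nat_lit 76) (nat_lit 82279559910) (nat_lit 7) (nat_lit 4) (nat_lit 8) (nat_lit 5) (nat_lit 8) (nat_lit 4) (nat_lit 521) (nat_lit 387) (nat_lit 292))))))))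
noncomputable def xc66 : XT := (XT.nd (nat_lit 54834) (nat_lit 0) (nat_lit 3876) (XT.nd (nat_lit 1170) (nat_lit 152) (nat_lit 0) (XT.nd (nat_lit 546) (nat_lit 76) (nat_lit 0) (XT.nd (nat_lit 234) (nat_lit 152) (nat_lit 0) (XT.nd (nat_lit 78) (nat_lit 0) (nat_lit 0) (XT.lf (nat_lit 0) (nat_lit 77179364291) (nat_lit 76) (nat_lit 72957505956) (nat_lit 76) (nat_lit 66857669868) (nat_lit 7) (nat_lit 4) (nat_lit 8) (nat_lit 5) (nat_lit 8) (nat_lit 4) (nat_lit 522) (nat_lit 387) (nat_lit 291)) (XT.nd (nat_lit 78) (nat_lit 0) (nat_lit 0) (XT.lf (nat_lit 0) (nat_lit 119433043936) (nat_lit 76) (nat_lit 56784803796) (nat_lit 76) (nat_lit 50682257771) (nat_lit 7) (nat_lit 4) (nat_lit 8) (nat_lit 5) (nat_lit 8) (nat_lit 4) (nat_lit 523) (nat_lit 387) (nat_lit 290)) (XT.lf (nat_lit 0) (nat_lit 163766997761) (nat_lit 76) (nat_lit 39819937652) (nat_lit 76) (nat_lit 33714810735) (nat_lit 7) (nat_lit 4) (nat_lit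 8) (nat_lit 5) (nat_lit 8) (nat_lit 4) (nat_lit 524) (nat_lit 387) (nat_lit 289)))) (XT.nd (nat_lit 156) (nat_lit 76) (nat_lit 0) (XT.nd (nat_lit 78) (nat_lit 76) (nat_lit 0) (XT.lf (nat_lit 0) (nat_lit 210286782800) (nat_lit 76) (nat_lit 22022514985) (nat_lit 76) (nat_lit 15914930076) (nat_lit 7) (nat_lit 4) (nat_lit 8) (nat_lit 5) (nat_lit 8) (nat_lit 4) (nat_lit 525) (nat_lit 387) (nat_lit 288)) (XT.lf (nat_lit 0) (nat_lit 2671435163) (nat_lit 152) (nat_lit 633483768) (nat_lit 76) (nat_lit 256386483235) (nat_lit 6) (nat_lit 5) (nat_lit 8) (nat_lit 5) (nat_lit 7) (nat_lit 4) (nat_lit 526) (nat_lit 387) (nat_lit 287))) (XT.nd (nat_lit 78) (nat_lit 0) (nat_lit 0) (XT.lf (nat_lit 0) (nat_lit 22524565251) (nat_lit 152) (nat_lit 232447245386) (nat_lit 0) (nat_lit 16703464940) (nat_lit 5) (nat_lit 5) (nat_lit 7) (nat_lit 4) (nat_lit 5) (nat_lit 4) (nat_lit 527) (nat_lit 387) (nat_lit 286)) (XT.lf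 (nat_lit 0) (nat_lit 43421447851) (nat_lit 152) (nat_lit 203236014705) (nat_lit 0) (nat_lit 37598325343) (nat_lit 5) (nat_lit 5) (nat_lit 7) (nat_lit 4) (nat_lit 5) (nat_lit 4) (nat_lit 528) (nat_lit 387) (nat_lit 285))))) (XT.nd (nat_lit 312) (nat_lit 76) (nat_lit 0) (XT.nd (nat_lit 156) (nat_lit 0) (nat_lit 0) (XT.nd (nat_lit 78) (nat_lit 0) (nat_lit 0) (XT.lf (nat_lit 0) (nat_lit 65349853419) (nat_lit 152) (nat_lit 172591333507) (nat_lit 0) (nat_lit 59524805010) (nat_lit 5) (nat_lit 5) (nat_lit 7) (nat_lit 4) (nat_lit 5) (nat_lit 4) (nat_lit 529) (nat_lit 387) (nat_lit 284)) (XT.lf (nat_lit 0) (nat_lit 88361992444) (nat_lit 152) (nat_lit 140440238265) (nat_lit 0) (nat_lit 82535109844) (nat_lit 5) (nat_lit 5) (nat_lit 7) (nat_lit 4) (nat_lit 5) (nat_lit 4) (nat_lit 530) (nat_lit 387) (nat_lit 283))) (XT.nd (nat_lit 78) (nat_lit 0) (nat_lit 0) (XT.lf (nat_lit 0) (nat_lit 112512655735) (nat_lit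 152) (nat_lit 106706178751) (nat_lit 0) (nat_lit 106684026285) (nat_lit 5) (nat_lit 5) (nat_lit 7) (nat_lit 4) (nat_lit 5) (nat_lit 4) (nat_lit 531) (nat_lit 387) (nat_lit 282)) (XT.lf (nat_lit 0) (nat_lit 137859344870) (nat_lit 152) (nat_lit 71308835777) (nat_lit 0) (nat_lit 132029051754) (nat_lit 5) (nat_lit 5) (nat_lit 7) (nat_lit 4) (nat_lit 5) (nat_lit 4) (nat_lit 532) (nat_lit 387) (nat_lit 281)))) (XT.nd (nat_lit 156) (nat_lit 0) (nat_lit 0) (XT.nd (nat_lit 78) (nat_lit 76) (nat_lit 0) (XT.lf (nat_lit 0) (nat_lit 164462409108) (nat_lit 152) (nat_lit 34163929955) (nat_lit 0) (nat_lit 158630531548) (nat_lit 5) (nat_lit 5) (nat_lit 7) (nat_lit 4) (nat_lit 5) (nat_lit 4) (nat_lit 533) (nat_lit 387) (nat_lit 280)) (XT.lf (nat_lit 0) (nat_lit 4976250046) (nat_lit 76) (nat_lit 187486632243) (nat_lit 76) (nat_lit 181653245689) (nat_lit 4) (nat_lit 4) (nat_lit 5) (nat_lit 5) (nat_lit 5) (nat_lit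 4) (nat_lit 534) (nat_lit 387) (nat_lit 279))) (XT.nd (nat_lit 78) (nat_lit 0) (nat_lit 0) (XT.lf (nat_lit 0) (nat_lit 47238633976) (nat_lit 76) (nat_lit 175193061080) (nat_lit 76) (nat_lit 169358237389) (nat_lit 4) (nat_lit 4) (nat_lit 5) (nat_lit 5) (nat_lit 5) (nat_lit 4) (nat_lit 535) (nat_lit 387) (nat_lit 278)) (XT.lf (nat_lit 0) (nat_lit 91594232746) (nat_lit 76) (nat_lit 162294937853) (nat_lit 76) (nat_lit 156458745459) (nat_lit 4) (nat_lit 4) (nat_lit 5) (nat_lit 5) (nat_lit 5) (nat_lit 4) (nat_lit 536) (nat_lit 387) (nat_lit 277)))))) (XT.nd (nat_lit 624) (nat_lit 152) (nat_lit 0) (XT.nd (nat_lit 312) (nat_lit 0) (nat_lit 0) (XT.nd (nat_lit 156) (nat_lit 0) (nat_lit 0) (XT.nd (nat_lit 78) (nat_lit 0) (nat_lit 0) (XT.lf (nat_lit 0) (nat_lit 138148654924) (nat_lit 76) (nat_lit 148761552743) (nat_lit 76) (nat_lit 142924056823) (nat_lit 4) (nat_lit 4) (nat_lit 5) (nat_lit 5) (nat_lit 5)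 (nat_lit 4) (nat_lit 537) (nat_lit 387) (nat_lit 276)) (XT.lf (nat_lit 0) (nat_lit 187012744373) (nat_lit 76) (nat_lit 134560683405) (nat_lit 76) (nat_lit 128721946033) (nat_lit 4) (nat_lit 4) (nat_lit 5) (nat_lit 5) (nat_lit 5) (nat_lit 4) (nat_lit 538) (nat_lit 387) (nat_lit 275))) (XT.nd (nat_lit 78) (nat_lit 0) (nat_lit 0) (XT.lf (nat_lit 0) (nat_lit 238302844162) (nat_lit 76) (nat_lit 119658518247) (nat_lit 76) (nat_lit 113818598538) (nat_lit 4) (nat_lit 4) (nat_lit 5) (nat_lit 5) (nat_lit 5) (nat_lit 4) (nat_lit 539) (nat_lit 387) (nat_lit 274)) (XT.lf (nat_lit 0) (nat_lit 292141073576) (nat_lit 76) (nat_lit 104019575921) (nat_lit 76) (nat_lit 98178530177) (nat_lit 4) (nat_lit 4) (nat_lit 5) (nat_lit 5) (nat_lit 5) (nat_lit 4) (nat_lit 540) (nat_lit 387) (nat_lit 273)))) (XT.nd (nat_lit 156) (nat_lit 0) (nat_lit 0) (XT.nd (nat_lit 78) (nat_lit 0) (nat_lit 0) (XT.lf (nat_lit 0) (nat_lit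 348655618877) (nat_lit 76) (nat_lit 87606620852) (nat_lit 76) (nat_lit 81764502694) (nat_lit 4) (nat_lit 4) (nat_lit 5) (nat_lit 5) (nat_lit 5) (nat_lit 4) (nat_lit 541) (nat_lit 387) (nat_lit 272)) (XT.lf (nat_lit 0) (nat_lit 407981038506) (nat_lit 76) (nat_lit 70380574574) (nat_lit 76) (nat_lit 64537435070) (nat_lit 4) (nat_lit 4) (nat_lit 5) (nat_lit 5) (nat_lit 5) (nat_lit 4) (nat_lit 542) (nat_lit 387) (nat_lit 271))) (XT.nd (nat_lit 78) (nat_lit 0) (nat_lit 0) (XT.lf (nat_lit 0) (nat_lit 470258583461) (nat_lit 76) (nat_lit 52300422692) (nat_lit 76) (nat_lit 46456310476) (nat_lit 4) (nat_lit 4) (nat_lit 5) (nat_lit 5) (nat_lit 5) (nat_lit 4) (nat_lit 543) (nat_lit 387) (nat_lit 270)) (XT.lf (nat_lit 0) (nat_lit 535636533611) (nat_lit 76) (nat_lit 33323117225) (nat_lit 76) (nat_lit 27478078618) (nat_lit 4) (nat_lit 4) (nat_lit 5) (nat_lit 5) (nat_lit 5) (nat_lit 4) (nat_lit 544) (nat_lit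 387) (nat_lit 269))))) (XT.nd (nat_lit 312) (nat_lit 0) (nat_lit 0) (XT.nd (nat_lit 156) (nat_lit 0) (nat_lit 0) (XT.nd (nat_lit 78) (nat_lit 152) (nat_lit 0) (XT.lf (nat_lit 0) (nat_lit 604270550743) (nat_lit 76) (nat_lit 13403474112) (nat_lit 76) (nat_lit 7557553228) (nat_lit 4) (nat_lit 4) (nat_lit 5) (nat_lit 5) (nat_lit 5) (nat_lit 4) (nat_lit 545) (nat_lit 387) (nat_lit 268)) (XT.lf (nat_lit 0) (nat_lit 13384459293) (nat_lit 152) (nat_lit 634231464343) (nat_lit 0) (nat_lit 7816115342) (nat_lit 2) (nat_lit 5) (nat_lit 4) (nat_lit 4) (nat_lit 2) (nat_lit 4) (nat_lit 546) (nat_lit 387) (nat_lit 267))) (XT.nd (nat_lit 78) (nat_lit 0) (nat_lit 0) (XT.lf (nat_lit 0) (nat_lit 35694024189) (nat_lit 152) (nat_lit 621288664180) (nat_lit 0) (nat_lit 30124918094) (nat_lit 2) (nat_lit 5) (nat_lit 4) (nat_lit 4) (nat_lit 2) (nat_lit 4) (nat_lit 547) (nat_lit 387) (nat_lit 266)) (XT.lf (nat_lit 0) (nat_lit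 59113259181) (nat_lit 152) (nat_lit 607710556330) (nat_lit 0) (nat_lit 53543427233) (nat_lit 2) (nat_lit 5) (nat_lit 4) (nat_lit 4) (nat_lit 2) (nat_lit 4) (nat_lit 548) (nat_lit 387) (nat_lit 265)))) (XT.nd (nat_lit 156) (nat_lit 0) (nat_lit 0) (XT.nd (nat_lit 78) (nat_lit 0) (nat_lit 0) (XT.lf (nat_lit 0) (nat_lit 83697924351) (nat_lit 152) (nat_lit 593464811967) (nat_lit 0) (nat_lit 78127401115) (nat_lit 2) (nat_lit 5) (nat_lit 4) (nat_lit 4) (nat_lit 2) (nat_lit 4) (nat_lit 549) (nat_lit 387) (nat_lit 264)) (XT.lf (nat_lit 0) (nat_lit 109506554616) (nat_lit 152) (nat_lit 578517512651) (nat_lit 0) (nat_lit 103935373011) (nat_lit 2) (nat_lit 5) (nat_lit 4) (nat_lit 4) (nat_lit 2) (nat_lit 4) (nat_lit 550) (nat_lit 387) (nat_lit 263))) (XT.nd (nat_lit 78) (nat_lit 0) (nat_lit 0) (XT.lf (nat_lit 0) (nat_lit 136600599095) (nat_lit 152) (nat_lit 562833069575) (nat_lit 0) (nat_lit 131028790473)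 (nat_lit 2) (nat_lit 5) (nat_lit 4) (nat_lit 4) (nat_lit 2) (nat_lit 4) (nat_lit 551) (nat_lit 387) (nat_lit 262)) (XT.lf (nat_lit 0) (nat_lit 165044567420) (nat_lit 152) (nat_lit 546374138825) (nat_lit 0) (nat_lit 159472161637) (nat_lit 2) (nat_lit 5) (nat_lit 4) (nat_lit 4) (nat_lit 2) (nat_lit 4) (nat_lit 552) (nat_lit 387) (nat_lit 261))))))) (XT.nd (nat_lit 1170) (nat_lit 1900) (nat_lit 0) (XT.nd (nat_lit 546) (nat_lit 1444) (nat_lit 0) (XT.nd (nat_lit 234) (nat_lit 836) (nat_lit 0) (XT.nd (nat_lit 78) (nat_lit 608) (nat_lit 0) (XT.lf (nat_lit 0) (nat_lit 1129369621) (nat_lit 380) (nat_lit 1801763404) (nat_lit 0) (nat_lit 1129369621) (nat_lit 116) (nat_lit 5) (nat_lit 121) (nat_lit 4) (nat_lit 116) (nat_lit 4) (nat_lit 424) (nat_lit 388) (nat_lit 388)) (XT.nd (nat_lit 78) (nat_lit 304) (nat_lit 0) (XT.lf (nat_lit 0) (nat_lit 3285801451) (nat_lit 304) (nat_lit 3065263306) (nat_lit 304) (nat_lit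 1915966423) (nat_lit 112) (nat_lit 4) (nat_lit 116) (nat_lit 5) (nat_lit 116) (nat_lit 4) (nat_lit 425) (nat_lit 388) (nat_lit 387)) (XT.lf (nat_lit 0) (nat_lit 2024270914) (nat_lit 228) (nat_lit 57746771) (nat_lit 304) (nat_lit 6340339775) (nat_lit 108) (nat_lit 5) (nat_lit 111) (nat_lit 5) (nat_lit 112) (nat_lit 4) (nat_lit 426) (nat_lit 388) (nat_lit 386)))) (XT.nd (nat_lit 156) (nat_lit 532) (nat_lit 0) (XT.nd (nat_lit 78) (nat_lit 76) (nat_lit 0) (XT.lf (nat_lit 0) (nat_lit 676640150) (nat_lit 228) (nat_lit 5519036085) (nat_lit 228) (nat_lit 2389215616) (nat_lit 105) (nat_lit 4) (nat_lit 108) (nat_lit 5) (nat_lit 108) (nat_lit 4) (nat_lit 427) (nat_lit 388) (nat_lit 385)) (XT.lf (nat_lit 0) (nat_lit 1651253742) (nat_lit 304) (nat_lit 690279687) (nat_lit 76) (nat_lit 6415259454) (nat_lit 104) (nat_lit 5) (nat_lit 108) (nat_lit 5) (nat_lit 105) (nat_lit 4) (nat_lit 428) (nat_lit 388) (nat_lit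 384))) (XT.nd (nat_lit 78) (nat_lit 304) (nat_lit 0) (XT.lf (nat_lit 0) (nat_lit 5781892701) (nat_lit 304) (nat_lit 2112049514) (nat_lit 0) (nat_lit 1042984092) (nat_lit 101) (nat_lit 5) (nat_lit 105) (nat_lit 4) (nat_lit 101) (nat_lit 4) (nat_lit 429) (nat_lit 388) (nat_lit 383)) (XT.lf (nat_lit 0) (nat_lit 945046971) (nat_lit 304) (nat_lit 3618346154) (nat_lit 76) (nat_lit 4562722554) (nat_lit 97) (nat_lit 5) (nat_lit 101) (nat_lit 5) (nat_lit 98) (nat_lit 4) (nat_lit 430) (nat_lit 388) (nat_lit 382))))) (XT.nd (nat_lit 312) (nat_lit 836) (nat_lit 0) (XT.nd (nat_lit 156) (nat_lit 228) (nat_lit 0) (XT.nd (nat_lit 78) (nat_lit 228) (nat_lit 0) (XT.lf (nat_lit 0) (nat_lit 4108064213) (nat_lit 152) (nat_lit 985421653) (nat_lit 228) (nat_lit 4231238633) (nat_lit 95) (nat_lit 5) (nat_lit 97) (nat_lit 5) (nat_lit 98) (nat_lit 4) (nat_lit 431) (nat_lit 388) (nat_lit 381)) (XT.lf (nat_lit 0) (nat_lit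 2623422029) (nat_lit 228) (nat_lit 6823757944) (nat_lit 228) (nat_lit 86206676) (nat_lit 92) (nat_lit 4) (nat_lit 95) (nat_lit 5) (nat_lit 95) (nat_lit 4) (nat_lit 432) (nat_lit 388) (nat_lit 380))) (XT.nd (nat_lit 78) (nat_lit 0) (nat_lit 0) (XT.lf (nat_lit 0) (nat_lit 1002814886) (nat_lit 152) (nat_lit 3100763766) (nat_lit 228) (nat_lit 5646884038) (nat_lit 89) (nat_lit 5) (nat_lit 91) (nat_lit 5) (nat_lit 92) (nat_lit 4) (nat_lit 433) (nat_lit 388) (nat_lit 379)) (XT.lf (nat_lit 0) (nat_lit 8486055449) (nat_lit 228) (nat_lit 673102257) (nat_lit 0) (nat_lit 819871771) (nat_lit 89) (nat_lit 5) (nat_lit 92) (nat_lit 4) (nat_lit 89) (nat_lit 4) (nat_lit 434) (nat_lit 388) (nat_lit 378)))) (XT.nd (nat_lit 156) (nat_lit 380) (nat_lit 0) (XT.nd (nat_lit 78) (nat_lit 152) (nat_lit 0) (XT.lf (nat_lit 0) (nat_lit 2811102983) (nat_lit 304) (nat_lit 2483895584) (nat_lit 76) (nat_lit 4920083787) (nat_lit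 85) (nat_lit 5) (nat_lit 89) (nat_lit 5) (nat_lit 86) (nat_lit 4) (nat_lit 435) (nat_lit 388) (nat_lit 377)) (XT.lf (nat_lit 0) (nat_lit 6060550351) (nat_lit 152) (nat_lit 1188248918) (nat_lit 228) (nat_lit 3214496258) (nat_lit 83) (nat_lit 5) (nat_lit 85) (nat_lit 5) (nat_lit 86) (nat_lit 4) (nat_lit 436) (nat_lit 388) (nat_lit 376))) (XT.nd (nat_lit 78) (nat_lit 152) (nat_lit 0) (XT.lf (nat_lit 0) (nat_lit 1168989796) (nat_lit 228) (nat_lit 6485470247) (nat_lit 76) (nat_lit 3067422582) (nat_lit 80) (nat_lit 5) (nat_lit 83) (nat_lit 5) (nat_lit 81) (nat_lit 4) (nat_lit 437) (nat_lit 388) (nat_lit 375)) (XT.lf (nat_lit 0) (nat_lit 2241035081) (nat_lit 152) (nat_lit 3417741018) (nat_lit 228) (nat_lit 5332239819) (nat_lit 78) (nat_lit 5) (nat_lit 80) (nat_lit 5) (nat_lit 81) (nat_lit 4) (nat_lit 438) (nat_lit 388) (nat_lit 374)))))) (XT.nd (nat_lit 624) (nat_lit 912) (nat_lit 0) (XT.nd (nat_lit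 312) (nat_lit 380) (nat_lit 0) (XT.nd (nat_lit 156) (nat_lit 380) (nat_lit 0) (XT.nd (nat_lit 78) (nat_lit 76) (nat_lit 0) (XT.lf (nat_lit 0) (nat_lit 117266399) (nat_lit 152) (nat_lit 10251738112) (nat_lit 152) (nat_lit 904812659) (nat_lit 76) (nat_lit 4) (nat_lit 78) (nat_lit 5) (nat_lit 78) (nat_lit 4) (nat_lit 439) (nat_lit 388) (nat_lit 373)) (XT.lf (nat_lit 0) (nat_lit 3697875607) (nat_lit 228) (nat_lit 2178811798) (nat_lit 76) (nat_lit 5687470443) (nat_lit 75) (nat_lit 5) (nat_lit 78) (nat_lit 5) (nat_lit 76) (nat_lit 4) (nat_lit 440) (nat_lit 388) (nat_lit 372))) (XT.nd (nat_lit 78) (nat_lit 228) (nat_lit 0) (XT.lf (nat_lit 0) (nat_lit 7245642923) (nat_lit 152) (nat_lit 1241179860) (nat_lit 228) (nat_lit 3382132236) (nat_lit 73) (nat_lit 5) (nat_lit 75) (nat_lit 5) (nat_lit 76) (nat_lit 4) (nat_lit 441) (nat_lit 388) (nat_lit 371)) (XT.lf (nat_lit 0) (nat_lit 1329914662) (nat_lit 228)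 (nat_lit 7298933866) (nat_lit 76) (nat_lit 3556808373) (nat_lit 70) (nat_lit 5) (nat_lit 73) (nat_lit 5) (nat_lit 71) (nat_lit 4) (nat_lit 442) (nat_lit 388) (nat_lit 370)))) (XT.nd (nat_lit 156) (nat_lit 304) (nat_lit 0) (XT.nd (nat_lit 78) (nat_lit 0) (nat_lit 0) (XT.lf (nat_lit 0) (nat_lit 2293775487) (nat_lit 76) (nat_lit 3881065960) (nat_lit 152) (nat_lit 6340039889) (nat_lit 69) (nat_lit 5) (nat_lit 70) (nat_lit 5) (nat_lit 71) (nat_lit 4) (nat_lit 443) (nat_lit 388) (nat_lit 369)) (XT.lf (nat_lit 0) (nat_lit 11281148825) (nat_lit 152) (nat_lit 476250958) (nat_lit 0) (nat_lit 1102216844) (nat_lit 69) (nat_lit 5) (nat_lit 71) (nat_lit 4) (nat_lit 69) (nat_lit 4) (nat_lit 444) (nat_lit 388) (nat_lit 368))) (XT.nd (nat_lit 78) (nat_lit 76) (nat_lit 0) (XT.lf (nat_lit 0) (nat_lit 3411984981) (nat_lit 228) (nat_lit 3477541089) (nat_lit 76) (nat_lit 6324382593) (nat_lit 66) (nat_lit 5) (nat_lit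 69) (nat_lit 5) (nat_lit 67) (nat_lit 4) (nat_lit 445) (nat_lit 388) (nat_lit 367)) (XT.lf (nat_lit 0) (nat_lit 6872575758) (nat_lit 76) (nat_lit 1724450344) (nat_lit 152) (nat_lit 4987695230) (nat_lit 65) (nat_lit 5) (nat_lit 66) (nat_lit 5) (nat_lit 67) (nat_lit 4) (nat_lit 446) (nat_lit 388) (nat_lit 366))))) (XT.nd (nat_lit 312) (nat_lit 380) (nat_lit 0) (XT.nd (nat_lit 156) (nat_lit 228) (nat_lit 0) (XT.nd (nat_lit 78) (nat_lit 76) (nat_lit 0) (XT.lf (nat_lit 0) (nat_lit 125516074) (nat_lit 228) (nat_lit 10235310268) (nat_lit 76) (nat_lit 3610179588) (nat_lit 62) (nat_lit 5) (nat_lit 65) (nat_lit 5) (nat_lit 63) (nat_lit 4) (nat_lit 447) (nat_lit 388) (nat_lit 365)) (XT.lf (nat_lit 0) (nat_lit 250860923) (nat_lit 76) (nat_lit 5107518430) (nat_lit 152) (nat_lit 9012561334) (nat_lit 61) (nat_lit 5) (nat_lit 62) (nat_lit 5) (nat_lit 63) (nat_lit 4) (nat_lit 448) (nat_lit 388) (nat_lit 364)))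 (XT.nd (nat_lit 78) (nat_lit 228) (nat_lit 0) (XT.lf (nat_lit 0) (nat_lit 10920085522) (nat_lit 152) (nat_lit 3388802464) (nat_lit 0) (nat_lit 478628723) (nat_lit 61) (nat_lit 5) (nat_lit 63) (nat_lit 4) (nat_lit 61) (nat_lit 4) (nat_lit 449) (nat_lit 388) (nat_lit 363)) (XT.lf (nat_lit 0) (nat_lit 1583708591) (nat_lit 228) (nat_lit 7403210546) (nat_lit 76) (nat_lit 6231914174) (nat_lit 58) (nat_lit 5) (nat_lit 61) (nat_lit 5) (nat_lit 59) (nat_lit 4) (nat_lit 450) (nat_lit 388) (nat_lit 362)))) (XT.nd (nat_lit 156) (nat_lit 304) (nat_lit 0) (XT.nd (nat_lit 78) (nat_lit 0) (nat_lit 0) (XT.lf (nat_lit 0) (nat_lit 3884863348) (nat_lit 76) (nat_lit 3302020132) (nat_lit 152) (nat_lit 8481193677) (nat_lit 57) (nat_lit 5) (nat_lit 58) (nat_lit 5) (nat_lit 59) (nat_lit 4) (nat_lit 451) (nat_lit 388) (nat_lit 361)) (XT.lf (nat_lit 0) (nat_lit 13130374417) (nat_lit 152) (nat_lit 387680825) (nat_lit 0)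 (nat_lit 2618723800) (nat_lit 57) (nat_lit 5) (nat_lit 59) (nat_lit 4) (nat_lit 57) (nat_lit 4) (nat_lit 452) (nat_lit 388) (nat_lit 360))) (XT.nd (nat_lit 78) (nat_lit 76) (nat_lit 0) (XT.lf (nat_lit 0) (nat_lit 2789655726) (nat_lit 228) (nat_lit 4964271669) (nat_lit 76) (nat_lit 8866086535) (nat_lit 54) (nat_lit 5) (nat_lit 57) (nat_lit 5) (nat_lit 55) (nat_lit 4) (nat_lit 453) (nat_lit 388) (nat_lit 359)) (XT.lf (nat_lit 0) (nat_lit 7172529268) (nat_lit 76) (nat_lit 1617152603) (nat_lit 152) (nat_lit 8334507747) (nat_lit 53) (nat_lit 5) (nat_lit 54) (nat_lit 5) (nat_lit 55) (nat_lit 4) (nat_lit 454) (nat_lit 388) (nat_lit 358))))))))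
noncomputable def xc67 : XT := (XT.nd (nat_lit 2418) (nat_lit 1216) (nat_lit 0) (XT.nd (nat_lit 1170) (nat_lit 988) (nat_lit 0) (XT.nd (nat_lit 546) (nat_lit 608) (nat_lit 0) (XT.nd (nat_lit 234) (nat_lit 304) (nat_lit 0) (XT.nd (nat_lit 78) (nat_lit 152) (nat_lit 0) (XT.lf (nat_lit 0) (nat_lit 2238180773) (nat_lit 76) (nat_lit 12944329259) (nat_lit 76) (nat_lit 2466427076) (nat_lit 52) (nat_lit 4) (nat_lit 53) (nat_lit 5) (nat_lit 53) (nat_lit 4) (nat_lit 455) (nat_lit 388) (nat_lit 357)) (XT.nd (nat_lit 78) (nat_lit 76) (nat_lit 0) (XT.lf (nat_lit 0) (nat_lit 3671887857) (nat_lit 152) (nat_lit 3091555862) (nat_lit 76) (nat_lit 11428841758) (nat_lit 51) (nat_lit 5) (nat_lit 53) (nat_lit 5) (nat_lit 52) (nat_lit 4) (nat_lit 456) (nat_lit 388) (nat_lit 356)) (XT.lf (nat_lit 0) (nat_lit 9934361554) (nat_lit 76) (nat_lit 157148636) (nat_lit 152) (nat_lit 8666408060) (nat_lit 50) (nat_lit 5) (nat_lit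 51) (nat_lit 5) (nat_lit 52) (nat_lit 4) (nat_lit 457) (nat_lit 388) (nat_lit 355)))) (XT.nd (nat_lit 156) (nat_lit 152) (nat_lit 0) (XT.nd (nat_lit 78) (nat_lit 76) (nat_lit 0) (XT.lf (nat_lit 0) (nat_lit 4210557699) (nat_lit 76) (nat_lit 12748952429) (nat_lit 76) (nat_lit 2385955223) (nat_lit 49) (nat_lit 4) (nat_lit 50) (nat_lit 5) (nat_lit 50) (nat_lit 4) (nat_lit 458) (nat_lit 388) (nat_lit 354)) (XT.lf (nat_lit 0) (nat_lit 4131067211) (nat_lit 152) (nat_lit 2010330041) (nat_lit 76) (nat_lit 13814847199) (nat_lit 48) (nat_lit 5) (nat_lit 50) (nat_lit 5) (nat_lit 49) (nat_lit 4) (nat_lit 459) (nat_lit 388) (nat_lit 353))) (XT.nd (nat_lit 78) (nat_lit 76) (nat_lit 0) (XT.lf (nat_lit 0) (nat_lit 11002303092) (nat_lit 152) (nat_lit 8670826584) (nat_lit 0) (nat_lit 917051996) (nat_lit 47) (nat_lit 5) (nat_lit 49) (nat_lit 4) (nat_lit 47) (nat_lit 4) (nat_lit 460) (nat_lit 388) (nat_lit 352))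 (XT.lf (nat_lit 0) (nat_lit 5249159440) (nat_lit 76) (nat_lit 13092941227) (nat_lit 76) (nat_lit 2907467160) (nat_lit 46) (nat_lit 4) (nat_lit 47) (nat_lit 5) (nat_lit 47) (nat_lit 4) (nat_lit 461) (nat_lit 388) (nat_lit 351))))) (XT.nd (nat_lit 312) (nat_lit 304) (nat_lit 0) (XT.nd (nat_lit 156) (nat_lit 152) (nat_lit 0) (XT.nd (nat_lit 78) (nat_lit 76) (nat_lit 0) (XT.lf (nat_lit 0) (nat_lit 4032689817) (nat_lit 152) (nat_lit 2013910390) (nat_lit 76) (nat_lit 15889260219) (nat_lit 45) (nat_lit 5) (nat_lit 47) (nat_lit 5) (nat_lit 46) (nat_lit 4) (nat_lit 462) (nat_lit 388) (nat_lit 350)) (XT.lf (nat_lit 0) (nat_lit 11359210167) (nat_lit 152) (nat_lit 9806745717) (nat_lit 0) (nat_lit 1481277114) (nat_lit 44) (nat_lit 5) (nat_lit 46) (nat_lit 4) (nat_lit 44) (nat_lit 4) (nat_lit 463) (nat_lit 388) (nat_lit 349))) (XT.nd (nat_lit 78) (nat_lit 76) (nat_lit 0) (XT.lf (nat_lit 0) (nat_lit 5004815929)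 (nat_lit 76) (nat_lit 14171760360) (nat_lit 76) (nat_lit 4211373621) (nat_lit 43) (nat_lit 4) (nat_lit 44) (nat_lit 5) (nat_lit 44) (nat_lit 4) (nat_lit 464) (nat_lit 388) (nat_lit 348)) (XT.lf (nat_lit 0) (nat_lit 3197601773) (nat_lit 152) (nat_lit 3483830424) (nat_lit 76) (nat_lit 17477682784) (nat_lit 42) (nat_lit 5) (nat_lit 44) (nat_lit 5) (nat_lit 43) (nat_lit 4) (nat_lit 465) (nat_lit 388) (nat_lit 347)))) (XT.nd (nat_lit 156) (nat_lit 152) (nat_lit 0) (XT.nd (nat_lit 78) (nat_lit 76) (nat_lit 0) (XT.lf (nat_lit 0) (nat_lit 10966289997) (nat_lit 152) (nat_lit 12658365272) (nat_lit 0) (nat_lit 1334192869) (nat_lit 41) (nat_lit 5) (nat_lit 43) (nat_lit 4) (nat_lit 41) (nat_lit 4) (nat_lit 466) (nat_lit 388) (nat_lit 346)) (XT.lf (nat_lit 0) (nat_lit 3022616468) (nat_lit 76) (nat_lit 16234597401) (nat_lit 76) (nat_lit 6534665421) (nat_lit 40) (nat_lit 4) (nat_lit 41) (nat_lit 5) (nat_lit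 41) (nat_lit 4) (nat_lit 467) (nat_lit 388) (nat_lit 345))) (XT.nd (nat_lit 78) (nat_lit 76) (nat_lit 0) (XT.lf (nat_lit 0) (nat_lit 1389745552) (nat_lit 152) (nat_lit 6915558219) (nat_lit 76) (nat_lit 18353492312) (nat_lit 39) (nat_lit 5) (nat_lit 41) (nat_lit 5) (nat_lit 40) (nat_lit 4) (nat_lit 468) (nat_lit 388) (nat_lit 344)) (XT.lf (nat_lit 0) (nat_lit 9568030220) (nat_lit 152) (nat_lit 17781937128) (nat_lit 0) (nat_lit 209873256) (nat_lit 38) (nat_lit 5) (nat_lit 40) (nat_lit 4) (nat_lit 38) (nat_lit 4) (nat_lit 469) (nat_lit 388) (nat_lit 343)))))) (XT.nd (nat_lit 624) (nat_lit 532) (nat_lit 0) (XT.nd (nat_lit 312) (nat_lit 228) (nat_lit 0) (XT.nd (nat_lit 156) (nat_lit 152) (nat_lit 0) (XT.nd (nat_lit 78) (nat_lit 76) (nat_lit 0) (XT.lf (nat_lit 0) (nat_lit 18331771912) (nat_lit 152) (nat_lit 1247532402) (nat_lit 0) (nat_lit 8917807047) (nat_lit 38) (nat_lit 5) (nat_lit 40) (nat_lit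 4) (nat_lit 38) (nat_lit 4) (nat_lit 470) (nat_lit 388) (nat_lit 342)) (XT.lf (nat_lit 0) (nat_lit 16493379619) (nat_lit 76) (nat_lit 11222926065) (nat_lit 76) (nat_lit 1755810819) (nat_lit 37) (nat_lit 4) (nat_lit 38) (nat_lit 5) (nat_lit 38) (nat_lit 4) (nat_lit 471) (nat_lit 388) (nat_lit 341))) (XT.nd (nat_lit 78) (nat_lit 0) (nat_lit 0) (XT.lf (nat_lit 0) (nat_lit 4556691291) (nat_lit 76) (nat_lit 2308882342) (nat_lit 152) (nat_lit 23623886975) (nat_lit 35) (nat_lit 5) (nat_lit 36) (nat_lit 5) (nat_lit 37) (nat_lit 4) (nat_lit 472) (nat_lit 388) (nat_lit 340)) (XT.lf (nat_lit 0) (nat_lit 16117848083) (nat_lit 152) (nat_lit 8418018628) (nat_lit 0) (nat_lit 7007425587) (nat_lit 35) (nat_lit 5) (nat_lit 37) (nat_lit 4) (nat_lit 35) (nat_lit 4) (nat_lit 473) (nat_lit 388) (nat_lit 339)))) (XT.nd (nat_lit 156) (nat_lit 76) (nat_lit 0) (XT.nd (nat_lit 78) (nat_lit 76) (nat_lit 0) (XT.lf (nat_lit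 0) (nat_lit 10117145903) (nat_lit 76) (nat_lit 15840292456) (nat_lit 76) (nat_lit 6686143011) (nat_lit 34) (nat_lit 4) (nat_lit 35) (nat_lit 5) (nat_lit 35) (nat_lit 4) (nat_lit 474) (nat_lit 388) (nat_lit 338)) (XT.lf (nat_lit 0) (nat_lit 2484287785) (nat_lit 152) (nat_lit 4103004200) (nat_lit 76) (nat_lit 27205956637) (nat_lit 33) (nat_lit 5) (nat_lit 35) (nat_lit 5) (nat_lit 34) (nat_lit 4) (nat_lit 475) (nat_lit 388) (nat_lit 337))) (XT.nd (nat_lit 78) (nat_lit 0) (nat_lit 0) (XT.lf (nat_lit 0) (nat_lit 12116340410) (nat_lit 152) (nat_lit 19546521007) (nat_lit 0) (nat_lit 3320668226) (nat_lit 32) (nat_lit 5) (nat_lit 34) (nat_lit 4) (nat_lit 32) (nat_lit 4) (nat_lit 476) (nat_lit 388) (nat_lit 336)) (XT.lf (nat_lit 0) (nat_lit 22341079847) (nat_lit 152) (nat_lit 377258008) (nat_lit 0) (nat_lit 13509433393) (nat_lit 32) (nat_lit 5) (nat_lit 34) (nat_lit 4) (nat_lit 32) (nat_lit 4) (nat_lit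 477) (nat_lit 388) (nat_lit 335))))) (XT.nd (nat_lit 312) (nat_lit 228) (nat_lit 0) (XT.nd (nat_lit 156) (nat_lit 76) (nat_lit 0) (XT.nd (nat_lit 78) (nat_lit 152) (nat_lit 0) (XT.lf (nat_lit 0) (nat_lit 20270931934) (nat_lit 76) (nat_lit 13058296384) (nat_lit 76) (nat_lit 4192388719) (nat_lit 31) (nat_lit 4) (nat_lit 32) (nat_lit 5) (nat_lit 32) (nat_lit 4) (nat_lit 478) (nat_lit 388) (nat_lit 334)) (XT.lf (nat_lit 0) (nat_lit 2957490525) (nat_lit 76) (nat_lit 2825937725) (nat_lit 152) (nat_lit 33092633671) (nat_lit 29) (nat_lit 5) (nat_lit 30) (nat_lit 5) (nat_lit 31) (nat_lit 4) (nat_lit 479) (nat_lit 388) (nat_lit 333))) (XT.nd (nat_lit 78) (nat_lit 76) (nat_lit 0) (XT.lf (nat_lit 0) (nat_lit 16473547237) (nat_lit 152) (nat_lit 15834272287) (nat_lit 0) (nat_lit 7969153603) (nat_lit 29) (nat_lit 5) (nat_lit 31) (nat_lit 4) (nat_lit 29) (nat_lit 4) (nat_lit 480) (nat_lit 388) (nat_lit 332))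 (XT.lf (nat_lit 0) (nat_lit 5253693884) (nat_lit 76) (nat_lit 22511727280) (nat_lit 76) (nat_lit 13979146863) (nat_lit 28) (nat_lit 4) (nat_lit 29) (nat_lit 5) (nat_lit 29) (nat_lit 4) (nat_lit 481) (nat_lit 388) (nat_lit 331)))) (XT.nd (nat_lit 156) (nat_lit 76) (nat_lit 0) (XT.nd (nat_lit 78) (nat_lit 152) (nat_lit 0) (XT.lf (nat_lit 0) (nat_lit 27825390229) (nat_lit 76) (nat_lit 12004586778) (nat_lit 76) (nat_lit 3445161807) (nat_lit 28) (nat_lit 4) (nat_lit 29) (nat_lit 5) (nat_lit 29) (nat_lit 4) (nat_lit 482) (nat_lit 388) (nat_lit 330)) (XT.lf (nat_lit 0) (nat_lit 6619820925) (nat_lit 76) (nat_lit 797160605) (nat_lit 152) (nat_lit 37457051965) (nat_lit 26) (nat_lit 5) (nat_lit 27) (nat_lit 5) (nat_lit 28) (nat_lit 4) (nat_lit 483) (nat_lit 388) (nat_lit 329))) (XT.nd (nat_lit 78) (nat_lit 76) (nat_lit 0) (XT.lf (nat_lit 0) (nat_lit 19085601922) (nat_lit 152) (nat_lit 16559259588) (nat_lit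 0) (nat_lit 10886230479) (nat_lit 26) (nat_lit 5) (nat_lit 28) (nat_lit 4) (nat_lit 26) (nat_lit 4) (nat_lit 484) (nat_lit 388) (nat_lit 328)) (XT.lf (nat_lit 0) (nat_lit 6297829724) (nat_lit 76) (nat_lit 25095913095) (nat_lit 76) (nat_lit 16874456571) (nat_lit 25) (nat_lit 4) (nat_lit 26) (nat_lit 5) (nat_lit 26) (nat_lit 4) (nat_lit 485) (nat_lit 388) (nat_lit 327))))))) (XT.nd (nat_lit 1170) (nat_lit 532) (nat_lit 0) (XT.nd (nat_lit 546) (nat_lit 304) (nat_lit 0) (XT.nd (nat_lit 234) (nat_lit 228) (nat_lit 0) (XT.nd (nat_lit 78) (nat_lit 152) (nat_lit 0) (XT.lf (nat_lit 0) (nat_lit 30763352753) (nat_lit 76) (nat_lit 13779998379) (nat_lit 76) (nat_lit 5537508443) (nat_lit 25) (nat_lit 4) (nat_lit 26) (nat_lit 5) (nat_lit 26) (nat_lit 4) (nat_lit 486) (nat_lit 388) (nat_lit 326)) (XT.nd (nat_lit 78) (nat_lit 0) (nat_lit 0) (XT.lf (nat_lit 0) (nat_lit 4403693307) (nat_lit 76) (nat_lit 1774948186)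 (nat_lit 152) (nat_lit 45799736123) (nat_lit 23) (nat_lit 5) (nat_lit 24) (nat_lit 5) (nat_lit 25) (nat_lit 4) (nat_lit 487) (nat_lit 388) (nat_lit 325)) (XT.lf (nat_lit 0) (nat_lit 18743532924) (nat_lit 152) (nat_lit 24343953406) (nat_lit 0) (nat_lit 10856295134) (nat_lit 23) (nat_lit 5) (nat_lit 25) (nat_lit 4) (nat_lit 23) (nat_lit 4) (nat_lit 488) (nat_lit 388) (nat_lit 324)))) (XT.nd (nat_lit 156) (nat_lit 152) (nat_lit 0) (XT.nd (nat_lit 78) (nat_lit 76) (nat_lit 0) (XT.lf (nat_lit 0) (nat_lit 31915694002) (nat_lit 152) (nat_lit 81658632) (nat_lit 0) (nat_lit 24011151973) (nat_lit 23) (nat_lit 5) (nat_lit 25) (nat_lit 4) (nat_lit 23) (nat_lit 4) (nat_lit 489) (nat_lit 388) (nat_lit 323)) (XT.lf (nat_lit 0) (nat_lit 26134134820) (nat_lit 76) (nat_lit 19972667365) (nat_lit 76) (nat_lit 12051645109) (nat_lit 22) (nat_lit 4) (nat_lit 23) (nat_lit 5) (nat_lit 23) (nat_lit 4) (nat_lit 490) (nat_lit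 388) (nat_lit 322))) (XT.nd (nat_lit 78) (nat_lit 76) (nat_lit 0) (XT.lf (nat_lit 0) (nat_lit 526388071) (nat_lit 152) (nat_lit 6857622165) (nat_lit 76) (nat_lit 53033728197) (nat_lit 21) (nat_lit 5) (nat_lit 23) (nat_lit 5) (nat_lit 22) (nat_lit 4) (nat_lit 491) (nat_lit 388) (nat_lit 321)) (XT.lf (nat_lit 0) (nat_lit 13692559095) (nat_lit 152) (nat_lit 42949800322) (nat_lit 0) (nat_lit 6119544082) (nat_lit 20) (nat_lit 5) (nat_lit 22) (nat_lit 4) (nat_lit 20) (nat_lit 4) (nat_lit 492) (nat_lit 388) (nat_lit 320))))) (XT.nd (nat_lit 312) (nat_lit 152) (nat_lit 0) (XT.nd (nat_lit 156) (nat_lit 76) (nat_lit 0) (XT.nd (nat_lit 78) (nat_lit 76) (nat_lit 0) (XT.lf (nat_lit 0) (nat_lit 27710783400) (nat_lit 152) (nat_lit 17378596400) (nat_lit 0) (nat_lit 20124210063) (nat_lit 20) (nat_lit 5) (nat_lit 22) (nat_lit 4) (nat_lit 20) (nat_lit 4) (nat_lit 493) (nat_lit 388) (nat_lit 319)) (XT.lf (nat_lit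 0) (nat_lit 9694235069) (nat_lit 76) (nat_lit 32843851689) (nat_lit 76) (nat_lit 25244365662) (nat_lit 19) (nat_lit 4) (nat_lit 20) (nat_lit 5) (nat_lit 20) (nat_lit 4) (nat_lit 494) (nat_lit 388) (nat_lit 318))) (XT.nd (nat_lit 78) (nat_lit 76) (nat_lit 0) (XT.lf (nat_lit 0) (nat_lit 38638251618) (nat_lit 76) (nat_lit 19720349146) (nat_lit 76) (nat_lit 12108565320) (nat_lit 19) (nat_lit 4) (nat_lit 20) (nat_lit 5) (nat_lit 20) (nat_lit 4) (nat_lit 495) (nat_lit 388) (nat_lit 317)) (XT.lf (nat_lit 0) (nat_lit 1589015316) (nat_lit 152) (nat_lit 4366014618) (nat_lit 76) (nat_lit 67331826630) (nat_lit 18) (nat_lit 5) (nat_lit 20) (nat_lit 5) (nat_lit 19) (nat_lit 4) (nat_lit 496) (nat_lit 388) (nat_lit 316)))) (XT.nd (nat_lit 156) (nat_lit 76) (nat_lit 0) (XT.nd (nat_lit 78) (nat_lit 0) (nat_lit 0) (XT.lf (nat_lit 0) (nat_lit 16057308279) (nat_lit 152) (nat_lit 51369447849) (nat_lit 0) (nat_lit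 8786212580) (nat_lit 17) (nat_lit 5) (nat_lit 19) (nat_lit 4) (nat_lit 17) (nat_lit 4) (nat_lit 497) (nat_lit 388) (nat_lit 315)) (XT.lf (nat_lit 0) (nat_lit 31382674127) (nat_lit 152) (nat_lit 23794568632) (nat_lit 0) (nat_lit 24101460998) (nat_lit 17) (nat_lit 5) (nat_lit 19) (nat_lit 4) (nat_lit 17) (nat_lit 4) (nat_lit 498) (nat_lit 388) (nat_lit 314))) (XT.nd (nat_lit 78) (nat_lit 0) (nat_lit 0) (XT.lf (nat_lit 0) (nat_lit 5251757981) (nat_lit 76) (nat_lit 42267289789) (nat_lit 76) (nat_lit 34976441012) (nat_lit 16) (nat_lit 4) (nat_lit 17) (nat_lit 5) (nat_lit 17) (nat_lit 4) (nat_lit 499) (nat_lit 388) (nat_lit 313)) (XT.lf (nat_lit 0) (nat_lit 36502324899) (nat_lit 76) (nat_lit 28326248630) (nat_lit 76) (nat_lit 21026223046) (nat_lit 16) (nat_lit 4) (nat_lit 17) (nat_lit 5) (nat_lit 17) (nat_lit 4) (nat_lit 500) (nat_lit 388) (nat_lit 312)))))) (XT.nd (nat_lit 624) (nat_lit 228) (nat_lit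 0) (XT.nd (nat_lit 312) (nat_lit 152) (nat_lit 0) (XT.nd (nat_lit 156) (nat_lit 0) (nat_lit 0) (XT.nd (nat_lit 78) (nat_lit 152) (nat_lit 0) (XT.lf (nat_lit 0) (nat_lit 69244782335) (nat_lit 76) (nat_lit 13723898862) (nat_lit 76) (nat_lit 6415133462) (nat_lit 16) (nat_lit 4) (nat_lit 17) (nat_lit 5) (nat_lit 17) (nat_lit 4) (nat_lit 501) (nat_lit 388) (nat_lit 311)) (XT.lf (nat_lit 0) (nat_lit 8803187701) (nat_lit 152) (nat_lit 82436477179) (nat_lit 0) (nat_lit 1834531477) (nat_lit 14) (nat_lit 5) (nat_lit 16) (nat_lit 4) (nat_lit 14) (nat_lit 4) (nat_lit 502) (nat_lit 388) (nat_lit 310))) (XT.nd (nat_lit 78) (nat_lit 0) (nat_lit 0) (XT.lf (nat_lit 0) (nat_lit 25104720094) (nat_lit 152) (nat_lit 53683710523) (nat_lit 0) (nat_lit 18128514087) (nat_lit 14) (nat_lit 5) (nat_lit 16) (nat_lit 4) (nat_lit 14) (nat_lit 4) (nat_lit 503) (nat_lit 388) (nat_lit 309)) (XT.lf (nat_lit 0) (nat_lit 42189184628)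 (nat_lit 152) (nat_lit 23558464860) (nat_lit 0) (nat_lit 35205788353) (nat_lit 14) (nat_lit 5) (nat_lit 16) (nat_lit 4) (nat_lit 14) (nat_lit 4) (nat_lit 504) (nat_lit 388) (nat_lit 308)))) (XT.nd (nat_lit 156) (nat_lit 76) (nat_lit 0) (XT.nd (nat_lit 78) (nat_lit 0) (nat_lit 0) (XT.lf (nat_lit 0) (nat_lit 8275865979) (nat_lit 76) (nat_lit 51950602082) (nat_lit 76) (nat_lit 44960357931) (nat_lit 13) (nat_lit 4) (nat_lit 14) (nat_lit 5) (nat_lit 14) (nat_lit 4) (nat_lit 505) (nat_lit 388) (nat_lit 307)) (XT.lf (nat_lit 0) (nat_lit 42458754476) (nat_lit 76) (nat_lit 37075725954) (nat_lit 76) (nat_lit 30078960017) (nat_lit 13) (nat_lit 4) (nat_lit 14) (nat_lit 5) (nat_lit 14) (nat_lit 4) (nat_lit 506) (nat_lit 388) (nat_lit 306))) (XT.nd (nat_lit 78) (nat_lit 76) (nat_lit 0) (XT.lf (nat_lit 0) (nat_lit 78292639217) (nat_lit 76) (nat_lit 21486578735) (nat_lit 76) (nat_lit 14483601574) (nat_lit 13)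 (nat_lit 4) (nat_lit 14) (nat_lit 5) (nat_lit 14) (nat_lit 4) (nat_lit 507) (nat_lit 388) (nat_lit 305)) (XT.lf (nat_lit 0) (nat_lit 1803226395) (nat_lit 152) (nat_lit 3312278501) (nat_lit 76) (nat_lit 114029074069) (nat_lit 12) (nat_lit 5) (nat_lit 14) (nat_lit 5) (nat_lit 13) (nat_lit 4) (nat_lit 508) (nat_lit 388) (nat_lit 304))))) (XT.nd (nat_lit 312) (nat_lit 76) (nat_lit 0) (XT.nd (nat_lit 156) (nat_lit 76) (nat_lit 0) (XT.nd (nat_lit 78) (nat_lit 0) (nat_lit 0) (XT.lf (nat_lit 0) (nat_lit 19086267926) (nat_lit 152) (nat_lit 92733089332) (nat_lit 0) (nat_lit 12405766615) (nat_lit 11) (nat_lit 5) (nat_lit 13) (nat_lit 4) (nat_lit 11) (nat_lit 4) (nat_lit 509) (nat_lit 388) (nat_lit 303)) (XT.lf (nat_lit 0) (nat_lit 37347918513) (nat_lit 152) (nat_lit 61543747560) (nat_lit 0) (nat_lit 30662307212) (nat_lit 11) (nat_lit 5) (nat_lit 13) (nat_lit 4) (nat_lit 11) (nat_lit 4) (nat_lit 510) (nat_lit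 388) (nat_lit 302))) (XT.nd (nat_lit 78) (nat_lit 76) (nat_lit 0) (XT.lf (nat_lit 0) (nat_lit 56497491260) (nat_lit 152) (nat_lit 28846018723) (nat_lit 0) (nat_lit 49807013302) (nat_lit 11) (nat_lit 5) (nat_lit 13) (nat_lit 4) (nat_lit 11) (nat_lit 4) (nat_lit 511) (nat_lit 388) (nat_lit 301)) (XT.lf (nat_lit 0) (nat_lit 5617752062) (nat_lit 76) (nat_lit 71050537179) (nat_lit 76) (nat_lit 64355424310) (nat_lit 10) (nat_lit 4) (nat_lit 11) (nat_lit 5) (nat_lit 11) (nat_lit 4) (nat_lit 512) (nat_lit 388) (nat_lit 300)))) (XT.nd (nat_lit 156) (nat_lit 76) (nat_lit 0) (XT.nd (nat_lit 78) (nat_lit 0) (nat_lit 0) (XT.lf (nat_lit 0) (nat_lit 42758317019) (nat_lit 76) (nat_lit 55554262916) (nat_lit 76) (nat_lit 48854735846) (nat_lit 10) (nat_lit 4) (nat_lit 11) (nat_lit 5) (nat_lit 11) (nat_lit 4) (nat_lit 513) (nat_lit 388) (nat_lit 299)) (XT.lf (nat_lit 0) (nat_lit 81710326412) (nat_lit 76) (nat_lit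 39306312588) (nat_lit 76) (nat_lit 32602581517) (nat_lit 10) (nat_lit 4) (nat_lit 11) (nat_lit 5) (nat_lit 11) (nat_lit 4) (nat_lit 514) (nat_lit 388) (nat_lit 298))) (XT.nd (nat_lit 78) (nat_lit 76) (nat_lit 0) (XT.lf (nat_lit 0) (nat_lit 122566523120) (nat_lit 76) (nat_lit 22268000600) (nat_lit 76) (nat_lit 15560265717) (nat_lit 10) (nat_lit 4) (nat_lit 11) (nat_lit 5) (nat_lit 11) (nat_lit 4) (nat_lit 515) (nat_lit 388) (nat_lit 297)) (XT.lf (nat_lit 0) (nat_lit 2238764818) (nat_lit 152) (nat_lit 2122080156) (nat_lit 76) (nat_lit 163147504419) (nat_lit 9) (nat_lit 5) (nat_lit 11) (nat_lit 5) (nat_lit 10) (nat_lit 4) (nat_lit 516) (nat_lit 388) (nat_lit 296))))))))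
noncomputable def xc68 : XT := (XT.nd (nat_lit 2418) (nat_lit 0) (nat_lit 0) (XT.nd (nat_lit 1170) (nat_lit 228) (nat_lit 0) (XT.nd (nat_lit 546) (nat_lit 152) (nat_lit 0) (XT.nd (nat_lit 234) (nat_lit 76) (nat_lit 0) (XT.nd (nat_lit 78) (nat_lit 0) (nat_lit 0) (XT.lf (nat_lit 0) (nat_lit 21189440063) (nat_lit 152) (nat_lit 138942131122) (nat_lit 0) (nat_lit 14794030911) (nat_lit 8) (nat_lit 5) (nat_lit 10) (nat_lit 4) (nat_lit 8) (nat_lit 4) (nat_lit 517) (nat_lit 388) (nat_lit 295)) (XT.nd (nat_lit 78) (nat_lit 0) (nat_lit 0) (XT.lf (nat_lit 0) (nat_lit 41175969508) (nat_lit 152) (nat_lit 106756065559) (nat_lit 0) (nat_lit 34777266411) (nat_lit 8) (nat_lit 5) (nat_lit 10) (nat_lit 4) (nat_lit 8) (nat_lit 4) (nat_lit 518) (nat_lit 388) (nat_lit 294)) (XT.lf (nat_lit 0) (nat_lit 62143066919) (nat_lit 152) (nat_lit 72998830169) (nat_lit 0) (nat_lit 55741226732) (nat_lit 8) (nat_lit 5) (nat_lit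 10) (nat_lit 4) (nat_lit 8) (nat_lit 4) (nat_lit 519) (nat_lit 388) (nat_lit 293)))) (XT.nd (nat_lit 156) (nat_lit 76) (nat_lit 0) (XT.nd (nat_lit 78) (nat_lit 0) (nat_lit 0) (XT.lf (nat_lit 0) (nat_lit 84140653956) (nat_lit 152) (nat_lit 37590050584) (nat_lit 0) (nat_lit 77735826063) (nat_lit 8) (nat_lit 5) (nat_lit 10) (nat_lit 4) (nat_lit 8) (nat_lit 4) (nat_lit 520) (nat_lit 388) (nat_lit 292)) (XT.lf (nat_lit 0) (nat_lit 107221105826) (nat_lit 152) (nat_lit 445420184) (nat_lit 0) (nat_lit 100813432500) (nat_lit 8) (nat_lit 5) (nat_lit 10) (nat_lit 4) (nat_lit 8) (nat_lit 4) (nat_lit 521) (nat_lit 388) (nat_lit 291))) (XT.nd (nat_lit 78) (nat_lit 0) (nat_lit 0) (XT.lf (nat_lit 0) (nat_lit 39797261533) (nat_lit 76) (nat_lit 92263461237) (nat_lit 76) (nat_lit 85853077974) (nat_lit 7) (nat_lit 4) (nat_lit 8) (nat_lit 5) (nat_lit 8) (nat_lit 4) (nat_lit 522) (nat_lit 388) (nat_lit 290)) (XT.lf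 (nat_lit 0) (nat_lit 82035131518) (nat_lit 76) (nat_lit 76098793772) (nat_lit 76) (nat_lit 69685829617) (nat_lit 7) (nat_lit 4) (nat_lit 8) (nat_lit 5) (nat_lit 8) (nat_lit 4) (nat_lit 523) (nat_lit 388) (nat_lit 289))))) (XT.nd (nat_lit 312) (nat_lit 0) (nat_lit 0) (XT.nd (nat_lit 156) (nat_lit 152) (nat_lit 0) (XT.nd (nat_lit 78) (nat_lit 0) (nat_lit 0) (XT.lf (nat_lit 0) (nat_lit 126354028525) (nat_lit 76) (nat_lit 59141579718) (nat_lit 76) (nat_lit 52726157570) (nat_lit 7) (nat_lit 4) (nat_lit 8) (nat_lit 5) (nat_lit 8) (nat_lit 4) (nat_lit 524) (nat_lit 388) (nat_lit 288)) (XT.lf (nat_lit 0) (nat_lit 172859473738) (nat_lit 76) (nat_lit 41351444755) (nat_lit 76) (nat_lit 34933681663) (nat_lit 7) (nat_lit 4) (nat_lit 8) (nat_lit 5) (nat_lit 8) (nat_lit 4) (nat_lit 525) (nat_lit 388) (nat_lit 287))) (XT.nd (nat_lit 78) (nat_lit 152) (nat_lit 0) (XT.lf (nat_lit 0) (nat_lit 221662194406) (nat_lit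 76) (nat_lit 22686031420) (nat_lit 76) (nat_lit 16266038856) (nat_lit 7) (nat_lit 4) (nat_lit 8) (nat_lit 5) (nat_lit 8) (nat_lit 4) (nat_lit 526) (nat_lit 388) (nat_lit 286)) (XT.lf (nat_lit 0) (nat_lit 174036090) (nat_lit 76) (nat_lit 3043599012) (nat_lit 152) (nat_lit 269437704482) (nat_lit 5) (nat_lit 5) (nat_lit 6) (nat_lit 5) (nat_lit 7) (nat_lit 4) (nat_lit 527) (nat_lit 388) (nat_lit 285)))) (XT.nd (nat_lit 156) (nat_lit 0) (nat_lit 0) (XT.nd (nat_lit 78) (nat_lit 0) (nat_lit 0) (XT.lf (nat_lit 0) (nat_lit 24060500464) (nat_lit 152) (nat_lit 243235778589) (nat_lit 0) (nat_lit 17942273734) (nat_lit 5) (nat_lit 5) (nat_lit 7) (nat_lit 4) (nat_lit 5) (nat_lit 4) (nat_lit 528) (nat_lit 388) (nat_lit 284)) (XT.lf (nat_lit 0) (nat_lit 45982717339) (nat_lit 152) (nat_lit 212603692520) (nat_lit 0) (nat_lit 39862656417) (nat_lit 5) (nat_lit 5) (nat_lit 7) (nat_lit 4) (nat_lit 5) (nat_lit 4) (nat_lit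 529) (nat_lit 388) (nat_lit 283))) (XT.nd (nat_lit 78) (nat_lit 0) (nat_lit 0) (XT.lf (nat_lit 0) (nat_lit 68988962372) (nat_lit 152) (nat_lit 180464592639) (nat_lit 0) (nat_lit 62867154600) (nat_lit 5) (nat_lit 5) (nat_lit 7) (nat_lit 4) (nat_lit 5) (nat_lit 4) (nat_lit 530) (nat_lit 388) (nat_lit 282)) (XT.lf (nat_lit 0) (nat_lit 93134012335) (nat_lit 152) (nat_lit 146741957279) (nat_lit 0) (nat_lit 87010540897) (nat_lit 5) (nat_lit 5) (nat_lit 7) (nat_lit 4) (nat_lit 5) (nat_lit 4) (nat_lit 531) (nat_lit 388) (nat_lit 281)))))) (XT.nd (nat_lit 624) (nat_lit 152) (nat_lit 0) (XT.nd (nat_lit 312) (nat_lit 0) (nat_lit 0) (XT.nd (nat_lit 156) (nat_lit 76) (nat_lit 0) (XT.nd (nat_lit 78) (nat_lit 0) (nat_lit 0) (XT.lf (nat_lit 0) (nat_lit 118475355444) (nat_lit 152) (nat_lit 111355494452) (nat_lit 0) (nat_lit 112350299562) (nat_lit 5) (nat_lit 5) (nat_lit 7) (nat_lit 4) (nat_lit 5) (nat_lit 4)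 (nat_lit 532) (nat_lit 388) (nat_lit 280)) (XT.lf (nat_lit 0) (nat_lit 145073328230) (nat_lit 152) (nat_lit 74220950674) (nat_lit 0) (nat_lit 138946763354) (nat_lit 5) (nat_lit 5) (nat_lit 7) (nat_lit 4) (nat_lit 5) (nat_lit 4) (nat_lit 533) (nat_lit 388) (nat_lit 279))) (XT.nd (nat_lit 78) (nat_lit 76) (nat_lit 0) (XT.lf (nat_lit 0) (nat_lit 172991259198) (nat_lit 152) (nat_lit 35249910365) (nat_lit 0) (nat_lit 166863257185) (nat_lit 5) (nat_lit 5) (nat_lit 7) (nat_lit 4) (nat_lit 5) (nat_lit 4) (nat_lit 534) (nat_lit 388) (nat_lit 278)) (XT.lf (nat_lit 0) (nat_lit 5837242892) (nat_lit 76) (nat_lit 196549512442) (nat_lit 76) (nat_lit 190420141727) (nat_lit 4) (nat_lit 4) (nat_lit 5) (nat_lit 5) (nat_lit 5) (nat_lit 4) (nat_lit 535) (nat_lit 388) (nat_lit 277)))) (XT.nd (nat_lit 156) (nat_lit 0) (nat_lit 0) (XT.nd (nat_lit 78) (nat_lit 0) (nat_lit 0) (XT.lf (nat_lit 0) (nat_lit 50183594574) (nat_lit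 76) (nat_lit 183656093741) (nat_lit 76) (nat_lit 177525419500) (nat_lit 4) (nat_lit 4) (nat_lit 5) (nat_lit 5) (nat_lit 5) (nat_lit 4) (nat_lit 536) (nat_lit 388) (nat_lit 276)) (XT.lf (nat_lit 0) (nat_lit 96729210002) (nat_lit 76) (nat_lit 170127189133) (nat_lit 76) (nat_lit 163995273438) (nat_lit 4) (nat_lit 4) (nat_lit 5) (nat_lit 5) (nat_lit 5) (nat_lit 4) (nat_lit 537) (nat_lit 388) (nat_lit 275))) (XT.nd (nat_lit 78) (nat_lit 0) (nat_lit 0) (XT.lf (nat_lit 0) (nat_lit 145584912069) (nat_lit 76) (nat_lit 155930586940) (nat_lit 76) (nat_lit 149797488909) (nat_lit 4) (nat_lit 4) (nat_lit 5) (nat_lit 5) (nat_lit 5) (nat_lit 4) (nat_lit 538) (nat_lit 388) (nat_lit 274)) (XT.lf (nat_lit 0) (nat_lit 196867023876) (nat_lit 76) (nat_lit 141032485728) (nat_lit 76) (nat_lit 134898261662) (nat_lit 4) (nat_lit 4) (nat_lit 5) (nat_lit 5) (nat_lit 5) (nat_lit 4) (nat_lit 539) (nat_lit 388) (nat_lit 273)))))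 (XT.nd (nat_lit 312) (nat_lit 152) (nat_lit 0) (XT.nd (nat_lit 156) (nat_lit 0) (nat_lit 0) (XT.nd (nat_lit 78) (nat_lit 0) (nat_lit 0) (XT.lf (nat_lit 0) (nat_lit 250697645688) (nat_lit 76) (nat_lit 125397413828) (nat_lit 76) (nat_lit 119262117348) (nat_lit 4) (nat_lit 4) (nat_lit 5) (nat_lit 5) (nat_lit 5) (nat_lit 4) (nat_lit 540) (nat_lit 388) (nat_lit 272)) (XT.lf (nat_lit 0) (nat_lit 307204945654) (nat_lit 76) (nat_lit 108988144878) (nat_lit 76) (nat_lit 102851827052) (nat_lit 4) (nat_lit 4) (nat_lit 5) (nat_lit 5) (nat_lit 5) (nat_lit 4) (nat_lit 541) (nat_lit 388) (nat_lit 271))) (XT.nd (nat_lit 78) (nat_lit 0) (nat_lit 0) (XT.lf (nat_lit 0) (nat_lit 366523464963) (nat_lit 76) (nat_lit 91765609190) (nat_lit 76) (nat_lit 85628318653) (nat_lit 4) (nat_lit 4) (nat_lit 5) (nat_lit 5) (nat_lit 5) (nat_lit 4) (nat_lit 542) (nat_lit 388) (nat_lit 270)) (XT.lf (nat_lit 0) (nat_lit 428794438185)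 (nat_lit 76) (nat_lit 73688800727) (nat_lit 76) (nat_lit 67550583798) (nat_lit 4) (nat_lit 4) (nat_lit 5) (nat_lit 5) (nat_lit 5) (nat_lit 4) (nat_lit 543) (nat_lit 388) (nat_lit 269)))) (XT.nd (nat_lit 156) (nat_lit 152) (nat_lit 0) (XT.nd (nat_lit 78) (nat_lit 0) (nat_lit 0) (XT.lf (nat_lit 0) (nat_lit 494166129542) (nat_lit 76) (nat_lit 54714679469) (nat_lit 76) (nat_lit 48575580262) (nat_lit 4) (nat_lit 4) (nat_lit 5) (nat_lit 5) (nat_lit 5) (nat_lit 4) (nat_lit 544) (nat_lit 388) (nat_lit 268)) (XT.lf (nat_lit 0) (nat_lit 562794185918) (nat_lit 76) (nat_lit 34798068936) (nat_lit 76) (nat_lit 28658129465) (nat_lit 4) (nat_lit 4) (nat_lit 5) (nat_lit 5) (nat_lit 5) (nat_lit 4) (nat_lit 545) (nat_lit 388) (nat_lit 267))) (XT.nd (nat_lit 78) (nat_lit 152) (nat_lit 0) (XT.lf (nat_lit 0) (nat_lit 634842007449) (nat_lit 76) (nat_lit 13891548627) (nat_lit 76) (nat_lit 7750808905) (nat_lit 4) (nat_lit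 4) (nat_lit 5) (nat_lit 5) (nat_lit 5) (nat_lit 4) (nat_lit 546) (nat_lit 388) (nat_lit 266)) (XT.lf (nat_lit 0) (nat_lit 14232318285) (nat_lit 152) (nat_lit 665579121492) (nat_lit 0) (nat_lit 8383268888) (nat_lit 2) (nat_lit 5) (nat_lit 4) (nat_lit 4) (nat_lit 2) (nat_lit 4) (nat_lit 547) (nat_lit 388) (nat_lit 265))))))) (XT.nd (nat_lit 53508) (nat_lit 0) (nat_lit 4560) (XT.nd (nat_lit 52884) (nat_lit 0) (nat_lit 6764) (XT.nd (nat_lit 234) (nat_lit 0) (nat_lit 0) (XT.nd (nat_lit 78) (nat_lit 0) (nat_lit 0) (XT.lf (nat_lit 0) (nat_lit 37648854949) (nat_lit 152) (nat_lit 652006510656) (nat_lit 0) (nat_lit 31799114264) (nat_lit 2) (nat_lit 5) (nat_lit 4) (nat_lit 4) (nat_lit 2) (nat_lit 4) (nat_lit 548) (nat_lit 388) (nat_lit 264)) (XT.nd (nat_lit 78) (nat_lit 0) (nat_lit 0) (XT.lf (nat_lit 0) (nat_lit 62230950283) (nat_lit 152) (nat_lit 637766001545) (nat_lit 0) (nat_lit 56380551229) (nat_lit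 2) (nat_lit 5) (nat_lit 4) (nat_lit 4) (nat_lit 2) (nat_lit 4) (nat_lit 549) (nat_lit 388) (nat_lit 263)) (XT.lf (nat_lit 0) (nat_lit 88037133085) (nat_lit 152) (nat_lit 622823688182) (nat_lit 0) (nat_lit 82186107013) (nat_lit 2) (nat_lit 5) (nat_lit 4) (nat_lit 4) (nat_lit 2) (nat_lit 4) (nat_lit 550) (nat_lit 388) (nat_lit 262)))) (XT.nd (nat_lit 52494) (nat_lit 0) (nat_lit 8664) (XT.nd (nat_lit 52416) (nat_lit 0) (nat_lit 9348) (XT.lf (nat_lit 0) (nat_lit 115128846649) (nat_lit 152) (nat_lit 607143993633) (nat_lit 0) (nat_lit 109277223416) (nat_lit 2) (nat_lit 5) (nat_lit 4) (nat_lit 4) (nat_lit 2) (nat_lit 4) (nat_lit 551) (nat_lit 388) (nat_lit 261)) (XT.lf (nat_lit 0) (nat_lit 1744763759) (nat_lit 380) (nat_lit 435467144) (nat_lit 0) (nat_lit 1744763759) (nat_lit 125) (nat_lit 5) (nat_lit 130) (nat_lit 4) (nat_lit 125) (nat_lit 4) (nat_lit 422) (nat_lit 389) (nat_lit 389))) (XT.nd (nat_lit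 78) (nat_lit 380) (nat_lit 0) (XT.lf (nat_lit 0) (nat_lit 5724676586) (nat_lit 304) (nat_lit 1763202585) (nat_lit 304) (nat_lit 496102772) (nat_lit 121) (nat_lit 4) (nat_lit 125) (nat_lit 5) (nat_lit 125) (nat_lit 4) (nat_lit 423) (nat_lit 389) (nat_lit 388)) (XT.lf (nat_lit 0) (nat_lit 3382680813) (nat_lit 380) (nat_lit 3715854848) (nat_lit 0) (nat_lit 1026622204) (nat_lit 116) (nat_lit 5) (nat_lit 121) (nat_lit 4) (nat_lit 116) (nat_lit 4) (nat_lit 424) (nat_lit 389) (nat_lit 387))))) (XT.nd (nat_lit 312) (nat_lit 988) (nat_lit 0) (XT.nd (nat_lit 156) (nat_lit 304) (nat_lit 0) (XT.nd (nat_lit 78) (nat_lit 304) (nat_lit 0) (XT.lf (nat_lit 0) (nat_lit 3059243043) (nat_lit 304) (nat_lit 4333349732) (nat_lit 304) (nat_lit 882722664) (nat_lit 112) (nat_lit 4) (nat_lit 116) (nat_lit 5) (nat_lit 116) (nat_lit 4) (nat_lit 425) (nat_lit 389) (nat_lit 386)) (XT.lf (nat_lit 0) (nat_lit 1653588565) (nat_lit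 228) (nat_lit 1344783037) (nat_lit 304) (nat_lit 5435664494) (nat_lit 108) (nat_lit 5) (nat_lit 111) (nat_lit 5) (nat_lit 112) (nat_lit 4) (nat_lit 426) (nat_lit 389) (nat_lit 385))) (XT.nd (nat_lit 78) (nat_lit 76) (nat_lit 0) (XT.lf (nat_lit 0) (nat_lit 189334574) (nat_lit 228) (nat_lit 6818549729) (nat_lit 228) (nat_lit 1593902988) (nat_lit 105) (nat_lit 4) (nat_lit 108) (nat_lit 5) (nat_lit 108) (nat_lit 4) (nat_lit 427) (nat_lit 389) (nat_lit 384)) (XT.lf (nat_lit 0) (nat_lit 2345397199) (nat_lit 304) (nat_lit 1317086662) (nat_lit 76) (nat_lit 5114377947) (nat_lit 104) (nat_lit 5) (nat_lit 108) (nat_lit 5) (nat_lit 105) (nat_lit 4) (nat_lit 428) (nat_lit 389) (nat_lit 383)))) (XT.nd (nat_lit 156) (nat_lit 456) (nat_lit 0) (XT.nd (nat_lit 78) (nat_lit 304) (nat_lit 0) (XT.lf (nat_lit 0) (nat_lit 6086596529) (nat_lit 228) (nat_lit 288706143) (nat_lit 304) (nat_lit 2586737452) (nat_lit 101)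 (nat_lit 5) (nat_lit 104) (nat_lit 5) (nat_lit 105) (nat_lit 4) (nat_lit 429) (nat_lit 389) (nat_lit 382)) (XT.lf (nat_lit 0) (nat_lit 1404420107) (nat_lit 304) (nat_lit 4549089053) (nat_lit 76) (nat_lit 3201820853) (nat_lit 97) (nat_lit 5) (nat_lit 101) (nat_lit 5) (nat_lit 98) (nat_lit 4) (nat_lit 430) (nat_lit 389) (nat_lit 381))) (XT.nd (nat_lit 78) (nat_lit 304) (nat_lit 0) (XT.lf (nat_lit 0) (nat_lit 3036141894) (nat_lit 152) (nat_lit 2429779659) (nat_lit 228) (nat_lit 3892371252) (nat_lit 95) (nat_lit 5) (nat_lit 97) (nat_lit 5) (nat_lit 98) (nat_lit 4) (nat_lit 431) (nat_lit 389) (nat_lit 380)) (XT.lf (nat_lit 0) (nat_lit 131918613) (nat_lit 304) (nat_lit 8181534346) (nat_lit 76) (nat_lit 1258943965) (nat_lit 91) (nat_lit 5) (nat_lit 95) (nat_lit 5) (nat_lit 92) (nat_lit 4) (nat_lit 432) (nat_lit 389) (nat_lit 379)))))) (XT.nd (nat_lit 624) (nat_lit 988) (nat_lit 0) (XT.nd (nat_lit 312)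 (nat_lit 608) (nat_lit 0) (XT.nd (nat_lit 156) (nat_lit 456) (nat_lit 0) (XT.nd (nat_lit 78) (nat_lit 152) (nat_lit 0) (XT.lf (nat_lit 0) (nat_lit 4234733661) (nat_lit 304) (nat_lit 410735006) (nat_lit 76) (nat_lit 5148153690) (nat_lit 91) (nat_lit 5) (nat_lit 95) (nat_lit 5) (nat_lit 92) (nat_lit 4) (nat_lit 433) (nat_lit 389) (nat_lit 378)) (XT.lf (nat_lit 0) (nat_lit 7785894210) (nat_lit 152) (nat_lit 744510618) (nat_lit 228) (nat_lit 1496130438) (nat_lit 89) (nat_lit 5) (nat_lit 91) (nat_lit 5) (nat_lit 92) (nat_lit 4) (nat_lit 434) (nat_lit 389) (nat_lit 377))) (XT.nd (nat_lit 78) (nat_lit 152) (nat_lit 0) (XT.lf (nat_lit 0) (nat_lit 2703595017) (nat_lit 304) (nat_lit 4249924225) (nat_lit 76) (nat_lit 3314299291) (nat_lit 85) (nat_lit 5) (nat_lit 89) (nat_lit 5) (nat_lit 86) (nat_lit 4) (nat_lit 435) (nat_lit 389) (nat_lit 376)) (XT.lf (nat_lit 0) (nat_lit 4127925011) (nat_lit 152) (nat_lit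 2919257996) (nat_lit 228) (nat_lit 3473559159) (nat_lit 83) (nat_lit 5) (nat_lit 85) (nat_lit 5) (nat_lit 86) (nat_lit 4) (nat_lit 436) (nat_lit 389) (nat_lit 375)))) (XT.nd (nat_lit 156) (nat_lit 380) (nat_lit 0) (XT.nd (nat_lit 78) (nat_lit 0) (nat_lit 0) (XT.lf (nat_lit 0) (nat_lit 792666450) (nat_lit 228) (nat_lit 8680019089) (nat_lit 76) (nat_lit 1313128138) (nat_lit 80) (nat_lit 5) (nat_lit 83) (nat_lit 5) (nat_lit 81) (nat_lit 4) (nat_lit 437) (nat_lit 389) (nat_lit 374)) (XT.lf (nat_lit 0) (nat_lit 5184700064) (nat_lit 228) (nat_lit 131165982) (nat_lit 76) (nat_lit 5743972916) (nat_lit 80) (nat_lit 5) (nat_lit 83) (nat_lit 5) (nat_lit 81) (nat_lit 4) (nat_lit 438) (nat_lit 389) (nat_lit 373))) (XT.nd (nat_lit 78) (nat_lit 228) (nat_lit 0) (XT.lf (nat_lit 0) (nat_lit 8923945616) (nat_lit 152) (nat_lit 889178597) (nat_lit 228) (nat_lit 1533610364) (nat_lit 78) (nat_lit 5) (nat_lit 80) (nat_lit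 5) (nat_lit 81) (nat_lit 4) (nat_lit 439) (nat_lit 389) (nat_lit 372)) (XT.lf (nat_lit 0) (nat_lit 2973850418) (nat_lit 228) (nat_lit 4956454607) (nat_lit 76) (nat_lit 3713032507) (nat_lit 75) (nat_lit 5) (nat_lit 78) (nat_lit 5) (nat_lit 76) (nat_lit 4) (nat_lit 440) (nat_lit 389) (nat_lit 371))))) (XT.nd (nat_lit 312) (nat_lit 532) (nat_lit 0) (XT.nd (nat_lit 156) (nat_lit 76) (nat_lit 0) (XT.nd (nat_lit 78) (nat_lit 228) (nat_lit 0) (XT.lf (nat_lit 0) (nat_lit 4270935366) (nat_lit 152) (nat_lit 3386606788) (nat_lit 228) (nat_lit 4295858906) (nat_lit 73) (nat_lit 5) (nat_lit 75) (nat_lit 5) (nat_lit 76) (nat_lit 4) (nat_lit 441) (nat_lit 389) (nat_lit 370)) (XT.lf (nat_lit 0) (nat_lit 300907881) (nat_lit 228) (nat_lit 10605411352) (nat_lit 76) (nat_lit 1371726506) (nat_lit 70) (nat_lit 5) (nat_lit 73) (nat_lit 5) (nat_lit 71) (nat_lit 4) (nat_lit 442) (nat_lit 389) (nat_lit 369))) (XT.nd (nat_lit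 78) (nat_lit 76) (nat_lit 0) (XT.lf (nat_lit 0) (nat_lit 5052042511) (nat_lit 228) (nat_lit 1188814460) (nat_lit 76) (nat_lit 6371105907) (nat_lit 70) (nat_lit 5) (nat_lit 73) (nat_lit 5) (nat_lit 71) (nat_lit 4) (nat_lit 443) (nat_lit 389) (nat_lit 368)) (XT.lf (nat_lit 0) (nat_lit 8779093810) (nat_lit 76) (nat_lit 1285507485) (nat_lit 152) (nat_lit 2896787253) (nat_lit 69) (nat_lit 5) (nat_lit 70) (nat_lit 5) (nat_lit 71) (nat_lit 4) (nat_lit 444) (nat_lit 389) (nat_lit 367)))) (XT.nd (nat_lit 156) (nat_lit 228) (nat_lit 0) (XT.nd (nat_lit 78) (nat_lit 76) (nat_lit 0) (XT.lf (nat_lit 0) (nat_lit 1997773642) (nat_lit 228) (nat_lit 7472675622) (nat_lit 76) (nat_lit 3853167447) (nat_lit 66) (nat_lit 5) (nat_lit 69) (nat_lit 5) (nat_lit 67) (nat_lit 4) (nat_lit 445) (nat_lit 389) (nat_lit 366)) (XT.lf (nat_lit 0) (nat_lit 2643587680) (nat_lit 76) (nat_lit 4418666294) (nat_lit 152) (nat_lit 6638205992)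 (nat_lit 65) (nat_lit 5) (nat_lit 66) (nat_lit 5) (nat_lit 67) (nat_lit 4) (nat_lit 446) (nat_lit 389) (nat_lit 365))) (XT.nd (nat_lit 78) (nat_lit 228) (nat_lit 0) (XT.lf (nat_lit 0) (nat_lit 12411449962) (nat_lit 152) (nat_lit 783381973) (nat_lit 0) (nat_lit 899743842) (nat_lit 65) (nat_lit 5) (nat_lit 67) (nat_lit 4) (nat_lit 65) (nat_lit 4) (nat_lit 447) (nat_lit 389) (nat_lit 364)) (XT.lf (nat_lit 0) (nat_lit 3532905907) (nat_lit 228) (nat_lit 4498961897) (nat_lit 76) (nat_lit 6467493952) (nat_lit 62) (nat_lit 5) (nat_lit 65) (nat_lit 5) (nat_lit 63) (nat_lit 4) (nat_lit 448) (nat_lit 389) (nat_lit 363))))))))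
noncomputable def xc69 : XT := (XT.nd (nat_lit 2418) (nat_lit 1520) (nat_lit 0) (XT.nd (nat_lit 1170) (nat_lit 988) (nat_lit 0) (XT.nd (nat_lit 546) (nat_lit 684) (nat_lit 0) (XT.nd (nat_lit 234) (nat_lit 380) (nat_lit 0) (XT.nd (nat_lit 78) (nat_lit 228) (nat_lit 0) (XT.lf (nat_lit 0) (nat_lit 6410741824) (nat_lit 76) (nat_lit 2550689887) (nat_lit 152) (nat_lit 5961167180) (nat_lit 61) (nat_lit 5) (nat_lit 62) (nat_lit 5) (nat_lit 63) (nat_lit 4) (nat_lit 449) (nat_lit 389) (nat_lit 362)) (XT.nd (nat_lit 78) (nat_lit 76) (nat_lit 0) (XT.lf (nat_lit 0) (nat_lit 2493291937) (nat_lit 152) (nat_lit 12229858262) (nat_lit 152) (nat_lit 640763457) (nat_lit 59) (nat_lit 4) (nat_lit 61) (nat_lit 5) (nat_lit 61) (nat_lit 4) (nat_lit 450) (nat_lit 389) (nat_lit 361)) (XT.lf (nat_lit 0) (nat_lit 4871378324) (nat_lit 228) (nat_lit 1791754598) (nat_lit 76) (nat_lit 9156103672) (nat_lit 58) (nat_lit 5) (nat_lit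 61) (nat_lit 5) (nat_lit 59) (nat_lit 4) (nat_lit 451) (nat_lit 389) (nat_lit 360)))) (XT.nd (nat_lit 156) (nat_lit 76) (nat_lit 0) (XT.nd (nat_lit 78) (nat_lit 228) (nat_lit 0) (XT.lf (nat_lit 0) (nat_lit 9964245305) (nat_lit 76) (nat_lit 729565195) (nat_lit 152) (nat_lit 5600182642) (nat_lit 57) (nat_lit 5) (nat_lit 58) (nat_lit 5) (nat_lit 59) (nat_lit 4) (nat_lit 452) (nat_lit 389) (nat_lit 359)) (XT.lf (nat_lit 0) (nat_lit 119625609) (nat_lit 228) (nat_lit 11306654658) (nat_lit 76) (nat_lit 5360937595) (nat_lit 54) (nat_lit 5) (nat_lit 57) (nat_lit 5) (nat_lit 55) (nat_lit 4) (nat_lit 453) (nat_lit 389) (nat_lit 358))) (XT.nd (nat_lit 78) (nat_lit 0) (nat_lit 0) (XT.lf (nat_lit 0) (nat_lit 526679328) (nat_lit 76) (nat_lit 5441147603) (nat_lit 152) (nat_lit 11331159350) (nat_lit 53) (nat_lit 5) (nat_lit 54) (nat_lit 5) (nat_lit 55) (nat_lit 4) (nat_lit 454) (nat_lit 389) (nat_lit 357)) (XT.lf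 (nat_lit 0) (nat_lit 12218180025) (nat_lit 152) (nat_lit 4685394946) (nat_lit 0) (nat_lit 927283972) (nat_lit 53) (nat_lit 5) (nat_lit 55) (nat_lit 4) (nat_lit 53) (nat_lit 4) (nat_lit 455) (nat_lit 389) (nat_lit 356))))) (XT.nd (nat_lit 312) (nat_lit 304) (nat_lit 0) (XT.nd (nat_lit 156) (nat_lit 152) (nat_lit 0) (XT.nd (nat_lit 78) (nat_lit 76) (nat_lit 0) (XT.lf (nat_lit 0) (nat_lit 501807213) (nat_lit 152) (nat_lit 10396499632) (nat_lit 76) (nat_lit 7484584269) (nat_lit 51) (nat_lit 5) (nat_lit 53) (nat_lit 5) (nat_lit 52) (nat_lit 4) (nat_lit 456) (nat_lit 389) (nat_lit 355)) (XT.lf (nat_lit 0) (nat_lit 2298244807) (nat_lit 76) (nat_lit 4458517123) (nat_lit 152) (nat_lit 12199996564) (nat_lit 50) (nat_lit 5) (nat_lit 51) (nat_lit 5) (nat_lit 52) (nat_lit 4) (nat_lit 457) (nat_lit 389) (nat_lit 354))) (XT.nd (nat_lit 78) (nat_lit 152) (nat_lit 0) (XT.lf (nat_lit 0) (nat_lit 13446615365) (nat_lit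 152) (nat_lit 3778972689) (nat_lit 0) (nat_lit 2327626033) (nat_lit 50) (nat_lit 5) (nat_lit 52) (nat_lit 4) (nat_lit 50) (nat_lit 4) (nat_lit 458) (nat_lit 389) (nat_lit 353)) (XT.lf (nat_lit 0) (nat_lit 422395162) (nat_lit 152) (nat_lit 10363575074) (nat_lit 76) (nat_lit 9386284111) (nat_lit 48) (nat_lit 5) (nat_lit 50) (nat_lit 5) (nat_lit 49) (nat_lit 4) (nat_lit 459) (nat_lit 389) (nat_lit 352)))) (XT.nd (nat_lit 156) (nat_lit 228) (nat_lit 0) (XT.nd (nat_lit 78) (nat_lit 0) (nat_lit 0) (XT.lf (nat_lit 0) (nat_lit 3219791601) (nat_lit 76) (nat_lit 3879969803) (nat_lit 152) (nat_lit 13716124656) (nat_lit 47) (nat_lit 5) (nat_lit 48) (nat_lit 5) (nat_lit 49) (nat_lit 4) (nat_lit 460) (nat_lit 389) (nat_lit 351)) (XT.lf (nat_lit 0) (nat_lit 14254176643) (nat_lit 152) (nat_lit 3866610197) (nat_lit 0) (nat_lit 3363755452) (nat_lit 47) (nat_lit 5) (nat_lit 49) (nat_lit 4) (nat_lit 47) (nat_lit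 4) (nat_lit 461) (nat_lit 389) (nat_lit 350))) (XT.nd (nat_lit 78) (nat_lit 152) (nat_lit 0) (XT.lf (nat_lit 0) (nat_lit 10664895165) (nat_lit 76) (nat_lit 11247870877) (nat_lit 76) (nat_lit 266544497) (nat_lit 46) (nat_lit 4) (nat_lit 47) (nat_lit 5) (nat_lit 47) (nat_lit 4) (nat_lit 462) (nat_lit 389) (nat_lit 349)) (XT.lf (nat_lit 0) (nat_lit 2973430573) (nat_lit 76) (nat_lit 3876000316) (nat_lit 152) (nat_lit 16052414928) (nat_lit 44) (nat_lit 5) (nat_lit 45) (nat_lit 5) (nat_lit 46) (nat_lit 4) (nat_lit 463) (nat_lit 389) (nat_lit 348)))))) (XT.nd (nat_lit 624) (nat_lit 456) (nat_lit 0) (XT.nd (nat_lit 312) (nat_lit 304) (nat_lit 0) (XT.nd (nat_lit 156) (nat_lit 152) (nat_lit 0) (XT.nd (nat_lit 78) (nat_lit 76) (nat_lit 0) (XT.lf (nat_lit 0) (nat_lit 14487534122) (nat_lit 152) (nat_lit 5295845505) (nat_lit 0) (nat_lit 3868147038) (nat_lit 44) (nat_lit 5) (nat_lit 46) (nat_lit 4) (nat_lit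 44) (nat_lit 4) (nat_lit 464) (nat_lit 389) (nat_lit 347)) (XT.lf (nat_lit 0) (nat_lit 10175629102) (nat_lit 76) (nat_lit 12475041304) (nat_lit 76) (nat_lit 1780866296) (nat_lit 43) (nat_lit 4) (nat_lit 44) (nat_lit 5) (nat_lit 44) (nat_lit 4) (nat_lit 465) (nat_lit 389) (nat_lit 346))) (XT.nd (nat_lit 78) (nat_lit 0) (nat_lit 0) (XT.lf (nat_lit 0) (nat_lit 1145447609) (nat_lit 76) (nat_lit 4664722738) (nat_lit 152) (nat_lit 19434222932) (nat_lit 41) (nat_lit 5) (nat_lit 42) (nat_lit 5) (nat_lit 43) (nat_lit 4) (nat_lit 466) (nat_lit 389) (nat_lit 345)) (XT.lf (nat_lit 0) (nat_lit 13942564820) (nat_lit 152) (nat_lit 8517589963) (nat_lit 0) (nat_lit 3625196767) (nat_lit 41) (nat_lit 5) (nat_lit 43) (nat_lit 4) (nat_lit 41) (nat_lit 4) (nat_lit 467) (nat_lit 389) (nat_lit 344)))) (XT.nd (nat_lit 156) (nat_lit 152) (nat_lit 0) (XT.nd (nat_lit 78) (nat_lit 76) (nat_lit 0) (XT.lf (nat_lit 0) (nat_lit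 7870445806) (nat_lit 76) (nat_lit 14735300547) (nat_lit 76) (nat_lit 4356404284) (nat_lit 40) (nat_lit 4) (nat_lit 41) (nat_lit 5) (nat_lit 41) (nat_lit 4) (nat_lit 468) (nat_lit 389) (nat_lit 343)) (XT.lf (nat_lit 0) (nat_lit 3768584204) (nat_lit 152) (nat_lit 2711896940) (nat_lit 76) (nat_lit 21395751776) (nat_lit 39) (nat_lit 5) (nat_lit 41) (nat_lit 5) (nat_lit 40) (nat_lit 4) (nat_lit 469) (nat_lit 389) (nat_lit 342))) (XT.nd (nat_lit 78) (nat_lit 76) (nat_lit 0) (XT.lf (nat_lit 0) (nat_lit 12350152105) (nat_lit 152) (nat_lit 14115930081) (nat_lit 0) (nat_lit 2356530715) (nat_lit 38) (nat_lit 5) (nat_lit 40) (nat_lit 4) (nat_lit 38) (nat_lit 4) (nat_lit 470) (nat_lit 389) (nat_lit 341)) (XT.lf (nat_lit 0) (nat_lit 3128413954) (nat_lit 76) (nat_lit 18362809266) (nat_lit 76) (nat_lit 8318568465) (nat_lit 37) (nat_lit 4) (nat_lit 38) (nat_lit 5) (nat_lit 38) (nat_lit 4) (nat_lit 471) (nat_lit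 389) (nat_lit 340))))) (XT.nd (nat_lit 312) (nat_lit 228) (nat_lit 0) (XT.nd (nat_lit 156) (nat_lit 76) (nat_lit 0) (XT.nd (nat_lit 78) (nat_lit 76) (nat_lit 0) (XT.lf (nat_lit 0) (nat_lit 406963447) (nat_lit 152) (nat_lit 9258174697) (nat_lit 76) (nat_lit 21172416349) (nat_lit 36) (nat_lit 5) (nat_lit 38) (nat_lit 5) (nat_lit 37) (nat_lit 4) (nat_lit 472) (nat_lit 389) (nat_lit 339)) (XT.lf (nat_lit 0) (nat_lit 9055229568) (nat_lit 76) (nat_lit 307498543) (nat_lit 152) (nat_lit 22543484000) (nat_lit 35) (nat_lit 5) (nat_lit 36) (nat_lit 5) (nat_lit 37) (nat_lit 4) (nat_lit 473) (nat_lit 389) (nat_lit 338))) (XT.nd (nat_lit 78) (nat_lit 76) (nat_lit 0) (XT.lf (nat_lit 0) (nat_lit 19006526595) (nat_lit 152) (nat_lit 4700466586) (nat_lit 0) (nat_lit 9309298011) (nat_lit 35) (nat_lit 5) (nat_lit 37) (nat_lit 4) (nat_lit 35) (nat_lit 4) (nat_lit 474) (nat_lit 389) (nat_lit 337)) (XT.lf (nat_lit 0)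 (nat_lit 14694706930) (nat_lit 76) (nat_lit 14607779870) (nat_lit 76) (nat_lit 4870889654) (nat_lit 34) (nat_lit 4) (nat_lit 35) (nat_lit 5) (nat_lit 35) (nat_lit 4) (nat_lit 475) (nat_lit 389) (nat_lit 336)))) (XT.nd (nat_lit 156) (nat_lit 76) (nat_lit 0) (XT.nd (nat_lit 78) (nat_lit 76) (nat_lit 0) (XT.lf (nat_lit 0) (nat_lit 4590179457) (nat_lit 152) (nat_lit 364795312) (nat_lit 76) (nat_lit 30428829601) (nat_lit 33) (nat_lit 5) (nat_lit 35) (nat_lit 5) (nat_lit 34) (nat_lit 4) (nat_lit 476) (nat_lit 389) (nat_lit 335)) (XT.lf (nat_lit 0) (nat_lit 14700204921) (nat_lit 152) (nat_lit 16576836435) (nat_lit 0) (nat_lit 5356740663) (nat_lit 32) (nat_lit 5) (nat_lit 34) (nat_lit 4) (nat_lit 32) (nat_lit 4) (nat_lit 477) (nat_lit 389) (nat_lit 334))) (XT.nd (nat_lit 78) (nat_lit 0) (nat_lit 0) (XT.lf (nat_lit 0) (nat_lit 3474130705) (nat_lit 76) (nat_lit 21922098804) (nat_lit 76) (nat_lit 12546004822)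 (nat_lit 31) (nat_lit 4) (nat_lit 32) (nat_lit 5) (nat_lit 32) (nat_lit 4) (nat_lit 478) (nat_lit 389) (nat_lit 333)) (XT.lf (nat_lit 0) (nat_lit 24982906303) (nat_lit 76) (nat_lit 11864673637) (nat_lit 76) (nat_lit 2457503728) (nat_lit 31) (nat_lit 4) (nat_lit 32) (nat_lit 5) (nat_lit 32) (nat_lit 4) (nat_lit 479) (nat_lit 389) (nat_lit 332))))))) (XT.nd (nat_lit 1170) (nat_lit 684) (nat_lit 0) (XT.nd (nat_lit 546) (nat_lit 380) (nat_lit 0) (XT.nd (nat_lit 234) (nat_lit 228) (nat_lit 0) (XT.nd (nat_lit 78) (nat_lit 76) (nat_lit 0) (XT.lf (nat_lit 0) (nat_lit 6805391708) (nat_lit 76) (nat_lit 1117612066) (nat_lit 152) (nat_lit 32804323158) (nat_lit 29) (nat_lit 5) (nat_lit 30) (nat_lit 5) (nat_lit 31) (nat_lit 4) (nat_lit 480) (nat_lit 389) (nat_lit 331)) (XT.nd (nat_lit 78) (nat_lit 76) (nat_lit 0) (XT.lf (nat_lit 0) (nat_lit 19087016888) (nat_lit 152) (nat_lit 13041522141) (nat_lit 0) (nat_lit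 10072776114) (nat_lit 29) (nat_lit 5) (nat_lit 31) (nat_lit 4) (nat_lit 29) (nat_lit 4) (nat_lit 481) (nat_lit 389) (nat_lit 330)) (XT.lf (nat_lit 0) (nat_lit 9043028408) (nat_lit 76) (nat_lit 21870288786) (nat_lit 76) (nat_lit 12830481770) (nat_lit 28) (nat_lit 4) (nat_lit 29) (nat_lit 5) (nat_lit 29) (nat_lit 4) (nat_lit 482) (nat_lit 389) (nat_lit 329)))) (XT.nd (nat_lit 156) (nat_lit 76) (nat_lit 0) (XT.nd (nat_lit 78) (nat_lit 152) (nat_lit 0) (XT.lf (nat_lit 0) (nat_lit 32575373864) (nat_lit 76) (nat_lit 10921935300) (nat_lit 76) (nat_lit 1857779482) (nat_lit 28) (nat_lit 4) (nat_lit 29) (nat_lit 5) (nat_lit 29) (nat_lit 4) (nat_lit 483) (nat_lit 389) (nat_lit 328)) (XT.lf (nat_lit 0) (nat_lit 9475743537) (nat_lit 152) (nat_lit 36736452873) (nat_lit 0) (nat_lit 821129105) (nat_lit 26) (nat_lit 5) (nat_lit 28) (nat_lit 4) (nat_lit 26) (nat_lit 4) (nat_lit 484) (nat_lit 389) (nat_lit 327)))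 (XT.nd (nat_lit 78) (nat_lit 76) (nat_lit 0) (XT.lf (nat_lit 0) (nat_lit 21659864054) (nat_lit 152) (nat_lit 14132553881) (nat_lit 0) (nat_lit 12984216211) (nat_lit 26) (nat_lit 5) (nat_lit 28) (nat_lit 4) (nat_lit 26) (nat_lit 4) (nat_lit 485) (nat_lit 389) (nat_lit 326)) (XT.lf (nat_lit 0) (nat_lit 9814895240) (nat_lit 76) (nat_lit 24741369664) (nat_lit 76) (nat_lit 16045690001) (nat_lit 25) (nat_lit 4) (nat_lit 26) (nat_lit 5) (nat_lit 26) (nat_lit 4) (nat_lit 486) (nat_lit 389) (nat_lit 325))))) (XT.nd (nat_lit 312) (nat_lit 152) (nat_lit 0) (XT.nd (nat_lit 156) (nat_lit 76) (nat_lit 0) (XT.nd (nat_lit 78) (nat_lit 152) (nat_lit 0) (XT.lf (nat_lit 0) (nat_lit 35351209943) (nat_lit 76) (nat_lit 12936294407) (nat_lit 76) (nat_lit 4221536820) (nat_lit 25) (nat_lit 4) (nat_lit 26) (nat_lit 5) (nat_lit 26) (nat_lit 4) (nat_lit 487) (nat_lit 389) (nat_lit 324)) (XT.lf (nat_lit 0) (nat_lit 7674549100)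 (nat_lit 76) (nat_lit 329097796) (nat_lit 152) (nat_lit 46497834959) (nat_lit 23) (nat_lit 5) (nat_lit 24) (nat_lit 5) (nat_lit 25) (nat_lit 4) (nat_lit 488) (nat_lit 389) (nat_lit 323))) (XT.nd (nat_lit 78) (nat_lit 76) (nat_lit 0) (XT.lf (nat_lit 0) (nat_lit 21147407380) (nat_lit 152) (nat_lit 22606364030) (nat_lit 0) (nat_lit 12813853783) (nat_lit 23) (nat_lit 5) (nat_lit 25) (nat_lit 4) (nat_lit 23) (nat_lit 4) (nat_lit 489) (nat_lit 389) (nat_lit 322)) (XT.lf (nat_lit 0) (nat_lit 2818552623) (nat_lit 76) (nat_lit 32133786641) (nat_lit 76) (nat_lit 23784537589) (nat_lit 22) (nat_lit 4) (nat_lit 23) (nat_lit 5) (nat_lit 23) (nat_lit 4) (nat_lit 490) (nat_lit 389) (nat_lit 321)))) (XT.nd (nat_lit 156) (nat_lit 76) (nat_lit 0) (XT.nd (nat_lit 78) (nat_lit 76) (nat_lit 0) (XT.lf (nat_lit 0) (nat_lit 30209536027) (nat_lit 76) (nat_lit 19576171496) (nat_lit 76) (nat_lit 11211974392) (nat_lit 22)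 (nat_lit 4) (nat_lit 23) (nat_lit 5) (nat_lit 23) (nat_lit 4) (nat_lit 491) (nat_lit 389) (nat_lit 320)) (XT.lf (nat_lit 0) (nat_lit 1882318779) (nat_lit 152) (nat_lit 4519679846) (nat_lit 76) (nat_lit 56970137564) (nat_lit 21) (nat_lit 5) (nat_lit 23) (nat_lit 5) (nat_lit 22) (nat_lit 4) (nat_lit 492) (nat_lit 389) (nat_lit 319))) (XT.nd (nat_lit 78) (nat_lit 0) (nat_lit 0) (XT.lf (nat_lit 0) (nat_lit 15705430325) (nat_lit 152) (nat_lit 42415090689) (nat_lit 0) (nat_lit 7713057307) (nat_lit 20) (nat_lit 5) (nat_lit 22) (nat_lit 4) (nat_lit 20) (nat_lit 4) (nat_lit 493) (nat_lit 389) (nat_lit 318)) (XT.lf (nat_lit 0) (nat_lit 30361316165) (nat_lit 152) (nat_lit 15693050364) (nat_lit 0) (nat_lit 22356645347) (nat_lit 20) (nat_lit 5) (nat_lit 22) (nat_lit 4) (nat_lit 20) (nat_lit 4) (nat_lit 494) (nat_lit 389) (nat_lit 317)))))) (XT.nd (nat_lit 624) (nat_lit 380) (nat_lit 0) (XT.nd (nat_lit 312)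 (nat_lit 76) (nat_lit 0) (XT.nd (nat_lit 156) (nat_lit 152) (nat_lit 0) (XT.nd (nat_lit 78) (nat_lit 0) (nat_lit 0) (XT.lf (nat_lit 0) (nat_lit 12692221455) (nat_lit 76) (nat_lit 33216764706) (nat_lit 76) (nat_lit 25200381698) (nat_lit 19) (nat_lit 4) (nat_lit 20) (nat_lit 5) (nat_lit 20) (nat_lit 4) (nat_lit 495) (nat_lit 389) (nat_lit 316)) (XT.lf (nat_lit 0) (nat_lit 42963759087) (nat_lit 76) (nat_lit 19497528920) (nat_lit 76) (nat_lit 11469991445) (nat_lit 19) (nat_lit 4) (nat_lit 20) (nat_lit 5) (nat_lit 20) (nat_lit 4) (nat_lit 496) (nat_lit 389) (nat_lit 315))) (XT.nd (nat_lit 78) (nat_lit 76) (nat_lit 0) (XT.lf (nat_lit 0) (nat_lit 2815310180) (nat_lit 152) (nat_lit 2266774907) (nat_lit 76) (nat_lit 71811765683) (nat_lit 18) (nat_lit 5) (nat_lit 20) (nat_lit 5) (nat_lit 19) (nat_lit 4) (nat_lit 497) (nat_lit 389) (nat_lit 314)) (XT.lf (nat_lit 0) (nat_lit 18005996945) (nat_lit 152) (nat_lit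 51619352842) (nat_lit 0) (nat_lit 10340970082) (nat_lit 17) (nat_lit 5) (nat_lit 19) (nat_lit 4) (nat_lit 17) (nat_lit 4) (nat_lit 498) (nat_lit 389) (nat_lit 313)))) (XT.nd (nat_lit 156) (nat_lit 0) (nat_lit 0) (XT.nd (nat_lit 78) (nat_lit 76) (nat_lit 0) (XT.lf (nat_lit 0) (nat_lit 34043068074) (nat_lit 152) (nat_lit 22776137635) (nat_lit 0) (nat_lit 26368864403) (nat_lit 17) (nat_lit 5) (nat_lit 19) (nat_lit 4) (nat_lit 17) (nat_lit 4) (nat_lit 499) (nat_lit 389) (nat_lit 312)) (XT.lf (nat_lit 0) (nat_lit 7686889834) (nat_lit 76) (nat_lit 43281325291) (nat_lit 76) (nat_lit 35598381804) (nat_lit 16) (nat_lit 4) (nat_lit 17) (nat_lit 5) (nat_lit 17) (nat_lit 4) (nat_lit 500) (nat_lit 389) (nat_lit 311))) (XT.nd (nat_lit 78) (nat_lit 0) (nat_lit 0) (XT.lf (nat_lit 0) (nat_lit 40396530624) (nat_lit 76) (nat_lit 28695581074) (nat_lit 76) (nat_lit 21004313952) (nat_lit 16) (nat_lit 4) (nat_lit 17)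 (nat_lit 5) (nat_lit 17) (nat_lit 4) (nat_lit 501) (nat_lit 389) (nat_lit 310)) (XT.lf (nat_lit 0) (nat_lit 74677582860) (nat_lit 76) (nat_lit 13412970008) (nat_lit 76) (nat_lit 5713775614) (nat_lit 16) (nat_lit 4) (nat_lit 17) (nat_lit 5) (nat_lit 17) (nat_lit 4) (nat_lit 502) (nat_lit 389) (nat_lit 309))))) (XT.nd (nat_lit 312) (nat_lit 152) (nat_lit 0) (XT.nd (nat_lit 156) (nat_lit 76) (nat_lit 0) (XT.nd (nat_lit 78) (nat_lit 0) (nat_lit 0) (XT.lf (nat_lit 0) (nat_lit 10231985788) (nat_lit 152) (nat_lit 84554254461) (nat_lit 0) (nat_lit 2892229430) (nat_lit 14) (nat_lit 5) (nat_lit 16) (nat_lit 4) (nat_lit 14) (nat_lit 4) (nat_lit 503) (nat_lit 389) (nat_lit 308)) (XT.lf (nat_lit 0) (nat_lit 27301516767) (nat_lit 152) (nat_lit 54459280261) (nat_lit 0) (nat_lit 19954912534) (nat_lit 14) (nat_lit 5) (nat_lit 16) (nat_lit 4) (nat_lit 14) (nat_lit 4) (nat_lit 504) (nat_lit 389) (nat_lit 307)))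 (XT.nd (nat_lit 78) (nat_lit 76) (nat_lit 0) (XT.lf (nat_lit 0) (nat_lit 45195368306) (nat_lit 152) (nat_lit 22918658781) (nat_lit 0) (nat_lit 37842242287) (nat_lit 14) (nat_lit 5) (nat_lit 16) (nat_lit 4) (nat_lit 14) (nat_lit 4) (nat_lit 505) (nat_lit 389) (nat_lit 306)) (XT.lf (nat_lit 0) (nat_lit 10478070385) (nat_lit 76) (nat_lit 53641666470) (nat_lit 76) (nat_lit 46282329227) (nat_lit 13) (nat_lit 4) (nat_lit 14) (nat_lit 5) (nat_lit 14) (nat_lit 4) (nat_lit 506) (nat_lit 389) (nat_lit 305)))) (XT.nd (nat_lit 156) (nat_lit 152) (nat_lit 0) (XT.nd (nat_lit 78) (nat_lit 0) (nat_lit 0) (XT.lf (nat_lit 0) (nat_lit 46284940873) (nat_lit 76) (nat_lit 38066211570) (nat_lit 76) (nat_lit 30700958875) (nat_lit 13) (nat_lit 4) (nat_lit 14) (nat_lit 5) (nat_lit 14) (nat_lit 4) (nat_lit 507) (nat_lit 389) (nat_lit 304)) (XT.lf (nat_lit 0) (nat_lit 83829412772) (nat_lit 76) (nat_lit 21738716547) (nat_lit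 76) (nat_lit 14367830087) (nat_lit 13) (nat_lit 4) (nat_lit 14) (nat_lit 5) (nat_lit 14) (nat_lit 4) (nat_lit 508) (nat_lit 389) (nat_lit 303))) (XT.nd (nat_lit 78) (nat_lit 76) (nat_lit 0) (XT.lf (nat_lit 0) (nat_lit 2667738067) (nat_lit 152) (nat_lit 1907388909) (nat_lit 76) (nat_lit 120487960178) (nat_lit 12) (nat_lit 5) (nat_lit 14) (nat_lit 5) (nat_lit 13) (nat_lit 4) (nat_lit 509) (nat_lit 389) (nat_lit 302)) (XT.lf (nat_lit 0) (nat_lit 20814416079) (nat_lit 152) (nat_lit 95798721598) (nat_lit 0) (nat_lit 13784547566) (nat_lit 11) (nat_lit 5) (nat_lit 13) (nat_lit 4) (nat_lit 11) (nat_lit 4) (nat_lit 510) (nat_lit 389) (nat_lit 301))))))))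
noncomputable def xc70 : XT := (XT.nd (nat_lit 2418) (nat_lit 152) (nat_lit 0) (XT.nd (nat_lit 1170) (nat_lit 228) (nat_lit 0) (XT.nd (nat_lit 546) (nat_lit 152) (nat_lit 0) (XT.nd (nat_lit 234) (nat_lit 76) (nat_lit 0) (XT.nd (nat_lit 78) (nat_lit 76) (nat_lit 0) (XT.lf (nat_lit 0) (nat_lit 39952299920) (nat_lit 152) (nat_lit 63124723319) (nat_lit 0) (nat_lit 32917796496) (nat_lit 11) (nat_lit 5) (nat_lit 13) (nat_lit 4) (nat_lit 11) (nat_lit 4) (nat_lit 511) (nat_lit 389) (nat_lit 300)) (XT.nd (nat_lit 78) (nat_lit 76) (nat_lit 0) (XT.lf (nat_lit 0) (nat_lit 60024256758) (nat_lit 152) (nat_lit 28863356212) (nat_lit 0) (nat_lit 52985339132) (nat_lit 11) (nat_lit 5) (nat_lit 13) (nat_lit 4) (nat_lit 11) (nat_lit 4) (nat_lit 512) (nat_lit 389) (nat_lit 299)) (XT.lf (nat_lit 0) (nat_lit 7300619831) (nat_lit 76) (nat_lit 73891440269) (nat_lit 76) (nat_lit 66848318642) (nat_lit 10) (nat_lit 4) (nat_lit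 11) (nat_lit 5) (nat_lit 11) (nat_lit 4) (nat_lit 513) (nat_lit 389) (nat_lit 298)))) (XT.nd (nat_lit 156) (nat_lit 76) (nat_lit 0) (XT.nd (nat_lit 78) (nat_lit 0) (nat_lit 0) (XT.lf (nat_lit 0) (nat_lit 46231452075) (nat_lit 76) (nat_lit 57654239139) (nat_lit 76) (nat_lit 50607113702) (nat_lit 10) (nat_lit 4) (nat_lit 11) (nat_lit 5) (nat_lit 11) (nat_lit 4) (nat_lit 514) (nat_lit 389) (nat_lit 297)) (XT.lf (nat_lit 0) (nat_lit 87067480071) (nat_lit 76) (nat_lit 40626164482) (nat_lit 76) (nat_lit 33575225891) (nat_lit 10) (nat_lit 4) (nat_lit 11) (nat_lit 5) (nat_lit 11) (nat_lit 4) (nat_lit 515) (nat_lit 389) (nat_lit 296))) (XT.nd (nat_lit 78) (nat_lit 76) (nat_lit 0) (XT.lf (nat_lit 0) (nat_lit 129905932456) (nat_lit 76) (nat_lit 22766673262) (nat_lit 76) (nat_lit 15712103097) (nat_lit 10) (nat_lit 4) (nat_lit 11) (nat_lit 5) (nat_lit 11) (nat_lit 4) (nat_lit 516) (nat_lit 389) (nat_lit 295))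 (XT.lf (nat_lit 0) (nat_lit 2927973884) (nat_lit 152) (nat_lit 1055682343) (nat_lit 76) (nat_lit 171871245006) (nat_lit 9) (nat_lit 5) (nat_lit 11) (nat_lit 5) (nat_lit 10) (nat_lit 4) (nat_lit 517) (nat_lit 389) (nat_lit 294))))) (XT.nd (nat_lit 312) (nat_lit 76) (nat_lit 0) (XT.nd (nat_lit 156) (nat_lit 0) (nat_lit 0) (XT.nd (nat_lit 78) (nat_lit 0) (nat_lit 0) (XT.lf (nat_lit 0) (nat_lit 22825850533) (nat_lit 152) (nat_lit 144716401508) (nat_lit 0) (nat_lit 16100781245) (nat_lit 8) (nat_lit 5) (nat_lit 10) (nat_lit 4) (nat_lit 8) (nat_lit 4) (nat_lit 518) (nat_lit 389) (nat_lit 293)) (XT.lf (nat_lit 0) (nat_lit 43784233190) (nat_lit 152) (nat_lit 110976882009) (nat_lit 0) (nat_lit 37056176198) (nat_lit 8) (nat_lit 5) (nat_lit 10) (nat_lit 4) (nat_lit 8) (nat_lit 4) (nat_lit 519) (nat_lit 389) (nat_lit 292))) (XT.nd (nat_lit 78) (nat_lit 0) (nat_lit 0) (XT.lf (nat_lit 0) (nat_lit 65773520462)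 (nat_lit 152) (nat_lit 75584974699) (nat_lit 0) (nat_lit 59042618036) (nat_lit 8) (nat_lit 5) (nat_lit 10) (nat_lit 4) (nat_lit 8) (nat_lit 4) (nat_lit 520) (nat_lit 389) (nat_lit 291)) (XT.lf (nat_lit 0) (nat_lit 88846067794) (nat_lit 152) (nat_lit 38456413133) (nat_lit 0) (nat_lit 82112455431) (nat_lit 8) (nat_lit 5) (nat_lit 10) (nat_lit 4) (nat_lit 8) (nat_lit 4) (nat_lit 521) (nat_lit 389) (nat_lit 290)))) (XT.nd (nat_lit 156) (nat_lit 0) (nat_lit 0) (XT.nd (nat_lit 78) (nat_lit 0) (nat_lit 0) (XT.lf (nat_lit 0) (nat_lit 513643835) (nat_lit 76) (nat_lit 112551185406) (nat_lit 76) (nat_lit 105814992151) (nat_lit 7) (nat_lit 4) (nat_lit 8) (nat_lit 5) (nat_lit 8) (nat_lit 4) (nat_lit 522) (nat_lit 389) (nat_lit 289)) (XT.lf (nat_lit 0) (nat_lit 42736457003) (nat_lit 76) (nat_lit 96394170031) (nat_lit 76) (nat_lit 89655518783) (nat_lit 7) (nat_lit 4) (nat_lit 8) (nat_lit 5) (nat_lit 8) (nat_lit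 4) (nat_lit 523) (nat_lit 389) (nat_lit 288))) (XT.nd (nat_lit 78) (nat_lit 0) (nat_lit 0) (XT.lf (nat_lit 0) (nat_lit 87041014183) (nat_lit 76) (nat_lit 79444243681) (nat_lit 76) (nat_lit 72703251489) (nat_lit 7) (nat_lit 4) (nat_lit 8) (nat_lit 5) (nat_lit 8) (nat_lit 4) (nat_lit 524) (nat_lit 389) (nat_lit 287)) (XT.lf (nat_lit 0) (nat_lit 133532802417) (nat_lit 76) (nat_lit 61661049390) (nat_lit 76) (nat_lit 54917827726) (nat_lit 7) (nat_lit 4) (nat_lit 8) (nat_lit 5) (nat_lit 8) (nat_lit 4) (nat_lit 525) (nat_lit 389) (nat_lit 286)))))) (XT.nd (nat_lit 624) (nat_lit 76) (nat_lit 0) (XT.nd (nat_lit 312) (nat_lit 0) (nat_lit 0) (XT.nd (nat_lit 156) (nat_lit 152) (nat_lit 0) (XT.nd (nat_lit 78) (nat_lit 0) (nat_lit 0) (XT.lf (nat_lit 0) (nat_lit 182322516439) (nat_lit 76) (nat_lit 43002246218) (nat_lit 76) (nat_lit 36256901247) (nat_lit 7) (nat_lit 4) (nat_lit 8) (nat_lit 5) (nat_lit 8) (nat_lit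 4) (nat_lit 526) (nat_lit 389) (nat_lit 285)) (XT.lf (nat_lit 0) (nat_lit 233526322235) (nat_lit 76) (nat_lit 23423408444) (nat_lit 76) (nat_lit 16676041277) (nat_lit 7) (nat_lit 4) (nat_lit 8) (nat_lit 5) (nat_lit 8) (nat_lit 4) (nat_lit 527) (nat_lit 389) (nat_lit 284))) (XT.nd (nat_lit 78) (nat_lit 0) (nat_lit 0) (XT.lf (nat_lit 0) (nat_lit 963860048) (nat_lit 76) (nat_lit 2798653667) (nat_lit 152) (nat_lit 282506391842) (nat_lit 5) (nat_lit 5) (nat_lit 6) (nat_lit 5) (nat_lit 7) (nat_lit 4) (nat_lit 528) (nat_lit 389) (nat_lit 283)) (XT.lf (nat_lit 0) (nat_lit 25635141769) (nat_lit 152) (nat_lit 254641259975) (nat_lit 0) (nat_lit 19205496760) (nat_lit 5) (nat_lit 5) (nat_lit 7) (nat_lit 4) (nat_lit 5) (nat_lit 4) (nat_lit 529) (nat_lit 389) (nat_lit 282)))) (XT.nd (nat_lit 156) (nat_lit 0) (nat_lit 0) (XT.nd (nat_lit 78) (nat_lit 0) (nat_lit 0) (XT.lf (nat_lit 0) (nat_lit 48635773475) (nat_lit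 152) (nat_lit 222513584248) (nat_lit 0) (nat_lit 42204464799) (nat_lit 5) (nat_lit 5) (nat_lit 7) (nat_lit 4) (nat_lit 5) (nat_lit 4) (nat_lit 530) (nat_lit 389) (nat_lit 281)) (XT.lf (nat_lit 0) (nat_lit 72775477412) (nat_lit 152) (nat_lit 188801829035) (nat_lit 0) (nat_lit 66342584293) (nat_lit 5) (nat_lit 5) (nat_lit 7) (nat_lit 4) (nat_lit 5) (nat_lit 4) (nat_lit 531) (nat_lit 389) (nat_lit 280))) (XT.nd (nat_lit 78) (nat_lit 0) (nat_lit 0) (XT.lf (nat_lit 0) (nat_lit 98111729068) (nat_lit 152) (nat_lit 153425728252) (nat_lit 0) (nat_lit 91677326955) (nat_lit 5) (nat_lit 5) (nat_lit 7) (nat_lit 4) (nat_lit 5) (nat_lit 4) (nat_lit 532) (nat_lit 389) (nat_lit 279)) (XT.lf (nat_lit 0) (nat_lit 124704852851) (nat_lit 152) (nat_lit 116301053087) (nat_lit 0) (nat_lit 118269013600) (nat_lit 5) (nat_lit 5) (nat_lit 7) (nat_lit 4) (nat_lit 5) (nat_lit 4) (nat_lit 533) (nat_lit 389) (nat_lit 278)))))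 (XT.nd (nat_lit 312) (nat_lit 0) (nat_lit 0) (XT.nd (nat_lit 156) (nat_lit 76) (nat_lit 0) (XT.nd (nat_lit 78) (nat_lit 0) (nat_lit 0) (XT.lf (nat_lit 0) (nat_lit 152618165722) (nat_lit 152) (nat_lit 77339411458) (nat_lit 0) (nat_lit 146180957769) (nat_lit 5) (nat_lit 5) (nat_lit 7) (nat_lit 4) (nat_lit 5) (nat_lit 4) (nat_lit 534) (nat_lit 389) (nat_lit 277)) (XT.lf (nat_lit 0) (nat_lit 181918127949) (nat_lit 152) (nat_lit 36448037550) (nat_lit 0) (nat_lit 175479616470) (nat_lit 5) (nat_lit 5) (nat_lit 7) (nat_lit 4) (nat_lit 5) (nat_lit 4) (nat_lit 535) (nat_lit 389) (nat_lit 276))) (XT.nd (nat_lit 78) (nat_lit 0) (nat_lit 0) (XT.lf (nat_lit 0) (nat_lit 6684370655) (nat_lit 76) (nat_lit 206094492452) (nat_lit 76) (nat_lit 199654739520) (nat_lit 4) (nat_lit 4) (nat_lit 5) (nat_lit 5) (nat_lit 5) (nat_lit 4) (nat_lit 536) (nat_lit 389) (nat_lit 275)) (XT.lf (nat_lit 0) (nat_lit 53221598701) (nat_lit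 76) (nat_lit 192569854988) (nat_lit 76) (nat_lit 186128919719) (nat_lit 4) (nat_lit 4) (nat_lit 5) (nat_lit 5) (nat_lit 5) (nat_lit 4) (nat_lit 537) (nat_lit 389) (nat_lit 274)))) (XT.nd (nat_lit 156) (nat_lit 0) (nat_lit 0) (XT.nd (nat_lit 78) (nat_lit 0) (nat_lit 0) (XT.lf (nat_lit 0) (nat_lit 102069312786) (nat_lit 76) (nat_lit 178377316741) (nat_lit 76) (nat_lit 171935255438) (nat_lit 4) (nat_lit 4) (nat_lit 5) (nat_lit 5) (nat_lit 5) (nat_lit 4) (nat_lit 538) (nat_lit 389) (nat_lit 273)) (XT.lf (nat_lit 0) (nat_lit 153343816991) (nat_lit 76) (nat_lit 163483085955) (nat_lit 76) (nat_lit 157039952238) (nat_lit 4) (nat_lit 4) (nat_lit 5) (nat_lit 5) (nat_lit 5) (nat_lit 4) (nat_lit 539) (nat_lit 389) (nat_lit 272))) (XT.nd (nat_lit 78) (nat_lit 0) (nat_lit 0) (XT.lf (nat_lit 0) (nat_lit 207167193468) (nat_lit 76) (nat_lit 147851700175) (nat_lit 76) (nat_lit 141407545111) (nat_lit 4) (nat_lit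 4) (nat_lit 5) (nat_lit 5) (nat_lit 5) (nat_lit 4) (nat_lit 540) (nat_lit 389) (nat_lit 271)) (XT.lf (nat_lit 0) (nat_lit 263667593114) (nat_lit 76) (nat_lit 131445941815) (nat_lit 76) (nat_lit 125000814040) (nat_lit 4) (nat_lit 4) (nat_lit 5) (nat_lit 5) (nat_lit 5) (nat_lit 4) (nat_lit 541) (nat_lit 389) (nat_lit 270))))))) (XT.nd (nat_lit 53352) (nat_lit 0) (nat_lit 5548) (XT.nd (nat_lit 546) (nat_lit 0) (nat_lit 0) (XT.nd (nat_lit 234) (nat_lit 152) (nat_lit 0) (XT.nd (nat_lit 78) (nat_lit 0) (nat_lit 0) (XT.lf (nat_lit 0) (nat_lit 322979540690) (nat_lit 76) (nat_lit 114226749546) (nat_lit 76) (nat_lit 107780695380) (nat_lit 4) (nat_lit 4) (nat_lit 5) (nat_lit 5) (nat_lit 5) (nat_lit 4) (nat_lit 542) (nat_lit 389) (nat_lit 269)) (XT.nd (nat_lit 78) (nat_lit 0) (nat_lit 0) (XT.lf (nat_lit 0) (nat_lit 385244255119) (nat_lit 76) (nat_lit 96153125292) (nat_lit 76) (nat_lit 89706188848) (nat_lit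 4) (nat_lit 4) (nat_lit 5) (nat_lit 5) (nat_lit 5) (nat_lit 4) (nat_lit 543) (nat_lit 389) (nat_lit 268)) (XT.lf (nat_lit 0) (nat_lit 450609985721) (nat_lit 76) (nat_lit 77182036613) (nat_lit 76) (nat_lit 70734259905) (nat_lit 4) (nat_lit 4) (nat_lit 5) (nat_lit 5) (nat_lit 5) (nat_lit 4) (nat_lit 544) (nat_lit 389) (nat_lit 267)))) (XT.nd (nat_lit 156) (nat_lit 152) (nat_lit 0) (XT.nd (nat_lit 78) (nat_lit 0) (nat_lit 0) (XT.lf (nat_lit 0) (nat_lit 519232365187) (nat_lit 76) (nat_lit 57268314252) (nat_lit 76) (nat_lit 50819737291) (nat_lit 4) (nat_lit 4) (nat_lit 5) (nat_lit 5) (nat_lit 5) (nat_lit 4) (nat_lit 545) (nat_lit 389) (nat_lit 266)) (XT.lf (nat_lit 0) (nat_lit 591274780137) (nat_lit 76) (nat_lit 36364544582) (nat_lit 76) (nat_lit 29915205477) (nat_lit 4) (nat_lit 4) (nat_lit 5) (nat_lit 5) (nat_lit 5) (nat_lit 4) (nat_lit 546) (nat_lit 389) (nat_lit 265))) (XT.nd (nat_lit 78) (nat_lit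 152) (nat_lit 0) (XT.lf (nat_lit 0) (nat_lit 666908760128) (nat_lit 76) (nat_lit 14420956725) (nat_lit 76) (nat_lit 7970891768) (nat_lit 4) (nat_lit 4) (nat_lit 5) (nat_lit 5) (nat_lit 5) (nat_lit 4) (nat_lit 547) (nat_lit 389) (nat_lit 264)) (XT.lf (nat_lit 0) (nat_lit 15105962343) (nat_lit 152) (nat_lit 698527994964) (nat_lit 0) (nat_lit 8962384967) (nat_lit 2) (nat_lit 5) (nat_lit 4) (nat_lit 4) (nat_lit 2) (nat_lit 4) (nat_lit 548) (nat_lit 389) (nat_lit 263))))) (XT.nd (nat_lit 52494) (nat_lit 0) (nat_lit 8664) (XT.nd (nat_lit 156) (nat_lit 0) (nat_lit 0) (XT.nd (nat_lit 78) (nat_lit 0) (nat_lit 0) (XT.lf (nat_lit 0) (nat_lit 39685610214) (nat_lit 152) (nat_lit 684292471806) (nat_lit 0) (nat_lit 33541405820) (nat_lit 2) (nat_lit 5) (nat_lit 4) (nat_lit 4) (nat_lit 2) (nat_lit 4) (nat_lit 549) (nat_lit 389) (nat_lit 262)) (XT.lf (nat_lit 0) (nat_lit 65489462099) (nat_lit 152) (nat_lit 669354906971)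 (nat_lit 0) (nat_lit 59344660545) (nat_lit 2) (nat_lit 5) (nat_lit 4) (nat_lit 4) (nat_lit 2) (nat_lit 4) (nat_lit 550) (nat_lit 389) (nat_lit 261))) (XT.nd (nat_lit 52260) (nat_lit 0) (nat_lit 9728) (XT.lf (nat_lit 0) (nat_lit 92578955742) (nat_lit 152) (nat_lit 653679734829) (nat_lit 0) (nat_lit 86433585464) (nat_lit 2) (nat_lit 5) (nat_lit 4) (nat_lit 4) (nat_lit 2) (nat_lit 4) (nat_lit 551) (nat_lit 389) (nat_lit 260)) (XT.lf (nat_lit 0) (nat_lit 1005988544) (nat_lit 380) (nat_lit 1397830831) (nat_lit 380) (nat_lit 1397830831) (nat_lit 130) (nat_lit 4) (nat_lit 135) (nat_lit 5) (nat_lit 135) (nat_lit 4) (nat_lit 420) (nat_lit 390) (nat_lit 390)))) (XT.nd (nat_lit 156) (nat_lit 684) (nat_lit 0) (XT.nd (nat_lit 78) (nat_lit 0) (nat_lit 0) (XT.lf (nat_lit 0) (nat_lit 538203128) (nat_lit 304) (nat_lit 405787443) (nat_lit 380) (nat_lit 6781813514) (nat_lit 125) (nat_lit 5) (nat_lit 129) (nat_lit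 5) (nat_lit 130) (nat_lit 4) (nat_lit 421) (nat_lit 390) (nat_lit 389)) (XT.lf (nat_lit 0) (nat_lit 4738289549) (nat_lit 380) (nat_lit 975062228) (nat_lit 0) (nat_lit 2140734934) (nat_lit 125) (nat_lit 5) (nat_lit 130) (nat_lit 4) (nat_lit 125) (nat_lit 4) (nat_lit 422) (nat_lit 390) (nat_lit 388))) (XT.nd (nat_lit 78) (nat_lit 304) (nat_lit 0) (XT.lf (nat_lit 0) (nat_lit 642180629) (nat_lit 380) (nat_lit 2487846052) (nat_lit 76) (nat_lit 4861600983) (nat_lit 120) (nat_lit 5) (nat_lit 125) (nat_lit 5) (nat_lit 121) (nat_lit 4) (nat_lit 423) (nat_lit 390) (nat_lit 387)) (XT.lf (nat_lit 0) (nat_lit 4079157209) (nat_lit 304) (nat_lit 327072270) (nat_lit 380) (nat_lit 3731140657) (nat_lit 116) (nat_lit 5) (nat_lit 120) (nat_lit 5) (nat_lit 121) (nat_lit 4) (nat_lit 424) (nat_lit 390) (nat_lit 386)))))) (XT.nd (nat_lit 624) (nat_lit 1444) (nat_lit 0) (XT.nd (nat_lit 312) (nat_lit 760) (nat_lit 0)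 (XT.nd (nat_lit 156) (nat_lit 304) (nat_lit 0) (XT.nd (nat_lit 78) (nat_lit 228) (nat_lit 0) (XT.lf (nat_lit 0) (nat_lit 35746145) (nat_lit 380) (nat_lit 5686893433) (nat_lit 76) (nat_lit 2569235277) (nat_lit 111) (nat_lit 5) (nat_lit 116) (nat_lit 5) (nat_lit 112) (nat_lit 4) (nat_lit 425) (nat_lit 390) (nat_lit 385)) (XT.lf (nat_lit 0) (nat_lit 1046858311) (nat_lit 228) (nat_lit 2757940323) (nat_lit 304) (nat_lit 4649306757) (nat_lit 108) (nat_lit 5) (nat_lit 111) (nat_lit 5) (nat_lit 112) (nat_lit 4) (nat_lit 426) (nat_lit 390) (nat_lit 384))) (XT.nd (nat_lit 78) (nat_lit 304) (nat_lit 0) (XT.lf (nat_lit 0) (nat_lit 7716488710) (nat_lit 304) (nat_lit 525692007) (nat_lit 0) (nat_lit 384576062) (nat_lit 108) (nat_lit 5) (nat_lit 112) (nat_lit 4) (nat_lit 108) (nat_lit 4) (nat_lit 427) (nat_lit 390) (nat_lit 383)) (XT.lf (nat_lit 0) (nat_lit 2926424868) (nat_lit 304) (nat_lit 2190364696) (nat_lit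 76) (nat_lit 3688552609) (nat_lit 104) (nat_lit 5) (nat_lit 108) (nat_lit 5) (nat_lit 105) (nat_lit 4) (nat_lit 428) (nat_lit 390) (nat_lit 382)))) (XT.nd (nat_lit 156) (nat_lit 228) (nat_lit 0) (XT.nd (nat_lit 78) (nat_lit 304) (nat_lit 0) (XT.lf (nat_lit 0) (nat_lit 5081194779) (nat_lit 228) (nat_lit 1790763411) (nat_lit 304) (nat_lit 2122788731) (nat_lit 101) (nat_lit 5) (nat_lit 104) (nat_lit 5) (nat_lit 105) (nat_lit 4) (nat_lit 429) (nat_lit 390) (nat_lit 381)) (XT.lf (nat_lit 0) (nat_lit 1742848337) (nat_lit 304) (nat_lit 5745455081) (nat_lit 76) (nat_lit 1704911876) (nat_lit 97) (nat_lit 5) (nat_lit 101) (nat_lit 5) (nat_lit 98) (nat_lit 4) (nat_lit 430) (nat_lit 390) (nat_lit 380))) (XT.nd (nat_lit 78) (nat_lit 76) (nat_lit 0) (XT.lf (nat_lit 0) (nat_lit 1695071121) (nat_lit 152) (nat_lit 4021481992) (nat_lit 228) (nat_lit 3684021567) (nat_lit 95) (nat_lit 5) (nat_lit 97) (nat_lit 5)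 (nat_lit 98) (nat_lit 4) (nat_lit 431) (nat_lit 390) (nat_lit 379)) (XT.lf (nat_lit 0) (nat_lit 224931884) (nat_lit 228) (nat_lit 121960092) (nat_lit 76) (nat_lit 9273063705) (nat_lit 94) (nat_lit 5) (nat_lit 97) (nat_lit 5) (nat_lit 95) (nat_lit 5) (nat_lit 432) (nat_lit 390) (nat_lit 378))))) (XT.nd (nat_lit 312) (nat_lit 608) (nat_lit 0) (XT.nd (nat_lit 156) (nat_lit 456) (nat_lit 0) (XT.nd (nat_lit 78) (nat_lit 152) (nat_lit 0) (XT.lf (nat_lit 0) (nat_lit 4255041746) (nat_lit 304) (nat_lit 2073168566) (nat_lit 76) (nat_lit 3516611901) (nat_lit 91) (nat_lit 5) (nat_lit 95) (nat_lit 5) (nat_lit 92) (nat_lit 4) (nat_lit 433) (nat_lit 390) (nat_lit 377)) (XT.lf (nat_lit 0) (nat_lit 5966790908) (nat_lit 152) (nat_lit 2493339861) (nat_lit 228) (nat_lit 1622139020) (nat_lit 89) (nat_lit 5) (nat_lit 91) (nat_lit 5) (nat_lit 92) (nat_lit 4) (nat_lit 434) (nat_lit 390) (nat_lit 376))) (XT.nd (nat_lit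 78) (nat_lit 152) (nat_lit 0) (XT.lf (nat_lit 0) (nat_lit 2459645726) (nat_lit 304) (nat_lit 6318972567) (nat_lit 76) (nat_lit 1551136865) (nat_lit 85) (nat_lit 5) (nat_lit 89) (nat_lit 5) (nat_lit 86) (nat_lit 4) (nat_lit 435) (nat_lit 390) (nat_lit 375)) (XT.lf (nat_lit 0) (nat_lit 1887413333) (nat_lit 152) (nat_lit 4819949623) (nat_lit 228) (nat_lit 3880114176) (nat_lit 83) (nat_lit 5) (nat_lit 85) (nat_lit 5) (nat_lit 86) (nat_lit 4) (nat_lit 436) (nat_lit 390) (nat_lit 374)))) (XT.nd (nat_lit 156) (nat_lit 380) (nat_lit 0) (XT.nd (nat_lit 78) (nat_lit 152) (nat_lit 0) (XT.lf (nat_lit 0) (nat_lit 284216603) (nat_lit 228) (nat_lit 341125394) (nat_lit 76) (nat_lit 10233273734) (nat_lit 82) (nat_lit 5) (nat_lit 85) (nat_lit 5) (nat_lit 83) (nat_lit 5) (nat_lit 437) (nat_lit 390) (nat_lit 373)) (XT.lf (nat_lit 0) (nat_lit 4601119561) (nat_lit 228) (nat_lit 2753469779) (nat_lit 76) (nat_lit 3781812359)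 (nat_lit 80) (nat_lit 5) (nat_lit 83) (nat_lit 5) (nat_lit 81) (nat_lit 4) (nat_lit 438) (nat_lit 390) (nat_lit 372))) (XT.nd (nat_lit 78) (nat_lit 228) (nat_lit 0) (XT.lf (nat_lit 0) (nat_lit 6115682675) (nat_lit 152) (nat_lit 3013087518) (nat_lit 228) (nat_lit 2299569751) (nat_lit 78) (nat_lit 5) (nat_lit 80) (nat_lit 5) (nat_lit 81) (nat_lit 4) (nat_lit 439) (nat_lit 390) (nat_lit 371)) (XT.lf (nat_lit 0) (nat_lit 2093059536) (nat_lit 228) (nat_lit 8081783391) (nat_lit 76) (nat_lit 1557668843) (nat_lit 75) (nat_lit 5) (nat_lit 78) (nat_lit 5) (nat_lit 76) (nat_lit 4) (nat_lit 440) (nat_lit 390) (nat_lit 370))))))))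
noncomputable def xc71 : XT := (XT.nd (nat_lit 2418) (nat_lit 1672) (nat_lit 0) (XT.nd (nat_lit 1170) (nat_lit 1140) (nat_lit 0) (XT.nd (nat_lit 546) (nat_lit 912) (nat_lit 0) (XT.nd (nat_lit 234) (nat_lit 380) (nat_lit 0) (XT.nd (nat_lit 78) (nat_lit 228) (nat_lit 0) (XT.lf (nat_lit 0) (nat_lit 942056399) (nat_lit 152) (nat_lit 5726710392) (nat_lit 228) (nat_lit 5379211147) (nat_lit 73) (nat_lit 5) (nat_lit 75) (nat_lit 5) (nat_lit 76) (nat_lit 4) (nat_lit 441) (nat_lit 390) (nat_lit 369)) (XT.nd (nat_lit 78) (nat_lit 228) (nat_lit 0) (XT.lf (nat_lit 0) (nat_lit 10502016085) (nat_lit 152) (nat_lit 995702043) (nat_lit 228) (nat_lit 880283016) (nat_lit 73) (nat_lit 5) (nat_lit 75) (nat_lit 5) (nat_lit 76) (nat_lit 4) (nat_lit 442) (nat_lit 390) (nat_lit 368)) (XT.lf (nat_lit 0) (nat_lit 3797507670) (nat_lit 228) (nat_lit 4968952301) (nat_lit 76) (nat_lit 3951224370) (nat_lit 70) (nat_lit 5) (nat_lit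 73) (nat_lit 5) (nat_lit 71) (nat_lit 4) (nat_lit 443) (nat_lit 390) (nat_lit 367)))) (XT.nd (nat_lit 156) (nat_lit 76) (nat_lit 0) (XT.nd (nat_lit 78) (nat_lit 228) (nat_lit 0) (XT.lf (nat_lit 0) (nat_lit 4777738100) (nat_lit 76) (nat_lit 3917266508) (nat_lit 152) (nat_lit 4377861305) (nat_lit 69) (nat_lit 5) (nat_lit 70) (nat_lit 5) (nat_lit 71) (nat_lit 4) (nat_lit 444) (nat_lit 390) (nat_lit 366)) (XT.lf (nat_lit 0) (nat_lit 401056150) (nat_lit 228) (nat_lit 11869490889) (nat_lit 76) (nat_lit 1173858123) (nat_lit 66) (nat_lit 5) (nat_lit 69) (nat_lit 5) (nat_lit 67) (nat_lit 4) (nat_lit 445) (nat_lit 390) (nat_lit 365))) (XT.nd (nat_lit 78) (nat_lit 76) (nat_lit 0) (XT.lf (nat_lit 0) (nat_lit 5372325117) (nat_lit 228) (nat_lit 1931647965) (nat_lit 76) (nat_lit 6521938331) (nat_lit 66) (nat_lit 5) (nat_lit 69) (nat_lit 5) (nat_lit 67) (nat_lit 4) (nat_lit 446) (nat_lit 390) (nat_lit 364))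 (XT.lf (nat_lit 0) (nat_lit 8595030737) (nat_lit 76) (nat_lit 2029917420) (nat_lit 152) (nat_lit 3599910025) (nat_lit 65) (nat_lit 5) (nat_lit 66) (nat_lit 5) (nat_lit 67) (nat_lit 4) (nat_lit 447) (nat_lit 390) (nat_lit 363))))) (XT.nd (nat_lit 312) (nat_lit 380) (nat_lit 0) (XT.nd (nat_lit 156) (nat_lit 228) (nat_lit 0) (XT.nd (nat_lit 78) (nat_lit 76) (nat_lit 0) (XT.lf (nat_lit 0) (nat_lit 1514953732) (nat_lit 228) (nat_lit 9671321871) (nat_lit 76) (nat_lit 3452992825) (nat_lit 62) (nat_lit 5) (nat_lit 65) (nat_lit 5) (nat_lit 63) (nat_lit 4) (nat_lit 448) (nat_lit 390) (nat_lit 362)) (XT.lf (nat_lit 0) (nat_lit 974503689) (nat_lit 76) (nat_lit 5835172930) (nat_lit 152) (nat_lit 8259521085) (nat_lit 61) (nat_lit 5) (nat_lit 62) (nat_lit 5) (nat_lit 63) (nat_lit 4) (nat_lit 449) (nat_lit 390) (nat_lit 361))) (XT.nd (nat_lit 78) (nat_lit 228) (nat_lit 0) (XT.lf (nat_lit 0) (nat_lit 12307095563)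 (nat_lit 76) (nat_lit 127472033) (nat_lit 152) (nat_lit 3082788150) (nat_lit 61) (nat_lit 5) (nat_lit 62) (nat_lit 5) (nat_lit 63) (nat_lit 4) (nat_lit 450) (nat_lit 390) (nat_lit 360)) (XT.lf (nat_lit 0) (nat_lit 2404431560) (nat_lit 228) (nat_lit 7806870891) (nat_lit 76) (nat_lit 5768438407) (nat_lit 58) (nat_lit 5) (nat_lit 61) (nat_lit 5) (nat_lit 59) (nat_lit 4) (nat_lit 451) (nat_lit 390) (nat_lit 359)))) (XT.nd (nat_lit 156) (nat_lit 304) (nat_lit 0) (XT.nd (nat_lit 78) (nat_lit 0) (nat_lit 0) (XT.lf (nat_lit 0) (nat_lit 3661346082) (nat_lit 76) (nat_lit 4420954876) (nat_lit 152) (nat_lit 8379426229) (nat_lit 57) (nat_lit 5) (nat_lit 58) (nat_lit 5) (nat_lit 59) (nat_lit 4) (nat_lit 452) (nat_lit 390) (nat_lit 358)) (XT.lf (nat_lit 0) (nat_lit 14110258643) (nat_lit 152) (nat_lit 1192201910) (nat_lit 0) (nat_lit 1662045745) (nat_lit 57) (nat_lit 5) (nat_lit 59) (nat_lit 4) (nat_lit 57)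 (nat_lit 4) (nat_lit 453) (nat_lit 390) (nat_lit 357))) (XT.nd (nat_lit 78) (nat_lit 76) (nat_lit 0) (XT.lf (nat_lit 0) (nat_lit 3011764487) (nat_lit 228) (nat_lit 6422170674) (nat_lit 76) (nat_lit 8048246262) (nat_lit 54) (nat_lit 5) (nat_lit 57) (nat_lit 5) (nat_lit 55) (nat_lit 4) (nat_lit 454) (nat_lit 390) (nat_lit 356)) (XT.lf (nat_lit 0) (nat_lit 5914929741) (nat_lit 76) (nat_lit 3183724600) (nat_lit 152) (nat_lit 8923574258) (nat_lit 53) (nat_lit 5) (nat_lit 54) (nat_lit 5) (nat_lit 55) (nat_lit 4) (nat_lit 455) (nat_lit 390) (nat_lit 355)))))) (XT.nd (nat_lit 624) (nat_lit 532) (nat_lit 0) (XT.nd (nat_lit 312) (nat_lit 304) (nat_lit 0) (XT.nd (nat_lit 156) (nat_lit 152) (nat_lit 0) (XT.nd (nat_lit 78) (nat_lit 76) (nat_lit 0) (XT.lf (nat_lit 0) (nat_lit 293668991) (nat_lit 76) (nat_lit 15275174880) (nat_lit 76) (nat_lit 3016489141) (nat_lit 52) (nat_lit 4) (nat_lit 53) (nat_lit 5) (nat_lit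 53) (nat_lit 4) (nat_lit 456) (nat_lit 390) (nat_lit 354)) (XT.lf (nat_lit 0) (nat_lit 3255847706) (nat_lit 152) (nat_lit 5706019588) (nat_lit 76) (nat_lit 10203647276) (nat_lit 51) (nat_lit 5) (nat_lit 53) (nat_lit 5) (nat_lit 52) (nat_lit 4) (nat_lit 457) (nat_lit 390) (nat_lit 353))) (XT.nd (nat_lit 78) (nat_lit 76) (nat_lit 0) (XT.lf (nat_lit 0) (nat_lit 7539424895) (nat_lit 76) (nat_lit 2234210665) (nat_lit 152) (nat_lit 9996938994) (nat_lit 50) (nat_lit 5) (nat_lit 51) (nat_lit 5) (nat_lit 52) (nat_lit 4) (nat_lit 458) (nat_lit 390) (nat_lit 352)) (XT.lf (nat_lit 0) (nat_lit 1038735713) (nat_lit 76) (nat_lit 15684279128) (nat_lit 76) (nat_lit 3677589765) (nat_lit 49) (nat_lit 4) (nat_lit 50) (nat_lit 5) (nat_lit 50) (nat_lit 4) (nat_lit 459) (nat_lit 390) (nat_lit 351)))) (XT.nd (nat_lit 156) (nat_lit 152) (nat_lit 0) (XT.nd (nat_lit 78) (nat_lit 76) (nat_lit 0) (XT.lf (nat_lit 0) (nat_lit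 3026249076) (nat_lit 152) (nat_lit 5903101728) (nat_lit 76) (nat_lit 12122319009) (nat_lit 48) (nat_lit 5) (nat_lit 50) (nat_lit 5) (nat_lit 49) (nat_lit 4) (nat_lit 460) (nat_lit 390) (nat_lit 350)) (XT.lf (nat_lit 0) (nat_lit 8279132441) (nat_lit 76) (nat_lit 1711840839) (nat_lit 152) (nat_lit 11738838231) (nat_lit 47) (nat_lit 5) (nat_lit 48) (nat_lit 5) (nat_lit 49) (nat_lit 4) (nat_lit 461) (nat_lit 390) (nat_lit 349))) (XT.nd (nat_lit 78) (nat_lit 76) (nat_lit 0) (XT.lf (nat_lit 0) (nat_lit 713702892) (nat_lit 76) (nat_lit 16714899993) (nat_lit 76) (nat_lit 5007025733) (nat_lit 46) (nat_lit 4) (nat_lit 47) (nat_lit 5) (nat_lit 47) (nat_lit 4) (nat_lit 462) (nat_lit 390) (nat_lit 348)) (XT.lf (nat_lit 0) (nat_lit 2175450680) (nat_lit 152) (nat_lit 7330654050) (nat_lit 76) (nat_lit 13660021766) (nat_lit 45) (nat_lit 5) (nat_lit 47) (nat_lit 5) (nat_lit 46) (nat_lit 4) (nat_lit 463) (nat_lit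 390) (nat_lit 347))))) (XT.nd (nat_lit 312) (nat_lit 228) (nat_lit 0) (XT.nd (nat_lit 156) (nat_lit 228) (nat_lit 0) (XT.nd (nat_lit 78) (nat_lit 0) (nat_lit 0) (XT.lf (nat_lit 0) (nat_lit 7800519249) (nat_lit 76) (nat_lit 1794297588) (nat_lit 152) (nat_lit 14331928113) (nat_lit 44) (nat_lit 5) (nat_lit 45) (nat_lit 5) (nat_lit 46) (nat_lit 4) (nat_lit 464) (nat_lit 390) (nat_lit 346)) (XT.lf (nat_lit 0) (nat_lit 17534235950) (nat_lit 152) (nat_lit 1024367941) (nat_lit 0) (nat_lit 6159337671) (nat_lit 44) (nat_lit 5) (nat_lit 46) (nat_lit 4) (nat_lit 44) (nat_lit 4) (nat_lit 465) (nat_lit 390) (nat_lit 345))) (XT.nd (nat_lit 78) (nat_lit 76) (nat_lit 0) (XT.lf (nat_lit 0) (nat_lit 508800924) (nat_lit 152) (nat_lit 10399691234) (nat_lit 76) (nat_lit 14630097039) (nat_lit 42) (nat_lit 5) (nat_lit 44) (nat_lit 5) (nat_lit 43) (nat_lit 4) (nat_lit 466) (nat_lit 390) (nat_lit 344)) (XT.lf (nat_lit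 0) (nat_lit 5669314348) (nat_lit 76) (nat_lit 2709540334) (nat_lit 152) (nat_lit 18013810442) (nat_lit 41) (nat_lit 5) (nat_lit 42) (nat_lit 5) (nat_lit 43) (nat_lit 4) (nat_lit 467) (nat_lit 390) (nat_lit 343)))) (XT.nd (nat_lit 156) (nat_lit 152) (nat_lit 0) (XT.nd (nat_lit 78) (nat_lit 76) (nat_lit 0) (XT.lf (nat_lit 0) (nat_lit 16841924646) (nat_lit 152) (nat_lit 4613588669) (nat_lit 0) (nat_lit 5823957064) (nat_lit 41) (nat_lit 5) (nat_lit 43) (nat_lit 4) (nat_lit 41) (nat_lit 4) (nat_lit 468) (nat_lit 390) (nat_lit 342)) (XT.lf (nat_lit 0) (nat_lit 12524012101) (nat_lit 76) (nat_lit 13375896210) (nat_lit 76) (nat_lit 2302120727) (nat_lit 40) (nat_lit 4) (nat_lit 41) (nat_lit 5) (nat_lit 41) (nat_lit 4) (nat_lit 469) (nat_lit 390) (nat_lit 341))) (XT.nd (nat_lit 78) (nat_lit 0) (nat_lit 0) (XT.lf (nat_lit 0) (nat_lit 1321272644) (nat_lit 76) (nat_lit 4751019311) (nat_lit 152) (nat_lit 23091956575)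 (nat_lit 38) (nat_lit 5) (nat_lit 39) (nat_lit 5) (nat_lit 40) (nat_lit 4) (nat_lit 470) (nat_lit 390) (nat_lit 340)) (XT.lf (nat_lit 0) (nat_lit 15057202000) (nat_lit 152) (nat_lit 10690113068) (nat_lit 0) (nat_lit 4411920785) (nat_lit 38) (nat_lit 5) (nat_lit 40) (nat_lit 4) (nat_lit 38) (nat_lit 4) (nat_lit 471) (nat_lit 390) (nat_lit 339))))))) (XT.nd (nat_lit 1248) (nat_lit 684) (nat_lit 0) (XT.nd (nat_lit 624) (nat_lit 456) (nat_lit 0) (XT.nd (nat_lit 312) (nat_lit 304) (nat_lit 0) (XT.nd (nat_lit 156) (nat_lit 76) (nat_lit 0) (XT.nd (nat_lit 78) (nat_lit 76) (nat_lit 0) (XT.lf (nat_lit 0) (nat_lit 7349809242) (nat_lit 76) (nat_lit 17269481061) (nat_lit 76) (nat_lit 6578286548) (nat_lit 37) (nat_lit 4) (nat_lit 38) (nat_lit 5) (nat_lit 38) (nat_lit 4) (nat_lit 472) (nat_lit 390) (nat_lit 338)) (XT.lf (nat_lit 0) (nat_lit 2415119375) (nat_lit 152) (nat_lit 5783926743) (nat_lit 76) (nat_lit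 24080969295) (nat_lit 36) (nat_lit 5) (nat_lit 38) (nat_lit 5) (nat_lit 37) (nat_lit 4) (nat_lit 473) (nat_lit 390) (nat_lit 337))) (XT.nd (nat_lit 78) (nat_lit 0) (nat_lit 0) (XT.lf (nat_lit 0) (nat_lit 11809429375) (nat_lit 152) (nat_lit 20047106927) (nat_lit 0) (nat_lit 1546033015) (nat_lit 35) (nat_lit 5) (nat_lit 37) (nat_lit 4) (nat_lit 35) (nat_lit 4) (nat_lit 474) (nat_lit 390) (nat_lit 336)) (XT.lf (nat_lit 0) (nat_lit 21846001322) (nat_lit 152) (nat_lit 1181791072) (nat_lit 0) (nat_lit 11544831978) (nat_lit 35) (nat_lit 5) (nat_lit 37) (nat_lit 4) (nat_lit 35) (nat_lit 4) (nat_lit 475) (nat_lit 390) (nat_lit 335)))) (XT.nd (nat_lit 156) (nat_lit 76) (nat_lit 0) (XT.nd (nat_lit 78) (nat_lit 152) (nat_lit 0) (XT.lf (nat_lit 0) (nat_lit 19122597590) (nat_lit 76) (nat_lit 13501863005) (nat_lit 76) (nat_lit 3164719391) (nat_lit 34) (nat_lit 4) (nat_lit 35) (nat_lit 5) (nat_lit 35) (nat_lit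 4) (nat_lit 476) (nat_lit 390) (nat_lit 334)) (XT.lf (nat_lit 0) (nat_lit 3299306273) (nat_lit 76) (nat_lit 3369333286) (nat_lit 152) (nat_lit 30391886776) (nat_lit 32) (nat_lit 5) (nat_lit 33) (nat_lit 5) (nat_lit 34) (nat_lit 4) (nat_lit 477) (nat_lit 390) (nat_lit 333))) (XT.nd (nat_lit 78) (nat_lit 76) (nat_lit 0) (XT.lf (nat_lit 0) (nat_lit 17229362550) (nat_lit 152) (nat_lit 13825623271) (nat_lit 0) (nat_lit 7320758218) (nat_lit 32) (nat_lit 5) (nat_lit 34) (nat_lit 4) (nat_lit 32) (nat_lit 4) (nat_lit 478) (nat_lit 390) (nat_lit 332)) (XT.lf (nat_lit 0) (nat_lit 7170149404) (nat_lit 76) (nat_lit 21259596537) (nat_lit 76) (nat_lit 11321396084) (nat_lit 31) (nat_lit 4) (nat_lit 32) (nat_lit 5) (nat_lit 32) (nat_lit 4) (nat_lit 479) (nat_lit 390) (nat_lit 331))))) (XT.nd (nat_lit 312) (nat_lit 228) (nat_lit 0) (XT.nd (nat_lit 156) (nat_lit 76) (nat_lit 0) (XT.nd (nat_lit 78) (nat_lit 152)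 (nat_lit 0) (XT.lf (nat_lit 0) (nat_lit 29586634632) (nat_lit 76) (nat_lit 10783043312) (nat_lit 76) (nat_lit 816656077) (nat_lit 31) (nat_lit 4) (nat_lit 32) (nat_lit 5) (nat_lit 32) (nat_lit 4) (nat_lit 480) (nat_lit 390) (nat_lit 330)) (XT.lf (nat_lit 0) (nat_lit 10005396538) (nat_lit 152) (nat_lit 32185935466) (nat_lit 0) (nat_lit 488032929) (nat_lit 29) (nat_lit 5) (nat_lit 31) (nat_lit 4) (nat_lit 29) (nat_lit 4) (nat_lit 481) (nat_lit 390) (nat_lit 329))) (XT.nd (nat_lit 78) (nat_lit 76) (nat_lit 0) (XT.lf (nat_lit 0) (nat_lit 21664762098) (nat_lit 152) (nat_lit 10442383952) (nat_lit 0) (nat_lit 12123049687) (nat_lit 29) (nat_lit 5) (nat_lit 31) (nat_lit 4) (nat_lit 29) (nat_lit 4) (nat_lit 482) (nat_lit 390) (nat_lit 328)) (XT.lf (nat_lit 0) (nat_lit 12693955184) (nat_lit 76) (nat_lit 21361059590) (nat_lit 76) (nat_lit 11796157843) (nat_lit 28) (nat_lit 4) (nat_lit 29) (nat_lit 5) (nat_lit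 29) (nat_lit 4) (nat_lit 483) (nat_lit 390) (nat_lit 327)))) (XT.nd (nat_lit 156) (nat_lit 76) (nat_lit 0) (XT.nd (nat_lit 78) (nat_lit 152) (nat_lit 0) (XT.lf (nat_lit 0) (nat_lit 37250595276) (nat_lit 76) (nat_lit 9941609555) (nat_lit 76) (nat_lit 354622727) (nat_lit 28) (nat_lit 4) (nat_lit 29) (nat_lit 5) (nat_lit 29) (nat_lit 4) (nat_lit 484) (nat_lit 390) (nat_lit 326)) (XT.lf (nat_lit 0) (nat_lit 11492370747) (nat_lit 152) (nat_lit 35473591054) (nat_lit 0) (nat_lit 2341875281) (nat_lit 26) (nat_lit 5) (nat_lit 28) (nat_lit 4) (nat_lit 26) (nat_lit 4) (nat_lit 485) (nat_lit 390) (nat_lit 325))) (XT.nd (nat_lit 78) (nat_lit 76) (nat_lit 0) (XT.lf (nat_lit 0) (nat_lit 24212228717) (nat_lit 152) (nat_lit 11887101135) (nat_lit 0) (nat_lit 15042655327) (nat_lit 26) (nat_lit 5) (nat_lit 28) (nat_lit 4) (nat_lit 26) (nat_lit 4) (nat_lit 486) (nat_lit 390) (nat_lit 324)) (XT.lf (nat_lit 0) (nat_lit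 13210106242) (nat_lit 76) (nat_lit 24518720156) (nat_lit 76) (nat_lit 15330977316) (nat_lit 25) (nat_lit 4) (nat_lit 26) (nat_lit 5) (nat_lit 26) (nat_lit 4) (nat_lit 487) (nat_lit 390) (nat_lit 323)))))) (XT.nd (nat_lit 624) (nat_lit 304) (nat_lit 0) (XT.nd (nat_lit 312) (nat_lit 152) (nat_lit 0) (XT.nd (nat_lit 156) (nat_lit 76) (nat_lit 0) (XT.nd (nat_lit 78) (nat_lit 152) (nat_lit 0) (XT.lf (nat_lit 0) (nat_lit 39884928764) (nat_lit 76) (nat_lit 12192901516) (nat_lit 76) (nat_lit 2987854436) (nat_lit 25) (nat_lit 4) (nat_lit 26) (nat_lit 5) (nat_lit 26) (nat_lit 4) (nat_lit 488) (nat_lit 390) (nat_lit 322)) (XT.lf (nat_lit 0) (nat_lit 9795289252) (nat_lit 152) (nat_lit 46348801446) (nat_lit 0) (nat_lit 1012882293) (nat_lit 23) (nat_lit 5) (nat_lit 25) (nat_lit 4) (nat_lit 23) (nat_lit 4) (nat_lit 489) (nat_lit 390) (nat_lit 321))) (XT.nd (nat_lit 78) (nat_lit 76) (nat_lit 0) (XT.lf (nat_lit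 0) (nat_lit 23535115898) (nat_lit 152) (nat_lit 21056603278) (nat_lit 0) (nat_lit 14737760886) (nat_lit 23) (nat_lit 5) (nat_lit 25) (nat_lit 4) (nat_lit 23) (nat_lit 4) (nat_lit 490) (nat_lit 390) (nat_lit 320)) (XT.lf (nat_lit 0) (nat_lit 5596332127) (nat_lit 76) (nat_lit 32411781461) (nat_lit 76) (nat_lit 23600190209) (nat_lit 22) (nat_lit 4) (nat_lit 23) (nat_lit 5) (nat_lit 23) (nat_lit 4) (nat_lit 491) (nat_lit 390) (nat_lit 319)))) (XT.nd (nat_lit 156) (nat_lit 76) (nat_lit 0) (XT.nd (nat_lit 78) (nat_lit 76) (nat_lit 0) (XT.lf (nat_lit 0) (nat_lit 34231300327) (nat_lit 76) (nat_lit 19289556726) (nat_lit 76) (nat_lit 10464407150) (nat_lit 22) (nat_lit 4) (nat_lit 23) (nat_lit 5) (nat_lit 23) (nat_lit 4) (nat_lit 492) (nat_lit 390) (nat_lit 318)) (XT.lf (nat_lit 0) (nat_lit 3182431367) (nat_lit 152) (nat_lit 2314077962) (nat_lit 76) (nat_lit 60983926036) (nat_lit 21) (nat_lit 5) (nat_lit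 23) (nat_lit 5) (nat_lit 22) (nat_lit 4) (nat_lit 493) (nat_lit 390) (nat_lit 317))) (XT.nd (nat_lit 78) (nat_lit 0) (nat_lit 0) (XT.lf (nat_lit 0) (nat_lit 17695457645) (nat_lit 152) (nat_lit 42103011074) (nat_lit 0) (nat_lit 9266543297) (nat_lit 20) (nat_lit 5) (nat_lit 22) (nat_lit 4) (nat_lit 20) (nat_lit 4) (nat_lit 494) (nat_lit 390) (nat_lit 316)) (XT.lf (nat_lit 0) (nat_lit 33026768454) (nat_lit 152) (nat_lit 14160717978) (nat_lit 0) (nat_lit 24586699639) (nat_lit 20) (nat_lit 5) (nat_lit 22) (nat_lit 4) (nat_lit 20) (nat_lit 4) (nat_lit 495) (nat_lit 390) (nat_lit 315))))) (XT.nd (nat_lit 312) (nat_lit 76) (nat_lit 0) (XT.nd (nat_lit 156) (nat_lit 152) (nat_lit 0) (XT.nd (nat_lit 78) (nat_lit 0) (nat_lit 0) (XT.lf (nat_lit 0) (nat_lit 15606446707) (nat_lit 76) (nat_lit 33726328957) (nat_lit 76) (nat_lit 25275636839) (nat_lit 19) (nat_lit 4) (nat_lit 20) (nat_lit 5) (nat_lit 20) (nat_lit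 4) (nat_lit 496) (nat_lit 390) (nat_lit 314)) (XT.lf (nat_lit 0) (nat_lit 47283008164) (nat_lit 76) (nat_lit 19375953952) (nat_lit 76) (nat_lit 10915144405) (nat_lit 19) (nat_lit 4) (nat_lit 20) (nat_lit 5) (nat_lit 20) (nat_lit 4) (nat_lit 497) (nat_lit 390) (nat_lit 313))) (XT.nd (nat_lit 78) (nat_lit 76) (nat_lit 0) (XT.lf (nat_lit 0) (nat_lit 3996297093) (nat_lit 152) (nat_lit 278036154) (nat_lit 76) (nat_lit 76412193170) (nat_lit 18) (nat_lit 5) (nat_lit 20) (nat_lit 5) (nat_lit 19) (nat_lit 4) (nat_lit 498) (nat_lit 390) (nat_lit 312)) (XT.lf (nat_lit 0) (nat_lit 19945592260) (nat_lit 152) (nat_lit 52097311505) (nat_lit 0) (nat_lit 11869761781) (nat_lit 17) (nat_lit 5) (nat_lit 19) (nat_lit 4) (nat_lit 17) (nat_lit 4) (nat_lit 499) (nat_lit 390) (nat_lit 311)))) (XT.nd (nat_lit 156) (nat_lit 0) (nat_lit 0) (XT.nd (nat_lit 78) (nat_lit 76) (nat_lit 0) (XT.lf (nat_lit 0) (nat_lit 36735026684)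 (nat_lit 152) (nat_lit 21912078823) (nat_lit 0) (nat_lit 28650872571) (nat_lit 17) (nat_lit 5) (nat_lit 19) (nat_lit 4) (nat_lit 17) (nat_lit 4) (nat_lit 500) (nat_lit 390) (nat_lit 310)) (XT.lf (nat_lit 0) (nat_lit 10041795735) (nat_lit 76) (nat_lit 44448267758) (nat_lit 76) (nat_lit 36356186374) (nat_lit 16) (nat_lit 4) (nat_lit 17) (nat_lit 5) (nat_lit 17) (nat_lit 4) (nat_lit 501) (nat_lit 390) (nat_lit 309))) (XT.nd (nat_lit 78) (nat_lit 0) (nat_lit 0) (XT.lf (nat_lit 0) (nat_lit 44293082307) (nat_lit 76) (nat_lit 29180718416) (nat_lit 76) (nat_lit 21081087249) (nat_lit 16) (nat_lit 4) (nat_lit 17) (nat_lit 5) (nat_lit 17) (nat_lit 4) (nat_lit 502) (nat_lit 390) (nat_lit 308)) (XT.lf (nat_lit 0) (nat_lit 80198819291) (nat_lit 76) (nat_lit 13179197830) (nat_lit 76) (nat_lit 5072376395) (nat_lit 16) (nat_lit 4) (nat_lit 17) (nat_lit 5) (nat_lit 17) (nat_lit 4) (nat_lit 503) (nat_lit 390) (nat_lit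 307))))))))
noncomputable def xc72 : XT := (XT.nd (nat_lit 2418) (nat_lit 228) (nat_lit 0) (XT.nd (nat_lit 1170) (nat_lit 304) (nat_lit 0) (XT.nd (nat_lit 546) (nat_lit 228) (nat_lit 0) (XT.nd (nat_lit 234) (nat_lit 152) (nat_lit 0) (XT.nd (nat_lit 78) (nat_lit 0) (nat_lit 0) (XT.lf (nat_lit 0) (nat_lit 11640309524) (nat_lit 152) (nat_lit 86964237862) (nat_lit 0) (nat_lit 3913005418) (nat_lit 14) (nat_lit 5) (nat_lit 16) (nat_lit 4) (nat_lit 14) (nat_lit 4) (nat_lit 504) (nat_lit 390) (nat_lit 306)) (XT.nd (nat_lit 78) (nat_lit 0) (nat_lit 0) (XT.lf (nat_lit 0) (nat_lit 29520615888) (nat_lit 152) (nat_lit 55451073492) (nat_lit 0) (nat_lit 21787100558) (nat_lit 14) (nat_lit 5) (nat_lit 16) (nat_lit 4) (nat_lit 14) (nat_lit 4) (nat_lit 505) (nat_lit 390) (nat_lit 305)) (XT.lf (nat_lit 0) (nat_lit 48268492228) (nat_lit 152) (nat_lit 22415857642) (nat_lit 0) (nat_lit 40529061446) (nat_lit 14) (nat_lit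 5) (nat_lit 16) (nat_lit 4) (nat_lit 14) (nat_lit 4) (nat_lit 506) (nat_lit 390) (nat_lit 304)))) (XT.nd (nat_lit 156) (nat_lit 76) (nat_lit 0) (XT.nd (nat_lit 78) (nat_lit 0) (nat_lit 0) (XT.lf (nat_lit 0) (nat_lit 12624115498) (nat_lit 76) (nat_lit 55501558669) (nat_lit 76) (nat_lit 47756494123) (nat_lit 13) (nat_lit 4) (nat_lit 14) (nat_lit 5) (nat_lit 14) (nat_lit 4) (nat_lit 507) (nat_lit 390) (nat_lit 303)) (XT.lf (nat_lit 0) (nat_lit 50144084673) (nat_lit 76) (nat_lit 39186482982) (nat_lit 76) (nat_lit 31436052947) (nat_lit 13) (nat_lit 4) (nat_lit 14) (nat_lit 5) (nat_lit 14) (nat_lit 4) (nat_lit 508) (nat_lit 390) (nat_lit 302))) (XT.nd (nat_lit 78) (nat_lit 76) (nat_lit 0) (XT.lf (nat_lit 0) (nat_lit 89492213654) (nat_lit 76) (nat_lit 22079900786) (nat_lit 76) (nat_lit 14324360761) (nat_lit 13) (nat_lit 4) (nat_lit 14) (nat_lit 5) (nat_lit 14) (nat_lit 4) (nat_lit 509) (nat_lit 390)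 (nat_lit 301)) (XT.lf (nat_lit 0) (nat_lit 3503483567) (nat_lit 152) (nat_lit 578265369) (nat_lit 76) (nat_lit 127199371707) (nat_lit 12) (nat_lit 5) (nat_lit 14) (nat_lit 5) (nat_lit 13) (nat_lit 4) (nat_lit 510) (nat_lit 390) (nat_lit 300))))) (XT.nd (nat_lit 312) (nat_lit 76) (nat_lit 0) (XT.nd (nat_lit 156) (nat_lit 76) (nat_lit 0) (XT.nd (nat_lit 78) (nat_lit 0) (nat_lit 0) (XT.lf (nat_lit 0) (nat_lit 22557027817) (nat_lit 152) (nat_lit 99163694231) (nat_lit 0) (nat_lit 15161750110) (nat_lit 11) (nat_lit 5) (nat_lit 13) (nat_lit 4) (nat_lit 11) (nat_lit 4) (nat_lit 511) (nat_lit 390) (nat_lit 299)) (XT.lf (nat_lit 0) (nat_lit 42618382473) (nat_lit 152) (nat_lit 64923851440) (nat_lit 0) (nat_lit 35218900764) (nat_lit 11) (nat_lit 5) (nat_lit 13) (nat_lit 4) (nat_lit 11) (nat_lit 4) (nat_lit 512) (nat_lit 390) (nat_lit 298))) (XT.nd (nat_lit 78) (nat_lit 76) (nat_lit 0) (XT.lf (nat_lit 0)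 (nat_lit 63662105364) (nat_lit 152) (nat_lit 29014040171) (nat_lit 0) (nat_lit 56258619844) (nat_lit 11) (nat_lit 5) (nat_lit 13) (nat_lit 4) (nat_lit 11) (nat_lit 4) (nat_lit 513) (nat_lit 390) (nat_lit 297)) (XT.lf (nat_lit 0) (nat_lit 8937288161) (nat_lit 76) (nat_lit 76940548546) (nat_lit 76) (nat_lit 69533249874) (nat_lit 10) (nat_lit 4) (nat_lit 11) (nat_lit 5) (nat_lit 11) (nat_lit 4) (nat_lit 514) (nat_lit 390) (nat_lit 296)))) (XT.nd (nat_lit 156) (nat_lit 76) (nat_lit 0) (XT.nd (nat_lit 78) (nat_lit 0) (nat_lit 0) (XT.lf (nat_lit 0) (nat_lit 49754107858) (nat_lit 76) (nat_lit 59922223728) (nat_lit 76) (nat_lit 52511293481) (nat_lit 10) (nat_lit 4) (nat_lit 11) (nat_lit 5) (nat_lit 11) (nat_lit 4) (nat_lit 515) (nat_lit 390) (nat_lit 295)) (XT.lf (nat_lit 0) (nat_lit 92574266626) (nat_lit 76) (nat_lit 42072018070) (nat_lit 76) (nat_lit 34657629180) (nat_lit 10) (nat_lit 4) (nat_lit 11)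 (nat_lit 5) (nat_lit 11) (nat_lit 4) (nat_lit 516) (nat_lit 390) (nat_lit 294))) (XT.nd (nat_lit 78) (nat_lit 76) (nat_lit 0) (XT.lf (nat_lit 0) (nat_lit 137499717223) (nat_lit 76) (nat_lit 23347431081) (nat_lit 76) (nat_lit 15929748247) (nat_lit 10) (nat_lit 4) (nat_lit 11) (nat_lit 5) (nat_lit 11) (nat_lit 4) (nat_lit 517) (nat_lit 390) (nat_lit 293)) (XT.lf (nat_lit 0) (nat_lit 3597974234) (nat_lit 152) (nat_lit 44972744) (nat_lit 76) (nat_lit 180978517338) (nat_lit 9) (nat_lit 5) (nat_lit 11) (nat_lit 5) (nat_lit 10) (nat_lit 4) (nat_lit 518) (nat_lit 390) (nat_lit 292)))))) (XT.nd (nat_lit 624) (nat_lit 152) (nat_lit 0) (XT.nd (nat_lit 312) (nat_lit 76) (nat_lit 0) (XT.nd (nat_lit 156) (nat_lit 0) (nat_lit 0) (XT.nd (nat_lit 78) (nat_lit 0) (nat_lit 0) (XT.lf (nat_lit 0) (nat_lit 24490443256) (nat_lit 152) (nat_lit 150888424605) (nat_lit 0) (nat_lit 17420150275) (nat_lit 8) (nat_lit 5) (nat_lit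 10) (nat_lit 4) (nat_lit 8) (nat_lit 4) (nat_lit 519) (nat_lit 390) (nat_lit 291)) (XT.lf (nat_lit 0) (nat_lit 46471825990) (nat_lit 152) (nat_lit 115512586129) (nat_lit 0) (nat_lit 39398823072) (nat_lit 8) (nat_lit 5) (nat_lit 10) (nat_lit 4) (nat_lit 8) (nat_lit 4) (nat_lit 520) (nat_lit 390) (nat_lit 290))) (XT.nd (nat_lit 78) (nat_lit 0) (nat_lit 0) (XT.lf (nat_lit 0) (nat_lit 69536845190) (nat_lit 152) (nat_lit 78399328214) (nat_lit 0) (nat_lit 62461261380) (nat_lit 8) (nat_lit 5) (nat_lit 10) (nat_lit 4) (nat_lit 8) (nat_lit 4) (nat_lit 521) (nat_lit 390) (nat_lit 289)) (XT.lf (nat_lit 0) (nat_lit 93740417569) (nat_lit 152) (nat_lit 39460285962) (nat_lit 0) (nat_lit 86662375767) (nat_lit 8) (nat_lit 5) (nat_lit 10) (nat_lit 4) (nat_lit 8) (nat_lit 4) (nat_lit 522) (nat_lit 390) (nat_lit 288)))) (XT.nd (nat_lit 156) (nat_lit 0) (nat_lit 0) (XT.nd (nat_lit 78) (nat_lit 0) (nat_lit 0) (XT.lf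 (nat_lit 0) (nat_lit 1443452116) (nat_lit 76) (nat_lit 117719254897) (nat_lit 76) (nat_lit 110638872150) (nat_lit 7) (nat_lit 4) (nat_lit 8) (nat_lit 5) (nat_lit 8) (nat_lit 4) (nat_lit 523) (nat_lit 390) (nat_lit 287)) (XT.lf (nat_lit 0) (nat_lit 45734352318) (nat_lit 76) (nat_lit 100776269218) (nat_lit 76) (nat_lit 93693656999) (nat_lit 7) (nat_lit 4) (nat_lit 8) (nat_lit 5) (nat_lit 8) (nat_lit 4) (nat_lit 524) (nat_lit 390) (nat_lit 286))) (XT.nd (nat_lit 78) (nat_lit 0) (nat_lit 0) (XT.lf (nat_lit 0) (nat_lit 92213133907) (nat_lit 76) (nat_lit 82999685090) (nat_lit 76) (nat_lit 75914949565) (nat_lit 7) (nat_lit 4) (nat_lit 8) (nat_lit 5) (nat_lit 8) (nat_lit 4) (nat_lit 525) (nat_lit 390) (nat_lit 285)) (XT.lf (nat_lit 0) (nat_lit 140990460647) (nat_lit 76) (nat_lit 64347177311) (nat_lit 76) (nat_lit 57260419590) (nat_lit 7) (nat_lit 4) (nat_lit 8) (nat_lit 5) (nat_lit 8) (nat_lit 4) (nat_lit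 526) (nat_lit 390) (nat_lit 284))))) (XT.nd (nat_lit 312) (nat_lit 0) (nat_lit 0) (XT.nd (nat_lit 156) (nat_lit 152) (nat_lit 0) (XT.nd (nat_lit 78) (nat_lit 0) (nat_lit 0) (XT.lf (nat_lit 0) (nat_lit 192182469032) (nat_lit 76) (nat_lit 44774335150) (nat_lit 76) (nat_lit 37685651527) (nat_lit 7) (nat_lit 4) (nat_lit 8) (nat_lit 5) (nat_lit 8) (nat_lit 4) (nat_lit 527) (nat_lit 390) (nat_lit 283)) (XT.lf (nat_lit 0) (nat_lit 245911044795) (nat_lit 76) (nat_lit 24234556600) (nat_lit 76) (nat_lit 17144038785) (nat_lit 7) (nat_lit 4) (nat_lit 8) (nat_lit 5) (nat_lit 8) (nat_lit 4) (nat_lit 528) (nat_lit 390) (nat_lit 282))) (XT.nd (nat_lit 78) (nat_lit 0) (nat_lit 0) (XT.lf (nat_lit 0) (nat_lit 1720553869) (nat_lit 76) (nat_lit 2578382000) (nat_lit 152) (nat_lit 296265999087) (nat_lit 5) (nat_lit 5) (nat_lit 6) (nat_lit 5) (nat_lit 7) (nat_lit 4) (nat_lit 529) (nat_lit 390) (nat_lit 281)) (XT.lf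 (nat_lit 0) (nat_lit 27253965780) (nat_lit 152) (nat_lit 266687329738) (nat_lit 0) (nat_lit 20497843561) (nat_lit 5) (nat_lit 5) (nat_lit 7) (nat_lit 4) (nat_lit 5) (nat_lit 4) (nat_lit 530) (nat_lit 390) (nat_lit 280)))) (XT.nd (nat_lit 156) (nat_lit 0) (nat_lit 0) (XT.nd (nat_lit 78) (nat_lit 0) (nat_lit 0) (XT.lf (nat_lit 0) (nat_lit 51388578265) (nat_lit 152) (nat_lit 232985936569) (nat_lit 0) (nat_lit 44630947051) (nat_lit 5) (nat_lit 5) (nat_lit 7) (nat_lit 4) (nat_lit 5) (nat_lit 4) (nat_lit 531) (nat_lit 390) (nat_lit 279)) (XT.lf (nat_lit 0) (nat_lit 76719980918) (nat_lit 152) (nat_lit 197619704399) (nat_lit 0) (nat_lit 69960912567) (nat_lit 5) (nat_lit 5) (nat_lit 7) (nat_lit 4) (nat_lit 5) (nat_lit 4) (nat_lit 532) (nat_lit 390) (nat_lit 278))) (XT.nd (nat_lit 78) (nat_lit 0) (nat_lit 0) (XT.lf (nat_lit 0) (nat_lit 103308486602) (nat_lit 152) (nat_lit 160504427914) (nat_lit 0) (nat_lit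 96548049549) (nat_lit 5) (nat_lit 5) (nat_lit 7) (nat_lit 4) (nat_lit 5) (nat_lit 4) (nat_lit 533) (nat_lit 390) (nat_lit 277)) (XT.lf (nat_lit 0) (nat_lit 131217401285) (nat_lit 152) (nat_lit 121551737408) (nat_lit 0) (nat_lit 124455660706) (nat_lit 5) (nat_lit 5) (nat_lit 7) (nat_lit 4) (nat_lit 5) (nat_lit 4) (nat_lit 534) (nat_lit 390) (nat_lit 276))))))) (XT.nd (nat_lit 1170) (nat_lit 0) (nat_lit 0) (XT.nd (nat_lit 546) (nat_lit 152) (nat_lit 0) (XT.nd (nat_lit 234) (nat_lit 0) (nat_lit 0) (XT.nd (nat_lit 78) (nat_lit 76) (nat_lit 0) (XT.lf (nat_lit 0) (nat_lit 160513174761) (nat_lit 152) (nat_lit 80668888380) (nat_lit 0) (nat_lit 153750192729) (nat_lit 5) (nat_lit 5) (nat_lit 7) (nat_lit 4) (nat_lit 5) (nat_lit 4) (nat_lit 535) (nat_lit 390) (nat_lit 275)) (XT.nd (nat_lit 78) (nat_lit 76) (nat_lit 0) (XT.lf (nat_lit 0) (nat_lit 191265558874) (nat_lit 152) (nat_lit 37758540712) (nat_lit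 0) (nat_lit 184501394506) (nat_lit 5) (nat_lit 5) (nat_lit 7) (nat_lit 4) (nat_lit 5) (nat_lit 4) (nat_lit 536) (nat_lit 390) (nat_lit 274)) (XT.lf (nat_lit 0) (nat_lit 7522231472) (nat_lit 76) (nat_lit 216142985227) (nat_lit 76) (nat_lit 209377694823) (nat_lit 4) (nat_lit 4) (nat_lit 5) (nat_lit 5) (nat_lit 5) (nat_lit 4) (nat_lit 537) (nat_lit 390) (nat_lit 273)))) (XT.nd (nat_lit 156) (nat_lit 0) (nat_lit 0) (XT.nd (nat_lit 78) (nat_lit 0) (nat_lit 0) (XT.lf (nat_lit 0) (nat_lit 56362337955) (nat_lit 76) (nat_lit 201954317406) (nat_lit 76) (nat_lit 195187954589) (nat_lit 4) (nat_lit 4) (nat_lit 5) (nat_lit 5) (nat_lit 5) (nat_lit 4) (nat_lit 538) (nat_lit 390) (nat_lit 272)) (XT.lf (nat_lit 0) (nat_lit 107629596824) (nat_lit 76) (nat_lit 187063772739) (nat_lit 76) (nat_lit 180296388575) (nat_lit 4) (nat_lit 4) (nat_lit 5) (nat_lit 5) (nat_lit 5) (nat_lit 4) (nat_lit 539) (nat_lit 390) (nat_lit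 271))) (XT.nd (nat_lit 78) (nat_lit 0) (nat_lit 0) (XT.lf (nat_lit 0) (nat_lit 161446072982) (nat_lit 76) (nat_lit 171435897549) (nat_lit 76) (nat_lit 164667540674) (nat_lit 4) (nat_lit 4) (nat_lit 5) (nat_lit 5) (nat_lit 5) (nat_lit 4) (nat_lit 540) (nat_lit 390) (nat_lit 270)) (XT.lf (nat_lit 0) (nat_lit 217939900895) (nat_lit 76) (nat_lit 155033482608) (nat_lit 76) (nat_lit 148264199342) (nat_lit 4) (nat_lit 4) (nat_lit 5) (nat_lit 5) (nat_lit 5) (nat_lit 4) (nat_lit 541) (nat_lit 390) (nat_lit 269))))) (XT.nd (nat_lit 312) (nat_lit 152) (nat_lit 0) (XT.nd (nat_lit 156) (nat_lit 0) (nat_lit 0) (XT.nd (nat_lit 78) (nat_lit 0) (nat_lit 0) (XT.lf (nat_lit 0) (nat_lit 277245589678) (nat_lit 76) (nat_lit 137817474548) (nat_lit 76) (nat_lit 131047309004) (nat_lit 4) (nat_lit 4) (nat_lit 5) (nat_lit 5) (nat_lit 5) (nat_lit 4) (nat_lit 542) (nat_lit 390) (nat_lit 268)) (XT.lf (nat_lit 0) (nat_lit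 339504343351) (nat_lit 76) (nat_lit 119746882873) (nat_lit 76) (nat_lit 112975877065) (nat_lit 4) (nat_lit 4) (nat_lit 5) (nat_lit 5) (nat_lit 5) (nat_lit 4) (nat_lit 543) (nat_lit 390) (nat_lit 267))) (XT.nd (nat_lit 78) (nat_lit 0) (nat_lit 0) (XT.lf (nat_lit 0) (nat_lit 404864397043) (nat_lit 76) (nat_lit 100778682366) (nat_lit 76) (nat_lit 94006876306) (nat_lit 4) (nat_lit 4) (nat_lit 5) (nat_lit 5) (nat_lit 5) (nat_lit 4) (nat_lit 544) (nat_lit 390) (nat_lit 266)) (XT.lf (nat_lit 0) (nat_lit 473481369929) (nat_lit 76) (nat_lit 80867710643) (nat_lit 76) (nat_lit 74095142439) (nat_lit 4) (nat_lit 4) (nat_lit 5) (nat_lit 5) (nat_lit 5) (nat_lit 4) (nat_lit 545) (nat_lit 390) (nat_lit 265)))) (XT.nd (nat_lit 156) (nat_lit 152) (nat_lit 0) (XT.nd (nat_lit 78) (nat_lit 0) (nat_lit 0) (XT.lf (nat_lit 0) (nat_lit 545518635754) (nat_lit 76) (nat_lit 59966560630) (nat_lit 76) (nat_lit 53193266574)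 (nat_lit 4) (nat_lit 4) (nat_lit 5) (nat_lit 5) (nat_lit 5) (nat_lit 4) (nat_lit 546) (nat_lit 390) (nat_lit 264)) (XT.lf (nat_lit 0) (nat_lit 621147711817) (nat_lit 76) (nat_lit 38025467684) (nat_lit 76) (nat_lit 31251482339) (nat_lit 4) (nat_lit 4) (nat_lit 5) (nat_lit 5) (nat_lit 5) (nat_lit 4) (nat_lit 547) (nat_lit 390) (nat_lit 263))) (XT.nd (nat_lit 78) (nat_lit 152) (nat_lit 0) (XT.lf (nat_lit 0) (nat_lit 700548667347) (nat_lit 76) (nat_lit 14992191106) (nat_lit 76) (nat_lit 8217547393) (nat_lit 4) (nat_lit 4) (nat_lit 5) (nat_lit 5) (nat_lit 5) (nat_lit 4) (nat_lit 548) (nat_lit 390) (nat_lit 262)) (XT.lf (nat_lit 0) (nat_lit 16008224762) (nat_lit 152) (nat_lit 733155000062) (nat_lit 0) (nat_lit 9555585970) (nat_lit 2) (nat_lit 5) (nat_lit 4) (nat_lit 4) (nat_lit 2) (nat_lit 4) (nat_lit 549) (nat_lit 390) (nat_lit 261)))))) (XT.nd (nat_lit 52650) (nat_lit 0) (nat_lit 7068) (XT.nd (nat_lit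 52338) (nat_lit 0) (nat_lit 8968) (XT.nd (nat_lit 52182) (nat_lit 0) (nat_lit 10108) (XT.nd (nat_lit 78) (nat_lit 0) (nat_lit 0) (XT.lf (nat_lit 0) (nat_lit 41809856727) (nat_lit 152) (nat_lit 718221957634) (nat_lit 0) (nat_lit 35356649211) (nat_lit 2) (nat_lit 5) (nat_lit 4) (nat_lit 4) (nat_lit 2) (nat_lit 4) (nat_lit 550) (nat_lit 390) (nat_lit 260)) (XT.lf (nat_lit 0) (nat_lit 68897236159) (nat_lit 152) (nat_lit 702551092546) (nat_lit 0) (nat_lit 62443487001) (nat_lit 2) (nat_lit 5) (nat_lit 4) (nat_lit 4) (nat_lit 2) (nat_lit 4) (nat_lit 551) (nat_lit 390) (nat_lit 259))) (XT.nd (nat_lit 78) (nat_lit 456) (nat_lit 0) (XT.lf (nat_lit 0) (nat_lit 2519804214) (nat_lit 380) (nat_lit 585501372) (nat_lit 380) (nat_lit 585501372) (nat_lit 141) (nat_lit 4) (nat_lit 146) (nat_lit 5) (nat_lit 146) (nat_lit 4) (nat_lit 418) (nat_lit 391) (nat_lit 391)) (XT.lf (nat_lit 0) (nat_lit 2477217672) (nat_lit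 456) (nat_lit 4002751359) (nat_lit 0) (nat_lit 1010391252) (nat_lit 135) (nat_lit 5) (nat_lit 141) (nat_lit 4) (nat_lit 135) (nat_lit 4) (nat_lit 419) (nat_lit 391) (nat_lit 390)))) (XT.nd (nat_lit 156) (nat_lit 380) (nat_lit 0) (XT.nd (nat_lit 78) (nat_lit 380) (nat_lit 0) (XT.lf (nat_lit 0) (nat_lit 1912775956) (nat_lit 380) (nat_lit 4279232652) (nat_lit 380) (nat_lit 1415428688) (nat_lit 130) (nat_lit 4) (nat_lit 135) (nat_lit 5) (nat_lit 135) (nat_lit 4) (nat_lit 420) (nat_lit 391) (nat_lit 389)) (XT.lf (nat_lit 0) (nat_lit 308845359) (nat_lit 304) (nat_lit 1887790800) (nat_lit 380) (nat_lit 5536410657) (nat_lit 125) (nat_lit 5) (nat_lit 129) (nat_lit 5) (nat_lit 130) (nat_lit 4) (nat_lit 421) (nat_lit 391) (nat_lit 388))) (XT.nd (nat_lit 78) (nat_lit 380) (nat_lit 0) (XT.lf (nat_lit 0) (nat_lit 5889994272) (nat_lit 380) (nat_lit 1287693967) (nat_lit 0) (nat_lit 688700386) (nat_lit 125) (nat_lit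 5) (nat_lit 130) (nat_lit 4) (nat_lit 125) (nat_lit 4) (nat_lit 422) (nat_lit 391) (nat_lit 387)) (XT.lf (nat_lit 0) (nat_lit 1663118346) (nat_lit 380) (nat_lit 2941198156) (nat_lit 76) (nat_lit 3402834477) (nat_lit 120) (nat_lit 5) (nat_lit 125) (nat_lit 5) (nat_lit 121) (nat_lit 4) (nat_lit 423) (nat_lit 391) (nat_lit 386))))) (XT.nd (nat_lit 312) (nat_lit 988) (nat_lit 0) (XT.nd (nat_lit 156) (nat_lit 228) (nat_lit 0) (XT.nd (nat_lit 78) (nat_lit 380) (nat_lit 0) (XT.lf (nat_lit 0) (nat_lit 3512307414) (nat_lit 304) (nat_lit 1832798264) (nat_lit 380) (nat_lit 2811901338) (nat_lit 116) (nat_lit 5) (nat_lit 120) (nat_lit 5) (nat_lit 121) (nat_lit 4) (nat_lit 424) (nat_lit 391) (nat_lit 385)) (XT.lf (nat_lit 0) (nat_lit 818124547) (nat_lit 380) (nat_lit 6406278370) (nat_lit 76) (nat_lit 1091772710) (nat_lit 111) (nat_lit 5) (nat_lit 116) (nat_lit 5) (nat_lit 112) (nat_lit 4) (nat_lit 425) (nat_lit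 391) (nat_lit 384))) (XT.nd (nat_lit 78) (nat_lit 0) (nat_lit 0) (XT.lf (nat_lit 0) (nat_lit 202635557) (nat_lit 228) (nat_lit 4300583291) (nat_lit 304) (nat_lit 3979394285) (nat_lit 108) (nat_lit 5) (nat_lit 111) (nat_lit 5) (nat_lit 112) (nat_lit 4) (nat_lit 426) (nat_lit 391) (nat_lit 383)) (XT.lf (nat_lit 0) (nat_lit 7167115285) (nat_lit 228) (nat_lit 1172681080) (nat_lit 304) (nat_lit 319232412) (nat_lit 108) (nat_lit 5) (nat_lit 111) (nat_lit 5) (nat_lit 112) (nat_lit 4) (nat_lit 427) (nat_lit 391) (nat_lit 382)))) (XT.nd (nat_lit 156) (nat_lit 456) (nat_lit 0) (XT.nd (nat_lit 78) (nat_lit 228) (nat_lit 0) (XT.lf (nat_lit 0) (nat_lit 3395720148) (nat_lit 304) (nat_lit 3312193022) (nat_lit 76) (nat_lit 2134388617) (nat_lit 104) (nat_lit 5) (nat_lit 108) (nat_lit 5) (nat_lit 105) (nat_lit 4) (nat_lit 428) (nat_lit 391) (nat_lit 381)) (XT.lf (nat_lit 0) (nat_lit 3823941171) (nat_lit 228) (nat_lit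 3432278275) (nat_lit 304) (nat_lit 1779746245) (nat_lit 101) (nat_lit 5) (nat_lit 104) (nat_lit 5) (nat_lit 105) (nat_lit 4) (nat_lit 429) (nat_lit 391) (nat_lit 380))) (XT.nd (nat_lit 78) (nat_lit 152) (nat_lit 0) (XT.lf (nat_lit 0) (nat_lit 1961137444) (nat_lit 304) (nat_lit 7210292726) (nat_lit 76) (nat_lit 68431554) (nat_lit 97) (nat_lit 5) (nat_lit 101) (nat_lit 5) (nat_lit 98) (nat_lit 4) (nat_lit 430) (nat_lit 391) (nat_lit 379)) (XT.lf (nat_lit 0) (nat_lit 81658868) (nat_lit 152) (nat_lit 5764318419) (nat_lit 228) (nat_lit 3605693507) (nat_lit 95) (nat_lit 5) (nat_lit 97) (nat_lit 5) (nat_lit 98) (nat_lit 4) (nat_lit 431) (nat_lit 391) (nat_lit 378))))))))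
noncomputable def xc73 : XT := (XT.nd (nat_lit 2418) (nat_lit 1900) (nat_lit 0) (XT.nd (nat_lit 1170) (nat_lit 1444) (nat_lit 0) (XT.nd (nat_lit 546) (nat_lit 1064) (nat_lit 0) (XT.nd (nat_lit 234) (nat_lit 684) (nat_lit 0) (XT.nd (nat_lit 78) (nat_lit 380) (nat_lit 0) (XT.lf (nat_lit 0) (nat_lit 237596542) (nat_lit 228) (nat_lit 1885157322) (nat_lit 76) (nat_lit 7551400447) (nat_lit 94) (nat_lit 5) (nat_lit 97) (nat_lit 5) (nat_lit 95) (nat_lit 5) (nat_lit 432) (nat_lit 391) (nat_lit 377)) (XT.nd (nat_lit 78) (nat_lit 152) (nat_lit 0) (XT.lf (nat_lit 0) (nat_lit 4148894509) (nat_lit 304) (nat_lit 4020540309) (nat_lit 76) (nat_lit 1735532182) (nat_lit 91) (nat_lit 5) (nat_lit 95) (nat_lit 5) (nat_lit 92) (nat_lit 4) (nat_lit 433) (nat_lit 391) (nat_lit 376)) (XT.lf (nat_lit 0) (nat_lit 3858171041) (nat_lit 152) (nat_lit 4403671175) (nat_lit 228) (nat_lit 1885184722) (nat_lit 89) (nat_lit 5) (nat_lit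 91) (nat_lit 5) (nat_lit 92) (nat_lit 4) (nat_lit 434) (nat_lit 391) (nat_lit 375)))) (XT.nd (nat_lit 156) (nat_lit 380) (nat_lit 0) (XT.nd (nat_lit 78) (nat_lit 0) (nat_lit 0) (XT.lf (nat_lit 0) (nat_lit 1698745661) (nat_lit 228) (nat_lit 385954448) (nat_lit 304) (nat_lit 8316038296) (nat_lit 85) (nat_lit 5) (nat_lit 88) (nat_lit 5) (nat_lit 89) (nat_lit 5) (nat_lit 435) (nat_lit 391) (nat_lit 374)) (XT.lf (nat_lit 0) (nat_lit 6238933134) (nat_lit 304) (nat_lit 644992855) (nat_lit 76) (nat_lit 3779213178) (nat_lit 85) (nat_lit 5) (nat_lit 89) (nat_lit 5) (nat_lit 86) (nat_lit 4) (nat_lit 436) (nat_lit 391) (nat_lit 373))) (XT.nd (nat_lit 78) (nat_lit 228) (nat_lit 0) (XT.lf (nat_lit 0) (nat_lit 7875100593) (nat_lit 152) (nat_lit 2741837054) (nat_lit 228) (nat_lit 320928261) (nat_lit 83) (nat_lit 5) (nat_lit 85) (nat_lit 5) (nat_lit 86) (nat_lit 4) (nat_lit 437) (nat_lit 391) (nat_lit 372)) (XT.lf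 (nat_lit 0) (nat_lit 3871656275) (nat_lit 228) (nat_lit 5703847009) (nat_lit 76) (nat_lit 1647132582) (nat_lit 80) (nat_lit 5) (nat_lit 83) (nat_lit 5) (nat_lit 81) (nat_lit 4) (nat_lit 438) (nat_lit 391) (nat_lit 371))))) (XT.nd (nat_lit 312) (nat_lit 532) (nat_lit 0) (XT.nd (nat_lit 156) (nat_lit 152) (nat_lit 0) (XT.nd (nat_lit 78) (nat_lit 228) (nat_lit 0) (XT.lf (nat_lit 0) (nat_lit 2973225090) (nat_lit 152) (nat_lit 5322801472) (nat_lit 228) (nat_lit 3223715328) (nat_lit 78) (nat_lit 5) (nat_lit 80) (nat_lit 5) (nat_lit 81) (nat_lit 4) (nat_lit 439) (nat_lit 391) (nat_lit 370)) (XT.lf (nat_lit 0) (nat_lit 256380247) (nat_lit 152) (nat_lit 809666758) (nat_lit 228) (nat_lit 10765213820) (nat_lit 75) (nat_lit 5) (nat_lit 77) (nat_lit 5) (nat_lit 78) (nat_lit 5) (nat_lit 440) (nat_lit 391) (nat_lit 369))) (XT.nd (nat_lit 78) (nat_lit 152) (nat_lit 0) (XT.lf (nat_lit 0) (nat_lit 5561060809)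 (nat_lit 228) (nat_lit 2660937277) (nat_lit 76) (nat_lit 3928766832) (nat_lit 75) (nat_lit 5) (nat_lit 78) (nat_lit 5) (nat_lit 76) (nat_lit 4) (nat_lit 441) (nat_lit 391) (nat_lit 368)) (XT.lf (nat_lit 0) (nat_lit 6720143934) (nat_lit 152) (nat_lit 3574726783) (nat_lit 228) (nat_lit 2190677576) (nat_lit 73) (nat_lit 5) (nat_lit 75) (nat_lit 5) (nat_lit 76) (nat_lit 4) (nat_lit 442) (nat_lit 391) (nat_lit 367)))) (XT.nd (nat_lit 156) (nat_lit 228) (nat_lit 0) (XT.nd (nat_lit 78) (nat_lit 76) (nat_lit 0) (XT.lf (nat_lit 0) (nat_lit 2372437674) (nat_lit 228) (nat_lit 9129053504) (nat_lit 76) (nat_lit 1332596879) (nat_lit 70) (nat_lit 5) (nat_lit 73) (nat_lit 5) (nat_lit 71) (nat_lit 4) (nat_lit 443) (nat_lit 391) (nat_lit 366)) (XT.lf (nat_lit 0) (nat_lit 388438077) (nat_lit 76) (nat_lit 6762882051) (nat_lit 152) (nat_lit 6043882901) (nat_lit 69) (nat_lit 5) (nat_lit 70) (nat_lit 5) (nat_lit 71)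 (nat_lit 4) (nat_lit 444) (nat_lit 391) (nat_lit 365))) (XT.nd (nat_lit 78) (nat_lit 228) (nat_lit 0) (XT.lf (nat_lit 0) (nat_lit 10519814336) (nat_lit 76) (nat_lit 1703358299) (nat_lit 152) (nat_lit 1348505041) (nat_lit 69) (nat_lit 5) (nat_lit 70) (nat_lit 5) (nat_lit 71) (nat_lit 4) (nat_lit 445) (nat_lit 391) (nat_lit 364)) (XT.lf (nat_lit 0) (nat_lit 3539835427) (nat_lit 228) (nat_lit 6829954540) (nat_lit 76) (nat_lit 3590753422) (nat_lit 66) (nat_lit 5) (nat_lit 69) (nat_lit 5) (nat_lit 67) (nat_lit 4) (nat_lit 446) (nat_lit 391) (nat_lit 363)))))) (XT.nd (nat_lit 624) (nat_lit 608) (nat_lit 0) (XT.nd (nat_lit 312) (nat_lit 456) (nat_lit 0) (XT.nd (nat_lit 156) (nat_lit 304) (nat_lit 0) (XT.nd (nat_lit 78) (nat_lit 0) (nat_lit 0) (XT.lf (nat_lit 0) (nat_lit 3446863059) (nat_lit 76) (nat_lit 5218109190) (nat_lit 152) (nat_lit 5700894421) (nat_lit 65) (nat_lit 5) (nat_lit 66) (nat_lit 5)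 (nat_lit 67) (nat_lit 4) (nat_lit 447) (nat_lit 391) (nat_lit 362)) (XT.lf (nat_lit 0) (nat_lit 14071059669) (nat_lit 152) (nat_lit 491062796) (nat_lit 0) (nat_lit 228103259) (nat_lit 65) (nat_lit 5) (nat_lit 67) (nat_lit 4) (nat_lit 65) (nat_lit 4) (nat_lit 448) (nat_lit 391) (nat_lit 361))) (XT.nd (nat_lit 78) (nat_lit 76) (nat_lit 0) (XT.lf (nat_lit 0) (nat_lit 4528711593) (nat_lit 228) (nat_lit 4757532271) (nat_lit 76) (nat_lit 5937967601) (nat_lit 62) (nat_lit 5) (nat_lit 65) (nat_lit 5) (nat_lit 63) (nat_lit 4) (nat_lit 449) (nat_lit 391) (nat_lit 360)) (XT.lf (nat_lit 0) (nat_lit 6333530443) (nat_lit 76) (nat_lit 3697643626) (nat_lit 152) (nat_lit 5647318674) (nat_lit 61) (nat_lit 5) (nat_lit 62) (nat_lit 5) (nat_lit 63) (nat_lit 4) (nat_lit 450) (nat_lit 391) (nat_lit 359)))) (XT.nd (nat_lit 156) (nat_lit 228) (nat_lit 0) (XT.nd (nat_lit 78) (nat_lit 76) (nat_lit 0) (XT.lf (nat_lit 0)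 (nat_lit 1849107522) (nat_lit 152) (nat_lit 14013912890) (nat_lit 152) (nat_lit 289758169) (nat_lit 59) (nat_lit 4) (nat_lit 61) (nat_lit 5) (nat_lit 61) (nat_lit 4) (nat_lit 451) (nat_lit 391) (nat_lit 358)) (XT.lf (nat_lit 0) (nat_lit 5296262514) (nat_lit 228) (nat_lit 3030069224) (nat_lit 76) (nat_lit 8313717072) (nat_lit 58) (nat_lit 5) (nat_lit 61) (nat_lit 5) (nat_lit 59) (nat_lit 4) (nat_lit 452) (nat_lit 391) (nat_lit 357))) (XT.nd (nat_lit 78) (nat_lit 152) (nat_lit 0) (XT.lf (nat_lit 0) (nat_lit 8928217546) (nat_lit 76) (nat_lit 2277198868) (nat_lit 152) (nat_lit 5943353187) (nat_lit 57) (nat_lit 5) (nat_lit 58) (nat_lit 5) (nat_lit 59) (nat_lit 4) (nat_lit 453) (nat_lit 391) (nat_lit 356)) (XT.lf (nat_lit 0) (nat_lit 3806128731) (nat_lit 152) (nat_lit 13693754439) (nat_lit 152) (nat_lit 178553411) (nat_lit 55) (nat_lit 4) (nat_lit 57) (nat_lit 5) (nat_lit 57) (nat_lit 4) (nat_lit 454)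 (nat_lit 391) (nat_lit 355))))) (XT.nd (nat_lit 312) (nat_lit 304) (nat_lit 0) (XT.nd (nat_lit 156) (nat_lit 152) (nat_lit 0) (XT.nd (nat_lit 78) (nat_lit 76) (nat_lit 0) (XT.lf (nat_lit 0) (nat_lit 5780182732) (nat_lit 228) (nat_lit 1800134793) (nat_lit 76) (nat_lit 10645000332) (nat_lit 54) (nat_lit 5) (nat_lit 57) (nat_lit 5) (nat_lit 55) (nat_lit 4) (nat_lit 455) (nat_lit 391) (nat_lit 354)) (XT.lf (nat_lit 0) (nat_lit 11074092507) (nat_lit 76) (nat_lit 1048597557) (nat_lit 152) (nat_lit 6672117542) (nat_lit 53) (nat_lit 5) (nat_lit 54) (nat_lit 5) (nat_lit 55) (nat_lit 4) (nat_lit 456) (nat_lit 391) (nat_lit 353))) (XT.nd (nat_lit 78) (nat_lit 76) (nat_lit 0) (XT.lf (nat_lit 0) (nat_lit 5184542933) (nat_lit 76) (nat_lit 13719753813) (nat_lit 76) (nat_lit 482378791) (nat_lit 52) (nat_lit 4) (nat_lit 53) (nat_lit 5) (nat_lit 53) (nat_lit 4) (nat_lit 457) (nat_lit 391) (nat_lit 352)) (XT.lf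 (nat_lit 0) (nat_lit 5893878307) (nat_lit 152) (nat_lit 1265420318) (nat_lit 76) (nat_lit 12840663012) (nat_lit 51) (nat_lit 5) (nat_lit 53) (nat_lit 5) (nat_lit 52) (nat_lit 4) (nat_lit 458) (nat_lit 391) (nat_lit 351)))) (XT.nd (nat_lit 156) (nat_lit 152) (nat_lit 0) (XT.nd (nat_lit 78) (nat_lit 76) (nat_lit 0) (XT.lf (nat_lit 0) (nat_lit 12566072192) (nat_lit 76) (nat_lit 126209349) (nat_lit 152) (nat_lit 7945259958) (nat_lit 50) (nat_lit 5) (nat_lit 51) (nat_lit 5) (nat_lit 52) (nat_lit 4) (nat_lit 459) (nat_lit 391) (nat_lit 350)) (XT.lf (nat_lit 0) (nat_lit 5750857927) (nat_lit 76) (nat_lit 14228323472) (nat_lit 76) (nat_lit 1320392100) (nat_lit 49) (nat_lit 4) (nat_lit 50) (nat_lit 5) (nat_lit 50) (nat_lit 4) (nat_lit 460) (nat_lit 391) (nat_lit 349))) (XT.nd (nat_lit 78) (nat_lit 76) (nat_lit 0) (XT.lf (nat_lit 0) (nat_lit 5520177543) (nat_lit 152) (nat_lit 1682472596) (nat_lit 76) (nat_lit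 14784417448) (nat_lit 48) (nat_lit 5) (nat_lit 50) (nat_lit 5) (nat_lit 49) (nat_lit 4) (nat_lit 461) (nat_lit 391) (nat_lit 348)) (XT.lf (nat_lit 0) (nat_lit 12796339464) (nat_lit 152) (nat_lit 9570578012) (nat_lit 0) (nat_lit 334041433) (nat_lit 47) (nat_lit 5) (nat_lit 49) (nat_lit 4) (nat_lit 47) (nat_lit 4) (nat_lit 462) (nat_lit 391) (nat_lit 347))))))) (XT.nd (nat_lit 1170) (nat_lit 912) (nat_lit 0) (XT.nd (nat_lit 546) (nat_lit 532) (nat_lit 0) (XT.nd (nat_lit 234) (nat_lit 228) (nat_lit 0) (XT.nd (nat_lit 78) (nat_lit 152) (nat_lit 0) (XT.lf (nat_lit 0) (nat_lit 5200983116) (nat_lit 76) (nat_lit 15391295108) (nat_lit 76) (nat_lit 2850469756) (nat_lit 46) (nat_lit 4) (nat_lit 47) (nat_lit 5) (nat_lit 47) (nat_lit 4) (nat_lit 463) (nat_lit 391) (nat_lit 346)) (XT.nd (nat_lit 78) (nat_lit 76) (nat_lit 0) (XT.lf (nat_lit 0) (nat_lit 4503148167) (nat_lit 152) (nat_lit 3384159533) (nat_lit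 76) (nat_lit 16326133695) (nat_lit 45) (nat_lit 5) (nat_lit 47) (nat_lit 5) (nat_lit 46) (nat_lit 4) (nat_lit 464) (nat_lit 391) (nat_lit 345)) (XT.lf (nat_lit 0) (nat_lit 12256881175) (nat_lit 152) (nat_lit 12582865282) (nat_lit 0) (nat_lit 174176537) (nat_lit 44) (nat_lit 5) (nat_lit 46) (nat_lit 4) (nat_lit 44) (nat_lit 4) (nat_lit 465) (nat_lit 391) (nat_lit 344)))) (XT.nd (nat_lit 156) (nat_lit 76) (nat_lit 0) (XT.nd (nat_lit 78) (nat_lit 76) (nat_lit 0) (XT.lf (nat_lit 0) (nat_lit 3139425344) (nat_lit 76) (nat_lit 17426954974) (nat_lit 76) (nat_lit 5279645714) (nat_lit 43) (nat_lit 4) (nat_lit 44) (nat_lit 5) (nat_lit 44) (nat_lit 4) (nat_lit 466) (nat_lit 391) (nat_lit 343)) (XT.lf (nat_lit 0) (nat_lit 2637516935) (nat_lit 152) (nat_lit 6801927753) (nat_lit 76) (nat_lit 17270873002) (nat_lit 42) (nat_lit 5) (nat_lit 44) (nat_lit 5) (nat_lit 43) (nat_lit 4) (nat_lit 467) (nat_lit 391) (nat_lit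 342))) (XT.nd (nat_lit 78) (nat_lit 0) (nat_lit 0) (XT.lf (nat_lit 0) (nat_lit 10004112817) (nat_lit 76) (nat_lit 860057223) (nat_lit 152) (nat_lit 16744774309) (nat_lit 41) (nat_lit 5) (nat_lit 42) (nat_lit 5) (nat_lit 43) (nat_lit 4) (nat_lit 468) (nat_lit 391) (nat_lit 341)) (XT.lf (nat_lit 0) (nat_lit 19681509845) (nat_lit 152) (nat_lit 916938587) (nat_lit 0) (nat_lit 7945087305) (nat_lit 41) (nat_lit 5) (nat_lit 43) (nat_lit 4) (nat_lit 41) (nat_lit 4) (nat_lit 469) (nat_lit 391) (nat_lit 340))))) (XT.nd (nat_lit 312) (nat_lit 228) (nat_lit 0) (XT.nd (nat_lit 156) (nat_lit 76) (nat_lit 0) (XT.nd (nat_lit 78) (nat_lit 152) (nat_lit 0) (XT.lf (nat_lit 0) (nat_lit 17014198198) (nat_lit 76) (nat_lit 12143403615) (nat_lit 76) (nat_lit 356361664) (nat_lit 40) (nat_lit 4) (nat_lit 41) (nat_lit 5) (nat_lit 41) (nat_lit 4) (nat_lit 470) (nat_lit 391) (nat_lit 339)) (XT.lf (nat_lit 0) (nat_lit 5253926180)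 (nat_lit 76) (nat_lit 3082257767) (nat_lit 152) (nat_lit 22188234016) (nat_lit 38) (nat_lit 5) (nat_lit 39) (nat_lit 5) (nat_lit 40) (nat_lit 4) (nat_lit 471) (nat_lit 391) (nat_lit 338))) (XT.nd (nat_lit 78) (nat_lit 76) (nat_lit 0) (XT.lf (nat_lit 0) (nat_lit 17705338553) (nat_lit 152) (nat_lit 7477123467) (nat_lit 0) (nat_lit 6389944066) (nat_lit 38) (nat_lit 5) (nat_lit 40) (nat_lit 4) (nat_lit 38) (nat_lit 4) (nat_lit 472) (nat_lit 391) (nat_lit 337)) (XT.lf (nat_lit 0) (nat_lit 11404351486) (nat_lit 76) (nat_lit 16308493737) (nat_lit 76) (nat_lit 4951454534) (nat_lit 37) (nat_lit 4) (nat_lit 38) (nat_lit 5) (nat_lit 38) (nat_lit 4) (nat_lit 473) (nat_lit 391) (nat_lit 336)))) (XT.nd (nat_lit 156) (nat_lit 76) (nat_lit 0) (XT.nd (nat_lit 78) (nat_lit 76) (nat_lit 0) (XT.lf (nat_lit 0) (nat_lit 4338875576) (nat_lit 152) (nat_lit 2502005902) (nat_lit 76) (nat_lit 26962960734) (nat_lit 36)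 (nat_lit 5) (nat_lit 38) (nat_lit 5) (nat_lit 37) (nat_lit 4) (nat_lit 474) (nat_lit 391) (nat_lit 335)) (XT.lf (nat_lit 0) (nat_lit 14199089794) (nat_lit 152) (nat_lit 17474510994) (nat_lit 0) (nat_lit 3309114728) (nat_lit 35) (nat_lit 5) (nat_lit 37) (nat_lit 4) (nat_lit 35) (nat_lit 4) (nat_lit 475) (nat_lit 391) (nat_lit 334))) (XT.nd (nat_lit 78) (nat_lit 0) (nat_lit 0) (XT.lf (nat_lit 0) (nat_lit 2235381030) (nat_lit 76) (nat_lit 22451334206) (nat_lit 76) (nat_lit 11527097931) (nat_lit 34) (nat_lit 4) (nat_lit 35) (nat_lit 5) (nat_lit 35) (nat_lit 4) (nat_lit 476) (nat_lit 391) (nat_lit 333)) (XT.lf (nat_lit 0) (nat_lit 23428528207) (nat_lit 76) (nat_lit 12511372611) (nat_lit 76) (nat_lit 1554506611) (nat_lit 34) (nat_lit 4) (nat_lit 35) (nat_lit 5) (nat_lit 35) (nat_lit 4) (nat_lit 477) (nat_lit 391) (nat_lit 332)))))) (XT.nd (nat_lit 624) (nat_lit 380) (nat_lit 0) (XT.nd (nat_lit 312)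 (nat_lit 228) (nat_lit 0) (XT.nd (nat_lit 156) (nat_lit 152) (nat_lit 0) (XT.nd (nat_lit 78) (nat_lit 0) (nat_lit 0) (XT.lf (nat_lit 0) (nat_lit 6815751151) (nat_lit 76) (nat_lit 1868977179) (nat_lit 152) (nat_lit 30144672709) (nat_lit 32) (nat_lit 5) (nat_lit 33) (nat_lit 5) (nat_lit 34) (nat_lit 4) (nat_lit 478) (nat_lit 391) (nat_lit 331)) (XT.lf (nat_lit 0) (nat_lit 19718175243) (nat_lit 152) (nat_lit 11269689027) (nat_lit 0) (nat_lit 9225281864) (nat_lit 32) (nat_lit 5) (nat_lit 34) (nat_lit 4) (nat_lit 32) (nat_lit 4) (nat_lit 479) (nat_lit 391) (nat_lit 330))) (XT.nd (nat_lit 78) (nat_lit 76) (nat_lit 0) (XT.lf (nat_lit 0) (nat_lit 10723497839) (nat_lit 76) (nat_lit 20727467787) (nat_lit 76) (nat_lit 10207729854) (nat_lit 31) (nat_lit 4) (nat_lit 32) (nat_lit 5) (nat_lit 32) (nat_lit 4) (nat_lit 480) (nat_lit 391) (nat_lit 329)) (XT.lf (nat_lit 0) (nat_lit 718502776) (nat_lit 152) (nat_lit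 9072373484) (nat_lit 76) (nat_lit 33378001076) (nat_lit 30) (nat_lit 5) (nat_lit 32) (nat_lit 5) (nat_lit 31) (nat_lit 4) (nat_lit 481) (nat_lit 391) (nat_lit 328)))) (XT.nd (nat_lit 156) (nat_lit 152) (nat_lit 0) (XT.nd (nat_lit 78) (nat_lit 0) (nat_lit 0) (XT.lf (nat_lit 0) (nat_lit 12051756237) (nat_lit 152) (nat_lit 30698837673) (nat_lit 0) (nat_lit 1985420067) (nat_lit 29) (nat_lit 5) (nat_lit 31) (nat_lit 4) (nat_lit 29) (nat_lit 4) (nat_lit 482) (nat_lit 391) (nat_lit 327)) (XT.lf (nat_lit 0) (nat_lit 24220466748) (nat_lit 152) (nat_lit 8015555943) (nat_lit 0) (nat_lit 14132045497) (nat_lit 29) (nat_lit 5) (nat_lit 31) (nat_lit 4) (nat_lit 29) (nat_lit 4) (nat_lit 483) (nat_lit 391) (nat_lit 326))) (XT.nd (nat_lit 78) (nat_lit 76) (nat_lit 0) (XT.lf (nat_lit 0) (nat_lit 16230036485) (nat_lit 76) (nat_lit 20975376846) (nat_lit 76) (nat_lit 10865922184) (nat_lit 28) (nat_lit 4) (nat_lit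 29) (nat_lit 5) (nat_lit 29) (nat_lit 4) (nat_lit 484) (nat_lit 391) (nat_lit 325)) (XT.lf (nat_lit 0) (nat_lit 1040890132) (nat_lit 152) (nat_lit 7995661709) (nat_lit 76) (nat_lit 40817829351) (nat_lit 27) (nat_lit 5) (nat_lit 29) (nat_lit 5) (nat_lit 28) (nat_lit 4) (nat_lit 485) (nat_lit 391) (nat_lit 324))))) (XT.nd (nat_lit 312) (nat_lit 228) (nat_lit 0) (XT.nd (nat_lit 156) (nat_lit 76) (nat_lit 0) (XT.nd (nat_lit 78) (nat_lit 0) (nat_lit 0) (XT.lf (nat_lit 0) (nat_lit 13466390676) (nat_lit 152) (nat_lit 34435765425) (nat_lit 0) (nat_lit 3801091242) (nat_lit 26) (nat_lit 5) (nat_lit 28) (nat_lit 4) (nat_lit 26) (nat_lit 4) (nat_lit 486) (nat_lit 391) (nat_lit 323)) (XT.lf (nat_lit 0) (nat_lit 26755603382) (nat_lit 152) (nat_lit 9803832209) (nat_lit 0) (nat_lit 17072999709) (nat_lit 26) (nat_lit 5) (nat_lit 28) (nat_lit 4) (nat_lit 26) (nat_lit 4) (nat_lit 487) (nat_lit 391) (nat_lit 322)))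 (XT.nd (nat_lit 78) (nat_lit 0) (nat_lit 0) (XT.lf (nat_lit 0) (nat_lit 16505048053) (nat_lit 76) (nat_lit 24420648916) (nat_lit 76) (nat_lit 14721565015) (nat_lit 25) (nat_lit 4) (nat_lit 26) (nat_lit 5) (nat_lit 26) (nat_lit 4) (nat_lit 488) (nat_lit 391) (nat_lit 321)) (XT.lf (nat_lit 0) (nat_lit 44388162344) (nat_lit 76) (nat_lit 11541587308) (nat_lit 76) (nat_lit 1826807952) (nat_lit 25) (nat_lit 4) (nat_lit 26) (nat_lit 5) (nat_lit 26) (nat_lit 4) (nat_lit 489) (nat_lit 391) (nat_lit 320)))) (XT.nd (nat_lit 156) (nat_lit 76) (nat_lit 0) (XT.nd (nat_lit 78) (nat_lit 0) (nat_lit 0) (XT.lf (nat_lit 0) (nat_lit 11552042429) (nat_lit 152) (nat_lit 46113785372) (nat_lit 0) (nat_lit 2285635374) (nat_lit 23) (nat_lit 5) (nat_lit 25) (nat_lit 4) (nat_lit 23) (nat_lit 4) (nat_lit 490) (nat_lit 391) (nat_lit 319)) (XT.lf (nat_lit 0) (nat_lit 25918527611) (nat_lit 152) (nat_lit 19678522827) (nat_lit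 0) (nat_lit 16638562232) (nat_lit 23) (nat_lit 5) (nat_lit 25) (nat_lit 4) (nat_lit 23) (nat_lit 4) (nat_lit 491) (nat_lit 391) (nat_lit 318))) (XT.nd (nat_lit 78) (nat_lit 0) (nat_lit 0) (XT.lf (nat_lit 0) (nat_lit 8267851113) (nat_lit 76) (nat_lit 32827205444) (nat_lit 76) (nat_lit 23534327375) (nat_lit 22) (nat_lit 4) (nat_lit 23) (nat_lit 5) (nat_lit 23) (nat_lit 4) (nat_lit 492) (nat_lit 391) (nat_lit 317)) (XT.lf (nat_lit 0) (nat_lit 38220677133) (nat_lit 76) (nat_lit 19106258286) (nat_lit 76) (nat_lit 9801082417) (nat_lit 22) (nat_lit 4) (nat_lit 23) (nat_lit 5) (nat_lit 23) (nat_lit 4) (nat_lit 493) (nat_lit 391) (nat_lit 316))))))))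
noncomputable def xc74 : XT := (XT.nd (nat_lit 2418) (nat_lit 380) (nat_lit 0) (XT.nd (nat_lit 1170) (nat_lit 456) (nat_lit 0) (XT.nd (nat_lit 546) (nat_lit 304) (nat_lit 0) (XT.nd (nat_lit 234) (nat_lit 228) (nat_lit 0) (XT.nd (nat_lit 78) (nat_lit 76) (nat_lit 0) (XT.lf (nat_lit 0) (nat_lit 4435427447) (nat_lit 152) (nat_lit 224261792) (nat_lit 76) (nat_lit 65090067094) (nat_lit 21) (nat_lit 5) (nat_lit 23) (nat_lit 5) (nat_lit 22) (nat_lit 4) (nat_lit 494) (nat_lit 391) (nat_lit 315)) (XT.nd (nat_lit 78) (nat_lit 0) (nat_lit 0) (XT.lf (nat_lit 0) (nat_lit 19672979557) (nat_lit 152) (nat_lit 42001509339) (nat_lit 0) (nat_lit 10789129532) (nat_lit 20) (nat_lit 5) (nat_lit 22) (nat_lit 4) (nat_lit 20) (nat_lit 4) (nat_lit 495) (nat_lit 391) (nat_lit 314)) (XT.lf (nat_lit 0) (nat_lit 35718820238) (nat_lit 152) (nat_lit 12767180269) (nat_lit 0) (nat_lit 26824852783) (nat_lit 20) (nat_lit 5) (nat_lit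 22) (nat_lit 4) (nat_lit 20) (nat_lit 4) (nat_lit 496) (nat_lit 391) (nat_lit 313)))) (XT.nd (nat_lit 156) (nat_lit 152) (nat_lit 0) (XT.nd (nat_lit 78) (nat_lit 0) (nat_lit 0) (XT.lf (nat_lit 0) (nat_lit 18454446303) (nat_lit 76) (nat_lit 34368405963) (nat_lit 76) (nat_lit 25464802860) (nat_lit 19) (nat_lit 4) (nat_lit 20) (nat_lit 5) (nat_lit 20) (nat_lit 4) (nat_lit 497) (nat_lit 391) (nat_lit 312)) (XT.lf (nat_lit 0) (nat_lit 51616375011) (nat_lit 76) (nat_lit 19350237896) (nat_lit 76) (nat_lit 10437457986) (nat_lit 19) (nat_lit 4) (nat_lit 20) (nat_lit 5) (nat_lit 20) (nat_lit 4) (nat_lit 498) (nat_lit 391) (nat_lit 311))) (XT.nd (nat_lit 78) (nat_lit 0) (nat_lit 0) (XT.lf (nat_lit 0) (nat_lit 1668097843) (nat_lit 76) (nat_lit 3497569263) (nat_lit 152) (nat_lit 79506702593) (nat_lit 17) (nat_lit 5) (nat_lit 18) (nat_lit 5) (nat_lit 19) (nat_lit 4) (nat_lit 499) (nat_lit 391) (nat_lit 310))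 (XT.lf (nat_lit 0) (nat_lit 21885543498) (nat_lit 152) (nat_lit 52794685943) (nat_lit 0) (nat_lit 13380930773) (nat_lit 17) (nat_lit 5) (nat_lit 19) (nat_lit 4) (nat_lit 17) (nat_lit 4) (nat_lit 500) (nat_lit 391) (nat_lit 309))))) (XT.nd (nat_lit 312) (nat_lit 228) (nat_lit 0) (XT.nd (nat_lit 156) (nat_lit 0) (nat_lit 0) (XT.nd (nat_lit 78) (nat_lit 76) (nat_lit 0) (XT.lf (nat_lit 0) (nat_lit 39469560519) (nat_lit 152) (nat_lit 21191024537) (nat_lit 0) (nat_lit 30957398011) (nat_lit 17) (nat_lit 5) (nat_lit 19) (nat_lit 4) (nat_lit 17) (nat_lit 4) (nat_lit 501) (nat_lit 391) (nat_lit 308)) (XT.lf (nat_lit 0) (nat_lit 12331242809) (nat_lit 76) (nat_lit 45766260468) (nat_lit 76) (nat_lit 37246907692) (nat_lit 16) (nat_lit 4) (nat_lit 17) (nat_lit 5) (nat_lit 17) (nat_lit 4) (nat_lit 502) (nat_lit 391) (nat_lit 307))) (XT.nd (nat_lit 78) (nat_lit 0) (nat_lit 0) (XT.lf (nat_lit 0) (nat_lit 48209981458)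 (nat_lit 76) (nat_lit 29778401310) (nat_lit 76) (nat_lit 21252200659) (nat_lit 16) (nat_lit 4) (nat_lit 17) (nat_lit 5) (nat_lit 17) (nat_lit 4) (nat_lit 503) (nat_lit 391) (nat_lit 306)) (XT.lf (nat_lit 0) (nat_lit 85829946003) (nat_lit 76) (nat_lit 13017821506) (nat_lit 76) (nat_lit 4485099069) (nat_lit 16) (nat_lit 4) (nat_lit 17) (nat_lit 5) (nat_lit 17) (nat_lit 4) (nat_lit 504) (nat_lit 391) (nat_lit 305)))) (XT.nd (nat_lit 156) (nat_lit 76) (nat_lit 0) (XT.nd (nat_lit 78) (nat_lit 0) (nat_lit 0) (XT.lf (nat_lit 0) (nat_lit 13035680507) (nat_lit 152) (nat_lit 89663715676) (nat_lit 0) (nat_lit 4903362734) (nat_lit 14) (nat_lit 5) (nat_lit 16) (nat_lit 4) (nat_lit 14) (nat_lit 4) (nat_lit 505) (nat_lit 391) (nat_lit 304)) (XT.lf (nat_lit 0) (nat_lit 31771270974) (nat_lit 152) (nat_lit 56653404234) (nat_lit 0) (nat_lit 23633319437) (nat_lit 14) (nat_lit 5) (nat_lit 16) (nat_lit 4) (nat_lit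 14) (nat_lit 4) (nat_lit 506) (nat_lit 391) (nat_lit 303))) (XT.nd (nat_lit 78) (nat_lit 76) (nat_lit 0) (XT.lf (nat_lit 0) (nat_lit 51419654260) (nat_lit 152) (nat_lit 22041200112) (nat_lit 0) (nat_lit 43276337234) (nat_lit 14) (nat_lit 5) (nat_lit 16) (nat_lit 4) (nat_lit 14) (nat_lit 4) (nat_lit 507) (nat_lit 391) (nat_lit 302)) (XT.lf (nat_lit 0) (nat_lit 14726651517) (nat_lit 76) (nat_lit 57530885015) (nat_lit 76) (nat_lit 49382457999) (nat_lit 13) (nat_lit 4) (nat_lit 14) (nat_lit 5) (nat_lit 14) (nat_lit 4) (nat_lit 508) (nat_lit 391) (nat_lit 301)))))) (XT.nd (nat_lit 624) (nat_lit 228) (nat_lit 0) (XT.nd (nat_lit 312) (nat_lit 76) (nat_lit 0) (XT.nd (nat_lit 156) (nat_lit 152) (nat_lit 0) (XT.nd (nat_lit 78) (nat_lit 0) (nat_lit 0) (XT.lf (nat_lit 0) (nat_lit 54052555805) (nat_lit 76) (nat_lit 40435567524) (nat_lit 76) (nat_lit 32282273851) (nat_lit 13) (nat_lit 4) (nat_lit 14) (nat_lit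 5) (nat_lit 14) (nat_lit 4) (nat_lit 509) (nat_lit 391) (nat_lit 300)) (XT.lf (nat_lit 0) (nat_lit 95301364240) (nat_lit 76) (nat_lit 22507477152) (nat_lit 76) (nat_lit 14349548568) (nat_lit 13) (nat_lit 4) (nat_lit 14) (nat_lit 5) (nat_lit 14) (nat_lit 4) (nat_lit 510) (nat_lit 391) (nat_lit 299))) (XT.nd (nat_lit 78) (nat_lit 0) (nat_lit 0) (XT.lf (nat_lit 0) (nat_lit 707523668) (nat_lit 76) (nat_lit 3619240455) (nat_lit 152) (nat_lit 133486004566) (nat_lit 11) (nat_lit 5) (nat_lit 12) (nat_lit 5) (nat_lit 13) (nat_lit 4) (nat_lit 511) (nat_lit 391) (nat_lit 298)) (XT.lf (nat_lit 0) (nat_lit 24321514977) (nat_lit 152) (nat_lit 102829395091) (nat_lit 0) (nat_lit 16543851370) (nat_lit 11) (nat_lit 5) (nat_lit 13) (nat_lit 4) (nat_lit 11) (nat_lit 4) (nat_lit 512) (nat_lit 391) (nat_lit 297)))) (XT.nd (nat_lit 156) (nat_lit 76) (nat_lit 0) (XT.nd (nat_lit 78) (nat_lit 0) (nat_lit 0) (XT.lf (nat_lit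 0) (nat_lit 45355621377) (nat_lit 152) (nat_lit 66939107010) (nat_lit 0) (nat_lit 37574144617) (nat_lit 11) (nat_lit 5) (nat_lit 13) (nat_lit 4) (nat_lit 11) (nat_lit 4) (nat_lit 513) (nat_lit 391) (nat_lit 296)) (XT.lf (nat_lit 0) (nat_lit 67422658042) (nat_lit 152) (nat_lit 29292421225) (nat_lit 0) (nat_lit 59637549708) (nat_lit 11) (nat_lit 5) (nat_lit 13) (nat_lit 4) (nat_lit 11) (nat_lit 4) (nat_lit 514) (nat_lit 391) (nat_lit 295))) (XT.nd (nat_lit 78) (nat_lit 0) (nat_lit 0) (XT.lf (nat_lit 0) (nat_lit 10537565120) (nat_lit 76) (nat_lit 80202121338) (nat_lit 76) (nat_lit 72413554362) (nat_lit 10) (nat_lit 4) (nat_lit 11) (nat_lit 5) (nat_lit 11) (nat_lit 4) (nat_lit 515) (nat_lit 391) (nat_lit 294)) (XT.lf (nat_lit 0) (nat_lit 53340301396) (nat_lit 76) (nat_lit 62360759071) (nat_lit 76) (nat_lit 54568898150) (nat_lit 10) (nat_lit 4) (nat_lit 11) (nat_lit 5) (nat_lit 11) (nat_lit 4) (nat_lit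 516) (nat_lit 391) (nat_lit 293))))) (XT.nd (nat_lit 312) (nat_lit 76) (nat_lit 0) (XT.nd (nat_lit 156) (nat_lit 152) (nat_lit 0) (XT.nd (nat_lit 78) (nat_lit 0) (nat_lit 0) (XT.lf (nat_lit 0) (nat_lit 98249159143) (nat_lit 76) (nat_lit 43644594360) (nat_lit 76) (nat_lit 35849596349) (nat_lit 10) (nat_lit 4) (nat_lit 11) (nat_lit 5) (nat_lit 11) (nat_lit 4) (nat_lit 517) (nat_lit 391) (nat_lit 292)) (XT.lf (nat_lit 0) (nat_lit 145371064213) (nat_lit 76) (nat_lit 24009064909) (nat_lit 76) (nat_lit 16211079192) (nat_lit 10) (nat_lit 4) (nat_lit 11) (nat_lit 5) (nat_lit 11) (nat_lit 4) (nat_lit 518) (nat_lit 391) (nat_lit 291))) (XT.nd (nat_lit 78) (nat_lit 0) (nat_lit 0) (XT.lf (nat_lit 0) (nat_lit 947732115) (nat_lit 76) (nat_lit 3319859721) (nat_lit 152) (nat_lit 189560458033) (nat_lit 8) (nat_lit 5) (nat_lit 9) (nat_lit 5) (nat_lit 10) (nat_lit 4) (nat_lit 519) (nat_lit 391) (nat_lit 290)) (XT.lf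 (nat_lit 0) (nat_lit 26189614124) (nat_lit 152) (nat_lit 157467950616) (nat_lit 0) (nat_lit 18757670231) (nat_lit 8) (nat_lit 5) (nat_lit 10) (nat_lit 4) (nat_lit 8) (nat_lit 4) (nat_lit 520) (nat_lit 391) (nat_lit 289)))) (XT.nd (nat_lit 156) (nat_lit 76) (nat_lit 0) (XT.nd (nat_lit 78) (nat_lit 0) (nat_lit 0) (XT.lf (nat_lit 0) (nat_lit 49247463675) (nat_lit 152) (nat_lit 120369267608) (nat_lit 0) (nat_lit 41813061790) (nat_lit 8) (nat_lit 5) (nat_lit 10) (nat_lit 4) (nat_lit 8) (nat_lit 4) (nat_lit 521) (nat_lit 391) (nat_lit 288)) (XT.lf (nat_lit 0) (nat_lit 73444207816) (nat_lit 152) (nat_lit 81444106218) (nat_lit 0) (nat_lit 66007464986) (nat_lit 8) (nat_lit 5) (nat_lit 10) (nat_lit 4) (nat_lit 8) (nat_lit 4) (nat_lit 522) (nat_lit 391) (nat_lit 287))) (XT.nd (nat_lit 78) (nat_lit 76) (nat_lit 0) (XT.lf (nat_lit 0) (nat_lit 98837457845) (nat_lit 152) (nat_lit 40599787491) (nat_lit 0) (nat_lit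 91398485543) (nat_lit 8) (nat_lit 5) (nat_lit 10) (nat_lit 4) (nat_lit 8) (nat_lit 4) (nat_lit 523) (nat_lit 391) (nat_lit 286)) (XT.lf (nat_lit 0) (nat_lit 2335693736) (nat_lit 76) (nat_lit 123188446867) (nat_lit 76) (nat_lit 115747351259) (nat_lit 7) (nat_lit 4) (nat_lit 8) (nat_lit 5) (nat_lit 8) (nat_lit 4) (nat_lit 524) (nat_lit 391) (nat_lit 285))))))) (XT.nd (nat_lit 1170) (nat_lit 152) (nat_lit 0) (XT.nd (nat_lit 546) (nat_lit 76) (nat_lit 0) (XT.nd (nat_lit 234) (nat_lit 152) (nat_lit 0) (XT.nd (nat_lit 78) (nat_lit 0) (nat_lit 0) (XT.lf (nat_lit 0) (nat_lit 48802088043) (nat_lit 76) (nat_lit 105418158132) (nat_lit 76) (nat_lit 97975040327) (nat_lit 7) (nat_lit 4) (nat_lit 8) (nat_lit 5) (nat_lit 8) (nat_lit 4) (nat_lit 525) (nat_lit 391) (nat_lit 284)) (XT.nd (nat_lit 78) (nat_lit 0) (nat_lit 0) (XT.lf (nat_lit 0) (nat_lit 97567617373) (nat_lit 76) (nat_lit 86771645966) (nat_lit 76)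 (nat_lit 79326602260) (nat_lit 7) (nat_lit 4) (nat_lit 8) (nat_lit 5) (nat_lit 8) (nat_lit 4) (nat_lit 526) (nat_lit 391) (nat_lit 283)) (XT.lf (nat_lit 0) (nat_lit 148748390128) (nat_lit 76) (nat_lit 67204513912) (nat_lit 76) (nat_lit 59757636014) (nat_lit 7) (nat_lit 4) (nat_lit 8) (nat_lit 5) (nat_lit 8) (nat_lit 4) (nat_lit 527) (nat_lit 391) (nat_lit 282)))) (XT.nd (nat_lit 156) (nat_lit 152) (nat_lit 0) (XT.nd (nat_lit 78) (nat_lit 0) (nat_lit 0) (XT.lf (nat_lit 0) (nat_lit 202466265291) (nat_lit 76) (nat_lit 46670173559) (nat_lit 76) (nat_lit 39221548812) (nat_lit 7) (nat_lit 4) (nat_lit 8) (nat_lit 5) (nat_lit 8) (nat_lit 4) (nat_lit 528) (nat_lit 391) (nat_lit 281)) (XT.lf (nat_lit 0) (nat_lit 258849142566) (nat_lit 76) (nat_lit 25119733623) (nat_lit 76) (nat_lit 17669445210) (nat_lit 7) (nat_lit 4) (nat_lit 8) (nat_lit 5) (nat_lit 8) (nat_lit 4) (nat_lit 529) (nat_lit 391) (nat_lit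 280))) (XT.nd (nat_lit 78) (nat_lit 0) (nat_lit 0) (XT.lf (nat_lit 0) (nat_lit 2449212691) (nat_lit 76) (nat_lit 2380585137) (nat_lit 152) (nat_lit 310747587161) (nat_lit 5) (nat_lit 5) (nat_lit 6) (nat_lit 5) (nat_lit 7) (nat_lit 4) (nat_lit 530) (nat_lit 391) (nat_lit 279)) (XT.lf (nat_lit 0) (nat_lit 28922393704) (nat_lit 152) (nat_lit 279399480137) (nat_lit 0) (nat_lit 21823934798) (nat_lit 5) (nat_lit 5) (nat_lit 7) (nat_lit 4) (nat_lit 5) (nat_lit 4) (nat_lit 531) (nat_lit 391) (nat_lit 278))))) (XT.nd (nat_lit 312) (nat_lit 76) (nat_lit 0) (XT.nd (nat_lit 156) (nat_lit 0) (nat_lit 0) (XT.nd (nat_lit 78) (nat_lit 0) (nat_lit 0) (XT.lf (nat_lit 0) (nat_lit 54249178259) (nat_lit 152) (nat_lit 244042646647) (nat_lit 0) (nat_lit 47149350651) (nat_lit 5) (nat_lit 5) (nat_lit 7) (nat_lit 4) (nat_lit 5) (nat_lit 4) (nat_lit 532) (nat_lit 391) (nat_lit 277)) (XT.lf (nat_lit 0) (nat_lit 80833285755)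 (nat_lit 152) (nat_lit 206936321285) (nat_lit 0) (nat_lit 73732154621) (nat_lit 5) (nat_lit 5) (nat_lit 7) (nat_lit 4) (nat_lit 5) (nat_lit 4) (nat_lit 533) (nat_lit 391) (nat_lit 276))) (XT.nd (nat_lit 78) (nat_lit 0) (nat_lit 0) (XT.lf (nat_lit 0) (nat_lit 108738011686) (nat_lit 152) (nat_lit 167992155659) (nat_lit 0) (nat_lit 101635639099) (nat_lit 5) (nat_lit 5) (nat_lit 7) (nat_lit 4) (nat_lit 5) (nat_lit 4) (nat_lit 534) (nat_lit 391) (nat_lit 275)) (XT.lf (nat_lit 0) (nat_lit 138029795876) (nat_lit 152) (nat_lit 127117425563) (nat_lit 0) (nat_lit 130926240953) (nat_lit 5) (nat_lit 5) (nat_lit 7) (nat_lit 4) (nat_lit 5) (nat_lit 4) (nat_lit 535) (nat_lit 391) (nat_lit 274)))) (XT.nd (nat_lit 156) (nat_lit 76) (nat_lit 0) (XT.nd (nat_lit 78) (nat_lit 0) (nat_lit 0) (XT.lf (nat_lit 0) (nat_lit 168778380668) (nat_lit 152) (nat_lit 84214810213) (nat_lit 0) (nat_lit 161673699710) (nat_lit 5)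 (nat_lit 5) (nat_lit 7) (nat_lit 4) (nat_lit 5) (nat_lit 4) (nat_lit 536) (nat_lit 391) (nat_lit 273)) (XT.lf (nat_lit 0) (nat_lit 201056976978) (nat_lit 152) (nat_lit 39182160523) (nat_lit 0) (nat_lit 193951223607) (nat_lit 5) (nat_lit 5) (nat_lit 7) (nat_lit 4) (nat_lit 5) (nat_lit 4) (nat_lit 537) (nat_lit 391) (nat_lit 272))) (XT.nd (nat_lit 78) (nat_lit 0) (nat_lit 0) (XT.lf (nat_lit 0) (nat_lit 8355161444) (nat_lit 76) (nat_lit 226717724649) (nat_lit 76) (nat_lit 219610949930) (nat_lit 4) (nat_lit 4) (nat_lit 5) (nat_lit 5) (nat_lit 5) (nat_lit 4) (nat_lit 538) (nat_lit 391) (nat_lit 271)) (XT.lf (nat_lit 0) (nat_lit 59615519994) (nat_lit 76) (nat_lit 211830690572) (nat_lit 76) (nat_lit 204722943142) (nat_lit 4) (nat_lit 4) (nat_lit 5) (nat_lit 5) (nat_lit 5) (nat_lit 4) (nat_lit 539) (nat_lit 391) (nat_lit 270)))))) (XT.nd (nat_lit 624) (nat_lit 152) (nat_lit 0) (XT.nd (nat_lit 312) (nat_lit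 0) (nat_lit 0) (XT.nd (nat_lit 156) (nat_lit 0) (nat_lit 0) (XT.nd (nat_lit 78) (nat_lit 0) (nat_lit 0) (XT.lf (nat_lit 0) (nat_lit 113425424419) (nat_lit 76) (nat_lit 196206158801) (nat_lit 76) (nat_lit 189097484979) (nat_lit 4) (nat_lit 4) (nat_lit 5) (nat_lit 5) (nat_lit 5) (nat_lit 4) (nat_lit 540) (nat_lit 391) (nat_lit 269)) (XT.lf (nat_lit 0) (nat_lit 169912993539) (nat_lit 76) (nat_lit 179806928069) (nat_lit 76) (nat_lit 172697371970) (nat_lit 4) (nat_lit 4) (nat_lit 5) (nat_lit 5) (nat_lit 5) (nat_lit 4) (nat_lit 541) (nat_lit 391) (nat_lit 268))) (XT.nd (nat_lit 78) (nat_lit 0) (nat_lit 0) (XT.lf (nat_lit 0) (nat_lit 229212721566) (nat_lit 76) (nat_lit 162593952588) (nat_lit 76) (nat_lit 155483556225) (nat_lit 4) (nat_lit 4) (nat_lit 5) (nat_lit 5) (nat_lit 5) (nat_lit 4) (nat_lit 542) (nat_lit 391) (nat_lit 267)) (XT.lf (nat_lit 0) (nat_lit 291465798330) (nat_lit 76) (nat_lit 144526249085)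 (nat_lit 76) (nat_lit 137415052470) (nat_lit 4) (nat_lit 4) (nat_lit 5) (nat_lit 5) (nat_lit 5) (nat_lit 4) (nat_lit 543) (nat_lit 391) (nat_lit 266)))) (XT.nd (nat_lit 156) (nat_lit 0) (nat_lit 0) (XT.nd (nat_lit 78) (nat_lit 0) (nat_lit 0) (XT.lf (nat_lit 0) (nat_lit 356820445441) (nat_lit 76) (nat_lit 125560799217) (nat_lit 76) (nat_lit 118448840457) (nat_lit 4) (nat_lit 4) (nat_lit 5) (nat_lit 5) (nat_lit 5) (nat_lit 4) (nat_lit 544) (nat_lit 391) (nat_lit 265)) (XT.lf (nat_lit 0) (nat_lit 425432269202) (nat_lit 76) (nat_lit 105652447150) (nat_lit 76) (nat_lit 98539762539) (nat_lit 4) (nat_lit 4) (nat_lit 5) (nat_lit 5) (nat_lit 5) (nat_lit 4) (nat_lit 545) (nat_lit 391) (nat_lit 264))) (XT.nd (nat_lit 78) (nat_lit 0) (nat_lit 0) (XT.lf (nat_lit 0) (nat_lit 497464631099) (nat_lit 76) (nat_lit 84753792048) (nat_lit 76) (nat_lit 77640416149) (nat_lit 4) (nat_lit 4) (nat_lit 5) (nat_lit 5) (nat_lit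 5) (nat_lit 4) (nat_lit 546) (nat_lit 391) (nat_lit 263)) (XT.lf (nat_lit 0) (nat_lit 573089036754) (nat_lit 76) (nat_lit 62815075207) (nat_lit 76) (nat_lit 55701040939) (nat_lit 4) (nat_lit 4) (nat_lit 5) (nat_lit 5) (nat_lit 5) (nat_lit 4) (nat_lit 547) (nat_lit 391) (nat_lit 262))))) (XT.nd (nat_lit 52182) (nat_lit 0) (nat_lit 10108) (XT.nd (nat_lit 156) (nat_lit 152) (nat_lit 0) (XT.nd (nat_lit 78) (nat_lit 0) (nat_lit 0) (XT.lf (nat_lit 0) (nat_lit 652485544277) (nat_lit 76) (nat_lit 39784061587) (nat_lit 76) (nat_lit 32669400301) (nat_lit 4) (nat_lit 4) (nat_lit 5) (nat_lit 5) (nat_lit 5) (nat_lit 4) (nat_lit 548) (nat_lit 391) (nat_lit 261)) (XT.lf (nat_lit 0) (nat_lit 735843192971) (nat_lit 76) (nat_lit 15605915442) (nat_lit 76) (nat_lit 8490656995) (nat_lit 4) (nat_lit 4) (nat_lit 5) (nat_lit 5) (nat_lit 5) (nat_lit 4) (nat_lit 549) (nat_lit 391) (nat_lit 260))) (XT.nd (nat_lit 78) (nat_lit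 0) (nat_lit 0) (XT.lf (nat_lit 0) (nat_lit 16941936954) (nat_lit 152) (nat_lit 769541190291) (nat_lit 0) (nat_lit 10164958696) (nat_lit 2) (nat_lit 5) (nat_lit 4) (nat_lit 4) (nat_lit 2) (nat_lit 4) (nat_lit 550) (nat_lit 391) (nat_lit 259)) (XT.lf (nat_lit 0) (nat_lit 44027302853) (nat_lit 152) (nat_lit 753874427160) (nat_lit 0) (nat_lit 37249808745) (nat_lit 2) (nat_lit 5) (nat_lit 4) (nat_lit 4) (nat_lit 2) (nat_lit 4) (nat_lit 551) (nat_lit 391) (nat_lit 258)))) (XT.nd (nat_lit 156) (nat_lit 836) (nat_lit 0) (XT.nd (nat_lit 78) (nat_lit 0) (nat_lit 0) (XT.lf (nat_lit 0) (nat_lit 260469148) (nat_lit 836) (nat_lit 3071073816) (nat_lit 0) (nat_lit 260469148) (nat_lit 146) (nat_lit 5) (nat_lit 157) (nat_lit 4) (nat_lit 146) (nat_lit 4) (nat_lit 416) (nat_lit 392) (nat_lit 392)) (XT.lf (nat_lit 0) (nat_lit 4088093862) (nat_lit 836) (nat_lit 721247960) (nat_lit 0) (nat_lit 2470917733) (nat_lit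 146) (nat_lit 5) (nat_lit 157) (nat_lit 4) (nat_lit 146) (nat_lit 4) (nat_lit 417) (nat_lit 392) (nat_lit 391))) (XT.nd (nat_lit 78) (nat_lit 380) (nat_lit 0) (XT.lf (nat_lit 0) (nat_lit 348637913) (nat_lit 456) (nat_lit 2442636148) (nat_lit 76) (nat_lit 4594169069) (nat_lit 140) (nat_lit 5) (nat_lit 146) (nat_lit 5) (nat_lit 141) (nat_lit 4) (nat_lit 418) (nat_lit 392) (nat_lit 390)) (XT.lf (nat_lit 0) (nat_lit 3289721363) (nat_lit 380) (nat_lit 570713589) (nat_lit 456) (nat_lit 3637801664) (nat_lit 135) (nat_lit 5) (nat_lit 140) (nat_lit 5) (nat_lit 141) (nat_lit 4) (nat_lit 419) (nat_lit 392) (nat_lit 389))))))))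
noncomputable def xc75 : XT := (XT.nd (nat_lit 2418) (nat_lit 2432) (nat_lit 0) (XT.nd (nat_lit 1170) (nat_lit 2052) (nat_lit 0) (XT.nd (nat_lit 546) (nat_lit 1672) (nat_lit 0) (XT.nd (nat_lit 234) (nat_lit 1064) (nat_lit 0) (XT.nd (nat_lit 78) (nat_lit 380) (nat_lit 0) (XT.lf (nat_lit 0) (nat_lit 1614936367) (nat_lit 380) (nat_lit 5869673968) (nat_lit 380) (nat_lit 135247459) (nat_lit 130) (nat_lit 4) (nat_lit 135) (nat_lit 5) (nat_lit 135) (nat_lit 4) (nat_lit 420) (nat_lit 392) (nat_lit 388)) (XT.nd (nat_lit 78) (nat_lit 304) (nat_lit 0) (XT.lf (nat_lit 0) (nat_lit 3354992705) (nat_lit 456) (nat_lit 123791275) (nat_lit 76) (nat_lit 4269738656) (nat_lit 129) (nat_lit 5) (nat_lit 135) (nat_lit 5) (nat_lit 130) (nat_lit 4) (nat_lit 421) (nat_lit 392) (nat_lit 387)) (XT.lf (nat_lit 0) (nat_lit 6062616053) (nat_lit 304) (nat_lit 898800581) (nat_lit 380) (nat_lit 924806083) (nat_lit 125) (nat_lit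 5) (nat_lit 129) (nat_lit 5) (nat_lit 130) (nat_lit 4) (nat_lit 422) (nat_lit 392) (nat_lit 386)))) (XT.nd (nat_lit 156) (nat_lit 380) (nat_lit 0) (XT.nd (nat_lit 78) (nat_lit 304) (nat_lit 0) (XT.lf (nat_lit 0) (nat_lit 2585019570) (nat_lit 380) (nat_lit 3612695527) (nat_lit 76) (nat_lit 1833261033) (nat_lit 120) (nat_lit 5) (nat_lit 125) (nat_lit 5) (nat_lit 121) (nat_lit 4) (nat_lit 423) (nat_lit 392) (nat_lit 385)) (XT.lf (nat_lit 0) (nat_lit 2724790335) (nat_lit 304) (nat_lit 3460196071) (nat_lit 380) (nat_lit 1999956773) (nat_lit 116) (nat_lit 5) (nat_lit 120) (nat_lit 5) (nat_lit 121) (nat_lit 4) (nat_lit 424) (nat_lit 392) (nat_lit 384))) (XT.nd (nat_lit 78) (nat_lit 0) (nat_lit 0) (XT.lf (nat_lit 0) (nat_lit 978207939) (nat_lit 304) (nat_lit 524509102) (nat_lit 380) (nat_lit 6845838212) (nat_lit 111) (nat_lit 5) (nat_lit 115) (nat_lit 5) (nat_lit 116) (nat_lit 5) (nat_lit 425) (nat_lit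 392) (nat_lit 383)) (XT.lf (nat_lit 0) (nat_lit 5109051429) (nat_lit 380) (nat_lit 852889375) (nat_lit 76) (nat_lit 2556998577) (nat_lit 111) (nat_lit 5) (nat_lit 116) (nat_lit 5) (nat_lit 112) (nat_lit 4) (nat_lit 426) (nat_lit 392) (nat_lit 382))))) (XT.nd (nat_lit 312) (nat_lit 608) (nat_lit 0) (XT.nd (nat_lit 156) (nat_lit 532) (nat_lit 0) (XT.nd (nat_lit 78) (nat_lit 228) (nat_lit 0) (XT.lf (nat_lit 0) (nat_lit 161569666) (nat_lit 304) (nat_lit 2710205329) (nat_lit 76) (nat_lit 5827427178) (nat_lit 107) (nat_lit 5) (nat_lit 111) (nat_lit 5) (nat_lit 108) (nat_lit 5) (nat_lit 427) (nat_lit 392) (nat_lit 381)) (XT.lf (nat_lit 0) (nat_lit 3754400408) (nat_lit 304) (nat_lit 4685242660) (nat_lit 76) (nat_lit 448185582) (nat_lit 104) (nat_lit 5) (nat_lit 108) (nat_lit 5) (nat_lit 105) (nat_lit 4) (nat_lit 428) (nat_lit 392) (nat_lit 380))) (XT.nd (nat_lit 78) (nat_lit 304) (nat_lit 0) (XT.lf (nat_lit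 0) (nat_lit 2311842244) (nat_lit 228) (nat_lit 5217159102) (nat_lit 304) (nat_lit 1556793225) (nat_lit 101) (nat_lit 5) (nat_lit 104) (nat_lit 5) (nat_lit 105) (nat_lit 4) (nat_lit 429) (nat_lit 392) (nat_lit 379)) (XT.lf (nat_lit 0) (nat_lit 319305309) (nat_lit 228) (nat_lit 1768106958) (nat_lit 304) (nat_lit 7206587845) (nat_lit 97) (nat_lit 5) (nat_lit 100) (nat_lit 5) (nat_lit 101) (nat_lit 5) (nat_lit 430) (nat_lit 392) (nat_lit 378)))) (XT.nd (nat_lit 156) (nat_lit 380) (nat_lit 0) (XT.nd (nat_lit 78) (nat_lit 228) (nat_lit 0) (XT.lf (nat_lit 0) (nat_lit 5882729183) (nat_lit 304) (nat_lit 1750071067) (nat_lit 76) (nat_lit 1877491211) (nat_lit 97) (nat_lit 5) (nat_lit 101) (nat_lit 5) (nat_lit 98) (nat_lit 4) (nat_lit 431) (nat_lit 392) (nat_lit 377)) (XT.lf (nat_lit 0) (nat_lit 127589053) (nat_lit 228) (nat_lit 3926805061) (nat_lit 76) (nat_lit 5682845428) (nat_lit 94) (nat_lit 5) (nat_lit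 97) (nat_lit 5) (nat_lit 95) (nat_lit 5) (nat_lit 432) (nat_lit 392) (nat_lit 376))) (XT.nd (nat_lit 78) (nat_lit 152) (nat_lit 0) (XT.lf (nat_lit 0) (nat_lit 3713337401) (nat_lit 228) (nat_lit 205916754) (nat_lit 304) (nat_lit 6054785016) (nat_lit 91) (nat_lit 5) (nat_lit 94) (nat_lit 5) (nat_lit 95) (nat_lit 5) (nat_lit 433) (nat_lit 392) (nat_lit 375)) (XT.lf (nat_lit 0) (nat_lit 1455014087) (nat_lit 152) (nat_lit 6480052966) (nat_lit 228) (nat_lit 2285893842) (nat_lit 89) (nat_lit 5) (nat_lit 91) (nat_lit 5) (nat_lit 92) (nat_lit 4) (nat_lit 434) (nat_lit 392) (nat_lit 374)))))) (XT.nd (nat_lit 624) (nat_lit 836) (nat_lit 0) (XT.nd (nat_lit 312) (nat_lit 532) (nat_lit 0) (XT.nd (nat_lit 156) (nat_lit 380) (nat_lit 0) (XT.nd (nat_lit 78) (nat_lit 228) (nat_lit 0) (XT.lf (nat_lit 0) (nat_lit 1614300508) (nat_lit 228) (nat_lit 916169667) (nat_lit 76) (nat_lit 7948645356) (nat_lit 88) (nat_lit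 5) (nat_lit 91) (nat_lit 5) (nat_lit 89) (nat_lit 5) (nat_lit 435) (nat_lit 392) (nat_lit 373)) (XT.lf (nat_lit 0) (nat_lit 5664803348) (nat_lit 304) (nat_lit 3426071603) (nat_lit 76) (nat_lit 1655832209) (nat_lit 85) (nat_lit 5) (nat_lit 89) (nat_lit 5) (nat_lit 86) (nat_lit 4) (nat_lit 436) (nat_lit 392) (nat_lit 372))) (XT.nd (nat_lit 78) (nat_lit 228) (nat_lit 0) (XT.lf (nat_lit 0) (nat_lit 4913047275) (nat_lit 152) (nat_lit 5030915480) (nat_lit 228) (nat_lit 1082417551) (nat_lit 83) (nat_lit 5) (nat_lit 85) (nat_lit 5) (nat_lit 86) (nat_lit 4) (nat_lit 437) (nat_lit 392) (nat_lit 371)) (XT.lf (nat_lit 0) (nat_lit 2318159780) (nat_lit 152) (nat_lit 687141817) (nat_lit 228) (nat_lit 8312908771) (nat_lit 80) (nat_lit 5) (nat_lit 82) (nat_lit 5) (nat_lit 83) (nat_lit 5) (nat_lit 438) (nat_lit 392) (nat_lit 370)))) (XT.nd (nat_lit 156) (nat_lit 380) (nat_lit 0) (XT.nd (nat_lit 78) (nat_lit 152)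 (nat_lit 0) (XT.lf (nat_lit 0) (nat_lit 7320887324) (nat_lit 228) (nat_lit 494556894) (nat_lit 76) (nat_lit 3805314987) (nat_lit 80) (nat_lit 5) (nat_lit 83) (nat_lit 5) (nat_lit 81) (nat_lit 4) (nat_lit 439) (nat_lit 392) (nat_lit 369)) (XT.lf (nat_lit 0) (nat_lit 8527748125) (nat_lit 152) (nat_lit 3368097785) (nat_lit 228) (nat_lit 40416896) (nat_lit 78) (nat_lit 5) (nat_lit 80) (nat_lit 5) (nat_lit 81) (nat_lit 4) (nat_lit 440) (nat_lit 392) (nat_lit 368))) (XT.nd (nat_lit 78) (nat_lit 152) (nat_lit 0) (XT.lf (nat_lit 0) (nat_lit 4309264985) (nat_lit 228) (nat_lit 6592793969) (nat_lit 76) (nat_lit 1361073869) (nat_lit 75) (nat_lit 5) (nat_lit 78) (nat_lit 5) (nat_lit 76) (nat_lit 4) (nat_lit 441) (nat_lit 392) (nat_lit 367)) (XT.lf (nat_lit 0) (nat_lit 2571714806) (nat_lit 152) (nat_lit 6358206770) (nat_lit 228) (nat_lit 3673655236) (nat_lit 73) (nat_lit 5) (nat_lit 75) (nat_lit 5) (nat_lit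 76) (nat_lit 4) (nat_lit 442) (nat_lit 392) (nat_lit 366))))) (XT.nd (nat_lit 312) (nat_lit 304) (nat_lit 0) (XT.nd (nat_lit 156) (nat_lit 304) (nat_lit 0) (XT.nd (nat_lit 78) (nat_lit 152) (nat_lit 0) (XT.lf (nat_lit 0) (nat_lit 809085616) (nat_lit 228) (nat_lit 719047921) (nat_lit 76) (nat_lit 11431535334) (nat_lit 72) (nat_lit 5) (nat_lit 75) (nat_lit 5) (nat_lit 73) (nat_lit 5) (nat_lit 443) (nat_lit 392) (nat_lit 365)) (XT.lf (nat_lit 0) (nat_lit 5498557146) (nat_lit 228) (nat_lit 4258453275) (nat_lit 76) (nat_lit 3568246516) (nat_lit 70) (nat_lit 5) (nat_lit 73) (nat_lit 5) (nat_lit 71) (nat_lit 4) (nat_lit 444) (nat_lit 392) (nat_lit 364))) (XT.nd (nat_lit 78) (nat_lit 228) (nat_lit 0) (XT.lf (nat_lit 0) (nat_lit 5648992677) (nat_lit 76) (nat_lit 4806005645) (nat_lit 152) (nat_lit 3252506256) (nat_lit 69) (nat_lit 5) (nat_lit 70) (nat_lit 5) (nat_lit 71) (nat_lit 4) (nat_lit 445) (nat_lit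 392) (nat_lit 363)) (XT.lf (nat_lit 0) (nat_lit 1519148022) (nat_lit 228) (nat_lit 12147605995) (nat_lit 76) (nat_lit 439986120) (nat_lit 66) (nat_lit 5) (nat_lit 69) (nat_lit 5) (nat_lit 67) (nat_lit 4) (nat_lit 446) (nat_lit 392) (nat_lit 362)))) (XT.nd (nat_lit 156) (nat_lit 228) (nat_lit 0) (XT.nd (nat_lit 78) (nat_lit 76) (nat_lit 0) (XT.lf (nat_lit 0) (nat_lit 6545604041) (nat_lit 228) (nat_lit 2062145335) (nat_lit 76) (nat_lit 5909250179) (nat_lit 66) (nat_lit 5) (nat_lit 69) (nat_lit 5) (nat_lit 67) (nat_lit 4) (nat_lit 447) (nat_lit 392) (nat_lit 361)) (XT.lf (nat_lit 0) (nat_lit 8646104968) (nat_lit 76) (nat_lit 3224673055) (nat_lit 152) (nat_lit 3074628254) (nat_lit 65) (nat_lit 5) (nat_lit 66) (nat_lit 5) (nat_lit 67) (nat_lit 4) (nat_lit 448) (nat_lit 392) (nat_lit 360))) (XT.nd (nat_lit 78) (nat_lit 0) (nat_lit 0) (XT.lf (nat_lit 0) (nat_lit 2058696544) (nat_lit 228) (nat_lit 10910552662)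 (nat_lit 76) (nat_lit 2421480508) (nat_lit 62) (nat_lit 5) (nat_lit 65) (nat_lit 5) (nat_lit 63) (nat_lit 4) (nat_lit 449) (nat_lit 392) (nat_lit 359)) (XT.lf (nat_lit 0) (nat_lit 7420009010) (nat_lit 228) (nat_lit 99848165) (nat_lit 76) (nat_lit 8332213042) (nat_lit 62) (nat_lit 5) (nat_lit 65) (nat_lit 5) (nat_lit 63) (nat_lit 4) (nat_lit 450) (nat_lit 392) (nat_lit 358))))))) (XT.nd (nat_lit 1248) (nat_lit 1064) (nat_lit 0) (XT.nd (nat_lit 624) (nat_lit 532) (nat_lit 0) (XT.nd (nat_lit 312) (nat_lit 456) (nat_lit 0) (XT.nd (nat_lit 156) (nat_lit 76) (nat_lit 0) (XT.nd (nat_lit 78) (nat_lit 228) (nat_lit 0) (XT.lf (nat_lit 0) (nat_lit 11466807028) (nat_lit 76) (nat_lit 1679090024) (nat_lit 152) (nat_lit 3185758562) (nat_lit 61) (nat_lit 5) (nat_lit 62) (nat_lit 5) (nat_lit 63) (nat_lit 4) (nat_lit 451) (nat_lit 392) (nat_lit 357)) (XT.lf (nat_lit 0) (nat_lit 2345119673) (nat_lit 228) (nat_lit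 10093013802) (nat_lit 76) (nat_lit 4390446219) (nat_lit 58) (nat_lit 5) (nat_lit 61) (nat_lit 5) (nat_lit 59) (nat_lit 4) (nat_lit 452) (nat_lit 392) (nat_lit 356))) (XT.nd (nat_lit 78) (nat_lit 0) (nat_lit 0) (XT.lf (nat_lit 0) (nat_lit 1554948399) (nat_lit 76) (nat_lit 6544335750) (nat_lit 152) (nat_lit 9245767225) (nat_lit 57) (nat_lit 5) (nat_lit 58) (nat_lit 5) (nat_lit 59) (nat_lit 4) (nat_lit 453) (nat_lit 392) (nat_lit 355)) (XT.lf (nat_lit 0) (nat_lit 13985788658) (nat_lit 76) (nat_lit 246112098) (nat_lit 152) (nat_lit 3650911456) (nat_lit 57) (nat_lit 5) (nat_lit 58) (nat_lit 5) (nat_lit 59) (nat_lit 4) (nat_lit 454) (nat_lit 392) (nat_lit 354)))) (XT.nd (nat_lit 156) (nat_lit 152) (nat_lit 0) (XT.nd (nat_lit 78) (nat_lit 76) (nat_lit 0) (XT.lf (nat_lit 0) (nat_lit 2311690931) (nat_lit 228) (nat_lit 9855239553) (nat_lit 76) (nat_lit 6270838437) (nat_lit 54) (nat_lit 5) (nat_lit 57)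 (nat_lit 5) (nat_lit 55) (nat_lit 4) (nat_lit 455) (nat_lit 392) (nat_lit 353)) (XT.lf (nat_lit 0) (nat_lit 2679186878) (nat_lit 76) (nat_lit 5806283603) (nat_lit 152) (nat_lit 10530225745) (nat_lit 53) (nat_lit 5) (nat_lit 54) (nat_lit 5) (nat_lit 55) (nat_lit 4) (nat_lit 456) (nat_lit 392) (nat_lit 352))) (XT.nd (nat_lit 78) (nat_lit 152) (nat_lit 0) (XT.lf (nat_lit 0) (nat_lit 15074376998) (nat_lit 152) (nat_lit 3594206498) (nat_lit 0) (nat_lit 948616781) (nat_lit 53) (nat_lit 5) (nat_lit 55) (nat_lit 4) (nat_lit 53) (nat_lit 4) (nat_lit 457) (nat_lit 392) (nat_lit 351)) (XT.lf (nat_lit 0) (nat_lit 1867083088) (nat_lit 152) (nat_lit 10403474005) (nat_lit 76) (nat_lit 7967915554) (nat_lit 51) (nat_lit 5) (nat_lit 53) (nat_lit 5) (nat_lit 52) (nat_lit 4) (nat_lit 458) (nat_lit 392) (nat_lit 350))))) (XT.nd (nat_lit 312) (nat_lit 228) (nat_lit 0) (XT.nd (nat_lit 156) (nat_lit 228) (nat_lit 0)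 (XT.nd (nat_lit 78) (nat_lit 0) (nat_lit 0) (XT.lf (nat_lit 0) (nat_lit 3055639035) (nat_lit 76) (nat_lit 5425754303) (nat_lit 152) (nat_lit 12403864781) (nat_lit 50) (nat_lit 5) (nat_lit 51) (nat_lit 5) (nat_lit 52) (nat_lit 4) (nat_lit 459) (nat_lit 392) (nat_lit 349)) (XT.lf (nat_lit 0) (nat_lit 15560309720) (nat_lit 152) (nat_lit 4176754347) (nat_lit 0) (nat_lit 1820626141) (nat_lit 50) (nat_lit 5) (nat_lit 52) (nat_lit 4) (nat_lit 50) (nat_lit 4) (nat_lit 460) (nat_lit 392) (nat_lit 348))) (XT.nd (nat_lit 78) (nat_lit 76) (nat_lit 0) (XT.lf (nat_lit 0) (nat_lit 889024997) (nat_lit 152) (nat_lit 12003758705) (nat_lit 76) (nat_lit 9361245317) (nat_lit 48) (nat_lit 5) (nat_lit 50) (nat_lit 5) (nat_lit 49) (nat_lit 4) (nat_lit 461) (nat_lit 392) (nat_lit 347)) (XT.lf (nat_lit 0) (nat_lit 2406372113) (nat_lit 76) (nat_lit 5552206301) (nat_lit 152) (nat_lit 15019673143) (nat_lit 47) (nat_lit 5)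 (nat_lit 48) (nat_lit 5) (nat_lit 49) (nat_lit 4) (nat_lit 462) (nat_lit 392) (nat_lit 346)))) (XT.nd (nat_lit 156) (nat_lit 152) (nat_lit 0) (XT.nd (nat_lit 78) (nat_lit 76) (nat_lit 0) (XT.lf (nat_lit 0) (nat_lit 15553054836) (nat_lit 152) (nat_lit 5945186688) (nat_lit 0) (nat_lit 2231872972) (nat_lit 47) (nat_lit 5) (nat_lit 49) (nat_lit 4) (nat_lit 47) (nat_lit 4) (nat_lit 463) (nat_lit 392) (nat_lit 345)) (XT.lf (nat_lit 0) (nat_lit 9498760235) (nat_lit 76) (nat_lit 14202265863) (nat_lit 76) (nat_lit 809857404) (nat_lit 46) (nat_lit 4) (nat_lit 47) (nat_lit 5) (nat_lit 47) (nat_lit 4) (nat_lit 464) (nat_lit 392) (nat_lit 344))) (XT.nd (nat_lit 78) (nat_lit 0) (nat_lit 0) (XT.lf (nat_lit 0) (nat_lit 370534746) (nat_lit 76) (nat_lit 6376186257) (nat_lit 152) (nat_lit 18576430711) (nat_lit 44) (nat_lit 5) (nat_lit 45) (nat_lit 5) (nat_lit 46) (nat_lit 4) (nat_lit 465) (nat_lit 392) (nat_lit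 343)) (XT.lf (nat_lit 0) (nat_lit 14875836990) (nat_lit 152) (nat_lit 9293408102) (nat_lit 0) (nat_lit 1995029436) (nat_lit 44) (nat_lit 5) (nat_lit 46) (nat_lit 4) (nat_lit 44) (nat_lit 4) (nat_lit 466) (nat_lit 392) (nat_lit 342)))))) (XT.nd (nat_lit 624) (nat_lit 532) (nat_lit 0) (XT.nd (nat_lit 312) (nat_lit 228) (nat_lit 0) (XT.nd (nat_lit 156) (nat_lit 152) (nat_lit 0) (XT.nd (nat_lit 78) (nat_lit 76) (nat_lit 0) (XT.lf (nat_lit 0) (nat_lit 7151793822) (nat_lit 76) (nat_lit 16413681692) (nat_lit 76) (nat_lit 3474275842) (nat_lit 43) (nat_lit 4) (nat_lit 44) (nat_lit 5) (nat_lit 44) (nat_lit 4) (nat_lit 467) (nat_lit 392) (nat_lit 341)) (XT.lf (nat_lit 0) (nat_lit 4677126082) (nat_lit 152) (nat_lit 3407105280) (nat_lit 76) (nat_lit 19866181832) (nat_lit 42) (nat_lit 5) (nat_lit 44) (nat_lit 5) (nat_lit 43) (nat_lit 4) (nat_lit 468) (nat_lit 392) (nat_lit 340))) (XT.nd (nat_lit 78) (nat_lit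 76) (nat_lit 0) (XT.lf (nat_lit 0) (nat_lit 13295649688) (nat_lit 152) (nat_lit 14730659985) (nat_lit 0) (nat_lit 868636228) (nat_lit 41) (nat_lit 5) (nat_lit 43) (nat_lit 4) (nat_lit 41) (nat_lit 4) (nat_lit 469) (nat_lit 392) (nat_lit 339)) (XT.lf (nat_lit 0) (nat_lit 2685366628) (nat_lit 76) (nat_lit 19833926182) (nat_lit 76) (nat_lit 7358703760) (nat_lit 40) (nat_lit 4) (nat_lit 41) (nat_lit 5) (nat_lit 41) (nat_lit 4) (nat_lit 470) (nat_lit 392) (nat_lit 338)))) (XT.nd (nat_lit 156) (nat_lit 76) (nat_lit 0) (XT.nd (nat_lit 78) (nat_lit 76) (nat_lit 0) (XT.lf (nat_lit 0) (nat_lit 1447233569) (nat_lit 152) (nat_lit 9554306902) (nat_lit 76) (nat_lit 19897913682) (nat_lit 39) (nat_lit 5) (nat_lit 41) (nat_lit 5) (nat_lit 40) (nat_lit 4) (nat_lit 471) (nat_lit 392) (nat_lit 337)) (XT.lf (nat_lit 0) (nat_lit 9023733514) (nat_lit 76) (nat_lit 1507289014) (nat_lit 152) (nat_lit 21430688449) (nat_lit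 38) (nat_lit 5) (nat_lit 39) (nat_lit 5) (nat_lit 40) (nat_lit 4) (nat_lit 472) (nat_lit 392) (nat_lit 336))) (XT.nd (nat_lit 78) (nat_lit 76) (nat_lit 0) (XT.lf (nat_lit 0) (nat_lit 20309677094) (nat_lit 152) (nat_lit 4451890975) (nat_lit 0) (nat_lit 8303479584) (nat_lit 38) (nat_lit 5) (nat_lit 40) (nat_lit 4) (nat_lit 38) (nat_lit 4) (nat_lit 473) (nat_lit 392) (nat_lit 335)) (XT.lf (nat_lit 0) (nat_lit 15318833716) (nat_lit 76) (nat_lit 15469078172) (nat_lit 76) (nat_lit 3425107678) (nat_lit 37) (nat_lit 4) (nat_lit 38) (nat_lit 5) (nat_lit 38) (nat_lit 4) (nat_lit 474) (nat_lit 392) (nat_lit 334))))) (XT.nd (nat_lit 312) (nat_lit 304) (nat_lit 0) (XT.nd (nat_lit 156) (nat_lit 76) (nat_lit 0) (XT.nd (nat_lit 78) (nat_lit 0) (nat_lit 0) (XT.lf (nat_lit 0) (nat_lit 632237914) (nat_lit 76) (nat_lit 5568826806) (nat_lit 152) (nat_lit 29210685603) (nat_lit 35) (nat_lit 5) (nat_lit 36) (nat_lit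 5) (nat_lit 37) (nat_lit 4) (nat_lit 475) (nat_lit 392) (nat_lit 333)) (XT.lf (nat_lit 0) (nat_lit 16540961699) (nat_lit 152) (nat_lit 15105650350) (nat_lit 0) (nat_lit 5003622676) (nat_lit 35) (nat_lit 5) (nat_lit 37) (nat_lit 4) (nat_lit 35) (nat_lit 4) (nat_lit 476) (nat_lit 392) (nat_lit 332))) (XT.nd (nat_lit 78) (nat_lit 0) (nat_lit 0) (XT.lf (nat_lit 0) (nat_lit 5537436498) (nat_lit 76) (nat_lit 21987630874) (nat_lit 76) (nat_lit 10419215923) (nat_lit 34) (nat_lit 4) (nat_lit 35) (nat_lit 5) (nat_lit 35) (nat_lit 4) (nat_lit 477) (nat_lit 392) (nat_lit 331)) (XT.lf (nat_lit 0) (nat_lit 27638322633) (nat_lit 76) (nat_lit 11626207867) (nat_lit 76) (nat_lit 28196795) (nat_lit 34) (nat_lit 4) (nat_lit 35) (nat_lit 5) (nat_lit 35) (nat_lit 4) (nat_lit 478) (nat_lit 392) (nat_lit 330)))) (XT.nd (nat_lit 156) (nat_lit 152) (nat_lit 0) (XT.nd (nat_lit 78) (nat_lit 0) (nat_lit 0) (XT.lf (nat_lit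 0) (nat_lit 10196429471) (nat_lit 76) (nat_lit 448754589) (nat_lit 152) (nat_lit 30049359037) (nat_lit 32) (nat_lit 5) (nat_lit 33) (nat_lit 5) (nat_lit 34) (nat_lit 4) (nat_lit 479) (nat_lit 392) (nat_lit 329)) (XT.lf (nat_lit 0) (nat_lit 22180133497) (nat_lit 152) (nat_lit 8887853381) (nat_lit 0) (nat_lit 11081997870) (nat_lit 32) (nat_lit 5) (nat_lit 34) (nat_lit 4) (nat_lit 32) (nat_lit 4) (nat_lit 480) (nat_lit 392) (nat_lit 328))) (XT.nd (nat_lit 78) (nat_lit 76) (nat_lit 0) (XT.lf (nat_lit 0) (nat_lit 14157487666) (nat_lit 76) (nat_lit 20317030676) (nat_lit 76) (nat_lit 9194546247) (nat_lit 31) (nat_lit 4) (nat_lit 32) (nat_lit 5) (nat_lit 32) (nat_lit 4) (nat_lit 481) (nat_lit 392) (nat_lit 327)) (XT.lf (nat_lit 0) (nat_lit 2159005383) (nat_lit 152) (nat_lit 6719712728) (nat_lit 76) (nat_lit 36378360209) (nat_lit 30) (nat_lit 5) (nat_lit 32) (nat_lit 5) (nat_lit 31) (nat_lit 4) (nat_lit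 482) (nat_lit 392) (nat_lit 326))))))))
noncomputable def xc76 : XT := (XT.nd (nat_lit 2418) (nat_lit 532) (nat_lit 0) (XT.nd (nat_lit 1170) (nat_lit 684) (nat_lit 0) (XT.nd (nat_lit 546) (nat_lit 380) (nat_lit 0) (XT.nd (nat_lit 234) (nat_lit 228) (nat_lit 0) (XT.nd (nat_lit 78) (nat_lit 76) (nat_lit 0) (XT.lf (nat_lit 0) (nat_lit 14056693139) (nat_lit 152) (nat_lit 29425258407) (nat_lit 0) (nat_lit 3420732334) (nat_lit 29) (nat_lit 5) (nat_lit 31) (nat_lit 4) (nat_lit 29) (nat_lit 4) (nat_lit 483) (nat_lit 392) (nat_lit 325)) (XT.nd (nat_lit 78) (nat_lit 76) (nat_lit 0) (XT.lf (nat_lit 0) (nat_lit 26767060648) (nat_lit 152) (nat_lit 5741551693) (nat_lit 0) (nat_lit 16111068022) (nat_lit 29) (nat_lit 5) (nat_lit 31) (nat_lit 4) (nat_lit 29) (nat_lit 4) (nat_lit 484) (nat_lit 392) (nat_lit 324)) (XT.lf (nat_lit 0) (nat_lit 19673178710) (nat_lit 76) (nat_lit 20705564533) (nat_lit 76) (nat_lit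 10030493984) (nat_lit 28) (nat_lit 4) (nat_lit 29) (nat_lit 5) (nat_lit 29) (nat_lit 4) (nat_lit 485) (nat_lit 392) (nat_lit 323)))) (XT.nd (nat_lit 156) (nat_lit 76) (nat_lit 0) (XT.nd (nat_lit 78) (nat_lit 76) (nat_lit 0) (XT.lf (nat_lit 0) (nat_lit 2363978945) (nat_lit 152) (nat_lit 5847083162) (nat_lit 76) (nat_lit 44072474954) (nat_lit 27) (nat_lit 5) (nat_lit 29) (nat_lit 5) (nat_lit 28) (nat_lit 4) (nat_lit 486) (nat_lit 392) (nat_lit 322)) (XT.lf (nat_lit 0) (nat_lit 15409008523) (nat_lit 152) (nat_lit 33607435618) (nat_lit 0) (nat_lit 5208490200) (nat_lit 26) (nat_lit 5) (nat_lit 28) (nat_lit 4) (nat_lit 26) (nat_lit 4) (nat_lit 487) (nat_lit 392) (nat_lit 321))) (XT.nd (nat_lit 78) (nat_lit 76) (nat_lit 0) (XT.lf (nat_lit 0) (nat_lit 29302239088) (nat_lit 152) (nat_lit 7865339935) (nat_lit 0) (nat_lit 19086025309) (nat_lit 26) (nat_lit 5) (nat_lit 28) (nat_lit 4) (nat_lit 26) (nat_lit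 4) (nat_lit 488) (nat_lit 392) (nat_lit 320)) (XT.lf (nat_lit 0) (nat_lit 19719812019) (nat_lit 76) (nat_lit 24440767757) (nat_lit 76) (nat_lit 14209605926) (nat_lit 25) (nat_lit 4) (nat_lit 26) (nat_lit 5) (nat_lit 26) (nat_lit 4) (nat_lit 489) (nat_lit 392) (nat_lit 319))))) (XT.nd (nat_lit 312) (nat_lit 152) (nat_lit 0) (XT.nd (nat_lit 156) (nat_lit 76) (nat_lit 0) (XT.nd (nat_lit 78) (nat_lit 152) (nat_lit 0) (XT.lf (nat_lit 0) (nat_lit 48883295759) (nat_lit 76) (nat_lit 10974939431) (nat_lit 76) (nat_lit 729541360) (nat_lit 25) (nat_lit 4) (nat_lit 26) (nat_lit 5) (nat_lit 26) (nat_lit 4) (nat_lit 490) (nat_lit 392) (nat_lit 318)) (XT.lf (nat_lit 0) (nat_lit 13278840663) (nat_lit 152) (nat_lit 46104321674) (nat_lit 0) (nat_lit 3508406000) (nat_lit 23) (nat_lit 5) (nat_lit 25) (nat_lit 4) (nat_lit 23) (nat_lit 4) (nat_lit 491) (nat_lit 392) (nat_lit 317))) (XT.nd (nat_lit 78) (nat_lit 76)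 (nat_lit 0) (XT.lf (nat_lit 0) (nat_lit 28308926480) (nat_lit 152) (nat_lit 18457541381) (nat_lit 0) (nat_lit 18526194018) (nat_lit 23) (nat_lit 5) (nat_lit 25) (nat_lit 4) (nat_lit 23) (nat_lit 4) (nat_lit 492) (nat_lit 392) (nat_lit 316)) (XT.lf (nat_lit 0) (nat_lit 10850588230) (nat_lit 76) (nat_lit 33375445453) (nat_lit 76) (nat_lit 23581000801) (nat_lit 22) (nat_lit 4) (nat_lit 23) (nat_lit 5) (nat_lit 23) (nat_lit 4) (nat_lit 493) (nat_lit 392) (nat_lit 315)))) (XT.nd (nat_lit 156) (nat_lit 0) (nat_lit 0) (XT.nd (nat_lit 78) (nat_lit 152) (nat_lit 0) (XT.lf (nat_lit 0) (nat_lit 42197753430) (nat_lit 76) (nat_lit 19020504283) (nat_lit 76) (nat_lit 9214905164) (nat_lit 22) (nat_lit 4) (nat_lit 23) (nat_lit 5) (nat_lit 23) (nat_lit 4) (nat_lit 494) (nat_lit 392) (nat_lit 314)) (XT.lf (nat_lit 0) (nat_lit 1823355601) (nat_lit 76) (nat_lit 3854487336) (nat_lit 152) (nat_lit 67508362589) (nat_lit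 20) (nat_lit 5) (nat_lit 21) (nat_lit 5) (nat_lit 22) (nat_lit 4) (nat_lit 495) (nat_lit 392) (nat_lit 313))) (XT.nd (nat_lit 78) (nat_lit 0) (nat_lit 0) (XT.lf (nat_lit 0) (nat_lit 21647784117) (nat_lit 152) (nat_lit 42100086131) (nat_lit 0) (nat_lit 12289365211) (nat_lit 20) (nat_lit 5) (nat_lit 22) (nat_lit 4) (nat_lit 20) (nat_lit 4) (nat_lit 496) (nat_lit 392) (nat_lit 312)) (XT.lf (nat_lit 0) (nat_lit 38448718947) (nat_lit 152) (nat_lit 11499350068) (nat_lit 0) (nat_lit 29081123233) (nat_lit 20) (nat_lit 5) (nat_lit 22) (nat_lit 4) (nat_lit 20) (nat_lit 4) (nat_lit 497) (nat_lit 392) (nat_lit 311)))))) (XT.nd (nat_lit 624) (nat_lit 380) (nat_lit 0) (XT.nd (nat_lit 312) (nat_lit 76) (nat_lit 0) (XT.nd (nat_lit 156) (nat_lit 152) (nat_lit 0) (XT.nd (nat_lit 78) (nat_lit 0) (nat_lit 0) (XT.lf (nat_lit 0) (nat_lit 21252612845) (nat_lit 76) (nat_lit 35139670305) (nat_lit 76) (nat_lit 25763334775)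 (nat_lit 19) (nat_lit 4) (nat_lit 20) (nat_lit 5) (nat_lit 20) (nat_lit 4) (nat_lit 498) (nat_lit 392) (nat_lit 310)) (XT.lf (nat_lit 0) (nat_lit 55983331121) (nat_lit 76) (nat_lit 19415696499) (nat_lit 76) (nat_lit 10031037335) (nat_lit 19) (nat_lit 4) (nat_lit 20) (nat_lit 5) (nat_lit 20) (nat_lit 4) (nat_lit 499) (nat_lit 392) (nat_lit 309))) (XT.nd (nat_lit 78) (nat_lit 0) (nat_lit 0) (XT.lf (nat_lit 0) (nat_lit 3538068353) (nat_lit 76) (nat_lit 2769568129) (nat_lit 152) (nat_lit 82554162613) (nat_lit 17) (nat_lit 5) (nat_lit 18) (nat_lit 5) (nat_lit 19) (nat_lit 4) (nat_lit 500) (nat_lit 392) (nat_lit 308)) (XT.lf (nat_lit 0) (nat_lit 23834851626) (nat_lit 152) (nat_lit 53704269548) (nat_lit 0) (nat_lit 14882340942) (nat_lit 17) (nat_lit 5) (nat_lit 19) (nat_lit 4) (nat_lit 17) (nat_lit 4) (nat_lit 501) (nat_lit 392) (nat_lit 307)))) (XT.nd (nat_lit 156) (nat_lit 0) (nat_lit 0) (XT.nd (nat_lit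 78) (nat_lit 76) (nat_lit 0) (XT.lf (nat_lit 0) (nat_lit 42257353738) (nat_lit 152) (nat_lit 20602813201) (nat_lit 0) (nat_lit 33297995179) (nat_lit 17) (nat_lit 5) (nat_lit 19) (nat_lit 4) (nat_lit 17) (nat_lit 4) (nat_lit 502) (nat_lit 392) (nat_lit 306)) (XT.lf (nat_lit 0) (nat_lit 14568990697) (nat_lit 76) (nat_lit 47234237276) (nat_lit 76) (nat_lit 38268356931) (nat_lit 16) (nat_lit 4) (nat_lit 17) (nat_lit 5) (nat_lit 17) (nat_lit 4) (nat_lit 503) (nat_lit 392) (nat_lit 305))) (XT.nd (nat_lit 78) (nat_lit 0) (nat_lit 0) (XT.lf (nat_lit 0) (nat_lit 52164466957) (nat_lit 76) (nat_lit 30486048789) (nat_lit 76) (nat_lit 21513957220) (nat_lit 16) (nat_lit 4) (nat_lit 17) (nat_lit 5) (nat_lit 17) (nat_lit 4) (nat_lit 504) (nat_lit 392) (nat_lit 304)) (XT.lf (nat_lit 0) (nat_lit 91591906567) (nat_lit 76) (nat_lit 12924643451) (nat_lit 76) (nat_lit 3946636430) (nat_lit 16) (nat_lit 4) (nat_lit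 17) (nat_lit 5) (nat_lit 17) (nat_lit 4) (nat_lit 505) (nat_lit 392) (nat_lit 303))))) (XT.nd (nat_lit 312) (nat_lit 152) (nat_lit 0) (XT.nd (nat_lit 156) (nat_lit 76) (nat_lit 0) (XT.nd (nat_lit 78) (nat_lit 0) (nat_lit 0) (XT.lf (nat_lit 0) (nat_lit 14425201953) (nat_lit 152) (nat_lit 92651451048) (nat_lit 0) (nat_lit 5869353587) (nat_lit 14) (nat_lit 5) (nat_lit 16) (nat_lit 4) (nat_lit 14) (nat_lit 4) (nat_lit 506) (nat_lit 392) (nat_lit 302)) (XT.lf (nat_lit 0) (nat_lit 34062441591) (nat_lit 152) (nat_lit 58061835959) (nat_lit 0) (nat_lit 25501483234) (nat_lit 14) (nat_lit 5) (nat_lit 16) (nat_lit 4) (nat_lit 14) (nat_lit 4) (nat_lit 507) (nat_lit 392) (nat_lit 301))) (XT.nd (nat_lit 78) (nat_lit 76) (nat_lit 0) (XT.lf (nat_lit 0) (nat_lit 54659786562) (nat_lit 152) (nat_lit 21786842511) (nat_lit 0) (nat_lit 46093961548) (nat_lit 14) (nat_lit 5) (nat_lit 16) (nat_lit 4) (nat_lit 14) (nat_lit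 4) (nat_lit 508) (nat_lit 392) (nat_lit 300)) (XT.lf (nat_lit 0) (nat_lit 16797523996) (nat_lit 76) (nat_lit 59731010592) (nat_lit 76) (nat_lit 51160550667) (nat_lit 13) (nat_lit 4) (nat_lit 14) (nat_lit 5) (nat_lit 14) (nat_lit 4) (nat_lit 509) (nat_lit 392) (nat_lit 299)))) (XT.nd (nat_lit 156) (nat_lit 152) (nat_lit 0) (XT.nd (nat_lit 78) (nat_lit 0) (nat_lit 0) (XT.lf (nat_lit 0) (nat_lit 58026173980) (nat_lit 76) (nat_lit 41813137639) (nat_lit 76) (nat_lit 33238263513) (nat_lit 13) (nat_lit 4) (nat_lit 14) (nat_lit 5) (nat_lit 14) (nat_lit 4) (nat_lit 510) (nat_lit 392) (nat_lit 298)) (XT.lf (nat_lit 0) (nat_lit 101276899485) (nat_lit 76) (nat_lit 23019319333) (nat_lit 76) (nat_lit 14440241206) (nat_lit 13) (nat_lit 4) (nat_lit 14) (nat_lit 5) (nat_lit 14) (nat_lit 4) (nat_lit 511) (nat_lit 392) (nat_lit 297))) (XT.nd (nat_lit 78) (nat_lit 0) (nat_lit 0) (XT.lf (nat_lit 0) (nat_lit 1953583184)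 (nat_lit 76) (nat_lit 3186253460) (nat_lit 152) (nat_lit 139533731345) (nat_lit 11) (nat_lit 5) (nat_lit 12) (nat_lit 5) (nat_lit 13) (nat_lit 4) (nat_lit 512) (nat_lit 392) (nat_lit 296)) (XT.lf (nat_lit 0) (nat_lit 26115038135) (nat_lit 152) (nat_lit 106798543891) (nat_lit 0) (nat_lit 17937042810) (nat_lit 11) (nat_lit 5) (nat_lit 13) (nat_lit 4) (nat_lit 11) (nat_lit 4) (nat_lit 513) (nat_lit 392) (nat_lit 295))))))) (XT.nd (nat_lit 1170) (nat_lit 228) (nat_lit 0) (XT.nd (nat_lit 546) (nat_lit 76) (nat_lit 0) (XT.nd (nat_lit 234) (nat_lit 152) (nat_lit 0) (XT.nd (nat_lit 78) (nat_lit 76) (nat_lit 0) (XT.lf (nat_lit 0) (nat_lit 48173352359) (nat_lit 152) (nat_lit 69169566214) (nat_lit 0) (nat_lit 39991898392) (nat_lit 11) (nat_lit 5) (nat_lit 13) (nat_lit 4) (nat_lit 11) (nat_lit 4) (nat_lit 514) (nat_lit 392) (nat_lit 294)) (XT.nd (nat_lit 78) (nat_lit 76) (nat_lit 0) (XT.lf (nat_lit 0) (nat_lit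 71317552766) (nat_lit 152) (nat_lit 29693712623) (nat_lit 0) (nat_lit 63132804854) (nat_lit 11) (nat_lit 5) (nat_lit 13) (nat_lit 4) (nat_lit 11) (nat_lit 4) (nat_lit 515) (nat_lit 392) (nat_lit 293)) (XT.lf (nat_lit 0) (nat_lit 12110622562) (nat_lit 76) (nat_lit 83681202792) (nat_lit 76) (nat_lit 75493317789) (nat_lit 10) (nat_lit 4) (nat_lit 11) (nat_lit 5) (nat_lit 11) (nat_lit 4) (nat_lit 516) (nat_lit 392) (nat_lit 292)))) (XT.nd (nat_lit 156) (nat_lit 152) (nat_lit 0) (XT.nd (nat_lit 78) (nat_lit 0) (nat_lit 0) (XT.lf (nat_lit 0) (nat_lit 57003677594) (nat_lit 76) (nat_lit 64973059298) (nat_lit 76) (nat_lit 56782186590) (nat_lit 10) (nat_lit 4) (nat_lit 11) (nat_lit 5) (nat_lit 11) (nat_lit 4) (nat_lit 517) (nat_lit 392) (nat_lit 291)) (XT.lf (nat_lit 0) (nat_lit 104110532461) (nat_lit 76) (nat_lit 45345169101) (nat_lit 76) (nat_lit 37151450959) (nat_lit 10) (nat_lit 4) (nat_lit 11) (nat_lit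 5) (nat_lit 11) (nat_lit 4) (nat_lit 518) (nat_lit 392) (nat_lit 290))) (XT.nd (nat_lit 78) (nat_lit 152) (nat_lit 0) (XT.lf (nat_lit 0) (nat_lit 153543346339) (nat_lit 76) (nat_lit 24750799128) (nat_lit 76) (nat_lit 16554371050) (nat_lit 10) (nat_lit 4) (nat_lit 11) (nat_lit 5) (nat_lit 11) (nat_lit 4) (nat_lit 519) (nat_lit 392) (nat_lit 289)) (XT.lf (nat_lit 0) (nat_lit 1898987064) (nat_lit 76) (nat_lit 3026864659) (nat_lit 152) (nat_lit 198571355065) (nat_lit 8) (nat_lit 5) (nat_lit 9) (nat_lit 5) (nat_lit 10) (nat_lit 4) (nat_lit 520) (nat_lit 392) (nat_lit 288))))) (XT.nd (nat_lit 312) (nat_lit 76) (nat_lit 0) (XT.nd (nat_lit 156) (nat_lit 0) (nat_lit 0) (XT.nd (nat_lit 78) (nat_lit 0) (nat_lit 0) (XT.lf (nat_lit 0) (nat_lit 27929615197) (nat_lit 152) (nat_lit 164466159739) (nat_lit 0) (nat_lit 20118694280) (nat_lit 8) (nat_lit 5) (nat_lit 10) (nat_lit 4) (nat_lit 8) (nat_lit 4) (nat_lit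 521) (nat_lit 392) (nat_lit 287)) (XT.lf (nat_lit 0) (nat_lit 52119856255) (nat_lit 152) (nat_lit 125554218219) (nat_lit 0) (nat_lit 44306705867) (nat_lit 8) (nat_lit 5) (nat_lit 10) (nat_lit 4) (nat_lit 8) (nat_lit 4) (nat_lit 522) (nat_lit 392) (nat_lit 286))) (XT.nd (nat_lit 78) (nat_lit 0) (nat_lit 0) (XT.lf (nat_lit 0) (nat_lit 77506912871) (nat_lit 152) (nat_lit 84722489844) (nat_lit 0) (nat_lit 69691639177) (nat_lit 8) (nat_lit 5) (nat_lit 10) (nat_lit 4) (nat_lit 8) (nat_lit 4) (nat_lit 523) (nat_lit 392) (nat_lit 285)) (XT.lf (nat_lit 0) (nat_lit 104151230417) (nat_lit 152) (nat_lit 41873756213) (nat_lit 0) (nat_lit 96333934526) (nat_lit 8) (nat_lit 5) (nat_lit 10) (nat_lit 4) (nat_lit 8) (nat_lit 4) (nat_lit 524) (nat_lit 392) (nat_lit 284)))) (XT.nd (nat_lit 156) (nat_lit 0) (nat_lit 0) (XT.nd (nat_lit 78) (nat_lit 0) (nat_lit 0) (XT.lf (nat_lit 0) (nat_lit 3196305194) (nat_lit 76)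 (nat_lit 128969845831) (nat_lit 76) (nat_lit 121150624039) (nat_lit 7) (nat_lit 4) (nat_lit 8) (nat_lit 5) (nat_lit 8) (nat_lit 4) (nat_lit 525) (nat_lit 392) (nat_lit 283)) (XT.lf (nat_lit 0) (nat_lit 51950598894) (nat_lit 76) (nat_lit 110329043773) (nat_lit 76) (nat_lit 102507987788) (nat_lit 7) (nat_lit 4) (nat_lit 8) (nat_lit 5) (nat_lit 8) (nat_lit 4) (nat_lit 526) (nat_lit 392) (nat_lit 282))) (XT.nd (nat_lit 78) (nat_lit 0) (nat_lit 0) (XT.lf (nat_lit 0) (nat_lit 103120671049) (nat_lit 76) (nat_lit 90767349916) (nat_lit 76) (nat_lit 82944547082) (nat_lit 7) (nat_lit 4) (nat_lit 8) (nat_lit 5) (nat_lit 8) (nat_lit 4) (nat_lit 527) (nat_lit 392) (nat_lit 281)) (XT.lf (nat_lit 0) (nat_lit 156828355165) (nat_lit 76) (nat_lit 70238188799) (nat_lit 76) (nat_lit 62413722300) (nat_lit 7) (nat_lit 4) (nat_lit 8) (nat_lit 5) (nat_lit 8) (nat_lit 4) (nat_lit 528) (nat_lit 392) (nat_lit 280))))))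 (XT.nd (nat_lit 624) (nat_lit 76) (nat_lit 0) (XT.nd (nat_lit 312) (nat_lit 0) (nat_lit 0) (XT.nd (nat_lit 156) (nat_lit 152) (nat_lit 0) (XT.nd (nat_lit 78) (nat_lit 0) (nat_lit 0) (XT.lf (nat_lit 0) (nat_lit 213201526681) (nat_lit 76) (nat_lit 48692681468) (nat_lit 76) (nat_lit 40866630525) (nat_lit 7) (nat_lit 4) (nat_lit 8) (nat_lit 5) (nat_lit 8) (nat_lit 4) (nat_lit 529) (nat_lit 392) (nat_lit 279)) (XT.lf (nat_lit 0) (nat_lit 272374407433) (nat_lit 76) (nat_lit 26079529095) (nat_lit 76) (nat_lit 18251969157) (nat_lit 7) (nat_lit 4) (nat_lit 8) (nat_lit 5) (nat_lit 8) (nat_lit 4) (nat_lit 530) (nat_lit 392) (nat_lit 278))) (XT.nd (nat_lit 78) (nat_lit 0) (nat_lit 0) (XT.lf (nat_lit 0) (nat_lit 3154558703) (nat_lit 76) (nat_lit 2203273383) (nat_lit 152) (nat_lit 325984094065) (nat_lit 5) (nat_lit 5) (nat_lit 6) (nat_lit 5) (nat_lit 7) (nat_lit 4) (nat_lit 531) (nat_lit 392) (nat_lit 277))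 (XT.lf (nat_lit 0) (nat_lit 30645819180) (nat_lit 152) (nat_lit 292805085810) (nat_lit 0) (nat_lit 23188327964) (nat_lit 5) (nat_lit 5) (nat_lit 7) (nat_lit 4) (nat_lit 5) (nat_lit 4) (nat_lit 532) (nat_lit 392) (nat_lit 276)))) (XT.nd (nat_lit 156) (nat_lit 0) (nat_lit 0) (XT.nd (nat_lit 78) (nat_lit 0) (nat_lit 0) (XT.lf (nat_lit 0) (nat_lit 57225737925) (nat_lit 152) (nat_lit 255707285328) (nat_lit 0) (nat_lit 49767005256) (nat_lit 5) (nat_lit 5) (nat_lit 7) (nat_lit 4) (nat_lit 5) (nat_lit 4) (nat_lit 533) (nat_lit 392) (nat_lit 275)) (XT.lf (nat_lit 0) (nat_lit 85126474570) (nat_lit 152) (nat_lit 216771238635) (nat_lit 0) (nat_lit 77666559564) (nat_lit 5) (nat_lit 5) (nat_lit 7) (nat_lit 4) (nat_lit 5) (nat_lit 4) (nat_lit 534) (nat_lit 392) (nat_lit 274))) (XT.nd (nat_lit 78) (nat_lit 0) (nat_lit 0) (XT.lf (nat_lit 0) (nat_lit 114414459439) (nat_lit 152) (nat_lit 175904240856) (nat_lit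 0) (nat_lit 106953418399) (nat_lit 5) (nat_lit 5) (nat_lit 7) (nat_lit 4) (nat_lit 5) (nat_lit 4) (nat_lit 535) (nat_lit 392) (nat_lit 273)) (XT.lf (nat_lit 0) (nat_lit 145159425831) (nat_lit 152) (nat_lit 133008989617) (nat_lit 0) (nat_lit 137697312376) (nat_lit 5) (nat_lit 5) (nat_lit 7) (nat_lit 4) (nat_lit 5) (nat_lit 4) (nat_lit 536) (nat_lit 392) (nat_lit 272))))) (XT.nd (nat_lit 312) (nat_lit 0) (nat_lit 0) (XT.nd (nat_lit 156) (nat_lit 76) (nat_lit 0) (XT.nd (nat_lit 78) (nat_lit 0) (nat_lit 0) (XT.lf (nat_lit 0) (nat_lit 177434576045) (nat_lit 152) (nat_lit 87983353367) (nat_lit 0) (nat_lit 169971441244) (nat_lit 5) (nat_lit 5) (nat_lit 7) (nat_lit 4) (nat_lit 5) (nat_lit 4) (nat_lit 537) (nat_lit 392) (nat_lit 271)) (XT.lf (nat_lit 0) (nat_lit 211316755678) (nat_lit 152) (nat_lit 40720128210) (nat_lit 0) (nat_lit 203852648166) (nat_lit 5) (nat_lit 5) (nat_lit 7) (nat_lit 4) (nat_lit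 5) (nat_lit 4) (nat_lit 538) (nat_lit 392) (nat_lit 270))) (XT.nd (nat_lit 78) (nat_lit 0) (nat_lit 0) (XT.lf (nat_lit 0) (nat_lit 9187267270) (nat_lit 76) (nat_lit 237842808306) (nat_lit 76) (nat_lit 230377774402) (nat_lit 4) (nat_lit 4) (nat_lit 5) (nat_lit 5) (nat_lit 5) (nat_lit 4) (nat_lit 539) (nat_lit 392) (nat_lit 269)) (XT.lf (nat_lit 0) (nat_lit 62990912902) (nat_lit 76) (nat_lit 222221460743) (nat_lit 76) (nat_lit 214755544562) (nat_lit 4) (nat_lit 4) (nat_lit 5) (nat_lit 5) (nat_lit 5) (nat_lit 4) (nat_lit 540) (nat_lit 392) (nat_lit 268)))) (XT.nd (nat_lit 156) (nat_lit 0) (nat_lit 0) (XT.nd (nat_lit 78) (nat_lit 0) (nat_lit 0) (XT.lf (nat_lit 0) (nat_lit 119472521267) (nat_lit 76) (nat_lit 205825262591) (nat_lit 76) (nat_lit 198358506145) (nat_lit 4) (nat_lit 4) (nat_lit 5) (nat_lit 5) (nat_lit 5) (nat_lit 4) (nat_lit 541) (nat_lit 392) (nat_lit 267)) (XT.lf (nat_lit 0) (nat_lit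 178766572384) (nat_lit 76) (nat_lit 188615175281) (nat_lit 76) (nat_lit 181147618584) (nat_lit 4) (nat_lit 4) (nat_lit 5) (nat_lit 5) (nat_lit 5) (nat_lit 4) (nat_lit 542) (nat_lit 392) (nat_lit 266))) (XT.nd (nat_lit 78) (nat_lit 0) (nat_lit 0) (XT.lf (nat_lit 0) (nat_lit 241014242567) (nat_lit 76) (nat_lit 170550222417) (nat_lit 76) (nat_lit 163081903575) (nat_lit 4) (nat_lit 4) (nat_lit 5) (nat_lit 5) (nat_lit 5) (nat_lit 4) (nat_lit 543) (nat_lit 392) (nat_lit 265)) (XT.lf (nat_lit 0) (nat_lit 306363740554) (nat_lit 76) (nat_lit 151587392205) (nat_lit 76) (nat_lit 144118347511) (nat_lit 4) (nat_lit 4) (nat_lit 5) (nat_lit 5) (nat_lit 5) (nat_lit 4) (nat_lit 544) (nat_lit 392) (nat_lit 264))))))))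
noncomputable def xc77 : XT := (XT.nd (nat_lit 54132) (nat_lit 0) (nat_lit 3116) (XT.nd (nat_lit 52884) (nat_lit 0) (nat_lit 6156) (XT.nd (nat_lit 52260) (nat_lit 0) (nat_lit 9652) (XT.nd (nat_lit 234) (nat_lit 152) (nat_lit 0) (XT.nd (nat_lit 78) (nat_lit 0) (nat_lit 0) (XT.lf (nat_lit 0) (nat_lit 374970660387) (nat_lit 76) (nat_lit 131681535050) (nat_lit 76) (nat_lit 124211799068) (nat_lit 4) (nat_lit 4) (nat_lit 5) (nat_lit 5) (nat_lit 5) (nat_lit 4) (nat_lit 545) (nat_lit 392) (nat_lit 263)) (XT.nd (nat_lit 78) (nat_lit 0) (nat_lit 0) (XT.lf (nat_lit 0) (nat_lit 446998351875) (nat_lit 76) (nat_lit 110785256053) (nat_lit 76) (nat_lit 103314861702) (nat_lit 4) (nat_lit 4) (nat_lit 5) (nat_lit 5) (nat_lit 5) (nat_lit 4) (nat_lit 546) (nat_lit 392) (nat_lit 262)) (XT.lf (nat_lit 0) (nat_lit 522618309523) (nat_lit 76) (nat_lit 88848802170) (nat_lit 76) (nat_lit 81377780801) (nat_lit 4) (nat_lit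 4) (nat_lit 5) (nat_lit 5) (nat_lit 5) (nat_lit 4) (nat_lit 547) (nat_lit 392) (nat_lit 261)))) (XT.nd (nat_lit 156) (nat_lit 152) (nat_lit 0) (XT.nd (nat_lit 78) (nat_lit 0) (nat_lit 0) (XT.lf (nat_lit 0) (nat_lit 602010580848) (nat_lit 76) (nat_lit 65819943748) (nat_lit 76) (nat_lit 58348325218) (nat_lit 4) (nat_lit 4) (nat_lit 5) (nat_lit 5) (nat_lit 5) (nat_lit 4) (nat_lit 548) (nat_lit 392) (nat_lit 260)) (XT.lf (nat_lit 0) (nat_lit 685364195068) (nat_lit 76) (nat_lit 41643850172) (nat_lit 76) (nat_lit 34171662918) (nat_lit 4) (nat_lit 4) (nat_lit 5) (nat_lit 5) (nat_lit 5) (nat_lit 4) (nat_lit 549) (nat_lit 392) (nat_lit 259))) (XT.nd (nat_lit 78) (nat_lit 152) (nat_lit 0) (XT.lf (nat_lit 0) (nat_lit 772877613170) (nat_lit 76) (nat_lit 16262959314) (nat_lit 76) (nat_lit 8790230419) (nat_lit 4) (nat_lit 4) (nat_lit 5) (nat_lit 5) (nat_lit 5) (nat_lit 4) (nat_lit 550) (nat_lit 392) (nat_lit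 258)) (XT.lf (nat_lit 0) (nat_lit 17909941697) (nat_lit 152) (nat_lit 807771937086) (nat_lit 0) (nat_lit 10792565750) (nat_lit 2) (nat_lit 5) (nat_lit 4) (nat_lit 4) (nat_lit 2) (nat_lit 4) (nat_lit 551) (nat_lit 392) (nat_lit 257))))) (XT.nd (nat_lit 312) (nat_lit 1292) (nat_lit 0) (XT.nd (nat_lit 156) (nat_lit 836) (nat_lit 0) (XT.nd (nat_lit 78) (nat_lit 684) (nat_lit 0) (XT.lf (nat_lit 0) (nat_lit 1153131806) (nat_lit 684) (nat_lit 1197926484) (nat_lit 0) (nat_lit 1153131806) (nat_lit 166) (nat_lit 5) (nat_lit 175) (nat_lit 4) (nat_lit 166) (nat_lit 4) (nat_lit 414) (nat_lit 393) (nat_lit 393)) (XT.lf (nat_lit 0) (nat_lit 2779836665) (nat_lit 684) (nat_lit 3048424369) (nat_lit 684) (nat_lit 1265487687) (nat_lit 157) (nat_lit 4) (nat_lit 166) (nat_lit 5) (nat_lit 166) (nat_lit 4) (nat_lit 415) (nat_lit 393) (nat_lit 392))) (XT.nd (nat_lit 78) (nat_lit 0) (nat_lit 0) (XT.lf (nat_lit 0) (nat_lit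 933734361) (nat_lit 760) (nat_lit 1219780750) (nat_lit 836) (nat_lit 5033798290) (nat_lit 146) (nat_lit 5) (nat_lit 156) (nat_lit 5) (nat_lit 157) (nat_lit 4) (nat_lit 416) (nat_lit 393) (nat_lit 391)) (XT.lf (nat_lit 0) (nat_lit 5621148085) (nat_lit 836) (nat_lit 901622990) (nat_lit 0) (nat_lit 765769280) (nat_lit 146) (nat_lit 5) (nat_lit 157) (nat_lit 4) (nat_lit 146) (nat_lit 4) (nat_lit 417) (nat_lit 393) (nat_lit 390)))) (XT.nd (nat_lit 156) (nat_lit 456) (nat_lit 0) (XT.nd (nat_lit 78) (nat_lit 380) (nat_lit 0) (XT.lf (nat_lit 0) (nat_lit 1742361491) (nat_lit 456) (nat_lit 2750364168) (nat_lit 76) (nat_lit 2903934404) (nat_lit 140) (nat_lit 5) (nat_lit 146) (nat_lit 5) (nat_lit 141) (nat_lit 4) (nat_lit 418) (nat_lit 393) (nat_lit 389)) (XT.lf (nat_lit 0) (nat_lit 2884052825) (nat_lit 380) (nat_lit 2288257221) (nat_lit 456) (nat_lit 2341249314) (nat_lit 135) (nat_lit 5) (nat_lit 140) (nat_lit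 5) (nat_lit 141) (nat_lit 4) (nat_lit 419) (nat_lit 393) (nat_lit 388))) (XT.nd (nat_lit 78) (nat_lit 0) (nat_lit 0) (XT.lf (nat_lit 0) (nat_lit 1014389768) (nat_lit 456) (nat_lit 6539203424) (nat_lit 76) (nat_lit 86180228) (nat_lit 129) (nat_lit 5) (nat_lit 135) (nat_lit 5) (nat_lit 130) (nat_lit 4) (nat_lit 420) (nat_lit 393) (nat_lit 387)) (XT.lf (nat_lit 0) (nat_lit 4427892648) (nat_lit 456) (nat_lit 748284246) (nat_lit 76) (nat_lit 2595787777) (nat_lit 129) (nat_lit 5) (nat_lit 135) (nat_lit 5) (nat_lit 130) (nat_lit 4) (nat_lit 421) (nat_lit 393) (nat_lit 386)))))) (XT.nd (nat_lit 624) (nat_lit 1368) (nat_lit 0) (XT.nd (nat_lit 312) (nat_lit 1064) (nat_lit 0) (XT.nd (nat_lit 156) (nat_lit 380) (nat_lit 0) (XT.nd (nat_lit 78) (nat_lit 304) (nat_lit 0) (XT.lf (nat_lit 0) (nat_lit 38947463) (nat_lit 380) (nat_lit 2583527164) (nat_lit 76) (nat_lit 5291189041) (nat_lit 124) (nat_lit 5) (nat_lit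 129) (nat_lit 5) (nat_lit 125) (nat_lit 5) (nat_lit 422) (nat_lit 393) (nat_lit 385)) (XT.lf (nat_lit 0) (nat_lit 3410079304) (nat_lit 380) (nat_lit 4503936966) (nat_lit 76) (nat_lit 149143570) (nat_lit 120) (nat_lit 5) (nat_lit 125) (nat_lit 5) (nat_lit 121) (nat_lit 4) (nat_lit 423) (nat_lit 393) (nat_lit 384))) (XT.nd (nat_lit 78) (nat_lit 76) (nat_lit 0) (XT.lf (nat_lit 0) (nat_lit 1714730930) (nat_lit 304) (nat_lit 5213140450) (nat_lit 380) (nat_lit 1293373760) (nat_lit 116) (nat_lit 5) (nat_lit 120) (nat_lit 5) (nat_lit 121) (nat_lit 4) (nat_lit 424) (nat_lit 393) (nat_lit 383)) (XT.lf (nat_lit 0) (nat_lit 2105773770) (nat_lit 380) (nat_lit 197767628) (nat_lit 76) (nat_lit 6084818418) (nat_lit 115) (nat_lit 5) (nat_lit 120) (nat_lit 5) (nat_lit 116) (nat_lit 5) (nat_lit 425) (nat_lit 393) (nat_lit 382)))) (XT.nd (nat_lit 156) (nat_lit 456) (nat_lit 0) (XT.nd (nat_lit 78) (nat_lit 304) (nat_lit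 0) (XT.lf (nat_lit 0) (nat_lit 5616893102) (nat_lit 380) (nat_lit 2136263395) (nat_lit 76) (nat_lit 810356417) (nat_lit 111) (nat_lit 5) (nat_lit 116) (nat_lit 5) (nat_lit 112) (nat_lit 4) (nat_lit 426) (nat_lit 393) (nat_lit 381)) (XT.lf (nat_lit 0) (nat_lit 525436050) (nat_lit 304) (nat_lit 4177916056) (nat_lit 76) (nat_lit 4044298121) (nat_lit 107) (nat_lit 5) (nat_lit 111) (nat_lit 5) (nat_lit 108) (nat_lit 5) (nat_lit 427) (nat_lit 393) (nat_lit 380))) (XT.nd (nat_lit 78) (nat_lit 228) (nat_lit 0) (XT.lf (nat_lit 0) (nat_lit 2605977823) (nat_lit 228) (nat_lit 1419504266) (nat_lit 304) (nat_lit 4915440949) (nat_lit 104) (nat_lit 5) (nat_lit 107) (nat_lit 5) (nat_lit 108) (nat_lit 5) (nat_lit 428) (nat_lit 393) (nat_lit 379)) (XT.lf (nat_lit 0) (nat_lit 541297761) (nat_lit 228) (nat_lit 7149655608) (nat_lit 304) (nat_lit 1453398832) (nat_lit 101) (nat_lit 5) (nat_lit 104) (nat_lit 5) (nat_lit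 105) (nat_lit 4) (nat_lit 429) (nat_lit 393) (nat_lit 378))))) (XT.nd (nat_lit 312) (nat_lit 608) (nat_lit 0) (XT.nd (nat_lit 156) (nat_lit 456) (nat_lit 0) (XT.nd (nat_lit 78) (nat_lit 228) (nat_lit 0) (XT.lf (nat_lit 0) (nat_lit 2123732650) (nat_lit 304) (nat_lit 1608523863) (nat_lit 76) (nat_lit 5623414885) (nat_lit 100) (nat_lit 5) (nat_lit 104) (nat_lit 5) (nat_lit 101) (nat_lit 5) (nat_lit 430) (nat_lit 393) (nat_lit 377)) (XT.lf (nat_lit 0) (nat_lit 5725510860) (nat_lit 228) (nat_lit 79997423) (nat_lit 304) (nat_lit 3772137368) (nat_lit 97) (nat_lit 5) (nat_lit 100) (nat_lit 5) (nat_lit 101) (nat_lit 5) (nat_lit 431) (nat_lit 393) (nat_lit 376))) (XT.nd (nat_lit 78) (nat_lit 304) (nat_lit 0) (XT.lf (nat_lit 0) (nat_lit 3555813008) (nat_lit 152) (nat_lit 6144627676) (nat_lit 228) (nat_lit 108835933) (nat_lit 95) (nat_lit 5) (nat_lit 97) (nat_lit 5) (nat_lit 98) (nat_lit 4) (nat_lit 432)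 (nat_lit 393) (nat_lit 375)) (XT.lf (nat_lit 0) (nat_lit 1224525828) (nat_lit 228) (nat_lit 2368372560) (nat_lit 304) (nat_lit 6457938575) (nat_lit 91) (nat_lit 5) (nat_lit 94) (nat_lit 5) (nat_lit 95) (nat_lit 5) (nat_lit 433) (nat_lit 393) (nat_lit 374)))) (XT.nd (nat_lit 156) (nat_lit 380) (nat_lit 0) (XT.nd (nat_lit 78) (nat_lit 228) (nat_lit 0) (XT.lf (nat_lit 0) (nat_lit 7498518295) (nat_lit 304) (nat_lit 1208445103) (nat_lit 76) (nat_lit 1596309743) (nat_lit 91) (nat_lit 5) (nat_lit 95) (nat_lit 5) (nat_lit 92) (nat_lit 4) (nat_lit 434) (nat_lit 393) (nat_lit 373)) (XT.lf (nat_lit 0) (nat_lit 1038908582) (nat_lit 228) (nat_lit 3779890139) (nat_lit 76) (nat_lit 5746695344) (nat_lit 88) (nat_lit 5) (nat_lit 91) (nat_lit 5) (nat_lit 89) (nat_lit 5) (nat_lit 435) (nat_lit 393) (nat_lit 372))) (XT.nd (nat_lit 78) (nat_lit 152) (nat_lit 0) (XT.lf (nat_lit 0) (nat_lit 4306209681) (nat_lit 228)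 (nat_lit 658205563) (nat_lit 304) (nat_lit 5874924408) (nat_lit 85) (nat_lit 5) (nat_lit 88) (nat_lit 5) (nat_lit 89) (nat_lit 5) (nat_lit 436) (nat_lit 393) (nat_lit 371)) (XT.lf (nat_lit 0) (nat_lit 1629091222) (nat_lit 152) (nat_lit 7502840808) (nat_lit 228) (nat_lit 1992666852) (nat_lit 83) (nat_lit 5) (nat_lit 85) (nat_lit 5) (nat_lit 86) (nat_lit 4) (nat_lit 437) (nat_lit 393) (nat_lit 370))))))) (XT.nd (nat_lit 1170) (nat_lit 1368) (nat_lit 0) (XT.nd (nat_lit 546) (nat_lit 684) (nat_lit 0) (XT.nd (nat_lit 234) (nat_lit 608) (nat_lit 0) (XT.nd (nat_lit 78) (nat_lit 304) (nat_lit 0) (XT.lf (nat_lit 0) (nat_lit 2038216952) (nat_lit 228) (nat_lit 1206391655) (nat_lit 76) (nat_lit 8176832948) (nat_lit 82) (nat_lit 5) (nat_lit 85) (nat_lit 5) (nat_lit 83) (nat_lit 5) (nat_lit 438) (nat_lit 393) (nat_lit 369)) (XT.nd (nat_lit 78) (nat_lit 152) (nat_lit 0) (XT.lf (nat_lit 0) (nat_lit 6244919424)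 (nat_lit 228) (nat_lit 4205948054) (nat_lit 76) (nat_lit 1278570492) (nat_lit 80) (nat_lit 5) (nat_lit 83) (nat_lit 5) (nat_lit 81) (nat_lit 4) (nat_lit 439) (nat_lit 393) (nat_lit 368)) (XT.lf (nat_lit 0) (nat_lit 4611985153) (nat_lit 152) (nat_lit 6099921472) (nat_lit 228) (nat_lit 1338436768) (nat_lit 78) (nat_lit 5) (nat_lit 80) (nat_lit 5) (nat_lit 81) (nat_lit 4) (nat_lit 440) (nat_lit 393) (nat_lit 367)))) (XT.nd (nat_lit 156) (nat_lit 380) (nat_lit 0) (XT.nd (nat_lit 78) (nat_lit 0) (nat_lit 0) (XT.lf (nat_lit 0) (nat_lit 1469303406) (nat_lit 152) (nat_lit 1449010418) (nat_lit 228) (nat_lit 9466639623) (nat_lit 75) (nat_lit 5) (nat_lit 77) (nat_lit 5) (nat_lit 78) (nat_lit 5) (nat_lit 441) (nat_lit 393) (nat_lit 366)) (XT.lf (nat_lit 0) (nat_lit 7430114950) (nat_lit 228) (nat_lit 1890635559) (nat_lit 76) (nat_lit 3410092510) (nat_lit 75) (nat_lit 5) (nat_lit 78) (nat_lit 5) (nat_lit 76)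 (nat_lit 4) (nat_lit 442) (nat_lit 393) (nat_lit 365))) (XT.nd (nat_lit 78) (nat_lit 228) (nat_lit 0) (XT.lf (nat_lit 0) (nat_lit 7650940620) (nat_lit 152) (nat_lit 4569805368) (nat_lit 228) (nat_lit 870624573) (nat_lit 73) (nat_lit 5) (nat_lit 75) (nat_lit 5) (nat_lit 76) (nat_lit 4) (nat_lit 443) (nat_lit 393) (nat_lit 364)) (XT.lf (nat_lit 0) (nat_lit 3676394891) (nat_lit 228) (nat_lit 9289590508) (nat_lit 76) (nat_lit 500171174) (nat_lit 70) (nat_lit 5) (nat_lit 73) (nat_lit 5) (nat_lit 71) (nat_lit 4) (nat_lit 444) (nat_lit 393) (nat_lit 363))))) (XT.nd (nat_lit 312) (nat_lit 304) (nat_lit 0) (XT.nd (nat_lit 156) (nat_lit 304) (nat_lit 0) (XT.nd (nat_lit 78) (nat_lit 0) (nat_lit 0) (XT.lf (nat_lit 0) (nat_lit 372335127) (nat_lit 76) (nat_lit 8134852040) (nat_lit 152) (nat_lit 5347501802) (nat_lit 69) (nat_lit 5) (nat_lit 70) (nat_lit 5) (nat_lit 71) (nat_lit 4) (nat_lit 445) (nat_lit 393)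 (nat_lit 362)) (XT.lf (nat_lit 0) (nat_lit 10685304167) (nat_lit 76) (nat_lit 2964654671) (nat_lit 152) (nat_lit 609171669) (nat_lit 69) (nat_lit 5) (nat_lit 70) (nat_lit 5) (nat_lit 71) (nat_lit 4) (nat_lit 446) (nat_lit 393) (nat_lit 361))) (XT.nd (nat_lit 78) (nat_lit 76) (nat_lit 0) (XT.lf (nat_lit 0) (nat_lit 4289178607) (nat_lit 228) (nat_lit 7888979693) (nat_lit 76) (nat_lit 2499089317) (nat_lit 66) (nat_lit 5) (nat_lit 69) (nat_lit 5) (nat_lit 67) (nat_lit 4) (nat_lit 447) (nat_lit 393) (nat_lit 360)) (XT.lf (nat_lit 0) (nat_lit 2550676993) (nat_lit 76) (nat_lit 6927814450) (nat_lit 152) (nat_lit 5633957855) (nat_lit 65) (nat_lit 5) (nat_lit 66) (nat_lit 5) (nat_lit 67) (nat_lit 4) (nat_lit 448) (nat_lit 393) (nat_lit 359)))) (XT.nd (nat_lit 156) (nat_lit 76) (nat_lit 0) (XT.nd (nat_lit 78) (nat_lit 228) (nat_lit 0) (XT.lf (nat_lit 0) (nat_lit 13637955574) (nat_lit 76) (nat_lit 1341152426)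 (nat_lit 152) (nat_lit 587714871) (nat_lit 65) (nat_lit 5) (nat_lit 66) (nat_lit 5) (nat_lit 67) (nat_lit 4) (nat_lit 449) (nat_lit 393) (nat_lit 358)) (XT.lf (nat_lit 0) (nat_lit 4699595026) (nat_lit 228) (nat_lit 6793641515) (nat_lit 76) (nat_lit 4540027925) (nat_lit 62) (nat_lit 5) (nat_lit 65) (nat_lit 5) (nat_lit 63) (nat_lit 4) (nat_lit 450) (nat_lit 393) (nat_lit 357))) (XT.nd (nat_lit 78) (nat_lit 0) (nat_lit 0) (XT.lf (nat_lit 0) (nat_lit 4478931078) (nat_lit 76) (nat_lit 5799115290) (nat_lit 152) (nat_lit 6242176893) (nat_lit 61) (nat_lit 5) (nat_lit 62) (nat_lit 5) (nat_lit 63) (nat_lit 4) (nat_lit 451) (nat_lit 393) (nat_lit 356)) (XT.lf (nat_lit 0) (nat_lit 16177086326) (nat_lit 152) (nat_lit 624365384) (nat_lit 0) (nat_lit 227998038) (nat_lit 61) (nat_lit 5) (nat_lit 63) (nat_lit 4) (nat_lit 61) (nat_lit 4) (nat_lit 452) (nat_lit 393) (nat_lit 355)))))) (XT.nd (nat_lit 624) (nat_lit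 532) (nat_lit 0) (XT.nd (nat_lit 312) (nat_lit 304) (nat_lit 0) (XT.nd (nat_lit 156) (nat_lit 228) (nat_lit 0) (XT.nd (nat_lit 78) (nat_lit 76) (nat_lit 0) (XT.lf (nat_lit 0) (nat_lit 4856596044) (nat_lit 228) (nat_lit 6134090182) (nat_lit 76) (nat_lit 6559526241) (nat_lit 58) (nat_lit 5) (nat_lit 61) (nat_lit 5) (nat_lit 59) (nat_lit 4) (nat_lit 453) (nat_lit 393) (nat_lit 354)) (XT.lf (nat_lit 0) (nat_lit 6024276995) (nat_lit 76) (nat_lit 4828746144) (nat_lit 152) (nat_lit 7241760929) (nat_lit 57) (nat_lit 5) (nat_lit 58) (nat_lit 5) (nat_lit 59) (nat_lit 4) (nat_lit 454) (nat_lit 393) (nat_lit 353))) (XT.nd (nat_lit 78) (nat_lit 76) (nat_lit 0) (XT.lf (nat_lit 0) (nat_lit 181991536) (nat_lit 152) (nat_lit 17027614569) (nat_lit 152) (nat_lit 1453963930) (nat_lit 55) (nat_lit 4) (nat_lit 57) (nat_lit 5) (nat_lit 57) (nat_lit 4) (nat_lit 455) (nat_lit 393) (nat_lit 352)) (XT.lf (nat_lit 0) (nat_lit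 4688655476) (nat_lit 228) (nat_lit 6077927530) (nat_lit 76) (nat_lit 8479935273) (nat_lit 54) (nat_lit 5) (nat_lit 57) (nat_lit 5) (nat_lit 55) (nat_lit 4) (nat_lit 456) (nat_lit 393) (nat_lit 351)))) (XT.nd (nat_lit 156) (nat_lit 152) (nat_lit 0) (XT.nd (nat_lit 78) (nat_lit 76) (nat_lit 0) (XT.lf (nat_lit 0) (nat_lit 7014348061) (nat_lit 76) (nat_lit 4114683716) (nat_lit 152) (nat_lit 8726418122) (nat_lit 53) (nat_lit 5) (nat_lit 54) (nat_lit 5) (nat_lit 55) (nat_lit 4) (nat_lit 457) (nat_lit 393) (nat_lit 350)) (XT.lf (nat_lit 0) (nat_lit 313537127) (nat_lit 76) (nat_lit 17662531060) (nat_lit 76) (nat_lit 2514529914) (nat_lit 52) (nat_lit 4) (nat_lit 53) (nat_lit 5) (nat_lit 53) (nat_lit 4) (nat_lit 458) (nat_lit 393) (nat_lit 349))) (XT.nd (nat_lit 78) (nat_lit 76) (nat_lit 0) (XT.lf (nat_lit 0) (nat_lit 4098641078) (nat_lit 152) (nat_lit 6841237383) (nat_lit 76) (nat_lit 10203549965) (nat_lit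 51) (nat_lit 5) (nat_lit 53) (nat_lit 5) (nat_lit 52) (nat_lit 4) (nat_lit 459) (nat_lit 393) (nat_lit 348)) (XT.lf (nat_lit 0) (nat_lit 7224985982) (nat_lit 76) (nat_lit 3779571464) (nat_lit 152) (nat_lit 10819953941) (nat_lit 50) (nat_lit 5) (nat_lit 51) (nat_lit 5) (nat_lit 52) (nat_lit 4) (nat_lit 460) (nat_lit 393) (nat_lit 347))))) (XT.nd (nat_lit 312) (nat_lit 304) (nat_lit 0) (XT.nd (nat_lit 156) (nat_lit 76) (nat_lit 0) (XT.nd (nat_lit 78) (nat_lit 152) (nat_lit 0) (XT.lf (nat_lit 0) (nat_lit 18365974282) (nat_lit 152) (nat_lit 488794404) (nat_lit 0) (nat_lit 3679371277) (nat_lit 50) (nat_lit 5) (nat_lit 52) (nat_lit 4) (nat_lit 50) (nat_lit 4) (nat_lit 461) (nat_lit 393) (nat_lit 346)) (XT.lf (nat_lit 0) (nat_lit 2957116038) (nat_lit 152) (nat_lit 8703042446) (nat_lit 76) (nat_lit 11605342558) (nat_lit 48) (nat_lit 5) (nat_lit 50) (nat_lit 5) (nat_lit 49) (nat_lit 4) (nat_lit 462) (nat_lit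 393) (nat_lit 345))) (XT.nd (nat_lit 78) (nat_lit 0) (nat_lit 0) (XT.lf (nat_lit 0) (nat_lit 6364677103) (nat_lit 76) (nat_lit 3979027947) (nat_lit 152) (nat_lit 13684054019) (nat_lit 47) (nat_lit 5) (nat_lit 48) (nat_lit 5) (nat_lit 49) (nat_lit 4) (nat_lit 463) (nat_lit 393) (nat_lit 344)) (XT.lf (nat_lit 0) (nat_lit 18250796829) (nat_lit 152) (nat_lit 2520069401) (nat_lit 0) (nat_lit 4049706500) (nat_lit 47) (nat_lit 5) (nat_lit 49) (nat_lit 4) (nat_lit 47) (nat_lit 4) (nat_lit 464) (nat_lit 393) (nat_lit 343)))) (XT.nd (nat_lit 156) (nat_lit 76) (nat_lit 0) (XT.nd (nat_lit 78) (nat_lit 76) (nat_lit 0) (XT.lf (nat_lit 0) (nat_lit 1093657046) (nat_lit 152) (nat_lit 12023698003) (nat_lit 76) (nat_lit 12523857877) (nat_lit 45) (nat_lit 5) (nat_lit 47) (nat_lit 5) (nat_lit 46) (nat_lit 4) (nat_lit 465) (nat_lit 393) (nat_lit 342)) (XT.lf (nat_lit 0) (nat_lit 4054723736) (nat_lit 76) (nat_lit 4912079627)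 (nat_lit 152) (nat_lit 17528331451) (nat_lit 44) (nat_lit 5) (nat_lit 45) (nat_lit 5) (nat_lit 46) (nat_lit 4) (nat_lit 466) (nat_lit 393) (nat_lit 341))) (XT.nd (nat_lit 78) (nat_lit 76) (nat_lit 0) (XT.lf (nat_lit 0) (nat_lit 17439231340) (nat_lit 152) (nat_lit 6203792390) (nat_lit 0) (nat_lit 3738449001) (nat_lit 44) (nat_lit 5) (nat_lit 46) (nat_lit 4) (nat_lit 44) (nat_lit 4) (nat_lit 467) (nat_lit 393) (nat_lit 340)) (XT.lf (nat_lit 0) (nat_lit 11006342435) (nat_lit 76) (nat_lit 15524958946) (nat_lit 76) (nat_lit 1771026225) (nat_lit 43) (nat_lit 4) (nat_lit 44) (nat_lit 5) (nat_lit 44) (nat_lit 4) (nat_lit 468) (nat_lit 393) (nat_lit 339))))))))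
noncomputable def xc78 : XT := (XT.nd (nat_lit 2418) (nat_lit 912) (nat_lit 0) (XT.nd (nat_lit 1170) (nat_lit 836) (nat_lit 0) (XT.nd (nat_lit 546) (nat_lit 532) (nat_lit 0) (XT.nd (nat_lit 234) (nat_lit 228) (nat_lit 0) (XT.nd (nat_lit 78) (nat_lit 152) (nat_lit 0) (XT.lf (nat_lit 0) (nat_lit 6641352727) (nat_lit 152) (nat_lit 189779039) (nat_lit 76) (nat_lit 22430252992) (nat_lit 42) (nat_lit 5) (nat_lit 44) (nat_lit 5) (nat_lit 43) (nat_lit 4) (nat_lit 469) (nat_lit 393) (nat_lit 338)) (XT.nd (nat_lit 78) (nat_lit 76) (nat_lit 0) (XT.lf (nat_lit 0) (nat_lit 15685938244) (nat_lit 152) (nat_lit 12074618087) (nat_lit 0) (nat_lit 2492832439) (nat_lit 41) (nat_lit 5) (nat_lit 43) (nat_lit 4) (nat_lit 41) (nat_lit 4) (nat_lit 470) (nat_lit 393) (nat_lit 337)) (XT.lf (nat_lit 0) (nat_lit 6157490908) (nat_lit 76) (nat_lit 19183218945) (nat_lit 76) (nat_lit 5946386190) (nat_lit 40) (nat_lit 4) (nat_lit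 41) (nat_lit 5) (nat_lit 41) (nat_lit 4) (nat_lit 471) (nat_lit 393) (nat_lit 336)))) (XT.nd (nat_lit 156) (nat_lit 76) (nat_lit 0) (XT.nd (nat_lit 78) (nat_lit 76) (nat_lit 0) (XT.lf (nat_lit 0) (nat_lit 3160808154) (nat_lit 152) (nat_lit 6798820752) (nat_lit 76) (nat_lit 22402712152) (nat_lit 39) (nat_lit 5) (nat_lit 41) (nat_lit 5) (nat_lit 40) (nat_lit 4) (nat_lit 472) (nat_lit 393) (nat_lit 335)) (XT.lf (nat_lit 0) (nat_lit 12655973273) (nat_lit 76) (nat_lit 14325446) (nat_lit 152) (nat_lit 20808837594) (nat_lit 38) (nat_lit 5) (nat_lit 39) (nat_lit 5) (nat_lit 40) (nat_lit 4) (nat_lit 473) (nat_lit 393) (nat_lit 334))) (XT.nd (nat_lit 78) (nat_lit 76) (nat_lit 0) (XT.lf (nat_lit 0) (nat_lit 22884409577) (nat_lit 152) (nat_lit 1591411904) (nat_lit 0) (nat_lit 10164493304) (nat_lit 38) (nat_lit 5) (nat_lit 40) (nat_lit 4) (nat_lit 38) (nat_lit 4) (nat_lit 474) (nat_lit 393) (nat_lit 333))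 (XT.lf (nat_lit 0) (nat_lit 19118122028) (nat_lit 76) (nat_lit 14741543190) (nat_lit 76) (nat_lit 1987365707) (nat_lit 37) (nat_lit 4) (nat_lit 38) (nat_lit 5) (nat_lit 38) (nat_lit 4) (nat_lit 475) (nat_lit 393) (nat_lit 332))))) (XT.nd (nat_lit 312) (nat_lit 228) (nat_lit 0) (XT.nd (nat_lit 156) (nat_lit 152) (nat_lit 0) (XT.nd (nat_lit 78) (nat_lit 0) (nat_lit 0) (XT.lf (nat_lit 0) (nat_lit 3698959205) (nat_lit 76) (nat_lit 4342878068) (nat_lit 152) (nat_lit 29063944889) (nat_lit 35) (nat_lit 5) (nat_lit 36) (nat_lit 5) (nat_lit 37) (nat_lit 4) (nat_lit 476) (nat_lit 393) (nat_lit 331)) (XT.lf (nat_lit 0) (nat_lit 18848206986) (nat_lit 152) (nat_lit 12919811603) (nat_lit 0) (nat_lit 6640699239) (nat_lit 35) (nat_lit 5) (nat_lit 37) (nat_lit 4) (nat_lit 35) (nat_lit 4) (nat_lit 477) (nat_lit 393) (nat_lit 330))) (XT.nd (nat_lit 78) (nat_lit 76) (nat_lit 0) (XT.lf (nat_lit 0) (nat_lit 8707992147)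 (nat_lit 76) (nat_lit 21648218728) (nat_lit 76) (nat_lit 9412524199) (nat_lit 34) (nat_lit 4) (nat_lit 35) (nat_lit 5) (nat_lit 35) (nat_lit 4) (nat_lit 478) (nat_lit 393) (nat_lit 329)) (XT.lf (nat_lit 0) (nat_lit 1379682009) (nat_lit 152) (nat_lit 9434190964) (nat_lit 76) (nat_lit 30373080530) (nat_lit 33) (nat_lit 5) (nat_lit 35) (nat_lit 5) (nat_lit 34) (nat_lit 4) (nat_lit 479) (nat_lit 393) (nat_lit 328)))) (XT.nd (nat_lit 156) (nat_lit 152) (nat_lit 0) (XT.nd (nat_lit 78) (nat_lit 0) (nat_lit 0) (XT.lf (nat_lit 0) (nat_lit 12575848053) (nat_lit 152) (nat_lit 29210595916) (nat_lit 0) (nat_lit 872890600) (nat_lit 32) (nat_lit 5) (nat_lit 34) (nat_lit 4) (nat_lit 32) (nat_lit 4) (nat_lit 480) (nat_lit 393) (nat_lit 327)) (XT.lf (nat_lit 0) (nat_lit 24627960573) (nat_lit 152) (nat_lit 6660753899) (nat_lit 0) (nat_lit 12901813785) (nat_lit 32) (nat_lit 5) (nat_lit 34) (nat_lit 4) (nat_lit 32)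 (nat_lit 4) (nat_lit 481) (nat_lit 393) (nat_lit 326))) (XT.nd (nat_lit 78) (nat_lit 76) (nat_lit 0) (XT.lf (nat_lit 0) (nat_lit 17493765618) (nat_lit 76) (nat_lit 20020582436) (nat_lit 76) (nat_lit 8272350566) (nat_lit 31) (nat_lit 4) (nat_lit 32) (nat_lit 5) (nat_lit 32) (nat_lit 4) (nat_lit 482) (nat_lit 393) (nat_lit 325)) (XT.lf (nat_lit 0) (nat_lit 3540948821) (nat_lit 152) (nat_lit 4510320196) (nat_lit 76) (nat_lit 39404950854) (nat_lit 30) (nat_lit 5) (nat_lit 32) (nat_lit 5) (nat_lit 31) (nat_lit 4) (nat_lit 483) (nat_lit 393) (nat_lit 324)))))) (XT.nd (nat_lit 624) (nat_lit 380) (nat_lit 0) (XT.nd (nat_lit 312) (nat_lit 228) (nat_lit 0) (XT.nd (nat_lit 156) (nat_lit 152) (nat_lit 0) (XT.nd (nat_lit 78) (nat_lit 0) (nat_lit 0) (XT.lf (nat_lit 0) (nat_lit 16031499761) (nat_lit 152) (nat_lit 28349109854) (nat_lit 0) (nat_lit 4803597760) (nat_lit 29) (nat_lit 5) (nat_lit 31) (nat_lit 4)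 (nat_lit 29) (nat_lit 4) (nat_lit 484) (nat_lit 393) (nat_lit 323)) (XT.lf (nat_lit 0) (nat_lit 29316815551) (nat_lit 152) (nat_lit 3602523112) (nat_lit 0) (nat_lit 18070744099) (nat_lit 29) (nat_lit 5) (nat_lit 31) (nat_lit 4) (nat_lit 29) (nat_lit 4) (nat_lit 485) (nat_lit 393) (nat_lit 322))) (XT.nd (nat_lit 78) (nat_lit 76) (nat_lit 0) (XT.lf (nat_lit 0) (nat_lit 23043813067) (nat_lit 76) (nat_lit 20544850782) (nat_lit 76) (nat_lit 9281475091) (nat_lit 28) (nat_lit 4) (nat_lit 29) (nat_lit 5) (nat_lit 29) (nat_lit 4) (nat_lit 486) (nat_lit 393) (nat_lit 321)) (XT.lf (nat_lit 0) (nat_lit 3635052546) (nat_lit 152) (nat_lit 3827998197) (nat_lit 76) (nat_lit 47377009482) (nat_lit 27) (nat_lit 5) (nat_lit 29) (nat_lit 5) (nat_lit 28) (nat_lit 4) (nat_lit 487) (nat_lit 393) (nat_lit 320)))) (XT.nd (nat_lit 156) (nat_lit 152) (nat_lit 0) (XT.nd (nat_lit 78) (nat_lit 0) (nat_lit 0) (XT.lf (nat_lit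 0) (nat_lit 17330749937) (nat_lit 152) (nat_lit 32974775128) (nat_lit 0) (nat_lit 6573081962) (nat_lit 26) (nat_lit 5) (nat_lit 28) (nat_lit 4) (nat_lit 26) (nat_lit 4) (nat_lit 488) (nat_lit 393) (nat_lit 319)) (XT.lf (nat_lit 0) (nat_lit 31863818649) (nat_lit 152) (nat_lit 6055719055) (nat_lit 0) (nat_lit 21091914434) (nat_lit 26) (nat_lit 5) (nat_lit 28) (nat_lit 4) (nat_lit 26) (nat_lit 4) (nat_lit 489) (nat_lit 393) (nat_lit 318))) (XT.nd (nat_lit 78) (nat_lit 76) (nat_lit 0) (XT.lf (nat_lit 0) (nat_lit 22873160047) (nat_lit 76) (nat_lit 24573542105) (nat_lit 76) (nat_lit 13788079566) (nat_lit 25) (nat_lit 4) (nat_lit 26) (nat_lit 5) (nat_lit 26) (nat_lit 4) (nat_lit 490) (nat_lit 393) (nat_lit 317)) (XT.lf (nat_lit 0) (nat_lit 302094539) (nat_lit 152) (nat_lit 10179081422) (nat_lit 76) (nat_lit 53084399821) (nat_lit 24) (nat_lit 5) (nat_lit 26) (nat_lit 5) (nat_lit 25) (nat_lit 4) (nat_lit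 491) (nat_lit 393) (nat_lit 316))))) (XT.nd (nat_lit 312) (nat_lit 228) (nat_lit 0) (XT.nd (nat_lit 156) (nat_lit 76) (nat_lit 0) (XT.nd (nat_lit 78) (nat_lit 0) (nat_lit 0) (XT.lf (nat_lit 0) (nat_lit 14985137446) (nat_lit 152) (nat_lit 46309625770) (nat_lit 0) (nat_lit 4689258371) (nat_lit 23) (nat_lit 5) (nat_lit 25) (nat_lit 4) (nat_lit 23) (nat_lit 4) (nat_lit 492) (nat_lit 393) (nat_lit 315)) (XT.lf (nat_lit 0) (nat_lit 30717091614) (nat_lit 152) (nat_lit 17380502271) (nat_lit 0) (nat_lit 20410058072) (nat_lit 23) (nat_lit 5) (nat_lit 25) (nat_lit 4) (nat_lit 23) (nat_lit 4) (nat_lit 493) (nat_lit 393) (nat_lit 314))) (XT.nd (nat_lit 78) (nat_lit 0) (nat_lit 0) (XT.lf (nat_lit 0) (nat_lit 13360777108) (nat_lit 76) (nat_lit 34052725424) (nat_lit 76) (nat_lit 23735068580) (nat_lit 22) (nat_lit 4) (nat_lit 23) (nat_lit 5) (nat_lit 23) (nat_lit 4) (nat_lit 494) (nat_lit 393) (nat_lit 313))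 (XT.lf (nat_lit 0) (nat_lit 46181602498) (nat_lit 76) (nat_lit 19027251115) (nat_lit 76) (nat_lit 8699476841) (nat_lit 22) (nat_lit 4) (nat_lit 23) (nat_lit 5) (nat_lit 23) (nat_lit 4) (nat_lit 495) (nat_lit 393) (nat_lit 312)))) (XT.nd (nat_lit 156) (nat_lit 76) (nat_lit 0) (XT.nd (nat_lit 78) (nat_lit 0) (nat_lit 0) (XT.lf (nat_lit 0) (nat_lit 3789005329) (nat_lit 76) (nat_lit 3101928939) (nat_lit 152) (nat_lit 69908115754) (nat_lit 20) (nat_lit 5) (nat_lit 21) (nat_lit 5) (nat_lit 22) (nat_lit 4) (nat_lit 496) (nat_lit 393) (nat_lit 311)) (XT.lf (nat_lit 0) (nat_lit 23629180653) (nat_lit 152) (nat_lit 42389672138) (nat_lit 0) (nat_lit 13775288530) (nat_lit 20) (nat_lit 5) (nat_lit 22) (nat_lit 4) (nat_lit 20) (nat_lit 4) (nat_lit 497) (nat_lit 393) (nat_lit 310))) (XT.nd (nat_lit 78) (nat_lit 76) (nat_lit 0) (XT.lf (nat_lit 0) (nat_lit 41227352352) (nat_lit 152) (nat_lit 10345347762) (nat_lit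 0) (nat_lit 31365136594) (nat_lit 20) (nat_lit 5) (nat_lit 22) (nat_lit 4) (nat_lit 20) (nat_lit 4) (nat_lit 498) (nat_lit 393) (nat_lit 309)) (XT.lf (nat_lit 0) (nat_lit 24016326686) (nat_lit 76) (nat_lit 36037555447) (nat_lit 76) (nat_lit 26167412418) (nat_lit 19) (nat_lit 4) (nat_lit 20) (nat_lit 5) (nat_lit 20) (nat_lit 4) (nat_lit 499) (nat_lit 393) (nat_lit 308))))))) (XT.nd (nat_lit 1170) (nat_lit 304) (nat_lit 0) (XT.nd (nat_lit 546) (nat_lit 380) (nat_lit 0) (XT.nd (nat_lit 234) (nat_lit 76) (nat_lit 0) (XT.nd (nat_lit 78) (nat_lit 152) (nat_lit 0) (XT.lf (nat_lit 0) (nat_lit 60402576914) (nat_lit 76) (nat_lit 19568292398) (nat_lit 76) (nat_lit 9690599586) (nat_lit 19) (nat_lit 4) (nat_lit 20) (nat_lit 5) (nat_lit 20) (nat_lit 4) (nat_lit 500) (nat_lit 393) (nat_lit 307)) (XT.nd (nat_lit 78) (nat_lit 0) (nat_lit 0) (XT.lf (nat_lit 0) (nat_lit 5335439451) (nat_lit 76) (nat_lit 2089108125)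 (nat_lit 152) (nat_lit 85840260668) (nat_lit 17) (nat_lit 5) (nat_lit 18) (nat_lit 5) (nat_lit 19) (nat_lit 4) (nat_lit 501) (nat_lit 393) (nat_lit 306)) (XT.lf (nat_lit 0) (nat_lit 25802132486) (nat_lit 152) (nat_lit 54820185346) (nat_lit 0) (nat_lit 16381436339) (nat_lit 17) (nat_lit 5) (nat_lit 19) (nat_lit 4) (nat_lit 17) (nat_lit 4) (nat_lit 502) (nat_lit 393) (nat_lit 305)))) (XT.nd (nat_lit 156) (nat_lit 0) (nat_lit 0) (XT.nd (nat_lit 78) (nat_lit 76) (nat_lit 0) (XT.lf (nat_lit 0) (nat_lit 45108829310) (nat_lit 152) (nat_lit 20138384642) (nat_lit 0) (nat_lit 35681921938) (nat_lit 17) (nat_lit 5) (nat_lit 19) (nat_lit 4) (nat_lit 17) (nat_lit 4) (nat_lit 503) (nat_lit 393) (nat_lit 304)) (XT.lf (nat_lit 0) (nat_lit 16767903496) (nat_lit 76) (nat_lit 48851880010) (nat_lit 76) (nat_lit 39419057185) (nat_lit 16) (nat_lit 4) (nat_lit 17) (nat_lit 5) (nat_lit 17) (nat_lit 4) (nat_lit 504) (nat_lit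 393) (nat_lit 303))) (XT.nd (nat_lit 78) (nat_lit 0) (nat_lit 0) (XT.lf (nat_lit 0) (nat_lit 56173131508) (nat_lit 76) (nat_lit 31301713962) (nat_lit 76) (nat_lit 21863257374) (nat_lit 16) (nat_lit 4) (nat_lit 17) (nat_lit 5) (nat_lit 17) (nat_lit 4) (nat_lit 505) (nat_lit 393) (nat_lit 302)) (XT.lf (nat_lit 0) (nat_lit 97505255422) (nat_lit 76) (nat_lit 12895982989) (nat_lit 76) (nat_lit 3452160912) (nat_lit 16) (nat_lit 4) (nat_lit 17) (nat_lit 5) (nat_lit 17) (nat_lit 4) (nat_lit 506) (nat_lit 393) (nat_lit 301))))) (XT.nd (nat_lit 312) (nat_lit 152) (nat_lit 0) (XT.nd (nat_lit 156) (nat_lit 76) (nat_lit 0) (XT.nd (nat_lit 78) (nat_lit 0) (nat_lit 0) (XT.lf (nat_lit 0) (nat_lit 15815611639) (nat_lit 152) (nat_lit 95927605994) (nat_lit 0) (nat_lit 6816628718) (nat_lit 14) (nat_lit 5) (nat_lit 16) (nat_lit 4) (nat_lit 14) (nat_lit 4) (nat_lit 507) (nat_lit 393) (nat_lit 300)) (XT.lf (nat_lit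 0) (nat_lit 36402848992) (nat_lit 152) (nat_lit 59673101464) (nat_lit 0) (nat_lit 27399231160) (nat_lit 14) (nat_lit 5) (nat_lit 16) (nat_lit 4) (nat_lit 14) (nat_lit 4) (nat_lit 508) (nat_lit 393) (nat_lit 299))) (XT.nd (nat_lit 78) (nat_lit 76) (nat_lit 0) (XT.lf (nat_lit 0) (nat_lit 57999714292) (nat_lit 152) (nat_lit 21645873882) (nat_lit 0) (nat_lit 48991682258) (nat_lit 14) (nat_lit 5) (nat_lit 16) (nat_lit 4) (nat_lit 14) (nat_lit 4) (nat_lit 509) (nat_lit 393) (nat_lit 298)) (XT.lf (nat_lit 0) (nat_lit 18847867229) (nat_lit 76) (nat_lit 62104029445) (nat_lit 76) (nat_lit 53091793410) (nat_lit 13) (nat_lit 4) (nat_lit 14) (nat_lit 5) (nat_lit 14) (nat_lit 4) (nat_lit 510) (nat_lit 393) (nat_lit 297)))) (XT.nd (nat_lit 156) (nat_lit 152) (nat_lit 0) (XT.nd (nat_lit 78) (nat_lit 0) (nat_lit 0) (XT.lf (nat_lit 0) (nat_lit 62080308424) (nat_lit 76) (nat_lit 43319478639) (nat_lit 76) (nat_lit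 34303238793) (nat_lit 13) (nat_lit 4) (nat_lit 14) (nat_lit 5) (nat_lit 14) (nat_lit 4) (nat_lit 511) (nat_lit 393) (nat_lit 296)) (XT.lf (nat_lit 0) (nat_lit 107438673741) (nat_lit 76) (nat_lit 23613793983) (nat_lit 76) (nat_lit 14593740985) (nat_lit 13) (nat_lit 4) (nat_lit 14) (nat_lit 5) (nat_lit 14) (nat_lit 4) (nat_lit 512) (nat_lit 393) (nat_lit 295))) (XT.nd (nat_lit 78) (nat_lit 0) (nat_lit 0) (XT.lf (nat_lit 0) (nat_lit 3149387814) (nat_lit 76) (nat_lit 2788696276) (nat_lit 152) (nat_lit 145942097323) (nat_lit 11) (nat_lit 5) (nat_lit 12) (nat_lit 5) (nat_lit 13) (nat_lit 4) (nat_lit 513) (nat_lit 393) (nat_lit 294)) (XT.lf (nat_lit 0) (nat_lit 27944551864) (nat_lit 152) (nat_lit 111075141422) (nat_lit 0) (nat_lit 19347272611) (nat_lit 11) (nat_lit 5) (nat_lit 13) (nat_lit 4) (nat_lit 11) (nat_lit 4) (nat_lit 514) (nat_lit 393) (nat_lit 293)))))) (XT.nd (nat_lit 624) (nat_lit 76) (nat_lit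 0) (XT.nd (nat_lit 312) (nat_lit 152) (nat_lit 0) (XT.nd (nat_lit 156) (nat_lit 76) (nat_lit 0) (XT.nd (nat_lit 78) (nat_lit 0) (nat_lit 0) (XT.lf (nat_lit 0) (nat_lit 51080840760) (nat_lit 152) (nat_lit 71615349606) (nat_lit 0) (nat_lit 42480424417) (nat_lit 11) (nat_lit 5) (nat_lit 13) (nat_lit 4) (nat_lit 11) (nat_lit 4) (nat_lit 515) (nat_lit 393) (nat_lit 292)) (XT.lf (nat_lit 0) (nat_lit 75358497817) (nat_lit 152) (nat_lit 30213926904) (nat_lit 0) (nat_lit 66755093769) (nat_lit 11) (nat_lit 5) (nat_lit 13) (nat_lit 4) (nat_lit 11) (nat_lit 4) (nat_lit 516) (nat_lit 393) (nat_lit 291))) (XT.nd (nat_lit 78) (nat_lit 0) (nat_lit 0) (XT.lf (nat_lit 0) (nat_lit 13665069051) (nat_lit 76) (nat_lit 87383607953) (nat_lit 76) (nat_lit 78777358472) (nat_lit 10) (nat_lit 4) (nat_lit 11) (nat_lit 5) (nat_lit 11) (nat_lit 4) (nat_lit 517) (nat_lit 393) (nat_lit 290)) (XT.lf (nat_lit 0) (nat_lit 60757590389)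 (nat_lit 76) (nat_lit 67762993236) (nat_lit 76) (nat_lit 59154033818) (nat_lit 10) (nat_lit 4) (nat_lit 11) (nat_lit 5) (nat_lit 11) (nat_lit 4) (nat_lit 518) (nat_lit 393) (nat_lit 289)))) (XT.nd (nat_lit 156) (nat_lit 152) (nat_lit 0) (XT.nd (nat_lit 78) (nat_lit 0) (nat_lit 0) (XT.lf (nat_lit 0) (nat_lit 110176753288) (nat_lit 76) (nat_lit 47175552292) (nat_lit 76) (nat_lit 38564011982) (nat_lit 10) (nat_lit 4) (nat_lit 11) (nat_lit 5) (nat_lit 11) (nat_lit 4) (nat_lit 519) (nat_lit 393) (nat_lit 288)) (XT.lf (nat_lit 0) (nat_lit 162040222422) (nat_lit 76) (nat_lit 25572267405) (nat_lit 76) (nat_lit 16958269102) (nat_lit 10) (nat_lit 4) (nat_lit 11) (nat_lit 5) (nat_lit 11) (nat_lit 4) (nat_lit 520) (nat_lit 393) (nat_lit 287))) (XT.nd (nat_lit 78) (nat_lit 0) (nat_lit 0) (XT.lf (nat_lit 0) (nat_lit 2813771649) (nat_lit 76) (nat_lit 2761892202) (nat_lit 152) (nat_lit 208076225885) (nat_lit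 8) (nat_lit 5) (nat_lit 9) (nat_lit 5) (nat_lit 10) (nat_lit 4) (nat_lit 521) (nat_lit 393) (nat_lit 286)) (XT.lf (nat_lit 0) (nat_lit 29716590621) (nat_lit 152) (nat_lit 171895646041) (nat_lit 0) (nat_lit 21508429935) (nat_lit 8) (nat_lit 5) (nat_lit 10) (nat_lit 4) (nat_lit 8) (nat_lit 4) (nat_lit 522) (nat_lit 393) (nat_lit 285))))) (XT.nd (nat_lit 312) (nat_lit 0) (nat_lit 0) (XT.nd (nat_lit 156) (nat_lit 76) (nat_lit 0) (XT.nd (nat_lit 78) (nat_lit 0) (nat_lit 0) (XT.lf (nat_lit 0) (nat_lit 55097748748) (nat_lit 152) (nat_lit 131075908478) (nat_lit 0) (nat_lit 46887565866) (nat_lit 8) (nat_lit 5) (nat_lit 10) (nat_lit 4) (nat_lit 8) (nat_lit 4) (nat_lit 523) (nat_lit 393) (nat_lit 284)) (XT.lf (nat_lit 0) (nat_lit 81736448686) (nat_lit 152) (nat_lit 88238594667) (nat_lit 0) (nat_lit 73524339903) (nat_lit 8) (nat_lit 5) (nat_lit 10) (nat_lit 4) (nat_lit 8) (nat_lit 4) (nat_lit 524) (nat_lit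 393) (nat_lit 283))) (XT.nd (nat_lit 78) (nat_lit 76) (nat_lit 0) (XT.lf (nat_lit 0) (nat_lit 109696115910) (nat_lit 152) (nat_lit 43281711006) (nat_lit 0) (nat_lit 101482172935) (nat_lit 8) (nat_lit 5) (nat_lit 10) (nat_lit 4) (nat_lit 8) (nat_lit 4) (nat_lit 525) (nat_lit 393) (nat_lit 282)) (XT.lf (nat_lit 0) (nat_lit 4030793261) (nat_lit 76) (nat_lit 135075459775) (nat_lit 76) (nat_lit 126859769950) (nat_lit 7) (nat_lit 4) (nat_lit 8) (nat_lit 5) (nat_lit 8) (nat_lit 4) (nat_lit 526) (nat_lit 393) (nat_lit 281)))) (XT.nd (nat_lit 156) (nat_lit 0) (nat_lit 0) (XT.nd (nat_lit 78) (nat_lit 0) (nat_lit 0) (XT.lf (nat_lit 0) (nat_lit 55190674370) (nat_lit 76) (nat_lit 115518945153) (nat_lit 76) (nat_lit 107301591663) (nat_lit 7) (nat_lit 4) (nat_lit 8) (nat_lit 5) (nat_lit 8) (nat_lit 4) (nat_lit 527) (nat_lit 393) (nat_lit 280)) (XT.lf (nat_lit 0) (nat_lit 108888652727) (nat_lit 76) (nat_lit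 94994716642) (nat_lit 76) (nat_lit 86775778708) (nat_lit 7) (nat_lit 4) (nat_lit 8) (nat_lit 5) (nat_lit 8) (nat_lit 4) (nat_lit 528) (nat_lit 393) (nat_lit 279))) (XT.nd (nat_lit 78) (nat_lit 0) (nat_lit 0) (XT.lf (nat_lit 0) (nat_lit 165252580662) (nat_lit 76) (nat_lit 73453907030) (nat_lit 76) (nat_lit 65233460102) (nat_lit 7) (nat_lit 4) (nat_lit 8) (nat_lit 5) (nat_lit 8) (nat_lit 4) (nat_lit 529) (nat_lit 393) (nat_lit 278)) (XT.lf (nat_lit 0) (nat_lit 224416658004) (nat_lit 76) (nat_lit 50845228676) (nat_lit 76) (nat_lit 42623344610) (nat_lit 7) (nat_lit 4) (nat_lit 8) (nat_lit 5) (nat_lit 8) (nat_lit 4) (nat_lit 530) (nat_lit 393) (nat_lit 277))))))))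
noncomputable def xc79 : XT := (XT.nd (nat_lit 53976) (nat_lit 0) (nat_lit 4104) (XT.nd (nat_lit 1170) (nat_lit 0) (nat_lit 0) (XT.nd (nat_lit 546) (nat_lit 76) (nat_lit 0) (XT.nd (nat_lit 234) (nat_lit 0) (nat_lit 0) (XT.nd (nat_lit 78) (nat_lit 152) (nat_lit 0) (XT.lf (nat_lit 0) (nat_lit 286521751603) (nat_lit 76) (nat_lit 27114851392) (nat_lit 76) (nat_lit 18891598624) (nat_lit 7) (nat_lit 4) (nat_lit 8) (nat_lit 5) (nat_lit 8) (nat_lit 4) (nat_lit 531) (nat_lit 393) (nat_lit 276)) (XT.nd (nat_lit 78) (nat_lit 0) (nat_lit 0) (XT.lf (nat_lit 0) (nat_lit 3840980857) (nat_lit 76) (nat_lit 2044647021) (nat_lit 152) (nat_lit 342010398584) (nat_lit 5) (nat_lit 5) (nat_lit 6) (nat_lit 5) (nat_lit 7) (nat_lit 4) (nat_lit 532) (nat_lit 393) (nat_lit 275)) (XT.lf (nat_lit 0) (nat_lit 32429634667) (nat_lit 152) (nat_lit 306933441386) (nat_lit 0) (nat_lit 24595541574) (nat_lit 5) (nat_lit 5) (nat_lit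 7) (nat_lit 4) (nat_lit 5) (nat_lit 4) (nat_lit 533) (nat_lit 393) (nat_lit 274)))) (XT.nd (nat_lit 156) (nat_lit 0) (nat_lit 0) (XT.nd (nat_lit 78) (nat_lit 0) (nat_lit 0) (XT.lf (nat_lit 0) (nat_lit 60326571990) (nat_lit 152) (nat_lit 268005127009) (nat_lit 0) (nat_lit 52491352863) (nat_lit 5) (nat_lit 5) (nat_lit 7) (nat_lit 4) (nat_lit 5) (nat_lit 4) (nat_lit 534) (nat_lit 393) (nat_lit 273)) (XT.lf (nat_lit 0) (nat_lit 89610938459) (nat_lit 152) (nat_lit 227145493342) (nat_lit 0) (nat_lit 81774646918) (nat_lit 5) (nat_lit 5) (nat_lit 7) (nat_lit 4) (nat_lit 5) (nat_lit 4) (nat_lit 535) (nat_lit 393) (nat_lit 272))) (XT.nd (nat_lit 78) (nat_lit 0) (nat_lit 0) (XT.lf (nat_lit 0) (nat_lit 120352458755) (nat_lit 152) (nat_lit 184257255542) (nat_lit 0) (nat_lit 112515145867) (nat_lit 5) (nat_lit 5) (nat_lit 7) (nat_lit 4) (nat_lit 5) (nat_lit 4) (nat_lit 536) (nat_lit 393) (nat_lit 271)) (XT.lf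 (nat_lit 0) (nat_lit 152624326973) (nat_lit 152) (nat_lit 139238298758) (nat_lit 0) (nat_lit 144786041374) (nat_lit 5) (nat_lit 5) (nat_lit 7) (nat_lit 4) (nat_lit 5) (nat_lit 4) (nat_lit 537) (nat_lit 393) (nat_lit 270))))) (XT.nd (nat_lit 312) (nat_lit 0) (nat_lit 0) (XT.nd (nat_lit 156) (nat_lit 76) (nat_lit 0) (XT.nd (nat_lit 78) (nat_lit 0) (nat_lit 0) (XT.lf (nat_lit 0) (nat_lit 186503380896) (nat_lit 152) (nat_lit 91981434997) (nat_lit 0) (nat_lit 178664168905) (nat_lit 5) (nat_lit 5) (nat_lit 7) (nat_lit 4) (nat_lit 5) (nat_lit 4) (nat_lit 538) (nat_lit 393) (nat_lit 269)) (XT.lf (nat_lit 0) (nat_lit 222070284937) (nat_lit 152) (nat_lit 42374147917) (nat_lit 0) (nat_lit 214230190669) (nat_lit 5) (nat_lit 5) (nat_lit 7) (nat_lit 4) (nat_lit 5) (nat_lit 4) (nat_lit 539) (nat_lit 393) (nat_lit 268))) (XT.nd (nat_lit 78) (nat_lit 0) (nat_lit 0) (XT.lf (nat_lit 0) (nat_lit 10022456261) (nat_lit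 76) (nat_lit 249543744571) (nat_lit 76) (nat_lit 241702810038) (nat_lit 4) (nat_lit 4) (nat_lit 5) (nat_lit 5) (nat_lit 5) (nat_lit 4) (nat_lit 540) (nat_lit 393) (nat_lit 267)) (XT.lf (nat_lit 0) (nat_lit 66498387715) (nat_lit 76) (nat_lit 233150434590) (nat_lit 76) (nat_lit 225308699805) (nat_lit 4) (nat_lit 4) (nat_lit 5) (nat_lit 5) (nat_lit 5) (nat_lit 4) (nat_lit 541) (nat_lit 393) (nat_lit 266)))) (XT.nd (nat_lit 156) (nat_lit 0) (nat_lit 0) (XT.nd (nat_lit 78) (nat_lit 0) (nat_lit 0) (XT.lf (nat_lit 0) (nat_lit 125787032252) (nat_lit 76) (nat_lit 215943097920) (nat_lit 76) (nat_lit 208100600991) (nat_lit 4) (nat_lit 4) (nat_lit 5) (nat_lit 5) (nat_lit 5) (nat_lit 4) (nat_lit 542) (nat_lit 393) (nat_lit 265)) (XT.lf (nat_lit 0) (nat_lit 188029553310) (nat_lit 76) (nat_lit 197880764712) (nat_lit 76) (nat_lit 190037541931) (nat_lit 4) (nat_lit 4) (nat_lit 5) (nat_lit 5) (nat_lit 5) (nat_lit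 4) (nat_lit 543) (nat_lit 393) (nat_lit 264))) (XT.nd (nat_lit 78) (nat_lit 0) (nat_lit 0) (XT.lf (nat_lit 0) (nat_lit 253374147369) (nat_lit 76) (nat_lit 178920429411) (nat_lit 76) (nat_lit 171076515342) (nat_lit 4) (nat_lit 4) (nat_lit 5) (nat_lit 5) (nat_lit 5) (nat_lit 4) (nat_lit 544) (nat_lit 393) (nat_lit 263)) (XT.lf (nat_lit 0) (nat_lit 321976396794) (nat_lit 76) (nat_lit 159016948361) (nat_lit 76) (nat_lit 151172375923) (nat_lit 4) (nat_lit 4) (nat_lit 5) (nat_lit 5) (nat_lit 5) (nat_lit 4) (nat_lit 545) (nat_lit 393) (nat_lit 262)))))) (XT.nd (nat_lit 52182) (nat_lit 0) (nat_lit 9500) (XT.nd (nat_lit 312) (nat_lit 0) (nat_lit 0) (XT.nd (nat_lit 156) (nat_lit 0) (nat_lit 0) (XT.nd (nat_lit 78) (nat_lit 0) (nat_lit 0) (XT.lf (nat_lit 0) (nat_lit 393999640275) (nat_lit 76) (nat_lit 138122932322) (nat_lit 76) (nat_lit 130277732866) (nat_lit 4) (nat_lit 4) (nat_lit 5) (nat_lit 5) (nat_lit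 5) (nat_lit 4) (nat_lit 546) (nat_lit 393) (nat_lit 261)) (XT.lf (nat_lit 0) (nat_lit 469615361726) (nat_lit 76) (nat_lit 116188633636) (nat_lit 76) (nat_lit 108342837020) (nat_lit 4) (nat_lit 4) (nat_lit 5) (nat_lit 5) (nat_lit 5) (nat_lit 4) (nat_lit 547) (nat_lit 393) (nat_lit 260))) (XT.nd (nat_lit 78) (nat_lit 0) (nat_lit 0) (XT.lf (nat_lit 0) (nat_lit 549003598577) (nat_lit 76) (nat_lit 93161827783) (nat_lit 76) (nat_lit 85315462443) (nat_lit 4) (nat_lit 4) (nat_lit 5) (nat_lit 5) (nat_lit 5) (nat_lit 4) (nat_lit 548) (nat_lit 393) (nat_lit 259)) (XT.lf (nat_lit 0) (nat_lit 632353370441) (nat_lit 76) (nat_lit 68987689035) (nat_lit 76) (nat_lit 61140782053) (nat_lit 4) (nat_lit 4) (nat_lit 5) (nat_lit 5) (nat_lit 5) (nat_lit 4) (nat_lit 549) (nat_lit 393) (nat_lit 258)))) (XT.nd (nat_lit 51714) (nat_lit 0) (nat_lit 12920) (XT.nd (nat_lit 78) (nat_lit 0) (nat_lit 0) (XT.lf (nat_lit 0) (nat_lit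 719863129155) (nat_lit 76) (nat_lit 43608659918) (nat_lit 76) (nat_lit 35761237087) (nat_lit 4) (nat_lit 4) (nat_lit 5) (nat_lit 5) (nat_lit 5) (nat_lit 4) (nat_lit 550) (nat_lit 393) (nat_lit 257)) (XT.lf (nat_lit 0) (nat_lit 811741231288) (nat_lit 76) (nat_lit 16964314173) (nat_lit 76) (nat_lit 9116400057) (nat_lit 4) (nat_lit 4) (nat_lit 5) (nat_lit 5) (nat_lit 5) (nat_lit 4) (nat_lit 551) (nat_lit 393) (nat_lit 256))) (XT.nd (nat_lit 78) (nat_lit 76) (nat_lit 0) (XT.lf (nat_lit 0) (nat_lit 776140928) (nat_lit 532) (nat_lit 1326310043) (nat_lit 532) (nat_lit 1326310043) (nat_lit 175) (nat_lit 4) (nat_lit 182) (nat_lit 5) (nat_lit 182) (nat_lit 4) (nat_lit 412) (nat_lit 394) (nat_lit 394)) (XT.lf (nat_lit 0) (nat_lit 727095902) (nat_lit 608) (nat_lit 475141092) (nat_lit 76) (nat_lit 5729723258) (nat_lit 174) (nat_lit 5) (nat_lit 182) (nat_lit 5) (nat_lit 175) (nat_lit 4) (nat_lit 413) (nat_lit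 394) (nat_lit 393))))) (XT.nd (nat_lit 312) (nat_lit 1292) (nat_lit 0) (XT.nd (nat_lit 156) (nat_lit 760) (nat_lit 0) (XT.nd (nat_lit 78) (nat_lit 760) (nat_lit 0) (XT.lf (nat_lit 0) (nat_lit 4093905730) (nat_lit 684) (nat_lit 2479828939) (nat_lit 0) (nat_lit 438885532) (nat_lit 166) (nat_lit 5) (nat_lit 175) (nat_lit 4) (nat_lit 166) (nat_lit 4) (nat_lit 414) (nat_lit 394) (nat_lit 392)) (XT.lf (nat_lit 0) (nat_lit 416894888) (nat_lit 760) (nat_lit 4498420611) (nat_lit 76) (nat_lit 2186507346) (nat_lit 156) (nat_lit 5) (nat_lit 166) (nat_lit 5) (nat_lit 157) (nat_lit 4) (nat_lit 415) (nat_lit 394) (nat_lit 391))) (XT.nd (nat_lit 78) (nat_lit 0) (nat_lit 0) (XT.lf (nat_lit 0) (nat_lit 638706858) (nat_lit 760) (nat_lit 3072970273) (nat_lit 836) (nat_lit 3486923849) (nat_lit 146) (nat_lit 5) (nat_lit 156) (nat_lit 5) (nat_lit 157) (nat_lit 4) (nat_lit 416) (nat_lit 394) (nat_lit 390)) (XT.lf (nat_lit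 0) (nat_lit 6024851706) (nat_lit 760) (nat_lit 1065514493) (nat_lit 836) (nat_lit 213923688) (nat_lit 146) (nat_lit 5) (nat_lit 156) (nat_lit 5) (nat_lit 157) (nat_lit 4) (nat_lit 417) (nat_lit 394) (nat_lit 389)))) (XT.nd (nat_lit 156) (nat_lit 456) (nat_lit 0) (XT.nd (nat_lit 78) (nat_lit 380) (nat_lit 0) (XT.lf (nat_lit 0) (nat_lit 3050965779) (nat_lit 456) (nat_lit 3247639602) (nat_lit 76) (nat_lit 1117600173) (nat_lit 140) (nat_lit 5) (nat_lit 146) (nat_lit 5) (nat_lit 141) (nat_lit 4) (nat_lit 418) (nat_lit 394) (nat_lit 388)) (XT.lf (nat_lit 0) (nat_lit 2286748895) (nat_lit 380) (nat_lit 4112920933) (nat_lit 456) (nat_lit 1137509995) (nat_lit 135) (nat_lit 5) (nat_lit 140) (nat_lit 5) (nat_lit 141) (nat_lit 4) (nat_lit 419) (nat_lit 394) (nat_lit 387))) (XT.nd (nat_lit 78) (nat_lit 0) (nat_lit 0) (XT.lf (nat_lit 0) (nat_lit 356487775) (nat_lit 380) (nat_lit 1739192074) (nat_lit 456) (nat_lit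 5570982014) (nat_lit 129) (nat_lit 5) (nat_lit 134) (nat_lit 5) (nat_lit 135) (nat_lit 5) (nat_lit 420) (nat_lit 394) (nat_lit 386)) (XT.lf (nat_lit 0) (nat_lit 5413068570) (nat_lit 456) (nat_lit 1576005423) (nat_lit 76) (nat_lit 814595841) (nat_lit 129) (nat_lit 5) (nat_lit 135) (nat_lit 5) (nat_lit 130) (nat_lit 4) (nat_lit 421) (nat_lit 394) (nat_lit 385))))))) (XT.nd (nat_lit 1248) (nat_lit 2052) (nat_lit 0) (XT.nd (nat_lit 624) (nat_lit 1444) (nat_lit 0) (XT.nd (nat_lit 312) (nat_lit 836) (nat_lit 0) (XT.nd (nat_lit 156) (nat_lit 380) (nat_lit 0) (XT.nd (nat_lit 78) (nat_lit 304) (nat_lit 0) (XT.lf (nat_lit 0) (nat_lit 880258543) (nat_lit 380) (nat_lit 3570468399) (nat_lit 76) (nat_lit 3497989693) (nat_lit 124) (nat_lit 5) (nat_lit 129) (nat_lit 5) (nat_lit 125) (nat_lit 5) (nat_lit 422) (nat_lit 394) (nat_lit 384)) (XT.lf (nat_lit 0) (nat_lit 2458730970) (nat_lit 304) (nat_lit 1708200806)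 (nat_lit 380) (nat_lit 3935513473) (nat_lit 120) (nat_lit 5) (nat_lit 124) (nat_lit 5) (nat_lit 125) (nat_lit 5) (nat_lit 423) (nat_lit 394) (nat_lit 383))) (XT.nd (nat_lit 78) (nat_lit 76) (nat_lit 0) (XT.lf (nat_lit 0) (nat_lit 479724297) (nat_lit 304) (nat_lit 7095805075) (nat_lit 380) (nat_lit 690469960) (nat_lit 116) (nat_lit 5) (nat_lit 120) (nat_lit 5) (nat_lit 121) (nat_lit 4) (nat_lit 424) (nat_lit 394) (nat_lit 382)) (XT.lf (nat_lit 0) (nat_lit 2626867886) (nat_lit 380) (nat_lit 1570059280) (nat_lit 76) (nat_lit 4238850059) (nat_lit 115) (nat_lit 5) (nat_lit 120) (nat_lit 5) (nat_lit 116) (nat_lit 5) (nat_lit 425) (nat_lit 394) (nat_lit 381)))) (XT.nd (nat_lit 156) (nat_lit 228) (nat_lit 0) (XT.nd (nat_lit 78) (nat_lit 304) (nat_lit 0) (XT.lf (nat_lit 0) (nat_lit 4941530288) (nat_lit 304) (nat_lit 1100439969) (nat_lit 380) (nat_lit 2573768740) (nat_lit 111) (nat_lit 5) (nat_lit 115)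 (nat_lit 5) (nat_lit 116) (nat_lit 5) (nat_lit 426) (nat_lit 394) (nat_lit 380)) (XT.lf (nat_lit 0) (nat_lit 783450520) (nat_lit 304) (nat_lit 5893556111) (nat_lit 76) (nat_lit 2127730867) (nat_lit 107) (nat_lit 5) (nat_lit 111) (nat_lit 5) (nat_lit 108) (nat_lit 5) (nat_lit 427) (nat_lit 394) (nat_lit 379))) (XT.nd (nat_lit 78) (nat_lit 0) (nat_lit 0) (XT.lf (nat_lit 0) (nat_lit 749840927) (nat_lit 228) (nat_lit 3447047685) (nat_lit 304) (nat_lit 4805458854) (nat_lit 104) (nat_lit 5) (nat_lit 107) (nat_lit 5) (nat_lit 108) (nat_lit 5) (nat_lit 428) (nat_lit 394) (nat_lit 378)) (XT.lf (nat_lit 0) (nat_lit 7765753981) (nat_lit 304) (nat_lit 1444157490) (nat_lit 76) (nat_lit 701893) (nat_lit 104) (nat_lit 5) (nat_lit 108) (nat_lit 5) (nat_lit 105) (nat_lit 4) (nat_lit 429) (nat_lit 394) (nat_lit 377))))) (XT.nd (nat_lit 312) (nat_lit 684) (nat_lit 0) (XT.nd (nat_lit 156) (nat_lit 228) (nat_lit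 0) (XT.nd (nat_lit 78) (nat_lit 228) (nat_lit 0) (XT.lf (nat_lit 0) (nat_lit 2052343601) (nat_lit 304) (nat_lit 3791662019) (nat_lit 76) (nat_lit 3581908872) (nat_lit 100) (nat_lit 5) (nat_lit 104) (nat_lit 5) (nat_lit 101) (nat_lit 5) (nat_lit 430) (nat_lit 394) (nat_lit 376)) (XT.lf (nat_lit 0) (nat_lit 3388767803) (nat_lit 228) (nat_lit 2255553589) (nat_lit 304) (nat_lit 4008062806) (nat_lit 97) (nat_lit 5) (nat_lit 100) (nat_lit 5) (nat_lit 101) (nat_lit 5) (nat_lit 431) (nat_lit 394) (nat_lit 375))) (XT.nd (nat_lit 78) (nat_lit 76) (nat_lit 0) (XT.lf (nat_lit 0) (nat_lit 1017300742) (nat_lit 152) (nat_lit 8395967614) (nat_lit 228) (nat_lit 477051378) (nat_lit 95) (nat_lit 5) (nat_lit 97) (nat_lit 5) (nat_lit 98) (nat_lit 4) (nat_lit 432) (nat_lit 394) (nat_lit 374)) (XT.lf (nat_lit 0) (nat_lit 3165390920) (nat_lit 228) (nat_lit 1508658624) (nat_lit 76) (nat_lit 5461676645) (nat_lit 94) (nat_lit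 5) (nat_lit 97) (nat_lit 5) (nat_lit 95) (nat_lit 5) (nat_lit 433) (nat_lit 394) (nat_lit 373)))) (XT.nd (nat_lit 156) (nat_lit 228) (nat_lit 0) (XT.nd (nat_lit 78) (nat_lit 228) (nat_lit 0) (XT.lf (nat_lit 0) (nat_lit 6259902639) (nat_lit 228) (nat_lit 710311622) (nat_lit 304) (nat_lit 3422992510) (nat_lit 91) (nat_lit 5) (nat_lit 94) (nat_lit 5) (nat_lit 95) (nat_lit 5) (nat_lit 434) (nat_lit 394) (nat_lit 372)) (XT.lf (nat_lit 0) (nat_lit 330632169) (nat_lit 228) (nat_lit 6953604605) (nat_lit 76) (nat_lit 3377169002) (nat_lit 88) (nat_lit 5) (nat_lit 91) (nat_lit 5) (nat_lit 89) (nat_lit 5) (nat_lit 435) (nat_lit 394) (nat_lit 371))) (XT.nd (nat_lit 78) (nat_lit 0) (nat_lit 0) (XT.lf (nat_lit 0) (nat_lit 947500555) (nat_lit 228) (nat_lit 3207830127) (nat_lit 304) (nat_lit 6784965042) (nat_lit 85) (nat_lit 5) (nat_lit 88) (nat_lit 5) (nat_lit 89) (nat_lit 5) (nat_lit 436) (nat_lit 394) (nat_lit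 370)) (XT.lf (nat_lit 0) (nat_lit 8209897023) (nat_lit 304) (nat_lit 1921067346) (nat_lit 76) (nat_lit 1100241871) (nat_lit 85) (nat_lit 5) (nat_lit 89) (nat_lit 5) (nat_lit 86) (nat_lit 4) (nat_lit 437) (nat_lit 394) (nat_lit 369)))))) (XT.nd (nat_lit 624) (nat_lit 912) (nat_lit 0) (XT.nd (nat_lit 312) (nat_lit 532) (nat_lit 0) (XT.nd (nat_lit 156) (nat_lit 228) (nat_lit 0) (XT.nd (nat_lit 78) (nat_lit 152) (nat_lit 0) (XT.lf (nat_lit 0) (nat_lit 963598910) (nat_lit 228) (nat_lit 4990127346) (nat_lit 76) (nat_lit 5579074004) (nat_lit 82) (nat_lit 5) (nat_lit 85) (nat_lit 5) (nat_lit 83) (nat_lit 5) (nat_lit 438) (nat_lit 394) (nat_lit 368)) (XT.lf (nat_lit 0) (nat_lit 3559096385) (nat_lit 152) (nat_lit 1483201200) (nat_lit 228) (nat_lit 6804902532) (nat_lit 80) (nat_lit 5) (nat_lit 82) (nat_lit 5) (nat_lit 83) (nat_lit 5) (nat_lit 439) (nat_lit 394) (nat_lit 367))) (XT.nd (nat_lit 78) (nat_lit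 76) (nat_lit 0) (XT.lf (nat_lit 0) (nat_lit 341009514) (nat_lit 152) (nat_lit 9033831349) (nat_lit 228) (nat_lit 2799989970) (nat_lit 78) (nat_lit 5) (nat_lit 80) (nat_lit 5) (nat_lit 81) (nat_lit 4) (nat_lit 440) (nat_lit 394) (nat_lit 366)) (XT.lf (nat_lit 0) (nat_lit 1436243882) (nat_lit 228) (nat_lit 3025901838) (nat_lit 76) (nat_lit 8051803701) (nat_lit 77) (nat_lit 5) (nat_lit 80) (nat_lit 5) (nat_lit 78) (nat_lit 5) (nat_lit 441) (nat_lit 394) (nat_lit 365)))) (XT.nd (nat_lit 156) (nat_lit 228) (nat_lit 0) (XT.nd (nat_lit 78) (nat_lit 152) (nat_lit 0) (XT.lf (nat_lit 0) (nat_lit 5807510213) (nat_lit 228) (nat_lit 6645489600) (nat_lit 76) (nat_lit 413868595) (nat_lit 75) (nat_lit 5) (nat_lit 78) (nat_lit 5) (nat_lit 76) (nat_lit 4) (nat_lit 442) (nat_lit 394) (nat_lit 364)) (XT.lf (nat_lit 0) (nat_lit 2664089372) (nat_lit 152) (nat_lit 7814396623) (nat_lit 228) (nat_lit 2754895266) (nat_lit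 73) (nat_lit 5) (nat_lit 75) (nat_lit 5) (nat_lit 76) (nat_lit 4) (nat_lit 443) (nat_lit 394) (nat_lit 363))) (XT.nd (nat_lit 78) (nat_lit 152) (nat_lit 0) (XT.lf (nat_lit 0) (nat_lit 1737433906) (nat_lit 228) (nat_lit 1120950606) (nat_lit 76) (nat_lit 10757005944) (nat_lit 72) (nat_lit 5) (nat_lit 75) (nat_lit 5) (nat_lit 73) (nat_lit 5) (nat_lit 444) (nat_lit 394) (nat_lit 362)) (XT.lf (nat_lit 0) (nat_lit 6458204130) (nat_lit 228) (nat_lit 5152361445) (nat_lit 76) (nat_lit 2398860582) (nat_lit 70) (nat_lit 5) (nat_lit 73) (nat_lit 5) (nat_lit 71) (nat_lit 4) (nat_lit 445) (nat_lit 394) (nat_lit 361))))) (XT.nd (nat_lit 312) (nat_lit 532) (nat_lit 0) (XT.nd (nat_lit 156) (nat_lit 76) (nat_lit 0) (XT.nd (nat_lit 78) (nat_lit 228) (nat_lit 0) (XT.lf (nat_lit 0) (nat_lit 4918439365) (nat_lit 76) (nat_lit 6559069637) (nat_lit 152) (nat_lit 2942534130) (nat_lit 69) (nat_lit 5) (nat_lit 70) (nat_lit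 5) (nat_lit 71) (nat_lit 4) (nat_lit 446) (nat_lit 394) (nat_lit 360)) (XT.lf (nat_lit 0) (nat_lit 672463220) (nat_lit 152) (nat_lit 1182507347) (nat_lit 228) (nat_lit 12993789478) (nat_lit 66) (nat_lit 5) (nat_lit 68) (nat_lit 5) (nat_lit 69) (nat_lit 5) (nat_lit 447) (nat_lit 394) (nat_lit 359))) (XT.nd (nat_lit 78) (nat_lit 76) (nat_lit 0) (XT.lf (nat_lit 0) (nat_lit 6947241332) (nat_lit 228) (nat_lit 3869817246) (nat_lit 76) (nat_lit 4471757063) (nat_lit 66) (nat_lit 5) (nat_lit 69) (nat_lit 5) (nat_lit 67) (nat_lit 4) (nat_lit 448) (nat_lit 394) (nat_lit 358)) (XT.lf (nat_lit 0) (nat_lit 7020634992) (nat_lit 76) (nat_lit 5326820143) (nat_lit 152) (nat_lit 3400755942) (nat_lit 65) (nat_lit 5) (nat_lit 66) (nat_lit 5) (nat_lit 67) (nat_lit 4) (nat_lit 449) (nat_lit 394) (nat_lit 357)))) (XT.nd (nat_lit 156) (nat_lit 304) (nat_lit 0) (XT.nd (nat_lit 78) (nat_lit 0) (nat_lit 0) (XT.lf (nat_lit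 0) (nat_lit 1764570780) (nat_lit 228) (nat_lit 13966499737) (nat_lit 76) (nat_lit 496380594) (nat_lit 62) (nat_lit 5) (nat_lit 65) (nat_lit 5) (nat_lit 63) (nat_lit 4) (nat_lit 450) (nat_lit 394) (nat_lit 356)) (XT.lf (nat_lit 0) (nat_lit 7236582627) (nat_lit 228) (nat_lit 2904354175) (nat_lit 76) (nat_lit 6578796570) (nat_lit 62) (nat_lit 5) (nat_lit 65) (nat_lit 5) (nat_lit 63) (nat_lit 4) (nat_lit 451) (nat_lit 394) (nat_lit 355))) (XT.nd (nat_lit 78) (nat_lit 228) (nat_lit 0) (XT.lf (nat_lit 0) (nat_lit 8863637863) (nat_lit 76) (nat_lit 4185660379) (nat_lit 152) (nat_lit 4183979252) (nat_lit 61) (nat_lit 5) (nat_lit 62) (nat_lit 5) (nat_lit 63) (nat_lit 4) (nat_lit 452) (nat_lit 394) (nat_lit 354)) (XT.lf (nat_lit 0) (nat_lit 1403126025) (nat_lit 228) (nat_lit 14293541477) (nat_lit 76) (nat_lit 2071399126) (nat_lit 58) (nat_lit 5) (nat_lit 61) (nat_lit 5) (nat_lit 59) (nat_lit 4) (nat_lit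 453) (nat_lit 394) (nat_lit 353))))))))
noncomputable def xc80 : XT := (XT.nd (nat_lit 2418) (nat_lit 1444) (nat_lit 0) (XT.nd (nat_lit 1170) (nat_lit 1064) (nat_lit 0) (XT.nd (nat_lit 546) (nat_lit 532) (nat_lit 0) (XT.nd (nat_lit 234) (nat_lit 228) (nat_lit 0) (XT.nd (nat_lit 78) (nat_lit 304) (nat_lit 0) (XT.lf (nat_lit 0) (nat_lit 7271054316) (nat_lit 228) (nat_lit 2392201212) (nat_lit 76) (nat_lit 8655808867) (nat_lit 58) (nat_lit 5) (nat_lit 61) (nat_lit 5) (nat_lit 59) (nat_lit 4) (nat_lit 454) (nat_lit 394) (nat_lit 352)) (XT.nd (nat_lit 78) (nat_lit 228) (nat_lit 0) (XT.lf (nat_lit 0) (nat_lit 10308784429) (nat_lit 76) (nat_lit 3217297833) (nat_lit 152) (nat_lit 5366847019) (nat_lit 57) (nat_lit 5) (nat_lit 58) (nat_lit 5) (nat_lit 59) (nat_lit 4) (nat_lit 455) (nat_lit 394) (nat_lit 351)) (XT.lf (nat_lit 0) (nat_lit 675895832) (nat_lit 228) (nat_lit 15315084807) (nat_lit 76) (nat_lit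 3499208160) (nat_lit 54) (nat_lit 5) (nat_lit 57) (nat_lit 5) (nat_lit 55) (nat_lit 4) (nat_lit 456) (nat_lit 394) (nat_lit 350)))) (XT.nd (nat_lit 156) (nat_lit 152) (nat_lit 0) (XT.nd (nat_lit 78) (nat_lit 76) (nat_lit 0) (XT.lf (nat_lit 0) (nat_lit 6974226570) (nat_lit 228) (nat_lit 2508740913) (nat_lit 76) (nat_lit 10623256221) (nat_lit 54) (nat_lit 5) (nat_lit 57) (nat_lit 5) (nat_lit 55) (nat_lit 4) (nat_lit 457) (nat_lit 394) (nat_lit 349)) (XT.lf (nat_lit 0) (nat_lit 11175679377) (nat_lit 76) (nat_lit 2522763418) (nat_lit 152) (nat_lit 7049071082) (nat_lit 53) (nat_lit 5) (nat_lit 54) (nat_lit 5) (nat_lit 55) (nat_lit 4) (nat_lit 458) (nat_lit 394) (nat_lit 348))) (XT.nd (nat_lit 78) (nat_lit 76) (nat_lit 0) (XT.lf (nat_lit 0) (nat_lit 4149836827) (nat_lit 76) (nat_lit 16728519546) (nat_lit 76) (nat_lit 536539733) (nat_lit 52) (nat_lit 4) (nat_lit 53) (nat_lit 5) (nat_lit 53) (nat_lit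 4) (nat_lit 459) (nat_lit 394) (nat_lit 347)) (XT.lf (nat_lit 0) (nat_lit 6242987042) (nat_lit 152) (nat_lit 3480432746) (nat_lit 76) (nat_lit 12380157063) (nat_lit 51) (nat_lit 5) (nat_lit 53) (nat_lit 5) (nat_lit 52) (nat_lit 4) (nat_lit 460) (nat_lit 394) (nat_lit 346))))) (XT.nd (nat_lit 312) (nat_lit 228) (nat_lit 0) (XT.nd (nat_lit 156) (nat_lit 152) (nat_lit 0) (XT.nd (nat_lit 78) (nat_lit 76) (nat_lit 0) (XT.lf (nat_lit 0) (nat_lit 11229378133) (nat_lit 76) (nat_lit 2229347722) (nat_lit 152) (nat_lit 9361764264) (nat_lit 50) (nat_lit 5) (nat_lit 51) (nat_lit 5) (nat_lit 52) (nat_lit 4) (nat_lit 461) (nat_lit 394) (nat_lit 345)) (XT.lf (nat_lit 0) (nat_lit 3121173261) (nat_lit 76) (nat_lit 18050967481) (nat_lit 76) (nat_lit 2394265394) (nat_lit 49) (nat_lit 4) (nat_lit 50) (nat_lit 5) (nat_lit 50) (nat_lit 4) (nat_lit 462) (nat_lit 394) (nat_lit 344))) (XT.nd (nat_lit 78) (nat_lit 76)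 (nat_lit 0) (XT.lf (nat_lit 0) (nat_lit 4940472785) (nat_lit 152) (nat_lit 5599959472) (nat_lit 76) (nat_lit 13796525762) (nat_lit 48) (nat_lit 5) (nat_lit 50) (nat_lit 5) (nat_lit 49) (nat_lit 4) (nat_lit 463) (nat_lit 394) (nat_lit 343)) (XT.lf (nat_lit 0) (nat_lit 10164077747) (nat_lit 76) (nat_lit 2499259463) (nat_lit 152) (nat_lit 12475646489) (nat_lit 47) (nat_lit 5) (nat_lit 48) (nat_lit 5) (nat_lit 49) (nat_lit 4) (nat_lit 464) (nat_lit 394) (nat_lit 342)))) (XT.nd (nat_lit 156) (nat_lit 76) (nat_lit 0) (XT.nd (nat_lit 78) (nat_lit 76) (nat_lit 0) (XT.lf (nat_lit 0) (nat_lit 754377236) (nat_lit 76) (nat_lit 20162314929) (nat_lit 76) (nat_lit 5057202400) (nat_lit 46) (nat_lit 4) (nat_lit 47) (nat_lit 5) (nat_lit 47) (nat_lit 4) (nat_lit 465) (nat_lit 394) (nat_lit 341)) (XT.lf (nat_lit 0) (nat_lit 2886925660) (nat_lit 152) (nat_lit 9245513220) (nat_lit 76) (nat_lit 14703870006) (nat_lit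 45) (nat_lit 5) (nat_lit 47) (nat_lit 5) (nat_lit 46) (nat_lit 4) (nat_lit 466) (nat_lit 394) (nat_lit 340))) (XT.nd (nat_lit 78) (nat_lit 0) (nat_lit 0) (XT.lf (nat_lit 0) (nat_lit 7582323644) (nat_lit 76) (nat_lit 3540526292) (nat_lit 152) (nat_lit 16611622586) (nat_lit 44) (nat_lit 5) (nat_lit 45) (nat_lit 5) (nat_lit 46) (nat_lit 4) (nat_lit 467) (nat_lit 394) (nat_lit 339)) (XT.lf (nat_lit 0) (nat_lit 19961626013) (nat_lit 152) (nat_lit 3290139727) (nat_lit 0) (nat_lit 5416226864) (nat_lit 44) (nat_lit 5) (nat_lit 46) (nat_lit 4) (nat_lit 44) (nat_lit 4) (nat_lit 468) (nat_lit 394) (nat_lit 338)))))) (XT.nd (nat_lit 624) (nat_lit 532) (nat_lit 0) (XT.nd (nat_lit 312) (nat_lit 228) (nat_lit 0) (XT.nd (nat_lit 156) (nat_lit 76) (nat_lit 0) (XT.nd (nat_lit 78) (nat_lit 152) (nat_lit 0) (XT.lf (nat_lit 0) (nat_lit 14728504384) (nat_lit 76) (nat_lit 14750724507) (nat_lit 76) (nat_lit 157116394)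 (nat_lit 43) (nat_lit 4) (nat_lit 44) (nat_lit 5) (nat_lit 44) (nat_lit 4) (nat_lit 469) (nat_lit 394) (nat_lit 337)) (XT.lf (nat_lit 0) (nat_lit 2968468528) (nat_lit 76) (nat_lit 5620794856) (nat_lit 152) (nat_lit 22054370725) (nat_lit 41) (nat_lit 5) (nat_lit 42) (nat_lit 5) (nat_lit 43) (nat_lit 4) (nat_lit 470) (nat_lit 394) (nat_lit 336))) (XT.nd (nat_lit 78) (nat_lit 76) (nat_lit 0) (XT.lf (nat_lit 0) (nat_lit 18035320028) (nat_lit 152) (nat_lit 9601183551) (nat_lit 0) (nat_lit 4051273970) (nat_lit 41) (nat_lit 5) (nat_lit 43) (nat_lit 4) (nat_lit 41) (nat_lit 4) (nat_lit 471) (nat_lit 394) (nat_lit 335)) (XT.lf (nat_lit 0) (nat_lit 9492899193) (nat_lit 76) (nat_lit 18652671460) (nat_lit 76) (nat_lit 4628963769) (nat_lit 40) (nat_lit 4) (nat_lit 41) (nat_lit 5) (nat_lit 41) (nat_lit 4) (nat_lit 472) (nat_lit 394) (nat_lit 334)))) (XT.nd (nat_lit 156) (nat_lit 76) (nat_lit 0) (XT.nd (nat_lit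 78) (nat_lit 76) (nat_lit 0) (XT.lf (nat_lit 0) (nat_lit 4807477048) (nat_lit 152) (nat_lit 4206152724) (nat_lit 76) (nat_lit 24892374096) (nat_lit 39) (nat_lit 5) (nat_lit 41) (nat_lit 5) (nat_lit 40) (nat_lit 4) (nat_lit 473) (nat_lit 394) (nat_lit 333)) (XT.lf (nat_lit 0) (nat_lit 14788577506) (nat_lit 152) (nat_lit 18927825759) (nat_lit 0) (nat_lit 1362429939) (nat_lit 38) (nat_lit 5) (nat_lit 40) (nat_lit 4) (nat_lit 38) (nat_lit 4) (nat_lit 474) (nat_lit 394) (nat_lit 332))) (XT.nd (nat_lit 78) (nat_lit 0) (nat_lit 0) (XT.lf (nat_lit 0) (nat_lit 1162668821) (nat_lit 76) (nat_lit 24298398224) (nat_lit 76) (nat_lit 10839620933) (nat_lit 37) (nat_lit 4) (nat_lit 38) (nat_lit 5) (nat_lit 38) (nat_lit 4) (nat_lit 475) (nat_lit 394) (nat_lit 331)) (XT.lf (nat_lit 0) (nat_lit 22825362937) (nat_lit 76) (nat_lit 14117179179) (nat_lit 76) (nat_lit 627325961) (nat_lit 37) (nat_lit 4) (nat_lit 38)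 (nat_lit 5) (nat_lit 38) (nat_lit 4) (nat_lit 476) (nat_lit 394) (nat_lit 330))))) (XT.nd (nat_lit 312) (nat_lit 228) (nat_lit 0) (XT.nd (nat_lit 156) (nat_lit 152) (nat_lit 0) (XT.nd (nat_lit 78) (nat_lit 0) (nat_lit 0) (XT.lf (nat_lit 0) (nat_lit 6636840857) (nat_lit 76) (nat_lit 3195495823) (nat_lit 152) (nat_lit 29059296333) (nat_lit 35) (nat_lit 5) (nat_lit 36) (nat_lit 5) (nat_lit 37) (nat_lit 4) (nat_lit 477) (nat_lit 394) (nat_lit 329)) (XT.lf (nat_lit 0) (nat_lit 21133199831) (nat_lit 152) (nat_lit 10898118497) (nat_lit 0) (nat_lit 8230689239) (nat_lit 35) (nat_lit 5) (nat_lit 37) (nat_lit 4) (nat_lit 35) (nat_lit 4) (nat_lit 478) (nat_lit 394) (nat_lit 328))) (XT.nd (nat_lit 78) (nat_lit 76) (nat_lit 0) (XT.lf (nat_lit 0) (nat_lit 11768048285) (nat_lit 76) (nat_lit 21425601374) (nat_lit 76) (nat_lit 8497524540) (nat_lit 34) (nat_lit 4) (nat_lit 35) (nat_lit 5) (nat_lit 35) (nat_lit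 4) (nat_lit 479) (nat_lit 394) (nat_lit 327)) (XT.lf (nat_lit 0) (nat_lit 2726072955) (nat_lit 152) (nat_lit 7363976078) (nat_lit 76) (nat_lit 33092367094) (nat_lit 33) (nat_lit 5) (nat_lit 35) (nat_lit 5) (nat_lit 34) (nat_lit 4) (nat_lit 480) (nat_lit 394) (nat_lit 326)))) (XT.nd (nat_lit 156) (nat_lit 152) (nat_lit 0) (XT.nd (nat_lit 78) (nat_lit 0) (nat_lit 0) (XT.lf (nat_lit 0) (nat_lit 14479707504) (nat_lit 152) (nat_lit 28126847473) (nat_lit 0) (nat_lit 2121978959) (nat_lit 32) (nat_lit 5) (nat_lit 34) (nat_lit 4) (nat_lit 32) (nat_lit 4) (nat_lit 481) (nat_lit 394) (nat_lit 325)) (XT.lf (nat_lit 0) (nat_lit 27073708172) (nat_lit 152) (nat_lit 4570669461) (nat_lit 0) (nat_lit 14694946217) (nat_lit 32) (nat_lit 5) (nat_lit 34) (nat_lit 4) (nat_lit 32) (nat_lit 4) (nat_lit 482) (nat_lit 394) (nat_lit 324))) (XT.nd (nat_lit 78) (nat_lit 76) (nat_lit 0) (XT.lf (nat_lit 0) (nat_lit 20752493416)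 (nat_lit 76) (nat_lit 19831316978) (nat_lit 76) (nat_lit 7432523203) (nat_lit 31) (nat_lit 4) (nat_lit 32) (nat_lit 5) (nat_lit 32) (nat_lit 4) (nat_lit 483) (nat_lit 394) (nat_lit 323)) (XT.lf (nat_lit 0) (nat_lit 4873545621) (nat_lit 152) (nat_lit 2427103174) (nat_lit 76) (nat_lit 42470593077) (nat_lit 30) (nat_lit 5) (nat_lit 32) (nat_lit 5) (nat_lit 31) (nat_lit 4) (nat_lit 484) (nat_lit 394) (nat_lit 322))))))) (XT.nd (nat_lit 1170) (nat_lit 684) (nat_lit 0) (XT.nd (nat_lit 546) (nat_lit 380) (nat_lit 0) (XT.nd (nat_lit 234) (nat_lit 228) (nat_lit 0) (XT.nd (nat_lit 78) (nat_lit 76) (nat_lit 0) (XT.lf (nat_lit 0) (nat_lit 17986790816) (nat_lit 152) (nat_lit 27455988046) (nat_lit 0) (nat_lit 6142942102) (nat_lit 29) (nat_lit 5) (nat_lit 31) (nat_lit 4) (nat_lit 29) (nat_lit 4) (nat_lit 485) (nat_lit 394) (nat_lit 321)) (XT.nd (nat_lit 78) (nat_lit 76) (nat_lit 0) (XT.lf (nat_lit 0) (nat_lit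 31881433535) (nat_lit 152) (nat_lit 1582099458) (nat_lit 0) (nat_lit 20021104593) (nat_lit 29) (nat_lit 5) (nat_lit 31) (nat_lit 4) (nat_lit 29) (nat_lit 4) (nat_lit 486) (nat_lit 394) (nat_lit 320)) (XT.lf (nat_lit 0) (nat_lit 26361060791) (nat_lit 76) (nat_lit 20487293342) (nat_lit 76) (nat_lit 8611268945) (nat_lit 28) (nat_lit 4) (nat_lit 29) (nat_lit 5) (nat_lit 29) (nat_lit 4) (nat_lit 487) (nat_lit 394) (nat_lit 319)))) (XT.nd (nat_lit 156) (nat_lit 76) (nat_lit 0) (XT.nd (nat_lit 78) (nat_lit 76) (nat_lit 0) (XT.lf (nat_lit 0) (nat_lit 4862496470) (nat_lit 152) (nat_lit 1922854685) (nat_lit 76) (nat_lit 50744418487) (nat_lit 27) (nat_lit 5) (nat_lit 29) (nat_lit 5) (nat_lit 28) (nat_lit 4) (nat_lit 488) (nat_lit 394) (nat_lit 318)) (XT.lf (nat_lit 0) (nat_lit 19241542298) (nat_lit 152) (nat_lit 32525525430) (nat_lit 0) (nat_lit 7903248307) (nat_lit 26) (nat_lit 5) (nat_lit 28) (nat_lit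 4) (nat_lit 26) (nat_lit 4) (nat_lit 489) (nat_lit 394) (nat_lit 317))) (XT.nd (nat_lit 78) (nat_lit 76) (nat_lit 0) (XT.lf (nat_lit 0) (nat_lit 34451538024) (nat_lit 152) (nat_lit 4360420766) (nat_lit 0) (nat_lit 23100331344) (nat_lit 26) (nat_lit 5) (nat_lit 28) (nat_lit 4) (nat_lit 26) (nat_lit 4) (nat_lit 490) (nat_lit 394) (nat_lit 316)) (XT.lf (nat_lit 0) (nat_lit 25982675127) (nat_lit 76) (nat_lit 24814224616) (nat_lit 76) (nat_lit 13450720137) (nat_lit 25) (nat_lit 4) (nat_lit 26) (nat_lit 5) (nat_lit 26) (nat_lit 4) (nat_lit 491) (nat_lit 394) (nat_lit 315))))) (XT.nd (nat_lit 312) (nat_lit 152) (nat_lit 0) (XT.nd (nat_lit 156) (nat_lit 76) (nat_lit 0) (XT.nd (nat_lit 78) (nat_lit 76) (nat_lit 0) (XT.lf (nat_lit 0) (nat_lit 1263771234) (nat_lit 152) (nat_lit 8784485638) (nat_lit 76) (nat_lit 56648262025) (nat_lit 24) (nat_lit 5) (nat_lit 26) (nat_lit 5) (nat_lit 25) (nat_lit 4) (nat_lit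 492) (nat_lit 394) (nat_lit 314)) (XT.lf (nat_lit 0) (nat_lit 16679840804) (nat_lit 152) (nat_lit 46720424983) (nat_lit 0) (nat_lit 5835677817) (nat_lit 23) (nat_lit 5) (nat_lit 25) (nat_lit 4) (nat_lit 23) (nat_lit 4) (nat_lit 493) (nat_lit 394) (nat_lit 313))) (XT.nd (nat_lit 78) (nat_lit 76) (nat_lit 0) (XT.lf (nat_lit 0) (nat_lit 33153371419) (nat_lit 152) (nat_lit 16435544456) (nat_lit 0) (nat_lit 22299091001) (nat_lit 23) (nat_lit 5) (nat_lit 25) (nat_lit 4) (nat_lit 23) (nat_lit 4) (nat_lit 494) (nat_lit 394) (nat_lit 312)) (XT.lf (nat_lit 0) (nat_lit 15813541103) (nat_lit 76) (nat_lit 34856048949) (nat_lit 76) (nat_lit 23992132884) (nat_lit 22) (nat_lit 4) (nat_lit 23) (nat_lit 5) (nat_lit 23) (nat_lit 4) (nat_lit 495) (nat_lit 394) (nat_lit 311)))) (XT.nd (nat_lit 156) (nat_lit 0) (nat_lit 0) (XT.nd (nat_lit 78) (nat_lit 152) (nat_lit 0) (XT.lf (nat_lit 0) (nat_lit 50190420851) (nat_lit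 76) (nat_lit 19122125341) (nat_lit 76) (nat_lit 8249032468) (nat_lit 22) (nat_lit 4) (nat_lit 23) (nat_lit 5) (nat_lit 23) (nat_lit 4) (nat_lit 496) (nat_lit 394) (nat_lit 310)) (XT.lf (nat_lit 0) (nat_lit 5678665978) (nat_lit 76) (nat_lit 2399626054) (nat_lit 152) (nat_lit 72518564658) (nat_lit 20) (nat_lit 5) (nat_lit 21) (nat_lit 5) (nat_lit 22) (nat_lit 4) (nat_lit 497) (nat_lit 394) (nat_lit 309))) (XT.nd (nat_lit 78) (nat_lit 0) (nat_lit 0) (XT.lf (nat_lit 0) (nat_lit 25626065836) (nat_lit 152) (nat_lit 42862517832) (nat_lit 0) (nat_lit 15254488384) (nat_lit 20) (nat_lit 5) (nat_lit 22) (nat_lit 4) (nat_lit 20) (nat_lit 4) (nat_lit 498) (nat_lit 394) (nat_lit 308)) (XT.lf (nat_lit 0) (nat_lit 44065316303) (nat_lit 152) (nat_lit 9294388566) (nat_lit 0) (nat_lit 33686189068) (nat_lit 20) (nat_lit 5) (nat_lit 22) (nat_lit 4) (nat_lit 20) (nat_lit 4) (nat_lit 499) (nat_lit 394) (nat_lit 307))))))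 (XT.nd (nat_lit 624) (nat_lit 380) (nat_lit 0) (XT.nd (nat_lit 312) (nat_lit 76) (nat_lit 0) (XT.nd (nat_lit 156) (nat_lit 152) (nat_lit 0) (XT.nd (nat_lit 78) (nat_lit 0) (nat_lit 0) (XT.lf (nat_lit 0) (nat_lit 26760075628) (nat_lit 76) (nat_lit 37060205670) (nat_lit 76) (nat_lit 26673888167) (nat_lit 19) (nat_lit 4) (nat_lit 20) (nat_lit 5) (nat_lit 20) (nat_lit 4) (nat_lit 500) (nat_lit 394) (nat_lit 306)) (XT.lf (nat_lit 0) (nat_lit 64892165385) (nat_lit 76) (nat_lit 19804585542) (nat_lit 76) (nat_lit 9411420164) (nat_lit 19) (nat_lit 4) (nat_lit 20) (nat_lit 5) (nat_lit 20) (nat_lit 4) (nat_lit 501) (nat_lit 394) (nat_lit 305))) (XT.nd (nat_lit 78) (nat_lit 0) (nat_lit 0) (XT.lf (nat_lit 0) (nat_lit 7072023378) (nat_lit 76) (nat_lit 1450762251) (nat_lit 152) (nat_lit 89368908552) (nat_lit 17) (nat_lit 5) (nat_lit 18) (nat_lit 5) (nat_lit 19) (nat_lit 4) (nat_lit 502) (nat_lit 394) (nat_lit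 304)) (XT.lf (nat_lit 0) (nat_lit 27795675192) (nat_lit 152) (nat_lit 56137795357) (nat_lit 0) (nat_lit 17885295774) (nat_lit 17) (nat_lit 5) (nat_lit 19) (nat_lit 4) (nat_lit 17) (nat_lit 4) (nat_lit 503) (nat_lit 394) (nat_lit 303)))) (XT.nd (nat_lit 156) (nat_lit 0) (nat_lit 0) (XT.nd (nat_lit 78) (nat_lit 76) (nat_lit 0) (XT.lf (nat_lit 0) (nat_lit 48034209900) (nat_lit 152) (nat_lit 19789685535) (nat_lit 0) (nat_lit 38118196719) (nat_lit 17) (nat_lit 5) (nat_lit 19) (nat_lit 4) (nat_lit 17) (nat_lit 4) (nat_lit 504) (nat_lit 394) (nat_lit 302)) (XT.lf (nat_lit 0) (nat_lit 18940052198) (nat_lit 76) (nat_lit 50619581375) (nat_lit 76) (nat_lit 40698202705) (nat_lit 16) (nat_lit 4) (nat_lit 17) (nat_lit 5) (nat_lit 17) (nat_lit 4) (nat_lit 505) (nat_lit 394) (nat_lit 301))) (XT.nd (nat_lit 78) (nat_lit 0) (nat_lit 0) (XT.lf (nat_lit 0) (nat_lit 60252029538) (nat_lit 76) (nat_lit 32224044770)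 (nat_lit 76) (nat_lit 22297556109) (nat_lit 16) (nat_lit 4) (nat_lit 17) (nat_lit 5) (nat_lit 17) (nat_lit 4) (nat_lit 506) (nat_lit 394) (nat_lit 300)) (XT.lf (nat_lit 0) (nat_lit 103590271959) (nat_lit 76) (nat_lit 12928634624) (nat_lit 76) (nat_lit 2997279306) (nat_lit 16) (nat_lit 4) (nat_lit 17) (nat_lit 5) (nat_lit 17) (nat_lit 4) (nat_lit 507) (nat_lit 394) (nat_lit 299))))) (XT.nd (nat_lit 312) (nat_lit 152) (nat_lit 0) (XT.nd (nat_lit 156) (nat_lit 76) (nat_lit 0) (XT.nd (nat_lit 78) (nat_lit 0) (nat_lit 0) (XT.lf (nat_lit 0) (nat_lit 17213330624) (nat_lit 152) (nat_lit 99493675539) (nat_lit 0) (nat_lit 7750482787) (nat_lit 14) (nat_lit 5) (nat_lit 16) (nat_lit 4) (nat_lit 14) (nat_lit 4) (nat_lit 508) (nat_lit 394) (nat_lit 298)) (XT.lf (nat_lit 0) (nat_lit 38801028015) (nat_lit 152) (nat_lit 61485032009) (nat_lit 0) (nat_lit 29333976177) (nat_lit 14) (nat_lit 5) (nat_lit 16) (nat_lit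 4) (nat_lit 14) (nat_lit 4) (nat_lit 509) (nat_lit 394) (nat_lit 297))) (XT.nd (nat_lit 78) (nat_lit 76) (nat_lit 0) (XT.lf (nat_lit 0) (nat_lit 61450211029) (nat_lit 152) (nat_lit 21612239454) (nat_lit 0) (nat_lit 51979155380) (nat_lit 14) (nat_lit 5) (nat_lit 16) (nat_lit 4) (nat_lit 14) (nat_lit 4) (nat_lit 510) (nat_lit 394) (nat_lit 296)) (XT.lf (nat_lit 0) (nat_lit 20888189872) (nat_lit 76) (nat_lit 64652739600) (nat_lit 76) (nat_lit 55177870799) (nat_lit 13) (nat_lit 4) (nat_lit 14) (nat_lit 5) (nat_lit 14) (nat_lit 4) (nat_lit 511) (nat_lit 394) (nat_lit 295)))) (XT.nd (nat_lit 156) (nat_lit 152) (nat_lit 0) (XT.nd (nat_lit 78) (nat_lit 0) (nat_lit 0) (XT.lf (nat_lit 0) (nat_lit 66229970780) (nat_lit 76) (nat_lit 44955460841) (nat_lit 76) (nat_lit 35476960465) (nat_lit 13) (nat_lit 4) (nat_lit 14) (nat_lit 5) (nat_lit 14) (nat_lit 4) (nat_lit 512) (nat_lit 394) (nat_lit 294)) (XT.lf (nat_lit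 0) (nat_lit 113806461651) (nat_lit 76) (nat_lit 24289729654) (nat_lit 76) (nat_lit 14807770636) (nat_lit 13) (nat_lit 4) (nat_lit 14) (nat_lit 5) (nat_lit 14) (nat_lit 4) (nat_lit 513) (nat_lit 394) (nat_lit 293))) (XT.nd (nat_lit 78) (nat_lit 0) (nat_lit 0) (XT.lf (nat_lit 0) (nat_lit 4302889379) (nat_lit 76) (nat_lit 2423033714) (nat_lit 152) (nat_lit 152723718662) (nat_lit 11) (nat_lit 5) (nat_lit 12) (nat_lit 5) (nat_lit 13) (nat_lit 4) (nat_lit 514) (nat_lit 394) (nat_lit 292)) (XT.lf (nat_lit 0) (nat_lit 29816846870) (nat_lit 152) (nat_lit 115664427143) (nat_lit 0) (nat_lit 20780284914) (nat_lit 11) (nat_lit 5) (nat_lit 13) (nat_lit 4) (nat_lit 11) (nat_lit 4) (nat_lit 515) (nat_lit 394) (nat_lit 291))))))))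
noncomputable def xc81 : XT := (XT.nd (nat_lit 2418) (nat_lit 0) (nat_lit 0) (XT.nd (nat_lit 1170) (nat_lit 228) (nat_lit 0) (XT.nd (nat_lit 546) (nat_lit 76) (nat_lit 0) (XT.nd (nat_lit 234) (nat_lit 152) (nat_lit 0) (XT.nd (nat_lit 78) (nat_lit 76) (nat_lit 0) (XT.lf (nat_lit 0) (nat_lit 54087327953) (nat_lit 152) (nat_lit 74277572944) (nat_lit 0) (nat_lit 45047920564) (nat_lit 11) (nat_lit 5) (nat_lit 13) (nat_lit 4) (nat_lit 11) (nat_lit 4) (nat_lit 516) (nat_lit 394) (nat_lit 290)) (XT.nd (nat_lit 78) (nat_lit 76) (nat_lit 0) (XT.lf (nat_lit 0) (nat_lit 79557322855) (nat_lit 152) (nat_lit 30849819303) (nat_lit 0) (nat_lit 70515205529) (nat_lit 11) (nat_lit 5) (nat_lit 13) (nat_lit 4) (nat_lit 11) (nat_lit 4) (nat_lit 517) (nat_lit 394) (nat_lit 289)) (XT.lf (nat_lit 0) (nat_lit 15209016708) (nat_lit 76) (nat_lit 91315913088) (nat_lit 76) (nat_lit 82271214870) (nat_lit 10) (nat_lit 4) (nat_lit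 11) (nat_lit 5) (nat_lit 11) (nat_lit 4) (nat_lit 518) (nat_lit 394) (nat_lit 288)))) (XT.nd (nat_lit 156) (nat_lit 152) (nat_lit 0) (XT.nd (nat_lit 78) (nat_lit 0) (nat_lit 0) (XT.lf (nat_lit 0) (nat_lit 64615178675) (nat_lit 76) (nat_lit 70735071219) (nat_lit 76) (nat_lit 61687915008) (nat_lit 10) (nat_lit 4) (nat_lit 11) (nat_lit 5) (nat_lit 11) (nat_lit 4) (nat_lit 519) (nat_lit 394) (nat_lit 287)) (XT.lf (nat_lit 0) (nat_lit 116466265969) (nat_lit 76) (nat_lit 49138071165) (nat_lit 76) (nat_lit 40088574009) (nat_lit 10) (nat_lit 4) (nat_lit 11) (nat_lit 5) (nat_lit 11) (nat_lit 4) (nat_lit 520) (nat_lit 394) (nat_lit 286))) (XT.nd (nat_lit 78) (nat_lit 152) (nat_lit 0) (XT.lf (nat_lit 0) (nat_lit 170885733558) (nat_lit 76) (nat_lit 26473491497) (nat_lit 76) (nat_lit 17421764869) (nat_lit 10) (nat_lit 4) (nat_lit 11) (nat_lit 5) (nat_lit 11) (nat_lit 4) (nat_lit 521) (nat_lit 394) (nat_lit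 285)) (XT.lf (nat_lit 0) (nat_lit 3698074955) (nat_lit 76) (nat_lit 2522376209) (nat_lit 152) (nat_lit 218095731570) (nat_lit 8) (nat_lit 5) (nat_lit 9) (nat_lit 5) (nat_lit 10) (nat_lit 4) (nat_lit 522) (nat_lit 394) (nat_lit 284))))) (XT.nd (nat_lit 312) (nat_lit 76) (nat_lit 0) (XT.nd (nat_lit 156) (nat_lit 0) (nat_lit 0) (XT.nd (nat_lit 78) (nat_lit 0) (nat_lit 0) (XT.lf (nat_lit 0) (nat_lit 31556610323) (nat_lit 152) (nat_lit 179770408675) (nat_lit 0) (nat_lit 22931970199) (nat_lit 8) (nat_lit 5) (nat_lit 10) (nat_lit 4) (nat_lit 8) (nat_lit 4) (nat_lit 523) (nat_lit 394) (nat_lit 283)) (XT.lf (nat_lit 0) (nat_lit 58189960158) (nat_lit 152) (nat_lit 136943970884) (nat_lit 0) (nat_lit 49563485842) (nat_lit 8) (nat_lit 5) (nat_lit 10) (nat_lit 4) (nat_lit 8) (nat_lit 4) (nat_lit 524) (nat_lit 394) (nat_lit 282))) (XT.nd (nat_lit 78) (nat_lit 0) (nat_lit 0) (XT.lf (nat_lit 0) (nat_lit 86144532047)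 (nat_lit 152) (nat_lit 91997445336) (nat_lit 0) (nat_lit 77516310882) (nat_lit 8) (nat_lit 5) (nat_lit 10) (nat_lit 4) (nat_lit 8) (nat_lit 4) (nat_lit 525) (nat_lit 394) (nat_lit 281)) (XT.lf (nat_lit 0) (nat_lit 115486884493) (nat_lit 152) (nat_lit 44823816495) (nat_lit 0) (nat_lit 106856999662) (nat_lit 8) (nat_lit 5) (nat_lit 10) (nat_lit 4) (nat_lit 8) (nat_lit 4) (nat_lit 526) (nat_lit 394) (nat_lit 280)))) (XT.nd (nat_lit 156) (nat_lit 0) (nat_lit 0) (XT.nd (nat_lit 78) (nat_lit 0) (nat_lit 0) (XT.lf (nat_lit 0) (nat_lit 4844281049) (nat_lit 76) (nat_lit 141518231994) (nat_lit 76) (nat_lit 132886762719) (nat_lit 7) (nat_lit 4) (nat_lit 8) (nat_lit 5) (nat_lit 8) (nat_lit 4) (nat_lit 527) (nat_lit 394) (nat_lit 279)) (XT.lf (nat_lit 0) (nat_lit 58533015826) (nat_lit 76) (nat_lit 120998701202) (nat_lit 76) (nat_lit 112365722933) (nat_lit 7) (nat_lit 4) (nat_lit 8) (nat_lit 5) (nat_lit 8)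 (nat_lit 4) (nat_lit 528) (nat_lit 394) (nat_lit 278))) (XT.nd (nat_lit 78) (nat_lit 0) (nat_lit 0) (XT.lf (nat_lit 0) (nat_lit 114888140352) (nat_lit 76) (nat_lit 99462365609) (nat_lit 76) (nat_lit 90827950202) (nat_lit 7) (nat_lit 4) (nat_lit 8) (nat_lit 5) (nat_lit 8) (nat_lit 4) (nat_lit 529) (nat_lit 394) (nat_lit 277)) (XT.lf (nat_lit 0) (nat_lit 174043833494) (nat_lit 76) (nat_lit 76857948224) (nat_lit 76) (nat_lit 68222164116) (nat_lit 7) (nat_lit 4) (nat_lit 8) (nat_lit 5) (nat_lit 8) (nat_lit 4) (nat_lit 530) (nat_lit 394) (nat_lit 276)))))) (XT.nd (nat_lit 624) (nat_lit 76) (nat_lit 0) (XT.nd (nat_lit 312) (nat_lit 0) (nat_lit 0) (XT.nd (nat_lit 156) (nat_lit 152) (nat_lit 0) (XT.nd (nat_lit 78) (nat_lit 0) (nat_lit 0) (XT.lf (nat_lit 0) (nat_lit 236140942141) (nat_lit 76) (nat_lit 53131629007) (nat_lit 76) (nat_lit 44494541373) (nat_lit 7) (nat_lit 4) (nat_lit 8) (nat_lit 5) (nat_lit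 8) (nat_lit 4) (nat_lit 531) (nat_lit 394) (nat_lit 275)) (XT.lf (nat_lit 0) (nat_lit 301327316552) (nat_lit 76) (nat_lit 28226916721) (nat_lit 76) (nat_lit 19588587633) (nat_lit 7) (nat_lit 4) (nat_lit 8) (nat_lit 5) (nat_lit 8) (nat_lit 4) (nat_lit 532) (nat_lit 394) (nat_lit 274))) (XT.nd (nat_lit 78) (nat_lit 0) (nat_lit 0) (XT.lf (nat_lit 0) (nat_lit 4512571143) (nat_lit 76) (nat_lit 1903078889) (nat_lit 152) (nat_lit 358863390001) (nat_lit 5) (nat_lit 5) (nat_lit 6) (nat_lit 5) (nat_lit 7) (nat_lit 4) (nat_lit 533) (nat_lit 394) (nat_lit 273)) (XT.lf (nat_lit 0) (nat_lit 34279256561) (nat_lit 152) (nat_lit 321815806231) (nat_lit 0) (nat_lit 26050078028) (nat_lit 5) (nat_lit 5) (nat_lit 7) (nat_lit 4) (nat_lit 5) (nat_lit 4) (nat_lit 534) (nat_lit 394) (nat_lit 272)))) (XT.nd (nat_lit 156) (nat_lit 0) (nat_lit 0) (XT.nd (nat_lit 78) (nat_lit 0) (nat_lit 0) (XT.lf (nat_lit 0) (nat_lit 63560176933)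 (nat_lit 152) (nat_lit 280963186003) (nat_lit 0) (nat_lit 55329977055) (nat_lit 5) (nat_lit 5) (nat_lit 7) (nat_lit 4) (nat_lit 5) (nat_lit 4) (nat_lit 535) (nat_lit 394) (nat_lit 271)) (XT.lf (nat_lit 0) (nat_lit 94298415233) (nat_lit 152) (nat_lit 238081627669) (nat_lit 0) (nat_lit 86067242643) (nat_lit 5) (nat_lit 5) (nat_lit 7) (nat_lit 4) (nat_lit 5) (nat_lit 4) (nat_lit 536) (nat_lit 394) (nat_lit 270))) (XT.nd (nat_lit 78) (nat_lit 0) (nat_lit 0) (XT.lf (nat_lit 0) (nat_lit 126567157741) (nat_lit 152) (nat_lit 193069032281) (nat_lit 0) (nat_lit 118335058759) (nat_lit 5) (nat_lit 5) (nat_lit 7) (nat_lit 4) (nat_lit 5) (nat_lit 4) (nat_lit 537) (nat_lit 394) (nat_lit 269)) (XT.lf (nat_lit 0) (nat_lit 160443234797) (nat_lit 152) (nat_lit 145818226993) (nat_lit 0) (nat_lit 152210253537) (nat_lit 5) (nat_lit 5) (nat_lit 7) (nat_lit 4) (nat_lit 5) (nat_lit 4) (nat_lit 538) (nat_lit 394) (nat_lit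 268))))) (XT.nd (nat_lit 312) (nat_lit 0) (nat_lit 0) (XT.nd (nat_lit 156) (nat_lit 76) (nat_lit 0) (XT.nd (nat_lit 78) (nat_lit 0) (nat_lit 0) (XT.lf (nat_lit 0) (nat_lit 196007303726) (nat_lit 152) (nat_lit 96216709887) (nat_lit 0) (nat_lit 187773482203) (nat_lit 5) (nat_lit 5) (nat_lit 7) (nat_lit 4) (nat_lit 5) (nat_lit 4) (nat_lit 539) (nat_lit 394) (nat_lit 267)) (XT.lf (nat_lit 0) (nat_lit 233344040884) (nat_lit 152) (nat_lit 44146382114) (nat_lit 0) (nat_lit 225109419109) (nat_lit 5) (nat_lit 5) (nat_lit 7) (nat_lit 4) (nat_lit 5) (nat_lit 4) (nat_lit 540) (nat_lit 394) (nat_lit 266))) (XT.nd (nat_lit 78) (nat_lit 0) (nat_lit 0) (XT.lf (nat_lit 0) (nat_lit 10864463996) (nat_lit 76) (nat_lit 261847503999) (nat_lit 76) (nat_lit 253612120079) (nat_lit 4) (nat_lit 4) (nat_lit 5) (nat_lit 5) (nat_lit 5) (nat_lit 4) (nat_lit 541) (nat_lit 394) (nat_lit 265)) (XT.lf (nat_lit 0) (nat_lit 70147959408)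 (nat_lit 76) (nat_lit 244642786985) (nat_lit 76) (nat_lit 236406677213) (nat_lit 4) (nat_lit 4) (nat_lit 5) (nat_lit 5) (nat_lit 5) (nat_lit 4) (nat_lit 542) (nat_lit 394) (nat_lit 264)))) (XT.nd (nat_lit 156) (nat_lit 0) (nat_lit 0) (XT.nd (nat_lit 78) (nat_lit 0) (nat_lit 0) (XT.lf (nat_lit 0) (nat_lit 132385576538) (nat_lit 76) (nat_lit 226582948688) (nat_lit 76) (nat_lit 218346147629) (nat_lit 4) (nat_lit 4) (nat_lit 5) (nat_lit 5) (nat_lit 5) (nat_lit 4) (nat_lit 543) (nat_lit 394) (nat_lit 263)) (XT.lf (nat_lit 0) (nat_lit 197725500189) (nat_lit 76) (nat_lit 207624989493) (nat_lit 76) (nat_lit 199387530064) (nat_lit 4) (nat_lit 4) (nat_lit 5) (nat_lit 5) (nat_lit 5) (nat_lit 4) (nat_lit 544) (nat_lit 394) (nat_lit 262))) (XT.nd (nat_lit 78) (nat_lit 0) (nat_lit 0) (XT.lf (nat_lit 0) (nat_lit 266323301607) (nat_lit 76) (nat_lit 187723771400) (nat_lit 76) (nat_lit 179485684954) (nat_lit 4)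 (nat_lit 4) (nat_lit 5) (nat_lit 5) (nat_lit 5) (nat_lit 4) (nat_lit 545) (nat_lit 394) (nat_lit 261)) (XT.lf (nat_lit 0) (nat_lit 338342308890) (nat_lit 76) (nat_lit 166831910559) (nat_lit 76) (nat_lit 158593226952) (nat_lit 4) (nat_lit 4) (nat_lit 5) (nat_lit 5) (nat_lit 5) (nat_lit 4) (nat_lit 546) (nat_lit 394) (nat_lit 260))))))) (XT.nd (nat_lit 52572) (nat_lit 0) (nat_lit 6460) (XT.nd (nat_lit 51948) (nat_lit 0) (nat_lit 9956) (XT.nd (nat_lit 234) (nat_lit 0) (nat_lit 0) (XT.nd (nat_lit 78) (nat_lit 0) (nat_lit 0) (XT.lf (nat_lit 0) (nat_lit 413953995867) (nat_lit 76) (nat_lit 144899664443) (nat_lit 76) (nat_lit 136660412112) (nat_lit 4) (nat_lit 4) (nat_lit 5) (nat_lit 5) (nat_lit 5) (nat_lit 4) (nat_lit 547) (nat_lit 394) (nat_lit 259)) (XT.nd (nat_lit 78) (nat_lit 0) (nat_lit 0) (XT.lf (nat_lit 0) (nat_lit 493338390362) (nat_lit 76) (nat_lit 121874813418) (nat_lit 76) (nat_lit 113635019445)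 (nat_lit 4) (nat_lit 4) (nat_lit 5) (nat_lit 5) (nat_lit 5) (nat_lit 4) (nat_lit 548) (nat_lit 394) (nat_lit 258)) (XT.lf (nat_lit 0) (nat_lit 576684502839) (nat_lit 76) (nat_lit 97702536411) (nat_lit 76) (nat_lit 89462226588) (nat_lit 4) (nat_lit 4) (nat_lit 5) (nat_lit 5) (nat_lit 5) (nat_lit 4) (nat_lit 549) (nat_lit 394) (nat_lit 257)))) (XT.nd (nat_lit 51558) (nat_lit 0) (nat_lit 13528) (XT.nd (nat_lit 78) (nat_lit 0) (nat_lit 0) (XT.lf (nat_lit 0) (nat_lit 664190776423) (nat_lit 76) (nat_lit 72325280381) (nat_lit 76) (nat_lit 64084479273) (nat_lit 4) (nat_lit 4) (nat_lit 5) (nat_lit 5) (nat_lit 5) (nat_lit 4) (nat_lit 550) (nat_lit 394) (nat_lit 256)) (XT.lf (nat_lit 0) (nat_lit 756065559385) (nat_lit 76) (nat_lit 45682623289) (nat_lit 76) (nat_lit 37441354291) (nat_lit 4) (nat_lit 4) (nat_lit 5) (nat_lit 5) (nat_lit 5) (nat_lit 4) (nat_lit 551) (nat_lit 394) (nat_lit 255))) (XT.nd (nat_lit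 78) (nat_lit 532) (nat_lit 0) (XT.lf (nat_lit 0) (nat_lit 2884318563) (nat_lit 380) (nat_lit 240603176) (nat_lit 380) (nat_lit 240603176) (nat_lit 189) (nat_lit 4) (nat_lit 194) (nat_lit 5) (nat_lit 194) (nat_lit 4) (nat_lit 410) (nat_lit 395) (nat_lit 395)) (XT.lf (nat_lit 0) (nat_lit 2839081897) (nat_lit 532) (nat_lit 3177750273) (nat_lit 0) (nat_lit 775109821) (nat_lit 182) (nat_lit 5) (nat_lit 189) (nat_lit 4) (nat_lit 182) (nat_lit 4) (nat_lit 411) (nat_lit 395) (nat_lit 394))))) (XT.nd (nat_lit 312) (nat_lit 1596) (nat_lit 0) (XT.nd (nat_lit 156) (nat_lit 1368) (nat_lit 0) (XT.nd (nat_lit 78) (nat_lit 76) (nat_lit 0) (XT.lf (nat_lit 0) (nat_lit 1474229649) (nat_lit 532) (nat_lit 4708636169) (nat_lit 532) (nat_lit 678976400) (nat_lit 175) (nat_lit 4) (nat_lit 182) (nat_lit 5) (nat_lit 182) (nat_lit 4) (nat_lit 412) (nat_lit 395) (nat_lit 393)) (XT.lf (nat_lit 0) (nat_lit 2554297030) (nat_lit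 608) (nat_lit 665434371) (nat_lit 76) (nat_lit 3719189949) (nat_lit 174) (nat_lit 5) (nat_lit 182) (nat_lit 5) (nat_lit 175) (nat_lit 4) (nat_lit 413) (nat_lit 395) (nat_lit 392))) (XT.nd (nat_lit 78) (nat_lit 760) (nat_lit 0) (XT.lf (nat_lit 0) (nat_lit 4267775648) (nat_lit 608) (nat_lit 1562690505) (nat_lit 684) (nat_lit 1193664265) (nat_lit 166) (nat_lit 5) (nat_lit 174) (nat_lit 5) (nat_lit 175) (nat_lit 4) (nat_lit 414) (nat_lit 395) (nat_lit 391)) (XT.lf (nat_lit 0) (nat_lit 1978690685) (nat_lit 760) (nat_lit 4879603048) (nat_lit 76) (nat_lit 259110282) (nat_lit 156) (nat_lit 5) (nat_lit 166) (nat_lit 5) (nat_lit 157) (nat_lit 4) (nat_lit 415) (nat_lit 395) (nat_lit 390)))) (XT.nd (nat_lit 156) (nat_lit 760) (nat_lit 0) (XT.nd (nat_lit 78) (nat_lit 76) (nat_lit 0) (XT.lf (nat_lit 0) (nat_lit 164913978) (nat_lit 760) (nat_lit 5025818057) (nat_lit 836) (nat_lit 2027601916) (nat_lit 146) (nat_lit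 5) (nat_lit 156) (nat_lit 5) (nat_lit 157) (nat_lit 4) (nat_lit 416) (nat_lit 395) (nat_lit 389)) (XT.lf (nat_lit 0) (nat_lit 1131382777) (nat_lit 836) (nat_lit 1871070453) (nat_lit 76) (nat_lit 4324318553) (nat_lit 145) (nat_lit 5) (nat_lit 156) (nat_lit 5) (nat_lit 146) (nat_lit 5) (nat_lit 417) (nat_lit 395) (nat_lit 388))) (XT.nd (nat_lit 78) (nat_lit 380) (nat_lit 0) (XT.lf (nat_lit 0) (nat_lit 3495454848) (nat_lit 380) (nat_lit 794516280) (nat_lit 456) (nat_lit 3153534783) (nat_lit 140) (nat_lit 5) (nat_lit 145) (nat_lit 5) (nat_lit 146) (nat_lit 5) (nat_lit 418) (nat_lit 395) (nat_lit 387)) (XT.lf (nat_lit 0) (nat_lit 1496387424) (nat_lit 380) (nat_lit 6049049164) (nat_lit 456) (nat_lit 23717663) (nat_lit 135) (nat_lit 5) (nat_lit 140) (nat_lit 5) (nat_lit 141) (nat_lit 4) (nat_lit 419) (nat_lit 395) (nat_lit 386)))))) (XT.nd (nat_lit 624) (nat_lit 1368) (nat_lit 0) (XT.nd (nat_lit 312)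 (nat_lit 988) (nat_lit 0) (XT.nd (nat_lit 156) (nat_lit 684) (nat_lit 0) (XT.nd (nat_lit 78) (nat_lit 380) (nat_lit 0) (XT.lf (nat_lit 0) (nat_lit 3100741849) (nat_lit 456) (nat_lit 572706041) (nat_lit 76) (nat_lit 4027984042) (nat_lit 134) (nat_lit 5) (nat_lit 140) (nat_lit 5) (nat_lit 135) (nat_lit 5) (nat_lit 420) (nat_lit 395) (nat_lit 385)) (XT.lf (nat_lit 0) (nat_lit 5216530269) (nat_lit 380) (nat_lit 1113724216) (nat_lit 456) (nat_lit 1512589710) (nat_lit 129) (nat_lit 5) (nat_lit 134) (nat_lit 5) (nat_lit 135) (nat_lit 5) (nat_lit 421) (nat_lit 395) (nat_lit 384))) (XT.nd (nat_lit 78) (nat_lit 304) (nat_lit 0) (XT.lf (nat_lit 0) (nat_lit 1630729848) (nat_lit 380) (nat_lit 4772341413) (nat_lit 76) (nat_lit 1589115755) (nat_lit 124) (nat_lit 5) (nat_lit 129) (nat_lit 5) (nat_lit 125) (nat_lit 5) (nat_lit 422) (nat_lit 395) (nat_lit 383)) (XT.lf (nat_lit 0) (nat_lit 1137648364) (nat_lit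 304) (nat_lit 3697384280) (nat_lit 380) (nat_lit 3315010569) (nat_lit 120) (nat_lit 5) (nat_lit 124) (nat_lit 5) (nat_lit 125) (nat_lit 5) (nat_lit 423) (nat_lit 395) (nat_lit 382)))) (XT.nd (nat_lit 156) (nat_lit 608) (nat_lit 0) (XT.nd (nat_lit 78) (nat_lit 380) (nat_lit 0) (XT.lf (nat_lit 0) (nat_lit 7353666360) (nat_lit 304) (nat_lit 803734657) (nat_lit 380) (nat_lit 160516368) (nat_lit 120) (nat_lit 5) (nat_lit 124) (nat_lit 5) (nat_lit 125) (nat_lit 5) (nat_lit 424) (nat_lit 395) (nat_lit 381)) (XT.lf (nat_lit 0) (nat_lit 3051967521) (nat_lit 380) (nat_lit 3173243139) (nat_lit 76) (nat_lit 2266473345) (nat_lit 115) (nat_lit 5) (nat_lit 120) (nat_lit 5) (nat_lit 116) (nat_lit 5) (nat_lit 425) (nat_lit 395) (nat_lit 380))) (XT.nd (nat_lit 78) (nat_lit 304) (nat_lit 0) (XT.lf (nat_lit 0) (nat_lit 3207454884) (nat_lit 304) (nat_lit 3175840100) (nat_lit 380) (nat_lit 2292546992) (nat_lit 111)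 (nat_lit 5) (nat_lit 115) (nat_lit 5) (nat_lit 116) (nat_lit 5) (nat_lit 426) (nat_lit 395) (nat_lit 379)) (XT.lf (nat_lit 0) (nat_lit 936227394) (nat_lit 304) (nat_lit 7861210349) (nat_lit 76) (nat_lit 73162162) (nat_lit 107) (nat_lit 5) (nat_lit 111) (nat_lit 5) (nat_lit 108) (nat_lit 5) (nat_lit 427) (nat_lit 395) (nat_lit 378))))) (XT.nd (nat_lit 312) (nat_lit 608) (nat_lit 0) (XT.nd (nat_lit 156) (nat_lit 532) (nat_lit 0) (XT.nd (nat_lit 78) (nat_lit 228) (nat_lit 0) (XT.lf (nat_lit 0) (nat_lit 4283074133) (nat_lit 304) (nat_lit 1319040397) (nat_lit 76) (nat_lit 3469431350) (nat_lit 107) (nat_lit 5) (nat_lit 111) (nat_lit 5) (nat_lit 108) (nat_lit 5) (nat_lit 428) (nat_lit 395) (nat_lit 377)) (XT.lf (nat_lit 0) (nat_lit 5577991113) (nat_lit 228) (nat_lit 2199205230) (nat_lit 304) (nat_lit 1506358724) (nat_lit 104) (nat_lit 5) (nat_lit 107) (nat_lit 5) (nat_lit 108) (nat_lit 5) (nat_lit 429)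 (nat_lit 395) (nat_lit 376))) (XT.nd (nat_lit 78) (nat_lit 228) (nat_lit 0) (XT.lf (nat_lit 0) (nat_lit 1868089896) (nat_lit 304) (nat_lit 6245526870) (nat_lit 76) (nat_lit 1391529137) (nat_lit 100) (nat_lit 5) (nat_lit 104) (nat_lit 5) (nat_lit 101) (nat_lit 5) (nat_lit 430) (nat_lit 395) (nat_lit 375)) (XT.lf (nat_lit 0) (nat_lit 776223770) (nat_lit 228) (nat_lit 4592278846) (nat_lit 304) (nat_lit 4367696543) (nat_lit 97) (nat_lit 5) (nat_lit 100) (nat_lit 5) (nat_lit 101) (nat_lit 5) (nat_lit 431) (nat_lit 395) (nat_lit 374)))) (XT.nd (nat_lit 156) (nat_lit 380) (nat_lit 0) (XT.nd (nat_lit 78) (nat_lit 228) (nat_lit 0) (XT.lf (nat_lit 0) (nat_lit 8214498417) (nat_lit 228) (nat_lit 833710918) (nat_lit 304) (nat_lit 930392417) (nat_lit 97) (nat_lit 5) (nat_lit 100) (nat_lit 5) (nat_lit 101) (nat_lit 5) (nat_lit 432) (nat_lit 395) (nat_lit 373)) (XT.lf (nat_lit 0) (nat_lit 2635138631) (nat_lit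 228) (nat_lit 4493902789) (nat_lit 76) (nat_lit 3099896309) (nat_lit 94) (nat_lit 5) (nat_lit 97) (nat_lit 5) (nat_lit 95) (nat_lit 5) (nat_lit 433) (nat_lit 395) (nat_lit 372))) (XT.nd (nat_lit 78) (nat_lit 152) (nat_lit 0) (XT.lf (nat_lit 0) (nat_lit 3100817432) (nat_lit 228) (nat_lit 3242694077) (nat_lit 304) (nat_lit 4147733682) (nat_lit 91) (nat_lit 5) (nat_lit 94) (nat_lit 5) (nat_lit 95) (nat_lit 5) (nat_lit 434) (nat_lit 395) (nat_lit 371)) (XT.lf (nat_lit 0) (nat_lit 313534890) (nat_lit 152) (nat_lit 9923979817) (nat_lit 228) (nat_lit 529151245) (nat_lit 89) (nat_lit 5) (nat_lit 91) (nat_lit 5) (nat_lit 92) (nat_lit 4) (nat_lit 435) (nat_lit 395) (nat_lit 370))))))))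
noncomputable def xc82 : XT := (XT.nd (nat_lit 2418) (nat_lit 1824) (nat_lit 0) (XT.nd (nat_lit 1170) (nat_lit 1444) (nat_lit 0) (XT.nd (nat_lit 546) (nat_lit 760) (nat_lit 0) (XT.nd (nat_lit 234) (nat_lit 608) (nat_lit 0) (XT.nd (nat_lit 78) (nat_lit 380) (nat_lit 0) (XT.lf (nat_lit 0) (nat_lit 3251624285) (nat_lit 228) (nat_lit 2647895058) (nat_lit 76) (nat_lit 5149496354) (nat_lit 88) (nat_lit 5) (nat_lit 91) (nat_lit 5) (nat_lit 89) (nat_lit 5) (nat_lit 436) (nat_lit 395) (nat_lit 369)) (XT.nd (nat_lit 78) (nat_lit 152) (nat_lit 0) (XT.lf (nat_lit 0) (nat_lit 5573210686) (nat_lit 228) (nat_lit 1627520035) (nat_lit 304) (nat_lit 4144472072) (nat_lit 85) (nat_lit 5) (nat_lit 88) (nat_lit 5) (nat_lit 89) (nat_lit 5) (nat_lit 437) (nat_lit 395) (nat_lit 368)) (XT.lf (nat_lit 0) (nat_lit 2533751923) (nat_lit 152) (nat_lit 8854590096) (nat_lit 228) (nat_lit 265811748) (nat_lit 83) (nat_lit 5) (nat_lit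 85) (nat_lit 5) (nat_lit 86) (nat_lit 4) (nat_lit 438) (nat_lit 395) (nat_lit 367)))) (XT.nd (nat_lit 156) (nat_lit 380) (nat_lit 0) (XT.nd (nat_lit 78) (nat_lit 152) (nat_lit 0) (XT.lf (nat_lit 0) (nat_lit 3722828682) (nat_lit 228) (nat_lit 752115321) (nat_lit 76) (nat_lit 7498748516) (nat_lit 82) (nat_lit 5) (nat_lit 85) (nat_lit 5) (nat_lit 83) (nat_lit 5) (nat_lit 439) (nat_lit 395) (nat_lit 366)) (XT.lf (nat_lit 0) (nat_lit 7948527552) (nat_lit 228) (nat_lit 4157869824) (nat_lit 76) (nat_lit 200271028) (nat_lit 80) (nat_lit 5) (nat_lit 83) (nat_lit 5) (nat_lit 81) (nat_lit 4) (nat_lit 440) (nat_lit 395) (nat_lit 365))) (XT.nd (nat_lit 78) (nat_lit 228) (nat_lit 0) (XT.lf (nat_lit 0) (nat_lit 4805475855) (nat_lit 152) (nat_lit 7658429258) (nat_lit 228) (nat_lit 188474042) (nat_lit 78) (nat_lit 5) (nat_lit 80) (nat_lit 5) (nat_lit 81) (nat_lit 4) (nat_lit 441) (nat_lit 395) (nat_lit 364))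 (XT.lf (nat_lit 0) (nat_lit 1180245159) (nat_lit 152) (nat_lit 2882856660) (nat_lit 228) (nat_lit 8948632142) (nat_lit 75) (nat_lit 5) (nat_lit 77) (nat_lit 5) (nat_lit 78) (nat_lit 5) (nat_lit 442) (nat_lit 395) (nat_lit 363))))) (XT.nd (nat_lit 312) (nat_lit 380) (nat_lit 0) (XT.nd (nat_lit 156) (nat_lit 228) (nat_lit 0) (XT.nd (nat_lit 78) (nat_lit 152) (nat_lit 0) (XT.lf (nat_lit 0) (nat_lit 8607668007) (nat_lit 228) (nat_lit 2631107687) (nat_lit 76) (nat_lit 2145794027) (nat_lit 75) (nat_lit 5) (nat_lit 78) (nat_lit 5) (nat_lit 76) (nat_lit 4) (nat_lit 443) (nat_lit 395) (nat_lit 362)) (XT.lf (nat_lit 0) (nat_lit 7073842873) (nat_lit 152) (nat_lit 6385605178) (nat_lit 228) (nat_lit 312604677) (nat_lit 73) (nat_lit 5) (nat_lit 75) (nat_lit 5) (nat_lit 76) (nat_lit 4) (nat_lit 444) (nat_lit 395) (nat_lit 361))) (XT.nd (nat_lit 78) (nat_lit 0) (nat_lit 0) (XT.lf (nat_lit 0) (nat_lit 3073039308)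 (nat_lit 152) (nat_lit 1177776581) (nat_lit 228) (nat_lit 9923886415) (nat_lit 70) (nat_lit 5) (nat_lit 72) (nat_lit 5) (nat_lit 73) (nat_lit 5) (nat_lit 445) (nat_lit 395) (nat_lit 360)) (XT.lf (nat_lit 0) (nat_lit 9137567392) (nat_lit 228) (nat_lit 1236094177) (nat_lit 76) (nat_lit 4218287375) (nat_lit 70) (nat_lit 5) (nat_lit 73) (nat_lit 5) (nat_lit 71) (nat_lit 4) (nat_lit 446) (nat_lit 395) (nat_lit 359)))) (XT.nd (nat_lit 156) (nat_lit 76) (nat_lit 0) (XT.nd (nat_lit 78) (nat_lit 228) (nat_lit 0) (XT.lf (nat_lit 0) (nat_lit 9270925943) (nat_lit 76) (nat_lit 5088814497) (nat_lit 152) (nat_lit 665767174) (nat_lit 69) (nat_lit 5) (nat_lit 70) (nat_lit 5) (nat_lit 71) (nat_lit 4) (nat_lit 447) (nat_lit 395) (nat_lit 358)) (XT.lf (nat_lit 0) (nat_lit 4255575440) (nat_lit 228) (nat_lit 10662286843) (nat_lit 76) (nat_lit 557834219) (nat_lit 66) (nat_lit 5) (nat_lit 69) (nat_lit 5) (nat_lit 67)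 (nat_lit 4) (nat_lit 448) (nat_lit 395) (nat_lit 357))) (XT.nd (nat_lit 78) (nat_lit 76) (nat_lit 0) (XT.lf (nat_lit 0) (nat_lit 9511024074) (nat_lit 228) (nat_lit 60032435) (nat_lit 76) (nat_lit 6371275329) (nat_lit 66) (nat_lit 5) (nat_lit 69) (nat_lit 5) (nat_lit 67) (nat_lit 4) (nat_lit 449) (nat_lit 395) (nat_lit 356)) (XT.lf (nat_lit 0) (nat_lit 11310373453) (nat_lit 76) (nat_lit 3826825522) (nat_lit 152) (nat_lit 1289705480) (nat_lit 65) (nat_lit 5) (nat_lit 66) (nat_lit 5) (nat_lit 67) (nat_lit 4) (nat_lit 450) (nat_lit 395) (nat_lit 355)))))) (XT.nd (nat_lit 624) (nat_lit 532) (nat_lit 0) (XT.nd (nat_lit 312) (nat_lit 380) (nat_lit 0) (XT.nd (nat_lit 156) (nat_lit 228) (nat_lit 0) (XT.nd (nat_lit 78) (nat_lit 76) (nat_lit 0) (XT.lf (nat_lit 0) (nat_lit 4045187747) (nat_lit 228) (nat_lit 10637234804) (nat_lit 76) (nat_lit 2246692242) (nat_lit 62) (nat_lit 5) (nat_lit 65) (nat_lit 5) (nat_lit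 63) (nat_lit 4) (nat_lit 451) (nat_lit 395) (nat_lit 354)) (XT.lf (nat_lit 0) (nat_lit 812224288) (nat_lit 76) (nat_lit 8886857546) (nat_lit 152) (nat_lit 7751519510) (nat_lit 61) (nat_lit 5) (nat_lit 62) (nat_lit 5) (nat_lit 63) (nat_lit 4) (nat_lit 452) (nat_lit 395) (nat_lit 353))) (XT.nd (nat_lit 78) (nat_lit 228) (nat_lit 0) (XT.lf (nat_lit 0) (nat_lit 13080751939) (nat_lit 76) (nat_lit 2668493806) (nat_lit 152) (nat_lit 2243240358) (nat_lit 61) (nat_lit 5) (nat_lit 62) (nat_lit 5) (nat_lit 63) (nat_lit 4) (nat_lit 453) (nat_lit 395) (nat_lit 352)) (XT.lf (nat_lit 0) (nat_lit 3541499916) (nat_lit 228) (nat_lit 11152415238) (nat_lit 76) (nat_lit 3859070333) (nat_lit 58) (nat_lit 5) (nat_lit 61) (nat_lit 5) (nat_lit 59) (nat_lit 4) (nat_lit 454) (nat_lit 395) (nat_lit 351)))) (XT.nd (nat_lit 156) (nat_lit 304) (nat_lit 0) (XT.nd (nat_lit 78) (nat_lit 0) (nat_lit 0) (XT.lf (nat_lit 0) (nat_lit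 1198749839) (nat_lit 76) (nat_lit 8424304074) (nat_lit 152) (nat_lit 9512471268) (nat_lit 57) (nat_lit 5) (nat_lit 58) (nat_lit 5) (nat_lit 59) (nat_lit 4) (nat_lit 455) (nat_lit 395) (nat_lit 350)) (XT.lf (nat_lit 0) (nat_lit 14437188353) (nat_lit 76) (nat_lit 1697540849) (nat_lit 152) (nat_lit 3606162652) (nat_lit 57) (nat_lit 5) (nat_lit 58) (nat_lit 5) (nat_lit 59) (nat_lit 4) (nat_lit 456) (nat_lit 395) (nat_lit 349))) (XT.nd (nat_lit 78) (nat_lit 76) (nat_lit 0) (XT.lf (nat_lit 0) (nat_lit 2663155690) (nat_lit 228) (nat_lit 12392188578) (nat_lit 76) (nat_lit 5311620173) (nat_lit 54) (nat_lit 5) (nat_lit 57) (nat_lit 5) (nat_lit 55) (nat_lit 4) (nat_lit 457) (nat_lit 395) (nat_lit 348)) (XT.lf (nat_lit 0) (nat_lit 907880328) (nat_lit 76) (nat_lit 8289675048) (nat_lit 152) (nat_lit 11820190979) (nat_lit 53) (nat_lit 5) (nat_lit 54) (nat_lit 5) (nat_lit 55) (nat_lit 4) (nat_lit 458) (nat_lit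 395) (nat_lit 347))))) (XT.nd (nat_lit 312) (nat_lit 304) (nat_lit 0) (XT.nd (nat_lit 156) (nat_lit 76) (nat_lit 0) (XT.nd (nat_lit 78) (nat_lit 152) (nat_lit 0) (XT.lf (nat_lit 0) (nat_lit 15190802496) (nat_lit 76) (nat_lit 1018375981) (nat_lit 152) (nat_lit 5484365502) (nat_lit 53) (nat_lit 5) (nat_lit 54) (nat_lit 5) (nat_lit 55) (nat_lit 4) (nat_lit 459) (nat_lit 395) (nat_lit 346)) (XT.lf (nat_lit 0) (nat_lit 1301725399) (nat_lit 152) (nat_lit 14592976982) (nat_lit 76) (nat_lit 6498975464) (nat_lit 51) (nat_lit 5) (nat_lit 53) (nat_lit 5) (nat_lit 52) (nat_lit 4) (nat_lit 460) (nat_lit 395) (nat_lit 345))) (XT.nd (nat_lit 78) (nat_lit 76) (nat_lit 0) (XT.lf (nat_lit 0) (nat_lit 8314241982) (nat_lit 152) (nat_lit 295845308) (nat_lit 76) (nat_lit 14510665686) (nat_lit 51) (nat_lit 5) (nat_lit 53) (nat_lit 5) (nat_lit 52) (nat_lit 4) (nat_lit 461) (nat_lit 395) (nat_lit 344)) (XT.lf (nat_lit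 0) (nat_lit 15095285001) (nat_lit 76) (nat_lit 763307338) (nat_lit 152) (nat_lit 8016530597) (nat_lit 50) (nat_lit 5) (nat_lit 51) (nat_lit 5) (nat_lit 52) (nat_lit 4) (nat_lit 462) (nat_lit 395) (nat_lit 343)))) (XT.nd (nat_lit 156) (nat_lit 152) (nat_lit 0) (XT.nd (nat_lit 78) (nat_lit 76) (nat_lit 0) (XT.lf (nat_lit 0) (nat_lit 6589138703) (nat_lit 76) (nat_lit 17361469136) (nat_lit 76) (nat_lit 708082573) (nat_lit 49) (nat_lit 4) (nat_lit 50) (nat_lit 5) (nat_lit 50) (nat_lit 4) (nat_lit 463) (nat_lit 395) (nat_lit 342)) (XT.lf (nat_lit 0) (nat_lit 6852349889) (nat_lit 152) (nat_lit 2670673911) (nat_lit 76) (nat_lit 15947500420) (nat_lit 48) (nat_lit 5) (nat_lit 50) (nat_lit 5) (nat_lit 49) (nat_lit 4) (nat_lit 464) (nat_lit 395) (nat_lit 341))) (XT.nd (nat_lit 78) (nat_lit 76) (nat_lit 0) (XT.lf (nat_lit 0) (nat_lit 13829802531) (nat_lit 76) (nat_lit 1101574017) (nat_lit 152) (nat_lit 11382775541)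 (nat_lit 47) (nat_lit 5) (nat_lit 48) (nat_lit 5) (nat_lit 49) (nat_lit 4) (nat_lit 465) (nat_lit 395) (nat_lit 340)) (XT.lf (nat_lit 0) (nat_lit 3955761609) (nat_lit 76) (nat_lit 19635821027) (nat_lit 76) (nat_lit 3599518465) (nat_lit 46) (nat_lit 4) (nat_lit 47) (nat_lit 5) (nat_lit 47) (nat_lit 4) (nat_lit 466) (nat_lit 395) (nat_lit 339))))))) (XT.nd (nat_lit 1170) (nat_lit 836) (nat_lit 0) (XT.nd (nat_lit 546) (nat_lit 532) (nat_lit 0) (XT.nd (nat_lit 234) (nat_lit 304) (nat_lit 0) (XT.nd (nat_lit 78) (nat_lit 76) (nat_lit 0) (XT.lf (nat_lit 0) (nat_lit 4608220480) (nat_lit 152) (nat_lit 6642600959) (nat_lit 76) (nat_lit 16848423356) (nat_lit 45) (nat_lit 5) (nat_lit 47) (nat_lit 5) (nat_lit 46) (nat_lit 4) (nat_lit 467) (nat_lit 395) (nat_lit 338)) (XT.nd (nat_lit 78) (nat_lit 0) (nat_lit 0) (XT.lf (nat_lit 0) (nat_lit 10977189233) (nat_lit 76) (nat_lit 2250743248) (nat_lit 152) (nat_lit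 15815786085) (nat_lit 44) (nat_lit 5) (nat_lit 45) (nat_lit 5) (nat_lit 46) (nat_lit 4) (nat_lit 468) (nat_lit 395) (nat_lit 337)) (XT.lf (nat_lit 0) (nat_lit 22456698794) (nat_lit 152) (nat_lit 530526729) (nat_lit 0) (nat_lit 7039288015) (nat_lit 44) (nat_lit 5) (nat_lit 46) (nat_lit 4) (nat_lit 44) (nat_lit 4) (nat_lit 469) (nat_lit 395) (nat_lit 336)))) (XT.nd (nat_lit 156) (nat_lit 76) (nat_lit 0) (XT.nd (nat_lit 78) (nat_lit 76) (nat_lit 0) (XT.lf (nat_lit 0) (nat_lit 1335066886) (nat_lit 152) (nat_lit 12724250612) (nat_lit 76) (nat_lit 16984209472) (nat_lit 42) (nat_lit 5) (nat_lit 44) (nat_lit 5) (nat_lit 43) (nat_lit 4) (nat_lit 470) (nat_lit 395) (nat_lit 335)) (XT.lf (nat_lit 0) (nat_lit 5996098504) (nat_lit 76) (nat_lit 4491160494) (nat_lit 152) (nat_lit 21615105037) (nat_lit 41) (nat_lit 5) (nat_lit 42) (nat_lit 5) (nat_lit 43) (nat_lit 4) (nat_lit 471) (nat_lit 395) (nat_lit 334)))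 (XT.nd (nat_lit 78) (nat_lit 76) (nat_lit 0) (XT.lf (nat_lit 0) (nat_lit 20356664145) (nat_lit 152) (nat_lit 7290162964) (nat_lit 0) (nat_lit 5554336452) (nat_lit 41) (nat_lit 5) (nat_lit 43) (nat_lit 4) (nat_lit 41) (nat_lit 4) (nat_lit 472) (nat_lit 395) (nat_lit 333)) (XT.lf (nat_lit 0) (nat_lit 12713606501) (nat_lit 76) (nat_lit 18234095571) (nat_lit 76) (nat_lit 3395793608) (nat_lit 40) (nat_lit 4) (nat_lit 41) (nat_lit 5) (nat_lit 41) (nat_lit 4) (nat_lit 473) (nat_lit 395) (nat_lit 332))))) (XT.nd (nat_lit 312) (nat_lit 228) (nat_lit 0) (XT.nd (nat_lit 156) (nat_lit 152) (nat_lit 0) (XT.nd (nat_lit 78) (nat_lit 76) (nat_lit 0) (XT.lf (nat_lit 0) (nat_lit 6398080821) (nat_lit 152) (nat_lit 1756497489) (nat_lit 76) (nat_lit 27379193559) (nat_lit 39) (nat_lit 5) (nat_lit 41) (nat_lit 5) (nat_lit 40) (nat_lit 4) (nat_lit 474) (nat_lit 395) (nat_lit 331)) (XT.lf (nat_lit 0) (nat_lit 16874943972)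 (nat_lit 152) (nat_lit 17210942135) (nat_lit 0) (nat_lit 2679522166) (nat_lit 38) (nat_lit 5) (nat_lit 40) (nat_lit 4) (nat_lit 38) (nat_lit 4) (nat_lit 475) (nat_lit 395) (nat_lit 330))) (XT.nd (nat_lit 78) (nat_lit 76) (nat_lit 0) (XT.lf (nat_lit 0) (nat_lit 3841121127) (nat_lit 76) (nat_lit 24216707497) (nat_lit 76) (nat_lit 9991689569) (nat_lit 37) (nat_lit 4) (nat_lit 38) (nat_lit 5) (nat_lit 38) (nat_lit 4) (nat_lit 476) (nat_lit 395) (nat_lit 329)) (XT.lf (nat_lit 0) (nat_lit 643748609) (nat_lit 152) (nat_lit 12933520060) (nat_lit 76) (nat_lit 25807522057) (nat_lit 36) (nat_lit 5) (nat_lit 38) (nat_lit 5) (nat_lit 37) (nat_lit 4) (nat_lit 477) (nat_lit 395) (nat_lit 328)))) (XT.nd (nat_lit 156) (nat_lit 152) (nat_lit 0) (XT.nd (nat_lit 78) (nat_lit 0) (nat_lit 0) (XT.lf (nat_lit 0) (nat_lit 9465674911) (nat_lit 76) (nat_lit 2117605174) (nat_lit 152) (nat_lit 29189952035) (nat_lit 35) (nat_lit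 5) (nat_lit 36) (nat_lit 5) (nat_lit 37) (nat_lit 4) (nat_lit 478) (nat_lit 395) (nat_lit 327)) (XT.lf (nat_lit 0) (nat_lit 23407621723) (nat_lit 152) (nat_lit 9023356679) (nat_lit 0) (nat_lit 9783226003) (nat_lit 35) (nat_lit 5) (nat_lit 37) (nat_lit 4) (nat_lit 35) (nat_lit 4) (nat_lit 479) (nat_lit 395) (nat_lit 326))) (XT.nd (nat_lit 78) (nat_lit 76) (nat_lit 0) (XT.lf (nat_lit 0) (nat_lit 14737091543) (nat_lit 76) (nat_lit 21313182314) (nat_lit 76) (nat_lit 7665597258) (nat_lit 34) (nat_lit 4) (nat_lit 35) (nat_lit 5) (nat_lit 35) (nat_lit 4) (nat_lit 480) (nat_lit 395) (nat_lit 325)) (XT.lf (nat_lit 0) (nat_lit 4021022267) (nat_lit 152) (nat_lit 5426574488) (nat_lit 76) (nat_lit 35835994553) (nat_lit 33) (nat_lit 5) (nat_lit 35) (nat_lit 5) (nat_lit 34) (nat_lit 4) (nat_lit 481) (nat_lit 395) (nat_lit 324)))))) (XT.nd (nat_lit 624) (nat_lit 380) (nat_lit 0) (XT.nd (nat_lit 312) (nat_lit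 228) (nat_lit 0) (XT.nd (nat_lit 156) (nat_lit 152) (nat_lit 0) (XT.nd (nat_lit 78) (nat_lit 0) (nat_lit 0) (XT.lf (nat_lit 0) (nat_lit 16360216279) (nat_lit 152) (nat_lit 27225454482) (nat_lit 0) (nat_lit 3321450995) (nat_lit 32) (nat_lit 5) (nat_lit 34) (nat_lit 4) (nat_lit 32) (nat_lit 4) (nat_lit 482) (nat_lit 395) (nat_lit 323)) (XT.lf (nat_lit 0) (nat_lit 29528844438) (nat_lit 152) (nat_lit 2601359729) (nat_lit 0) (nat_lit 16471001231) (nat_lit 32) (nat_lit 5) (nat_lit 34) (nat_lit 4) (nat_lit 32) (nat_lit 4) (nat_lit 483) (nat_lit 395) (nat_lit 322))) (XT.nd (nat_lit 78) (nat_lit 76) (nat_lit 0) (XT.lf (nat_lit 0) (nat_lit 23952512208) (nat_lit 76) (nat_lit 19743250555) (nat_lit 76) (nat_lit 6667237896) (nat_lit 31) (nat_lit 4) (nat_lit 32) (nat_lit 5) (nat_lit 32) (nat_lit 4) (nat_lit 484) (nat_lit 395) (nat_lit 321)) (XT.lf (nat_lit 0) (nat_lit 6165340235) (nat_lit 152) (nat_lit 454369415)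 (nat_lit 76) (nat_lit 45587677996) (nat_lit 30) (nat_lit 5) (nat_lit 32) (nat_lit 5) (nat_lit 31) (nat_lit 4) (nat_lit 485) (nat_lit 395) (nat_lit 320)))) (XT.nd (nat_lit 156) (nat_lit 76) (nat_lit 0) (XT.nd (nat_lit 78) (nat_lit 76) (nat_lit 0) (XT.lf (nat_lit 0) (nat_lit 19932584840) (nat_lit 152) (nat_lit 26733025725) (nat_lit 0) (nat_lit 7447063767) (nat_lit 29) (nat_lit 5) (nat_lit 31) (nat_lit 4) (nat_lit 29) (nat_lit 4) (nat_lit 486) (nat_lit 395) (nat_lit 319)) (XT.lf (nat_lit 0) (nat_lit 345827762) (nat_lit 76) (nat_lit 34131700107) (nat_lit 76) (nat_lit 21631230982) (nat_lit 28) (nat_lit 4) (nat_lit 29) (nat_lit 5) (nat_lit 29) (nat_lit 4) (nat_lit 487) (nat_lit 395) (nat_lit 318))) (XT.nd (nat_lit 78) (nat_lit 76) (nat_lit 0) (XT.lf (nat_lit 0) (nat_lit 29642884416) (nat_lit 76) (nat_lit 20527712449) (nat_lit 76) (nat_lit 8013007084) (nat_lit 28) (nat_lit 4) (nat_lit 29) (nat_lit 5)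 (nat_lit 29) (nat_lit 4) (nat_lit 488) (nat_lit 395) (nat_lit 317)) (XT.lf (nat_lit 0) (nat_lit 6054094124) (nat_lit 152) (nat_lit 117370733) (nat_lit 76) (nat_lit 54187361434) (nat_lit 27) (nat_lit 5) (nat_lit 29) (nat_lit 5) (nat_lit 28) (nat_lit 4) (nat_lit 489) (nat_lit 395) (nat_lit 316))))) (XT.nd (nat_lit 312) (nat_lit 152) (nat_lit 0) (XT.nd (nat_lit 156) (nat_lit 152) (nat_lit 0) (XT.nd (nat_lit 78) (nat_lit 0) (nat_lit 0) (XT.lf (nat_lit 0) (nat_lit 21150789357) (nat_lit 152) (nat_lit 32248864328) (nat_lit 0) (nat_lit 9206811853) (nat_lit 26) (nat_lit 5) (nat_lit 28) (nat_lit 4) (nat_lit 26) (nat_lit 4) (nat_lit 490) (nat_lit 395) (nat_lit 315)) (XT.lf (nat_lit 0) (nat_lit 37076181539) (nat_lit 152) (nat_lit 2766120496) (nat_lit 0) (nat_lit 25120491845) (nat_lit 26) (nat_lit 5) (nat_lit 28) (nat_lit 4) (nat_lit 26) (nat_lit 4) (nat_lit 491) (nat_lit 395) (nat_lit 314))) (XT.nd (nat_lit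 78) (nat_lit 76) (nat_lit 0) (XT.lf (nat_lit 0) (nat_lit 29064899202) (nat_lit 76) (nat_lit 25158795626) (nat_lit 76) (nat_lit 13191951465) (nat_lit 25) (nat_lit 4) (nat_lit 26) (nat_lit 5) (nat_lit 26) (nat_lit 4) (nat_lit 492) (nat_lit 395) (nat_lit 313)) (XT.lf (nat_lit 0) (nat_lit 2185528474) (nat_lit 152) (nat_lit 7497134089) (nat_lit 76) (nat_lit 60305747429) (nat_lit 24) (nat_lit 5) (nat_lit 26) (nat_lit 5) (nat_lit 25) (nat_lit 4) (nat_lit 493) (nat_lit 395) (nat_lit 312)))) (XT.nd (nat_lit 156) (nat_lit 76) (nat_lit 0) (XT.nd (nat_lit 78) (nat_lit 0) (nat_lit 0) (XT.lf (nat_lit 0) (nat_lit 18371380677) (nat_lit 152) (nat_lit 47328843443) (nat_lit 0) (nat_lit 6954633161) (nat_lit 23) (nat_lit 5) (nat_lit 25) (nat_lit 4) (nat_lit 23) (nat_lit 4) (nat_lit 494) (nat_lit 395) (nat_lit 311)) (XT.lf (nat_lit 0) (nat_lit 35627752212) (nat_lit 152) (nat_lit 15611985689) (nat_lit 0) (nat_lit 24201827888)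 (nat_lit 23) (nat_lit 5) (nat_lit 25) (nat_lit 4) (nat_lit 23) (nat_lit 4) (nat_lit 495) (nat_lit 395) (nat_lit 310))) (XT.nd (nat_lit 78) (nat_lit 0) (nat_lit 0) (XT.lf (nat_lit 0) (nat_lit 18223016471) (nat_lit 76) (nat_lit 35783148226) (nat_lit 76) (nat_lit 24348484085) (nat_lit 22) (nat_lit 4) (nat_lit 23) (nat_lit 5) (nat_lit 23) (nat_lit 4) (nat_lit 496) (nat_lit 395) (nat_lit 309)) (XT.lf (nat_lit 0) (nat_lit 54241654573) (nat_lit 76) (nat_lit 19301371445) (nat_lit 76) (nat_lit 7858383670) (nat_lit 22) (nat_lit 4) (nat_lit 23) (nat_lit 5) (nat_lit 23) (nat_lit 4) (nat_lit 497) (nat_lit 395) (nat_lit 308))))))))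
noncomputable def xc83 : XT := (XT.nd (nat_lit 2418) (nat_lit 228) (nat_lit 0) (XT.nd (nat_lit 1170) (nat_lit 456) (nat_lit 0) (XT.nd (nat_lit 546) (nat_lit 304) (nat_lit 0) (XT.nd (nat_lit 234) (nat_lit 228) (nat_lit 0) (XT.nd (nat_lit 78) (nat_lit 0) (nat_lit 0) (XT.lf (nat_lit 0) (nat_lit 7504740214) (nat_lit 76) (nat_lit 1741920888) (nat_lit 152) (nat_lit 75341810911) (nat_lit 20) (nat_lit 5) (nat_lit 21) (nat_lit 5) (nat_lit 22) (nat_lit 4) (nat_lit 498) (nat_lit 395) (nat_lit 307)) (XT.nd (nat_lit 78) (nat_lit 0) (nat_lit 0) (XT.lf (nat_lit 0) (nat_lit 27646984683) (nat_lit 152) (nat_lit 43512094596) (nat_lit 0) (nat_lit 16734161036) (nat_lit 20) (nat_lit 5) (nat_lit 22) (nat_lit 4) (nat_lit 20) (nat_lit 4) (nat_lit 499) (nat_lit 395) (nat_lit 306)) (XT.lf (nat_lit 0) (nat_lit 46972977885) (nat_lit 152) (nat_lit 8336680254) (nat_lit 0) (nat_lit 36053306363) (nat_lit 20) (nat_lit 5) (nat_lit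 22) (nat_lit 4) (nat_lit 20) (nat_lit 4) (nat_lit 500) (nat_lit 395) (nat_lit 305)))) (XT.nd (nat_lit 156) (nat_lit 152) (nat_lit 0) (XT.nd (nat_lit 78) (nat_lit 0) (nat_lit 0) (XT.lf (nat_lit 0) (nat_lit 29497564767) (nat_lit 76) (nat_lit 38206433596) (nat_lit 76) (nat_lit 27280240289) (nat_lit 19) (nat_lit 4) (nat_lit 20) (nat_lit 5) (nat_lit 20) (nat_lit 4) (nat_lit 501) (nat_lit 395) (nat_lit 304)) (XT.lf (nat_lit 0) (nat_lit 69469616852) (nat_lit 76) (nat_lit 20121688765) (nat_lit 76) (nat_lit 9189284233) (nat_lit 19) (nat_lit 4) (nat_lit 20) (nat_lit 5) (nat_lit 20) (nat_lit 4) (nat_lit 502) (nat_lit 395) (nat_lit 303))) (XT.nd (nat_lit 78) (nat_lit 0) (nat_lit 0) (XT.lf (nat_lit 0) (nat_lit 8758787318) (nat_lit 76) (nat_lit 849557707) (nat_lit 152) (nat_lit 93144959287) (nat_lit 17) (nat_lit 5) (nat_lit 18) (nat_lit 5) (nat_lit 19) (nat_lit 4) (nat_lit 503) (nat_lit 395) (nat_lit 302))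 (XT.lf (nat_lit 0) (nat_lit 29823496213) (nat_lit 152) (nat_lit 57653620041) (nat_lit 0) (nat_lit 19400683120) (nat_lit 17) (nat_lit 5) (nat_lit 19) (nat_lit 4) (nat_lit 17) (nat_lit 4) (nat_lit 504) (nat_lit 395) (nat_lit 301))))) (XT.nd (nat_lit 312) (nat_lit 228) (nat_lit 0) (XT.nd (nat_lit 156) (nat_lit 0) (nat_lit 0) (XT.nd (nat_lit 78) (nat_lit 76) (nat_lit 0) (XT.lf (nat_lit 0) (nat_lit 51043574930) (nat_lit 152) (nat_lit 19549584017) (nat_lit 0) (nat_lit 40615651847) (nat_lit 17) (nat_lit 5) (nat_lit 19) (nat_lit 4) (nat_lit 17) (nat_lit 4) (nat_lit 505) (nat_lit 395) (nat_lit 300)) (XT.lf (nat_lit 0) (nat_lit 21096808573) (nat_lit 76) (nat_lit 52538412929) (nat_lit 76) (nat_lit 42105623189) (nat_lit 16) (nat_lit 4) (nat_lit 17) (nat_lit 5) (nat_lit 17) (nat_lit 4) (nat_lit 506) (nat_lit 395) (nat_lit 299))) (XT.nd (nat_lit 78) (nat_lit 0) (nat_lit 0) (XT.lf (nat_lit 0) (nat_lit 64416777459)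 (nat_lit 76) (nat_lit 33252249375) (nat_lit 76) (nat_lit 22814824724) (nat_lit 16) (nat_lit 4) (nat_lit 17) (nat_lit 5) (nat_lit 17) (nat_lit 4) (nat_lit 507) (nat_lit 395) (nat_lit 298)) (XT.lf (nat_lit 0) (nat_lit 109867067885) (nat_lit 76) (nat_lit 13019830514) (nat_lit 76) (nat_lit 2577991661) (nat_lit 16) (nat_lit 4) (nat_lit 17) (nat_lit 5) (nat_lit 17) (nat_lit 4) (nat_lit 508) (nat_lit 395) (nat_lit 297)))) (XT.nd (nat_lit 156) (nat_lit 76) (nat_lit 0) (XT.nd (nat_lit 78) (nat_lit 0) (nat_lit 0) (XT.lf (nat_lit 0) (nat_lit 18624508177) (nat_lit 152) (nat_lit 103352431194) (nat_lit 0) (nat_lit 8675895935) (nat_lit 14) (nat_lit 5) (nat_lit 16) (nat_lit 4) (nat_lit 14) (nat_lit 4) (nat_lit 509) (nat_lit 395) (nat_lit 296)) (XT.lf (nat_lit 0) (nat_lit 41265375628) (nat_lit 152) (nat_lit 63496494922) (nat_lit 0) (nat_lit 31312950233) (nat_lit 14) (nat_lit 5) (nat_lit 16) (nat_lit 4) (nat_lit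 14) (nat_lit 4) (nat_lit 510) (nat_lit 395) (nat_lit 295))) (XT.nd (nat_lit 78) (nat_lit 76) (nat_lit 0) (XT.lf (nat_lit 0) (nat_lit 65022051306) (nat_lit 152) (nat_lit 21680671724) (nat_lit 0) (nat_lit 55065994336) (nat_lit 14) (nat_lit 5) (nat_lit 16) (nat_lit 4) (nat_lit 14) (nat_lit 4) (nat_lit 511) (nat_lit 395) (nat_lit 294)) (XT.lf (nat_lit 0) (nat_lit 22928453589) (nat_lit 76) (nat_lit 67380622552) (nat_lit 76) (nat_lit 57421106940) (nat_lit 13) (nat_lit 4) (nat_lit 14) (nat_lit 5) (nat_lit 14) (nat_lit 4) (nat_lit 512) (nat_lit 395) (nat_lit 293)))))) (XT.nd (nat_lit 624) (nat_lit 228) (nat_lit 0) (XT.nd (nat_lit 312) (nat_lit 76) (nat_lit 0) (XT.nd (nat_lit 156) (nat_lit 152) (nat_lit 0) (XT.nd (nat_lit 78) (nat_lit 0) (nat_lit 0) (XT.lf (nat_lit 0) (nat_lit 70489901913) (nat_lit 76) (nat_lit 46722515760) (nat_lit 76) (nat_lit 36759706204) (nat_lit 13) (nat_lit 4) (nat_lit 14) (nat_lit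 5) (nat_lit 14) (nat_lit 4) (nat_lit 513) (nat_lit 395) (nat_lit 292)) (XT.lf (nat_lit 0) (nat_lit 120400053871) (nat_lit 76) (nat_lit 25046389353) (nat_lit 76) (nat_lit 15080442706) (nat_lit 13) (nat_lit 4) (nat_lit 14) (nat_lit 5) (nat_lit 14) (nat_lit 4) (nat_lit 514) (nat_lit 395) (nat_lit 291))) (XT.nd (nat_lit 78) (nat_lit 0) (nat_lit 0) (XT.lf (nat_lit 0) (nat_lit 5421464391) (nat_lit 76) (nat_lit 2086047190) (nat_lit 152) (nat_lit 159892345840) (nat_lit 11) (nat_lit 5) (nat_lit 12) (nat_lit 5) (nat_lit 13) (nat_lit 4) (nat_lit 515) (nat_lit 395) (nat_lit 290)) (XT.lf (nat_lit 0) (nat_lit 31738589361) (nat_lit 152) (nat_lit 120572844554) (nat_lit 0) (nat_lit 22241656232) (nat_lit 11) (nat_lit 5) (nat_lit 13) (nat_lit 4) (nat_lit 11) (nat_lit 4) (nat_lit 516) (nat_lit 395) (nat_lit 289)))) (XT.nd (nat_lit 156) (nat_lit 76) (nat_lit 0) (XT.nd (nat_lit 78) (nat_lit 0) (nat_lit 0) (XT.lf (nat_lit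 0) (nat_lit 57202075443) (nat_lit 152) (nat_lit 77158304976) (nat_lit 0) (nat_lit 47702561422) (nat_lit 11) (nat_lit 5) (nat_lit 13) (nat_lit 4) (nat_lit 11) (nat_lit 4) (nat_lit 517) (nat_lit 395) (nat_lit 288)) (XT.lf (nat_lit 0) (nat_lit 83926028134) (nat_lit 152) (nat_lit 31598837302) (nat_lit 0) (nat_lit 74424056121) (nat_lit 11) (nat_lit 5) (nat_lit 13) (nat_lit 4) (nat_lit 11) (nat_lit 4) (nat_lit 518) (nat_lit 395) (nat_lit 287))) (XT.nd (nat_lit 78) (nat_lit 0) (nat_lit 0) (XT.lf (nat_lit 0) (nat_lit 16750142559) (nat_lit 76) (nat_lit 95485450000) (nat_lit 76) (nat_lit 85981137041) (nat_lit 10) (nat_lit 4) (nat_lit 11) (nat_lit 5) (nat_lit 11) (nat_lit 4) (nat_lit 519) (nat_lit 395) (nat_lit 286)) (XT.lf (nat_lit 0) (nat_lit 68589437624) (nat_lit 76) (nat_lit 73894435501) (nat_lit 76) (nat_lit 64387893071) (nat_lit 10) (nat_lit 4) (nat_lit 11) (nat_lit 5) (nat_lit 11) (nat_lit 4) (nat_lit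 520) (nat_lit 395) (nat_lit 285))))) (XT.nd (nat_lit 312) (nat_lit 76) (nat_lit 0) (XT.nd (nat_lit 156) (nat_lit 152) (nat_lit 0) (XT.nd (nat_lit 78) (nat_lit 0) (nat_lit 0) (XT.lf (nat_lit 0) (nat_lit 122997674519) (nat_lit 76) (nat_lit 51235556363) (nat_lit 76) (nat_lit 41726890626) (nat_lit 10) (nat_lit 4) (nat_lit 11) (nat_lit 5) (nat_lit 11) (nat_lit 4) (nat_lit 521) (nat_lit 395) (nat_lit 284)) (XT.lf (nat_lit 0) (nat_lit 180104396667) (nat_lit 76) (nat_lit 27454862871) (nat_lit 76) (nat_lit 17944174938) (nat_lit 10) (nat_lit 4) (nat_lit 11) (nat_lit 5) (nat_lit 11) (nat_lit 4) (nat_lit 522) (nat_lit 395) (nat_lit 283))) (XT.nd (nat_lit 78) (nat_lit 0) (nat_lit 0) (XT.lf (nat_lit 0) (nat_lit 4557459178) (nat_lit 76) (nat_lit 2305991072) (nat_lit 152) (nat_lit 228651941633) (nat_lit 8) (nat_lit 5) (nat_lit 9) (nat_lit 5) (nat_lit 10) (nat_lit 4) (nat_lit 523) (nat_lit 395) (nat_lit 282))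 (XT.lf (nat_lit 0) (nat_lit 33455701766) (nat_lit 152) (nat_lit 188105850044) (nat_lit 0) (nat_lit 24394322693) (nat_lit 8) (nat_lit 5) (nat_lit 10) (nat_lit 4) (nat_lit 8) (nat_lit 4) (nat_lit 524) (nat_lit 395) (nat_lit 281)))) (XT.nd (nat_lit 156) (nat_lit 76) (nat_lit 0) (XT.nd (nat_lit 78) (nat_lit 0) (nat_lit 0) (XT.lf (nat_lit 0) (nat_lit 61405420953) (nat_lit 152) (nat_lit 143169189367) (nat_lit 0) (nat_lit 52342378214) (nat_lit 8) (nat_lit 5) (nat_lit 10) (nat_lit 4) (nat_lit 8) (nat_lit 4) (nat_lit 525) (nat_lit 395) (nat_lit 280)) (XT.lf (nat_lit 0) (nat_lit 90743151780) (nat_lit 152) (nat_lit 96004955640) (nat_lit 0) (nat_lit 81678524597) (nat_lit 8) (nat_lit 5) (nat_lit 10) (nat_lit 4) (nat_lit 8) (nat_lit 4) (nat_lit 526) (nat_lit 395) (nat_lit 279))) (XT.nd (nat_lit 78) (nat_lit 76) (nat_lit 0) (XT.lf (nat_lit 0) (nat_lit 121538745985) (nat_lit 152) (nat_lit 46500853069) (nat_lit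 0) (nat_lit 112472609808) (nat_lit 8) (nat_lit 5) (nat_lit 10) (nat_lit 4) (nat_lit 8) (nat_lit 4) (nat_lit 527) (nat_lit 395) (nat_lit 278)) (XT.lf (nat_lit 0) (nat_lit 5641550091) (nat_lit 76) (nat_lit 148312056728) (nat_lit 76) (nat_lit 139244483414) (nat_lit 7) (nat_lit 4) (nat_lit 8) (nat_lit 5) (nat_lit 8) (nat_lit 4) (nat_lit 528) (nat_lit 395) (nat_lit 277))))))) (XT.nd (nat_lit 1170) (nat_lit 0) (nat_lit 0) (XT.nd (nat_lit 546) (nat_lit 76) (nat_lit 0) (XT.nd (nat_lit 234) (nat_lit 152) (nat_lit 0) (XT.nd (nat_lit 78) (nat_lit 0) (nat_lit 0) (XT.lf (nat_lit 0) (nat_lit 61988290416) (nat_lit 76) (nat_lit 126779982105) (nat_lit 76) (nat_lit 117711040088) (nat_lit 7) (nat_lit 4) (nat_lit 8) (nat_lit 5) (nat_lit 8) (nat_lit 4) (nat_lit 529) (nat_lit 395) (nat_lit 276)) (XT.nd (nat_lit 78) (nat_lit 0) (nat_lit 0) (XT.lf (nat_lit 0) (nat_lit 121135998606) (nat_lit 76) (nat_lit 104179622787)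 (nat_lit 76) (nat_lit 95109377245) (nat_lit 7) (nat_lit 4) (nat_lit 8) (nat_lit 5) (nat_lit 8) (nat_lit 4) (nat_lit 530) (nat_lit 395) (nat_lit 275)) (XT.lf (nat_lit 0) (nat_lit 183225502537) (nat_lit 76) (nat_lit 80457168395) (nat_lit 76) (nat_lit 71385681400) (nat_lit 7) (nat_lit 4) (nat_lit 8) (nat_lit 5) (nat_lit 8) (nat_lit 4) (nat_lit 531) (nat_lit 395) (nat_lit 274)))) (XT.nd (nat_lit 156) (nat_lit 152) (nat_lit 0) (XT.nd (nat_lit 78) (nat_lit 0) (nat_lit 0) (XT.lf (nat_lit 0) (nat_lit 248404634361) (nat_lit 76) (nat_lit 55556136895) (nat_lit 76) (nat_lit 46483467563) (nat_lit 7) (nat_lit 4) (nat_lit 8) (nat_lit 5) (nat_lit 8) (nat_lit 4) (nat_lit 532) (nat_lit 395) (nat_lit 273)) (XT.lf (nat_lit 0) (nat_lit 316828582487) (nat_lit 76) (nat_lit 29417240117) (nat_lit 76) (nat_lit 20343444750) (nat_lit 7) (nat_lit 4) (nat_lit 8) (nat_lit 5) (nat_lit 8) (nat_lit 4) (nat_lit 533) (nat_lit 395)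 (nat_lit 272))) (XT.nd (nat_lit 78) (nat_lit 0) (nat_lit 0) (XT.lf (nat_lit 0) (nat_lit 5173157743) (nat_lit 76) (nat_lit 1777098609) (nat_lit 152) (nat_lit 376582043844) (nat_lit 5) (nat_lit 5) (nat_lit 6) (nat_lit 5) (nat_lit 7) (nat_lit 4) (nat_lit 534) (nat_lit 395) (nat_lit 271)) (XT.lf (nat_lit 0) (nat_lit 36200149240) (nat_lit 152) (nat_lit 337485456202) (nat_lit 0) (nat_lit 27556445309) (nat_lit 5) (nat_lit 5) (nat_lit 7) (nat_lit 4) (nat_lit 5) (nat_lit 4) (nat_lit 535) (nat_lit 395) (nat_lit 270))))) (XT.nd (nat_lit 312) (nat_lit 76) (nat_lit 0) (XT.nd (nat_lit 156) (nat_lit 0) (nat_lit 0) (XT.nd (nat_lit 78) (nat_lit 0) (nat_lit 0) (XT.lf (nat_lit 0) (nat_lit 66935261829) (nat_lit 152) (nat_lit 294610259265) (nat_lit 0) (nat_lit 58290631507) (nat_lit 5) (nat_lit 5) (nat_lit 7) (nat_lit 4) (nat_lit 5) (nat_lit 4) (nat_lit 536) (nat_lit 395) (nat_lit 269)) (XT.lf (nat_lit 0) (nat_lit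 99201027469) (nat_lit 152) (nat_lit 249603722350) (nat_lit 0) (nat_lit 90555514870) (nat_lit 5) (nat_lit 5) (nat_lit 7) (nat_lit 4) (nat_lit 5) (nat_lit 4) (nat_lit 537) (nat_lit 395) (nat_lit 268))) (XT.nd (nat_lit 78) (nat_lit 0) (nat_lit 0) (XT.lf (nat_lit 0) (nat_lit 133074269413) (nat_lit 152) (nat_lit 202358687036) (nat_lit 0) (nat_lit 124427916549) (nat_lit 5) (nat_lit 5) (nat_lit 7) (nat_lit 4) (nat_lit 5) (nat_lit 4) (nat_lit 538) (nat_lit 395) (nat_lit 267)) (XT.lf (nat_lit 0) (nat_lit 168635638237) (nat_lit 152) (nat_lit 152762665143) (nat_lit 0) (nat_lit 159988485121) (nat_lit 5) (nat_lit 5) (nat_lit 7) (nat_lit 4) (nat_lit 5) (nat_lit 4) (nat_lit 539) (nat_lit 395) (nat_lit 266)))) (XT.nd (nat_lit 156) (nat_lit 76) (nat_lit 0) (XT.nd (nat_lit 78) (nat_lit 0) (nat_lit 0) (XT.lf (nat_lit 0) (nat_lit 205969803865) (nat_lit 152) (nat_lit 100697570906) (nat_lit 0) (nat_lit 197321888605)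 (nat_lit 5) (nat_lit 5) (nat_lit 7) (nat_lit 4) (nat_lit 5) (nat_lit 4) (nat_lit 540) (nat_lit 395) (nat_lit 265)) (XT.lf (nat_lit 0) (nat_lit 245165657170) (nat_lit 152) (nat_lit 46039439814) (nat_lit 0) (nat_lit 236517016057) (nat_lit 5) (nat_lit 5) (nat_lit 7) (nat_lit 4) (nat_lit 5) (nat_lit 4) (nat_lit 541) (nat_lit 395) (nat_lit 264))) (XT.nd (nat_lit 78) (nat_lit 0) (nat_lit 0) (XT.lf (nat_lit 0) (nat_lit 11716879869) (nat_lit 76) (nat_lit 274782575071) (nat_lit 76) (nat_lit 266133242671) (nat_lit 4) (nat_lit 4) (nat_lit 5) (nat_lit 5) (nat_lit 5) (nat_lit 4) (nat_lit 542) (nat_lit 395) (nat_lit 263)) (XT.lf (nat_lit 0) (nat_lit 73949826591) (nat_lit 76) (nat_lit 256725112880) (nat_lit 76) (nat_lit 248075122111) (nat_lit 4) (nat_lit 4) (nat_lit 5) (nat_lit 5) (nat_lit 5) (nat_lit 4) (nat_lit 543) (nat_lit 395) (nat_lit 262)))))) (XT.nd (nat_lit 51870) (nat_lit 0) (nat_lit 11552) (XT.nd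 (nat_lit 312) (nat_lit 0) (nat_lit 0) (XT.nd (nat_lit 156) (nat_lit 0) (nat_lit 0) (XT.nd (nat_lit 78) (nat_lit 0) (nat_lit 0) (XT.lf (nat_lit 0) (nat_lit 139285302234) (nat_lit 76) (nat_lit 237769416642) (nat_lit 76) (nat_lit 229118798854) (nat_lit 4) (nat_lit 4) (nat_lit 5) (nat_lit 5) (nat_lit 5) (nat_lit 4) (nat_lit 544) (nat_lit 395) (nat_lit 261)) (XT.lf (nat_lit 0) (nat_lit 207878867455) (nat_lit 76) (nat_lit 217870353748) (nat_lit 76) (nat_lit 209219138800) (nat_lit 4) (nat_lit 4) (nat_lit 5) (nat_lit 5) (nat_lit 5) (nat_lit 4) (nat_lit 545) (nat_lit 395) (nat_lit 260))) (XT.nd (nat_lit 78) (nat_lit 0) (nat_lit 0) (XT.lf (nat_lit 0) (nat_lit 279893840264) (nat_lit 76) (nat_lit 196980545476) (nat_lit 76) (nat_lit 188328761804) (nat_lit 4) (nat_lit 4) (nat_lit 5) (nat_lit 5) (nat_lit 5) (nat_lit 4) (nat_lit 546) (nat_lit 395) (nat_lit 259)) (XT.lf (nat_lit 0) (nat_lit 355501684885) (nat_lit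 76) (nat_lit 175050254187) (nat_lit 76) (nat_lit 166397928874) (nat_lit 4) (nat_lit 4) (nat_lit 5) (nat_lit 5) (nat_lit 5) (nat_lit 4) (nat_lit 547) (nat_lit 395) (nat_lit 258)))) (XT.nd (nat_lit 156) (nat_lit 0) (nat_lit 0) (XT.nd (nat_lit 78) (nat_lit 0) (nat_lit 0) (XT.lf (nat_lit 0) (nat_lit 434882419993) (nat_lit 76) (nat_lit 152027264903) (nat_lit 76) (nat_lit 143374423740) (nat_lit 4) (nat_lit 4) (nat_lit 5) (nat_lit 5) (nat_lit 5) (nat_lit 4) (nat_lit 548) (nat_lit 395) (nat_lit 257)) (XT.lf (nat_lit 0) (nat_lit 518225047340) (nat_lit 76) (nat_lit 127856760982) (nat_lit 76) (nat_lit 119203428534) (nat_lit 4) (nat_lit 4) (nat_lit 5) (nat_lit 5) (nat_lit 5) (nat_lit 4) (nat_lit 549) (nat_lit 395) (nat_lit 256))) (XT.nd (nat_lit 78) (nat_lit 0) (nat_lit 0) (XT.lf (nat_lit 0) (nat_lit 605728001753) (nat_lit 76) (nat_lit 102481193606) (nat_lit 76) (nat_lit 93827393267) (nat_lit 4) (nat_lit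 4) (nat_lit 5) (nat_lit 5) (nat_lit 5) (nat_lit 4) (nat_lit 550) (nat_lit 395) (nat_lit 255)) (XT.lf (nat_lit 0) (nat_lit 697599623599) (nat_lit 76) (nat_lit 75840144756) (nat_lit 76) (nat_lit 67185898807) (nat_lit 4) (nat_lit 4) (nat_lit 5) (nat_lit 5) (nat_lit 5) (nat_lit 4) (nat_lit 551) (nat_lit 395) (nat_lit 254))))) (XT.nd (nat_lit 312) (nat_lit 1976) (nat_lit 0) (XT.nd (nat_lit 156) (nat_lit 532) (nat_lit 0) (XT.nd (nat_lit 78) (nat_lit 380) (nat_lit 0) (XT.lf (nat_lit 0) (nat_lit 908669093) (nat_lit 380) (nat_lit 1495554463) (nat_lit 0) (nat_lit 908669093) (nat_lit 194) (nat_lit 5) (nat_lit 199) (nat_lit 4) (nat_lit 194) (nat_lit 4) (nat_lit 408) (nat_lit 396) (nat_lit 396)) (XT.lf (nat_lit 0) (nat_lit 1266776031) (nat_lit 380) (nat_lit 3842446134) (nat_lit 380) (nat_lit 1566916919) (nat_lit 189) (nat_lit 4) (nat_lit 194) (nat_lit 5) (nat_lit 194) (nat_lit 4) (nat_lit 409) (nat_lit 396)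 (nat_lit 395))) (XT.nd (nat_lit 78) (nat_lit 456) (nat_lit 0) (XT.lf (nat_lit 0) (nat_lit 1648800733) (nat_lit 456) (nat_lit 1062658390) (nat_lit 76) (nat_lit 4022615382) (nat_lit 188) (nat_lit 5) (nat_lit 194) (nat_lit 5) (nat_lit 189) (nat_lit 4) (nat_lit 410) (nat_lit 396) (nat_lit 394)) (XT.lf (nat_lit 0) (nat_lit 3444930672) (nat_lit 456) (nat_lit 1409509641) (nat_lit 532) (nat_lit 1945132831) (nat_lit 182) (nat_lit 5) (nat_lit 188) (nat_lit 5) (nat_lit 189) (nat_lit 4) (nat_lit 411) (nat_lit 396) (nat_lit 393)))) (XT.nd (nat_lit 156) (nat_lit 1368) (nat_lit 0) (XT.nd (nat_lit 78) (nat_lit 0) (nat_lit 0) (XT.lf (nat_lit 0) (nat_lit 1178042633) (nat_lit 608) (nat_lit 5653926565) (nat_lit 76) (nat_lit 41893828) (nat_lit 174) (nat_lit 5) (nat_lit 182) (nat_lit 5) (nat_lit 175) (nat_lit 4) (nat_lit 412) (nat_lit 396) (nat_lit 392)) (XT.lf (nat_lit 0) (nat_lit 4310276356) (nat_lit 608) (nat_lit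 1015784116) (nat_lit 76) (nat_lit 1628334146) (nat_lit 174) (nat_lit 5) (nat_lit 182) (nat_lit 5) (nat_lit 175) (nat_lit 4) (nat_lit 413) (nat_lit 396) (nat_lit 391))) (XT.nd (nat_lit 78) (nat_lit 684) (nat_lit 0) (XT.lf (nat_lit 0) (nat_lit 445663861) (nat_lit 684) (nat_lit 3217332436) (nat_lit 76) (nat_lit 3380379775) (nat_lit 165) (nat_lit 5) (nat_lit 174) (nat_lit 5) (nat_lit 166) (nat_lit 5) (nat_lit 414) (nat_lit 396) (nat_lit 390)) (XT.lf (nat_lit 0) (nat_lit 1673081078) (nat_lit 684) (nat_lit 1819447366) (nat_lit 760) (nat_lit 3647568442) (nat_lit 156) (nat_lit 5) (nat_lit 165) (nat_lit 5) (nat_lit 166) (nat_lit 5) (nat_lit 415) (nat_lit 396) (nat_lit 389))))))))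
noncomputable def xc84 : XT := (XT.nd (nat_lit 2418) (nat_lit 2508) (nat_lit 0) (XT.nd (nat_lit 1170) (nat_lit 2280) (nat_lit 0) (XT.nd (nat_lit 546) (nat_lit 1824) (nat_lit 0) (XT.nd (nat_lit 234) (nat_lit 1216) (nat_lit 0) (XT.nd (nat_lit 78) (nat_lit 1216) (nat_lit 0) (XT.lf (nat_lit 0) (nat_lit 6601832489) (nat_lit 760) (nat_lit 473128588) (nat_lit 76) (nat_lit 171216665) (nat_lit 156) (nat_lit 5) (nat_lit 166) (nat_lit 5) (nat_lit 157) (nat_lit 4) (nat_lit 416) (nat_lit 396) (nat_lit 388)) (XT.nd (nat_lit 78) (nat_lit 380) (nat_lit 0) (XT.lf (nat_lit 0) (nat_lit 2391986624) (nat_lit 836) (nat_lit 2649369987) (nat_lit 76) (nat_lit 2316110881) (nat_lit 145) (nat_lit 5) (nat_lit 156) (nat_lit 5) (nat_lit 146) (nat_lit 5) (nat_lit 417) (nat_lit 396) (nat_lit 387)) (XT.lf (nat_lit 0) (nat_lit 2617713105) (nat_lit 380) (nat_lit 2851897141) (nat_lit 456) (nat_lit 2008651753) (nat_lit 140) (nat_lit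 5) (nat_lit 145) (nat_lit 5) (nat_lit 146) (nat_lit 5) (nat_lit 418) (nat_lit 396) (nat_lit 386)))) (XT.nd (nat_lit 156) (nat_lit 760) (nat_lit 0) (XT.nd (nat_lit 78) (nat_lit 0) (nat_lit 0) (XT.lf (nat_lit 0) (nat_lit 486585674) (nat_lit 380) (nat_lit 491776699) (nat_lit 456) (nat_lit 6630029685) (nat_lit 134) (nat_lit 5) (nat_lit 139) (nat_lit 5) (nat_lit 140) (nat_lit 5) (nat_lit 419) (nat_lit 396) (nat_lit 385)) (XT.lf (nat_lit 0) (nat_lit 4030083570) (nat_lit 456) (nat_lit 1688779469) (nat_lit 76) (nat_lit 2025397633) (nat_lit 134) (nat_lit 5) (nat_lit 140) (nat_lit 5) (nat_lit 135) (nat_lit 5) (nat_lit 420) (nat_lit 396) (nat_lit 384))) (XT.nd (nat_lit 78) (nat_lit 380) (nat_lit 0) (XT.lf (nat_lit 0) (nat_lit 3990411886) (nat_lit 380) (nat_lit 3188801946) (nat_lit 456) (nat_lit 710488209) (nat_lit 129) (nat_lit 5) (nat_lit 134) (nat_lit 5) (nat_lit 135) (nat_lit 5) (nat_lit 421) (nat_lit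 396) (nat_lit 383)) (XT.lf (nat_lit 0) (nat_lit 1844719269) (nat_lit 304) (nat_lit 454525360) (nat_lit 380) (nat_lit 5744578864) (nat_lit 124) (nat_lit 5) (nat_lit 128) (nat_lit 5) (nat_lit 129) (nat_lit 5) (nat_lit 422) (nat_lit 396) (nat_lit 382))))) (XT.nd (nat_lit 312) (nat_lit 836) (nat_lit 0) (XT.nd (nat_lit 156) (nat_lit 608) (nat_lit 0) (XT.nd (nat_lit 78) (nat_lit 380) (nat_lit 0) (XT.lf (nat_lit 0) (nat_lit 5419884716) (nat_lit 380) (nat_lit 391693407) (nat_lit 76) (nat_lit 2394293329) (nat_lit 124) (nat_lit 5) (nat_lit 129) (nat_lit 5) (nat_lit 125) (nat_lit 5) (nat_lit 423) (nat_lit 396) (nat_lit 381)) (XT.lf (nat_lit 0) (nat_lit 292217610) (nat_lit 380) (nat_lit 2642347808) (nat_lit 76) (nat_lit 5442125126) (nat_lit 119) (nat_lit 5) (nat_lit 124) (nat_lit 5) (nat_lit 120) (nat_lit 5) (nat_lit 424) (nat_lit 396) (nat_lit 380))) (XT.nd (nat_lit 78) (nat_lit 304) (nat_lit 0) (XT.lf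 (nat_lit 0) (nat_lit 3382084819) (nat_lit 380) (nat_lit 5011136311) (nat_lit 76) (nat_lit 162992140) (nat_lit 115) (nat_lit 5) (nat_lit 120) (nat_lit 5) (nat_lit 116) (nat_lit 5) (nat_lit 425) (nat_lit 396) (nat_lit 379)) (XT.lf (nat_lit 0) (nat_lit 1234618335) (nat_lit 304) (nat_lit 5393991362) (nat_lit 380) (nat_lit 2116008772) (nat_lit 111) (nat_lit 5) (nat_lit 115) (nat_lit 5) (nat_lit 116) (nat_lit 5) (nat_lit 426) (nat_lit 396) (nat_lit 378)))) (XT.nd (nat_lit 156) (nat_lit 532) (nat_lit 0) (XT.nd (nat_lit 78) (nat_lit 228) (nat_lit 0) (XT.lf (nat_lit 0) (nat_lit 1036756256) (nat_lit 380) (nat_lit 1138501441) (nat_lit 76) (nat_lit 6767505278) (nat_lit 110) (nat_lit 5) (nat_lit 115) (nat_lit 5) (nat_lit 111) (nat_lit 5) (nat_lit 427) (nat_lit 396) (nat_lit 377)) (XT.lf (nat_lit 0) (nat_lit 4278706466) (nat_lit 304) (nat_lit 3616943706) (nat_lit 76) (nat_lit 1253309736) (nat_lit 107) (nat_lit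 5) (nat_lit 111) (nat_lit 5) (nat_lit 108) (nat_lit 5) (nat_lit 428) (nat_lit 396) (nat_lit 376))) (XT.nd (nat_lit 78) (nat_lit 304) (nat_lit 0) (XT.lf (nat_lit 0) (nat_lit 3131745039) (nat_lit 228) (nat_lit 4553109261) (nat_lit 304) (nat_lit 1680519354) (nat_lit 104) (nat_lit 5) (nat_lit 107) (nat_lit 5) (nat_lit 108) (nat_lit 5) (nat_lit 429) (nat_lit 396) (nat_lit 375)) (XT.lf (nat_lit 0) (nat_lit 601454834) (nat_lit 228) (nat_lit 984447992) (nat_lit 304) (nat_lit 8006882951) (nat_lit 100) (nat_lit 5) (nat_lit 103) (nat_lit 5) (nat_lit 104) (nat_lit 5) (nat_lit 430) (nat_lit 396) (nat_lit 374)))))) (XT.nd (nat_lit 624) (nat_lit 1140) (nat_lit 0) (XT.nd (nat_lit 312) (nat_lit 684) (nat_lit 0) (XT.nd (nat_lit 156) (nat_lit 228) (nat_lit 0) (XT.nd (nat_lit 78) (nat_lit 228) (nat_lit 0) (XT.lf (nat_lit 0) (nat_lit 5010468492) (nat_lit 304) (nat_lit 2050541420) (nat_lit 76) (nat_lit 2766626518)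 (nat_lit 100) (nat_lit 5) (nat_lit 104) (nat_lit 5) (nat_lit 101) (nat_lit 5) (nat_lit 431) (nat_lit 396) (nat_lit 373)) (XT.lf (nat_lit 0) (nat_lit 5249598981) (nat_lit 228) (nat_lit 3360349597) (nat_lit 304) (nat_lit 1464106581) (nat_lit 97) (nat_lit 5) (nat_lit 100) (nat_lit 5) (nat_lit 101) (nat_lit 5) (nat_lit 432) (nat_lit 396) (nat_lit 372))) (XT.nd (nat_lit 78) (nat_lit 0) (nat_lit 0) (XT.lf (nat_lit 0) (nat_lit 1981760735) (nat_lit 228) (nat_lit 7777506864) (nat_lit 76) (nat_lit 572381828) (nat_lit 94) (nat_lit 5) (nat_lit 97) (nat_lit 5) (nat_lit 95) (nat_lit 5) (nat_lit 433) (nat_lit 396) (nat_lit 371)) (XT.lf (nat_lit 0) (nat_lit 5596837080) (nat_lit 228) (nat_lit 351299390) (nat_lit 76) (nat_lit 4650489397) (nat_lit 94) (nat_lit 5) (nat_lit 97) (nat_lit 5) (nat_lit 95) (nat_lit 5) (nat_lit 434) (nat_lit 396) (nat_lit 370)))) (XT.nd (nat_lit 156) (nat_lit 228) (nat_lit 0) (XT.nd (nat_lit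 78) (nat_lit 228) (nat_lit 0) (XT.lf (nat_lit 0) (nat_lit 7552716543) (nat_lit 228) (nat_lit 1870238939) (nat_lit 304) (nat_lit 1454489338) (nat_lit 91) (nat_lit 5) (nat_lit 94) (nat_lit 5) (nat_lit 95) (nat_lit 5) (nat_lit 435) (nat_lit 396) (nat_lit 369)) (XT.lf (nat_lit 0) (nat_lit 2228327007) (nat_lit 228) (nat_lit 6535313217) (nat_lit 76) (nat_lit 2403259071) (nat_lit 88) (nat_lit 5) (nat_lit 91) (nat_lit 5) (nat_lit 89) (nat_lit 5) (nat_lit 436) (nat_lit 396) (nat_lit 368))) (XT.nd (nat_lit 78) (nat_lit 0) (nat_lit 0) (XT.lf (nat_lit 0) (nat_lit 1488100397) (nat_lit 228) (nat_lit 4583769818) (nat_lit 304) (nat_lit 5396497753) (nat_lit 85) (nat_lit 5) (nat_lit 88) (nat_lit 5) (nat_lit 89) (nat_lit 5) (nat_lit 437) (nat_lit 396) (nat_lit 367)) (XT.lf (nat_lit 0) (nat_lit 10004556121) (nat_lit 228) (nat_lit 130028375) (nat_lit 304) (nat_lit 1648982549) (nat_lit 85) (nat_lit 5) (nat_lit 88)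 (nat_lit 5) (nat_lit 89) (nat_lit 5) (nat_lit 438) (nat_lit 396) (nat_lit 366))))) (XT.nd (nat_lit 312) (nat_lit 532) (nat_lit 0) (XT.nd (nat_lit 156) (nat_lit 228) (nat_lit 0) (XT.nd (nat_lit 78) (nat_lit 152) (nat_lit 0) (XT.lf (nat_lit 0) (nat_lit 2311782896) (nat_lit 228) (nat_lit 5298237327) (nat_lit 76) (nat_lit 4497775536) (nat_lit 82) (nat_lit 5) (nat_lit 85) (nat_lit 5) (nat_lit 83) (nat_lit 5) (nat_lit 439) (nat_lit 396) (nat_lit 365)) (XT.lf (nat_lit 0) (nat_lit 3389061512) (nat_lit 152) (nat_lit 3031823460) (nat_lit 228) (nat_lit 6025719320) (nat_lit 80) (nat_lit 5) (nat_lit 82) (nat_lit 5) (nat_lit 83) (nat_lit 5) (nat_lit 440) (nat_lit 396) (nat_lit 364))) (XT.nd (nat_lit 78) (nat_lit 228) (nat_lit 0) (XT.lf (nat_lit 0) (nat_lit 10775368769) (nat_lit 228) (nat_lit 265695903) (nat_lit 76) (nat_lit 1759297735) (nat_lit 80) (nat_lit 5) (nat_lit 83) (nat_lit 5) (nat_lit 81) (nat_lit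 4) (nat_lit 441) (nat_lit 396) (nat_lit 363)) (XT.lf (nat_lit 0) (nat_lit 2224263656) (nat_lit 228) (nat_lit 4122190275) (nat_lit 76) (nat_lit 6817754302) (nat_lit 77) (nat_lit 5) (nat_lit 80) (nat_lit 5) (nat_lit 78) (nat_lit 5) (nat_lit 442) (nat_lit 396) (nat_lit 362)))) (XT.nd (nat_lit 156) (nat_lit 228) (nat_lit 0) (XT.nd (nat_lit 78) (nat_lit 152) (nat_lit 0) (XT.lf (nat_lit 0) (nat_lit 5286871539) (nat_lit 152) (nat_lit 1343368007) (nat_lit 228) (nat_lit 6913736274) (nat_lit 75) (nat_lit 5) (nat_lit 77) (nat_lit 5) (nat_lit 78) (nat_lit 5) (nat_lit 443) (nat_lit 396) (nat_lit 361)) (XT.lf (nat_lit 0) (nat_lit 1218894651) (nat_lit 152) (nat_lit 10114633634) (nat_lit 228) (nat_lit 2605357309) (nat_lit 73) (nat_lit 5) (nat_lit 75) (nat_lit 5) (nat_lit 76) (nat_lit 4) (nat_lit 444) (nat_lit 396) (nat_lit 360))) (XT.nd (nat_lit 78) (nat_lit 152) (nat_lit 0) (XT.lf (nat_lit 0) (nat_lit 1947538781)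 (nat_lit 228) (nat_lit 3074013780) (nat_lit 76) (nat_lit 9325969762) (nat_lit 72) (nat_lit 5) (nat_lit 75) (nat_lit 5) (nat_lit 73) (nat_lit 5) (nat_lit 445) (nat_lit 396) (nat_lit 359)) (XT.lf (nat_lit 0) (nat_lit 6688289877) (nat_lit 228) (nat_lit 7662309438) (nat_lit 76) (nat_lit 421471570) (nat_lit 70) (nat_lit 5) (nat_lit 73) (nat_lit 5) (nat_lit 71) (nat_lit 4) (nat_lit 446) (nat_lit 396) (nat_lit 358))))))) (XT.nd (nat_lit 1170) (nat_lit 1064) (nat_lit 0) (XT.nd (nat_lit 546) (nat_lit 760) (nat_lit 0) (XT.nd (nat_lit 234) (nat_lit 380) (nat_lit 0) (XT.nd (nat_lit 78) (nat_lit 228) (nat_lit 0) (XT.lf (nat_lit 0) (nat_lit 2570200628) (nat_lit 76) (nat_lit 9201745554) (nat_lit 152) (nat_lit 3440611021) (nat_lit 69) (nat_lit 5) (nat_lit 70) (nat_lit 5) (nat_lit 71) (nat_lit 4) (nat_lit 447) (nat_lit 396) (nat_lit 357)) (XT.nd (nat_lit 78) (nat_lit 152) (nat_lit 0) (XT.lf (nat_lit 0) (nat_lit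 1451494506) (nat_lit 152) (nat_lit 2236150725) (nat_lit 76) (nat_lit 11983171127) (nat_lit 68) (nat_lit 5) (nat_lit 70) (nat_lit 5) (nat_lit 69) (nat_lit 5) (nat_lit 448) (nat_lit 396) (nat_lit 356)) (XT.lf (nat_lit 0) (nat_lit 6579231045) (nat_lit 228) (nat_lit 7382757686) (nat_lit 76) (nat_lit 2181850132) (nat_lit 66) (nat_lit 5) (nat_lit 69) (nat_lit 5) (nat_lit 67) (nat_lit 4) (nat_lit 449) (nat_lit 396) (nat_lit 355)))) (XT.nd (nat_lit 156) (nat_lit 228) (nat_lit 0) (XT.nd (nat_lit 78) (nat_lit 76) (nat_lit 0) (XT.lf (nat_lit 0) (nat_lit 3686031001) (nat_lit 76) (nat_lit 8368452440) (nat_lit 152) (nat_lit 4581475656) (nat_lit 65) (nat_lit 5) (nat_lit 66) (nat_lit 5) (nat_lit 67) (nat_lit 4) (nat_lit 450) (nat_lit 396) (nat_lit 354)) (XT.lf (nat_lit 0) (nat_lit 691944721) (nat_lit 152) (nat_lit 1712385174) (nat_lit 76) (nat_lit 14744752080) (nat_lit 64) (nat_lit 5) (nat_lit 66) (nat_lit 5)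 (nat_lit 65) (nat_lit 5) (nat_lit 451) (nat_lit 396) (nat_lit 353))) (XT.nd (nat_lit 78) (nat_lit 76) (nat_lit 0) (XT.lf (nat_lit 0) (nat_lit 6236008067) (nat_lit 228) (nat_lit 7515953760) (nat_lit 76) (nat_lit 3924099523) (nat_lit 62) (nat_lit 5) (nat_lit 65) (nat_lit 5) (nat_lit 63) (nat_lit 4) (nat_lit 452) (nat_lit 396) (nat_lit 352)) (XT.lf (nat_lit 0) (nat_lit 4447056629) (nat_lit 76) (nat_lit 7686962716) (nat_lit 152) (nat_lit 6091535622) (nat_lit 61) (nat_lit 5) (nat_lit 62) (nat_lit 5) (nat_lit 63) (nat_lit 4) (nat_lit 453) (nat_lit 396) (nat_lit 351))))) (XT.nd (nat_lit 312) (nat_lit 456) (nat_lit 0) (XT.nd (nat_lit 156) (nat_lit 76) (nat_lit 0) (XT.nd (nat_lit 78) (nat_lit 228) (nat_lit 0) (XT.lf (nat_lit 0) (nat_lit 17157857276) (nat_lit 76) (nat_lit 1235977823) (nat_lit 152) (nat_lit 405345364) (nat_lit 61) (nat_lit 5) (nat_lit 62) (nat_lit 5) (nat_lit 63) (nat_lit 4) (nat_lit 454)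 (nat_lit 396) (nat_lit 350)) (XT.lf (nat_lit 0) (nat_lit 5594509234) (nat_lit 228) (nat_lit 8212708731) (nat_lit 76) (nat_lit 5579553329) (nat_lit 58) (nat_lit 5) (nat_lit 61) (nat_lit 5) (nat_lit 59) (nat_lit 4) (nat_lit 455) (nat_lit 396) (nat_lit 349))) (XT.nd (nat_lit 78) (nat_lit 0) (nat_lit 0) (XT.lf (nat_lit 0) (nat_lit 4699606095) (nat_lit 76) (nat_lit 7244927015) (nat_lit 152) (nat_lit 8055688434) (nat_lit 57) (nat_lit 5) (nat_lit 58) (nat_lit 5) (nat_lit 59) (nat_lit 4) (nat_lit 456) (nat_lit 396) (nat_lit 348)) (XT.lf (nat_lit 0) (nat_lit 18436113260) (nat_lit 76) (nat_lit 258044308) (nat_lit 152) (nat_lit 1946083738) (nat_lit 57) (nat_lit 5) (nat_lit 58) (nat_lit 5) (nat_lit 59) (nat_lit 4) (nat_lit 457) (nat_lit 396) (nat_lit 347)))) (XT.nd (nat_lit 156) (nat_lit 152) (nat_lit 0) (XT.nd (nat_lit 78) (nat_lit 76) (nat_lit 0) (XT.lf (nat_lit 0) (nat_lit 4568163876) (nat_lit 228) (nat_lit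 9666083295) (nat_lit 76) (nat_lit 7062418056) (nat_lit 54) (nat_lit 5) (nat_lit 57) (nat_lit 5) (nat_lit 55) (nat_lit 4) (nat_lit 458) (nat_lit 396) (nat_lit 346)) (XT.lf (nat_lit 0) (nat_lit 4245025916) (nat_lit 76) (nat_lit 7151277268) (nat_lit 152) (nat_lit 10585334686) (nat_lit 53) (nat_lit 5) (nat_lit 54) (nat_lit 5) (nat_lit 55) (nat_lit 4) (nat_lit 459) (nat_lit 396) (nat_lit 345))) (XT.nd (nat_lit 78) (nat_lit 152) (nat_lit 0) (XT.lf (nat_lit 0) (nat_lit 18682099734) (nat_lit 152) (nat_lit 3616419544) (nat_lit 0) (nat_lit 396528973) (nat_lit 53) (nat_lit 5) (nat_lit 55) (nat_lit 4) (nat_lit 53) (nat_lit 4) (nat_lit 460) (nat_lit 396) (nat_lit 344)) (XT.lf (nat_lit 0) (nat_lit 3042150324) (nat_lit 152) (nat_lit 12123950521) (nat_lit 76) (nat_lit 8263448780) (nat_lit 51) (nat_lit 5) (nat_lit 53) (nat_lit 5) (nat_lit 52) (nat_lit 4) (nat_lit 461) (nat_lit 396) (nat_lit 343)))))) (XT.nd (nat_lit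 624) (nat_lit 532) (nat_lit 0) (XT.nd (nat_lit 312) (nat_lit 228) (nat_lit 0) (XT.nd (nat_lit 156) (nat_lit 228) (nat_lit 0) (XT.nd (nat_lit 78) (nat_lit 0) (nat_lit 0) (XT.lf (nat_lit 0) (nat_lit 2826175117) (nat_lit 76) (nat_lit 7543464101) (nat_lit 152) (nat_lit 13825124123) (nat_lit 50) (nat_lit 5) (nat_lit 51) (nat_lit 5) (nat_lit 52) (nat_lit 4) (nat_lit 462) (nat_lit 396) (nat_lit 342)) (XT.lf (nat_lit 0) (nat_lit 18227724830) (nat_lit 152) (nat_lit 6153073665) (nat_lit 0) (nat_lit 609229466) (nat_lit 50) (nat_lit 5) (nat_lit 52) (nat_lit 4) (nat_lit 50) (nat_lit 4) (nat_lit 463) (nat_lit 396) (nat_lit 341))) (XT.nd (nat_lit 78) (nat_lit 76) (nat_lit 0) (XT.lf (nat_lit 0) (nat_lit 865884244) (nat_lit 152) (nat_lit 15904960874) (nat_lit 76) (nat_lit 9042044305) (nat_lit 48) (nat_lit 5) (nat_lit 50) (nat_lit 5) (nat_lit 49) (nat_lit 4) (nat_lit 464) (nat_lit 396) (nat_lit 340)) (XT.lf (nat_lit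 0) (nat_lit 110235384) (nat_lit 76) (nat_lit 8596524252) (nat_lit 152) (nat_lit 17961665782) (nat_lit 47) (nat_lit 5) (nat_lit 48) (nat_lit 5) (nat_lit 49) (nat_lit 4) (nat_lit 465) (nat_lit 396) (nat_lit 339)))) (XT.nd (nat_lit 156) (nat_lit 152) (nat_lit 0) (XT.nd (nat_lit 78) (nat_lit 76) (nat_lit 0) (XT.lf (nat_lit 0) (nat_lit 17164326956) (nat_lit 152) (nat_lit 10173928963) (nat_lit 0) (nat_lit 217250983) (nat_lit 47) (nat_lit 5) (nat_lit 49) (nat_lit 4) (nat_lit 47) (nat_lit 4) (nat_lit 466) (nat_lit 396) (nat_lit 338)) (XT.lf (nat_lit 0) (nat_lit 7023087569) (nat_lit 76) (nat_lit 19225675889) (nat_lit 76) (nat_lit 2227980505) (nat_lit 46) (nat_lit 4) (nat_lit 47) (nat_lit 5) (nat_lit 47) (nat_lit 4) (nat_lit 467) (nat_lit 396) (nat_lit 337))) (XT.nd (nat_lit 78) (nat_lit 76) (nat_lit 0) (XT.lf (nat_lit 0) (nat_lit 6268970312) (nat_lit 152) (nat_lit 4194515205) (nat_lit 76) (nat_lit 18969175454)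 (nat_lit 45) (nat_lit 5) (nat_lit 47) (nat_lit 5) (nat_lit 46) (nat_lit 4) (nat_lit 468) (nat_lit 396) (nat_lit 336)) (XT.lf (nat_lit 0) (nat_lit 14261422307) (nat_lit 76) (nat_lit 1032841084) (nat_lit 152) (nat_lit 15131366654) (nat_lit 44) (nat_lit 5) (nat_lit 45) (nat_lit 5) (nat_lit 46) (nat_lit 4) (nat_lit 469) (nat_lit 396) (nat_lit 335))))) (XT.nd (nat_lit 312) (nat_lit 304) (nat_lit 0) (XT.nd (nat_lit 156) (nat_lit 76) (nat_lit 0) (XT.nd (nat_lit 78) (nat_lit 76) (nat_lit 0) (XT.lf (nat_lit 0) (nat_lit 2164487062) (nat_lit 76) (nat_lit 22806655781) (nat_lit 76) (nat_lit 6487089500) (nat_lit 43) (nat_lit 4) (nat_lit 44) (nat_lit 5) (nat_lit 44) (nat_lit 4) (nat_lit 470) (nat_lit 396) (nat_lit 334)) (XT.lf (nat_lit 0) (nat_lit 2757610670) (nat_lit 152) (nat_lit 10706126039) (nat_lit 76) (nat_lit 19064153127) (nat_lit 42) (nat_lit 5) (nat_lit 44) (nat_lit 5) (nat_lit 43) (nat_lit 4) (nat_lit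 471) (nat_lit 396) (nat_lit 333))) (XT.nd (nat_lit 78) (nat_lit 0) (nat_lit 0) (XT.lf (nat_lit 0) (nat_lit 8907428643) (nat_lit 76) (nat_lit 3436195522) (nat_lit 152) (nat_lit 21297235141) (nat_lit 41) (nat_lit 5) (nat_lit 42) (nat_lit 5) (nat_lit 43) (nat_lit 4) (nat_lit 472) (nat_lit 396) (nat_lit 332)) (XT.lf (nat_lit 0) (nat_lit 22662096550) (nat_lit 152) (nat_lit 5123079489) (nat_lit 0) (nat_lit 7011644008) (nat_lit 41) (nat_lit 5) (nat_lit 43) (nat_lit 4) (nat_lit 41) (nat_lit 4) (nat_lit 473) (nat_lit 396) (nat_lit 331)))) (XT.nd (nat_lit 156) (nat_lit 76) (nat_lit 0) (XT.nd (nat_lit 78) (nat_lit 152) (nat_lit 0) (XT.lf (nat_lit 0) (nat_lit 15840046326) (nat_lit 76) (nat_lit 17920213536) (nat_lit 76) (nat_lit 2237131270) (nat_lit 40) (nat_lit 4) (nat_lit 41) (nat_lit 5) (nat_lit 41) (nat_lit 4) (nat_lit 474) (nat_lit 396) (nat_lit 330)) (XT.lf (nat_lit 0) (nat_lit 587134337) (nat_lit 76)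 (nat_lit 7364715677) (nat_lit 152) (nat_lit 29296898418) (nat_lit 38) (nat_lit 5) (nat_lit 39) (nat_lit 5) (nat_lit 40) (nat_lit 4) (nat_lit 475) (nat_lit 396) (nat_lit 329))) (XT.nd (nat_lit 78) (nat_lit 76) (nat_lit 0) (XT.lf (nat_lit 0) (nat_lit 18940403272) (nat_lit 152) (nat_lit 15655820388) (nat_lit 0) (nat_lit 3946351544) (nat_lit 38) (nat_lit 5) (nat_lit 40) (nat_lit 4) (nat_lit 38) (nat_lit 4) (nat_lit 476) (nat_lit 396) (nat_lit 328)) (XT.lf (nat_lit 0) (nat_lit 6409883637) (nat_lit 76) (nat_lit 24251478800) (nat_lit 76) (nat_lit 9230582518) (nat_lit 37) (nat_lit 4) (nat_lit 38) (nat_lit 5) (nat_lit 38) (nat_lit 4) (nat_lit 477) (nat_lit 396) (nat_lit 327))))))))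
noncomputable def xc85 : XT := (XT.nd (nat_lit 2418) (nat_lit 836) (nat_lit 0) (XT.nd (nat_lit 1170) (nat_lit 760) (nat_lit 0) (XT.nd (nat_lit 546) (nat_lit 456) (nat_lit 0) (XT.nd (nat_lit 234) (nat_lit 228) (nat_lit 0) (XT.nd (nat_lit 78) (nat_lit 76) (nat_lit 0) (XT.lf (nat_lit 0) (nat_lit 1838166065) (nat_lit 152) (nat_lit 11278222090) (nat_lit 76) (nat_lit 28179515162) (nat_lit 36) (nat_lit 5) (nat_lit 38) (nat_lit 5) (nat_lit 37) (nat_lit 4) (nat_lit 478) (nat_lit 396) (nat_lit 326)) (XT.nd (nat_lit 78) (nat_lit 0) (nat_lit 0) (XT.lf (nat_lit 0) (nat_lit 12203804018) (nat_lit 76) (nat_lit 1100886393) (nat_lit 152) (nat_lit 29450076289) (nat_lit 35) (nat_lit 5) (nat_lit 36) (nat_lit 5) (nat_lit 37) (nat_lit 4) (nat_lit 479) (nat_lit 396) (nat_lit 325)) (XT.lf (nat_lit 0) (nat_lit 25682548752) (nat_lit 152) (nat_lit 7279814543) (nat_lit 0) (nat_lit 11307310026) (nat_lit 35) (nat_lit 5) (nat_lit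 37) (nat_lit 4) (nat_lit 35) (nat_lit 4) (nat_lit 480) (nat_lit 396) (nat_lit 324)))) (XT.nd (nat_lit 156) (nat_lit 76) (nat_lit 0) (XT.nd (nat_lit 78) (nat_lit 76) (nat_lit 0) (XT.lf (nat_lit 0) (nat_lit 17633257543) (nat_lit 76) (nat_lit 21305191425) (nat_lit 76) (nat_lit 6908919289) (nat_lit 34) (nat_lit 4) (nat_lit 35) (nat_lit 5) (nat_lit 35) (nat_lit 4) (nat_lit 481) (nat_lit 396) (nat_lit 323)) (XT.lf (nat_lit 0) (nat_lit 5272999154) (nat_lit 152) (nat_lit 3606655690) (nat_lit 76) (nat_lit 38615557640) (nat_lit 33) (nat_lit 5) (nat_lit 35) (nat_lit 5) (nat_lit 34) (nat_lit 4) (nat_lit 482) (nat_lit 396) (nat_lit 322))) (XT.nd (nat_lit 78) (nat_lit 0) (nat_lit 0) (XT.lf (nat_lit 0) (nat_lit 18227227910) (nat_lit 152) (nat_lit 26493543201) (nat_lit 0) (nat_lit 4479245167) (nat_lit 32) (nat_lit 5) (nat_lit 34) (nat_lit 4) (nat_lit 32) (nat_lit 4) (nat_lit 483) (nat_lit 396) (nat_lit 321))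 (XT.lf (nat_lit 0) (nat_lit 32004335057) (nat_lit 152) (nat_lit 737919140) (nat_lit 0) (nat_lit 18239048075) (nat_lit 32) (nat_lit 5) (nat_lit 34) (nat_lit 4) (nat_lit 32) (nat_lit 4) (nat_lit 484) (nat_lit 396) (nat_lit 320))))) (XT.nd (nat_lit 312) (nat_lit 152) (nat_lit 0) (XT.nd (nat_lit 156) (nat_lit 76) (nat_lit 0) (XT.nd (nat_lit 78) (nat_lit 152) (nat_lit 0) (XT.lf (nat_lit 0) (nat_lit 27111493030) (nat_lit 76) (nat_lit 19751154787) (nat_lit 76) (nat_lit 5969387577) (nat_lit 31) (nat_lit 4) (nat_lit 32) (nat_lit 5) (nat_lit 32) (nat_lit 4) (nat_lit 485) (nat_lit 396) (nat_lit 319)) (XT.lf (nat_lit 0) (nat_lit 1469340567) (nat_lit 76) (nat_lit 5977880521) (nat_lit 152) (nat_lit 47321845767) (nat_lit 29) (nat_lit 5) (nat_lit 30) (nat_lit 5) (nat_lit 31) (nat_lit 4) (nat_lit 486) (nat_lit 396) (nat_lit 318))) (XT.nd (nat_lit 78) (nat_lit 76) (nat_lit 0) (XT.lf (nat_lit 0) (nat_lit 21878379145)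 (nat_lit 152) (nat_lit 26168759348) (nat_lit 0) (nat_lit 8723702272) (nat_lit 29) (nat_lit 5) (nat_lit 31) (nat_lit 4) (nat_lit 29) (nat_lit 4) (nat_lit 487) (nat_lit 396) (nat_lit 317)) (XT.lf (nat_lit 0) (nat_lit 2233376851) (nat_lit 76) (nat_lit 34901194103) (nat_lit 76) (nat_lit 21732958905) (nat_lit 28) (nat_lit 4) (nat_lit 29) (nat_lit 5) (nat_lit 29) (nat_lit 4) (nat_lit 488) (nat_lit 396) (nat_lit 316)))) (XT.nd (nat_lit 156) (nat_lit 0) (nat_lit 0) (XT.nd (nat_lit 78) (nat_lit 152) (nat_lit 0) (XT.lf (nat_lit 0) (nat_lit 32906226447) (nat_lit 76) (nat_lit 20661630444) (nat_lit 76) (nat_lit 7480482556) (nat_lit 28) (nat_lit 4) (nat_lit 29) (nat_lit 5) (nat_lit 29) (nat_lit 4) (nat_lit 489) (nat_lit 396) (nat_lit 315)) (XT.lf (nat_lit 0) (nat_lit 1654548062) (nat_lit 76) (nat_lit 5588375717) (nat_lit 152) (nat_lit 56089530151) (nat_lit 26) (nat_lit 5) (nat_lit 27) (nat_lit 5) (nat_lit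 28) (nat_lit 4) (nat_lit 490) (nat_lit 396) (nat_lit 314))) (XT.nd (nat_lit 78) (nat_lit 0) (nat_lit 0) (XT.lf (nat_lit 0) (nat_lit 23067439886) (nat_lit 152) (nat_lit 32135287251) (nat_lit 0) (nat_lit 10491099050) (nat_lit 26) (nat_lit 5) (nat_lit 28) (nat_lit 4) (nat_lit 26) (nat_lit 4) (nat_lit 491) (nat_lit 396) (nat_lit 313)) (XT.lf (nat_lit 0) (nat_lit 39748191626) (nat_lit 152) (nat_lit 1260597670) (nat_lit 0) (nat_lit 27161227489) (nat_lit 26) (nat_lit 5) (nat_lit 28) (nat_lit 4) (nat_lit 26) (nat_lit 4) (nat_lit 492) (nat_lit 396) (nat_lit 312)))))) (XT.nd (nat_lit 624) (nat_lit 304) (nat_lit 0) (XT.nd (nat_lit 312) (nat_lit 228) (nat_lit 0) (XT.nd (nat_lit 156) (nat_lit 76) (nat_lit 0) (XT.nd (nat_lit 78) (nat_lit 76) (nat_lit 0) (XT.lf (nat_lit 0) (nat_lit 32135459645) (nat_lit 76) (nat_lit 25603909810) (nat_lit 76) (nat_lit 13006828242) (nat_lit 25) (nat_lit 4) (nat_lit 26) (nat_lit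 5) (nat_lit 26) (nat_lit 4) (nat_lit 493) (nat_lit 396) (nat_lit 311)) (XT.lf (nat_lit 0) (nat_lit 3073551999) (nat_lit 152) (nat_lit 6305935617) (nat_lit 76) (nat_lit 64069399700) (nat_lit 24) (nat_lit 5) (nat_lit 26) (nat_lit 5) (nat_lit 25) (nat_lit 4) (nat_lit 494) (nat_lit 396) (nat_lit 310))) (XT.nd (nat_lit 78) (nat_lit 0) (nat_lit 0) (XT.lf (nat_lit 0) (nat_lit 20067770875) (nat_lit 152) (nat_lit 48128298958) (nat_lit 0) (nat_lit 8052633710) (nat_lit 23) (nat_lit 5) (nat_lit 25) (nat_lit 4) (nat_lit 23) (nat_lit 4) (nat_lit 495) (nat_lit 396) (nat_lit 309)) (XT.lf (nat_lit 0) (nat_lit 38149921883) (nat_lit 152) (nat_lit 14900216729) (nat_lit 0) (nat_lit 26126461084) (nat_lit 23) (nat_lit 5) (nat_lit 25) (nat_lit 4) (nat_lit 23) (nat_lit 4) (nat_lit 496) (nat_lit 396) (nat_lit 308)))) (XT.nd (nat_lit 156) (nat_lit 152) (nat_lit 0) (XT.nd (nat_lit 78) (nat_lit 0) (nat_lit 0) (XT.lf (nat_lit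 0) (nat_lit 20602465084) (nat_lit 76) (nat_lit 36832438816) (nat_lit 76) (nat_lit 24801050745) (nat_lit 22) (nat_lit 4) (nat_lit 23) (nat_lit 5) (nat_lit 23) (nat_lit 4) (nat_lit 497) (nat_lit 396) (nat_lit 307)) (XT.lf (nat_lit 0) (nat_lit 58352116148) (nat_lit 76) (nat_lit 19561804950) (nat_lit 76) (nat_lit 7522867097) (nat_lit 22) (nat_lit 4) (nat_lit 23) (nat_lit 5) (nat_lit 23) (nat_lit 4) (nat_lit 498) (nat_lit 396) (nat_lit 306))) (XT.nd (nat_lit 78) (nat_lit 0) (nat_lit 0) (XT.lf (nat_lit 0) (nat_lit 9278744515) (nat_lit 76) (nat_lit 1123632380) (nat_lit 152) (nat_lit 78380845238) (nat_lit 20) (nat_lit 5) (nat_lit 21) (nat_lit 5) (nat_lit 22) (nat_lit 4) (nat_lit 499) (nat_lit 396) (nat_lit 305)) (XT.lf (nat_lit 0) (nat_lit 29700187029) (nat_lit 152) (nat_lit 44333006239) (nat_lit 0) (nat_lit 18221162270) (nat_lit 20) (nat_lit 5) (nat_lit 22) (nat_lit 4) (nat_lit 20) (nat_lit 4) (nat_lit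 500) (nat_lit 396) (nat_lit 304))))) (XT.nd (nat_lit 312) (nat_lit 76) (nat_lit 0) (XT.nd (nat_lit 156) (nat_lit 152) (nat_lit 0) (XT.nd (nat_lit 78) (nat_lit 76) (nat_lit 0) (XT.lf (nat_lit 0) (nat_lit 49960534505) (nat_lit 152) (nat_lit 7463330375) (nat_lit 0) (nat_lit 38475298521) (nat_lit 20) (nat_lit 5) (nat_lit 22) (nat_lit 4) (nat_lit 20) (nat_lit 4) (nat_lit 501) (nat_lit 396) (nat_lit 303)) (XT.lf (nat_lit 0) (nat_lit 32241817479) (nat_lit 76) (nat_lit 39475682843) (nat_lit 76) (nat_lit 27984531408) (nat_lit 19) (nat_lit 4) (nat_lit 20) (nat_lit 5) (nat_lit 20) (nat_lit 4) (nat_lit 502) (nat_lit 396) (nat_lit 302))) (XT.nd (nat_lit 78) (nat_lit 152) (nat_lit 0) (XT.lf (nat_lit 0) (nat_lit 74152025765) (nat_lit 76) (nat_lit 20517228029) (nat_lit 76) (nat_lit 9020442830) (nat_lit 19) (nat_lit 4) (nat_lit 20) (nat_lit 5) (nat_lit 20) (nat_lit 4) (nat_lit 503) (nat_lit 396) (nat_lit 301))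 (XT.lf (nat_lit 0) (nat_lit 10405944616) (nat_lit 76) (nat_lit 280931141) (nat_lit 152) (nat_lit 97174184854) (nat_lit 17) (nat_lit 5) (nat_lit 18) (nat_lit 5) (nat_lit 19) (nat_lit 4) (nat_lit 504) (nat_lit 396) (nat_lit 300)))) (XT.nd (nat_lit 156) (nat_lit 76) (nat_lit 0) (XT.nd (nat_lit 78) (nat_lit 0) (nat_lit 0) (XT.lf (nat_lit 0) (nat_lit 31893389628) (nat_lit 152) (nat_lit 59365266952) (nat_lit 0) (nat_lit 20934093744) (nat_lit 17) (nat_lit 5) (nat_lit 19) (nat_lit 4) (nat_lit 17) (nat_lit 4) (nat_lit 505) (nat_lit 396) (nat_lit 299)) (XT.lf (nat_lit 0) (nat_lit 54146914253) (nat_lit 152) (nat_lit 19411792656) (nat_lit 0) (nat_lit 43182983457) (nat_lit 17) (nat_lit 5) (nat_lit 19) (nat_lit 4) (nat_lit 17) (nat_lit 4) (nat_lit 506) (nat_lit 396) (nat_lit 298))) (XT.nd (nat_lit 78) (nat_lit 0) (nat_lit 0) (XT.lf (nat_lit 0) (nat_lit 23248931330) (nat_lit 76) (nat_lit 54610097735) (nat_lit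 76) (nat_lit 43641752738) (nat_lit 16) (nat_lit 4) (nat_lit 17) (nat_lit 5) (nat_lit 17) (nat_lit 4) (nat_lit 507) (nat_lit 396) (nat_lit 297)) (XT.lf (nat_lit 0) (nat_lit 68682647120) (nat_lit 76) (nat_lit 34386065805) (nat_lit 76) (nat_lit 23413516807) (nat_lit 16) (nat_lit 4) (nat_lit 17) (nat_lit 5) (nat_lit 17) (nat_lit 4) (nat_lit 508) (nat_lit 396) (nat_lit 296))))))) (XT.nd (nat_lit 1170) (nat_lit 380) (nat_lit 0) (XT.nd (nat_lit 546) (nat_lit 228) (nat_lit 0) (XT.nd (nat_lit 234) (nat_lit 76) (nat_lit 0) (XT.nd (nat_lit 78) (nat_lit 152) (nat_lit 0) (XT.lf (nat_lit 0) (nat_lit 116355688696) (nat_lit 76) (nat_lit 13167206764) (nat_lit 76) (nat_lit 2190653956) (nat_lit 16) (nat_lit 4) (nat_lit 17) (nat_lit 5) (nat_lit 17) (nat_lit 4) (nat_lit 509) (nat_lit 396) (nat_lit 295)) (XT.nd (nat_lit 78) (nat_lit 0) (nat_lit 0) (XT.lf (nat_lit 0) (nat_lit 20055063311) (nat_lit 152) (nat_lit 107507873051)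 (nat_lit 0) (nat_lit 9597571919) (nat_lit 14) (nat_lit 5) (nat_lit 16) (nat_lit 4) (nat_lit 14) (nat_lit 4) (nat_lit 510) (nat_lit 396) (nat_lit 294)) (XT.lf (nat_lit 0) (nat_lit 43804196529) (nat_lit 152) (nat_lit 65707338999) (nat_lit 0) (nat_lit 33343246495) (nat_lit 14) (nat_lit 5) (nat_lit 16) (nat_lit 4) (nat_lit 14) (nat_lit 4) (nat_lit 511) (nat_lit 396) (nat_lit 293)))) (XT.nd (nat_lit 156) (nat_lit 0) (nat_lit 0) (XT.nd (nat_lit 78) (nat_lit 76) (nat_lit 0) (XT.lf (nat_lit 0) (nat_lit 68726060651) (nat_lit 152) (nat_lit 21846628483) (nat_lit 0) (nat_lit 58261816672) (nat_lit 14) (nat_lit 5) (nat_lit 16) (nat_lit 4) (nat_lit 14) (nat_lit 4) (nat_lit 512) (nat_lit 396) (nat_lit 292)) (XT.lf (nat_lit 0) (nat_lit 24978145405) (nat_lit 76) (nat_lit 70291826896) (nat_lit 76) (nat_lit 59824445826) (nat_lit 13) (nat_lit 4) (nat_lit 14) (nat_lit 5) (nat_lit 14) (nat_lit 4) (nat_lit 513) (nat_lit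 396) (nat_lit 291))) (XT.nd (nat_lit 78) (nat_lit 0) (nat_lit 0) (XT.lf (nat_lit 0) (nat_lit 74874653329) (nat_lit 76) (nat_lit 48622616040) (nat_lit 76) (nat_lit 38152247265) (nat_lit 13) (nat_lit 4) (nat_lit 14) (nat_lit 5) (nat_lit 14) (nat_lit 4) (nat_lit 514) (nat_lit 396) (nat_lit 290)) (XT.lf (nat_lit 0) (nat_lit 127239348298) (nat_lit 76) (nat_lit 25883446432) (nat_lit 76) (nat_lit 15410232224) (nat_lit 13) (nat_lit 4) (nat_lit 14) (nat_lit 5) (nat_lit 14) (nat_lit 4) (nat_lit 515) (nat_lit 396) (nat_lit 289))))) (XT.nd (nat_lit 312) (nat_lit 76) (nat_lit 0) (XT.nd (nat_lit 156) (nat_lit 0) (nat_lit 0) (XT.nd (nat_lit 78) (nat_lit 0) (nat_lit 0) (XT.lf (nat_lit 0) (nat_lit 6511975744) (nat_lit 76) (nat_lit 1774804689) (nat_lit 152) (nat_lit 167462873558) (nat_lit 11) (nat_lit 5) (nat_lit 12) (nat_lit 5) (nat_lit 13) (nat_lit 4) (nat_lit 516) (nat_lit 396) (nat_lit 288)) (XT.lf (nat_lit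 0) (nat_lit 33716357965) (nat_lit 152) (nat_lit 125808013815) (nat_lit 0) (nat_lit 23736829358) (nat_lit 11) (nat_lit 5) (nat_lit 13) (nat_lit 4) (nat_lit 11) (nat_lit 4) (nat_lit 517) (nat_lit 396) (nat_lit 287))) (XT.nd (nat_lit 78) (nat_lit 0) (nat_lit 0) (XT.lf (nat_lit 0) (nat_lit 60434406964) (nat_lit 152) (nat_lit 80260531685) (nat_lit 0) (nat_lit 50452537412) (nat_lit 11) (nat_lit 5) (nat_lit 13) (nat_lit 4) (nat_lit 11) (nat_lit 4) (nat_lit 518) (nat_lit 396) (nat_lit 286)) (XT.lf (nat_lit 0) (nat_lit 88476832159) (nat_lit 152) (nat_lit 32459075795) (nat_lit 0) (nat_lit 78492733135) (nat_lit 11) (nat_lit 5) (nat_lit 13) (nat_lit 4) (nat_lit 11) (nat_lit 4) (nat_lit 519) (nat_lit 396) (nat_lit 285)))) (XT.nd (nat_lit 156) (nat_lit 0) (nat_lit 0) (XT.nd (nat_lit 78) (nat_lit 0) (nat_lit 0) (XT.lf (nat_lit 0) (nat_lit 18295744939) (nat_lit 76) (nat_lit 99900304140) (nat_lit 76) (nat_lit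 89914081810) (nat_lit 10) (nat_lit 4) (nat_lit 11) (nat_lit 5) (nat_lit 11) (nat_lit 4) (nat_lit 520) (nat_lit 396) (nat_lit 284)) (XT.lf (nat_lit 0) (nat_lit 72693285936) (nat_lit 76) (nat_lit 77246854076) (nat_lit 76) (nat_lit 67258609550) (nat_lit 10) (nat_lit 4) (nat_lit 11) (nat_lit 5) (nat_lit 11) (nat_lit 4) (nat_lit 521) (nat_lit 396) (nat_lit 283))) (XT.nd (nat_lit 78) (nat_lit 0) (nat_lit 0) (XT.lf (nat_lit 0) (nat_lit 129789821513) (nat_lit 76) (nat_lit 53471331133) (nat_lit 76) (nat_lit 43481160705) (nat_lit 10) (nat_lit 4) (nat_lit 11) (nat_lit 5) (nat_lit 11) (nat_lit 4) (nat_lit 522) (nat_lit 396) (nat_lit 282)) (XT.lf (nat_lit 0) (nat_lit 189721295802) (nat_lit 76) (nat_lit 28517126922) (nat_lit 76) (nat_lit 18525122302) (nat_lit 10) (nat_lit 4) (nat_lit 11) (nat_lit 5) (nat_lit 11) (nat_lit 4) (nat_lit 523) (nat_lit 396) (nat_lit 281)))))) (XT.nd (nat_lit 624) (nat_lit 152) (nat_lit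 0) (XT.nd (nat_lit 312) (nat_lit 76) (nat_lit 0) (XT.nd (nat_lit 156) (nat_lit 0) (nat_lit 0) (XT.nd (nat_lit 78) (nat_lit 0) (nat_lit 0) (XT.lf (nat_lit 0) (nat_lit 5397105810) (nat_lit 76) (nat_lit 2110629448) (nat_lit 152) (nat_lit 239768369539) (nat_lit 8) (nat_lit 5) (nat_lit 9) (nat_lit 5) (nat_lit 10) (nat_lit 4) (nat_lit 524) (nat_lit 396) (nat_lit 280)) (XT.lf (nat_lit 0) (nat_lit 35419879985) (nat_lit 152) (nat_lit 196918780583) (nat_lit 0) (nat_lit 25900436999) (nat_lit 8) (nat_lit 5) (nat_lit 10) (nat_lit 4) (nat_lit 8) (nat_lit 4) (nat_lit 525) (nat_lit 396) (nat_lit 279))) (XT.nd (nat_lit 78) (nat_lit 0) (nat_lit 0) (XT.lf (nat_lit 0) (nat_lit 64753209268) (nat_lit 152) (nat_lit 149763494584) (nat_lit 0) (nat_lit 55232257288) (nat_lit 8) (nat_lit 5) (nat_lit 10) (nat_lit 4) (nat_lit 8) (nat_lit 4) (nat_lit 526) (nat_lit 396) (nat_lit 278)) (XT.lf (nat_lit 0) (nat_lit 95544611528)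 (nat_lit 152) (nat_lit 100267913659) (nat_lit 0) (nat_lit 86022222411) (nat_lit 8) (nat_lit 5) (nat_lit 10) (nat_lit 4) (nat_lit 8) (nat_lit 4) (nat_lit 527) (nat_lit 396) (nat_lit 277)))) (XT.nd (nat_lit 156) (nat_lit 0) (nat_lit 0) (XT.nd (nat_lit 78) (nat_lit 76) (nat_lit 0) (XT.lf (nat_lit 0) (nat_lit 127867399626) (nat_lit 152) (nat_lit 48314191187) (nat_lit 0) (nat_lit 118343641807) (nat_lit 8) (nat_lit 5) (nat_lit 10) (nat_lit 4) (nat_lit 8) (nat_lit 4) (nat_lit 528) (nat_lit 396) (nat_lit 276)) (XT.lf (nat_lit 0) (nat_lit 6427078832) (nat_lit 76) (nat_lit 155471798462) (nat_lit 76) (nat_lit 145946737117) (nat_lit 7) (nat_lit 4) (nat_lit 8) (nat_lit 5) (nat_lit 8) (nat_lit 4) (nat_lit 529) (nat_lit 396) (nat_lit 275))) (XT.nd (nat_lit 78) (nat_lit 0) (nat_lit 0) (XT.lf (nat_lit 0) (nat_lit 65567182306) (nat_lit 76) (nat_lit 132875303969) (nat_lit 76) (nat_lit 123349001171) (nat_lit 7)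 (nat_lit 4) (nat_lit 8) (nat_lit 5) (nat_lit 8) (nat_lit 4) (nat_lit 530) (nat_lit 396) (nat_lit 274)) (XT.lf (nat_lit 0) (nat_lit 127649443649) (nat_lit 76) (nat_lit 109156530364) (nat_lit 76) (nat_lit 99629045229) (nat_lit 7) (nat_lit 4) (nat_lit 8) (nat_lit 5) (nat_lit 8) (nat_lit 4) (nat_lit 531) (nat_lit 396) (nat_lit 273))))) (XT.nd (nat_lit 312) (nat_lit 0) (nat_lit 0) (XT.nd (nat_lit 156) (nat_lit 152) (nat_lit 0) (XT.nd (nat_lit 78) (nat_lit 0) (nat_lit 0) (XT.lf (nat_lit 0) (nat_lit 192821677771) (nat_lit 76) (nat_lit 84259004374) (nat_lit 76) (nat_lit 74730393205) (nat_lit 7) (nat_lit 4) (nat_lit 8) (nat_lit 5) (nat_lit 8) (nat_lit 4) (nat_lit 532) (nat_lit 396) (nat_lit 272)) (XT.lf (nat_lit 0) (nat_lit 261239056658) (nat_lit 76) (nat_lit 58123446178) (nat_lit 76) (nat_lit 48593762594) (nat_lit 7) (nat_lit 4) (nat_lit 8) (nat_lit 5) (nat_lit 8) (nat_lit 4) (nat_lit 533) (nat_lit 396)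 (nat_lit 271))) (XT.nd (nat_lit 78) (nat_lit 152) (nat_lit 0) (XT.lf (nat_lit 0) (nat_lit 333064478829) (nat_lit 76) (nat_lit 30687628254) (nat_lit 76) (nat_lit 21156923324) (nat_lit 7) (nat_lit 4) (nat_lit 8) (nat_lit 5) (nat_lit 8) (nat_lit 4) (nat_lit 534) (nat_lit 396) (nat_lit 270)) (XT.lf (nat_lit 0) (nat_lit 5826335397) (nat_lit 76) (nat_lit 1665378280) (nat_lit 152) (nat_lit 395207503716) (nat_lit 5) (nat_lit 5) (nat_lit 6) (nat_lit 5) (nat_lit 7) (nat_lit 4) (nat_lit 535) (nat_lit 396) (nat_lit 269)))) (XT.nd (nat_lit 156) (nat_lit 0) (nat_lit 0) (XT.nd (nat_lit 78) (nat_lit 0) (nat_lit 0) (XT.lf (nat_lit 0) (nat_lit 38197848176) (nat_lit 152) (nat_lit 353977742310) (nat_lit 0) (nat_lit 29119177669) (nat_lit 5) (nat_lit 5) (nat_lit 7) (nat_lit 4) (nat_lit 5) (nat_lit 4) (nat_lit 536) (nat_lit 396) (nat_lit 268)) (XT.lf (nat_lit 0) (nat_lit 70460778706) (nat_lit 152) (nat_lit 308976975369)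 (nat_lit 0) (nat_lit 61381267934) (nat_lit 5) (nat_lit 5) (nat_lit 7) (nat_lit 4) (nat_lit 5) (nat_lit 4) (nat_lit 537) (nat_lit 396) (nat_lit 267))) (XT.nd (nat_lit 78) (nat_lit 0) (nat_lit 0) (XT.lf (nat_lit 0) (nat_lit 104331320543) (nat_lit 152) (nat_lit 261737435268) (nat_lit 0) (nat_lit 95251009520) (nat_lit 5) (nat_lit 5) (nat_lit 7) (nat_lit 4) (nat_lit 5) (nat_lit 4) (nat_lit 538) (nat_lit 396) (nat_lit 266)) (XT.lf (nat_lit 0) (nat_lit 139890117837) (nat_lit 152) (nat_lit 212146646912) (nat_lit 0) (nat_lit 130809044669) (nat_lit 5) (nat_lit 5) (nat_lit 7) (nat_lit 4) (nat_lit 5) (nat_lit 4) (nat_lit 539) (nat_lit 396) (nat_lit 265))))))))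
noncomputable def xc86 : XT := (XT.nd (nat_lit 53508) (nat_lit 0) (nat_lit 4104) (XT.nd (nat_lit 52260) (nat_lit 0) (nat_lit 8740) (XT.nd (nat_lit 546) (nat_lit 0) (nat_lit 0) (XT.nd (nat_lit 234) (nat_lit 76) (nat_lit 0) (XT.nd (nat_lit 78) (nat_lit 0) (nat_lit 0) (XT.lf (nat_lit 0) (nat_lit 177221834390) (nat_lit 152) (nat_lit 160086536995) (nat_lit 0) (nat_lit 168140035369) (nat_lit 5) (nat_lit 5) (nat_lit 7) (nat_lit 4) (nat_lit 5) (nat_lit 4) (nat_lit 540) (nat_lit 396) (nat_lit 264)) (XT.nd (nat_lit 78) (nat_lit 0) (nat_lit 0) (XT.lf (nat_lit 0) (nat_lit 216415355240) (nat_lit 152) (nat_lit 105433152874) (nat_lit 0) (nat_lit 207332864933) (nat_lit 5) (nat_lit 5) (nat_lit 7) (nat_lit 4) (nat_lit 5) (nat_lit 4) (nat_lit 541) (nat_lit 396) (nat_lit 263)) (XT.lf (nat_lit 0) (nat_lit 257563998296) (nat_lit 152) (nat_lit 48056367445) (nat_lit 0) (nat_lit 248480849619) (nat_lit 5) (nat_lit 5)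 (nat_lit 7) (nat_lit 4) (nat_lit 5) (nat_lit 4) (nat_lit 542) (nat_lit 396) (nat_lit 262)))) (XT.nd (nat_lit 156) (nat_lit 0) (nat_lit 0) (XT.nd (nat_lit 78) (nat_lit 0) (nat_lit 0) (XT.lf (nat_lit 0) (nat_lit 12583170732) (nat_lit 76) (nat_lit 288379024344) (nat_lit 76) (nat_lit 279295248649) (nat_lit 4) (nat_lit 4) (nat_lit 5) (nat_lit 5) (nat_lit 5) (nat_lit 4) (nat_lit 543) (nat_lit 396) (nat_lit 261)) (XT.lf (nat_lit 0) (nat_lit 77914410177) (nat_lit 76) (nat_lit 269425483304) (nat_lit 76) (nat_lit 260341110449) (nat_lit 4) (nat_lit 4) (nat_lit 5) (nat_lit 5) (nat_lit 5) (nat_lit 4) (nat_lit 544) (nat_lit 396) (nat_lit 260))) (XT.nd (nat_lit 78) (nat_lit 0) (nat_lit 0) (XT.lf (nat_lit 0) (nat_lit 146503940924) (nat_lit 76) (nat_lit 249528472979) (nat_lit 76) (nat_lit 240443531400) (nat_lit 4) (nat_lit 4) (nat_lit 5) (nat_lit 5) (nat_lit 5) (nat_lit 4) (nat_lit 545) (nat_lit 396) (nat_lit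 259)) (XT.lf (nat_lit 0) (nat_lit 218515071377) (nat_lit 76) (nat_lit 228640619535) (nat_lit 76) (nat_lit 219555136314) (nat_lit 4) (nat_lit 4) (nat_lit 5) (nat_lit 5) (nat_lit 5) (nat_lit 4) (nat_lit 546) (nat_lit 396) (nat_lit 258))))) (XT.nd (nat_lit 312) (nat_lit 0) (nat_lit 0) (XT.nd (nat_lit 156) (nat_lit 0) (nat_lit 0) (XT.nd (nat_lit 78) (nat_lit 0) (nat_lit 0) (XT.lf (nat_lit 0) (nat_lit 294119256611) (nat_lit 76) (nat_lit 206712189987) (nat_lit 76) (nat_lit 197626190917) (nat_lit 4) (nat_lit 4) (nat_lit 5) (nat_lit 5) (nat_lit 5) (nat_lit 4) (nat_lit 547) (nat_lit 396) (nat_lit 257)) (XT.lf (nat_lit 0) (nat_lit 373496506589) (nat_lit 76) (nat_lit 183690973790) (nat_lit 76) (nat_lit 174604483434) (nat_lit 4) (nat_lit 4) (nat_lit 5) (nat_lit 5) (nat_lit 5) (nat_lit 4) (nat_lit 548) (nat_lit 396) (nat_lit 256))) (XT.nd (nat_lit 78) (nat_lit 0) (nat_lit 0) (XT.lf (nat_lit 0) (nat_lit 456835814765)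 (nat_lit 76) (nat_lit 159522158523) (nat_lit 76) (nat_lit 150435200277) (nat_lit 4) (nat_lit 4) (nat_lit 5) (nat_lit 5) (nat_lit 5) (nat_lit 4) (nat_lit 549) (nat_lit 396) (nat_lit 255)) (XT.lf (nat_lit 0) (nat_lit 544335608061) (nat_lit 76) (nat_lit 134148199388) (nat_lit 76) (nat_lit 125060795532) (nat_lit 4) (nat_lit 4) (nat_lit 5) (nat_lit 5) (nat_lit 5) (nat_lit 4) (nat_lit 550) (nat_lit 396) (nat_lit 254)))) (XT.nd (nat_lit 51246) (nat_lit 0) (nat_lit 14440) (XT.nd (nat_lit 51168) (nat_lit 0) (nat_lit 14820) (XT.lf (nat_lit 0) (nat_lit 636204219321) (nat_lit 76) (nat_lit 107508682198) (nat_lit 76) (nat_lit 98420853950) (nat_lit 4) (nat_lit 4) (nat_lit 5) (nat_lit 5) (nat_lit 5) (nat_lit 4) (nat_lit 551) (nat_lit 396) (nat_lit 253)) (XT.lf (nat_lit 0) (nat_lit 999769777) (nat_lit 228) (nat_lit 1136307842) (nat_lit 228) (nat_lit 1136307842) (nat_lit 199) (nat_lit 4) (nat_lit 202) (nat_lit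 5) (nat_lit 202) (nat_lit 4) (nat_lit 406) (nat_lit 397) (nat_lit 397))) (XT.nd (nat_lit 78) (nat_lit 304) (nat_lit 0) (XT.lf (nat_lit 0) (nat_lit 947840169) (nat_lit 304) (nat_lit 565698611) (nat_lit 76) (nat_lit 5070519036) (nat_lit 198) (nat_lit 5) (nat_lit 202) (nat_lit 5) (nat_lit 199) (nat_lit 4) (nat_lit 407) (nat_lit 397) (nat_lit 396)) (XT.lf (nat_lit 0) (nat_lit 3559476543) (nat_lit 304) (nat_lit 566159152) (nat_lit 380) (nat_lit 2504222906) (nat_lit 194) (nat_lit 5) (nat_lit 198) (nat_lit 5) (nat_lit 199) (nat_lit 4) (nat_lit 408) (nat_lit 397) (nat_lit 395)))))) (XT.nd (nat_lit 624) (nat_lit 2736) (nat_lit 0) (XT.nd (nat_lit 312) (nat_lit 1444) (nat_lit 0) (XT.nd (nat_lit 156) (nat_lit 1064) (nat_lit 0) (XT.nd (nat_lit 78) (nat_lit 0) (nat_lit 0) (XT.lf (nat_lit 0) (nat_lit 615477369) (nat_lit 456) (nat_lit 5570276961) (nat_lit 76) (nat_lit 498814822) (nat_lit 188) (nat_lit 5) (nat_lit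 194) (nat_lit 5) (nat_lit 189) (nat_lit 4) (nat_lit 409) (nat_lit 397) (nat_lit 394)) (XT.lf (nat_lit 0) (nat_lit 3697146191) (nat_lit 456) (nat_lit 1316827953) (nat_lit 76) (nat_lit 1731521892) (nat_lit 188) (nat_lit 5) (nat_lit 194) (nat_lit 5) (nat_lit 189) (nat_lit 4) (nat_lit 410) (nat_lit 397) (nat_lit 393))) (XT.nd (nat_lit 78) (nat_lit 532) (nat_lit 0) (XT.lf (nat_lit 0) (nat_lit 2381778) (nat_lit 532) (nat_lit 3700629894) (nat_lit 76) (nat_lit 3112252854) (nat_lit 181) (nat_lit 5) (nat_lit 188) (nat_lit 5) (nat_lit 182) (nat_lit 5) (nat_lit 411) (nat_lit 397) (nat_lit 392)) (XT.lf (nat_lit 0) (nat_lit 762559895) (nat_lit 532) (nat_lit 2214527791) (nat_lit 608) (nat_lit 3915276015) (nat_lit 174) (nat_lit 5) (nat_lit 181) (nat_lit 5) (nat_lit 182) (nat_lit 5) (nat_lit 412) (nat_lit 397) (nat_lit 391)))) (XT.nd (nat_lit 156) (nat_lit 760) (nat_lit 0) (XT.nd (nat_lit 78) (nat_lit 684) (nat_lit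 0) (XT.lf (nat_lit 0) (nat_lit 5442114765) (nat_lit 532) (nat_lit 565935862) (nat_lit 608) (nat_lit 969924474) (nat_lit 174) (nat_lit 5) (nat_lit 181) (nat_lit 5) (nat_lit 182) (nat_lit 5) (nat_lit 413) (nat_lit 397) (nat_lit 390)) (XT.lf (nat_lit 0) (nat_lit 1974690221) (nat_lit 684) (nat_lit 3867049049) (nat_lit 76) (nat_lit 1228504237) (nat_lit 165) (nat_lit 5) (nat_lit 174) (nat_lit 5) (nat_lit 166) (nat_lit 5) (nat_lit 414) (nat_lit 397) (nat_lit 389))) (XT.nd (nat_lit 78) (nat_lit 76) (nat_lit 0) (XT.lf (nat_lit 0) (nat_lit 931752634) (nat_lit 684) (nat_lit 4007541207) (nat_lit 760) (nat_lit 2231797584) (nat_lit 156) (nat_lit 5) (nat_lit 165) (nat_lit 5) (nat_lit 166) (nat_lit 5) (nat_lit 415) (nat_lit 397) (nat_lit 388)) (XT.lf (nat_lit 0) (nat_lit 674431179) (nat_lit 760) (nat_lit 1323789270) (nat_lit 76) (nat_lit 5281977572) (nat_lit 155) (nat_lit 5) (nat_lit 165) (nat_lit 5) (nat_lit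 156) (nat_lit 5) (nat_lit 416) (nat_lit 397) (nat_lit 387))))) (XT.nd (nat_lit 312) (nat_lit 1140) (nat_lit 0) (XT.nd (nat_lit 156) (nat_lit 456) (nat_lit 0) (XT.nd (nat_lit 78) (nat_lit 380) (nat_lit 0) (XT.lf (nat_lit 0) (nat_lit 3577736185) (nat_lit 836) (nat_lit 3612849931) (nat_lit 76) (nat_lit 206030985) (nat_lit 145) (nat_lit 5) (nat_lit 156) (nat_lit 5) (nat_lit 146) (nat_lit 5) (nat_lit 417) (nat_lit 397) (nat_lit 386)) (XT.lf (nat_lit 0) (nat_lit 1552177962) (nat_lit 380) (nat_lit 5022488025) (nat_lit 456) (nat_lit 946791874) (nat_lit 140) (nat_lit 5) (nat_lit 145) (nat_lit 5) (nat_lit 146) (nat_lit 5) (nat_lit 418) (nat_lit 397) (nat_lit 385))) (XT.nd (nat_lit 78) (nat_lit 380) (nat_lit 0) (XT.lf (nat_lit 0) (nat_lit 1935559989) (nat_lit 456) (nat_lit 723249317) (nat_lit 76) (nat_lit 4995493976) (nat_lit 139) (nat_lit 5) (nat_lit 145) (nat_lit 5) (nat_lit 140) (nat_lit 5) (nat_lit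 419) (nat_lit 397) (nat_lit 384)) (XT.lf (nat_lit 0) (nat_lit 4788193935) (nat_lit 380) (nat_lit 93619688) (nat_lit 456) (nat_lit 2913641639) (nat_lit 134) (nat_lit 5) (nat_lit 139) (nat_lit 5) (nat_lit 140) (nat_lit 5) (nat_lit 420) (nat_lit 397) (nat_lit 383)))) (XT.nd (nat_lit 156) (nat_lit 380) (nat_lit 0) (XT.nd (nat_lit 78) (nat_lit 304) (nat_lit 0) (XT.lf (nat_lit 0) (nat_lit 3695248) (nat_lit 456) (nat_lit 5384885965) (nat_lit 76) (nat_lit 2556427680) (nat_lit 128) (nat_lit 5) (nat_lit 134) (nat_lit 5) (nat_lit 129) (nat_lit 5) (nat_lit 421) (nat_lit 397) (nat_lit 382)) (XT.lf (nat_lit 0) (nat_lit 228033860) (nat_lit 304) (nat_lit 2679895263) (nat_lit 380) (nat_lit 5194793159) (nat_lit 124) (nat_lit 5) (nat_lit 128) (nat_lit 5) (nat_lit 129) (nat_lit 5) (nat_lit 422) (nat_lit 397) (nat_lit 381))) (XT.nd (nat_lit 78) (nat_lit 380) (nat_lit 0) (XT.lf (nat_lit 0) (nat_lit 5937820745) (nat_lit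 380) (nat_lit 2102308127) (nat_lit 76) (nat_lit 229187010) (nat_lit 124) (nat_lit 5) (nat_lit 129) (nat_lit 5) (nat_lit 125) (nat_lit 5) (nat_lit 423) (nat_lit 397) (nat_lit 380)) (XT.lf (nat_lit 0) (nat_lit 648811100) (nat_lit 380) (nat_lit 4551476309) (nat_lit 76) (nat_lit 3243667801) (nat_lit 119) (nat_lit 5) (nat_lit 124) (nat_lit 5) (nat_lit 120) (nat_lit 5) (nat_lit 424) (nat_lit 397) (nat_lit 379))))))) (XT.nd (nat_lit 1170) (nat_lit 1824) (nat_lit 0) (XT.nd (nat_lit 546) (nat_lit 1368) (nat_lit 0) (XT.nd (nat_lit 234) (nat_lit 760) (nat_lit 0) (XT.nd (nat_lit 78) (nat_lit 380) (nat_lit 0) (XT.lf (nat_lit 0) (nat_lit 1506235674) (nat_lit 304) (nat_lit 2145263677) (nat_lit 380) (nat_lit 4976344632) (nat_lit 115) (nat_lit 5) (nat_lit 119) (nat_lit 5) (nat_lit 120) (nat_lit 5) (nat_lit 425) (nat_lit 397) (nat_lit 378)) (XT.nd (nat_lit 78) (nat_lit 380) (nat_lit 0) (XT.lf (nat_lit 0) (nat_lit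 6793825201) (nat_lit 380) (nat_lit 950256807) (nat_lit 76) (nat_lit 1077383884) (nat_lit 115) (nat_lit 5) (nat_lit 120) (nat_lit 5) (nat_lit 116) (nat_lit 5) (nat_lit 426) (nat_lit 397) (nat_lit 377)) (XT.lf (nat_lit 0) (nat_lit 1055860641) (nat_lit 380) (nat_lit 3502504551) (nat_lit 76) (nat_lit 4464504123) (nat_lit 110) (nat_lit 5) (nat_lit 115) (nat_lit 5) (nat_lit 111) (nat_lit 5) (nat_lit 427) (nat_lit 397) (nat_lit 376)))) (XT.nd (nat_lit 156) (nat_lit 304) (nat_lit 0) (XT.nd (nat_lit 78) (nat_lit 228) (nat_lit 0) (XT.lf (nat_lit 0) (nat_lit 3043220226) (nat_lit 228) (nat_lit 1146751879) (nat_lit 304) (nat_lit 5044491920) (nat_lit 107) (nat_lit 5) (nat_lit 110) (nat_lit 5) (nat_lit 111) (nat_lit 5) (nat_lit 428) (nat_lit 397) (nat_lit 375)) (XT.lf (nat_lit 0) (nat_lit 421905143) (nat_lit 228) (nat_lit 7066591524) (nat_lit 304) (nat_lit 1967767829) (nat_lit 104) (nat_lit 5) (nat_lit 107)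 (nat_lit 5) (nat_lit 108) (nat_lit 5) (nat_lit 429) (nat_lit 397) (nat_lit 374))) (XT.nd (nat_lit 78) (nat_lit 228) (nat_lit 0) (XT.lf (nat_lit 0) (nat_lit 1251517396) (nat_lit 304) (nat_lit 2281234576) (nat_lit 76) (nat_lit 6153970464) (nat_lit 103) (nat_lit 5) (nat_lit 107) (nat_lit 5) (nat_lit 104) (nat_lit 5) (nat_lit 430) (nat_lit 397) (nat_lit 373)) (XT.lf (nat_lit 0) (nat_lit 4552844336) (nat_lit 304) (nat_lit 5132128719) (nat_lit 76) (nat_lit 242766776) (nat_lit 100) (nat_lit 5) (nat_lit 104) (nat_lit 5) (nat_lit 101) (nat_lit 5) (nat_lit 431) (nat_lit 397) (nat_lit 372))))) (XT.nd (nat_lit 312) (nat_lit 684) (nat_lit 0) (XT.nd (nat_lit 156) (nat_lit 380) (nat_lit 0) (XT.nd (nat_lit 78) (nat_lit 76) (nat_lit 0) (XT.lf (nat_lit 0) (nat_lit 1999135647) (nat_lit 228) (nat_lit 6058577769) (nat_lit 304) (nat_lit 2121180269) (nat_lit 97) (nat_lit 5) (nat_lit 100) (nat_lit 5) (nat_lit 101) (nat_lit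 5) (nat_lit 432) (nat_lit 397) (nat_lit 371)) (XT.lf (nat_lit 0) (nat_lit 1252982010) (nat_lit 304) (nat_lit 928502451) (nat_lit 76) (nat_lit 8260157355) (nat_lit 96) (nat_lit 5) (nat_lit 100) (nat_lit 5) (nat_lit 97) (nat_lit 5) (nat_lit 433) (nat_lit 397) (nat_lit 370))) (XT.nd (nat_lit 78) (nat_lit 228) (nat_lit 0) (XT.lf (nat_lit 0) (nat_lit 4776031170) (nat_lit 228) (nat_lit 4007050266) (nat_lit 76) (nat_lit 1930142132) (nat_lit 94) (nat_lit 5) (nat_lit 97) (nat_lit 5) (nat_lit 95) (nat_lit 5) (nat_lit 434) (nat_lit 397) (nat_lit 369)) (XT.lf (nat_lit 0) (nat_lit 3711185260) (nat_lit 228) (nat_lit 4790276055) (nat_lit 304) (nat_lit 2495619383) (nat_lit 91) (nat_lit 5) (nat_lit 94) (nat_lit 5) (nat_lit 95) (nat_lit 5) (nat_lit 435) (nat_lit 397) (nat_lit 368)))) (XT.nd (nat_lit 156) (nat_lit 456) (nat_lit 0) (XT.nd (nat_lit 78) (nat_lit 0) (nat_lit 0) (XT.lf (nat_lit 0) (nat_lit 531696449)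 (nat_lit 152) (nat_lit 545022162) (nat_lit 228) (nat_lit 10217822776) (nat_lit 88) (nat_lit 5) (nat_lit 90) (nat_lit 5) (nat_lit 91) (nat_lit 5) (nat_lit 436) (nat_lit 397) (nat_lit 367)) (XT.lf (nat_lit 0) (nat_lit 4848725547) (nat_lit 228) (nat_lit 2842305828) (nat_lit 76) (nat_lit 3908558750) (nat_lit 88) (nat_lit 5) (nat_lit 91) (nat_lit 5) (nat_lit 89) (nat_lit 5) (nat_lit 437) (nat_lit 397) (nat_lit 366))) (XT.nd (nat_lit 78) (nat_lit 228) (nat_lit 0) (XT.lf (nat_lit 0) (nat_lit 5517443418) (nat_lit 228) (nat_lit 3309274820) (nat_lit 304) (nat_lit 3092310140) (nat_lit 85) (nat_lit 5) (nat_lit 88) (nat_lit 5) (nat_lit 89) (nat_lit 5) (nat_lit 438) (nat_lit 397) (nat_lit 365)) (XT.lf (nat_lit 0) (nat_lit 750233127) (nat_lit 228) (nat_lit 10204007043) (nat_lit 76) (nat_lit 1298367335) (nat_lit 82) (nat_lit 5) (nat_lit 85) (nat_lit 5) (nat_lit 83) (nat_lit 5) (nat_lit 439) (nat_lit 397) (nat_lit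 364)))))) (XT.nd (nat_lit 624) (nat_lit 912) (nat_lit 0) (XT.nd (nat_lit 312) (nat_lit 532) (nat_lit 0) (XT.nd (nat_lit 156) (nat_lit 228) (nat_lit 0) (XT.nd (nat_lit 78) (nat_lit 152) (nat_lit 0) (XT.lf (nat_lit 0) (nat_lit 4769278812) (nat_lit 228) (nat_lit 1686662082) (nat_lit 76) (nat_lit 6139980639) (nat_lit 82) (nat_lit 5) (nat_lit 85) (nat_lit 5) (nat_lit 83) (nat_lit 5) (nat_lit 440) (nat_lit 397) (nat_lit 363)) (XT.lf (nat_lit 0) (nat_lit 7372477714) (nat_lit 152) (nat_lit 1659385562) (nat_lit 228) (nat_lit 3922413886) (nat_lit 80) (nat_lit 5) (nat_lit 82) (nat_lit 5) (nat_lit 83) (nat_lit 5) (nat_lit 441) (nat_lit 397) (nat_lit 362))) (XT.nd (nat_lit 78) (nat_lit 0) (nat_lit 0) (XT.lf (nat_lit 0) (nat_lit 238024325) (nat_lit 228) (nat_lit 9777474999) (nat_lit 76) (nat_lit 3311584597) (nat_lit 77) (nat_lit 5) (nat_lit 80) (nat_lit 5) (nat_lit 78) (nat_lit 5) (nat_lit 442) (nat_lit 397)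 (nat_lit 361)) (XT.lf (nat_lit 0) (nat_lit 4526703540) (nat_lit 228) (nat_lit 596809130) (nat_lit 76) (nat_lit 8589205871) (nat_lit 77) (nat_lit 5) (nat_lit 80) (nat_lit 5) (nat_lit 78) (nat_lit 5) (nat_lit 443) (nat_lit 397) (nat_lit 360)))) (XT.nd (nat_lit 156) (nat_lit 228) (nat_lit 0) (XT.nd (nat_lit 78) (nat_lit 152) (nat_lit 0) (XT.lf (nat_lit 0) (nat_lit 9107773398) (nat_lit 228) (nat_lit 4893131848) (nat_lit 76) (nat_lit 112836110) (nat_lit 75) (nat_lit 5) (nat_lit 78) (nat_lit 5) (nat_lit 76) (nat_lit 4) (nat_lit 444) (nat_lit 397) (nat_lit 359)) (XT.lf (nat_lit 0) (nat_lit 4974083229) (nat_lit 152) (nat_lit 9048603064) (nat_lit 228) (nat_lit 506893631) (nat_lit 73) (nat_lit 5) (nat_lit 75) (nat_lit 5) (nat_lit 76) (nat_lit 4) (nat_lit 445) (nat_lit 397) (nat_lit 358))) (XT.nd (nat_lit 78) (nat_lit 0) (nat_lit 0) (XT.lf (nat_lit 0) (nat_lit 370522712) (nat_lit 152) (nat_lit 3734842873)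 (nat_lit 228) (nat_lit 10856396196) (nat_lit 70) (nat_lit 5) (nat_lit 72) (nat_lit 5) (nat_lit 73) (nat_lit 5) (nat_lit 446) (nat_lit 397) (nat_lit 357)) (XT.lf (nat_lit 0) (nat_lit 9058297120) (nat_lit 228) (nat_lit 4439865820) (nat_lit 76) (nat_lit 1910623122) (nat_lit 70) (nat_lit 5) (nat_lit 73) (nat_lit 5) (nat_lit 71) (nat_lit 4) (nat_lit 447) (nat_lit 397) (nat_lit 356))))) (XT.nd (nat_lit 312) (nat_lit 532) (nat_lit 0) (XT.nd (nat_lit 156) (nat_lit 76) (nat_lit 0) (XT.nd (nat_lit 78) (nat_lit 228) (nat_lit 0) (XT.lf (nat_lit 0) (nat_lit 6246115570) (nat_lit 76) (nat_lit 8108472614) (nat_lit 152) (nat_lit 1518791092) (nat_lit 69) (nat_lit 5) (nat_lit 70) (nat_lit 5) (nat_lit 71) (nat_lit 4) (nat_lit 448) (nat_lit 397) (nat_lit 355)) (XT.lf (nat_lit 0) (nat_lit 1130628750) (nat_lit 152) (nat_lit 2341411039) (nat_lit 228) (nat_lit 12884824935) (nat_lit 66) (nat_lit 5) (nat_lit 68) (nat_lit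 5) (nat_lit 69) (nat_lit 5) (nat_lit 449) (nat_lit 397) (nat_lit 354))) (XT.nd (nat_lit 78) (nat_lit 76) (nat_lit 0) (XT.lf (nat_lit 0) (nat_lit 8822820111) (nat_lit 228) (nat_lit 4293715526) (nat_lit 76) (nat_lit 3738674342) (nat_lit 66) (nat_lit 5) (nat_lit 69) (nat_lit 5) (nat_lit 67) (nat_lit 4) (nat_lit 450) (nat_lit 397) (nat_lit 353)) (XT.lf (nat_lit 0) (nat_lit 7272735499) (nat_lit 76) (nat_lit 7261047935) (nat_lit 152) (nat_lit 2840059635) (nat_lit 65) (nat_lit 5) (nat_lit 66) (nat_lit 5) (nat_lit 67) (nat_lit 4) (nat_lit 451) (nat_lit 397) (nat_lit 352)))) (XT.nd (nat_lit 156) (nat_lit 304) (nat_lit 0) (XT.nd (nat_lit 78) (nat_lit 0) (nat_lit 0) (XT.lf (nat_lit 0) (nat_lit 1552201481) (nat_lit 152) (nat_lit 1015166905) (nat_lit 228) (nat_lit 15347049096) (nat_lit 62) (nat_lit 5) (nat_lit 64) (nat_lit 5) (nat_lit 65) (nat_lit 5) (nat_lit 452) (nat_lit 397) (nat_lit 351)) (XT.lf (nat_lit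 0) (nat_lit 8351491856) (nat_lit 228) (nat_lit 4578243254) (nat_lit 76) (nat_lit 5539871546) (nat_lit 62) (nat_lit 5) (nat_lit 65) (nat_lit 5) (nat_lit 63) (nat_lit 4) (nat_lit 453) (nat_lit 397) (nat_lit 350))) (XT.nd (nat_lit 78) (nat_lit 228) (nat_lit 0) (XT.lf (nat_lit 0) (nat_lit 7929473974) (nat_lit 76) (nat_lit 6579938782) (nat_lit 152) (nat_lit 4538915249) (nat_lit 61) (nat_lit 5) (nat_lit 62) (nat_lit 5) (nat_lit 63) (nat_lit 4) (nat_lit 454) (nat_lit 397) (nat_lit 349)) (XT.lf (nat_lit 0) (nat_lit 1326099529) (nat_lit 228) (nat_lit 18162751207) (nat_lit 76) (nat_lit 163652934) (nat_lit 58) (nat_lit 5) (nat_lit 61) (nat_lit 5) (nat_lit 59) (nat_lit 4) (nat_lit 455) (nat_lit 397) (nat_lit 348))))))))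
noncomputable def xc87 : XT := (XT.nd (nat_lit 2418) (nat_lit 1520) (nat_lit 0) (XT.nd (nat_lit 1170) (nat_lit 988) (nat_lit 0) (XT.nd (nat_lit 546) (nat_lit 532) (nat_lit 0) (XT.nd (nat_lit 234) (nat_lit 304) (nat_lit 0) (XT.nd (nat_lit 78) (nat_lit 228) (nat_lit 0) (XT.lf (nat_lit 0) (nat_lit 7575762426) (nat_lit 228) (nat_lit 5451165240) (nat_lit 76) (nat_lit 7244045263) (nat_lit 58) (nat_lit 5) (nat_lit 61) (nat_lit 5) (nat_lit 59) (nat_lit 4) (nat_lit 456) (nat_lit 397) (nat_lit 347)) (XT.nd (nat_lit 78) (nat_lit 152) (nat_lit 0) (XT.lf (nat_lit 0) (nat_lit 8055601152) (nat_lit 76) (nat_lit 6155389001) (nat_lit 152) (nat_lit 6705723288) (nat_lit 57) (nat_lit 5) (nat_lit 58) (nat_lit 5) (nat_lit 59) (nat_lit 4) (nat_lit 457) (nat_lit 397) (nat_lit 346)) (XT.lf (nat_lit 0) (nat_lit 744060373) (nat_lit 152) (nat_lit 20503522000) (nat_lit 152) (nat_lit 343680235) (nat_lit 55) (nat_lit 4) (nat_lit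 57) (nat_lit 5) (nat_lit 57) (nat_lit 4) (nat_lit 458) (nat_lit 397) (nat_lit 345)))) (XT.nd (nat_lit 156) (nat_lit 152) (nat_lit 0) (XT.nd (nat_lit 78) (nat_lit 76) (nat_lit 0) (XT.lf (nat_lit 0) (nat_lit 6403692615) (nat_lit 228) (nat_lit 7114725589) (nat_lit 76) (nat_lit 8762674446) (nat_lit 54) (nat_lit 5) (nat_lit 57) (nat_lit 5) (nat_lit 55) (nat_lit 4) (nat_lit 459) (nat_lit 397) (nat_lit 344)) (XT.lf (nat_lit 0) (nat_lit 7442992923) (nat_lit 76) (nat_lit 6100331806) (nat_lit 152) (nat_lit 9458487277) (nat_lit 53) (nat_lit 5) (nat_lit 54) (nat_lit 5) (nat_lit 55) (nat_lit 4) (nat_lit 460) (nat_lit 397) (nat_lit 343))) (XT.nd (nat_lit 78) (nat_lit 152) (nat_lit 0) (XT.lf (nat_lit 0) (nat_lit 21139249638) (nat_lit 152) (nat_lit 899495101) (nat_lit 0) (nat_lit 1714858499) (nat_lit 53) (nat_lit 5) (nat_lit 55) (nat_lit 4) (nat_lit 53) (nat_lit 4) (nat_lit 461) (nat_lit 397) (nat_lit 342))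 (XT.lf (nat_lit 0) (nat_lit 4713839386) (nat_lit 152) (nat_lit 9828855249) (nat_lit 76) (nat_lit 9982312415) (nat_lit 51) (nat_lit 5) (nat_lit 53) (nat_lit 5) (nat_lit 52) (nat_lit 4) (nat_lit 462) (nat_lit 397) (nat_lit 341))))) (XT.nd (nat_lit 312) (nat_lit 228) (nat_lit 0) (XT.nd (nat_lit 156) (nat_lit 228) (nat_lit 0) (XT.nd (nat_lit 78) (nat_lit 0) (nat_lit 0) (XT.lf (nat_lit 0) (nat_lit 5821981626) (nat_lit 76) (nat_lit 6557926782) (nat_lit 152) (nat_lit 12949964710) (nat_lit 50) (nat_lit 5) (nat_lit 51) (nat_lit 5) (nat_lit 52) (nat_lit 4) (nat_lit 463) (nat_lit 397) (nat_lit 340)) (XT.lf (nat_lit 0) (nat_lit 20580123414) (nat_lit 152) (nat_lit 3691346003) (nat_lit 0) (nat_lit 1895972154) (nat_lit 50) (nat_lit 5) (nat_lit 52) (nat_lit 4) (nat_lit 50) (nat_lit 4) (nat_lit 464) (nat_lit 397) (nat_lit 339))) (XT.nd (nat_lit 78) (nat_lit 76) (nat_lit 0) (XT.lf (nat_lit 0) (nat_lit 2347341475)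 (nat_lit 152) (nat_lit 13927909136) (nat_lit 76) (nat_lit 10756341418) (nat_lit 48) (nat_lit 5) (nat_lit 50) (nat_lit 5) (nat_lit 49) (nat_lit 4) (nat_lit 465) (nat_lit 397) (nat_lit 338)) (XT.lf (nat_lit 0) (nat_lit 2843332422) (nat_lit 76) (nat_lit 7711029511) (nat_lit 152) (nat_lit 17376839432) (nat_lit 47) (nat_lit 5) (nat_lit 48) (nat_lit 5) (nat_lit 49) (nat_lit 4) (nat_lit 466) (nat_lit 397) (nat_lit 337)))) (XT.nd (nat_lit 156) (nat_lit 152) (nat_lit 0) (XT.nd (nat_lit 78) (nat_lit 76) (nat_lit 0) (XT.lf (nat_lit 0) (nat_lit 19387114887) (nat_lit 152) (nat_lit 8037201843) (nat_lit 0) (nat_lit 1440706360) (nat_lit 47) (nat_lit 5) (nat_lit 49) (nat_lit 4) (nat_lit 47) (nat_lit 4) (nat_lit 467) (nat_lit 397) (nat_lit 336)) (XT.lf (nat_lit 0) (nat_lit 9976997394) (nat_lit 76) (nat_lit 18924432528) (nat_lit 76) (nat_lit 932110703) (nat_lit 46) (nat_lit 4) (nat_lit 47) (nat_lit 5) (nat_lit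 47) (nat_lit 4) (nat_lit 468) (nat_lit 397) (nat_lit 335))) (XT.nd (nat_lit 78) (nat_lit 76) (nat_lit 0) (XT.lf (nat_lit 0) (nat_lit 7879778292) (nat_lit 152) (nat_lit 1882503276) (nat_lit 76) (nat_lit 21077118063) (nat_lit 45) (nat_lit 5) (nat_lit 47) (nat_lit 5) (nat_lit 46) (nat_lit 4) (nat_lit 469) (nat_lit 397) (nat_lit 334)) (XT.lf (nat_lit 0) (nat_lit 17335202264) (nat_lit 152) (nat_lit 14429521518) (nat_lit 0) (nat_lit 118351321) (nat_lit 44) (nat_lit 5) (nat_lit 46) (nat_lit 4) (nat_lit 44) (nat_lit 4) (nat_lit 470) (nat_lit 397) (nat_lit 333)))))) (XT.nd (nat_lit 624) (nat_lit 456) (nat_lit 0) (XT.nd (nat_lit 312) (nat_lit 304) (nat_lit 0) (XT.nd (nat_lit 156) (nat_lit 76) (nat_lit 0) (XT.nd (nat_lit 78) (nat_lit 76) (nat_lit 0) (XT.lf (nat_lit 0) (nat_lit 4757934833) (nat_lit 76) (nat_lit 22732145050) (nat_lit 76) (nat_lit 5477521123) (nat_lit 43) (nat_lit 4) (nat_lit 44) (nat_lit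 5) (nat_lit 44) (nat_lit 4) (nat_lit 471) (nat_lit 397) (nat_lit 332)) (XT.lf (nat_lit 0) (nat_lit 4125233099) (nat_lit 152) (nat_lit 8833870343) (nat_lit 76) (nat_lit 21133672060) (nat_lit 42) (nat_lit 5) (nat_lit 44) (nat_lit 5) (nat_lit 43) (nat_lit 4) (nat_lit 472) (nat_lit 397) (nat_lit 331))) (XT.nd (nat_lit 78) (nat_lit 0) (nat_lit 0) (XT.lf (nat_lit 0) (nat_lit 11721530429) (nat_lit 76) (nat_lit 2447440222) (nat_lit 152) (nat_lit 21093502661) (nat_lit 41) (nat_lit 5) (nat_lit 42) (nat_lit 5) (nat_lit 43) (nat_lit 4) (nat_lit 473) (nat_lit 397) (nat_lit 330)) (XT.lf (nat_lit 0) (nat_lit 24963091806) (nat_lit 152) (nat_lit 3083005234) (nat_lit 0) (nat_lit 8432149776) (nat_lit 41) (nat_lit 5) (nat_lit 43) (nat_lit 4) (nat_lit 41) (nat_lit 4) (nat_lit 474) (nat_lit 397) (nat_lit 329)))) (XT.nd (nat_lit 156) (nat_lit 76) (nat_lit 0) (XT.nd (nat_lit 78) (nat_lit 152) (nat_lit 0) (XT.lf (nat_lit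 0) (nat_lit 18891240933) (nat_lit 76) (nat_lit 17704580844) (nat_lit 76) (nat_lit 1144042693) (nat_lit 40) (nat_lit 4) (nat_lit 41) (nat_lit 5) (nat_lit 41) (nat_lit 4) (nat_lit 475) (nat_lit 397) (nat_lit 328)) (XT.lf (nat_lit 0) (nat_lit 2877206090) (nat_lit 76) (nat_lit 6618370018) (nat_lit 152) (nat_lit 29558286038) (nat_lit 38) (nat_lit 5) (nat_lit 39) (nat_lit 5) (nat_lit 40) (nat_lit 4) (nat_lit 476) (nat_lit 397) (nat_lit 327))) (XT.nd (nat_lit 78) (nat_lit 76) (nat_lit 0) (XT.lf (nat_lit 0) (nat_lit 20995552325) (nat_lit 152) (nat_lit 14247528546) (nat_lit 0) (nat_lit 5171200432) (nat_lit 38) (nat_lit 5) (nat_lit 40) (nat_lit 4) (nat_lit 38) (nat_lit 4) (nat_lit 477) (nat_lit 397) (nat_lit 326)) (XT.lf (nat_lit 0) (nat_lit 8886120633) (nat_lit 76) (nat_lit 24397327959) (nat_lit 76) (nat_lit 8548627264) (nat_lit 37) (nat_lit 4) (nat_lit 38) (nat_lit 5) (nat_lit 38) (nat_lit 4) (nat_lit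 478) (nat_lit 397) (nat_lit 325))))) (XT.nd (nat_lit 312) (nat_lit 228) (nat_lit 0) (XT.nd (nat_lit 156) (nat_lit 76) (nat_lit 0) (XT.nd (nat_lit 78) (nat_lit 76) (nat_lit 0) (XT.lf (nat_lit 0) (nat_lit 2984251262) (nat_lit 152) (nat_lit 9754174942) (nat_lit 76) (nat_lit 30569549425) (nat_lit 36) (nat_lit 5) (nat_lit 38) (nat_lit 5) (nat_lit 37) (nat_lit 4) (nat_lit 479) (nat_lit 397) (nat_lit 324)) (XT.lf (nat_lit 0) (nat_lit 14868275725) (nat_lit 76) (nat_lit 137700292) (nat_lit 152) (nat_lit 29834713122) (nat_lit 35) (nat_lit 5) (nat_lit 36) (nat_lit 5) (nat_lit 37) (nat_lit 4) (nat_lit 480) (nat_lit 397) (nat_lit 323))) (XT.nd (nat_lit 78) (nat_lit 76) (nat_lit 0) (XT.lf (nat_lit 0) (nat_lit 27968531919) (nat_lit 152) (nat_lit 5653138630) (nat_lit 0) (nat_lit 12811380945) (nat_lit 35) (nat_lit 5) (nat_lit 37) (nat_lit 4) (nat_lit 35) (nat_lit 4) (nat_lit 481) (nat_lit 397) (nat_lit 322))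 (XT.lf (nat_lit 0) (nat_lit 20473479533) (nat_lit 76) (nat_lit 21396618794) (nat_lit 76) (nat_lit 6220389896) (nat_lit 34) (nat_lit 4) (nat_lit 35) (nat_lit 5) (nat_lit 35) (nat_lit 4) (nat_lit 482) (nat_lit 397) (nat_lit 321)))) (XT.nd (nat_lit 156) (nat_lit 76) (nat_lit 0) (XT.nd (nat_lit 78) (nat_lit 76) (nat_lit 0) (XT.lf (nat_lit 0) (nat_lit 6489869767) (nat_lit 152) (nat_lit 1890165325) (nat_lit 76) (nat_lit 41442266007) (nat_lit 33) (nat_lit 5) (nat_lit 35) (nat_lit 5) (nat_lit 34) (nat_lit 4) (nat_lit 483) (nat_lit 397) (nat_lit 320)) (XT.lf (nat_lit 0) (nat_lit 20090063969) (nat_lit 152) (nat_lit 25919640766) (nat_lit 0) (nat_lit 5602728171) (nat_lit 32) (nat_lit 5) (nat_lit 34) (nat_lit 4) (nat_lit 32) (nat_lit 4) (nat_lit 484) (nat_lit 397) (nat_lit 319))) (XT.nd (nat_lit 78) (nat_lit 0) (nat_lit 0) (XT.lf (nat_lit 0) (nat_lit 1067523360) (nat_lit 76) (nat_lit 33459861827) (nat_lit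 76) (nat_lit 18956830574) (nat_lit 31) (nat_lit 4) (nat_lit 32) (nat_lit 5) (nat_lit 32) (nat_lit 4) (nat_lit 485) (nat_lit 397) (nat_lit 318)) (XT.lf (nat_lit 0) (nat_lit 30246074676) (nat_lit 76) (nat_lit 19850496384) (nat_lit 76) (nat_lit 5332517079) (nat_lit 31) (nat_lit 4) (nat_lit 32) (nat_lit 5) (nat_lit 32) (nat_lit 4) (nat_lit 486) (nat_lit 397) (nat_lit 317))))))) (XT.nd (nat_lit 1248) (nat_lit 684) (nat_lit 0) (XT.nd (nat_lit 624) (nat_lit 380) (nat_lit 0) (XT.nd (nat_lit 312) (nat_lit 228) (nat_lit 0) (XT.nd (nat_lit 156) (nat_lit 76) (nat_lit 0) (XT.nd (nat_lit 78) (nat_lit 0) (nat_lit 0) (XT.lf (nat_lit 0) (nat_lit 3322583680) (nat_lit 76) (nat_lit 5387074478) (nat_lit 152) (nat_lit 48753349638) (nat_lit 29) (nat_lit 5) (nat_lit 30) (nat_lit 5) (nat_lit 31) (nat_lit 4) (nat_lit 487) (nat_lit 397) (nat_lit 316)) (XT.lf (nat_lit 0) (nat_lit 23833218795) (nat_lit 152) (nat_lit 25753008959)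 (nat_lit 0) (nat_lit 9980100824) (nat_lit 29) (nat_lit 5) (nat_lit 31) (nat_lit 4) (nat_lit 29) (nat_lit 4) (nat_lit 488) (nat_lit 397) (nat_lit 315))) (XT.nd (nat_lit 78) (nat_lit 0) (nat_lit 0) (XT.lf (nat_lit 0) (nat_lit 4041424560) (nat_lit 76) (nat_lit 35796284639) (nat_lit 76) (nat_lit 21930868868) (nat_lit 28) (nat_lit 4) (nat_lit 29) (nat_lit 5) (nat_lit 29) (nat_lit 4) (nat_lit 489) (nat_lit 397) (nat_lit 314)) (XT.lf (nat_lit 0) (nat_lit 36167136690) (nat_lit 76) (nat_lit 20885217519) (nat_lit 76) (nat_lit 7008089558) (nat_lit 28) (nat_lit 4) (nat_lit 29) (nat_lit 5) (nat_lit 29) (nat_lit 4) (nat_lit 490) (nat_lit 397) (nat_lit 313)))) (XT.nd (nat_lit 156) (nat_lit 76) (nat_lit 0) (XT.nd (nat_lit 78) (nat_lit 0) (nat_lit 0) (XT.lf (nat_lit 0) (nat_lit 3353476988) (nat_lit 76) (nat_lit 5057137361) (nat_lit 152) (nat_lit 58048178320) (nat_lit 26) (nat_lit 5) (nat_lit 27) (nat_lit 5) (nat_lit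 28) (nat_lit 4) (nat_lit 491) (nat_lit 397) (nat_lit 312)) (XT.lf (nat_lit 0) (nat_lit 25000050938) (nat_lit 152) (nat_lit 32176500327) (nat_lit 0) (nat_lit 11762997861) (nat_lit 26) (nat_lit 5) (nat_lit 28) (nat_lit 4) (nat_lit 26) (nat_lit 4) (nat_lit 492) (nat_lit 397) (nat_lit 311))) (XT.nd (nat_lit 78) (nat_lit 0) (nat_lit 0) (XT.lf (nat_lit 0) (nat_lit 172907800) (nat_lit 76) (nat_lit 42307525418) (nat_lit 76) (nat_lit 29060836694) (nat_lit 25) (nat_lit 4) (nat_lit 26) (nat_lit 5) (nat_lit 26) (nat_lit 4) (nat_lit 493) (nat_lit 397) (nat_lit 310)) (XT.lf (nat_lit 0) (nat_lit 35209185445) (nat_lit 76) (nat_lit 26146848522) (nat_lit 76) (nat_lit 12890982991) (nat_lit 25) (nat_lit 4) (nat_lit 26) (nat_lit 5) (nat_lit 26) (nat_lit 4) (nat_lit 494) (nat_lit 397) (nat_lit 309))))) (XT.nd (nat_lit 312) (nat_lit 152) (nat_lit 0) (XT.nd (nat_lit 156) (nat_lit 76) (nat_lit 0) (XT.nd (nat_lit 78)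 (nat_lit 76) (nat_lit 0) (XT.lf (nat_lit 0) (nat_lit 3933576175) (nat_lit 152) (nat_lit 5200774188) (nat_lit 76) (nat_lit 67951658710) (nat_lit 24) (nat_lit 5) (nat_lit 26) (nat_lit 5) (nat_lit 25) (nat_lit 4) (nat_lit 495) (nat_lit 397) (nat_lit 308)) (XT.lf (nat_lit 0) (nat_lit 21776666143) (nat_lit 152) (nat_lit 49113410816) (nat_lit 0) (nat_lit 9135781397) (nat_lit 23) (nat_lit 5) (nat_lit 25) (nat_lit 4) (nat_lit 23) (nat_lit 4) (nat_lit 496) (nat_lit 397) (nat_lit 307))) (XT.nd (nat_lit 78) (nat_lit 76) (nat_lit 0) (XT.lf (nat_lit 0) (nat_lit 40729329143) (nat_lit 152) (nat_lit 14291605574) (nat_lit 0) (nat_lit 28080894615) (nat_lit 23) (nat_lit 5) (nat_lit 25) (nat_lit 4) (nat_lit 23) (nat_lit 4) (nat_lit 497) (nat_lit 397) (nat_lit 306)) (XT.lf (nat_lit 0) (nat_lit 22964377716) (nat_lit 76) (nat_lit 38002979740) (nat_lit 76) (nat_lit 25347354943) (nat_lit 22) (nat_lit 4) (nat_lit 23)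 (nat_lit 5) (nat_lit 23) (nat_lit 4) (nat_lit 498) (nat_lit 397) (nat_lit 305)))) (XT.nd (nat_lit 156) (nat_lit 0) (nat_lit 0) (XT.nd (nat_lit 78) (nat_lit 152) (nat_lit 0) (XT.lf (nat_lit 0) (nat_lit 62538092792) (nat_lit 76) (nat_lit 19900770419) (nat_lit 76) (nat_lit 7238297747) (nat_lit 22) (nat_lit 4) (nat_lit 23) (nat_lit 5) (nat_lit 23) (nat_lit 4) (nat_lit 499) (nat_lit 397) (nat_lit 304)) (XT.lf (nat_lit 0) (nat_lit 11011404906) (nat_lit 76) (nat_lit 540009417) (nat_lit 152) (nat_lit 81639519048) (nat_lit 20) (nat_lit 5) (nat_lit 21) (nat_lit 5) (nat_lit 22) (nat_lit 4) (nat_lit 500) (nat_lit 397) (nat_lit 303))) (XT.nd (nat_lit 78) (nat_lit 0) (nat_lit 0) (XT.lf (nat_lit 0) (nat_lit 31793679929) (nat_lit 152) (nat_lit 45320909988) (nat_lit 0) (nat_lit 19722055470) (nat_lit 20) (nat_lit 5) (nat_lit 22) (nat_lit 4) (nat_lit 20) (nat_lit 4) (nat_lit 501) (nat_lit 397) (nat_lit 302)) (XT.lf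 (nat_lit 0) (nat_lit 53038069371) (nat_lit 152) (nat_lit 6666262071) (nat_lit 0) (nat_lit 40960811148) (nat_lit 20) (nat_lit 5) (nat_lit 22) (nat_lit 4) (nat_lit 20) (nat_lit 4) (nat_lit 502) (nat_lit 397) (nat_lit 301)))))) (XT.nd (nat_lit 624) (nat_lit 380) (nat_lit 0) (XT.nd (nat_lit 312) (nat_lit 76) (nat_lit 0) (XT.nd (nat_lit 156) (nat_lit 152) (nat_lit 0) (XT.nd (nat_lit 78) (nat_lit 0) (nat_lit 0) (XT.lf (nat_lit 0) (nat_lit 35005268420) (nat_lit 76) (nat_lit 40867995391) (nat_lit 76) (nat_lit 28785371679) (nat_lit 19) (nat_lit 4) (nat_lit 20) (nat_lit 5) (nat_lit 20) (nat_lit 4) (nat_lit 503) (nat_lit 397) (nat_lit 300)) (XT.lf (nat_lit 0) (nat_lit 78956160451) (nat_lit 76) (nat_lit 20989306959) (nat_lit 76) (nat_lit 8901573257) (nat_lit 19) (nat_lit 4) (nat_lit 20) (nat_lit 5) (nat_lit 20) (nat_lit 4) (nat_lit 504) (nat_lit 397) (nat_lit 299))) (XT.nd (nat_lit 78) (nat_lit 0) (nat_lit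 0) (XT.lf (nat_lit 0) (nat_lit 11767774693) (nat_lit 152) (nat_lit 101207995805) (nat_lit 0) (nat_lit 251012447) (nat_lit 17) (nat_lit 5) (nat_lit 19) (nat_lit 4) (nat_lit 17) (nat_lit 4) (nat_lit 505) (nat_lit 397) (nat_lit 298)) (XT.lf (nat_lit 0) (nat_lit 34012973944) (nat_lit 152) (nat_lit 61271367860) (nat_lit 0) (nat_lit 22491797496) (nat_lit 17) (nat_lit 5) (nat_lit 19) (nat_lit 4) (nat_lit 17) (nat_lit 4) (nat_lit 506) (nat_lit 397) (nat_lit 297)))) (XT.nd (nat_lit 156) (nat_lit 0) (nat_lit 0) (XT.nd (nat_lit 78) (nat_lit 76) (nat_lit 0) (XT.lf (nat_lit 0) (nat_lit 57354178855) (nat_lit 152) (nat_lit 19370799012) (nat_lit 0) (nat_lit 45828798406) (nat_lit 17) (nat_lit 5) (nat_lit 19) (nat_lit 4) (nat_lit 17) (nat_lit 4) (nat_lit 507) (nat_lit 397) (nat_lit 296)) (XT.lf (nat_lit 0) (nat_lit 25406645313) (nat_lit 76) (nat_lit 56836987346) (nat_lit 76) (nat_lit 45307603086) (nat_lit 16)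 (nat_lit 4) (nat_lit 17) (nat_lit 5) (nat_lit 17) (nat_lit 4) (nat_lit 508) (nat_lit 397) (nat_lit 295))) (XT.nd (nat_lit 78) (nat_lit 0) (nat_lit 0) (XT.lf (nat_lit 0) (nat_lit 73064653206) (nat_lit 76) (nat_lit 35625735500) (nat_lit 76) (nat_lit 24092538087) (nat_lit 16) (nat_lit 4) (nat_lit 17) (nat_lit 5) (nat_lit 17) (nat_lit 4) (nat_lit 509) (nat_lit 397) (nat_lit 294)) (XT.lf (nat_lit 0) (nat_lit 123076210017) (nat_lit 76) (nat_lit 13368773202) (nat_lit 76) (nat_lit 1831944215) (nat_lit 16) (nat_lit 4) (nat_lit 17) (nat_lit 5) (nat_lit 17) (nat_lit 4) (nat_lit 510) (nat_lit 397) (nat_lit 293))))) (XT.nd (nat_lit 312) (nat_lit 152) (nat_lit 0) (XT.nd (nat_lit 156) (nat_lit 76) (nat_lit 0) (XT.nd (nat_lit 78) (nat_lit 0) (nat_lit 0) (XT.lf (nat_lit 0) (nat_lit 21510723257) (nat_lit 152) (nat_lit 111965189876) (nat_lit 0) (nat_lit 10519973134) (nat_lit 14) (nat_lit 5) (nat_lit 16) (nat_lit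 4) (nat_lit 14) (nat_lit 4) (nat_lit 511) (nat_lit 397) (nat_lit 292)) (XT.lf (nat_lit 0) (nat_lit 46425746146) (nat_lit 152) (nat_lit 68118347066) (nat_lit 0) (nat_lit 35431858933) (nat_lit 14) (nat_lit 5) (nat_lit 16) (nat_lit 4) (nat_lit 14) (nat_lit 4) (nat_lit 512) (nat_lit 397) (nat_lit 291))) (XT.nd (nat_lit 78) (nat_lit 76) (nat_lit 0) (XT.lf (nat_lit 0) (nat_lit 72573163485) (nat_lit 152) (nat_lit 22106237161) (nat_lit 0) (nat_lit 61576288566) (nat_lit 14) (nat_lit 5) (nat_lit 16) (nat_lit 4) (nat_lit 14) (nat_lit 4) (nat_lit 513) (nat_lit 397) (nat_lit 290)) (XT.lf (nat_lit 0) (nat_lit 27046344410) (nat_lit 76) (nat_lit 73391155852) (nat_lit 76) (nat_lit 62391435500) (nat_lit 13) (nat_lit 4) (nat_lit 14) (nat_lit 5) (nat_lit 14) (nat_lit 4) (nat_lit 514) (nat_lit 397) (nat_lit 289)))) (XT.nd (nat_lit 156) (nat_lit 152) (nat_lit 0) (XT.nd (nat_lit 78) (nat_lit 0) (nat_lit 0) (XT.lf (nat_lit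 0) (nat_lit 79398663838) (nat_lit 76) (nat_lit 50658258853) (nat_lit 76) (nat_lit 39655828564) (nat_lit 13) (nat_lit 4) (nat_lit 14) (nat_lit 5) (nat_lit 14) (nat_lit 4) (nat_lit 515) (nat_lit 397) (nat_lit 288)) (XT.lf (nat_lit 0) (nat_lit 134344437468) (nat_lit 76) (nat_lit 26800963526) (nat_lit 76) (nat_lit 15795952345) (nat_lit 13) (nat_lit 4) (nat_lit 14) (nat_lit 5) (nat_lit 14) (nat_lit 4) (nat_lit 516) (nat_lit 397) (nat_lit 287))) (XT.nd (nat_lit 78) (nat_lit 0) (nat_lit 0) (XT.lf (nat_lit 0) (nat_lit 7580829075) (nat_lit 76) (nat_lit 1486633484) (nat_lit 152) (nat_lit 175451355491) (nat_lit 11) (nat_lit 5) (nat_lit 12) (nat_lit 5) (nat_lit 13) (nat_lit 4) (nat_lit 517) (nat_lit 397) (nat_lit 286)) (XT.lf (nat_lit 0) (nat_lit 35756678481) (nat_lit 152) (nat_lit 131378711135) (nat_lit 0) (nat_lit 25271145035) (nat_lit 11) (nat_lit 5) (nat_lit 13) (nat_lit 4) (nat_lit 11) (nat_lit 4) (nat_lit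 518) (nat_lit 397) (nat_lit 285))))))))
noncomputable def xc88 : XT := (XT.nd (nat_lit 2418) (nat_lit 0) (nat_lit 0) (XT.nd (nat_lit 1170) (nat_lit 228) (nat_lit 0) (XT.nd (nat_lit 546) (nat_lit 76) (nat_lit 0) (XT.nd (nat_lit 234) (nat_lit 152) (nat_lit 0) (XT.nd (nat_lit 78) (nat_lit 76) (nat_lit 0) (XT.lf (nat_lit 0) (nat_lit 63793748853) (nat_lit 152) (nat_lit 83588126487) (nat_lit 0) (nat_lit 53306092101) (nat_lit 11) (nat_lit 5) (nat_lit 13) (nat_lit 4) (nat_lit 11) (nat_lit 4) (nat_lit 519) (nat_lit 397) (nat_lit 284)) (XT.nd (nat_lit 78) (nat_lit 76) (nat_lit 0) (XT.lf (nat_lit 0) (nat_lit 93222218091) (nat_lit 152) (nat_lit 33429237412) (nat_lit 0) (nat_lit 82732539142) (nat_lit 11) (nat_lit 5) (nat_lit 13) (nat_lit 4) (nat_lit 11) (nat_lit 4) (nat_lit 520) (nat_lit 397) (nat_lit 283)) (XT.lf (nat_lit 0) (nat_lit 19852795454) (nat_lit 76) (nat_lit 104569316299) (nat_lit 76) (nat_lit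 94077711448) (nat_lit 10) (nat_lit 4) (nat_lit 11) (nat_lit 5) (nat_lit 11) (nat_lit 4) (nat_lit 521) (nat_lit 397) (nat_lit 282)))) (XT.nd (nat_lit 156) (nat_lit 152) (nat_lit 0) (XT.nd (nat_lit 78) (nat_lit 0) (nat_lit 0) (XT.lf (nat_lit 0) (nat_lit 76939629535) (nat_lit 76) (nat_lit 80798717687) (nat_lit 76) (nat_lit 70305278644) (nat_lit 10) (nat_lit 4) (nat_lit 11) (nat_lit 5) (nat_lit 11) (nat_lit 4) (nat_lit 522) (nat_lit 397) (nat_lit 281)) (XT.lf (nat_lit 0) (nat_lit 136861864305) (nat_lit 76) (nat_lit 55849203315) (nat_lit 76) (nat_lit 45354017423) (nat_lit 10) (nat_lit 4) (nat_lit 11) (nat_lit 5) (nat_lit 11) (nat_lit 4) (nat_lit 523) (nat_lit 397) (nat_lit 280))) (XT.nd (nat_lit 78) (nat_lit 152) (nat_lit 0) (XT.lf (nat_lit 0) (nat_lit 199762171751) (nat_lit 76) (nat_lit 29661369578) (nat_lit 76) (nat_lit 19164520020) (nat_lit 10) (nat_lit 4) (nat_lit 11) (nat_lit 5) (nat_lit 11)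 (nat_lit 4) (nat_lit 524) (nat_lit 397) (nat_lit 279)) (XT.lf (nat_lit 0) (nat_lit 6221857856) (nat_lit 76) (nat_lit 1934382074) (nat_lit 152) (nat_lit 251470013253) (nat_lit 8) (nat_lit 5) (nat_lit 9) (nat_lit 5) (nat_lit 10) (nat_lit 4) (nat_lit 525) (nat_lit 397) (nat_lit 278))))) (XT.nd (nat_lit 312) (nat_lit 76) (nat_lit 0) (XT.nd (nat_lit 156) (nat_lit 0) (nat_lit 0) (XT.nd (nat_lit 78) (nat_lit 0) (nat_lit 0) (XT.lf (nat_lit 0) (nat_lit 37455176143) (nat_lit 152) (nat_lit 206227429849) (nat_lit 0) (nat_lit 27455230433) (nat_lit 8) (nat_lit 5) (nat_lit 10) (nat_lit 4) (nat_lit 8) (nat_lit 4) (nat_lit 526) (nat_lit 397) (nat_lit 277)) (XT.lf (nat_lit 0) (nat_lit 68242586074) (nat_lit 152) (nat_lit 156739964777) (nat_lit 0) (nat_lit 58241271661) (nat_lit 8) (nat_lit 5) (nat_lit 10) (nat_lit 4) (nat_lit 8) (nat_lit 4) (nat_lit 527) (nat_lit 397) (nat_lit 276))) (XT.nd (nat_lit 78) (nat_lit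 0) (nat_lit 0) (XT.lf (nat_lit 0) (nat_lit 100561571954) (nat_lit 152) (nat_lit 104793971689) (nat_lit 0) (nat_lit 90558954016) (nat_lit 8) (nat_lit 5) (nat_lit 10) (nat_lit 4) (nat_lit 8) (nat_lit 4) (nat_lit 528) (nat_lit 397) (nat_lit 275)) (XT.lf (nat_lit 0) (nat_lit 134489083750) (nat_lit 152) (nat_lit 50265769648) (nat_lit 0) (nat_lit 124485224358) (nat_lit 8) (nat_lit 5) (nat_lit 10) (nat_lit 4) (nat_lit 8) (nat_lit 4) (nat_lit 529) (nat_lit 397) (nat_lit 274)))) (XT.nd (nat_lit 156) (nat_lit 0) (nat_lit 0) (XT.nd (nat_lit 78) (nat_lit 0) (nat_lit 0) (XT.lf (nat_lit 0) (nat_lit 7205077887) (nat_lit 76) (nat_lit 163013314823) (nat_lit 76) (nat_lit 153008273095) (nat_lit 7) (nat_lit 4) (nat_lit 8) (nat_lit 5) (nat_lit 8) (nat_lit 4) (nat_lit 530) (nat_lit 397) (nat_lit 273)) (XT.lf (nat_lit 0) (nat_lit 69280441528) (nat_lit 76) (nat_lit 139298046728) (nat_lit 76) (nat_lit 129291878965) (nat_lit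 7) (nat_lit 4) (nat_lit 8) (nat_lit 5) (nat_lit 8) (nat_lit 4) (nat_lit 531) (nat_lit 397) (nat_lit 272))) (XT.nd (nat_lit 78) (nat_lit 0) (nat_lit 0) (XT.lf (nat_lit 0) (nat_lit 134446106410) (nat_lit 76) (nat_lit 114403859320) (nat_lit 76) (nat_lit 104396619143) (nat_lit 7) (nat_lit 4) (nat_lit 8) (nat_lit 5) (nat_lit 8) (nat_lit 4) (nat_lit 532) (nat_lit 397) (nat_lit 271)) (XT.lf (nat_lit 0) (nat_lit 202857228878) (nat_lit 76) (nat_lit 88271480724) (nat_lit 76) (nat_lit 78263219201) (nat_lit 7) (nat_lit 4) (nat_lit 8) (nat_lit 5) (nat_lit 8) (nat_lit 4) (nat_lit 533) (nat_lit 397) (nat_lit 270)))))) (XT.nd (nat_lit 624) (nat_lit 76) (nat_lit 0) (XT.nd (nat_lit 312) (nat_lit 0) (nat_lit 0) (XT.nd (nat_lit 156) (nat_lit 152) (nat_lit 0) (XT.nd (nat_lit 78) (nat_lit 0) (nat_lit 0) (XT.lf (nat_lit 0) (nat_lit 274676692555) (nat_lit 76) (nat_lit 60838690992) (nat_lit 76) (nat_lit 50829456758)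 (nat_lit 7) (nat_lit 4) (nat_lit 8) (nat_lit 5) (nat_lit 8) (nat_lit 4) (nat_lit 534) (nat_lit 397) (nat_lit 269)) (XT.lf (nat_lit 0) (nat_lit 350075496165) (nat_lit 76) (nat_lit 32040173958) (nat_lit 76) (nat_lit 22030013332) (nat_lit 7) (nat_lit 4) (nat_lit 8) (nat_lit 5) (nat_lit 8) (nat_lit 4) (nat_lit 535) (nat_lit 397) (nat_lit 268))) (XT.nd (nat_lit 78) (nat_lit 0) (nat_lit 0) (XT.lf (nat_lit 0) (nat_lit 6475493225) (nat_lit 76) (nat_lit 1566719520) (nat_lit 152) (nat_lit 414783169315) (nat_lit 5) (nat_lit 5) (nat_lit 6) (nat_lit 5) (nat_lit 7) (nat_lit 4) (nat_lit 536) (nat_lit 397) (nat_lit 267)) (XT.lf (nat_lit 0) (nat_lit 40277982286) (nat_lit 152) (nat_lit 371330156226) (nat_lit 0) (nat_lit 30742855459) (nat_lit 5) (nat_lit 5) (nat_lit 7) (nat_lit 4) (nat_lit 5) (nat_lit 4) (nat_lit 537) (nat_lit 397) (nat_lit 266)))) (XT.nd (nat_lit 156) (nat_lit 0) (nat_lit 0) (XT.nd (nat_lit 78)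 (nat_lit 0) (nat_lit 0) (XT.lf (nat_lit 0) (nat_lit 74145952594) (nat_lit 152) (nat_lit 324095849661) (nat_lit 0) (nat_lit 64610063623) (nat_lit 5) (nat_lit 5) (nat_lit 7) (nat_lit 4) (nat_lit 5) (nat_lit 4) (nat_lit 538) (nat_lit 397) (nat_lit 265)) (XT.lf (nat_lit 0) (nat_lit 109702300811) (nat_lit 152) (nat_lit 274510045626) (nat_lit 0) (nat_lit 100165685988) (nat_lit 5) (nat_lit 5) (nat_lit 7) (nat_lit 4) (nat_lit 5) (nat_lit 4) (nat_lit 539) (nat_lit 397) (nat_lit 264))) (XT.nd (nat_lit 78) (nat_lit 0) (nat_lit 0) (XT.lf (nat_lit 0) (nat_lit 147031684911) (nat_lit 152) (nat_lit 222454682681) (nat_lit 0) (nat_lit 137494378800) (nat_lit 5) (nat_lit 5) (nat_lit 7) (nat_lit 4) (nat_lit 5) (nat_lit 4) (nat_lit 540) (nat_lit 397) (nat_lit 263)) (XT.lf (nat_lit 0) (nat_lit 186222984377) (nat_lit 152) (nat_lit 167805819486) (nat_lit 0) (nat_lit 176685019898) (nat_lit 5) (nat_lit 5) (nat_lit 7) (nat_lit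 4) (nat_lit 5) (nat_lit 4) (nat_lit 541) (nat_lit 397) (nat_lit 262))))) (XT.nd (nat_lit 312) (nat_lit 0) (nat_lit 0) (XT.nd (nat_lit 156) (nat_lit 76) (nat_lit 0) (XT.nd (nat_lit 78) (nat_lit 0) (nat_lit 0) (XT.lf (nat_lit 0) (nat_lit 227369511829) (nat_lit 152) (nat_lit 110433339700) (nat_lit 0) (nat_lit 217830920331) (nat_lit 5) (nat_lit 5) (nat_lit 7) (nat_lit 4) (nat_lit 5) (nat_lit 4) (nat_lit 542) (nat_lit 397) (nat_lit 261)) (XT.lf (nat_lit 0) (nat_lit 270569235189) (nat_lit 152) (nat_lit 50200642182) (nat_lit 0) (nat_lit 261030046531) (nat_lit 5) (nat_lit 5) (nat_lit 7) (nat_lit 4) (nat_lit 5) (nat_lit 4) (nat_lit 543) (nat_lit 397) (nat_lit 260))) (XT.nd (nat_lit 78) (nat_lit 0) (nat_lit 0) (XT.lf (nat_lit 0) (nat_lit 13466702846) (nat_lit 76) (nat_lit 302668561066) (nat_lit 76) (nat_lit 293128803684) (nat_lit 4) (nat_lit 4) (nat_lit 5) (nat_lit 5) (nat_lit 5) (nat_lit 4) (nat_lit 544)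 (nat_lit 397) (nat_lit 259)) (XT.lf (nat_lit 0) (nat_lit 82052391236) (nat_lit 76) (nat_lit 282773505569) (nat_lit 76) (nat_lit 273233206545) (nat_lit 4) (nat_lit 4) (nat_lit 5) (nat_lit 5) (nat_lit 5) (nat_lit 4) (nat_lit 545) (nat_lit 397) (nat_lit 258)))) (XT.nd (nat_lit 156) (nat_lit 0) (nat_lit 0) (XT.nd (nat_lit 78) (nat_lit 0) (nat_lit 0) (XT.lf (nat_lit 0) (nat_lit 154059862303) (nat_lit 76) (nat_lit 261887513866) (nat_lit 76) (nat_lit 252346698992) (nat_lit 4) (nat_lit 4) (nat_lit 5) (nat_lit 5) (nat_lit 5) (nat_lit 4) (nat_lit 546) (nat_lit 397) (nat_lit 257)) (XT.lf (nat_lit 0) (nat_lit 229660562407) (nat_lit 76) (nat_lit 239960857405) (nat_lit 76) (nat_lit 230419551246) (nat_lit 4) (nat_lit 4) (nat_lit 5) (nat_lit 5) (nat_lit 5) (nat_lit 4) (nat_lit 547) (nat_lit 397) (nat_lit 256))) (XT.nd (nat_lit 78) (nat_lit 0) (nat_lit 0) (XT.lf (nat_lit 0) (nat_lit 309034493213) (nat_lit 76)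 (nat_lit 216941329862) (nat_lit 76) (nat_lit 207399555812) (nat_lit 4) (nat_lit 4) (nat_lit 5) (nat_lit 5) (nat_lit 5) (nat_lit 4) (nat_lit 548) (nat_lit 397) (nat_lit 255)) (XT.lf (nat_lit 0) (nat_lit 392370640273) (nat_lit 76) (nat_lit 192774122836) (nat_lit 76) (nat_lit 183231903177) (nat_lit 4) (nat_lit 4) (nat_lit 5) (nat_lit 5) (nat_lit 5) (nat_lit 4) (nat_lit 549) (nat_lit 397) (nat_lit 254))))))) (XT.nd (nat_lit 52104) (nat_lit 0) (nat_lit 7296) (XT.nd (nat_lit 51480) (nat_lit 0) (nat_lit 11476) (XT.nd (nat_lit 51168) (nat_lit 0) (nat_lit 14440) (XT.nd (nat_lit 78) (nat_lit 0) (nat_lit 0) (XT.lf (nat_lit 0) (nat_lit 479867422983) (nat_lit 76) (nat_lit 167401695361) (nat_lit 76) (nat_lit 157859051310) (nat_lit 4) (nat_lit 4) (nat_lit 5) (nat_lit 5) (nat_lit 5) (nat_lit 4) (nat_lit 550) (nat_lit 397) (nat_lit 253)) (XT.nd (nat_lit 51012) (nat_lit 0) (nat_lit 15048) (XT.lf (nat_lit 0) (nat_lit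 571733167017) (nat_lit 76) (nat_lit 140763636893) (nat_lit 76) (nat_lit 131220588661) (nat_lit 4) (nat_lit 4) (nat_lit 5) (nat_lit 5) (nat_lit 5) (nat_lit 4) (nat_lit 551) (nat_lit 397) (nat_lit 252)) (XT.lf (nat_lit 0) (nat_lit 216406925) (nat_lit 228) (nat_lit 2811212854) (nat_lit 0) (nat_lit 216406925) (nat_lit 202) (nat_lit 5) (nat_lit 205) (nat_lit 4) (nat_lit 202) (nat_lit 4) (nat_lit 404) (nat_lit 398) (nat_lit 398)))) (XT.nd (nat_lit 156) (nat_lit 304) (nat_lit 0) (XT.nd (nat_lit 78) (nat_lit 304) (nat_lit 0) (XT.lf (nat_lit 0) (nat_lit 3622099282) (nat_lit 228) (nat_lit 1904145717) (nat_lit 0) (nat_lit 987889775) (nat_lit 202) (nat_lit 5) (nat_lit 205) (nat_lit 4) (nat_lit 202) (nat_lit 4) (nat_lit 405) (nat_lit 398) (nat_lit 397)) (XT.lf (nat_lit 0) (nat_lit 256349429) (nat_lit 304) (nat_lit 4617464134) (nat_lit 76) (nat_lit 1675382678) (nat_lit 198) (nat_lit 5) (nat_lit 202) (nat_lit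 5) (nat_lit 199) (nat_lit 4) (nat_lit 406) (nat_lit 398) (nat_lit 396))) (XT.nd (nat_lit 78) (nat_lit 304) (nat_lit 0) (XT.lf (nat_lit 0) (nat_lit 3314856786) (nat_lit 304) (nat_lit 736829727) (nat_lit 76) (nat_lit 2539505949) (nat_lit 198) (nat_lit 5) (nat_lit 202) (nat_lit 5) (nat_lit 199) (nat_lit 4) (nat_lit 407) (nat_lit 398) (nat_lit 395)) (XT.lf (nat_lit 0) (nat_lit 3320293454) (nat_lit 304) (nat_lit 3083662062) (nat_lit 380) (nat_lit 237494375) (nat_lit 194) (nat_lit 5) (nat_lit 198) (nat_lit 5) (nat_lit 199) (nat_lit 4) (nat_lit 408) (nat_lit 398) (nat_lit 394))))) (XT.nd (nat_lit 312) (nat_lit 1444) (nat_lit 0) (XT.nd (nat_lit 156) (nat_lit 1064) (nat_lit 0) (XT.nd (nat_lit 78) (nat_lit 0) (nat_lit 0) (XT.lf (nat_lit 0) (nat_lit 762863788) (nat_lit 380) (nat_lit 1949922360) (nat_lit 456) (nat_lit 3986468083) (nat_lit 188) (nat_lit 5) (nat_lit 193) (nat_lit 5) (nat_lit 194) (nat_lit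 5) (nat_lit 409) (nat_lit 398) (nat_lit 393)) (XT.lf (nat_lit 0) (nat_lit 5036925861) (nat_lit 380) (nat_lit 657447376) (nat_lit 456) (nat_lit 1070830799) (nat_lit 188) (nat_lit 5) (nat_lit 193) (nat_lit 5) (nat_lit 194) (nat_lit 5) (nat_lit 410) (nat_lit 398) (nat_lit 392))) (XT.nd (nat_lit 78) (nat_lit 532) (nat_lit 0) (XT.lf (nat_lit 0) (nat_lit 1821212739) (nat_lit 532) (nat_lit 4233293608) (nat_lit 76) (nat_lit 783709287) (nat_lit 181) (nat_lit 5) (nat_lit 188) (nat_lit 5) (nat_lit 182) (nat_lit 5) (nat_lit 411) (nat_lit 398) (nat_lit 391)) (XT.lf (nat_lit 0) (nat_lit 146297609) (nat_lit 532) (nat_lit 4565346654) (nat_lit 608) (nat_lit 2207900536) (nat_lit 174) (nat_lit 5) (nat_lit 181) (nat_lit 5) (nat_lit 182) (nat_lit 5) (nat_lit 412) (nat_lit 398) (nat_lit 390)))) (XT.nd (nat_lit 156) (nat_lit 760) (nat_lit 0) (XT.nd (nat_lit 78) (nat_lit 608) (nat_lit 0) (XT.lf (nat_lit 0) (nat_lit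 640572262) (nat_lit 608) (nat_lit 2256099080) (nat_lit 76) (nat_lit 4111587714) (nat_lit 173) (nat_lit 5) (nat_lit 181) (nat_lit 5) (nat_lit 174) (nat_lit 5) (nat_lit 413) (nat_lit 398) (nat_lit 389)) (XT.lf (nat_lit 0) (nat_lit 2400073989) (nat_lit 608) (nat_lit 1051604569) (nat_lit 684) (nat_lit 3653229035) (nat_lit 165) (nat_lit 5) (nat_lit 173) (nat_lit 5) (nat_lit 174) (nat_lit 5) (nat_lit 414) (nat_lit 398) (nat_lit 388))) (XT.nd (nat_lit 78) (nat_lit 76) (nat_lit 0) (XT.lf (nat_lit 0) (nat_lit 16438724) (nat_lit 684) (nat_lit 6301813631) (nat_lit 760) (nat_lit 892418031) (nat_lit 156) (nat_lit 5) (nat_lit 165) (nat_lit 5) (nat_lit 166) (nat_lit 5) (nat_lit 415) (nat_lit 398) (nat_lit 387)) (XT.lf (nat_lit 0) (nat_lit 1904754451) (nat_lit 760) (nat_lit 2365403528) (nat_lit 76) (nat_lit 3051894959) (nat_lit 155) (nat_lit 5) (nat_lit 165) (nat_lit 5) (nat_lit 156) (nat_lit 5) (nat_lit 416)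 (nat_lit 398) (nat_lit 386)))))) (XT.nd (nat_lit 624) (nat_lit 1444) (nat_lit 0) (XT.nd (nat_lit 312) (nat_lit 1140) (nat_lit 0) (XT.nd (nat_lit 156) (nat_lit 380) (nat_lit 0) (XT.nd (nat_lit 78) (nat_lit 456) (nat_lit 0) (XT.lf (nat_lit 0) (nat_lit 2646453207) (nat_lit 760) (nat_lit 2077436063) (nat_lit 836) (nat_lit 2718802819) (nat_lit 145) (nat_lit 5) (nat_lit 155) (nat_lit 5) (nat_lit 156) (nat_lit 5) (nat_lit 417) (nat_lit 398) (nat_lit 385)) (XT.lf (nat_lit 0) (nat_lit 33466537) (nat_lit 456) (nat_lit 7277423696) (nat_lit 76) (nat_lit 262279120) (nat_lit 139) (nat_lit 5) (nat_lit 145) (nat_lit 5) (nat_lit 140) (nat_lit 5) (nat_lit 418) (nat_lit 398) (nat_lit 384))) (XT.nd (nat_lit 78) (nat_lit 380) (nat_lit 0) (XT.lf (nat_lit 0) (nat_lit 2825439766) (nat_lit 456) (nat_lit 2111843378) (nat_lit 76) (nat_lit 2771006284) (nat_lit 139) (nat_lit 5) (nat_lit 145) (nat_lit 5) (nat_lit 140) (nat_lit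 5) (nat_lit 419) (nat_lit 398) (nat_lit 383)) (XT.lf (nat_lit 0) (nat_lit 3289077659) (nat_lit 380) (nat_lit 2401995687) (nat_lit 456) (nat_lit 2162408579) (nat_lit 134) (nat_lit 5) (nat_lit 139) (nat_lit 5) (nat_lit 140) (nat_lit 5) (nat_lit 420) (nat_lit 398) (nat_lit 382)))) (XT.nd (nat_lit 156) (nat_lit 684) (nat_lit 0) (XT.nd (nat_lit 78) (nat_lit 0) (nat_lit 0) (XT.lf (nat_lit 0) (nat_lit 611799093) (nat_lit 456) (nat_lit 7096327271) (nat_lit 76) (nat_lit 300285629) (nat_lit 128) (nat_lit 5) (nat_lit 134) (nat_lit 5) (nat_lit 129) (nat_lit 5) (nat_lit 421) (nat_lit 398) (nat_lit 381)) (XT.lf (nat_lit 0) (nat_lit 3457693756) (nat_lit 456) (nat_lit 1555708674) (nat_lit 76) (nat_lit 3155648129) (nat_lit 128) (nat_lit 5) (nat_lit 134) (nat_lit 5) (nat_lit 129) (nat_lit 5) (nat_lit 422) (nat_lit 398) (nat_lit 380))) (XT.nd (nat_lit 78) (nat_lit 380) (nat_lit 0) (XT.lf (nat_lit 0) (nat_lit 4271753569)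 (nat_lit 304) (nat_lit 2133874220) (nat_lit 380) (nat_lit 1934122077) (nat_lit 124) (nat_lit 5) (nat_lit 128) (nat_lit 5) (nat_lit 129) (nat_lit 5) (nat_lit 423) (nat_lit 398) (nat_lit 379)) (XT.lf (nat_lit 0) (nat_lit 915250659) (nat_lit 380) (nat_lit 6693675959) (nat_lit 76) (nat_lit 911070222) (nat_lit 119) (nat_lit 5) (nat_lit 124) (nat_lit 5) (nat_lit 120) (nat_lit 5) (nat_lit 424) (nat_lit 398) (nat_lit 378))))) (XT.nd (nat_lit 312) (nat_lit 532) (nat_lit 0) (XT.nd (nat_lit 156) (nat_lit 608) (nat_lit 0) (XT.nd (nat_lit 78) (nat_lit 304) (nat_lit 0) (XT.lf (nat_lit 0) (nat_lit 3844255750) (nat_lit 380) (nat_lit 748105433) (nat_lit 76) (nat_lit 4115215348) (nat_lit 119) (nat_lit 5) (nat_lit 124) (nat_lit 5) (nat_lit 120) (nat_lit 5) (nat_lit 425) (nat_lit 398) (nat_lit 377)) (XT.lf (nat_lit 0) (nat_lit 5547476912) (nat_lit 304) (nat_lit 1360901532) (nat_lit 380) (nat_lit 1996736594) (nat_lit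 115) (nat_lit 5) (nat_lit 119) (nat_lit 5) (nat_lit 120) (nat_lit 5) (nat_lit 426) (nat_lit 398) (nat_lit 376))) (XT.nd (nat_lit 78) (nat_lit 228) (nat_lit 0) (XT.lf (nat_lit 0) (nat_lit 976627257) (nat_lit 380) (nat_lit 6119355740) (nat_lit 76) (nat_lit 2015974596) (nat_lit 110) (nat_lit 5) (nat_lit 115) (nat_lit 5) (nat_lit 111) (nat_lit 5) (nat_lit 427) (nat_lit 398) (nat_lit 375)) (XT.lf (nat_lit 0) (nat_lit 275221590) (nat_lit 228) (nat_lit 3746171768) (nat_lit 304) (nat_lit 5306631774) (nat_lit 107) (nat_lit 5) (nat_lit 110) (nat_lit 5) (nat_lit 111) (nat_lit 5) (nat_lit 428) (nat_lit 398) (nat_lit 374)))) (XT.nd (nat_lit 156) (nat_lit 228) (nat_lit 0) (XT.nd (nat_lit 78) (nat_lit 304) (nat_lit 0) (XT.lf (nat_lit 0) (nat_lit 7075810208) (nat_lit 228) (nat_lit 154190307) (nat_lit 304) (nat_lit 2324326255) (nat_lit 107) (nat_lit 5) (nat_lit 110) (nat_lit 5) (nat_lit 111) (nat_lit 5) (nat_lit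 429) (nat_lit 398) (nat_lit 373)) (XT.lf (nat_lit 0) (nat_lit 818627252) (nat_lit 304) (nat_lit 5419032191) (nat_lit 76) (nat_lit 3551795607) (nat_lit 103) (nat_lit 5) (nat_lit 107) (nat_lit 5) (nat_lit 104) (nat_lit 5) (nat_lit 430) (nat_lit 398) (nat_lit 372))) (XT.nd (nat_lit 78) (nat_lit 0) (nat_lit 0) (XT.lf (nat_lit 0) (nat_lit 1495213818) (nat_lit 228) (nat_lit 2526655897) (nat_lit 304) (nat_lit 6013511528) (nat_lit 100) (nat_lit 5) (nat_lit 103) (nat_lit 5) (nat_lit 104) (nat_lit 5) (nat_lit 431) (nat_lit 398) (nat_lit 371)) (XT.lf (nat_lit 0) (nat_lit 7414305019) (nat_lit 304) (nat_lit 1495192952) (nat_lit 76) (nat_lit 1382663174) (nat_lit 100) (nat_lit 5) (nat_lit 104) (nat_lit 5) (nat_lit 101) (nat_lit 5) (nat_lit 432) (nat_lit 398) (nat_lit 370))))))))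
noncomputable def xc89 : XT := (XT.nd (nat_lit 2418) (nat_lit 1976) (nat_lit 0) (XT.nd (nat_lit 1170) (nat_lit 1444) (nat_lit 0) (XT.nd (nat_lit 546) (nat_lit 1140) (nat_lit 0) (XT.nd (nat_lit 234) (nat_lit 684) (nat_lit 0) (XT.nd (nat_lit 78) (nat_lit 152) (nat_lit 0) (XT.lf (nat_lit 0) (nat_lit 454608511) (nat_lit 304) (nat_lit 4636663170) (nat_lit 76) (nat_lit 5467528038) (nat_lit 96) (nat_lit 5) (nat_lit 100) (nat_lit 5) (nat_lit 97) (nat_lit 5) (nat_lit 433) (nat_lit 398) (nat_lit 369)) (XT.nd (nat_lit 78) (nat_lit 0) (nat_lit 0) (XT.lf (nat_lit 0) (nat_lit 2846963832) (nat_lit 152) (nat_lit 999366104) (nat_lit 228) (nat_lit 6990621687) (nat_lit 94) (nat_lit 5) (nat_lit 96) (nat_lit 5) (nat_lit 97) (nat_lit 5) (nat_lit 434) (nat_lit 398) (nat_lit 368)) (XT.lf (nat_lit 0) (nat_lit 7459442614) (nat_lit 228) (nat_lit 434766097) (nat_lit 76) (nat_lit 3232219500) (nat_lit 94) (nat_lit 5) (nat_lit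 97) (nat_lit 5) (nat_lit 95) (nat_lit 5) (nat_lit 435) (nat_lit 398) (nat_lit 367)))) (XT.nd (nat_lit 156) (nat_lit 228) (nat_lit 0) (XT.nd (nat_lit 78) (nat_lit 228) (nat_lit 0) (XT.lf (nat_lit 0) (nat_lit 7608532226) (nat_lit 228) (nat_lit 3704153454) (nat_lit 304) (nat_lit 114726211) (nat_lit 91) (nat_lit 5) (nat_lit 94) (nat_lit 5) (nat_lit 95) (nat_lit 5) (nat_lit 436) (nat_lit 398) (nat_lit 366)) (XT.lf (nat_lit 0) (nat_lit 3511126599) (nat_lit 228) (nat_lit 7463697110) (nat_lit 76) (nat_lit 765220881) (nat_lit 88) (nat_lit 5) (nat_lit 91) (nat_lit 5) (nat_lit 89) (nat_lit 5) (nat_lit 437) (nat_lit 398) (nat_lit 365))) (XT.nd (nat_lit 78) (nat_lit 0) (nat_lit 0) (XT.lf (nat_lit 0) (nat_lit 683508060) (nat_lit 228) (nat_lit 6694046047) (nat_lit 304) (nat_lit 4687509946) (nat_lit 85) (nat_lit 5) (nat_lit 88) (nat_lit 5) (nat_lit 89) (nat_lit 5) (nat_lit 438) (nat_lit 398) (nat_lit 364)) (XT.lf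 (nat_lit 0) (nat_lit 9380560941) (nat_lit 228) (nat_lit 2110853311) (nat_lit 304) (nat_lit 912220430) (nat_lit 85) (nat_lit 5) (nat_lit 88) (nat_lit 5) (nat_lit 89) (nat_lit 5) (nat_lit 439) (nat_lit 398) (nat_lit 363))))) (XT.nd (nat_lit 312) (nat_lit 532) (nat_lit 0) (XT.nd (nat_lit 156) (nat_lit 228) (nat_lit 0) (XT.nd (nat_lit 78) (nat_lit 152) (nat_lit 0) (XT.lf (nat_lit 0) (nat_lit 3018132184) (nat_lit 228) (nat_lit 7022314908) (nat_lit 76) (nat_lit 2713110774) (nat_lit 82) (nat_lit 5) (nat_lit 85) (nat_lit 5) (nat_lit 83) (nat_lit 5) (nat_lit 440) (nat_lit 398) (nat_lit 362)) (XT.lf (nat_lit 0) (nat_lit 1802793548) (nat_lit 152) (nat_lit 5357274340) (nat_lit 228) (nat_lit 5957880471) (nat_lit 80) (nat_lit 5) (nat_lit 82) (nat_lit 5) (nat_lit 83) (nat_lit 5) (nat_lit 441) (nat_lit 398) (nat_lit 361))) (XT.nd (nat_lit 78) (nat_lit 228) (nat_lit 0) (XT.lf (nat_lit 0) (nat_lit 11200478584)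 (nat_lit 152) (nat_lit 360015545) (nat_lit 228) (nat_lit 1937499297) (nat_lit 80) (nat_lit 5) (nat_lit 82) (nat_lit 5) (nat_lit 83) (nat_lit 5) (nat_lit 442) (nat_lit 398) (nat_lit 360)) (XT.lf (nat_lit 0) (nat_lit 2336808113) (nat_lit 228) (nat_lit 6712548122) (nat_lit 76) (nat_lit 4839605592) (nat_lit 77) (nat_lit 5) (nat_lit 80) (nat_lit 5) (nat_lit 78) (nat_lit 5) (nat_lit 443) (nat_lit 398) (nat_lit 359)))) (XT.nd (nat_lit 156) (nat_lit 380) (nat_lit 0) (XT.nd (nat_lit 78) (nat_lit 0) (nat_lit 0) (XT.lf (nat_lit 0) (nat_lit 2849111810) (nat_lit 152) (nat_lit 3935916738) (nat_lit 228) (nat_lit 7511600561) (nat_lit 75) (nat_lit 5) (nat_lit 77) (nat_lit 5) (nat_lit 78) (nat_lit 5) (nat_lit 444) (nat_lit 398) (nat_lit 358)) (XT.lf (nat_lit 0) (nat_lit 11529642159) (nat_lit 228) (nat_lit 1732069419) (nat_lit 76) (nat_lit 1459272966) (nat_lit 75) (nat_lit 5) (nat_lit 78) (nat_lit 5) (nat_lit 76)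 (nat_lit 4) (nat_lit 445) (nat_lit 398) (nat_lit 357))) (XT.nd (nat_lit 78) (nat_lit 152) (nat_lit 0) (XT.lf (nat_lit 0) (nat_lit 1441620414) (nat_lit 228) (nat_lit 6609363569) (nat_lit 76) (nat_lit 7107540506) (nat_lit 72) (nat_lit 5) (nat_lit 75) (nat_lit 5) (nat_lit 73) (nat_lit 5) (nat_lit 446) (nat_lit 398) (nat_lit 356)) (XT.lf (nat_lit 0) (nat_lit 3749556784) (nat_lit 152) (nat_lit 2477185720) (nat_lit 228) (nat_lit 9387198382) (nat_lit 70) (nat_lit 5) (nat_lit 72) (nat_lit 5) (nat_lit 73) (nat_lit 5) (nat_lit 447) (nat_lit 398) (nat_lit 355)))))) (XT.nd (nat_lit 624) (nat_lit 760) (nat_lit 0) (XT.nd (nat_lit 312) (nat_lit 380) (nat_lit 0) (XT.nd (nat_lit 156) (nat_lit 152) (nat_lit 0) (XT.nd (nat_lit 78) (nat_lit 152) (nat_lit 0) (XT.lf (nat_lit 0) (nat_lit 11357554605) (nat_lit 228) (nat_lit 1391510731) (nat_lit 76) (nat_lit 3337744277) (nat_lit 70) (nat_lit 5) (nat_lit 73) (nat_lit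 5) (nat_lit 71) (nat_lit 4) (nat_lit 448) (nat_lit 398) (nat_lit 354)) (XT.lf (nat_lit 0) (nat_lit 294709049) (nat_lit 152) (nat_lit 6805252648) (nat_lit 76) (nat_lit 9476322085) (nat_lit 68) (nat_lit 5) (nat_lit 70) (nat_lit 5) (nat_lit 69) (nat_lit 5) (nat_lit 449) (nat_lit 398) (nat_lit 353))) (XT.nd (nat_lit 78) (nat_lit 0) (nat_lit 0) (XT.lf (nat_lit 0) (nat_lit 4412757572) (nat_lit 152) (nat_lit 1034100399) (nat_lit 228) (nat_lit 11637703987) (nat_lit 66) (nat_lit 5) (nat_lit 68) (nat_lit 5) (nat_lit 69) (nat_lit 5) (nat_lit 450) (nat_lit 398) (nat_lit 352)) (XT.lf (nat_lit 0) (nat_lit 11000584712) (nat_lit 228) (nat_lit 1371730060) (nat_lit 76) (nat_lit 5238743391) (nat_lit 66) (nat_lit 5) (nat_lit 69) (nat_lit 5) (nat_lit 67) (nat_lit 4) (nat_lit 451) (nat_lit 398) (nat_lit 351)))) (XT.nd (nat_lit 156) (nat_lit 76) (nat_lit 0) (XT.nd (nat_lit 78) (nat_lit 228) (nat_lit 0) (XT.lf (nat_lit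 0) (nat_lit 10722452044) (nat_lit 76) (nat_lit 6240130148) (nat_lit 152) (nat_lit 1194770278) (nat_lit 65) (nat_lit 5) (nat_lit 66) (nat_lit 5) (nat_lit 67) (nat_lit 4) (nat_lit 452) (nat_lit 398) (nat_lit 350)) (XT.lf (nat_lit 0) (nat_lit 4396888426) (nat_lit 228) (nat_lit 14007962631) (nat_lit 76) (nat_lit 320159630) (nat_lit 62) (nat_lit 5) (nat_lit 65) (nat_lit 5) (nat_lit 63) (nat_lit 4) (nat_lit 453) (nat_lit 398) (nat_lit 349))) (XT.nd (nat_lit 78) (nat_lit 76) (nat_lit 0) (XT.lf (nat_lit 0) (nat_lit 10405060450) (nat_lit 228) (nat_lit 1801705807) (nat_lit 76) (nat_lit 7104454281) (nat_lit 62) (nat_lit 5) (nat_lit 65) (nat_lit 5) (nat_lit 63) (nat_lit 4) (nat_lit 454) (nat_lit 398) (nat_lit 348)) (XT.lf (nat_lit 0) (nat_lit 11282922289) (nat_lit 76) (nat_lit 5556217291) (nat_lit 152) (nat_lit 3081328446) (nat_lit 61) (nat_lit 5) (nat_lit 62) (nat_lit 5) (nat_lit 63) (nat_lit 4) (nat_lit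 455) (nat_lit 398) (nat_lit 347))))) (XT.nd (nat_lit 312) (nat_lit 228) (nat_lit 0) (XT.nd (nat_lit 156) (nat_lit 304) (nat_lit 0) (XT.nd (nat_lit 78) (nat_lit 0) (nat_lit 0) (XT.lf (nat_lit 0) (nat_lit 3012907105) (nat_lit 228) (nat_lit 16049765979) (nat_lit 76) (nat_lit 1491372978) (nat_lit 58) (nat_lit 5) (nat_lit 61) (nat_lit 5) (nat_lit 59) (nat_lit 4) (nat_lit 456) (nat_lit 398) (nat_lit 346)) (XT.lf (nat_lit 0) (nat_lit 9497886356) (nat_lit 228) (nat_lit 2846463703) (nat_lit 76) (nat_lit 8862949809) (nat_lit 58) (nat_lit 5) (nat_lit 61) (nat_lit 5) (nat_lit 59) (nat_lit 4) (nat_lit 457) (nat_lit 398) (nat_lit 345))) (XT.nd (nat_lit 78) (nat_lit 228) (nat_lit 0) (XT.lf (nat_lit 0) (nat_lit 11289233592) (nat_lit 76) (nat_lit 5146347235) (nat_lit 152) (nat_lit 5451213926) (nat_lit 57) (nat_lit 5) (nat_lit 58) (nat_lit 5) (nat_lit 59) (nat_lit 4) (nat_lit 458) (nat_lit 398) (nat_lit 344))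 (XT.lf (nat_lit 0) (nat_lit 1181276657) (nat_lit 228) (nat_lit 18993774083) (nat_lit 76) (nat_lit 2419479716) (nat_lit 54) (nat_lit 5) (nat_lit 57) (nat_lit 5) (nat_lit 55) (nat_lit 4) (nat_lit 459) (nat_lit 398) (nat_lit 343)))) (XT.nd (nat_lit 156) (nat_lit 152) (nat_lit 0) (XT.nd (nat_lit 78) (nat_lit 76) (nat_lit 0) (XT.lf (nat_lit 0) (nat_lit 8181582955) (nat_lit 228) (nat_lit 4717934095) (nat_lit 76) (nat_lit 10422699767) (nat_lit 54) (nat_lit 5) (nat_lit 57) (nat_lit 5) (nat_lit 55) (nat_lit 4) (nat_lit 460) (nat_lit 398) (nat_lit 342)) (XT.lf (nat_lit 0) (nat_lit 10523274733) (nat_lit 76) (nat_lit 5127788917) (nat_lit 152) (nat_lit 8429267294) (nat_lit 53) (nat_lit 5) (nat_lit 54) (nat_lit 5) (nat_lit 55) (nat_lit 4) (nat_lit 461) (nat_lit 398) (nat_lit 341))) (XT.nd (nat_lit 78) (nat_lit 76) (nat_lit 0) (XT.lf (nat_lit 0) (nat_lit 1739547028) (nat_lit 76) (nat_lit 21865270932) (nat_lit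 76) (nat_lit 1265994168) (nat_lit 52) (nat_lit 4) (nat_lit 53) (nat_lit 5) (nat_lit 53) (nat_lit 4) (nat_lit 462) (nat_lit 398) (nat_lit 340)) (XT.lf (nat_lit 0) (nat_lit 6327836612) (nat_lit 152) (nat_lit 7688739918) (nat_lit 76) (nat_lit 11665728440) (nat_lit 51) (nat_lit 5) (nat_lit 53) (nat_lit 5) (nat_lit 52) (nat_lit 4) (nat_lit 463) (nat_lit 398) (nat_lit 339))))))) (XT.nd (nat_lit 1170) (nat_lit 988) (nat_lit 0) (XT.nd (nat_lit 546) (nat_lit 456) (nat_lit 0) (XT.nd (nat_lit 234) (nat_lit 304) (nat_lit 0) (XT.nd (nat_lit 78) (nat_lit 152) (nat_lit 0) (XT.lf (nat_lit 0) (nat_lit 8702194315) (nat_lit 76) (nat_lit 5649804506) (nat_lit 152) (nat_lit 12176677804) (nat_lit 50) (nat_lit 5) (nat_lit 51) (nat_lit 5) (nat_lit 52) (nat_lit 4) (nat_lit 464) (nat_lit 398) (nat_lit 338)) (XT.nd (nat_lit 78) (nat_lit 152) (nat_lit 0) (XT.lf (nat_lit 0) (nat_lit 22916170259) (nat_lit 152) (nat_lit 1364002787)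 (nat_lit 0) (nat_lit 3130254858) (nat_lit 50) (nat_lit 5) (nat_lit 52) (nat_lit 4) (nat_lit 50) (nat_lit 4) (nat_lit 465) (nat_lit 398) (nat_lit 337)) (XT.lf (nat_lit 0) (nat_lit 3769164801) (nat_lit 152) (nat_lit 12109746968) (nat_lit 76) (nat_lit 12439006469) (nat_lit 48) (nat_lit 5) (nat_lit 50) (nat_lit 5) (nat_lit 49) (nat_lit 4) (nat_lit 466) (nat_lit 398) (nat_lit 336)))) (XT.nd (nat_lit 156) (nat_lit 228) (nat_lit 0) (XT.nd (nat_lit 78) (nat_lit 0) (nat_lit 0) (XT.lf (nat_lit 0) (nat_lit 5459499287) (nat_lit 76) (nat_lit 6903546108) (nat_lit 152) (nat_lit 16900638647) (nat_lit 47) (nat_lit 5) (nat_lit 48) (nat_lit 5) (nat_lit 49) (nat_lit 4) (nat_lit 467) (nat_lit 398) (nat_lit 335)) (XT.lf (nat_lit 0) (nat_lit 21594177282) (nat_lit 152) (nat_lit 6039584775) (nat_lit 0) (nat_lit 2612599117) (nat_lit 47) (nat_lit 5) (nat_lit 49) (nat_lit 4) (nat_lit 47) (nat_lit 4) (nat_lit 468) (nat_lit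 398) (nat_lit 334))) (XT.nd (nat_lit 78) (nat_lit 76) (nat_lit 0) (XT.lf (nat_lit 0) (nat_lit 288189235) (nat_lit 152) (nat_lit 18432434947) (nat_lit 76) (nat_lit 12543553319) (nat_lit 45) (nat_lit 5) (nat_lit 47) (nat_lit 5) (nat_lit 46) (nat_lit 4) (nat_lit 469) (nat_lit 398) (nat_lit 333)) (XT.lf (nat_lit 0) (nat_lit 320933868) (nat_lit 76) (nat_lit 9134587292) (nat_lit 152) (nat_lit 22866736795) (nat_lit 44) (nat_lit 5) (nat_lit 45) (nat_lit 5) (nat_lit 46) (nat_lit 4) (nat_lit 470) (nat_lit 398) (nat_lit 332))))) (XT.nd (nat_lit 312) (nat_lit 228) (nat_lit 0) (XT.nd (nat_lit 156) (nat_lit 152) (nat_lit 0) (XT.nd (nat_lit 78) (nat_lit 76) (nat_lit 0) (XT.lf (nat_lit 0) (nat_lit 19374894373) (nat_lit 152) (nat_lit 12859873073) (nat_lit 0) (nat_lit 1183791995) (nat_lit 44) (nat_lit 5) (nat_lit 46) (nat_lit 4) (nat_lit 44) (nat_lit 4) (nat_lit 471) (nat_lit 398) (nat_lit 331)) (XT.lf (nat_lit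 0) (nat_lit 7250002475) (nat_lit 76) (nat_lit 22766853418) (nat_lit 76) (nat_lit 4541489830) (nat_lit 43) (nat_lit 4) (nat_lit 44) (nat_lit 5) (nat_lit 44) (nat_lit 4) (nat_lit 472) (nat_lit 398) (nat_lit 330))) (XT.nd (nat_lit 78) (nat_lit 76) (nat_lit 0) (XT.lf (nat_lit 0) (nat_lit 5446906904) (nat_lit 152) (nat_lit 7091834156) (nat_lit 76) (nat_lit 23202882897) (nat_lit 42) (nat_lit 5) (nat_lit 44) (nat_lit 5) (nat_lit 43) (nat_lit 4) (nat_lit 473) (nat_lit 398) (nat_lit 329)) (XT.lf (nat_lit 0) (nat_lit 14456115207) (nat_lit 76) (nat_lit 1517145497) (nat_lit 152) (nat_lit 20997525424) (nat_lit 41) (nat_lit 5) (nat_lit 42) (nat_lit 5) (nat_lit 43) (nat_lit 4) (nat_lit 474) (nat_lit 398) (nat_lit 328)))) (XT.nd (nat_lit 156) (nat_lit 152) (nat_lit 0) (XT.nd (nat_lit 78) (nat_lit 76) (nat_lit 0) (XT.lf (nat_lit 0) (nat_lit 27270557443) (nat_lit 152) (nat_lit 1154408803) (nat_lit 0) (nat_lit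 9824209481) (nat_lit 41) (nat_lit 5) (nat_lit 43) (nat_lit 4) (nat_lit 41) (nat_lit 4) (nat_lit 475) (nat_lit 398) (nat_lit 327)) (XT.lf (nat_lit 0) (nat_lit 21884956984) (nat_lit 76) (nat_lit 17581516581) (nat_lit 76) (nat_lit 108324065) (nat_lit 40) (nat_lit 4) (nat_lit 41) (nat_lit 5) (nat_lit 41) (nat_lit 4) (nat_lit 476) (nat_lit 398) (nat_lit 326))) (XT.nd (nat_lit 78) (nat_lit 0) (nat_lit 0) (XT.lf (nat_lit 0) (nat_lit 5071601575) (nat_lit 76) (nat_lit 5938330294) (nat_lit 152) (nat_lit 29944629091) (nat_lit 38) (nat_lit 5) (nat_lit 39) (nat_lit 5) (nat_lit 40) (nat_lit 4) (nat_lit 477) (nat_lit 398) (nat_lit 325)) (XT.lf (nat_lit 0) (nat_lit 23050435509) (nat_lit 152) (nat_lit 12972528229) (nat_lit 0) (nat_lit 6361761642) (nat_lit 38) (nat_lit 5) (nat_lit 40) (nat_lit 4) (nat_lit 38) (nat_lit 4) (nat_lit 478) (nat_lit 398) (nat_lit 324)))))) (XT.nd (nat_lit 624) (nat_lit 456) (nat_lit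 0) (XT.nd (nat_lit 312) (nat_lit 304) (nat_lit 0) (XT.nd (nat_lit 156) (nat_lit 76) (nat_lit 0) (XT.nd (nat_lit 78) (nat_lit 76) (nat_lit 0) (XT.lf (nat_lit 0) (nat_lit 11285748946) (nat_lit 76) (nat_lit 24649643536) (nat_lit 76) (nat_lit 7938884587) (nat_lit 37) (nat_lit 4) (nat_lit 38) (nat_lit 5) (nat_lit 38) (nat_lit 4) (nat_lit 479) (nat_lit 398) (nat_lit 323)) (XT.lf (nat_lit 0) (nat_lit 4089633344) (nat_lit 152) (nat_lit 8348044004) (nat_lit 76) (nat_lit 32987875881) (nat_lit 36) (nat_lit 5) (nat_lit 38) (nat_lit 5) (nat_lit 37) (nat_lit 4) (nat_lit 480) (nat_lit 398) (nat_lit 322))) (XT.nd (nat_lit 78) (nat_lit 0) (nat_lit 0) (XT.lf (nat_lit 0) (nat_lit 16708165751) (nat_lit 152) (nat_lit 29572903713) (nat_lit 0) (nat_lit 754047485) (nat_lit 35) (nat_lit 5) (nat_lit 37) (nat_lit 4) (nat_lit 35) (nat_lit 4) (nat_lit 481) (nat_lit 398) (nat_lit 321)) (XT.lf (nat_lit 0) (nat_lit 30275671195)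 (nat_lit 152) (nat_lit 4130202237) (nat_lit 0) (nat_lit 14303383478) (nat_lit 35) (nat_lit 5) (nat_lit 37) (nat_lit 4) (nat_lit 35) (nat_lit 4) (nat_lit 482) (nat_lit 398) (nat_lit 320)))) (XT.nd (nat_lit 156) (nat_lit 152) (nat_lit 0) (XT.nd (nat_lit 78) (nat_lit 76) (nat_lit 0) (XT.lf (nat_lit 0) (nat_lit 23273624361) (nat_lit 76) (nat_lit 21583155218) (nat_lit 76) (nat_lit 5593563262) (nat_lit 34) (nat_lit 4) (nat_lit 35) (nat_lit 5) (nat_lit 35) (nat_lit 4) (nat_lit 483) (nat_lit 398) (nat_lit 319)) (XT.lf (nat_lit 0) (nat_lit 7678962490) (nat_lit 152) (nat_lit 264199078) (nat_lit 76) (nat_lit 44327014668) (nat_lit 33) (nat_lit 5) (nat_lit 35) (nat_lit 5) (nat_lit 34) (nat_lit 4) (nat_lit 484) (nat_lit 398) (nat_lit 318))) (XT.nd (nat_lit 78) (nat_lit 76) (nat_lit 0) (XT.lf (nat_lit 0) (nat_lit 21957582735) (nat_lit 152) (nat_lit 25493555143) (nat_lit 0) (nat_lit 6698756412) (nat_lit 32)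 (nat_lit 5) (nat_lit 34) (nat_lit 4) (nat_lit 32) (nat_lit 4) (nat_lit 485) (nat_lit 398) (nat_lit 317)) (XT.lf (nat_lit 0) (nat_lit 2815191904) (nat_lit 76) (nat_lit 34286934784) (nat_lit 76) (nat_lit 19013872220) (nat_lit 31) (nat_lit 4) (nat_lit 32) (nat_lit 5) (nat_lit 32) (nat_lit 4) (nat_lit 486) (nat_lit 398) (nat_lit 316))))) (XT.nd (nat_lit 312) (nat_lit 228) (nat_lit 0) (XT.nd (nat_lit 156) (nat_lit 76) (nat_lit 0) (XT.nd (nat_lit 78) (nat_lit 152) (nat_lit 0) (XT.lf (nat_lit 0) (nat_lit 33371990196) (nat_lit 76) (nat_lit 20037382980) (nat_lit 76) (nat_lit 4750762092) (nat_lit 31) (nat_lit 4) (nat_lit 32) (nat_lit 5) (nat_lit 32) (nat_lit 4) (nat_lit 487) (nat_lit 398) (nat_lit 315)) (XT.lf (nat_lit 0) (nat_lit 5103022238) (nat_lit 76) (nat_lit 4849444013) (nat_lit 152) (nat_lit 50343317876) (nat_lit 29) (nat_lit 5) (nat_lit 30) (nat_lit 5) (nat_lit 31) (nat_lit 4) (nat_lit 488) (nat_lit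 398) (nat_lit 314))) (XT.nd (nat_lit 78) (nat_lit 76) (nat_lit 0) (XT.lf (nat_lit 0) (nat_lit 25805760182) (nat_lit 152) (nat_lit 25476769742) (nat_lit 0) (nat_lit 11223063633) (nat_lit 29) (nat_lit 5) (nat_lit 31) (nat_lit 4) (nat_lit 29) (nat_lit 4) (nat_lit 489) (nat_lit 398) (nat_lit 313)) (XT.lf (nat_lit 0) (nat_lit 5782161427) (nat_lit 76) (nat_lit 36815151778) (nat_lit 76) (nat_lit 22221300762) (nat_lit 28) (nat_lit 4) (nat_lit 29) (nat_lit 5) (nat_lit 29) (nat_lit 4) (nat_lit 490) (nat_lit 398) (nat_lit 312)))) (XT.nd (nat_lit 156) (nat_lit 76) (nat_lit 0) (XT.nd (nat_lit 78) (nat_lit 152) (nat_lit 0) (XT.lf (nat_lit 0) (nat_lit 39440889371) (nat_lit 76) (nat_lit 21195243069) (nat_lit 76) (nat_lit 6590768751) (nat_lit 28) (nat_lit 4) (nat_lit 29) (nat_lit 5) (nat_lit 29) (nat_lit 4) (nat_lit 491) (nat_lit 398) (nat_lit 311)) (XT.lf (nat_lit 0) (nat_lit 4987093262) (nat_lit 76) (nat_lit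 4574704303) (nat_lit 152) (nat_lit 60183396000) (nat_lit 26) (nat_lit 5) (nat_lit 27) (nat_lit 5) (nat_lit 28) (nat_lit 4) (nat_lit 492) (nat_lit 398) (nat_lit 310))) (XT.nd (nat_lit 78) (nat_lit 76) (nat_lit 0) (XT.lf (nat_lit 0) (nat_lit 26956846280) (nat_lit 152) (nat_lit 32365324176) (nat_lit 0) (nat_lit 13029010665) (nat_lit 26) (nat_lit 5) (nat_lit 28) (nat_lit 4) (nat_lit 26) (nat_lit 4) (nat_lit 493) (nat_lit 398) (nat_lit 309)) (XT.lf (nat_lit 0) (nat_lit 1578651113) (nat_lit 76) (nat_lit 43720752376) (nat_lit 76) (nat_lit 29784176944) (nat_lit 25) (nat_lit 4) (nat_lit 26) (nat_lit 5) (nat_lit 26) (nat_lit 4) (nat_lit 494) (nat_lit 398) (nat_lit 308))))))))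
noncomputable def xc90 : XT := (XT.nd (nat_lit 2418) (nat_lit 456) (nat_lit 0) (XT.nd (nat_lit 1170) (nat_lit 456) (nat_lit 0) (XT.nd (nat_lit 546) (nat_lit 304) (nat_lit 0) (XT.nd (nat_lit 234) (nat_lit 228) (nat_lit 0) (XT.nd (nat_lit 78) (nat_lit 152) (nat_lit 0) (XT.lf (nat_lit 0) (nat_lit 38300214167) (nat_lit 76) (nat_lit 26785477318) (nat_lit 76) (nat_lit 12840578251) (nat_lit 25) (nat_lit 4) (nat_lit 26) (nat_lit 5) (nat_lit 26) (nat_lit 4) (nat_lit 495) (nat_lit 398) (nat_lit 307)) (XT.nd (nat_lit 78) (nat_lit 76) (nat_lit 0) (XT.lf (nat_lit 0) (nat_lit 4770932151) (nat_lit 152) (nat_lit 4172415428) (nat_lit 76) (nat_lit 71964923300) (nat_lit 24) (nat_lit 5) (nat_lit 26) (nat_lit 5) (nat_lit 25) (nat_lit 4) (nat_lit 496) (nat_lit 398) (nat_lit 306)) (XT.lf (nat_lit 0) (nat_lit 23505414846) (nat_lit 152) (nat_lit 50279917556) (nat_lit 0) (nat_lit 10209818541) (nat_lit 23) (nat_lit 5)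 (nat_lit 25) (nat_lit 4) (nat_lit 23) (nat_lit 4) (nat_lit 497) (nat_lit 398) (nat_lit 305)))) (XT.nd (nat_lit 156) (nat_lit 152) (nat_lit 0) (XT.nd (nat_lit 78) (nat_lit 76) (nat_lit 0) (XT.lf (nat_lit 0) (nat_lit 43375238835) (nat_lit 152) (nat_lit 13778410805) (nat_lit 0) (nat_lit 30072794655) (nat_lit 23) (nat_lit 5) (nat_lit 25) (nat_lit 4) (nat_lit 23) (nat_lit 4) (nat_lit 498) (nat_lit 398) (nat_lit 304)) (XT.lf (nat_lit 0) (nat_lit 25320568827) (nat_lit 76) (nat_lit 39294438462) (nat_lit 76) (nat_lit 25985472496) (nat_lit 22) (nat_lit 4) (nat_lit 23) (nat_lit 5) (nat_lit 23) (nat_lit 4) (nat_lit 499) (nat_lit 398) (nat_lit 303))) (XT.nd (nat_lit 78) (nat_lit 152) (nat_lit 0) (XT.lf (nat_lit 0) (nat_lit 66815447169) (nat_lit 76) (nat_lit 20316103925) (nat_lit 76) (nat_lit 7000926735) (nat_lit 22) (nat_lit 4) (nat_lit 23) (nat_lit 5) (nat_lit 23) (nat_lit 4) (nat_lit 500) (nat_lit 398)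 (nat_lit 302)) (XT.lf (nat_lit 0) (nat_lit 12699640567) (nat_lit 152) (nat_lit 85109417453) (nat_lit 0) (nat_lit 12885669) (nat_lit 20) (nat_lit 5) (nat_lit 22) (nat_lit 4) (nat_lit 20) (nat_lit 4) (nat_lit 501) (nat_lit 398) (nat_lit 301))))) (XT.nd (nat_lit 312) (nat_lit 228) (nat_lit 0) (XT.nd (nat_lit 156) (nat_lit 76) (nat_lit 0) (XT.nd (nat_lit 78) (nat_lit 0) (nat_lit 0) (XT.lf (nat_lit 0) (nat_lit 33935276440) (nat_lit 152) (nat_lit 46472446133) (nat_lit 0) (nat_lit 21243156054) (nat_lit 20) (nat_lit 5) (nat_lit 22) (nat_lit 4) (nat_lit 20) (nat_lit 4) (nat_lit 502) (nat_lit 398) (nat_lit 300)) (XT.lf (nat_lit 0) (nat_lit 56215603807) (nat_lit 152) (nat_lit 5938137694) (nat_lit 0) (nat_lit 43518373430) (nat_lit 20) (nat_lit 5) (nat_lit 22) (nat_lit 4) (nat_lit 20) (nat_lit 4) (nat_lit 503) (nat_lit 398) (nat_lit 299))) (XT.nd (nat_lit 78) (nat_lit 0) (nat_lit 0) (XT.lf (nat_lit 0) (nat_lit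 37799849363) (nat_lit 76) (nat_lit 42383983283) (nat_lit 76) (nat_lit 29681886250) (nat_lit 19) (nat_lit 4) (nat_lit 20) (nat_lit 5) (nat_lit 20) (nat_lit 4) (nat_lit 504) (nat_lit 398) (nat_lit 298)) (XT.lf (nat_lit 0) (nat_lit 83898556589) (nat_lit 76) (nat_lit 21536475281) (nat_lit 76) (nat_lit 8829743336) (nat_lit 19) (nat_lit 4) (nat_lit 20) (nat_lit 5) (nat_lit 20) (nat_lit 4) (nat_lit 505) (nat_lit 398) (nat_lit 297)))) (XT.nd (nat_lit 156) (nat_lit 76) (nat_lit 0) (XT.nd (nat_lit 78) (nat_lit 0) (nat_lit 0) (XT.lf (nat_lit 0) (nat_lit 12856082318) (nat_lit 152) (nat_lit 105256812319) (nat_lit 0) (nat_lit 750228845) (nat_lit 17) (nat_lit 5) (nat_lit 19) (nat_lit 4) (nat_lit 17) (nat_lit 4) (nat_lit 506) (nat_lit 398) (nat_lit 296)) (XT.lf (nat_lit 0) (nat_lit 36189735869) (nat_lit 152) (nat_lit 63371523608) (nat_lit 0) (nat_lit 24079878586) (nat_lit 17) (nat_lit 5) (nat_lit 19) (nat_lit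 4) (nat_lit 17) (nat_lit 4) (nat_lit 507) (nat_lit 398) (nat_lit 295))) (XT.nd (nat_lit 78) (nat_lit 76) (nat_lit 0) (XT.lf (nat_lit 0) (nat_lit 60675328967) (nat_lit 152) (nat_lit 19421803111) (nat_lit 0) (nat_lit 48561658531) (nat_lit 17) (nat_lit 5) (nat_lit 19) (nat_lit 4) (nat_lit 17) (nat_lit 4) (nat_lit 508) (nat_lit 398) (nat_lit 294)) (XT.lf (nat_lit 0) (nat_lit 27579714465) (nat_lit 76) (nat_lit 59222042813) (nat_lit 76) (nat_lit 47104740802) (nat_lit 16) (nat_lit 4) (nat_lit 17) (nat_lit 5) (nat_lit 17) (nat_lit 4) (nat_lit 509) (nat_lit 398) (nat_lit 293)))))) (XT.nd (nat_lit 624) (nat_lit 228) (nat_lit 0) (XT.nd (nat_lit 312) (nat_lit 76) (nat_lit 0) (XT.nd (nat_lit 156) (nat_lit 152) (nat_lit 0) (XT.nd (nat_lit 78) (nat_lit 0) (nat_lit 0) (XT.lf (nat_lit 0) (nat_lit 77577635282) (nat_lit 76) (nat_lit 36971980465) (nat_lit 76) (nat_lit 24851219812) (nat_lit 16) (nat_lit 4) (nat_lit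 17) (nat_lit 5) (nat_lit 17) (nat_lit 4) (nat_lit 510) (nat_lit 398) (nat_lit 292)) (XT.lf (nat_lit 0) (nat_lit 130048829486) (nat_lit 76) (nat_lit 13622886329) (nat_lit 76) (nat_lit 1498831731) (nat_lit 16) (nat_lit 4) (nat_lit 17) (nat_lit 5) (nat_lit 17) (nat_lit 4) (nat_lit 511) (nat_lit 398) (nat_lit 291))) (XT.nd (nat_lit 78) (nat_lit 0) (nat_lit 0) (XT.lf (nat_lit 0) (nat_lit 22997059221) (nat_lit 152) (nat_lit 116730726623) (nat_lit 0) (nat_lit 11447352851) (nat_lit 14) (nat_lit 5) (nat_lit 16) (nat_lit 4) (nat_lit 14) (nat_lit 4) (nat_lit 512) (nat_lit 398) (nat_lit 290)) (XT.lf (nat_lit 0) (nat_lit 49138271359) (nat_lit 152) (nat_lit 70731195137) (nat_lit 0) (nat_lit 37585719556) (nat_lit 14) (nat_lit 5) (nat_lit 16) (nat_lit 4) (nat_lit 14) (nat_lit 4) (nat_lit 513) (nat_lit 398) (nat_lit 289)))) (XT.nd (nat_lit 156) (nat_lit 0) (nat_lit 0) (XT.nd (nat_lit 78) (nat_lit 76) (nat_lit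 0) (XT.lf (nat_lit 0) (nat_lit 76574429188) (nat_lit 152) (nat_lit 22456244940) (nat_lit 0) (nat_lit 65019167448) (nat_lit 14) (nat_lit 5) (nat_lit 16) (nat_lit 4) (nat_lit 14) (nat_lit 4) (nat_lit 514) (nat_lit 398) (nat_lit 288)) (XT.lf (nat_lit 0) (nat_lit 29141783385) (nat_lit 76) (nat_lit 76684058417) (nat_lit 76) (nat_lit 65126215785) (nat_lit 13) (nat_lit 4) (nat_lit 14) (nat_lit 5) (nat_lit 14) (nat_lit 4) (nat_lit 515) (nat_lit 398) (nat_lit 287))) (XT.nd (nat_lit 78) (nat_lit 0) (nat_lit 0) (XT.lf (nat_lit 0) (nat_lit 84076332034) (nat_lit 76) (nat_lit 52832452531) (nat_lit 76) (nat_lit 41272151907) (nat_lit 13) (nat_lit 4) (nat_lit 14) (nat_lit 5) (nat_lit 14) (nat_lit 4) (nat_lit 516) (nat_lit 398) (nat_lit 286)) (XT.lf (nat_lit 0) (nat_lit 141735692678) (nat_lit 76) (nat_lit 27799374308) (nat_lit 76) (nat_lit 16236732738) (nat_lit 13) (nat_lit 4) (nat_lit 14) (nat_lit 5) (nat_lit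 14) (nat_lit 4) (nat_lit 517) (nat_lit 398) (nat_lit 285))))) (XT.nd (nat_lit 312) (nat_lit 76) (nat_lit 0) (XT.nd (nat_lit 156) (nat_lit 0) (nat_lit 0) (XT.nd (nat_lit 78) (nat_lit 0) (nat_lit 0) (XT.lf (nat_lit 0) (nat_lit 8634024310) (nat_lit 76) (nat_lit 1219095373) (nat_lit 152) (nat_lit 183875023724) (nat_lit 11) (nat_lit 5) (nat_lit 12) (nat_lit 5) (nat_lit 13) (nat_lit 4) (nat_lit 518) (nat_lit 398) (nat_lit 284)) (XT.lf (nat_lit 0) (nat_lit 37866056730) (nat_lit 152) (nat_lit 137294854518) (nat_lit 0) (nat_lit 26849871636) (nat_lit 11) (nat_lit 5) (nat_lit 13) (nat_lit 4) (nat_lit 11) (nat_lit 4) (nat_lit 519) (nat_lit 398) (nat_lit 283))) (XT.nd (nat_lit 78) (nat_lit 0) (nat_lit 0) (XT.lf (nat_lit 0) (nat_lit 67289668986) (nat_lit 152) (nat_lit 87145825979) (nat_lit 0) (nat_lit 56271557991) (nat_lit 11) (nat_lit 5) (nat_lit 13) (nat_lit 4) (nat_lit 11) (nat_lit 4) (nat_lit 520) (nat_lit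 398) (nat_lit 282)) (XT.lf (nat_lit 0) (nat_lit 98174979177) (nat_lit 152) (nat_lit 34508597538) (nat_lit 0) (nat_lit 87155033990) (nat_lit 11) (nat_lit 5) (nat_lit 13) (nat_lit 4) (nat_lit 11) (nat_lit 4) (nat_lit 521) (nat_lit 398) (nat_lit 281)))) (XT.nd (nat_lit 156) (nat_lit 0) (nat_lit 0) (XT.nd (nat_lit 78) (nat_lit 0) (nat_lit 0) (XT.lf (nat_lit 0) (nat_lit 21427986943) (nat_lit 76) (nat_lit 109502087739) (nat_lit 76) (nat_lit 98480395704) (nat_lit 10) (nat_lit 4) (nat_lit 11) (nat_lit 5) (nat_lit 11) (nat_lit 4) (nat_lit 522) (nat_lit 398) (nat_lit 280)) (XT.lf (nat_lit 0) (nat_lit 81341422170) (nat_lit 76) (nat_lit 84557039881) (nat_lit 76) (nat_lit 73533684179) (nat_lit 10) (nat_lit 4) (nat_lit 11) (nat_lit 5) (nat_lit 11) (nat_lit 4) (nat_lit 523) (nat_lit 398) (nat_lit 279))) (XT.nd (nat_lit 78) (nat_lit 0) (nat_lit 0) (XT.lf (nat_lit 0) (nat_lit 144233349100) (nat_lit 76) (nat_lit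 58373459966) (nat_lit 76) (nat_lit 47348519821) (nat_lit 10) (nat_lit 4) (nat_lit 11) (nat_lit 5) (nat_lit 11) (nat_lit 4) (nat_lit 524) (nat_lit 398) (nat_lit 278)) (XT.lf (nat_lit 0) (nat_lit 210253510415) (nat_lit 76) (nat_lit 30889006138) (nat_lit 76) (nat_lit 19862556999) (nat_lit 10) (nat_lit 4) (nat_lit 11) (nat_lit 5) (nat_lit 11) (nat_lit 4) (nat_lit 525) (nat_lit 398) (nat_lit 277))))))) (XT.nd (nat_lit 1170) (nat_lit 76) (nat_lit 0) (XT.nd (nat_lit 546) (nat_lit 152) (nat_lit 0) (XT.nd (nat_lit 234) (nat_lit 76) (nat_lit 0) (XT.nd (nat_lit 78) (nat_lit 0) (nat_lit 0) (XT.lf (nat_lit 0) (nat_lit 7036258463) (nat_lit 76) (nat_lit 1775519458) (nat_lit 152) (nat_lit 263783400753) (nat_lit 8) (nat_lit 5) (nat_lit 9) (nat_lit 5) (nat_lit 10) (nat_lit 4) (nat_lit 526) (nat_lit 398) (nat_lit 276)) (XT.nd (nat_lit 78) (nat_lit 0) (nat_lit 0) (XT.lf (nat_lit 0) (nat_lit 39567664800) (nat_lit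 152) (nat_lit 216051463689) (nat_lit 0) (nat_lit 29063612439) (nat_lit 8) (nat_lit 5) (nat_lit 10) (nat_lit 4) (nat_lit 8) (nat_lit 4) (nat_lit 527) (nat_lit 398) (nat_lit 275)) (XT.lf (nat_lit 0) (nat_lit 71883029520) (nat_lit 152) (nat_lit 164112831918) (nat_lit 0) (nat_lit 61377735706) (nat_lit 8) (nat_lit 5) (nat_lit 10) (nat_lit 4) (nat_lit 8) (nat_lit 4) (nat_lit 528) (nat_lit 398) (nat_lit 274)))) (XT.nd (nat_lit 156) (nat_lit 76) (nat_lit 0) (XT.nd (nat_lit 78) (nat_lit 0) (nat_lit 0) (XT.lf (nat_lit 0) (nat_lit 105807092592) (nat_lit 152) (nat_lit 109591640656) (nat_lit 0) (nat_lit 95300616441) (nat_lit 8) (nat_lit 5) (nat_lit 10) (nat_lit 4) (nat_lit 8) (nat_lit 4) (nat_lit 529) (nat_lit 398) (nat_lit 273)) (XT.lf (nat_lit 0) (nat_lit 141420625595) (nat_lit 152) (nat_lit 52358077542) (nat_lit 0) (nat_lit 130913023410) (nat_lit 8) (nat_lit 5) (nat_lit 10) (nat_lit 4) (nat_lit 8) (nat_lit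 4) (nat_lit 530) (nat_lit 398) (nat_lit 272))) (XT.nd (nat_lit 78) (nat_lit 0) (nat_lit 0) (XT.lf (nat_lit 0) (nat_lit 7979522359) (nat_lit 76) (nat_lit 170953483002) (nat_lit 76) (nat_lit 160444808402) (nat_lit 7) (nat_lit 4) (nat_lit 8) (nat_lit 5) (nat_lit 8) (nat_lit 4) (nat_lit 531) (nat_lit 398) (nat_lit 271)) (XT.lf (nat_lit 0) (nat_lit 73138930822) (nat_lit 76) (nat_lit 146062475195) (nat_lit 76) (nat_lit 135552779249) (nat_lit 7) (nat_lit 4) (nat_lit 8) (nat_lit 5) (nat_lit 8) (nat_lit 4) (nat_lit 532) (nat_lit 398) (nat_lit 270))))) (XT.nd (nat_lit 312) (nat_lit 152) (nat_lit 0) (XT.nd (nat_lit 156) (nat_lit 0) (nat_lit 0) (XT.nd (nat_lit 78) (nat_lit 0) (nat_lit 0) (XT.lf (nat_lit 0) (nat_lit 141544094795) (nat_lit 76) (nat_lit 119933124792) (nat_lit 76) (nat_lit 109422456135) (nat_lit 7) (nat_lit 4) (nat_lit 8) (nat_lit 5) (nat_lit 8) (nat_lit 4) (nat_lit 533) (nat_lit 398) (nat_lit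 269)) (XT.lf (nat_lit 0) (nat_lit 213357883716) (nat_lit 76) (nat_lit 92503219052) (nat_lit 76) (nat_lit 81991624003) (nat_lit 7) (nat_lit 4) (nat_lit 8) (nat_lit 5) (nat_lit 8) (nat_lit 4) (nat_lit 534) (nat_lit 398) (nat_lit 268))) (XT.nd (nat_lit 78) (nat_lit 0) (nat_lit 0) (XT.lf (nat_lit 0) (nat_lit 288751282797) (nat_lit 76) (nat_lit 63707448677) (nat_lit 76) (nat_lit 53194971350) (nat_lit 7) (nat_lit 4) (nat_lit 8) (nat_lit 5) (nat_lit 8) (nat_lit 4) (nat_lit 535) (nat_lit 398) (nat_lit 267)) (XT.lf (nat_lit 0) (nat_lit 367903800130) (nat_lit 76) (nat_lit 33477252308) (nat_lit 76) (nat_lit 22963934717) (nat_lit 7) (nat_lit 4) (nat_lit 8) (nat_lit 5) (nat_lit 8) (nat_lit 4) (nat_lit 536) (nat_lit 398) (nat_lit 266)))) (XT.nd (nat_lit 156) (nat_lit 0) (nat_lit 0) (XT.nd (nat_lit 78) (nat_lit 0) (nat_lit 0) (XT.lf (nat_lit 0) (nat_lit 7123840275) (nat_lit 76) (nat_lit 1480041733) (nat_lit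 152) (nat_lit 435354790741) (nat_lit 5) (nat_lit 5) (nat_lit 6) (nat_lit 5) (nat_lit 7) (nat_lit 4) (nat_lit 537) (nat_lit 398) (nat_lit 265)) (XT.lf (nat_lit 0) (nat_lit 42446295641) (nat_lit 152) (nat_lit 389582402631) (nat_lit 0) (nat_lit 32432124225) (nat_lit 5) (nat_lit 5) (nat_lit 7) (nat_lit 4) (nat_lit 5) (nat_lit 4) (nat_lit 538) (nat_lit 398) (nat_lit 264))) (XT.nd (nat_lit 78) (nat_lit 0) (nat_lit 0) (XT.lf (nat_lit 0) (nat_lit 78000311405) (nat_lit 152) (nat_lit 340001345567) (nat_lit 0) (nat_lit 67985448701) (nat_lit 5) (nat_lit 5) (nat_lit 7) (nat_lit 4) (nat_lit 5) (nat_lit 4) (nat_lit 539) (nat_lit 398) (nat_lit 263)) (XT.lf (nat_lit 0) (nat_lit 115327474120) (nat_lit 152) (nat_lit 287950503548) (nat_lit 0) (nat_lit 105311953047) (nat_lit 5) (nat_lit 5) (nat_lit 7) (nat_lit 4) (nat_lit 5) (nat_lit 4) (nat_lit 540) (nat_lit 398) (nat_lit 262)))))) (XT.nd (nat_lit 624) (nat_lit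 0) (nat_lit 0) (XT.nd (nat_lit 312) (nat_lit 76) (nat_lit 0) (XT.nd (nat_lit 156) (nat_lit 0) (nat_lit 0) (XT.nd (nat_lit 78) (nat_lit 0) (nat_lit 0) (XT.lf (nat_lit 0) (nat_lit 154516657983) (nat_lit 152) (nat_lit 233305945997) (nat_lit 0) (nat_lit 144500509892) (nat_lit 5) (nat_lit 5) (nat_lit 7) (nat_lit 4) (nat_lit 5) (nat_lit 4) (nat_lit 541) (nat_lit 398) (nat_lit 261)) (XT.lf (nat_lit 0) (nat_lit 195661170574) (nat_lit 152) (nat_lit 175937566824) (nat_lit 0) (nat_lit 185644425323) (nat_lit 5) (nat_lit 5) (nat_lit 7) (nat_lit 4) (nat_lit 5) (nat_lit 4) (nat_lit 542) (nat_lit 398) (nat_lit 260))) (XT.nd (nat_lit 78) (nat_lit 0) (nat_lit 0) (XT.lf (nat_lit 0) (nat_lit 238858975019) (nat_lit 152) (nat_lit 115708774651) (nat_lit 0) (nat_lit 228841661044) (nat_lit 5) (nat_lit 5) (nat_lit 7) (nat_lit 4) (nat_lit 5) (nat_lit 4) (nat_lit 543) (nat_lit 398) (nat_lit 259)) (XT.lf (nat_lit 0) (nat_lit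 284212923233) (nat_lit 152) (nat_lit 52476167591) (nat_lit 0) (nat_lit 274195067615) (nat_lit 5) (nat_lit 5) (nat_lit 7) (nat_lit 4) (nat_lit 5) (nat_lit 4) (nat_lit 544) (nat_lit 398) (nat_lit 258)))) (XT.nd (nat_lit 156) (nat_lit 0) (nat_lit 0) (XT.nd (nat_lit 78) (nat_lit 0) (nat_lit 0) (XT.lf (nat_lit 0) (nat_lit 14370762322) (nat_lit 76) (nat_lit 317684606358) (nat_lit 76) (nat_lit 307666234891) (nat_lit 4) (nat_lit 4) (nat_lit 5) (nat_lit 5) (nat_lit 5) (nat_lit 4) (nat_lit 545) (nat_lit 398) (nat_lit 257)) (XT.lf (nat_lit 0) (nat_lit 86374748258) (nat_lit 76) (nat_lit 296800387741) (nat_lit 76) (nat_lit 286781524989) (nat_lit 4) (nat_lit 4) (nat_lit 5) (nat_lit 5) (nat_lit 5) (nat_lit 4) (nat_lit 546) (nat_lit 398) (nat_lit 256))) (XT.nd (nat_lit 78) (nat_lit 0) (nat_lit 0) (XT.lf (nat_lit 0) (nat_lit 161972129190) (nat_lit 76) (nat_lit 274875419934) (nat_lit 76) (nat_lit 264856089292)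 (nat_lit 4) (nat_lit 4) (nat_lit 5) (nat_lit 5) (nat_lit 5) (nat_lit 4) (nat_lit 547) (nat_lit 398) (nat_lit 255)) (XT.lf (nat_lit 0) (nat_lit 241342898881) (nat_lit 76) (nat_lit 251857500632) (nat_lit 76) (nat_lit 241837724380) (nat_lit 4) (nat_lit 4) (nat_lit 5) (nat_lit 5) (nat_lit 5) (nat_lit 4) (nat_lit 548) (nat_lit 398) (nat_lit 254))))) (XT.nd (nat_lit 51090) (nat_lit 0) (nat_lit 14744) (XT.nd (nat_lit 156) (nat_lit 0) (nat_lit 0) (XT.nd (nat_lit 78) (nat_lit 0) (nat_lit 0) (XT.lf (nat_lit 0) (nat_lit 324676035354) (nat_lit 76) (nat_lit 227691825266) (nat_lit 76) (nat_lit 217671624623) (nat_lit 4) (nat_lit 4) (nat_lit 5) (nat_lit 5) (nat_lit 5) (nat_lit 4) (nat_lit 549) (nat_lit 398) (nat_lit 253)) (XT.lf (nat_lit 0) (nat_lit 412169950839) (nat_lit 76) (nat_lit 202320856513) (nat_lit 76) (nat_lit 192300251688) (nat_lit 4) (nat_lit 4) (nat_lit 5) (nat_lit 5) (nat_lit 5) (nat_lit 4) (nat_lit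 550) (nat_lit 398) (nat_lit 252))) (XT.nd (nat_lit 50856) (nat_lit 0) (nat_lit 15276) (XT.lf (nat_lit 0) (nat_lit 504032964182) (nat_lit 76) (nat_lit 175684187304) (nat_lit 76) (nat_lit 165663197545) (nat_lit 4) (nat_lit 4) (nat_lit 5) (nat_lit 5) (nat_lit 5) (nat_lit 4) (nat_lit 551) (nat_lit 398) (nat_lit 251)) (XT.lf (nat_lit 0) (nat_lit 85854478) (nat_lit 76) (nat_lit 1570237396) (nat_lit 76) (nat_lit 1570237396) (nat_lit 205) (nat_lit 4) (nat_lit 206) (nat_lit 5) (nat_lit 206) (nat_lit 4) (nat_lit 402) (nat_lit 399) (nat_lit 399)))) (XT.nd (nat_lit 156) (nat_lit 304) (nat_lit 0) (XT.nd (nat_lit 78) (nat_lit 152) (nat_lit 0) (XT.lf (nat_lit 0) (nat_lit 64213465) (nat_lit 152) (nat_lit 2772578376) (nat_lit 76) (nat_lit 3631329195) (nat_lit 204) (nat_lit 5) (nat_lit 206) (nat_lit 5) (nat_lit 205) (nat_lit 4) (nat_lit 403) (nat_lit 399) (nat_lit 398)) (XT.lf (nat_lit 0) (nat_lit 767030390) (nat_lit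 152) (nat_lit 2373050757) (nat_lit 228) (nat_lit 3350931396) (nat_lit 202) (nat_lit 5) (nat_lit 204) (nat_lit 5) (nat_lit 205) (nat_lit 4) (nat_lit 404) (nat_lit 399) (nat_lit 397))) (XT.nd (nat_lit 78) (nat_lit 304) (nat_lit 0) (XT.lf (nat_lit 0) (nat_lit 4464520772) (nat_lit 152) (nat_lit 1764194467) (nat_lit 228) (nat_lit 293436477) (nat_lit 202) (nat_lit 5) (nat_lit 204) (nat_lit 5) (nat_lit 205) (nat_lit 4) (nat_lit 405) (nat_lit 399) (nat_lit 396)) (XT.lf (nat_lit 0) (nat_lit 1684481841) (nat_lit 228) (nat_lit 983377716) (nat_lit 304) (nat_lit 3892543822) (nat_lit 198) (nat_lit 5) (nat_lit 201) (nat_lit 5) (nat_lit 202) (nat_lit 5) (nat_lit 406) (nat_lit 399) (nat_lit 395))))))))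
noncomputable def xc91 : XT := (XT.nd (nat_lit 2418) (nat_lit 3268) (nat_lit 0) (XT.nd (nat_lit 1170) (nat_lit 3268) (nat_lit 0) (XT.nd (nat_lit 546) (nat_lit 3040) (nat_lit 0) (XT.nd (nat_lit 234) (nat_lit 1140) (nat_lit 0) (XT.nd (nat_lit 78) (nat_lit 760) (nat_lit 0) (XT.lf (nat_lit 0) (nat_lit 5566108469) (nat_lit 228) (nat_lit 60893400) (nat_lit 304) (nat_lit 980387786) (nat_lit 198) (nat_lit 5) (nat_lit 201) (nat_lit 5) (nat_lit 202) (nat_lit 5) (nat_lit 407) (nat_lit 399) (nat_lit 394)) (XT.nd (nat_lit 78) (nat_lit 380) (nat_lit 0) (XT.lf (nat_lit 0) (nat_lit 1903422215) (nat_lit 380) (nat_lit 3745417595) (nat_lit 76) (nat_lit 1011677534) (nat_lit 193) (nat_lit 5) (nat_lit 198) (nat_lit 5) (nat_lit 194) (nat_lit 5) (nat_lit 408) (nat_lit 399) (nat_lit 393)) (XT.lf (nat_lit 0) (nat_lit 259553776) (nat_lit 380) (nat_lit 4499445572) (nat_lit 456) (nat_lit 1963510878) (nat_lit 188) (nat_lit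 5) (nat_lit 193) (nat_lit 5) (nat_lit 194) (nat_lit 5) (nat_lit 409) (nat_lit 399) (nat_lit 392)))) (XT.nd (nat_lit 156) (nat_lit 608) (nat_lit 0) (XT.nd (nat_lit 78) (nat_lit 456) (nat_lit 0) (XT.lf (nat_lit 0) (nat_lit 844002572) (nat_lit 456) (nat_lit 2330570565) (nat_lit 76) (nat_lit 3617043200) (nat_lit 187) (nat_lit 5) (nat_lit 193) (nat_lit 5) (nat_lit 188) (nat_lit 5) (nat_lit 410) (nat_lit 399) (nat_lit 391)) (XT.lf (nat_lit 0) (nat_lit 1918836769) (nat_lit 456) (nat_lit 1685424430) (nat_lit 532) (nat_lit 3264422654) (nat_lit 181) (nat_lit 5) (nat_lit 187) (nat_lit 5) (nat_lit 188) (nat_lit 5) (nat_lit 411) (nat_lit 399) (nat_lit 390))) (XT.nd (nat_lit 78) (nat_lit 608) (nat_lit 0) (XT.lf (nat_lit 0) (nat_lit 6344719232) (nat_lit 456) (nat_lit 51074687) (nat_lit 532) (nat_lit 559179533) (nat_lit 181) (nat_lit 5) (nat_lit 187) (nat_lit 5) (nat_lit 188) (nat_lit 5) (nat_lit 412) (nat_lit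 399) (nat_lit 389)) (XT.lf (nat_lit 0) (nat_lit 2155935926) (nat_lit 608) (nat_lit 3155704874) (nat_lit 76) (nat_lit 1734803305) (nat_lit 173) (nat_lit 5) (nat_lit 181) (nat_lit 5) (nat_lit 174) (nat_lit 5) (nat_lit 413) (nat_lit 399) (nat_lit 388))))) (XT.nd (nat_lit 312) (nat_lit 912) (nat_lit 0) (XT.nd (nat_lit 156) (nat_lit 1444) (nat_lit 0) (XT.nd (nat_lit 78) (nat_lit 76) (nat_lit 0) (XT.lf (nat_lit 0) (nat_lit 1409552924) (nat_lit 608) (nat_lit 3475561264) (nat_lit 684) (nat_lit 2262088240) (nat_lit 165) (nat_lit 5) (nat_lit 173) (nat_lit 5) (nat_lit 174) (nat_lit 5) (nat_lit 414) (nat_lit 399) (nat_lit 387)) (XT.lf (nat_lit 0) (nat_lit 402331778) (nat_lit 684) (nat_lit 1070218211) (nat_lit 76) (nat_lit 5784059487) (nat_lit 164) (nat_lit 5) (nat_lit 173) (nat_lit 5) (nat_lit 165) (nat_lit 5) (nat_lit 415) (nat_lit 399) (nat_lit 386))) (XT.nd (nat_lit 78) (nat_lit 760) (nat_lit 0) (XT.lf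 (nat_lit 0) (nat_lit 3067370147) (nat_lit 760) (nat_lit 3587584530) (nat_lit 76) (nat_lit 717530814) (nat_lit 155) (nat_lit 5) (nat_lit 165) (nat_lit 5) (nat_lit 156) (nat_lit 5) (nat_lit 416) (nat_lit 399) (nat_lit 385)) (XT.lf (nat_lit 0) (nat_lit 1322196174) (nat_lit 760) (nat_lit 4483599171) (nat_lit 836) (nat_lit 1691375791) (nat_lit 145) (nat_lit 5) (nat_lit 155) (nat_lit 5) (nat_lit 156) (nat_lit 5) (nat_lit 417) (nat_lit 399) (nat_lit 384)))) (XT.nd (nat_lit 156) (nat_lit 456) (nat_lit 0) (XT.nd (nat_lit 78) (nat_lit 380) (nat_lit 0) (XT.lf (nat_lit 0) (nat_lit 960037517) (nat_lit 836) (nat_lit 1164888864) (nat_lit 76) (nat_lit 5505328554) (nat_lit 144) (nat_lit 5) (nat_lit 155) (nat_lit 5) (nat_lit 145) (nat_lit 5) (nat_lit 418) (nat_lit 399) (nat_lit 383)) (XT.lf (nat_lit 0) (nat_lit 3642523502) (nat_lit 456) (nat_lit 3698076464) (nat_lit 76) (nat_lit 430258919) (nat_lit 139) (nat_lit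 5) (nat_lit 145) (nat_lit 5) (nat_lit 140) (nat_lit 5) (nat_lit 419) (nat_lit 399) (nat_lit 382))) (XT.nd (nat_lit 78) (nat_lit 76) (nat_lit 0) (XT.lf (nat_lit 0) (nat_lit 1588864139) (nat_lit 380) (nat_lit 4838257702) (nat_lit 456) (nat_lit 1492990360) (nat_lit 134) (nat_lit 5) (nat_lit 139) (nat_lit 5) (nat_lit 140) (nat_lit 5) (nat_lit 420) (nat_lit 399) (nat_lit 381)) (XT.lf (nat_lit 0) (nat_lit 1186944420) (nat_lit 456) (nat_lit 949865816) (nat_lit 76) (nat_lit 5941360043) (nat_lit 133) (nat_lit 5) (nat_lit 139) (nat_lit 5) (nat_lit 134) (nat_lit 5) (nat_lit 421) (nat_lit 399) (nat_lit 380)))))) (XT.nd (nat_lit 624) (nat_lit 1292) (nat_lit 0) (XT.nd (nat_lit 312) (nat_lit 912) (nat_lit 0) (XT.nd (nat_lit 156) (nat_lit 380) (nat_lit 0) (XT.nd (nat_lit 78) (nat_lit 304) (nat_lit 0) (XT.lf (nat_lit 0) (nat_lit 3931735473) (nat_lit 456) (nat_lit 3547884978) (nat_lit 76) (nat_lit 764251401) (nat_lit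 128) (nat_lit 5) (nat_lit 134) (nat_lit 5) (nat_lit 129) (nat_lit 5) (nat_lit 422) (nat_lit 399) (nat_lit 379)) (XT.lf (nat_lit 0) (nat_lit 2152798071) (nat_lit 304) (nat_lit 4644102465) (nat_lit 380) (nat_lit 1621816524) (nat_lit 124) (nat_lit 5) (nat_lit 128) (nat_lit 5) (nat_lit 129) (nat_lit 5) (nat_lit 423) (nat_lit 399) (nat_lit 378))) (XT.nd (nat_lit 78) (nat_lit 304) (nat_lit 0) (XT.lf (nat_lit 0) (nat_lit 1125087657) (nat_lit 380) (nat_lit 479631988) (nat_lit 76) (nat_lit 6998630992) (nat_lit 123) (nat_lit 5) (nat_lit 128) (nat_lit 5) (nat_lit 124) (nat_lit 5) (nat_lit 424) (nat_lit 399) (nat_lit 377)) (XT.lf (nat_lit 0) (nat_lit 3973398044) (nat_lit 380) (nat_lit 3189364814) (nat_lit 76) (nat_lit 1632208644) (nat_lit 119) (nat_lit 5) (nat_lit 124) (nat_lit 5) (nat_lit 120) (nat_lit 5) (nat_lit 425) (nat_lit 399) (nat_lit 376)))) (XT.nd (nat_lit 156) (nat_lit 228) (nat_lit 0) (XT.nd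 (nat_lit 78) (nat_lit 380) (nat_lit 0) (XT.lf (nat_lit 0) (nat_lit 2965592433) (nat_lit 304) (nat_lit 3986115268) (nat_lit 380) (nat_lit 2045099091) (nat_lit 115) (nat_lit 5) (nat_lit 119) (nat_lit 5) (nat_lit 120) (nat_lit 5) (nat_lit 426) (nat_lit 399) (nat_lit 375)) (XT.lf (nat_lit 0) (nat_lit 205065465) (nat_lit 304) (nat_lit 603219940) (nat_lit 380) (nat_lit 8401483620) (nat_lit 110) (nat_lit 5) (nat_lit 114) (nat_lit 5) (nat_lit 115) (nat_lit 5) (nat_lit 427) (nat_lit 399) (nat_lit 374))) (XT.nd (nat_lit 78) (nat_lit 228) (nat_lit 0) (XT.lf (nat_lit 0) (nat_lit 3795404053) (nat_lit 380) (nat_lit 2669092518) (nat_lit 76) (nat_lit 2964227664) (nat_lit 110) (nat_lit 5) (nat_lit 115) (nat_lit 5) (nat_lit 111) (nat_lit 5) (nat_lit 428) (nat_lit 399) (nat_lit 373)) (XT.lf (nat_lit 0) (nat_lit 3984629308) (nat_lit 228) (nat_lit 2933576389) (nat_lit 304) (nat_lit 2741115496) (nat_lit 107) (nat_lit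 5) (nat_lit 110) (nat_lit 5) (nat_lit 111) (nat_lit 5) (nat_lit 429) (nat_lit 399) (nat_lit 372))))) (XT.nd (nat_lit 312) (nat_lit 532) (nat_lit 0) (XT.nd (nat_lit 156) (nat_lit 456) (nat_lit 0) (XT.nd (nat_lit 78) (nat_lit 0) (nat_lit 0) (XT.lf (nat_lit 0) (nat_lit 276811306) (nat_lit 304) (nat_lit 8838659268) (nat_lit 76) (nat_lit 786227164) (nat_lit 103) (nat_lit 5) (nat_lit 107) (nat_lit 5) (nat_lit 104) (nat_lit 5) (nat_lit 430) (nat_lit 399) (nat_lit 371)) (XT.lf (nat_lit 0) (nat_lit 3416160492) (nat_lit 304) (nat_lit 2030313378) (nat_lit 76) (nat_lit 4704349083) (nat_lit 103) (nat_lit 5) (nat_lit 107) (nat_lit 5) (nat_lit 104) (nat_lit 5) (nat_lit 431) (nat_lit 399) (nat_lit 370))) (XT.nd (nat_lit 78) (nat_lit 228) (nat_lit 0) (XT.lf (nat_lit 0) (nat_lit 5170617989) (nat_lit 228) (nat_lit 1543420279) (nat_lit 304) (nat_lit 3698296613) (nat_lit 100) (nat_lit 5) (nat_lit 103) (nat_lit 5)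 (nat_lit 104) (nat_lit 5) (nat_lit 432) (nat_lit 399) (nat_lit 369)) (XT.lf (nat_lit 0) (nat_lit 2026464473) (nat_lit 228) (nat_lit 8179145576) (nat_lit 304) (nat_lit 479880454) (nat_lit 97) (nat_lit 5) (nat_lit 100) (nat_lit 5) (nat_lit 101) (nat_lit 5) (nat_lit 433) (nat_lit 399) (nat_lit 368)))) (XT.nd (nat_lit 156) (nat_lit 304) (nat_lit 0) (XT.nd (nat_lit 78) (nat_lit 152) (nat_lit 0) (XT.lf (nat_lit 0) (nat_lit 2845195833) (nat_lit 304) (nat_lit 1315381296) (nat_lit 76) (nat_lit 6807543690) (nat_lit 96) (nat_lit 5) (nat_lit 100) (nat_lit 5) (nat_lit 97) (nat_lit 5) (nat_lit 434) (nat_lit 399) (nat_lit 367)) (XT.lf (nat_lit 0) (nat_lit 6350463272) (nat_lit 228) (nat_lit 4780116815) (nat_lit 76) (nat_lit 132412998) (nat_lit 94) (nat_lit 5) (nat_lit 97) (nat_lit 5) (nat_lit 95) (nat_lit 5) (nat_lit 435) (nat_lit 399) (nat_lit 366))) (XT.nd (nat_lit 78) (nat_lit 76) (nat_lit 0) (XT.lf (nat_lit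 0) (nat_lit 3063437407) (nat_lit 228) (nat_lit 7034139409) (nat_lit 304) (nat_lit 1471709676) (nat_lit 91) (nat_lit 5) (nat_lit 94) (nat_lit 5) (nat_lit 95) (nat_lit 5) (nat_lit 436) (nat_lit 399) (nat_lit 365)) (XT.lf (nat_lit 0) (nat_lit 2083372096) (nat_lit 304) (nat_lit 568314819) (nat_lit 76) (nat_lit 9237004690) (nat_lit 90) (nat_lit 5) (nat_lit 94) (nat_lit 5) (nat_lit 91) (nat_lit 5) (nat_lit 437) (nat_lit 399) (nat_lit 364))))))) (XT.nd (nat_lit 1248) (nat_lit 1292) (nat_lit 0) (XT.nd (nat_lit 624) (nat_lit 836) (nat_lit 0) (XT.nd (nat_lit 312) (nat_lit 532) (nat_lit 0) (XT.nd (nat_lit 156) (nat_lit 228) (nat_lit 0) (XT.nd (nat_lit 78) (nat_lit 228) (nat_lit 0) (XT.lf (nat_lit 0) (nat_lit 5854036078) (nat_lit 228) (nat_lit 4364450867) (nat_lit 76) (nat_lit 2000015108) (nat_lit 88) (nat_lit 5) (nat_lit 91) (nat_lit 5) (nat_lit 89) (nat_lit 5) (nat_lit 438) (nat_lit 399) (nat_lit 363))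 (XT.lf (nat_lit 0) (nat_lit 4134107608) (nat_lit 228) (nat_lit 5729810016) (nat_lit 304) (nat_lit 2698356665) (nat_lit 85) (nat_lit 5) (nat_lit 88) (nat_lit 5) (nat_lit 89) (nat_lit 5) (nat_lit 439) (nat_lit 399) (nat_lit 362))) (XT.nd (nat_lit 78) (nat_lit 0) (nat_lit 0) (XT.lf (nat_lit 0) (nat_lit 167764708) (nat_lit 152) (nat_lit 957548248) (nat_lit 228) (nat_lit 11796473798) (nat_lit 82) (nat_lit 5) (nat_lit 84) (nat_lit 5) (nat_lit 85) (nat_lit 5) (nat_lit 440) (nat_lit 399) (nat_lit 361)) (XT.lf (nat_lit 0) (nat_lit 5192065914) (nat_lit 228) (nat_lit 4024775337) (nat_lit 76) (nat_lit 4073097445) (nat_lit 82) (nat_lit 5) (nat_lit 85) (nat_lit 5) (nat_lit 83) (nat_lit 5) (nat_lit 441) (nat_lit 399) (nat_lit 360)))) (XT.nd (nat_lit 156) (nat_lit 228) (nat_lit 0) (XT.nd (nat_lit 78) (nat_lit 152) (nat_lit 0) (XT.lf (nat_lit 0) (nat_lit 5187577973) (nat_lit 152) (nat_lit 4308624444) (nat_lit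 228) (nat_lit 4178598034) (nat_lit 80) (nat_lit 5) (nat_lit 82) (nat_lit 5) (nat_lit 83) (nat_lit 5) (nat_lit 442) (nat_lit 399) (nat_lit 359)) (XT.lf (nat_lit 0) (nat_lit 832672117) (nat_lit 152) (nat_lit 13216455266) (nat_lit 228) (nat_lit 28103126) (nat_lit 78) (nat_lit 5) (nat_lit 80) (nat_lit 5) (nat_lit 81) (nat_lit 4) (nat_lit 443) (nat_lit 399) (nat_lit 358))) (XT.nd (nat_lit 78) (nat_lit 152) (nat_lit 0) (XT.lf (nat_lit 0) (nat_lit 4346512530) (nat_lit 228) (nat_lit 3824773598) (nat_lit 76) (nat_lit 6317360716) (nat_lit 77) (nat_lit 5) (nat_lit 80) (nat_lit 5) (nat_lit 78) (nat_lit 5) (nat_lit 444) (nat_lit 399) (nat_lit 357)) (XT.lf (nat_lit 0) (nat_lit 6162978976) (nat_lit 152) (nat_lit 2813543251) (nat_lit 228) (nat_lit 5942212058) (nat_lit 75) (nat_lit 5) (nat_lit 77) (nat_lit 5) (nat_lit 78) (nat_lit 5) (nat_lit 445) (nat_lit 399) (nat_lit 356))))) (XT.nd (nat_lit 312) (nat_lit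 380) (nat_lit 0) (XT.nd (nat_lit 156) (nat_lit 228) (nat_lit 0) (XT.nd (nat_lit 78) (nat_lit 76) (nat_lit 0) (XT.lf (nat_lit 0) (nat_lit 1312420302) (nat_lit 152) (nat_lit 12597849935) (nat_lit 228) (nat_lit 1456447507) (nat_lit 73) (nat_lit 5) (nat_lit 75) (nat_lit 5) (nat_lit 76) (nat_lit 4) (nat_lit 446) (nat_lit 399) (nat_lit 355)) (XT.lf (nat_lit 0) (nat_lit 3288598285) (nat_lit 228) (nat_lit 3841783466) (nat_lit 76) (nat_lit 8697225499) (nat_lit 72) (nat_lit 5) (nat_lit 75) (nat_lit 5) (nat_lit 73) (nat_lit 5) (nat_lit 447) (nat_lit 399) (nat_lit 354))) (XT.nd (nat_lit 78) (nat_lit 76) (nat_lit 0) (XT.lf (nat_lit 0) (nat_lit 6985114384) (nat_lit 152) (nat_lit 1290932266) (nat_lit 228) (nat_lit 8031599004) (nat_lit 70) (nat_lit 5) (nat_lit 72) (nat_lit 5) (nat_lit 73) (nat_lit 5) (nat_lit 448) (nat_lit 399) (nat_lit 353)) (XT.lf (nat_lit 0) (nat_lit 1554985360) (nat_lit 76) (nat_lit 12069411847)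 (nat_lit 152) (nat_lit 3181715191) (nat_lit 69) (nat_lit 5) (nat_lit 70) (nat_lit 5) (nat_lit 71) (nat_lit 4) (nat_lit 449) (nat_lit 399) (nat_lit 352)))) (XT.nd (nat_lit 156) (nat_lit 152) (nat_lit 0) (XT.nd (nat_lit 78) (nat_lit 152) (nat_lit 0) (XT.lf (nat_lit 0) (nat_lit 1976926004) (nat_lit 152) (nat_lit 4171840877) (nat_lit 76) (nat_lit 11172875879) (nat_lit 68) (nat_lit 5) (nat_lit 70) (nat_lit 5) (nat_lit 69) (nat_lit 5) (nat_lit 450) (nat_lit 399) (nat_lit 351)) (XT.lf (nat_lit 0) (nat_lit 7356175638) (nat_lit 228) (nat_lit 10301136195) (nat_lit 76) (nat_lit 199552212) (nat_lit 66) (nat_lit 5) (nat_lit 69) (nat_lit 5) (nat_lit 67) (nat_lit 4) (nat_lit 451) (nat_lit 399) (nat_lit 350))) (XT.nd (nat_lit 78) (nat_lit 76) (nat_lit 0) (XT.lf (nat_lit 0) (nat_lit 1451183657) (nat_lit 76) (nat_lit 11697256128) (nat_lit 152) (nat_lit 5263206402) (nat_lit 65) (nat_lit 5) (nat_lit 66) (nat_lit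 5) (nat_lit 67) (nat_lit 4) (nat_lit 452) (nat_lit 399) (nat_lit 349)) (XT.lf (nat_lit 0) (nat_lit 354883978) (nat_lit 152) (nat_lit 4935940791) (nat_lit 76) (nat_lit 13696845860) (nat_lit 64) (nat_lit 5) (nat_lit 66) (nat_lit 5) (nat_lit 65) (nat_lit 5) (nat_lit 453) (nat_lit 399) (nat_lit 348)))))) (XT.nd (nat_lit 624) (nat_lit 532) (nat_lit 0) (XT.nd (nat_lit 312) (nat_lit 304) (nat_lit 0) (XT.nd (nat_lit 156) (nat_lit 228) (nat_lit 0) (XT.nd (nat_lit 78) (nat_lit 76) (nat_lit 0) (XT.lf (nat_lit 0) (nat_lit 6174822371) (nat_lit 228) (nat_lit 11846027801) (nat_lit 76) (nat_lit 1562443000) (nat_lit 62) (nat_lit 5) (nat_lit 65) (nat_lit 5) (nat_lit 63) (nat_lit 4) (nat_lit 454) (nat_lit 399) (nat_lit 347)) (XT.lf (nat_lit 0) (nat_lit 861824045) (nat_lit 76) (nat_lit 11560839701) (nat_lit 152) (nat_lit 7779189762) (nat_lit 61) (nat_lit 5) (nat_lit 62) (nat_lit 5) (nat_lit 63) (nat_lit 4) (nat_lit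 455) (nat_lit 399) (nat_lit 346))) (XT.nd (nat_lit 78) (nat_lit 228) (nat_lit 0) (XT.lf (nat_lit 0) (nat_lit 14529131547) (nat_lit 76) (nat_lit 4607072663) (nat_lit 152) (nat_lit 1707474173) (nat_lit 61) (nat_lit 5) (nat_lit 62) (nat_lit 5) (nat_lit 63) (nat_lit 4) (nat_lit 456) (nat_lit 399) (nat_lit 345)) (XT.lf (nat_lit 0) (nat_lit 4633396088) (nat_lit 228) (nat_lit 14112006850) (nat_lit 76) (nat_lit 2762800945) (nat_lit 58) (nat_lit 5) (nat_lit 61) (nat_lit 5) (nat_lit 59) (nat_lit 4) (nat_lit 457) (nat_lit 399) (nat_lit 344)))) (XT.nd (nat_lit 156) (nat_lit 228) (nat_lit 0) (XT.nd (nat_lit 78) (nat_lit 76) (nat_lit 0) (XT.lf (nat_lit 0) (nat_lit 11372631748) (nat_lit 228) (nat_lit 379027434) (nat_lit 76) (nat_lit 10445963316) (nat_lit 58) (nat_lit 5) (nat_lit 61) (nat_lit 5) (nat_lit 59) (nat_lit 4) (nat_lit 458) (nat_lit 399) (nat_lit 343)) (XT.lf (nat_lit 0) (nat_lit 14421361832) (nat_lit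 76) (nat_lit 4209278007) (nat_lit 152) (nat_lit 4281783215) (nat_lit 57) (nat_lit 5) (nat_lit 58) (nat_lit 5) (nat_lit 59) (nat_lit 4) (nat_lit 459) (nat_lit 399) (nat_lit 342))) (XT.nd (nat_lit 78) (nat_lit 0) (nat_lit 0) (XT.lf (nat_lit 0) (nat_lit 2628631642) (nat_lit 228) (nat_lit 17322007765) (nat_lit 76) (nat_lit 3704159986) (nat_lit 54) (nat_lit 5) (nat_lit 57) (nat_lit 5) (nat_lit 55) (nat_lit 4) (nat_lit 460) (nat_lit 399) (nat_lit 341)) (XT.lf (nat_lit 0) (nat_lit 9912844153) (nat_lit 228) (nat_lit 2457206969) (nat_lit 76) (nat_lit 12052126455) (nat_lit 54) (nat_lit 5) (nat_lit 57) (nat_lit 5) (nat_lit 55) (nat_lit 4) (nat_lit 461) (nat_lit 399) (nat_lit 340))))) (XT.nd (nat_lit 312) (nat_lit 228) (nat_lit 0) (XT.nd (nat_lit 156) (nat_lit 76) (nat_lit 0) (XT.nd (nat_lit 78) (nat_lit 152) (nat_lit 0) (XT.lf (nat_lit 0) (nat_lit 13505794174) (nat_lit 76) (nat_lit 4225394254) (nat_lit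 152) (nat_lit 7488241455) (nat_lit 53) (nat_lit 5) (nat_lit 54) (nat_lit 5) (nat_lit 55) (nat_lit 4) (nat_lit 462) (nat_lit 399) (nat_lit 339)) (XT.lf (nat_lit 0) (nat_lit 25923502) (nat_lit 152) (nat_lit 21760828550) (nat_lit 76) (nat_lit 4262969401) (nat_lit 51) (nat_lit 5) (nat_lit 53) (nat_lit 5) (nat_lit 52) (nat_lit 4) (nat_lit 463) (nat_lit 399) (nat_lit 338))) (XT.nd (nat_lit 78) (nat_lit 76) (nat_lit 0) (XT.lf (nat_lit 0) (nat_lit 7894391942) (nat_lit 152) (nat_lit 5686276149) (nat_lit 76) (nat_lit 13323210240) (nat_lit 51) (nat_lit 5) (nat_lit 53) (nat_lit 5) (nat_lit 52) (nat_lit 4) (nat_lit 464) (nat_lit 399) (nat_lit 337)) (XT.lf (nat_lit 0) (nat_lit 11485706396) (nat_lit 76) (nat_lit 4811189412) (nat_lit 152) (nat_lit 11496817688) (nat_lit 50) (nat_lit 5) (nat_lit 51) (nat_lit 5) (nat_lit 52) (nat_lit 4) (nat_lit 465) (nat_lit 399) (nat_lit 336)))) (XT.nd (nat_lit 156) (nat_lit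 76) (nat_lit 0) (XT.nd (nat_lit 78) (nat_lit 76) (nat_lit 0) (XT.lf (nat_lit 0) (nat_lit 874152291) (nat_lit 76) (nat_lit 24386998868) (nat_lit 76) (nat_lit 3459808941) (nat_lit 49) (nat_lit 4) (nat_lit 50) (nat_lit 5) (nat_lit 50) (nat_lit 4) (nat_lit 466) (nat_lit 399) (nat_lit 335)) (XT.lf (nat_lit 0) (nat_lit 5140803316) (nat_lit 152) (nat_lit 10434456426) (nat_lit 76) (nat_lit 14099367659) (nat_lit 48) (nat_lit 5) (nat_lit 50) (nat_lit 5) (nat_lit 49) (nat_lit 4) (nat_lit 467) (nat_lit 399) (nat_lit 334))) (XT.nd (nat_lit 78) (nat_lit 0) (nat_lit 0) (XT.lf (nat_lit 0) (nat_lit 7976465403) (nat_lit 76) (nat_lit 6166605610) (nat_lit 152) (nat_lit 16525677149) (nat_lit 47) (nat_lit 5) (nat_lit 48) (nat_lit 5) (nat_lit 49) (nat_lit 4) (nat_lit 468) (nat_lit 399) (nat_lit 333)) (XT.lf (nat_lit 0) (nat_lit 23796522564) (nat_lit 152) (nat_lit 4165167498) (nat_lit 0) (nat_lit 3740832193) (nat_lit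 47) (nat_lit 5) (nat_lit 49) (nat_lit 4) (nat_lit 47) (nat_lit 4) (nat_lit 469) (nat_lit 399) (nat_lit 332))))))))
noncomputable def xc92 : XT := (XT.nd (nat_lit 2418) (nat_lit 1064) (nat_lit 0) (XT.nd (nat_lit 1170) (nat_lit 912) (nat_lit 0) (XT.nd (nat_lit 546) (nat_lit 456) (nat_lit 0) (XT.nd (nat_lit 234) (nat_lit 304) (nat_lit 0) (XT.nd (nat_lit 78) (nat_lit 76) (nat_lit 0) (XT.lf (nat_lit 0) (nat_lit 1423306580) (nat_lit 152) (nat_lit 17175684865) (nat_lit 76) (nat_lit 14172336718) (nat_lit 45) (nat_lit 5) (nat_lit 47) (nat_lit 5) (nat_lit 46) (nat_lit 4) (nat_lit 470) (nat_lit 399) (nat_lit 331)) (XT.nd (nat_lit 78) (nat_lit 0) (nat_lit 0) (XT.lf (nat_lit 0) (nat_lit 2480217362) (nat_lit 76) (nat_lit 8548882631) (nat_lit 152) (nat_lit 22854208989) (nat_lit 44) (nat_lit 5) (nat_lit 45) (nat_lit 5) (nat_lit 46) (nat_lit 4) (nat_lit 471) (nat_lit 399) (nat_lit 330)) (XT.lf (nat_lit 0) (nat_lit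 21407522987) (nat_lit 152) (nat_lit 11424749246) (nat_lit 0) (nat_lit 2204000287) (nat_lit 44) (nat_lit 5) (nat_lit 46) (nat_lit 4) (nat_lit 44) (nat_lit 4) (nat_lit 472) (nat_lit 399) (nat_lit 329)))) (XT.nd (nat_lit 156) (nat_lit 152) (nat_lit 0) (XT.nd (nat_lit 78) (nat_lit 76) (nat_lit 0) (XT.lf (nat_lit 0) (nat_lit 9657102055) (nat_lit 76) (nat_lit 22905741318) (nat_lit 76) (nat_lit 3671142690) (nat_lit 43) (nat_lit 4) (nat_lit 44) (nat_lit 5) (nat_lit 44) (nat_lit 4) (nat_lit 473) (nat_lit 399) (nat_lit 328)) (XT.lf (nat_lit 0) (nat_lit 6730963950) (nat_lit 152) (nat_lit 5465718650) (nat_lit 76) (nat_lit 25281419092) (nat_lit 42) (nat_lit 5) (nat_lit 44) (nat_lit 5) (nat_lit 43) (nat_lit 4) (nat_lit 474) (nat_lit 399) (nat_lit 327))) (XT.nd (nat_lit 78) (nat_lit 76) (nat_lit 0) (XT.lf (nat_lit 0) (nat_lit 17127681291) (nat_lit 76) (nat_lit 638203012) (nat_lit 152) (nat_lit 21003726076)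 (nat_lit 41) (nat_lit 5) (nat_lit 42) (nat_lit 5) (nat_lit 43) (nat_lit 4) (nat_lit 475) (nat_lit 399) (nat_lit 326)) (XT.lf (nat_lit 0) (nat_lit 699367532) (nat_lit 76) (nat_lit 28906463216) (nat_lit 76) (nat_lit 10507200277) (nat_lit 40) (nat_lit 4) (nat_lit 41) (nat_lit 5) (nat_lit 41) (nat_lit 4) (nat_lit 476) (nat_lit 399) (nat_lit 325))))) (XT.nd (nat_lit 312) (nat_lit 228) (nat_lit 0) (XT.nd (nat_lit 156) (nat_lit 76) (nat_lit 0) (XT.nd (nat_lit 78) (nat_lit 76) (nat_lit 0) (XT.lf (nat_lit 0) (nat_lit 849483325) (nat_lit 152) (nat_lit 16682170923) (nat_lit 76) (nat_lit 23973978185) (nat_lit 39) (nat_lit 5) (nat_lit 41) (nat_lit 5) (nat_lit 40) (nat_lit 4) (nat_lit 477) (nat_lit 399) (nat_lit 324)) (XT.lf (nat_lit 0) (nat_lit 7185077510) (nat_lit 76) (nat_lit 5318277898) (nat_lit 152) (nat_lit 30451773246) (nat_lit 38) (nat_lit 5) (nat_lit 39) (nat_lit 5) (nat_lit 40) (nat_lit 4) (nat_lit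 478) (nat_lit 399) (nat_lit 323))) (XT.nd (nat_lit 78) (nat_lit 76) (nat_lit 0) (XT.lf (nat_lit 0) (nat_lit 25114617665) (nat_lit 152) (nat_lit 11818545348) (nat_lit 0) (nat_lit 7525202276) (nat_lit 38) (nat_lit 5) (nat_lit 40) (nat_lit 4) (nat_lit 38) (nat_lit 4) (nat_lit 479) (nat_lit 399) (nat_lit 322)) (XT.lf (nat_lit 0) (nat_lit 13623571342) (nat_lit 76) (nat_lit 25004528595) (nat_lit 76) (nat_lit 7395081387) (nat_lit 37) (nat_lit 4) (nat_lit 38) (nat_lit 5) (nat_lit 38) (nat_lit 4) (nat_lit 480) (nat_lit 399) (nat_lit 321)))) (XT.nd (nat_lit 156) (nat_lit 76) (nat_lit 0) (XT.nd (nat_lit 78) (nat_lit 76) (nat_lit 0) (XT.lf (nat_lit 0) (nat_lit 5161388950) (nat_lit 152) (nat_lit 7047677782) (nat_lit 76) (nat_lit 35444388935) (nat_lit 36) (nat_lit 5) (nat_lit 38) (nat_lit 5) (nat_lit 37) (nat_lit 4) (nat_lit 481) (nat_lit 399) (nat_lit 320)) (XT.lf (nat_lit 0) (nat_lit 18409014686) (nat_lit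 152) (nat_lit 29331936209) (nat_lit 0) (nat_lit 1602638893) (nat_lit 35) (nat_lit 5) (nat_lit 37) (nat_lit 4) (nat_lit 35) (nat_lit 4) (nat_lit 482) (nat_lit 399) (nat_lit 319))) (XT.nd (nat_lit 78) (nat_lit 76) (nat_lit 0) (XT.lf (nat_lit 0) (nat_lit 32613683943) (nat_lit 152) (nat_lit 2698985977) (nat_lit 0) (nat_lit 15790827922) (nat_lit 35) (nat_lit 5) (nat_lit 37) (nat_lit 4) (nat_lit 35) (nat_lit 4) (nat_lit 483) (nat_lit 399) (nat_lit 318)) (XT.lf (nat_lit 0) (nat_lit 26048617009) (nat_lit 76) (nat_lit 21861138816) (nat_lit 76) (nat_lit 5022587339) (nat_lit 34) (nat_lit 4) (nat_lit 35) (nat_lit 5) (nat_lit 35) (nat_lit 4) (nat_lit 484) (nat_lit 399) (nat_lit 317)))))) (XT.nd (nat_lit 624) (nat_lit 456) (nat_lit 0) (XT.nd (nat_lit 312) (nat_lit 228) (nat_lit 0) (XT.nd (nat_lit 156) (nat_lit 76) (nat_lit 0) (XT.nd (nat_lit 78) (nat_lit 0) (nat_lit 0) (XT.lf (nat_lit 0) (nat_lit 1325537546)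 (nat_lit 76) (nat_lit 7542285416) (nat_lit 152) (nat_lit 45975607438) (nat_lit 32) (nat_lit 5) (nat_lit 33) (nat_lit 5) (nat_lit 34) (nat_lit 4) (nat_lit 485) (nat_lit 399) (nat_lit 316)) (XT.lf (nat_lit 0) (nat_lit 23838242433) (nat_lit 152) (nat_lit 25206266769) (nat_lit 0) (nat_lit 7773732176) (nat_lit 32) (nat_lit 5) (nat_lit 34) (nat_lit 4) (nat_lit 32) (nat_lit 4) (nat_lit 486) (nat_lit 399) (nat_lit 315))) (XT.nd (nat_lit 78) (nat_lit 0) (nat_lit 0) (XT.lf (nat_lit 0) (nat_lit 4492724629) (nat_lit 76) (nat_lit 35234007024) (nat_lit 76) (nat_lit 19156584078) (nat_lit 31) (nat_lit 4) (nat_lit 32) (nat_lit 5) (nat_lit 32) (nat_lit 4) (nat_lit 487) (nat_lit 399) (nat_lit 314)) (XT.lf (nat_lit 0) (nat_lit 36504183163) (nat_lit 76) (nat_lit 20308514511) (nat_lit 76) (nat_lit 4218793765) (nat_lit 31) (nat_lit 4) (nat_lit 32) (nat_lit 5) (nat_lit 32) (nat_lit 4) (nat_lit 488) (nat_lit 399) (nat_lit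 313)))) (XT.nd (nat_lit 156) (nat_lit 76) (nat_lit 0) (XT.nd (nat_lit 78) (nat_lit 0) (nat_lit 0) (XT.lf (nat_lit 0) (nat_lit 6822399540) (nat_lit 76) (nat_lit 4359957765) (nat_lit 152) (nat_lit 52091595566) (nat_lit 29) (nat_lit 5) (nat_lit 30) (nat_lit 5) (nat_lit 31) (nat_lit 4) (nat_lit 489) (nat_lit 399) (nat_lit 312)) (XT.lf (nat_lit 0) (nat_lit 27804329776) (nat_lit 152) (nat_lit 25332114201) (nat_lit 0) (nat_lit 12459008440) (nat_lit 29) (nat_lit 5) (nat_lit 31) (nat_lit 4) (nat_lit 29) (nat_lit 4) (nat_lit 490) (nat_lit 399) (nat_lit 311))) (XT.nd (nat_lit 78) (nat_lit 0) (nat_lit 0) (XT.lf (nat_lit 0) (nat_lit 7466884591) (nat_lit 76) (nat_lit 37956637628) (nat_lit 76) (nat_lit 22601198862) (nat_lit 28) (nat_lit 4) (nat_lit 29) (nat_lit 5) (nat_lit 29) (nat_lit 4) (nat_lit 491) (nat_lit 399) (nat_lit 310)) (XT.lf (nat_lit 0) (nat_lit 42742091071) (nat_lit 76) (nat_lit 21589032137) (nat_lit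 76) (nat_lit 6223957724) (nat_lit 28) (nat_lit 4) (nat_lit 29) (nat_lit 5) (nat_lit 29) (nat_lit 4) (nat_lit 492) (nat_lit 399) (nat_lit 309))))) (XT.nd (nat_lit 312) (nat_lit 228) (nat_lit 0) (XT.nd (nat_lit 156) (nat_lit 76) (nat_lit 0) (XT.nd (nat_lit 78) (nat_lit 0) (nat_lit 0) (XT.lf (nat_lit 0) (nat_lit 6566100918) (nat_lit 76) (nat_lit 4136509881) (nat_lit 152) (nat_lit 62496700733) (nat_lit 26) (nat_lit 5) (nat_lit 27) (nat_lit 5) (nat_lit 28) (nat_lit 4) (nat_lit 493) (nat_lit 399) (nat_lit 308)) (XT.lf (nat_lit 0) (nat_lit 28945770495) (nat_lit 152) (nat_lit 32695607468) (nat_lit 0) (nat_lit 14295302840) (nat_lit 26) (nat_lit 5) (nat_lit 28) (nat_lit 4) (nat_lit 26) (nat_lit 4) (nat_lit 494) (nat_lit 399) (nat_lit 307))) (XT.nd (nat_lit 78) (nat_lit 0) (nat_lit 0) (XT.lf (nat_lit 0) (nat_lit 2924792668) (nat_lit 76) (nat_lit 45269919871) (nat_lit 76) (nat_lit 30611524944) (nat_lit 25)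 (nat_lit 4) (nat_lit 26) (nat_lit 5) (nat_lit 26) (nat_lit 4) (nat_lit 495) (nat_lit 399) (nat_lit 306)) (XT.lf (nat_lit 0) (nat_lit 41422090590) (nat_lit 76) (nat_lit 27518208208) (nat_lit 76) (nat_lit 12852263499) (nat_lit 25) (nat_lit 4) (nat_lit 26) (nat_lit 5) (nat_lit 26) (nat_lit 4) (nat_lit 496) (nat_lit 399) (nat_lit 305)))) (XT.nd (nat_lit 156) (nat_lit 76) (nat_lit 0) (XT.nd (nat_lit 78) (nat_lit 76) (nat_lit 0) (XT.lf (nat_lit 0) (nat_lit 5590591835) (nat_lit 152) (nat_lit 3212421715) (nat_lit 76) (nat_lit 76121610876) (nat_lit 24) (nat_lit 5) (nat_lit 26) (nat_lit 5) (nat_lit 25) (nat_lit 4) (nat_lit 497) (nat_lit 399) (nat_lit 304)) (XT.lf (nat_lit 0) (nat_lit 25261107717) (nat_lit 152) (nat_lit 51624603864) (nat_lit 0) (nat_lit 11280171667) (nat_lit 23) (nat_lit 5) (nat_lit 25) (nat_lit 4) (nat_lit 23) (nat_lit 4) (nat_lit 498) (nat_lit 399) (nat_lit 303))) (XT.nd (nat_lit 78)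 (nat_lit 76) (nat_lit 0) (XT.lf (nat_lit 0) (nat_lit 46096783756) (nat_lit 152) (nat_lit 13353703183) (nat_lit 0) (nat_lit 32109636481) (nat_lit 23) (nat_lit 5) (nat_lit 25) (nat_lit 4) (nat_lit 23) (nat_lit 4) (nat_lit 499) (nat_lit 399) (nat_lit 302)) (XT.lf (nat_lit 0) (nat_lit 27682263685) (nat_lit 76) (nat_lit 40707060371) (nat_lit 76) (nat_lit 26713997644) (nat_lit 22) (nat_lit 4) (nat_lit 23) (nat_lit 5) (nat_lit 23) (nat_lit 4) (nat_lit 500) (nat_lit 399) (nat_lit 301))))))) (XT.nd (nat_lit 1170) (nat_lit 456) (nat_lit 0) (XT.nd (nat_lit 546) (nat_lit 228) (nat_lit 0) (XT.nd (nat_lit 234) (nat_lit 228) (nat_lit 0) (XT.nd (nat_lit 78) (nat_lit 152) (nat_lit 0) (XT.lf (nat_lit 0) (nat_lit 71199711354) (nat_lit 76) (nat_lit 20806099585) (nat_lit 76) (nat_lit 6807403095) (nat_lit 22) (nat_lit 4) (nat_lit 23) (nat_lit 5) (nat_lit 23) (nat_lit 4) (nat_lit 501) (nat_lit 399) (nat_lit 300)) (XT.nd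 (nat_lit 78) (nat_lit 0) (nat_lit 0) (XT.lf (nat_lit 0) (nat_lit 13860253562) (nat_lit 152) (nat_lit 88303450846) (nat_lit 0) (nat_lit 523051677) (nat_lit 20) (nat_lit 5) (nat_lit 22) (nat_lit 4) (nat_lit 20) (nat_lit 4) (nat_lit 502) (nat_lit 399) (nat_lit 299)) (XT.lf (nat_lit 0) (nat_lit 36132641183) (nat_lit 152) (nat_lit 47785175601) (nat_lit 0) (nat_lit 22790572641) (nat_lit 20) (nat_lit 5) (nat_lit 22) (nat_lit 4) (nat_lit 20) (nat_lit 4) (nat_lit 503) (nat_lit 399) (nat_lit 298)))) (XT.nd (nat_lit 156) (nat_lit 152) (nat_lit 0) (XT.nd (nat_lit 78) (nat_lit 76) (nat_lit 0) (XT.lf (nat_lit 0) (nat_lit 59503146779) (nat_lit 152) (nat_lit 5272289495) (nat_lit 0) (nat_lit 46156443325) (nat_lit 20) (nat_lit 5) (nat_lit 22) (nat_lit 4) (nat_lit 20) (nat_lit 4) (nat_lit 504) (nat_lit 399) (nat_lit 297)) (XT.lf (nat_lit 0) (nat_lit 40637068607) (nat_lit 76) (nat_lit 44024804327) (nat_lit 76) (nat_lit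 30673686673) (nat_lit 19) (nat_lit 4) (nat_lit 20) (nat_lit 5) (nat_lit 20) (nat_lit 4) (nat_lit 505) (nat_lit 399) (nat_lit 296))) (XT.nd (nat_lit 78) (nat_lit 152) (nat_lit 0) (XT.lf (nat_lit 0) (nat_lit 88995605158) (nat_lit 76) (nat_lit 22157700836) (nat_lit 76) (nat_lit 8802379180) (nat_lit 19) (nat_lit 4) (nat_lit 20) (nat_lit 5) (nat_lit 20) (nat_lit 4) (nat_lit 506) (nat_lit 399) (nat_lit 295)) (XT.lf (nat_lit 0) (nat_lit 13952327603) (nat_lit 152) (nat_lit 109602117083) (nat_lit 0) (nat_lit 1229160492) (nat_lit 17) (nat_lit 5) (nat_lit 19) (nat_lit 4) (nat_lit 17) (nat_lit 4) (nat_lit 507) (nat_lit 399) (nat_lit 294))))) (XT.nd (nat_lit 312) (nat_lit 152) (nat_lit 0) (XT.nd (nat_lit 156) (nat_lit 76) (nat_lit 0) (XT.nd (nat_lit 78) (nat_lit 0) (nat_lit 0) (XT.lf (nat_lit 0) (nat_lit 38431071396) (nat_lit 152) (nat_lit 65666256121) (nat_lit 0) (nat_lit 25704272710) (nat_lit 17) (nat_lit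 5) (nat_lit 19) (nat_lit 4) (nat_lit 17) (nat_lit 4) (nat_lit 508) (nat_lit 399) (nat_lit 293)) (XT.lf (nat_lit 0) (nat_lit 64120379923) (nat_lit 152) (nat_lit 19560661202) (nat_lit 0) (nat_lit 51390122596) (nat_lit 17) (nat_lit 5) (nat_lit 19) (nat_lit 4) (nat_lit 17) (nat_lit 4) (nat_lit 509) (nat_lit 399) (nat_lit 292))) (XT.nd (nat_lit 78) (nat_lit 0) (nat_lit 0) (XT.lf (nat_lit 0) (nat_lit 29777509156) (nat_lit 76) (nat_lit 61768819420) (nat_lit 76) (nat_lit 49035268147) (nat_lit 16) (nat_lit 4) (nat_lit 17) (nat_lit 5) (nat_lit 17) (nat_lit 4) (nat_lit 510) (nat_lit 399) (nat_lit 291)) (XT.lf (nat_lit 0) (nat_lit 82236335110) (nat_lit 76) (nat_lit 38425983742) (nat_lit 76) (nat_lit 25689295378) (nat_lit 16) (nat_lit 4) (nat_lit 17) (nat_lit 5) (nat_lit 17) (nat_lit 4) (nat_lit 511) (nat_lit 399) (nat_lit 290)))) (XT.nd (nat_lit 156) (nat_lit 0) (nat_lit 0) (XT.nd (nat_lit 78) (nat_lit 152)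 (nat_lit 0) (XT.lf (nat_lit 0) (nat_lit 137293954830) (nat_lit 76) (nat_lit 13928225173) (nat_lit 76) (nat_lit 1188549104) (nat_lit 16) (nat_lit 4) (nat_lit 17) (nat_lit 5) (nat_lit 17) (nat_lit 4) (nat_lit 512) (nat_lit 399) (nat_lit 289)) (XT.lf (nat_lit 0) (nat_lit 24519519711) (nat_lit 152) (nat_lit 121811958876) (nat_lit 0) (nat_lit 12383784947) (nat_lit 14) (nat_lit 5) (nat_lit 16) (nat_lit 4) (nat_lit 14) (nat_lit 4) (nat_lit 513) (nat_lit 399) (nat_lit 288))) (XT.nd (nat_lit 78) (nat_lit 0) (nat_lit 0) (XT.lf (nat_lit 0) (nat_lit 51950049240) (nat_lit 152) (nat_lit 73548417676) (nat_lit 0) (nat_lit 39811733585) (nat_lit 14) (nat_lit 5) (nat_lit 16) (nat_lit 4) (nat_lit 14) (nat_lit 4) (nat_lit 514) (nat_lit 399) (nat_lit 287)) (XT.lf (nat_lit 0) (nat_lit 80741116660) (nat_lit 152) (nat_lit 22893974123) (nat_lit 0) (nat_lit 68600343012) (nat_lit 14) (nat_lit 5) (nat_lit 16) (nat_lit 4)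 (nat_lit 14) (nat_lit 4) (nat_lit 515) (nat_lit 399) (nat_lit 286)))))) (XT.nd (nat_lit 624) (nat_lit 152) (nat_lit 0) (XT.nd (nat_lit 312) (nat_lit 76) (nat_lit 0) (XT.nd (nat_lit 156) (nat_lit 152) (nat_lit 0) (XT.nd (nat_lit 78) (nat_lit 0) (nat_lit 0) (XT.lf (nat_lit 0) (nat_lit 31272905891) (nat_lit 76) (nat_lit 80176623943) (nat_lit 76) (nat_lit 68033509350) (nat_lit 13) (nat_lit 4) (nat_lit 14) (nat_lit 5) (nat_lit 14) (nat_lit 4) (nat_lit 516) (nat_lit 399) (nat_lit 285)) (XT.lf (nat_lit 0) (nat_lit 88922085148) (nat_lit 76) (nat_lit 55148706210) (nat_lit 76) (nat_lit 43003362145) (nat_lit 13) (nat_lit 4) (nat_lit 14) (nat_lit 5) (nat_lit 14) (nat_lit 4) (nat_lit 517) (nat_lit 399) (nat_lit 284))) (XT.nd (nat_lit 78) (nat_lit 152) (nat_lit 0) (XT.lf (nat_lit 0) (nat_lit 149433845419) (nat_lit 76) (nat_lit 28879467835) (nat_lit 76) (nat_lit 16732000464) (nat_lit 13) (nat_lit 4) (nat_lit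 14) (nat_lit 5) (nat_lit 14) (nat_lit 4) (nat_lit 518) (nat_lit 399) (nat_lit 283)) (XT.lf (nat_lit 0) (nat_lit 9677202878) (nat_lit 76) (nat_lit 969964168) (nat_lit 152) (nat_lit 192752312741) (nat_lit 11) (nat_lit 5) (nat_lit 12) (nat_lit 5) (nat_lit 13) (nat_lit 4) (nat_lit 519) (nat_lit 399) (nat_lit 282)))) (XT.nd (nat_lit 156) (nat_lit 76) (nat_lit 0) (XT.nd (nat_lit 78) (nat_lit 0) (nat_lit 0) (XT.lf (nat_lit 0) (nat_lit 40051009747) (nat_lit 152) (nat_lit 143567495499) (nat_lit 0) (nat_lit 28478233110) (nat_lit 11) (nat_lit 5) (nat_lit 13) (nat_lit 4) (nat_lit 11) (nat_lit 4) (nat_lit 520) (nat_lit 399) (nat_lit 281)) (XT.lf (nat_lit 0) (nat_lit 70931914512) (nat_lit 152) (nat_lit 90939210855) (nat_lit 0) (nat_lit 59357391025) (nat_lit 11) (nat_lit 5) (nat_lit 13) (nat_lit 4) (nat_lit 11) (nat_lit 4) (nat_lit 521) (nat_lit 399) (nat_lit 280))) (XT.nd (nat_lit 78) (nat_lit 76) (nat_lit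 0) (XT.lf (nat_lit 0) (nat_lit 103348263447) (nat_lit 152) (nat_lit 35696973678) (nat_lit 0) (nat_lit 91772076294) (nat_lit 11) (nat_lit 5) (nat_lit 13) (nat_lit 4) (nat_lit 11) (nat_lit 4) (nat_lit 522) (nat_lit 399) (nat_lit 279)) (XT.lf (nat_lit 0) (nat_lit 23027777870) (nat_lit 76) (nat_lit 114708988612) (nat_lit 76) (nat_lit 103131217015) (nat_lit 10) (nat_lit 4) (nat_lit 11) (nat_lit 5) (nat_lit 11) (nat_lit 4) (nat_lit 523) (nat_lit 399) (nat_lit 278))))) (XT.nd (nat_lit 312) (nat_lit 0) (nat_lit 0) (XT.nd (nat_lit 156) (nat_lit 152) (nat_lit 0) (XT.nd (nat_lit 78) (nat_lit 0) (nat_lit 0) (XT.lf (nat_lit 0) (nat_lit 85911723355) (nat_lit 76) (nat_lit 88529459957) (nat_lit 76) (nat_lit 76950179366) (nat_lit 10) (nat_lit 4) (nat_lit 11) (nat_lit 5) (nat_lit 11) (nat_lit 4) (nat_lit 524) (nat_lit 399) (nat_lit 277)) (XT.lf (nat_lit 0) (nat_lit 151924283294) (nat_lit 76) (nat_lit 61048864471)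 (nat_lit 76) (nat_lit 49468146743) (nat_lit 10) (nat_lit 4) (nat_lit 11) (nat_lit 5) (nat_lit 11) (nat_lit 4) (nat_lit 525) (nat_lit 399) (nat_lit 276))) (XT.nd (nat_lit 78) (nat_lit 152) (nat_lit 0) (XT.lf (nat_lit 0) (nat_lit 221222630448) (nat_lit 76) (nat_lit 32201772165) (nat_lit 76) (nat_lit 20619685735) (nat_lit 10) (nat_lit 4) (nat_lit 11) (nat_lit 5) (nat_lit 11) (nat_lit 4) (nat_lit 526) (nat_lit 399) (nat_lit 275)) (XT.lf (nat_lit 0) (nat_lit 7844586321) (nat_lit 76) (nat_lit 1632475277) (nat_lit 152) (nat_lit 276736640484) (nat_lit 8) (nat_lit 5) (nat_lit 9) (nat_lit 5) (nat_lit 10) (nat_lit 4) (nat_lit 527) (nat_lit 399) (nat_lit 274)))) (XT.nd (nat_lit 156) (nat_lit 0) (nat_lit 0) (XT.nd (nat_lit 78) (nat_lit 0) (nat_lit 0) (XT.lf (nat_lit 0) (nat_lit 41763490080) (nat_lit 152) (nat_lit 226412007256) (nat_lit 0) (nat_lit 30730507786) (nat_lit 8) (nat_lit 5) (nat_lit 10) (nat_lit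 4) (nat_lit 8) (nat_lit 4) (nat_lit 528) (nat_lit 399) (nat_lit 273)) (XT.lf (nat_lit 0) (nat_lit 75684268653) (nat_lit 152) (nat_lit 171897492926) (nat_lit 0) (nat_lit 64650160324) (nat_lit 8) (nat_lit 5) (nat_lit 10) (nat_lit 4) (nat_lit 8) (nat_lit 4) (nat_lit 529) (nat_lit 399) (nat_lit 272))) (XT.nd (nat_lit 78) (nat_lit 0) (nat_lit 0) (XT.lf (nat_lit 0) (nat_lit 111294673562) (nat_lit 152) (nat_lit 114670288795) (nat_lit 0) (nat_lit 100259492819) (nat_lit 8) (nat_lit 5) (nat_lit 10) (nat_lit 4) (nat_lit 8) (nat_lit 4) (nat_lit 530) (nat_lit 399) (nat_lit 271)) (XT.lf (nat_lit 0) (nat_lit 148679491485) (nat_lit 152) (nat_lit 54594139616) (nat_lit 0) (nat_lit 137643289395) (nat_lit 8) (nat_lit 5) (nat_lit 10) (nat_lit 4) (nat_lit 8) (nat_lit 4) (nat_lit 531) (nat_lit 399) (nat_lit 270))))))))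
noncomputable def xc93 : XT := (XT.nd (nat_lit 53040) (nat_lit 0) (nat_lit 5928) (XT.nd (nat_lit 1170) (nat_lit 0) (nat_lit 0) (XT.nd (nat_lit 546) (nat_lit 76) (nat_lit 0) (XT.nd (nat_lit 234) (nat_lit 152) (nat_lit 0) (XT.nd (nat_lit 78) (nat_lit 0) (nat_lit 0) (XT.lf (nat_lit 0) (nat_lit 8754181542) (nat_lit 76) (nat_lit 179310229658) (nat_lit 76) (nat_lit 168273054857) (nat_lit 7) (nat_lit 4) (nat_lit 8) (nat_lit 5) (nat_lit 8) (nat_lit 4) (nat_lit 532) (nat_lit 399) (nat_lit 269)) (XT.nd (nat_lit 78) (nat_lit 0) (nat_lit 0) (XT.lf (nat_lit 0) (nat_lit 77153670758) (nat_lit 76) (nat_lit 153183763246) (nat_lit 76) (nat_lit 142145662054) (nat_lit 7) (nat_lit 4) (nat_lit 8) (nat_lit 5) (nat_lit 8) (nat_lit 4) (nat_lit 533) (nat_lit 399) (nat_lit 268)) (XT.lf (nat_lit 0) (nat_lit 148962055149) (nat_lit 76) (nat_lit 125756604166) (nat_lit 76) (nat_lit 114717620696) (nat_lit 7) (nat_lit 4) (nat_lit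 8) (nat_lit 5) (nat_lit 8) (nat_lit 4) (nat_lit 534) (nat_lit 399) (nat_lit 267)))) (XT.nd (nat_lit 156) (nat_lit 152) (nat_lit 0) (XT.nd (nat_lit 78) (nat_lit 0) (nat_lit 0) (XT.lf (nat_lit 0) (nat_lit 224350307058) (nat_lit 76) (nat_lit 96963449656) (nat_lit 76) (nat_lit 85923625922) (nat_lit 7) (nat_lit 4) (nat_lit 8) (nat_lit 5) (nat_lit 8) (nat_lit 4) (nat_lit 535) (nat_lit 399) (nat_lit 266)) (XT.lf (nat_lit 0) (nat_lit 303497922323) (nat_lit 76) (nat_lit 66735744589) (nat_lit 76) (nat_lit 55695120602) (nat_lit 7) (nat_lit 4) (nat_lit 8) (nat_lit 5) (nat_lit 8) (nat_lit 4) (nat_lit 536) (nat_lit 399) (nat_lit 265))) (XT.nd (nat_lit 78) (nat_lit 152) (nat_lit 0) (XT.lf (nat_lit 0) (nat_lit 386593347648) (nat_lit 76) (nat_lit 35001518236) (nat_lit 76) (nat_lit 23960132105) (nat_lit 7) (nat_lit 4) (nat_lit 8) (nat_lit 5) (nat_lit 8) (nat_lit 4) (nat_lit 537) (nat_lit 399) (nat_lit 264)) (XT.lf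 (nat_lit 0) (nat_lit 7774429013) (nat_lit 76) (nat_lit 1404371472) (nat_lit 152) (nat_lit 456970569244) (nat_lit 5) (nat_lit 5) (nat_lit 6) (nat_lit 5) (nat_lit 7) (nat_lit 4) (nat_lit 538) (nat_lit 399) (nat_lit 263))))) (XT.nd (nat_lit 312) (nat_lit 76) (nat_lit 0) (XT.nd (nat_lit 156) (nat_lit 0) (nat_lit 0) (XT.nd (nat_lit 78) (nat_lit 0) (nat_lit 0) (XT.lf (nat_lit 0) (nat_lit 44708668691) (nat_lit 152) (nat_lit 408776478404) (nat_lit 0) (nat_lit 34191713195) (nat_lit 5) (nat_lit 5) (nat_lit 7) (nat_lit 4) (nat_lit 5) (nat_lit 4) (nat_lit 539) (nat_lit 399) (nat_lit 262)) (XT.lf (nat_lit 0) (nat_lit 82033715802) (nat_lit 152) (nat_lit 356729942028) (nat_lit 0) (nat_lit 71516133288) (nat_lit 5) (nat_lit 5) (nat_lit 7) (nat_lit 4) (nat_lit 5) (nat_lit 4) (nat_lit 540) (nat_lit 399) (nat_lit 261))) (XT.nd (nat_lit 78) (nat_lit 0) (nat_lit 0) (XT.lf (nat_lit 0) (nat_lit 121220884804) (nat_lit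 152) (nat_lit 302089485089) (nat_lit 0) (nat_lit 110702705130) (nat_lit 5) (nat_lit 5) (nat_lit 7) (nat_lit 4) (nat_lit 5) (nat_lit 4) (nat_lit 541) (nat_lit 399) (nat_lit 260)) (XT.lf (nat_lit 0) (nat_lit 162363478480) (nat_lit 152) (nat_lit 244725011262) (nat_lit 0) (nat_lit 151844730082) (nat_lit 5) (nat_lit 5) (nat_lit 7) (nat_lit 4) (nat_lit 5) (nat_lit 4) (nat_lit 542) (nat_lit 399) (nat_lit 259)))) (XT.nd (nat_lit 156) (nat_lit 76) (nat_lit 0) (XT.nd (nat_lit 78) (nat_lit 0) (nat_lit 0) (XT.lf (nat_lit 0) (nat_lit 205559455387) (nat_lit 152) (nat_lit 184499938466) (nat_lit 0) (nat_lit 195040165347) (nat_lit 5) (nat_lit 5) (nat_lit 7) (nat_lit 4) (nat_lit 5) (nat_lit 4) (nat_lit 543) (nat_lit 399) (nat_lit 258)) (XT.lf (nat_lit 0) (nat_lit 250911663088) (nat_lit 152) (nat_lit 121270873670) (nat_lit 0) (nat_lit 240391857198) (nat_lit 5) (nat_lit 5) (nat_lit 7) (nat_lit 4) (nat_lit 5) (nat_lit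 4) (nat_lit 544) (nat_lit 399) (nat_lit 257))) (XT.nd (nat_lit 78) (nat_lit 76) (nat_lit 0) (XT.lf (nat_lit 0) (nat_lit 298528083031) (nat_lit 152) (nat_lit 54887271481) (nat_lit 0) (nat_lit 288007785856) (nat_lit 5) (nat_lit 5) (nat_lit 7) (nat_lit 4) (nat_lit 5) (nat_lit 4) (nat_lit 545) (nat_lit 399) (nat_lit 256)) (XT.lf (nat_lit 0) (nat_lit 15298574209) (nat_lit 76) (nat_lit 333462367051) (nat_lit 76) (nat_lit 322941601985) (nat_lit 4) (nat_lit 4) (nat_lit 5) (nat_lit 5) (nat_lit 5) (nat_lit 4) (nat_lit 546) (nat_lit 399) (nat_lit 255)))))) (XT.nd (nat_lit 51246) (nat_lit 0) (nat_lit 13908) (XT.nd (nat_lit 312) (nat_lit 0) (nat_lit 0) (XT.nd (nat_lit 156) (nat_lit 0) (nat_lit 0) (XT.nd (nat_lit 78) (nat_lit 0) (nat_lit 0) (XT.lf (nat_lit 0) (nat_lit 90892794025) (nat_lit 76) (nat_lit 311539007485) (nat_lit 76) (nat_lit 301017796810) (nat_lit 4) (nat_lit 4) (nat_lit 5) (nat_lit 5) (nat_lit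 5) (nat_lit 4) (nat_lit 547) (nat_lit 399) (nat_lit 254)) (XT.lf (nat_lit 0) (nat_lit 170260553130) (nat_lit 76) (nat_lit 288522619842) (nat_lit 76) (nat_lit 278000984776) (nat_lit 4) (nat_lit 4) (nat_lit 5) (nat_lit 5) (nat_lit 5) (nat_lit 4) (nat_lit 548) (nat_lit 399) (nat_lit 253))) (XT.nd (nat_lit 78) (nat_lit 0) (nat_lit 0) (XT.lf (nat_lit 0) (nat_lit 253590822378) (nat_lit 76) (nat_lit 264358403199) (nat_lit 76) (nat_lit 253836363951) (nat_lit 4) (nat_lit 4) (nat_lit 5) (nat_lit 5) (nat_lit 5) (nat_lit 4) (nat_lit 549) (nat_lit 399) (nat_lit 252)) (XT.lf (nat_lit 0) (nat_lit 341082007172) (nat_lit 76) (nat_lit 238988823705) (nat_lit 76) (nat_lit 228466399523) (nat_lit 4) (nat_lit 4) (nat_lit 5) (nat_lit 5) (nat_lit 5) (nat_lit 4) (nat_lit 550) (nat_lit 399) (nat_lit 251)))) (XT.nd (nat_lit 50778) (nat_lit 0) (nat_lit 15276) (XT.nd (nat_lit 50700) (nat_lit 0) (nat_lit 15428) (XT.lf (nat_lit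 0) (nat_lit 432942419857) (nat_lit 76) (nat_lit 212353477601) (nat_lit 76) (nat_lit 201830686814) (nat_lit 4) (nat_lit 4) (nat_lit 5) (nat_lit 5) (nat_lit 5) (nat_lit 4) (nat_lit 551) (nat_lit 399) (nat_lit 250)) (XT.lf (nat_lit 0) (nat_lit 0) (nat_lit 0) (nat_lit 0) (nat_lit 0) (nat_lit 1073741823) (nat_lit 1) (nat_lit 0) (nat_lit 1) (nat_lit 0) (nat_lit 207) (nat_lit 0) (nat_lit 400) (nat_lit 400) (nat_lit 400))) (XT.nd (nat_lit 78) (nat_lit 76) (nat_lit 0) (XT.lf (nat_lit 0) (nat_lit 3151907516) (nat_lit 76) (nat_lit 3190592900) (nat_lit 0) (nat_lit 102480736) (nat_lit 206) (nat_lit 5) (nat_lit 207) (nat_lit 0) (nat_lit 206) (nat_lit 4) (nat_lit 401) (nat_lit 400) (nat_lit 399)) (XT.lf (nat_lit 0) (nat_lit 114993863) (nat_lit 76) (nat_lit 6148130483) (nat_lit 76) (nat_lit 194487722) (nat_lit 205) (nat_lit 4) (nat_lit 206) (nat_lit 5) (nat_lit 206) (nat_lit 4) (nat_lit 402) (nat_lit 400) (nat_lit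 398))))) (XT.nd (nat_lit 312) (nat_lit 836) (nat_lit 0) (XT.nd (nat_lit 156) (nat_lit 304) (nat_lit 0) (XT.nd (nat_lit 78) (nat_lit 152) (nat_lit 0) (XT.lf (nat_lit 0) (nat_lit 2820549607) (nat_lit 152) (nat_lit 2937436048) (nat_lit 76) (nat_lit 717583700) (nat_lit 204) (nat_lit 5) (nat_lit 206) (nat_lit 5) (nat_lit 205) (nat_lit 4) (nat_lit 403) (nat_lit 400) (nat_lit 397)) (XT.lf (nat_lit 0) (nat_lit 540450323) (nat_lit 152) (nat_lit 5261609468) (nat_lit 228) (nat_lit 701144186) (nat_lit 202) (nat_lit 5) (nat_lit 204) (nat_lit 5) (nat_lit 205) (nat_lit 4) (nat_lit 404) (nat_lit 400) (nat_lit 396))) (XT.nd (nat_lit 78) (nat_lit 228) (nat_lit 0) (XT.lf (nat_lit 0) (nat_lit 2192145948) (nat_lit 228) (nat_lit 2389742132) (nat_lit 76) (nat_lit 1955077842) (nat_lit 201) (nat_lit 5) (nat_lit 204) (nat_lit 5) (nat_lit 202) (nat_lit 5) (nat_lit 405) (nat_lit 400) (nat_lit 395)) (XT.lf (nat_lit 0) (nat_lit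 1281018365) (nat_lit 228) (nat_lit 3772173720) (nat_lit 304) (nat_lit 1526361139) (nat_lit 198) (nat_lit 5) (nat_lit 201) (nat_lit 5) (nat_lit 202) (nat_lit 5) (nat_lit 406) (nat_lit 400) (nat_lit 394)))) (XT.nd (nat_lit 156) (nat_lit 456) (nat_lit 0) (XT.nd (nat_lit 78) (nat_lit 304) (nat_lit 0) (XT.lf (nat_lit 0) (nat_lit 1258727350) (nat_lit 304) (nat_lit 1541274206) (nat_lit 76) (nat_lit 3829611586) (nat_lit 197) (nat_lit 5) (nat_lit 201) (nat_lit 5) (nat_lit 198) (nat_lit 5) (nat_lit 407) (nat_lit 400) (nat_lit 393)) (XT.lf (nat_lit 0) (nat_lit 2345050779) (nat_lit 304) (nat_lit 1661848382) (nat_lit 380) (nat_lit 2680308157) (nat_lit 193) (nat_lit 5) (nat_lit 197) (nat_lit 5) (nat_lit 198) (nat_lit 5) (nat_lit 408) (nat_lit 400) (nat_lit 392))) (XT.nd (nat_lit 78) (nat_lit 380) (nat_lit 0) (XT.lf (nat_lit 0) (nat_lit 8639715) (nat_lit 380) (nat_lit 382201432) (nat_lit 76) (nat_lit 6363338248)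 (nat_lit 192) (nat_lit 5) (nat_lit 197) (nat_lit 5) (nat_lit 193) (nat_lit 5) (nat_lit 409) (nat_lit 400) (nat_lit 391)) (XT.lf (nat_lit 0) (nat_lit 2666988602) (nat_lit 456) (nat_lit 3099356079) (nat_lit 76) (nat_lit 1059740298) (nat_lit 187) (nat_lit 5) (nat_lit 193) (nat_lit 5) (nat_lit 188) (nat_lit 5) (nat_lit 410) (nat_lit 400) (nat_lit 390))))))) (XT.nd (nat_lit 1170) (nat_lit 2812) (nat_lit 0) (XT.nd (nat_lit 546) (nat_lit 2736) (nat_lit 0) (XT.nd (nat_lit 234) (nat_lit 1368) (nat_lit 0) (XT.nd (nat_lit 78) (nat_lit 608) (nat_lit 0) (XT.lf (nat_lit 0) (nat_lit 1067603741) (nat_lit 456) (nat_lit 4275922658) (nat_lit 532) (nat_lit 1563827632) (nat_lit 181) (nat_lit 5) (nat_lit 187) (nat_lit 5) (nat_lit 188) (nat_lit 5) (nat_lit 411) (nat_lit 400) (nat_lit 389)) (XT.nd (nat_lit 78) (nat_lit 532) (nat_lit 0) (XT.lf (nat_lit 0) (nat_lit 1035830435) (nat_lit 532) (nat_lit 1574587742) (nat_lit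 76) (nat_lit 4385801103) (nat_lit 180) (nat_lit 5) (nat_lit 187) (nat_lit 5) (nat_lit 181) (nat_lit 5) (nat_lit 412) (nat_lit 400) (nat_lit 388)) (XT.lf (nat_lit 0) (nat_lit 2859184635) (nat_lit 532) (nat_lit 763554758) (nat_lit 608) (nat_lit 3470042870) (nat_lit 173) (nat_lit 5) (nat_lit 180) (nat_lit 5) (nat_lit 181) (nat_lit 5) (nat_lit 413) (nat_lit 400) (nat_lit 387)))) (XT.nd (nat_lit 156) (nat_lit 684) (nat_lit 0) (XT.nd (nat_lit 78) (nat_lit 76) (nat_lit 0) (XT.lf (nat_lit 0) (nat_lit 250078195) (nat_lit 608) (nat_lit 6008517273) (nat_lit 684) (nat_lit 939623975) (nat_lit 165) (nat_lit 5) (nat_lit 173) (nat_lit 5) (nat_lit 174) (nat_lit 5) (nat_lit 414) (nat_lit 400) (nat_lit 386)) (XT.lf (nat_lit 0) (nat_lit 1620304359) (nat_lit 684) (nat_lit 2358907543) (nat_lit 76) (nat_lit 3330502011) (nat_lit 164) (nat_lit 5) (nat_lit 173) (nat_lit 5) (nat_lit 165) (nat_lit 5) (nat_lit 415) (nat_lit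 400) (nat_lit 385))) (XT.nd (nat_lit 78) (nat_lit 0) (nat_lit 0) (XT.lf (nat_lit 0) (nat_lit 2409131486) (nat_lit 684) (nat_lit 1783764474) (nat_lit 760) (nat_lit 3237327319) (nat_lit 155) (nat_lit 5) (nat_lit 164) (nat_lit 5) (nat_lit 165) (nat_lit 5) (nat_lit 416) (nat_lit 400) (nat_lit 384)) (XT.lf (nat_lit 0) (nat_lit 6825652924) (nat_lit 760) (nat_lit 182629143) (nat_lit 76) (nat_lit 551920756) (nat_lit 155) (nat_lit 5) (nat_lit 165) (nat_lit 5) (nat_lit 156) (nat_lit 5) (nat_lit 417) (nat_lit 400) (nat_lit 383))))) (XT.nd (nat_lit 312) (nat_lit 1064) (nat_lit 0) (XT.nd (nat_lit 156) (nat_lit 456) (nat_lit 0) (XT.nd (nat_lit 78) (nat_lit 380) (nat_lit 0) (XT.lf (nat_lit 0) (nat_lit 1827002331) (nat_lit 836) (nat_lit 2811623452) (nat_lit 76) (nat_lit 3056885248) (nat_lit 144) (nat_lit 5) (nat_lit 155) (nat_lit 5) (nat_lit 145) (nat_lit 5) (nat_lit 418) (nat_lit 400) (nat_lit 382)) (XT.lf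 (nat_lit 0) (nat_lit 2322016960) (nat_lit 380) (nat_lit 2099519049) (nat_lit 456) (nat_lit 3418985647) (nat_lit 139) (nat_lit 5) (nat_lit 144) (nat_lit 5) (nat_lit 145) (nat_lit 5) (nat_lit 419) (nat_lit 400) (nat_lit 381))) (XT.nd (nat_lit 78) (nat_lit 456) (nat_lit 0) (XT.lf (nat_lit 0) (nat_lit 7096652977) (nat_lit 456) (nat_lit 306364943) (nat_lit 76) (nat_lit 592239749) (nat_lit 139) (nat_lit 5) (nat_lit 145) (nat_lit 5) (nat_lit 140) (nat_lit 5) (nat_lit 420) (nat_lit 400) (nat_lit 380)) (XT.lf (nat_lit 0) (nat_lit 1706155644) (nat_lit 456) (nat_lit 2997326317) (nat_lit 76) (nat_lit 3452185129) (nat_lit 133) (nat_lit 5) (nat_lit 139) (nat_lit 5) (nat_lit 134) (nat_lit 5) (nat_lit 421) (nat_lit 400) (nat_lit 379)))) (XT.nd (nat_lit 156) (nat_lit 684) (nat_lit 0) (XT.nd (nat_lit 78) (nat_lit 0) (nat_lit 0) (XT.lf (nat_lit 0) (nat_lit 2537188578) (nat_lit 380) (nat_lit 1818831170) (nat_lit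 456) (nat_lit 3970102717) (nat_lit 128) (nat_lit 5) (nat_lit 133) (nat_lit 5) (nat_lit 134) (nat_lit 5) (nat_lit 422) (nat_lit 400) (nat_lit 378)) (XT.lf (nat_lit 0) (nat_lit 7111856419) (nat_lit 456) (nat_lit 184908563) (nat_lit 76) (nat_lit 1209676208) (nat_lit 128) (nat_lit 5) (nat_lit 134) (nat_lit 5) (nat_lit 129) (nat_lit 5) (nat_lit 423) (nat_lit 400) (nat_lit 377))) (XT.nd (nat_lit 78) (nat_lit 304) (nat_lit 0) (XT.lf (nat_lit 0) (nat_lit 1295326466) (nat_lit 380) (nat_lit 2971620921) (nat_lit 76) (nat_lit 4426442439) (nat_lit 123) (nat_lit 5) (nat_lit 128) (nat_lit 5) (nat_lit 124) (nat_lit 5) (nat_lit 424) (nat_lit 400) (nat_lit 376)) (XT.lf (nat_lit 0) (nat_lit 3002983358) (nat_lit 304) (nat_lit 1028796188) (nat_lit 380) (nat_lit 4858830141) (nat_lit 119) (nat_lit 5) (nat_lit 123) (nat_lit 5) (nat_lit 124) (nat_lit 5) (nat_lit 425) (nat_lit 400) (nat_lit 375)))))) (XT.nd (nat_lit 624)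 (nat_lit 1368) (nat_lit 0) (XT.nd (nat_lit 312) (nat_lit 532) (nat_lit 0) (XT.nd (nat_lit 156) (nat_lit 532) (nat_lit 0) (XT.nd (nat_lit 78) (nat_lit 76) (nat_lit 0) (XT.lf (nat_lit 0) (nat_lit 137654324) (nat_lit 304) (nat_lit 6768884653) (nat_lit 380) (nat_lit 2191089351) (nat_lit 115) (nat_lit 5) (nat_lit 119) (nat_lit 5) (nat_lit 120) (nat_lit 5) (nat_lit 426) (nat_lit 400) (nat_lit 374)) (XT.lf (nat_lit 0) (nat_lit 620949685) (nat_lit 380) (nat_lit 2783735780) (nat_lit 76) (nat_lit 5908325262) (nat_lit 114) (nat_lit 5) (nat_lit 119) (nat_lit 5) (nat_lit 115) (nat_lit 5) (nat_lit 427) (nat_lit 400) (nat_lit 373))) (XT.nd (nat_lit 78) (nat_lit 228) (nat_lit 0) (XT.lf (nat_lit 0) (nat_lit 3476854095) (nat_lit 380) (nat_lit 5867687021) (nat_lit 76) (nat_lit 193990577) (nat_lit 110) (nat_lit 5) (nat_lit 115) (nat_lit 5) (nat_lit 111) (nat_lit 5) (nat_lit 428) (nat_lit 400) (nat_lit 372)) (XT.lf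 (nat_lit 0) (nat_lit 624451455) (nat_lit 228) (nat_lit 5882894399) (nat_lit 304) (nat_lit 3266403095) (nat_lit 107) (nat_lit 5) (nat_lit 110) (nat_lit 5) (nat_lit 111) (nat_lit 5) (nat_lit 429) (nat_lit 400) (nat_lit 371)))) (XT.nd (nat_lit 156) (nat_lit 228) (nat_lit 0) (XT.nd (nat_lit 78) (nat_lit 304) (nat_lit 0) (XT.lf (nat_lit 0) (nat_lit 7535921217) (nat_lit 228) (nat_lit 2173312834) (nat_lit 304) (nat_lit 310508806) (nat_lit 107) (nat_lit 5) (nat_lit 110) (nat_lit 5) (nat_lit 111) (nat_lit 5) (nat_lit 430) (nat_lit 400) (nat_lit 370)) (XT.lf (nat_lit 0) (nat_lit 2725510803) (nat_lit 304) (nat_lit 5795191829) (nat_lit 76) (nat_lit 1754075375) (nat_lit 103) (nat_lit 5) (nat_lit 107) (nat_lit 5) (nat_lit 104) (nat_lit 5) (nat_lit 431) (nat_lit 400) (nat_lit 369))) (XT.nd (nat_lit 78) (nat_lit 0) (nat_lit 0) (XT.lf (nat_lit 0) (nat_lit 1226867323) (nat_lit 228) (nat_lit 4698169299) (nat_lit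 304) (nat_lit 4616174865) (nat_lit 100) (nat_lit 5) (nat_lit 103) (nat_lit 5) (nat_lit 104) (nat_lit 5) (nat_lit 432) (nat_lit 400) (nat_lit 368)) (XT.lf (nat_lit 0) (nat_lit 8695038666) (nat_lit 228) (nat_lit 614180034) (nat_lit 304) (nat_lit 1510521656) (nat_lit 100) (nat_lit 5) (nat_lit 103) (nat_lit 5) (nat_lit 104) (nat_lit 5) (nat_lit 433) (nat_lit 400) (nat_lit 367))))) (XT.nd (nat_lit 312) (nat_lit 608) (nat_lit 0) (XT.nd (nat_lit 156) (nat_lit 304) (nat_lit 0) (XT.nd (nat_lit 78) (nat_lit 152) (nat_lit 0) (XT.lf (nat_lit 0) (nat_lit 1767354459) (nat_lit 304) (nat_lit 5700191360) (nat_lit 76) (nat_lit 3639642185) (nat_lit 96) (nat_lit 5) (nat_lit 100) (nat_lit 5) (nat_lit 97) (nat_lit 5) (nat_lit 434) (nat_lit 400) (nat_lit 366)) (XT.lf (nat_lit 0) (nat_lit 1902522308) (nat_lit 152) (nat_lit 3262353027) (nat_lit 228) (nat_lit 6242575514) (nat_lit 94) (nat_lit 5) (nat_lit 96) (nat_lit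 5) (nat_lit 97) (nat_lit 5) (nat_lit 435) (nat_lit 400) (nat_lit 365))) (XT.nd (nat_lit 78) (nat_lit 304) (nat_lit 0) (XT.lf (nat_lit 0) (nat_lit 8779732368) (nat_lit 228) (nat_lit 1760177244) (nat_lit 76) (nat_lit 1180450567) (nat_lit 94) (nat_lit 5) (nat_lit 97) (nat_lit 5) (nat_lit 95) (nat_lit 5) (nat_lit 436) (nat_lit 400) (nat_lit 364)) (XT.lf (nat_lit 0) (nat_lit 599382093) (nat_lit 304) (nat_lit 5631178893) (nat_lit 76) (nat_lit 5813458133) (nat_lit 90) (nat_lit 5) (nat_lit 94) (nat_lit 5) (nat_lit 91) (nat_lit 5) (nat_lit 437) (nat_lit 400) (nat_lit 363)))) (XT.nd (nat_lit 156) (nat_lit 456) (nat_lit 0) (XT.nd (nat_lit 78) (nat_lit 0) (nat_lit 0) (XT.lf (nat_lit 0) (nat_lit 2606539022) (nat_lit 152) (nat_lit 1617142922) (nat_lit 228) (nat_lit 8157468504) (nat_lit 88) (nat_lit 5) (nat_lit 90) (nat_lit 5) (nat_lit 91) (nat_lit 5) (nat_lit 438) (nat_lit 400) (nat_lit 362)) (XT.lf (nat_lit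 0) (nat_lit 8112591078) (nat_lit 228) (nat_lit 1433076042) (nat_lit 76) (nat_lit 3185306732) (nat_lit 88) (nat_lit 5) (nat_lit 91) (nat_lit 5) (nat_lit 89) (nat_lit 5) (nat_lit 439) (nat_lit 400) (nat_lit 361))) (XT.nd (nat_lit 78) (nat_lit 228) (nat_lit 0) (XT.lf (nat_lit 0) (nat_lit 7439610399) (nat_lit 228) (nat_lit 4838125157) (nat_lit 304) (nat_lit 816468351) (nat_lit 85) (nat_lit 5) (nat_lit 88) (nat_lit 5) (nat_lit 89) (nat_lit 5) (nat_lit 440) (nat_lit 400) (nat_lit 360)) (XT.lf (nat_lit 0) (nat_lit 3092573588) (nat_lit 228) (nat_lit 10186830096) (nat_lit 76) (nat_lit 192783888) (nat_lit 82) (nat_lit 5) (nat_lit 85) (nat_lit 5) (nat_lit 83) (nat_lit 5) (nat_lit 441) (nat_lit 400) (nat_lit 359))))))))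
noncomputable def xc94 : XT := (XT.nd (nat_lit 2418) (nat_lit 1824) (nat_lit 0) (XT.nd (nat_lit 1170) (nat_lit 1292) (nat_lit 0) (XT.nd (nat_lit 546) (nat_lit 836) (nat_lit 0) (XT.nd (nat_lit 234) (nat_lit 380) (nat_lit 0) (XT.nd (nat_lit 78) (nat_lit 380) (nat_lit 0) (XT.lf (nat_lit 0) (nat_lit 7286614444) (nat_lit 228) (nat_lit 1188685018) (nat_lit 76) (nat_lit 5387256745) (nat_lit 82) (nat_lit 5) (nat_lit 85) (nat_lit 5) (nat_lit 83) (nat_lit 5) (nat_lit 442) (nat_lit 400) (nat_lit 358)) (XT.nd (nat_lit 78) (nat_lit 228) (nat_lit 0) (XT.lf (nat_lit 0) (nat_lit 8435296778) (nat_lit 152) (nat_lit 3329939010) (nat_lit 228) (nat_lit 2503467655) (nat_lit 80) (nat_lit 5) (nat_lit 82) (nat_lit 5) (nat_lit 83) (nat_lit 5) (nat_lit 443) (nat_lit 400) (nat_lit 357)) (XT.lf (nat_lit 0) (nat_lit 1774163795) (nat_lit 228) (nat_lit 10836419006) (nat_lit 76) (nat_lit 2080281722) (nat_lit 77) (nat_lit 5)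 (nat_lit 80) (nat_lit 5) (nat_lit 78) (nat_lit 5) (nat_lit 444) (nat_lit 400) (nat_lit 356)))) (XT.nd (nat_lit 156) (nat_lit 228) (nat_lit 0) (XT.nd (nat_lit 78) (nat_lit 152) (nat_lit 0) (XT.lf (nat_lit 0) (nat_lit 6280721613) (nat_lit 228) (nat_lit 1092291707) (nat_lit 76) (nat_lit 7754112964) (nat_lit 77) (nat_lit 5) (nat_lit 80) (nat_lit 5) (nat_lit 78) (nat_lit 5) (nat_lit 445) (nat_lit 400) (nat_lit 355)) (XT.lf (nat_lit 0) (nat_lit 9347691713) (nat_lit 152) (nat_lit 1757694949) (nat_lit 228) (nat_lit 4475178869) (nat_lit 75) (nat_lit 5) (nat_lit 77) (nat_lit 5) (nat_lit 78) (nat_lit 5) (nat_lit 446) (nat_lit 400) (nat_lit 354))) (XT.nd (nat_lit 78) (nat_lit 0) (nat_lit 0) (XT.lf (nat_lit 0) (nat_lit 210054257) (nat_lit 228) (nat_lit 11782613952) (nat_lit 76) (nat_lit 4058966408) (nat_lit 72) (nat_lit 5) (nat_lit 75) (nat_lit 5) (nat_lit 73) (nat_lit 5) (nat_lit 447) (nat_lit 400) (nat_lit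 353)) (XT.lf (nat_lit 0) (nat_lit 5062911964) (nat_lit 228) (nat_lit 1223851523) (nat_lit 76) (nat_lit 10251640485) (nat_lit 72) (nat_lit 5) (nat_lit 75) (nat_lit 5) (nat_lit 73) (nat_lit 5) (nat_lit 448) (nat_lit 400) (nat_lit 352))))) (XT.nd (nat_lit 312) (nat_lit 380) (nat_lit 0) (XT.nd (nat_lit 156) (nat_lit 228) (nat_lit 0) (XT.nd (nat_lit 78) (nat_lit 76) (nat_lit 0) (XT.lf (nat_lit 0) (nat_lit 10099068299) (nat_lit 152) (nat_lit 167168004) (nat_lit 228) (nat_lit 6777887076) (nat_lit 70) (nat_lit 5) (nat_lit 72) (nat_lit 5) (nat_lit 73) (nat_lit 5) (nat_lit 449) (nat_lit 400) (nat_lit 351)) (XT.lf (nat_lit 0) (nat_lit 4412219198) (nat_lit 76) (nat_lit 11455784063) (nat_lit 152) (nat_lit 1700214311) (nat_lit 69) (nat_lit 5) (nat_lit 70) (nat_lit 5) (nat_lit 71) (nat_lit 4) (nat_lit 450) (nat_lit 400) (nat_lit 350))) (XT.nd (nat_lit 78) (nat_lit 152) (nat_lit 0) (XT.lf (nat_lit 0) (nat_lit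 3588227182) (nat_lit 152) (nat_lit 1683222577) (nat_lit 76) (nat_lit 12840578803) (nat_lit 68) (nat_lit 5) (nat_lit 70) (nat_lit 5) (nat_lit 69) (nat_lit 5) (nat_lit 451) (nat_lit 400) (nat_lit 349)) (XT.lf (nat_lit 0) (nat_lit 9224145176) (nat_lit 228) (nat_lit 8106618451) (nat_lit 76) (nat_lit 1343865494) (nat_lit 66) (nat_lit 5) (nat_lit 69) (nat_lit 5) (nat_lit 67) (nat_lit 4) (nat_lit 452) (nat_lit 400) (nat_lit 348)))) (XT.nd (nat_lit 156) (nat_lit 228) (nat_lit 0) (XT.nd (nat_lit 78) (nat_lit 76) (nat_lit 0) (XT.lf (nat_lit 0) (nat_lit 4189614578) (nat_lit 76) (nat_lit 11086593455) (nat_lit 152) (nat_lit 3982436400) (nat_lit 65) (nat_lit 5) (nat_lit 66) (nat_lit 5) (nat_lit 67) (nat_lit 4) (nat_lit 453) (nat_lit 400) (nat_lit 347)) (XT.lf (nat_lit 0) (nat_lit 1795975710) (nat_lit 152) (nat_lit 2596689524) (nat_lit 76) (nat_lit 15473161006) (nat_lit 64) (nat_lit 5) (nat_lit 66) (nat_lit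 5) (nat_lit 65) (nat_lit 5) (nat_lit 454) (nat_lit 400) (nat_lit 346))) (XT.nd (nat_lit 78) (nat_lit 76) (nat_lit 0) (XT.lf (nat_lit 0) (nat_lit 7896796618) (nat_lit 228) (nat_lit 9842108818) (nat_lit 76) (nat_lit 2752833076) (nat_lit 62) (nat_lit 5) (nat_lit 65) (nat_lit 5) (nat_lit 63) (nat_lit 4) (nat_lit 455) (nat_lit 400) (nat_lit 345)) (XT.lf (nat_lit 0) (nat_lit 3459261098) (nat_lit 76) (nat_lit 10970352645) (nat_lit 152) (nat_lit 6712986683) (nat_lit 61) (nat_lit 5) (nat_lit 62) (nat_lit 5) (nat_lit 63) (nat_lit 4) (nat_lit 456) (nat_lit 400) (nat_lit 344)))))) (XT.nd (nat_lit 624) (nat_lit 532) (nat_lit 0) (XT.nd (nat_lit 312) (nat_lit 456) (nat_lit 0) (XT.nd (nat_lit 156) (nat_lit 76) (nat_lit 0) (XT.nd (nat_lit 78) (nat_lit 228) (nat_lit 0) (XT.lf (nat_lit 0) (nat_lit 17688298458) (nat_lit 76) (nat_lit 3724541495) (nat_lit 152) (nat_lit 406978770) (nat_lit 61) (nat_lit 5) (nat_lit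 62) (nat_lit 5) (nat_lit 63) (nat_lit 4) (nat_lit 457) (nat_lit 400) (nat_lit 343)) (XT.lf (nat_lit 0) (nat_lit 6198257392) (nat_lit 228) (nat_lit 12332121998) (nat_lit 76) (nat_lit 3986527674) (nat_lit 58) (nat_lit 5) (nat_lit 61) (nat_lit 5) (nat_lit 59) (nat_lit 4) (nat_lit 458) (nat_lit 400) (nat_lit 342))) (XT.nd (nat_lit 78) (nat_lit 0) (nat_lit 0) (XT.lf (nat_lit 0) (nat_lit 2034258941) (nat_lit 76) (nat_lit 11208471067) (nat_lit 152) (nat_lit 9999655102) (nat_lit 57) (nat_lit 5) (nat_lit 58) (nat_lit 5) (nat_lit 59) (nat_lit 4) (nat_lit 459) (nat_lit 400) (nat_lit 341)) (XT.lf (nat_lit 0) (nat_lit 17471379184) (nat_lit 76) (nat_lit 3336398062) (nat_lit 152) (nat_lit 3187943662) (nat_lit 57) (nat_lit 5) (nat_lit 58) (nat_lit 5) (nat_lit 59) (nat_lit 4) (nat_lit 460) (nat_lit 400) (nat_lit 340)))) (XT.nd (nat_lit 156) (nat_lit 228) (nat_lit 0) (XT.nd (nat_lit 78) (nat_lit 0) (nat_lit 0)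 (XT.lf (nat_lit 0) (nat_lit 4019284224) (nat_lit 228) (nat_lit 15810371171) (nat_lit 76) (nat_lit 4944883890) (nat_lit 54) (nat_lit 5) (nat_lit 57) (nat_lit 5) (nat_lit 55) (nat_lit 4) (nat_lit 461) (nat_lit 400) (nat_lit 339)) (XT.lf (nat_lit 0) (nat_lit 11607744456) (nat_lit 228) (nat_lit 315555906) (nat_lit 76) (nat_lit 13659986020) (nat_lit 54) (nat_lit 5) (nat_lit 57) (nat_lit 5) (nat_lit 55) (nat_lit 4) (nat_lit 462) (nat_lit 400) (nat_lit 338))) (XT.nd (nat_lit 78) (nat_lit 152) (nat_lit 0) (XT.lf (nat_lit 0) (nat_lit 16409070916) (nat_lit 76) (nat_lit 3385612622) (nat_lit 152) (nat_lit 6626835656) (nat_lit 53) (nat_lit 5) (nat_lit 54) (nat_lit 5) (nat_lit 55) (nat_lit 4) (nat_lit 463) (nat_lit 400) (nat_lit 337)) (XT.lf (nat_lit 0) (nat_lit 1217851580) (nat_lit 152) (nat_lit 20575631153) (nat_lit 76) (nat_lit 5499161088) (nat_lit 51) (nat_lit 5) (nat_lit 53) (nat_lit 5) (nat_lit 52) (nat_lit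 4) (nat_lit 464) (nat_lit 400) (nat_lit 336))))) (XT.nd (nat_lit 312) (nat_lit 304) (nat_lit 0) (XT.nd (nat_lit 156) (nat_lit 152) (nat_lit 0) (XT.nd (nat_lit 78) (nat_lit 76) (nat_lit 0) (XT.lf (nat_lit 0) (nat_lit 9423046685) (nat_lit 152) (nat_lit 3805600600) (nat_lit 76) (nat_lit 14963697626) (nat_lit 51) (nat_lit 5) (nat_lit 53) (nat_lit 5) (nat_lit 52) (nat_lit 4) (nat_lit 465) (nat_lit 400) (nat_lit 335)) (XT.lf (nat_lit 0) (nat_lit 14190061889) (nat_lit 76) (nat_lit 4034873309) (nat_lit 152) (nat_lit 10902775120) (nat_lit 50) (nat_lit 5) (nat_lit 51) (nat_lit 5) (nat_lit 52) (nat_lit 4) (nat_lit 466) (nat_lit 400) (nat_lit 334))) (XT.nd (nat_lit 78) (nat_lit 76) (nat_lit 0) (XT.lf (nat_lit 0) (nat_lit 3052744545) (nat_lit 76) (nat_lit 24580101301) (nat_lit 76) (nat_lit 2468702666) (nat_lit 49) (nat_lit 4) (nat_lit 50) (nat_lit 5) (nat_lit 50) (nat_lit 4) (nat_lit 467) (nat_lit 400) (nat_lit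 333)) (XT.lf (nat_lit 0) (nat_lit 6471022869) (nat_lit 152) (nat_lit 8887446466) (nat_lit 76) (nat_lit 15746205309) (nat_lit 48) (nat_lit 5) (nat_lit 50) (nat_lit 5) (nat_lit 49) (nat_lit 4) (nat_lit 468) (nat_lit 400) (nat_lit 332)))) (XT.nd (nat_lit 156) (nat_lit 228) (nat_lit 0) (XT.nd (nat_lit 78) (nat_lit 0) (nat_lit 0) (XT.lf (nat_lit 0) (nat_lit 10410654796) (nat_lit 76) (nat_lit 5493423144) (nat_lit 152) (nat_lit 16245391001) (nat_lit 47) (nat_lit 5) (nat_lit 48) (nat_lit 5) (nat_lit 49) (nat_lit 4) (nat_lit 469) (nat_lit 400) (nat_lit 331)) (XT.lf (nat_lit 0) (nat_lit 26004613017) (nat_lit 152) (nat_lit 2399370075) (nat_lit 0) (nat_lit 4832729240) (nat_lit 47) (nat_lit 5) (nat_lit 49) (nat_lit 4) (nat_lit 47) (nat_lit 4) (nat_lit 470) (nat_lit 400) (nat_lit 330))) (XT.nd (nat_lit 78) (nat_lit 76) (nat_lit 0) (XT.lf (nat_lit 0) (nat_lit 2510986996) (nat_lit 152) (nat_lit 16058621644)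 (nat_lit 76) (nat_lit 15789439480) (nat_lit 45) (nat_lit 5) (nat_lit 47) (nat_lit 5) (nat_lit 46) (nat_lit 4) (nat_lit 471) (nat_lit 400) (nat_lit 329)) (XT.lf (nat_lit 0) (nat_lit 4548207186) (nat_lit 76) (nat_lit 8030808372) (nat_lit 152) (nat_lit 22948516133) (nat_lit 44) (nat_lit 5) (nat_lit 45) (nat_lit 5) (nat_lit 46) (nat_lit 4) (nat_lit 472) (nat_lit 400) (nat_lit 328))))))) (XT.nd (nat_lit 1170) (nat_lit 912) (nat_lit 0) (XT.nd (nat_lit 546) (nat_lit 456) (nat_lit 0) (XT.nd (nat_lit 234) (nat_lit 304) (nat_lit 0) (XT.nd (nat_lit 78) (nat_lit 152) (nat_lit 0) (XT.lf (nat_lit 0) (nat_lit 23442873192) (nat_lit 152) (nat_lit 10111072894) (nat_lit 0) (nat_lit 3185872584) (nat_lit 44) (nat_lit 5) (nat_lit 46) (nat_lit 4) (nat_lit 44) (nat_lit 4) (nat_lit 473) (nat_lit 400) (nat_lit 327)) (XT.nd (nat_lit 78) (nat_lit 76) (nat_lit 0) (XT.lf (nat_lit 0) (nat_lit 11994469136) (nat_lit 76) (nat_lit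 23144493445) (nat_lit 76) (nat_lit 2859306055) (nat_lit 43) (nat_lit 4) (nat_lit 44) (nat_lit 5) (nat_lit 44) (nat_lit 4) (nat_lit 474) (nat_lit 400) (nat_lit 326)) (XT.lf (nat_lit 0) (nat_lit 7985164484) (nat_lit 152) (nat_lit 3942444751) (nat_lit 76) (nat_lit 27378498708) (nat_lit 42) (nat_lit 5) (nat_lit 44) (nat_lit 5) (nat_lit 43) (nat_lit 4) (nat_lit 475) (nat_lit 400) (nat_lit 325)))) (XT.nd (nat_lit 156) (nat_lit 152) (nat_lit 0) (XT.nd (nat_lit 78) (nat_lit 76) (nat_lit 0) (XT.lf (nat_lit 0) (nat_lit 19558788885) (nat_lit 152) (nat_lit 20914408296) (nat_lit 0) (nat_lit 189647754) (nat_lit 41) (nat_lit 5) (nat_lit 43) (nat_lit 4) (nat_lit 41) (nat_lit 4) (nat_lit 476) (nat_lit 400) (nat_lit 324)) (XT.lf (nat_lit 0) (nat_lit 2504472183) (nat_lit 76) (nat_lit 29480784709) (nat_lit 76) (nat_lit 10088454244) (nat_lit 40) (nat_lit 4) (nat_lit 41) (nat_lit 5) (nat_lit 41) (nat_lit 4) (nat_lit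 477) (nat_lit 400) (nat_lit 323))) (XT.nd (nat_lit 78) (nat_lit 76) (nat_lit 0) (XT.lf (nat_lit 0) (nat_lit 1762327736) (nat_lit 152) (nat_lit 15801643686) (nat_lit 76) (nat_lit 25973410779) (nat_lit 39) (nat_lit 5) (nat_lit 41) (nat_lit 5) (nat_lit 40) (nat_lit 4) (nat_lit 478) (nat_lit 400) (nat_lit 322)) (XT.lf (nat_lit 0) (nat_lit 9231311753) (nat_lit 76) (nat_lit 4752473959) (nat_lit 152) (nat_lit 31076323541) (nat_lit 38) (nat_lit 5) (nat_lit 39) (nat_lit 5) (nat_lit 40) (nat_lit 4) (nat_lit 479) (nat_lit 400) (nat_lit 321))))) (XT.nd (nat_lit 312) (nat_lit 228) (nat_lit 0) (XT.nd (nat_lit 156) (nat_lit 152) (nat_lit 0) (XT.nd (nat_lit 78) (nat_lit 76) (nat_lit 0) (XT.lf (nat_lit 0) (nat_lit 27197251386) (nat_lit 152) (nat_lit 10774452849) (nat_lit 0) (nat_lit 8668222074) (nat_lit 38) (nat_lit 5) (nat_lit 40) (nat_lit 4) (nat_lit 38) (nat_lit 4) (nat_lit 480) (nat_lit 400) (nat_lit 320))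 (XT.lf (nat_lit 0) (nat_lit 15913398389) (nat_lit 76) (nat_lit 25458748569) (nat_lit 76) (nat_lit 6911549806) (nat_lit 37) (nat_lit 4) (nat_lit 38) (nat_lit 5) (nat_lit 38) (nat_lit 4) (nat_lit 481) (nat_lit 400) (nat_lit 319))) (XT.nd (nat_lit 78) (nat_lit 76) (nat_lit 0) (XT.lf (nat_lit 0) (nat_lit 6206101427) (nat_lit 152) (nat_lit 5841995075) (nat_lit 76) (nat_lit 37948689343) (nat_lit 36) (nat_lit 5) (nat_lit 38) (nat_lit 5) (nat_lit 37) (nat_lit 4) (nat_lit 482) (nat_lit 400) (nat_lit 318)) (XT.lf (nat_lit 0) (nat_lit 20114445600) (nat_lit 152) (nat_lit 29238793618) (nat_lit 0) (nat_lit 2418271095) (nat_lit 35) (nat_lit 5) (nat_lit 37) (nat_lit 4) (nat_lit 35) (nat_lit 4) (nat_lit 483) (nat_lit 400) (nat_lit 317)))) (XT.nd (nat_lit 156) (nat_lit 152) (nat_lit 0) (XT.nd (nat_lit 78) (nat_lit 76) (nat_lit 0) (XT.lf (nat_lit 0) (nat_lit 34991968311) (nat_lit 152) (nat_lit 1348469180) (nat_lit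 0) (nat_lit 17280845753) (nat_lit 35) (nat_lit 5) (nat_lit 37) (nat_lit 4) (nat_lit 35) (nat_lit 4) (nat_lit 484) (nat_lit 400) (nat_lit 316)) (XT.lf (nat_lit 0) (nat_lit 28812554826) (nat_lit 76) (nat_lit 22227507173) (nat_lit 76) (nat_lit 4502148375) (nat_lit 34) (nat_lit 4) (nat_lit 35) (nat_lit 5) (nat_lit 35) (nat_lit 4) (nat_lit 485) (nat_lit 400) (nat_lit 315))) (XT.nd (nat_lit 78) (nat_lit 0) (nat_lit 0) (XT.lf (nat_lit 0) (nat_lit 2854053856) (nat_lit 76) (nat_lit 7191297840) (nat_lit 152) (nat_lit 47503535155) (nat_lit 32) (nat_lit 5) (nat_lit 33) (nat_lit 5) (nat_lit 34) (nat_lit 4) (nat_lit 486) (nat_lit 400) (nat_lit 314)) (XT.lf (nat_lit 0) (nat_lit 25740159598) (nat_lit 152) (nat_lit 25049830781) (nat_lit 0) (nat_lit 8833655015) (nat_lit 32) (nat_lit 5) (nat_lit 34) (nat_lit 4) (nat_lit 32) (nat_lit 4) (nat_lit 487) (nat_lit 400) (nat_lit 313)))))) (XT.nd (nat_lit 624) (nat_lit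 456) (nat_lit 0) (XT.nd (nat_lit 312) (nat_lit 228) (nat_lit 0) (XT.nd (nat_lit 156) (nat_lit 152) (nat_lit 0) (XT.nd (nat_lit 78) (nat_lit 0) (nat_lit 0) (XT.lf (nat_lit 0) (nat_lit 6111259391) (nat_lit 76) (nat_lit 36299766787) (nat_lit 76) (nat_lit 19381550014) (nat_lit 31) (nat_lit 4) (nat_lit 32) (nat_lit 5) (nat_lit 32) (nat_lit 4) (nat_lit 488) (nat_lit 400) (nat_lit 312)) (XT.lf (nat_lit 0) (nat_lit 39656914731) (nat_lit 76) (nat_lit 20661139676) (nat_lit 76) (nat_lit 3731768436) (nat_lit 31) (nat_lit 4) (nat_lit 32) (nat_lit 5) (nat_lit 32) (nat_lit 4) (nat_lit 489) (nat_lit 400) (nat_lit 311))) (XT.nd (nat_lit 78) (nat_lit 0) (nat_lit 0) (XT.lf (nat_lit 0) (nat_lit 8491615834) (nat_lit 76) (nat_lit 3914047763) (nat_lit 152) (nat_lit 53998771078) (nat_lit 29) (nat_lit 5) (nat_lit 30) (nat_lit 5) (nat_lit 31) (nat_lit 4) (nat_lit 490) (nat_lit 400) (nat_lit 310)) (XT.lf (nat_lit 0) (nat_lit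 29836978541) (nat_lit 152) (nat_lit 25312104012) (nat_lit 0) (nat_lit 13694014758) (nat_lit 29) (nat_lit 5) (nat_lit 31) (nat_lit 4) (nat_lit 29) (nat_lit 4) (nat_lit 491) (nat_lit 400) (nat_lit 309)))) (XT.nd (nat_lit 156) (nat_lit 152) (nat_lit 0) (XT.nd (nat_lit 78) (nat_lit 0) (nat_lit 0) (XT.lf (nat_lit 0) (nat_lit 9106092849) (nat_lit 76) (nat_lit 39220209429) (nat_lit 76) (nat_lit 23068068839) (nat_lit 28) (nat_lit 4) (nat_lit 29) (nat_lit 5) (nat_lit 29) (nat_lit 4) (nat_lit 492) (nat_lit 400) (nat_lit 308)) (XT.lf (nat_lit 0) (nat_lit 46084780414) (nat_lit 76) (nat_lit 22064426524) (nat_lit 76) (nat_lit 5903546118) (nat_lit 28) (nat_lit 4) (nat_lit 29) (nat_lit 5) (nat_lit 29) (nat_lit 4) (nat_lit 493) (nat_lit 400) (nat_lit 307))) (XT.nd (nat_lit 78) (nat_lit 0) (nat_lit 0) (XT.lf (nat_lit 0) (nat_lit 8100440425) (nat_lit 76) (nat_lit 3738410533) (nat_lit 152) (nat_lit 64990365641)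 (nat_lit 26) (nat_lit 5) (nat_lit 27) (nat_lit 5) (nat_lit 28) (nat_lit 4) (nat_lit 494) (nat_lit 400) (nat_lit 306)) (XT.lf (nat_lit 0) (nat_lit 30974539203) (nat_lit 152) (nat_lit 33162149367) (nat_lit 0) (nat_lit 15567747476) (nat_lit 26) (nat_lit 5) (nat_lit 28) (nat_lit 4) (nat_lit 26) (nat_lit 4) (nat_lit 495) (nat_lit 400) (nat_lit 305))))) (XT.nd (nat_lit 312) (nat_lit 228) (nat_lit 0) (XT.nd (nat_lit 156) (nat_lit 152) (nat_lit 0) (XT.nd (nat_lit 78) (nat_lit 0) (nat_lit 0) (XT.lf (nat_lit 0) (nat_lit 4220428220) (nat_lit 76) (nat_lit 46955755887) (nat_lit 76) (nat_lit 31541773892) (nat_lit 25) (nat_lit 4) (nat_lit 26) (nat_lit 5) (nat_lit 26) (nat_lit 4) (nat_lit 496) (nat_lit 400) (nat_lit 304)) (XT.lf (nat_lit 0) (nat_lit 44587857899) (nat_lit 76) (nat_lit 28343966259) (nat_lit 76) (nat_lit 12923136389) (nat_lit 25) (nat_lit 4) (nat_lit 26) (nat_lit 5) (nat_lit 26) (nat_lit 4) (nat_lit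 497) (nat_lit 400) (nat_lit 303))) (XT.nd (nat_lit 78) (nat_lit 76) (nat_lit 0) (XT.lf (nat_lit 0) (nat_lit 6397208117) (nat_lit 152) (nat_lit 2313075014) (nat_lit 76) (nat_lit 80434214241) (nat_lit 24) (nat_lit 5) (nat_lit 26) (nat_lit 5) (nat_lit 25) (nat_lit 4) (nat_lit 498) (nat_lit 400) (nat_lit 302)) (XT.lf (nat_lit 0) (nat_lit 27050623083) (nat_lit 152) (nat_lit 53145235808) (nat_lit 0) (nat_lit 12351991768) (nat_lit 23) (nat_lit 5) (nat_lit 25) (nat_lit 4) (nat_lit 23) (nat_lit 4) (nat_lit 499) (nat_lit 400) (nat_lit 301)))) (XT.nd (nat_lit 156) (nat_lit 152) (nat_lit 0) (XT.nd (nat_lit 78) (nat_lit 76) (nat_lit 0) (XT.lf (nat_lit 0) (nat_lit 48903013401) (nat_lit 152) (nat_lit 13011294772) (nat_lit 0) (nat_lit 34198748322) (nat_lit 23) (nat_lit 5) (nat_lit 25) (nat_lit 4) (nat_lit 23) (nat_lit 4) (nat_lit 500) (nat_lit 400) (nat_lit 300)) (XT.lf (nat_lit 0) (nat_lit 30060178608) (nat_lit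 76) (nat_lit 42241642402) (nat_lit 76) (nat_lit 27532011834) (nat_lit 22) (nat_lit 4) (nat_lit 23) (nat_lit 5) (nat_lit 23) (nat_lit 4) (nat_lit 501) (nat_lit 400) (nat_lit 299))) (XT.nd (nat_lit 78) (nat_lit 152) (nat_lit 0) (XT.lf (nat_lit 0) (nat_lit 75706174768) (nat_lit 76) (nat_lit 21369479814) (nat_lit 76) (nat_lit 6654739257) (nat_lit 22) (nat_lit 4) (nat_lit 23) (nat_lit 5) (nat_lit 23) (nat_lit 4) (nat_lit 502) (nat_lit 400) (nat_lit 298)) (XT.lf (nat_lit 0) (nat_lit 15030029022) (nat_lit 152) (nat_lit 91755868303) (nat_lit 0) (nat_lit 1011355485) (nat_lit 20) (nat_lit 5) (nat_lit 22) (nat_lit 4) (nat_lit 20) (nat_lit 4) (nat_lit 503) (nat_lit 400) (nat_lit 297))))))))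
noncomputable def xc95 : XT := (XT.nd (nat_lit 2418) (nat_lit 228) (nat_lit 0) (XT.nd (nat_lit 1170) (nat_lit 456) (nat_lit 0) (XT.nd (nat_lit 546) (nat_lit 304) (nat_lit 0) (XT.nd (nat_lit 234) (nat_lit 152) (nat_lit 0) (XT.nd (nat_lit 78) (nat_lit 76) (nat_lit 0) (XT.lf (nat_lit 0) (nat_lit 38393333035) (nat_lit 152) (nat_lit 49257524776) (nat_lit 0) (nat_lit 24370245296) (nat_lit 20) (nat_lit 5) (nat_lit 22) (nat_lit 4) (nat_lit 20) (nat_lit 4) (nat_lit 504) (nat_lit 400) (nat_lit 296)) (XT.nd (nat_lit 78) (nat_lit 76) (nat_lit 0) (XT.lf (nat_lit 0) (nat_lit 62910742015) (nat_lit 152) (nat_lit 4662656727) (nat_lit 0) (nat_lit 48883450275) (nat_lit 20) (nat_lit 5) (nat_lit 22) (nat_lit 4) (nat_lit 20) (nat_lit 4) (nat_lit 505) (nat_lit 400) (nat_lit 295)) (XT.lf (nat_lit 0) (nat_lit 43528084647) (nat_lit 76) (nat_lit 45792141487) (nat_lit 76) (nat_lit 31760845936) (nat_lit 19) (nat_lit 4) (nat_lit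 20) (nat_lit 5) (nat_lit 20) (nat_lit 4) (nat_lit 506) (nat_lit 400) (nat_lit 294)))) (XT.nd (nat_lit 156) (nat_lit 0) (nat_lit 0) (XT.nd (nat_lit 78) (nat_lit 152) (nat_lit 0) (XT.lf (nat_lit 0) (nat_lit 94263635520) (nat_lit 76) (nat_lit 22852344871) (nat_lit 76) (nat_lit 8817236167) (nat_lit 19) (nat_lit 4) (nat_lit 20) (nat_lit 5) (nat_lit 20) (nat_lit 4) (nat_lit 507) (nat_lit 400) (nat_lit 293)) (XT.lf (nat_lit 0) (nat_lit 15061228491) (nat_lit 152) (nat_lit 114249990872) (nat_lit 0) (nat_lit 1690999655) (nat_lit 17) (nat_lit 5) (nat_lit 19) (nat_lit 4) (nat_lit 17) (nat_lit 4) (nat_lit 508) (nat_lit 400) (nat_lit 292))) (XT.nd (nat_lit 78) (nat_lit 0) (nat_lit 0) (XT.lf (nat_lit 0) (nat_lit 40744324497) (nat_lit 152) (nat_lit 68156966960) (nat_lit 0) (nat_lit 27370801715) (nat_lit 17) (nat_lit 5) (nat_lit 19) (nat_lit 4) (nat_lit 17) (nat_lit 4) (nat_lit 509) (nat_lit 400) (nat_lit 291))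 (XT.lf (nat_lit 0) (nat_lit 67699446092) (nat_lit 152) (nat_lit 19783835246) (nat_lit 0) (nat_lit 54322786220) (nat_lit 17) (nat_lit 5) (nat_lit 19) (nat_lit 4) (nat_lit 17) (nat_lit 4) (nat_lit 510) (nat_lit 400) (nat_lit 290))))) (XT.nd (nat_lit 312) (nat_lit 76) (nat_lit 0) (XT.nd (nat_lit 156) (nat_lit 152) (nat_lit 0) (XT.nd (nat_lit 78) (nat_lit 0) (nat_lit 0) (XT.lf (nat_lit 0) (nat_lit 32009068484) (nat_lit 76) (nat_lit 64481454919) (nat_lit 76) (nat_lit 51101807342) (nat_lit 16) (nat_lit 4) (nat_lit 17) (nat_lit 5) (nat_lit 17) (nat_lit 4) (nat_lit 511) (nat_lit 400) (nat_lit 289)) (XT.lf (nat_lit 0) (nat_lit 87055469838) (nat_lit 76) (nat_lit 39989372955) (nat_lit 76) (nat_lit 26606879944) (nat_lit 16) (nat_lit 4) (nat_lit 17) (nat_lit 5) (nat_lit 17) (nat_lit 4) (nat_lit 512) (nat_lit 400) (nat_lit 288))) (XT.nd (nat_lit 78) (nat_lit 152) (nat_lit 0) (XT.lf (nat_lit 0) (nat_lit 144832288735)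 (nat_lit 76) (nat_lit 14283769790) (nat_lit 76) (nat_lit 898566842) (nat_lit 16) (nat_lit 4) (nat_lit 17) (nat_lit 5) (nat_lit 17) (nat_lit 4) (nat_lit 513) (nat_lit 400) (nat_lit 287)) (XT.lf (nat_lit 0) (nat_lit 26083461710) (nat_lit 152) (nat_lit 127217473756) (nat_lit 0) (nat_lit 13333191386) (nat_lit 14) (nat_lit 5) (nat_lit 16) (nat_lit 4) (nat_lit 14) (nat_lit 4) (nat_lit 514) (nat_lit 400) (nat_lit 286)))) (XT.nd (nat_lit 156) (nat_lit 76) (nat_lit 0) (XT.nd (nat_lit 78) (nat_lit 0) (nat_lit 0) (XT.lf (nat_lit 0) (nat_lit 54869424096) (nat_lit 152) (nat_lit 76573378499) (nat_lit 0) (nat_lit 42116812827) (nat_lit 14) (nat_lit 5) (nat_lit 16) (nat_lit 4) (nat_lit 14) (nat_lit 4) (nat_lit 515) (nat_lit 400) (nat_lit 285)) (XT.lf (nat_lit 0) (nat_lit 85084717630) (nat_lit 152) (nat_lit 23417282295) (nat_lit 0) (nat_lit 72329876890) (nat_lit 14) (nat_lit 5) (nat_lit 16) (nat_lit 4) (nat_lit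 14) (nat_lit 4) (nat_lit 516) (nat_lit 400) (nat_lit 284))) (XT.nd (nat_lit 78) (nat_lit 0) (nat_lit 0) (XT.lf (nat_lit 0) (nat_lit 33447919292) (nat_lit 76) (nat_lit 83875579952) (nat_lit 76) (nat_lit 71118615906) (nat_lit 13) (nat_lit 4) (nat_lit 14) (nat_lit 5) (nat_lit 14) (nat_lit 4) (nat_lit 517) (nat_lit 400) (nat_lit 283)) (XT.lf (nat_lit 0) (nat_lit 93950444744) (nat_lit 76) (nat_lit 57611022294) (nat_lit 76) (nat_lit 44852036052) (nat_lit 13) (nat_lit 4) (nat_lit 14) (nat_lit 5) (nat_lit 14) (nat_lit 4) (nat_lit 518) (nat_lit 400) (nat_lit 282)))))) (XT.nd (nat_lit 624) (nat_lit 228) (nat_lit 0) (XT.nd (nat_lit 312) (nat_lit 76) (nat_lit 0) (XT.nd (nat_lit 156) (nat_lit 0) (nat_lit 0) (XT.nd (nat_lit 78) (nat_lit 152) (nat_lit 0) (XT.lf (nat_lit 0) (nat_lit 157460066584) (nat_lit 76) (nat_lit 30042375297) (nat_lit 76) (nat_lit 17281463152) (nat_lit 13) (nat_lit 4) (nat_lit 14) (nat_lit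 5) (nat_lit 14) (nat_lit 4) (nat_lit 519) (nat_lit 400) (nat_lit 281)) (XT.lf (nat_lit 0) (nat_lit 10715691006) (nat_lit 76) (nat_lit 737205258) (nat_lit 152) (nat_lit 202102887861) (nat_lit 11) (nat_lit 5) (nat_lit 12) (nat_lit 5) (nat_lit 13) (nat_lit 4) (nat_lit 520) (nat_lit 400) (nat_lit 280))) (XT.nd (nat_lit 78) (nat_lit 0) (nat_lit 0) (XT.lf (nat_lit 0) (nat_lit 42318095546) (nat_lit 152) (nat_lit 150208816538) (nat_lit 0) (nat_lit 30161435369) (nat_lit 11) (nat_lit 5) (nat_lit 13) (nat_lit 4) (nat_lit 11) (nat_lit 4) (nat_lit 521) (nat_lit 400) (nat_lit 279)) (XT.lf (nat_lit 0) (nat_lit 74730448630) (nat_lit 152) (nat_lit 94974691649) (nat_lit 0) (nat_lit 62572204009) (nat_lit 11) (nat_lit 5) (nat_lit 13) (nat_lit 4) (nat_lit 11) (nat_lit 4) (nat_lit 522) (nat_lit 400) (nat_lit 278)))) (XT.nd (nat_lit 156) (nat_lit 0) (nat_lit 0) (XT.nd (nat_lit 78) (nat_lit 76) (nat_lit 0) (XT.lf (nat_lit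 0) (nat_lit 108755617945) (nat_lit 152) (nat_lit 36994698791) (nat_lit 0) (nat_lit 96595864330) (nat_lit 11) (nat_lit 5) (nat_lit 13) (nat_lit 4) (nat_lit 11) (nat_lit 4) (nat_lit 523) (nat_lit 400) (nat_lit 277)) (XT.lf (nat_lit 0) (nat_lit 24658433502) (nat_lit 76) (nat_lit 120201169549) (nat_lit 76) (nat_lit 108039978797) (nat_lit 10) (nat_lit 4) (nat_lit 11) (nat_lit 5) (nat_lit 11) (nat_lit 4) (nat_lit 524) (nat_lit 400) (nat_lit 276))) (XT.nd (nat_lit 78) (nat_lit 0) (nat_lit 0) (XT.lf (nat_lit 0) (nat_lit 90663754036) (nat_lit 76) (nat_lit 92724248675) (nat_lit 76) (nat_lit 80561689221) (nat_lit 10) (nat_lit 4) (nat_lit 11) (nat_lit 5) (nat_lit 11) (nat_lit 4) (nat_lit 525) (nat_lit 400) (nat_lit 275)) (XT.lf (nat_lit 0) (nat_lit 159955206519) (nat_lit 76) (nat_lit 63880656000) (nat_lit 76) (nat_lit 51716793020) (nat_lit 10) (nat_lit 4) (nat_lit 11) (nat_lit 5) (nat_lit 11) (nat_lit 4)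 (nat_lit 526) (nat_lit 400) (nat_lit 274))))) (XT.nd (nat_lit 312) (nat_lit 76) (nat_lit 0) (XT.nd (nat_lit 156) (nat_lit 0) (nat_lit 0) (XT.nd (nat_lit 78) (nat_lit 152) (nat_lit 0) (XT.lf (nat_lit 0) (nat_lit 232697770600) (nat_lit 76) (nat_lit 33601716302) (nat_lit 76) (nat_lit 21436611869) (nat_lit 10) (nat_lit 4) (nat_lit 11) (nat_lit 5) (nat_lit 11) (nat_lit 4) (nat_lit 527) (nat_lit 400) (nat_lit 273)) (XT.lf (nat_lit 0) (nat_lit 8650888139) (nat_lit 76) (nat_lit 1503831328) (nat_lit 152) (nat_lit 290359476765) (nat_lit 8) (nat_lit 5) (nat_lit 9) (nat_lit 5) (nat_lit 10) (nat_lit 4) (nat_lit 528) (nat_lit 400) (nat_lit 272))) (XT.nd (nat_lit 78) (nat_lit 0) (nat_lit 0) (XT.lf (nat_lit 0) (nat_lit 44048890925) (nat_lit 152) (nat_lit 237331673725) (nat_lit 0) (nat_lit 32460878730) (nat_lit 8) (nat_lit 5) (nat_lit 10) (nat_lit 4) (nat_lit 8) (nat_lit 4) (nat_lit 529) (nat_lit 400) (nat_lit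 271)) (XT.lf (nat_lit 0) (nat_lit 79656316696) (nat_lit 152) (nat_lit 180110525769) (nat_lit 0) (nat_lit 68067283155) (nat_lit 8) (nat_lit 5) (nat_lit 10) (nat_lit 4) (nat_lit 8) (nat_lit 4) (nat_lit 530) (nat_lit 400) (nat_lit 270)))) (XT.nd (nat_lit 156) (nat_lit 76) (nat_lit 0) (XT.nd (nat_lit 78) (nat_lit 0) (nat_lit 0) (XT.lf (nat_lit 0) (nat_lit 117038297345) (nat_lit 152) (nat_lit 120040144375) (nat_lit 0) (nat_lit 105448291093) (nat_lit 8) (nat_lit 5) (nat_lit 10) (nat_lit 4) (nat_lit 8) (nat_lit 4) (nat_lit 531) (nat_lit 400) (nat_lit 269)) (XT.lf (nat_lit 0) (nat_lit 156283837587) (nat_lit 152) (nat_lit 56977504825) (nat_lit 0) (nat_lit 144692904944) (nat_lit 8) (nat_lit 5) (nat_lit 10) (nat_lit 4) (nat_lit 8) (nat_lit 4) (nat_lit 532) (nat_lit 400) (nat_lit 268))) (XT.nd (nat_lit 78) (nat_lit 0) (nat_lit 0) (XT.lf (nat_lit 0) (nat_lit 9532646233) (nat_lit 76) (nat_lit 188102564275)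 (nat_lit 76) (nat_lit 176510749354) (nat_lit 7) (nat_lit 4) (nat_lit 8) (nat_lit 5) (nat_lit 8) (nat_lit 4) (nat_lit 533) (nat_lit 400) (nat_lit 267)) (XT.lf (nat_lit 0) (nat_lit 81335883452) (nat_lit 76) (nat_lit 160678021061) (nat_lit 76) (nat_lit 149085365875) (nat_lit 7) (nat_lit 4) (nat_lit 8) (nat_lit 5) (nat_lit 8) (nat_lit 4) (nat_lit 534) (nat_lit 400) (nat_lit 266))))))) (XT.nd (nat_lit 1248) (nat_lit 0) (nat_lit 0) (XT.nd (nat_lit 624) (nat_lit 76) (nat_lit 0) (XT.nd (nat_lit 312) (nat_lit 152) (nat_lit 0) (XT.nd (nat_lit 156) (nat_lit 0) (nat_lit 0) (XT.nd (nat_lit 78) (nat_lit 0) (nat_lit 0) (XT.lf (nat_lit 0) (nat_lit 156719233293) (nat_lit 76) (nat_lit 131887357852) (nat_lit 76) (nat_lit 120293902415) (nat_lit 7) (nat_lit 4) (nat_lit 8) (nat_lit 5) (nat_lit 8) (nat_lit 4) (nat_lit 535) (nat_lit 400) (nat_lit 265)) (XT.lf (nat_lit 0) (nat_lit 235862179922) (nat_lit 76) (nat_lit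 101662025452) (nat_lit 76) (nat_lit 90067807870) (nat_lit 7) (nat_lit 4) (nat_lit 8) (nat_lit 5) (nat_lit 8) (nat_lit 4) (nat_lit 536) (nat_lit 400) (nat_lit 264))) (XT.nd (nat_lit 78) (nat_lit 0) (nat_lit 0) (XT.lf (nat_lit 0) (nat_lit 318953158926) (nat_lit 76) (nat_lit 69930058782) (nat_lit 76) (nat_lit 58335115348) (nat_lit 7) (nat_lit 4) (nat_lit 8) (nat_lit 5) (nat_lit 8) (nat_lit 4) (nat_lit 537) (nat_lit 400) (nat_lit 263)) (XT.lf (nat_lit 0) (nat_lit 406190005970) (nat_lit 76) (nat_lit 36615905542) (nat_lit 76) (nat_lit 25020270820) (nat_lit 7) (nat_lit 4) (nat_lit 8) (nat_lit 5) (nat_lit 8) (nat_lit 4) (nat_lit 538) (nat_lit 400) (nat_lit 262)))) (XT.nd (nat_lit 156) (nat_lit 0) (nat_lit 0) (XT.nd (nat_lit 78) (nat_lit 0) (nat_lit 0) (XT.lf (nat_lit 0) (nat_lit 8430176971) (nat_lit 76) (nat_lit 1338832815) (nat_lit 152) (nat_lit 479681264568) (nat_lit 5) (nat_lit 5) (nat_lit 6) (nat_lit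 5) (nat_lit 7) (nat_lit 4) (nat_lit 539) (nat_lit 400) (nat_lit 261)) (XT.lf (nat_lit 0) (nat_lit 47071139104) (nat_lit 152) (nat_lit 428956758688) (nat_lit 0) (nat_lit 36026453286) (nat_lit 5) (nat_lit 5) (nat_lit 7) (nat_lit 4) (nat_lit 5) (nat_lit 4) (nat_lit 540) (nat_lit 400) (nat_lit 260))) (XT.nd (nat_lit 78) (nat_lit 0) (nat_lit 0) (XT.lf (nat_lit 0) (nat_lit 86256389191) (nat_lit 152) (nat_lit 374320207095) (nat_lit 0) (nat_lit 75211134649) (nat_lit 5) (nat_lit 5) (nat_lit 7) (nat_lit 4) (nat_lit 5) (nat_lit 4) (nat_lit 541) (nat_lit 400) (nat_lit 259)) (XT.lf (nat_lit 0) (nat_lit 127397155329) (nat_lit 152) (nat_lit 316959452644) (nat_lit 0) (nat_lit 116351359144) (nat_lit 5) (nat_lit 5) (nat_lit 7) (nat_lit 4) (nat_lit 5) (nat_lit 4) (nat_lit 542) (nat_lit 400) (nat_lit 258))))) (XT.nd (nat_lit 312) (nat_lit 76) (nat_lit 0) (XT.nd (nat_lit 156) (nat_lit 0) (nat_lit 0) (XT.nd (nat_lit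 78) (nat_lit 0) (nat_lit 0) (XT.lf (nat_lit 0) (nat_lit 170591391722) (nat_lit 152) (nat_lit 256737922111) (nat_lit 0) (nat_lit 159545079689) (nat_lit 5) (nat_lit 5) (nat_lit 7) (nat_lit 4) (nat_lit 5) (nat_lit 4) (nat_lit 543) (nat_lit 400) (nat_lit 257)) (XT.lf (nat_lit 0) (nat_lit 215941941793) (nat_lit 152) (nat_lit 193512230900) (nat_lit 0) (nat_lit 204895138474) (nat_lit 5) (nat_lit 5) (nat_lit 7) (nat_lit 4) (nat_lit 5) (nat_lit 4) (nat_lit 544) (nat_lit 400) (nat_lit 256))) (XT.nd (nat_lit 78) (nat_lit 0) (nat_lit 0) (XT.lf (nat_lit 0) (nat_lit 263556783039) (nat_lit 152) (nat_lit 127131841649) (nat_lit 0) (nat_lit 252509511829) (nat_lit 5) (nat_lit 5) (nat_lit 7) (nat_lit 4) (nat_lit 5) (nat_lit 4) (nat_lit 545) (nat_lit 400) (nat_lit 255)) (XT.lf (nat_lit 0) (nat_lit 313549284131) (nat_lit 152) (nat_lit 57438705814) (nat_lit 0) (nat_lit 302501567311) (nat_lit 5) (nat_lit 5) (nat_lit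 7) (nat_lit 4) (nat_lit 5) (nat_lit 4) (nat_lit 546) (nat_lit 400) (nat_lit 254)))) (XT.nd (nat_lit 156) (nat_lit 0) (nat_lit 0) (XT.nd (nat_lit 78) (nat_lit 0) (nat_lit 0) (XT.lf (nat_lit 0) (nat_lit 16253320400) (nat_lit 76) (nat_lit 350038914314) (nat_lit 76) (nat_lit 338990773104) (nat_lit 4) (nat_lit 4) (nat_lit 5) (nat_lit 5) (nat_lit 5) (nat_lit 4) (nat_lit 547) (nat_lit 400) (nat_lit 253)) (XT.lf (nat_lit 0) (nat_lit 95618212279) (nat_lit 76) (nat_lit 327023985394) (nat_lit 76) (nat_lit 315975440002) (nat_lit 4) (nat_lit 4) (nat_lit 5) (nat_lit 5) (nat_lit 5) (nat_lit 4) (nat_lit 548) (nat_lit 400) (nat_lit 252))) (XT.nd (nat_lit 78) (nat_lit 0) (nat_lit 0) (XT.lf (nat_lit 0) (nat_lit 178945750836) (nat_lit 76) (nat_lit 302861158010) (nat_lit 76) (nat_lit 291812227684) (nat_lit 4) (nat_lit 4) (nat_lit 5) (nat_lit 5) (nat_lit 5) (nat_lit 4) (nat_lit 549) (nat_lit 400) (nat_lit 251)) (XT.lf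 (nat_lit 0) (nat_lit 266434334973) (nat_lit 76) (nat_lit 277492901621) (nat_lit 76) (nat_lit 266443604690) (nat_lit 4) (nat_lit 4) (nat_lit 5) (nat_lit 5) (nat_lit 5) (nat_lit 4) (nat_lit 550) (nat_lit 400) (nat_lit 250)))))) (XT.nd (nat_lit 51324) (nat_lit 0) (nat_lit 12160) (XT.nd (nat_lit 51012) (nat_lit 0) (nat_lit 14592) (XT.nd (nat_lit 50856) (nat_lit 0) (nat_lit 15124) (XT.nd (nat_lit 50778) (nat_lit 0) (nat_lit 15352) (XT.lf (nat_lit 0) (nat_lit 358292270841) (nat_lit 76) (nat_lit 250858815617) (nat_lit 76) (nat_lit 239809169538) (nat_lit 4) (nat_lit 4) (nat_lit 5) (nat_lit 5) (nat_lit 5) (nat_lit 4) (nat_lit 551) (nat_lit 400) (nat_lit 249)) (XT.lf (nat_lit 0) (nat_lit 1550535149) (nat_lit 0) (nat_lit 1550535149) (nat_lit 76) (nat_lit 125241851) (nat_lit 206) (nat_lit 5) (nat_lit 206) (nat_lit 3) (nat_lit 207) (nat_lit 0) (nat_lit 401) (nat_lit 401) (nat_lit 398))) (XT.nd (nat_lit 78)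 (nat_lit 0) (nat_lit 0) (XT.lf (nat_lit 0) (nat_lit 2656509187) (nat_lit 228) (nat_lit 140739155) (nat_lit 228) (nat_lit 3670831831) (nat_lit 203) (nat_lit 3) (nat_lit 206) (nat_lit 3) (nat_lit 206) (nat_lit 5) (nat_lit 402) (nat_lit 401) (nat_lit 397)) (XT.lf (nat_lit 76) (nat_lit 3232310072) (nat_lit 0) (nat_lit 2332630489) (nat_lit 228) (nat_lit 925989369) (nat_lit 204) (nat_lit 5) (nat_lit 203) (nat_lit 3) (nat_lit 206) (nat_lit 5) (nat_lit 403) (nat_lit 401) (nat_lit 396)))) (XT.nd (nat_lit 156) (nat_lit 304) (nat_lit 0) (XT.nd (nat_lit 78) (nat_lit 0) (nat_lit 0) (XT.lf (nat_lit 76) (nat_lit 133346555) (nat_lit 0) (nat_lit 1726113023) (nat_lit 304) (nat_lit 4662720897) (nat_lit 201) (nat_lit 5) (nat_lit 200) (nat_lit 5) (nat_lit 204) (nat_lit 5) (nat_lit 404) (nat_lit 401) (nat_lit 395)) (XT.lf (nat_lit 76) (nat_lit 3691878520) (nat_lit 0) (nat_lit 941623214) (nat_lit 304) (nat_lit 1926755496)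 (nat_lit 201) (nat_lit 5) (nat_lit 200) (nat_lit 5) (nat_lit 204) (nat_lit 5) (nat_lit 405) (nat_lit 401) (nat_lit 394))) (XT.nd (nat_lit 78) (nat_lit 0) (nat_lit 76) (XT.lf (nat_lit 76) (nat_lit 735546744) (nat_lit 0) (nat_lit 22709748) (nat_lit 380) (nat_lit 5849157056) (nat_lit 197) (nat_lit 5) (nat_lit 196) (nat_lit 5) (nat_lit 201) (nat_lit 5) (nat_lit 406) (nat_lit 401) (nat_lit 393)) (XT.lf (nat_lit 0) (nat_lit 3415362610) (nat_lit 304) (nat_lit 2191171464) (nat_lit 76) (nat_lit 1053723150) (nat_lit 197) (nat_lit 5) (nat_lit 201) (nat_lit 5) (nat_lit 198) (nat_lit 5) (nat_lit 407) (nat_lit 401) (nat_lit 392))))) (XT.nd (nat_lit 312) (nat_lit 1216) (nat_lit 0) (XT.nd (nat_lit 156) (nat_lit 912) (nat_lit 0) (XT.nd (nat_lit 78) (nat_lit 76) (nat_lit 0) (XT.lf (nat_lit 0) (nat_lit 1621432157) (nat_lit 304) (nat_lit 4455781007) (nat_lit 380) (nat_lit 644972236) (nat_lit 193) (nat_lit 5) (nat_lit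 197) (nat_lit 5) (nat_lit 198) (nat_lit 5) (nat_lit 408) (nat_lit 401) (nat_lit 391)) (XT.lf (nat_lit 0) (nat_lit 1905403920) (nat_lit 380) (nat_lit 1224765121) (nat_lit 76) (nat_lit 3661087255) (nat_lit 192) (nat_lit 5) (nat_lit 197) (nat_lit 5) (nat_lit 193) (nat_lit 5) (nat_lit 409) (nat_lit 401) (nat_lit 390))) (XT.nd (nat_lit 78) (nat_lit 532) (nat_lit 0) (XT.lf (nat_lit 0) (nat_lit 2822905547) (nat_lit 380) (nat_lit 1639431578) (nat_lit 456) (nat_lit 2405911031) (nat_lit 187) (nat_lit 5) (nat_lit 192) (nat_lit 5) (nat_lit 193) (nat_lit 5) (nat_lit 410) (nat_lit 401) (nat_lit 389)) (XT.lf (nat_lit 0) (nat_lit 61028318) (nat_lit 456) (nat_lit 12304141) (nat_lit 532) (nat_lit 6881549215) (nat_lit 180) (nat_lit 5) (nat_lit 186) (nat_lit 5) (nat_lit 187) (nat_lit 5) (nat_lit 411) (nat_lit 401) (nat_lit 388)))) (XT.nd (nat_lit 156) (nat_lit 684) (nat_lit 0) (XT.nd (nat_lit 78) (nat_lit 532) (nat_lit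 0) (XT.lf (nat_lit 0) (nat_lit 2556981768) (nat_lit 532) (nat_lit 2706828362) (nat_lit 76) (nat_lit 1782027218) (nat_lit 180) (nat_lit 5) (nat_lit 187) (nat_lit 5) (nat_lit 181) (nat_lit 5) (nat_lit 412) (nat_lit 401) (nat_lit 387)) (XT.lf (nat_lit 0) (nat_lit 1636462682) (nat_lit 532) (nat_lit 3425705158) (nat_lit 608) (nat_lit 2084331382) (nat_lit 173) (nat_lit 5) (nat_lit 180) (nat_lit 5) (nat_lit 181) (nat_lit 5) (nat_lit 413) (nat_lit 401) (nat_lit 386))) (XT.nd (nat_lit 78) (nat_lit 608) (nat_lit 0) (XT.lf (nat_lit 0) (nat_lit 346960644) (nat_lit 608) (nat_lit 1074387663) (nat_lit 76) (nat_lit 5834493888) (nat_lit 172) (nat_lit 5) (nat_lit 180) (nat_lit 5) (nat_lit 173) (nat_lit 5) (nat_lit 414) (nat_lit 401) (nat_lit 385)) (XT.lf (nat_lit 0) (nat_lit 2777806651) (nat_lit 684) (nat_lit 3824391285) (nat_lit 76) (nat_lit 769366657) (nat_lit 164) (nat_lit 5) (nat_lit 173) (nat_lit 5) (nat_lit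 165) (nat_lit 5) (nat_lit 415) (nat_lit 401) (nat_lit 384))))))))
noncomputable def xc96 : XT := (XT.nd (nat_lit 2418) (nat_lit 2584) (nat_lit 0) (XT.nd (nat_lit 1170) (nat_lit 2432) (nat_lit 0) (XT.nd (nat_lit 546) (nat_lit 1596) (nat_lit 0) (XT.nd (nat_lit 234) (nat_lit 1216) (nat_lit 0) (XT.nd (nat_lit 78) (nat_lit 836) (nat_lit 0) (XT.lf (nat_lit 0) (nat_lit 841266533) (nat_lit 684) (nat_lit 4428267857) (nat_lit 760) (nat_lit 2226593249) (nat_lit 155) (nat_lit 5) (nat_lit 164) (nat_lit 5) (nat_lit 165) (nat_lit 5) (nat_lit 416) (nat_lit 401) (nat_lit 383)) (XT.nd (nat_lit 78) (nat_lit 760) (nat_lit 0) (XT.lf (nat_lit 0) (nat_lit 202891597) (nat_lit 760) (nat_lit 1864861848) (nat_lit 76) (nat_lit 5561370297) (nat_lit 154) (nat_lit 5) (nat_lit 164) (nat_lit 5) (nat_lit 155) (nat_lit 5) (nat_lit 417) (nat_lit 401) (nat_lit 382)) (XT.lf (nat_lit 0) (nat_lit 2627508106) (nat_lit 836) (nat_lit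 4653544953) (nat_lit 76) (nat_lit 488485810) (nat_lit 144) (nat_lit 5) (nat_lit 155) (nat_lit 5) (nat_lit 145) (nat_lit 5) (nat_lit 418) (nat_lit 401) (nat_lit 381)))) (XT.nd (nat_lit 156) (nat_lit 836) (nat_lit 0) (XT.nd (nat_lit 78) (nat_lit 0) (nat_lit 0) (XT.lf (nat_lit 0) (nat_lit 365032232) (nat_lit 380) (nat_lit 4775441700) (nat_lit 456) (nat_lit 2778162581) (nat_lit 139) (nat_lit 5) (nat_lit 144) (nat_lit 5) (nat_lit 145) (nat_lit 5) (nat_lit 419) (nat_lit 401) (nat_lit 380)) (XT.lf (nat_lit 0) (nat_lit 5690355975) (nat_lit 380) (nat_lit 2066292727) (nat_lit 456) (nat_lit 319679151) (nat_lit 139) (nat_lit 5) (nat_lit 144) (nat_lit 5) (nat_lit 145) (nat_lit 5) (nat_lit 420) (nat_lit 401) (nat_lit 379))) (XT.nd (nat_lit 78) (nat_lit 380) (nat_lit 0) (XT.lf (nat_lit 0) (nat_lit 2151506070) (nat_lit 456) (nat_lit 5259441377) (nat_lit 76) (nat_lit 831097643) (nat_lit 133) (nat_lit 5) (nat_lit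 139) (nat_lit 5) (nat_lit 134) (nat_lit 5) (nat_lit 421) (nat_lit 401) (nat_lit 378)) (XT.lf (nat_lit 0) (nat_lit 146389709) (nat_lit 380) (nat_lit 4571278778) (nat_lit 456) (nat_lit 3699024159) (nat_lit 128) (nat_lit 5) (nat_lit 133) (nat_lit 5) (nat_lit 134) (nat_lit 5) (nat_lit 422) (nat_lit 401) (nat_lit 377))))) (XT.nd (nat_lit 312) (nat_lit 912) (nat_lit 0) (XT.nd (nat_lit 156) (nat_lit 304) (nat_lit 0) (XT.nd (nat_lit 78) (nat_lit 380) (nat_lit 0) (XT.lf (nat_lit 0) (nat_lit 5899898240) (nat_lit 380) (nat_lit 1509128431) (nat_lit 456) (nat_lit 1191215385) (nat_lit 128) (nat_lit 5) (nat_lit 133) (nat_lit 5) (nat_lit 134) (nat_lit 5) (nat_lit 423) (nat_lit 401) (nat_lit 376)) (XT.lf (nat_lit 0) (nat_lit 1382922850) (nat_lit 380) (nat_lit 5699097318) (nat_lit 76) (nat_lit 1710481092) (nat_lit 123) (nat_lit 5) (nat_lit 128) (nat_lit 5) (nat_lit 124) (nat_lit 5) (nat_lit 424) (nat_lit 401)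 (nat_lit 375))) (XT.nd (nat_lit 78) (nat_lit 0) (nat_lit 0) (XT.lf (nat_lit 0) (nat_lit 132105004) (nat_lit 304) (nat_lit 3900100334) (nat_lit 380) (nat_lit 4961880155) (nat_lit 119) (nat_lit 5) (nat_lit 123) (nat_lit 5) (nat_lit 124) (nat_lit 5) (nat_lit 425) (nat_lit 401) (nat_lit 374)) (XT.lf (nat_lit 0) (nat_lit 6348822945) (nat_lit 304) (nat_lit 477344042) (nat_lit 380) (nat_lit 2378982597) (nat_lit 119) (nat_lit 5) (nat_lit 123) (nat_lit 5) (nat_lit 124) (nat_lit 5) (nat_lit 426) (nat_lit 401) (nat_lit 373)))) (XT.nd (nat_lit 156) (nat_lit 228) (nat_lit 0) (XT.nd (nat_lit 78) (nat_lit 304) (nat_lit 0) (XT.lf (nat_lit 0) (nat_lit 344014952) (nat_lit 380) (nat_lit 6023945510) (nat_lit 76) (nat_lit 3057476005) (nat_lit 114) (nat_lit 5) (nat_lit 119) (nat_lit 5) (nat_lit 115) (nat_lit 5) (nat_lit 427) (nat_lit 401) (nat_lit 372)) (XT.lf (nat_lit 0) (nat_lit 274538369) (nat_lit 304) (nat_lit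 2830339209) (nat_lit 380) (nat_lit 6550836748) (nat_lit 110) (nat_lit 5) (nat_lit 114) (nat_lit 5) (nat_lit 115) (nat_lit 5) (nat_lit 428) (nat_lit 401) (nat_lit 371))) (XT.nd (nat_lit 78) (nat_lit 228) (nat_lit 0) (XT.lf (nat_lit 0) (nat_lit 6043479811) (nat_lit 380) (nat_lit 2916297797) (nat_lit 76) (nat_lit 935753026) (nat_lit 110) (nat_lit 5) (nat_lit 115) (nat_lit 5) (nat_lit 111) (nat_lit 5) (nat_lit 429) (nat_lit 401) (nat_lit 370)) (XT.lf (nat_lit 0) (nat_lit 3848112545) (nat_lit 228) (nat_lit 5313284477) (nat_lit 304) (nat_lit 984330426) (nat_lit 107) (nat_lit 5) (nat_lit 110) (nat_lit 5) (nat_lit 111) (nat_lit 5) (nat_lit 430) (nat_lit 401) (nat_lit 369)))))) (XT.nd (nat_lit 624) (nat_lit 1140) (nat_lit 0) (XT.nd (nat_lit 312) (nat_lit 456) (nat_lit 0) (XT.nd (nat_lit 156) (nat_lit 532) (nat_lit 0) (XT.nd (nat_lit 78) (nat_lit 0) (nat_lit 0) (XT.lf (nat_lit 0) (nat_lit 529223696) (nat_lit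 228) (nat_lit 1417844598) (nat_lit 304) (nat_lit 8460533640) (nat_lit 103) (nat_lit 5) (nat_lit 106) (nat_lit 5) (nat_lit 107) (nat_lit 5) (nat_lit 431) (nat_lit 401) (nat_lit 368)) (XT.lf (nat_lit 0) (nat_lit 5070275170) (nat_lit 304) (nat_lit 2923590512) (nat_lit 76) (nat_lit 2683989442) (nat_lit 103) (nat_lit 5) (nat_lit 107) (nat_lit 5) (nat_lit 104) (nat_lit 5) (nat_lit 432) (nat_lit 401) (nat_lit 367))) (XT.nd (nat_lit 78) (nat_lit 304) (nat_lit 0) (XT.lf (nat_lit 0) (nat_lit 4398581906) (nat_lit 228) (nat_lit 3974590850) (nat_lit 304) (nat_lit 2587279048) (nat_lit 100) (nat_lit 5) (nat_lit 103) (nat_lit 5) (nat_lit 104) (nat_lit 5) (nat_lit 433) (nat_lit 401) (nat_lit 366)) (XT.lf (nat_lit 0) (nat_lit 565790439) (nat_lit 304) (nat_lit 10409027005) (nat_lit 76) (nat_lit 281889299) (nat_lit 96) (nat_lit 5) (nat_lit 100) (nat_lit 5) (nat_lit 97) (nat_lit 5) (nat_lit 434) (nat_lit 401) (nat_lit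 365)))) (XT.nd (nat_lit 156) (nat_lit 304) (nat_lit 0) (XT.nd (nat_lit 78) (nat_lit 152) (nat_lit 0) (XT.lf (nat_lit 0) (nat_lit 3901165996) (nat_lit 304) (nat_lit 2915886571) (nat_lit 76) (nat_lit 4743027383) (nat_lit 96) (nat_lit 5) (nat_lit 100) (nat_lit 5) (nat_lit 97) (nat_lit 5) (nat_lit 435) (nat_lit 401) (nat_lit 364)) (XT.lf (nat_lit 0) (nat_lit 5017457710) (nat_lit 152) (nat_lit 2400850807) (nat_lit 228) (nat_lit 4459569440) (nat_lit 94) (nat_lit 5) (nat_lit 96) (nat_lit 5) (nat_lit 97) (nat_lit 5) (nat_lit 436) (nat_lit 401) (nat_lit 363))) (XT.nd (nat_lit 78) (nat_lit 76) (nat_lit 0) (XT.lf (nat_lit 0) (nat_lit 1144401442) (nat_lit 228) (nat_lit 10007600669) (nat_lit 304) (nat_lit 1057534811) (nat_lit 91) (nat_lit 5) (nat_lit 94) (nat_lit 5) (nat_lit 95) (nat_lit 5) (nat_lit 437) (nat_lit 401) (nat_lit 362)) (XT.lf (nat_lit 0) (nat_lit 2529775831) (nat_lit 304) (nat_lit 2941457784)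 (nat_lit 76) (nat_lit 7079804586) (nat_lit 90) (nat_lit 5) (nat_lit 94) (nat_lit 5) (nat_lit 91) (nat_lit 5) (nat_lit 438) (nat_lit 401) (nat_lit 361))))) (XT.nd (nat_lit 312) (nat_lit 532) (nat_lit 0) (XT.nd (nat_lit 156) (nat_lit 228) (nat_lit 0) (XT.nd (nat_lit 78) (nat_lit 228) (nat_lit 0) (XT.lf (nat_lit 0) (nat_lit 5660222155) (nat_lit 152) (nat_lit 630213891) (nat_lit 228) (nat_lit 6616840431) (nat_lit 88) (nat_lit 5) (nat_lit 90) (nat_lit 5) (nat_lit 91) (nat_lit 5) (nat_lit 439) (nat_lit 401) (nat_lit 360)) (XT.lf (nat_lit 0) (nat_lit 1396752619) (nat_lit 228) (nat_lit 8926362035) (nat_lit 304) (nat_lit 2954017482) (nat_lit 85) (nat_lit 5) (nat_lit 88) (nat_lit 5) (nat_lit 89) (nat_lit 5) (nat_lit 440) (nat_lit 401) (nat_lit 359))) (XT.nd (nat_lit 78) (nat_lit 152) (nat_lit 0) (XT.lf (nat_lit 0) (nat_lit 940900441) (nat_lit 304) (nat_lit 3054556588) (nat_lit 76) (nat_lit 9665456472)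 (nat_lit 84) (nat_lit 5) (nat_lit 88) (nat_lit 5) (nat_lit 85) (nat_lit 5) (nat_lit 441) (nat_lit 401) (nat_lit 358)) (XT.lf (nat_lit 0) (nat_lit 4994769158) (nat_lit 228) (nat_lit 7803477234) (nat_lit 76) (nat_lit 1260046347) (nat_lit 82) (nat_lit 5) (nat_lit 85) (nat_lit 5) (nat_lit 83) (nat_lit 5) (nat_lit 442) (nat_lit 401) (nat_lit 357)))) (XT.nd (nat_lit 156) (nat_lit 380) (nat_lit 0) (XT.nd (nat_lit 78) (nat_lit 0) (nat_lit 0) (XT.lf (nat_lit 0) (nat_lit 1556650277) (nat_lit 152) (nat_lit 7782947981) (nat_lit 228) (nat_lit 5131533230) (nat_lit 80) (nat_lit 5) (nat_lit 82) (nat_lit 5) (nat_lit 83) (nat_lit 5) (nat_lit 443) (nat_lit 401) (nat_lit 356)) (XT.lf (nat_lit 0) (nat_lit 11567574005) (nat_lit 152) (nat_lit 2413336952) (nat_lit 228) (nat_lit 919742823) (nat_lit 80) (nat_lit 5) (nat_lit 82) (nat_lit 5) (nat_lit 83) (nat_lit 5) (nat_lit 444) (nat_lit 401) (nat_lit 355))) (XT.nd (nat_lit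 78) (nat_lit 152) (nat_lit 0) (XT.lf (nat_lit 0) (nat_lit 3497999086) (nat_lit 228) (nat_lit 8593744174) (nat_lit 76) (nat_lit 3251804582) (nat_lit 77) (nat_lit 5) (nat_lit 80) (nat_lit 5) (nat_lit 78) (nat_lit 5) (nat_lit 445) (nat_lit 401) (nat_lit 354)) (XT.lf (nat_lit 0) (nat_lit 1554756365) (nat_lit 152) (nat_lit 6621539338) (nat_lit 228) (nat_lit 7628011373) (nat_lit 75) (nat_lit 5) (nat_lit 77) (nat_lit 5) (nat_lit 78) (nat_lit 5) (nat_lit 446) (nat_lit 401) (nat_lit 353))))))) (XT.nd (nat_lit 1170) (nat_lit 1216) (nat_lit 0) (XT.nd (nat_lit 546) (nat_lit 684) (nat_lit 0) (XT.nd (nat_lit 234) (nat_lit 304) (nat_lit 0) (XT.nd (nat_lit 78) (nat_lit 380) (nat_lit 0) (XT.lf (nat_lit 0) (nat_lit 12424204451) (nat_lit 152) (nat_lit 760295829) (nat_lit 228) (nat_lit 3098807389) (nat_lit 75) (nat_lit 5) (nat_lit 77) (nat_lit 5) (nat_lit 78) (nat_lit 5) (nat_lit 447) (nat_lit 401) (nat_lit 352))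 (XT.nd (nat_lit 78) (nat_lit 152) (nat_lit 0) (XT.lf (nat_lit 0) (nat_lit 1753779603) (nat_lit 228) (nat_lit 9695534063) (nat_lit 76) (nat_lit 5328156358) (nat_lit 72) (nat_lit 5) (nat_lit 75) (nat_lit 5) (nat_lit 73) (nat_lit 5) (nat_lit 448) (nat_lit 401) (nat_lit 351)) (XT.lf (nat_lit 0) (nat_lit 1305512439) (nat_lit 152) (nat_lit 5491139862) (nat_lit 228) (nat_lit 10494560997) (nat_lit 70) (nat_lit 5) (nat_lit 72) (nat_lit 5) (nat_lit 73) (nat_lit 5) (nat_lit 449) (nat_lit 401) (nat_lit 350)))) (XT.nd (nat_lit 156) (nat_lit 228) (nat_lit 0) (XT.nd (nat_lit 78) (nat_lit 76) (nat_lit 0) (XT.lf (nat_lit 0) (nat_lit 12223465421) (nat_lit 228) (nat_lit 4727163846) (nat_lit 76) (nat_lit 873427143) (nat_lit 70) (nat_lit 5) (nat_lit 73) (nat_lit 5) (nat_lit 71) (nat_lit 4) (nat_lit 450) (nat_lit 401) (nat_lit 349)) (XT.lf (nat_lit 0) (nat_lit 7153904598) (nat_lit 76) (nat_lit 10924629161) (nat_lit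 152) (nat_lit 297164583) (nat_lit 69) (nat_lit 5) (nat_lit 70) (nat_lit 5) (nat_lit 71) (nat_lit 4) (nat_lit 451) (nat_lit 401) (nat_lit 348))) (XT.nd (nat_lit 78) (nat_lit 0) (nat_lit 0) (XT.lf (nat_lit 0) (nat_lit 701518559) (nat_lit 152) (nat_lit 4448913811) (nat_lit 228) (nat_lit 13797991177) (nat_lit 66) (nat_lit 5) (nat_lit 68) (nat_lit 5) (nat_lit 69) (nat_lit 5) (nat_lit 452) (nat_lit 401) (nat_lit 347)) (XT.lf (nat_lit 0) (nat_lit 11046042463) (nat_lit 228) (nat_lit 6054285380) (nat_lit 76) (nat_lit 2439934661) (nat_lit 66) (nat_lit 5) (nat_lit 69) (nat_lit 5) (nat_lit 67) (nat_lit 4) (nat_lit 453) (nat_lit 401) (nat_lit 346))))) (XT.nd (nat_lit 312) (nat_lit 304) (nat_lit 0) (XT.nd (nat_lit 156) (nat_lit 228) (nat_lit 0) (XT.nd (nat_lit 78) (nat_lit 76) (nat_lit 0) (XT.lf (nat_lit 0) (nat_lit 6817119559) (nat_lit 76) (nat_lit 10556546275) (nat_lit 152) (nat_lit 2781167905) (nat_lit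 65) (nat_lit 5) (nat_lit 66) (nat_lit 5) (nat_lit 67) (nat_lit 4) (nat_lit 454) (nat_lit 401) (nat_lit 345)) (XT.lf (nat_lit 0) (nat_lit 3176792666) (nat_lit 152) (nat_lit 380901953) (nat_lit 76) (nat_lit 17236817109) (nat_lit 64) (nat_lit 5) (nat_lit 66) (nat_lit 5) (nat_lit 65) (nat_lit 5) (nat_lit 455) (nat_lit 401) (nat_lit 344))) (XT.nd (nat_lit 78) (nat_lit 76) (nat_lit 0) (XT.lf (nat_lit 0) (nat_lit 9573480557) (nat_lit 228) (nat_lit 7979365848) (nat_lit 76) (nat_lit 3899334527) (nat_lit 62) (nat_lit 5) (nat_lit 65) (nat_lit 5) (nat_lit 63) (nat_lit 4) (nat_lit 456) (nat_lit 401) (nat_lit 343)) (XT.lf (nat_lit 0) (nat_lit 5949091138) (nat_lit 76) (nat_lit 10458979991) (nat_lit 152) (nat_lit 5728760673) (nat_lit 61) (nat_lit 5) (nat_lit 62) (nat_lit 5) (nat_lit 63) (nat_lit 4) (nat_lit 457) (nat_lit 401) (nat_lit 342)))) (XT.nd (nat_lit 156) (nat_lit 76) (nat_lit 0) (XT.nd (nat_lit 78)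 (nat_lit 152) (nat_lit 0) (XT.lf (nat_lit 0) (nat_lit 803140960) (nat_lit 152) (nat_lit 2084606709) (nat_lit 76) (nat_lit 19962510826) (nat_lit 60) (nat_lit 5) (nat_lit 62) (nat_lit 5) (nat_lit 61) (nat_lit 5) (nat_lit 458) (nat_lit 401) (nat_lit 341)) (XT.lf (nat_lit 0) (nat_lit 7717414251) (nat_lit 228) (nat_lit 10694319758) (nat_lit 76) (nat_lit 5170513180) (nat_lit 58) (nat_lit 5) (nat_lit 61) (nat_lit 5) (nat_lit 59) (nat_lit 4) (nat_lit 459) (nat_lit 401) (nat_lit 340))) (XT.nd (nat_lit 78) (nat_lit 0) (nat_lit 0) (XT.lf (nat_lit 0) (nat_lit 4354018803) (nat_lit 76) (nat_lit 10737138577) (nat_lit 152) (nat_lit 9253991463) (nat_lit 57) (nat_lit 5) (nat_lit 58) (nat_lit 5) (nat_lit 59) (nat_lit 4) (nat_lit 460) (nat_lit 401) (nat_lit 339)) (XT.lf (nat_lit 0) (nat_lit 20457373777) (nat_lit 76) (nat_lit 2520593161) (nat_lit 152) (nat_lit 2161010946) (nat_lit 57) (nat_lit 5) (nat_lit 58) (nat_lit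 5) (nat_lit 59) (nat_lit 4) (nat_lit 461) (nat_lit 401) (nat_lit 338)))))) (XT.nd (nat_lit 624) (nat_lit 532) (nat_lit 0) (XT.nd (nat_lit 312) (nat_lit 228) (nat_lit 0) (XT.nd (nat_lit 156) (nat_lit 152) (nat_lit 0) (XT.nd (nat_lit 78) (nat_lit 76) (nat_lit 0) (XT.lf (nat_lit 0) (nat_lit 5362399002) (nat_lit 228) (nat_lit 14444212195) (nat_lit 76) (nat_lit 6149512124) (nat_lit 54) (nat_lit 5) (nat_lit 57) (nat_lit 5) (nat_lit 55) (nat_lit 4) (nat_lit 462) (nat_lit 401) (nat_lit 337)) (XT.lf (nat_lit 0) (nat_lit 1779603322) (nat_lit 76) (nat_lit 11524075396) (nat_lit 152) (nat_lit 13502960918) (nat_lit 53) (nat_lit 5) (nat_lit 54) (nat_lit 5) (nat_lit 55) (nat_lit 4) (nat_lit 463) (nat_lit 401) (nat_lit 336))) (XT.nd (nat_lit 78) (nat_lit 152) (nat_lit 0) (XT.lf (nat_lit 0) (nat_lit 19250374379) (nat_lit 76) (nat_lit 2601558699) (nat_lit 152) (nat_lit 5837254199) (nat_lit 53) (nat_lit 5) (nat_lit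 54) (nat_lit 5) (nat_lit 55) (nat_lit 4) (nat_lit 464) (nat_lit 401) (nat_lit 335)) (XT.lf (nat_lit 0) (nat_lit 2358682394) (nat_lit 152) (nat_lit 19542518086) (nat_lit 76) (nat_lit 6702049498) (nat_lit 51) (nat_lit 5) (nat_lit 53) (nat_lit 5) (nat_lit 52) (nat_lit 4) (nat_lit 465) (nat_lit 401) (nat_lit 334)))) (XT.nd (nat_lit 156) (nat_lit 152) (nat_lit 0) (XT.nd (nat_lit 78) (nat_lit 76) (nat_lit 0) (XT.lf (nat_lit 0) (nat_lit 10922711623) (nat_lit 152) (nat_lit 2032171463) (nat_lit 76) (nat_lit 16595625703) (nat_lit 51) (nat_lit 5) (nat_lit 53) (nat_lit 5) (nat_lit 52) (nat_lit 4) (nat_lit 466) (nat_lit 401) (nat_lit 333)) (XT.lf (nat_lit 0) (nat_lit 16831601422) (nat_lit 76) (nat_lit 3314280853) (nat_lit 152) (nat_lit 10387702128) (nat_lit 50) (nat_lit 5) (nat_lit 51) (nat_lit 5) (nat_lit 52) (nat_lit 4) (nat_lit 467) (nat_lit 401) (nat_lit 332))) (XT.nd (nat_lit 78) (nat_lit 76) (nat_lit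 0) (XT.lf (nat_lit 0) (nat_lit 5141785074) (nat_lit 76) (nat_lit 24878269622) (nat_lit 76) (nat_lit 1536267757) (nat_lit 49) (nat_lit 4) (nat_lit 50) (nat_lit 5) (nat_lit 50) (nat_lit 4) (nat_lit 468) (nat_lit 401) (nat_lit 331)) (XT.lf (nat_lit 0) (nat_lit 7767979353) (nat_lit 152) (nat_lit 7455417174) (nat_lit 76) (nat_lit 17387818764) (nat_lit 48) (nat_lit 5) (nat_lit 50) (nat_lit 5) (nat_lit 49) (nat_lit 4) (nat_lit 469) (nat_lit 401) (nat_lit 330))))) (XT.nd (nat_lit 312) (nat_lit 228) (nat_lit 0) (XT.nd (nat_lit 156) (nat_lit 228) (nat_lit 0) (XT.nd (nat_lit 78) (nat_lit 0) (nat_lit 0) (XT.lf (nat_lit 0) (nat_lit 12777324609) (nat_lit 76) (nat_lit 4877833306) (nat_lit 152) (nat_lit 16053968937) (nat_lit 47) (nat_lit 5) (nat_lit 48) (nat_lit 5) (nat_lit 49) (nat_lit 4) (nat_lit 470) (nat_lit 401) (nat_lit 329)) (XT.lf (nat_lit 0) (nat_lit 28228439428) (nat_lit 152) (nat_lit 728811779) (nat_lit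 0) (nat_lit 5895096257) (nat_lit 47) (nat_lit 5) (nat_lit 49) (nat_lit 4) (nat_lit 47) (nat_lit 4) (nat_lit 471) (nat_lit 401) (nat_lit 328))) (XT.nd (nat_lit 78) (nat_lit 76) (nat_lit 0) (XT.lf (nat_lit 0) (nat_lit 3558545495) (nat_lit 152) (nat_lit 15069400831) (nat_lit 76) (nat_lit 17402934969) (nat_lit 45) (nat_lit 5) (nat_lit 47) (nat_lit 5) (nat_lit 46) (nat_lit 4) (nat_lit 472) (nat_lit 401) (nat_lit 327)) (XT.lf (nat_lit 0) (nat_lit 6538863765) (nat_lit 76) (nat_lit 7574735738) (nat_lit 152) (nat_lit 23145009235) (nat_lit 44) (nat_lit 5) (nat_lit 45) (nat_lit 5) (nat_lit 46) (nat_lit 4) (nat_lit 473) (nat_lit 401) (nat_lit 326)))) (XT.nd (nat_lit 156) (nat_lit 152) (nat_lit 0) (XT.nd (nat_lit 78) (nat_lit 76) (nat_lit 0) (XT.lf (nat_lit 0) (nat_lit 25490276766) (nat_lit 152) (nat_lit 8906954145) (nat_lit 0) (nat_lit 4135798670) (nat_lit 44) (nat_lit 5) (nat_lit 46) (nat_lit 4) (nat_lit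 44) (nat_lit 4) (nat_lit 474) (nat_lit 401) (nat_lit 325)) (XT.lf (nat_lit 0) (nat_lit 14276289626) (nat_lit 76) (nat_lit 23479464204) (nat_lit 76) (nat_lit 2099419865) (nat_lit 43) (nat_lit 4) (nat_lit 44) (nat_lit 5) (nat_lit 44) (nat_lit 4) (nat_lit 475) (nat_lit 401) (nat_lit 324))) (XT.nd (nat_lit 78) (nat_lit 76) (nat_lit 0) (XT.lf (nat_lit 0) (nat_lit 9216760428) (nat_lit 152) (nat_lit 2510034262) (nat_lit 76) (nat_lit 29502987055) (nat_lit 42) (nat_lit 5) (nat_lit 44) (nat_lit 5) (nat_lit 43) (nat_lit 4) (nat_lit 476) (nat_lit 401) (nat_lit 323)) (XT.lf (nat_lit 0) (nat_lit 21366726252) (nat_lit 152) (nat_lit 20328242179) (nat_lit 0) (nat_lit 959504846) (nat_lit 41) (nat_lit 5) (nat_lit 43) (nat_lit 4) (nat_lit 41) (nat_lit 4) (nat_lit 477) (nat_lit 401) (nat_lit 322))))))))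
noncomputable def xc97 : XT := (XT.nd (nat_lit 2418) (nat_lit 912) (nat_lit 0) (XT.nd (nat_lit 1170) (nat_lit 760) (nat_lit 0) (XT.nd (nat_lit 546) (nat_lit 456) (nat_lit 0) (XT.nd (nat_lit 234) (nat_lit 228) (nat_lit 0) (XT.nd (nat_lit 78) (nat_lit 152) (nat_lit 0) (XT.lf (nat_lit 0) (nat_lit 4235261574) (nat_lit 76) (nat_lit 30164799757) (nat_lit 76) (nat_lit 9736544940) (nat_lit 40) (nat_lit 4) (nat_lit 41) (nat_lit 5) (nat_lit 41) (nat_lit 4) (nat_lit 478) (nat_lit 401) (nat_lit 321)) (XT.nd (nat_lit 78) (nat_lit 76) (nat_lit 0) (XT.lf (nat_lit 0) (nat_lit 2639895593) (nat_lit 152) (nat_lit 15036500670) (nat_lit 76) (nat_lit 27998370374) (nat_lit 39) (nat_lit 5) (nat_lit 41) (nat_lit 5) (nat_lit 40) (nat_lit 4) (nat_lit 479) (nat_lit 401) (nat_lit 320)) (XT.lf (nat_lit 0) (nat_lit 11223018264) (nat_lit 76) (nat_lit 4235705064) (nat_lit 152) (nat_lit 31815592446) (nat_lit 38) (nat_lit 5) (nat_lit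 39) (nat_lit 5) (nat_lit 40) (nat_lit 4) (nat_lit 480) (nat_lit 401) (nat_lit 319)))) (XT.nd (nat_lit 156) (nat_lit 152) (nat_lit 0) (XT.nd (nat_lit 78) (nat_lit 76) (nat_lit 0) (XT.lf (nat_lit 0) (nat_lit 29307139206) (nat_lit 152) (nat_lit 9830164366) (nat_lit 0) (nat_lit 9797106815) (nat_lit 38) (nat_lit 5) (nat_lit 40) (nat_lit 4) (nat_lit 38) (nat_lit 4) (nat_lit 481) (nat_lit 401) (nat_lit 318)) (XT.lf (nat_lit 0) (nat_lit 18168159900) (nat_lit 76) (nat_lit 26009684677) (nat_lit 76) (nat_lit 6483172058) (nat_lit 37) (nat_lit 4) (nat_lit 38) (nat_lit 5) (nat_lit 38) (nat_lit 4) (nat_lit 482) (nat_lit 401) (nat_lit 317))) (XT.nd (nat_lit 78) (nat_lit 76) (nat_lit 0) (XT.lf (nat_lit 0) (nat_lit 7229914915) (nat_lit 152) (nat_lit 4720882498) (nat_lit 76) (nat_lit 40510142824) (nat_lit 36) (nat_lit 5) (nat_lit 38) (nat_lit 5) (nat_lit 37) (nat_lit 4) (nat_lit 483) (nat_lit 401) (nat_lit 316))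 (XT.lf (nat_lit 0) (nat_lit 21832168042) (nat_lit 152) (nat_lit 29286003683) (nat_lit 0) (nat_lit 3206305064) (nat_lit 35) (nat_lit 5) (nat_lit 37) (nat_lit 4) (nat_lit 35) (nat_lit 4) (nat_lit 484) (nat_lit 401) (nat_lit 315))))) (XT.nd (nat_lit 312) (nat_lit 228) (nat_lit 0) (XT.nd (nat_lit 156) (nat_lit 152) (nat_lit 0) (XT.nd (nat_lit 78) (nat_lit 76) (nat_lit 0) (XT.lf (nat_lit 0) (nat_lit 37419662119) (nat_lit 152) (nat_lit 68531100) (nat_lit 0) (nat_lit 18780240817) (nat_lit 35) (nat_lit 5) (nat_lit 37) (nat_lit 4) (nat_lit 35) (nat_lit 4) (nat_lit 485) (nat_lit 401) (nat_lit 314)) (XT.lf (nat_lit 0) (nat_lit 31578812468) (nat_lit 76) (nat_lit 22679754564) (nat_lit 76) (nat_lit 4027420572) (nat_lit 34) (nat_lit 4) (nat_lit 35) (nat_lit 5) (nat_lit 35) (nat_lit 4) (nat_lit 486) (nat_lit 401) (nat_lit 313))) (XT.nd (nat_lit 78) (nat_lit 0) (nat_lit 0) (XT.lf (nat_lit 0) (nat_lit 4323050819)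 (nat_lit 76) (nat_lit 6890452893) (nat_lit 152) (nat_lit 49179525831) (nat_lit 32) (nat_lit 5) (nat_lit 33) (nat_lit 5) (nat_lit 34) (nat_lit 4) (nat_lit 487) (nat_lit 401) (nat_lit 312)) (XT.lf (nat_lit 0) (nat_lit 27671163082) (nat_lit 152) (nat_lit 25017288918) (nat_lit 0) (nat_lit 9884168814) (nat_lit 32) (nat_lit 5) (nat_lit 34) (nat_lit 4) (nat_lit 32) (nat_lit 4) (nat_lit 488) (nat_lit 401) (nat_lit 311)))) (XT.nd (nat_lit 156) (nat_lit 152) (nat_lit 0) (XT.nd (nat_lit 78) (nat_lit 0) (nat_lit 0) (XT.lf (nat_lit 0) (nat_lit 7681129417) (nat_lit 76) (nat_lit 37483516497) (nat_lit 76) (nat_lit 19685898927) (nat_lit 31) (nat_lit 4) (nat_lit 32) (nat_lit 5) (nat_lit 32) (nat_lit 4) (nat_lit 489) (nat_lit 401) (nat_lit 310)) (XT.lf (nat_lit 0) (nat_lit 42843862427) (nat_lit 76) (nat_lit 21093017013) (nat_lit 76) (nat_lit 3285282012) (nat_lit 31) (nat_lit 4) (nat_lit 32) (nat_lit 5) (nat_lit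 32) (nat_lit 4) (nat_lit 490) (nat_lit 401) (nat_lit 309))) (XT.nd (nat_lit 78) (nat_lit 0) (nat_lit 0) (XT.lf (nat_lit 0) (nat_lit 10120819135) (nat_lit 76) (nat_lit 3507566124) (nat_lit 152) (nat_lit 56066143404) (nat_lit 29) (nat_lit 5) (nat_lit 30) (nat_lit 5) (nat_lit 31) (nat_lit 4) (nat_lit 491) (nat_lit 401) (nat_lit 308)) (XT.lf (nat_lit 0) (nat_lit 31911532480) (nat_lit 152) (nat_lit 25410710666) (nat_lit 0) (nat_lit 14933868237) (nat_lit 29) (nat_lit 5) (nat_lit 31) (nat_lit 4) (nat_lit 29) (nat_lit 4) (nat_lit 492) (nat_lit 401) (nat_lit 307)))))) (XT.nd (nat_lit 624) (nat_lit 304) (nat_lit 0) (XT.nd (nat_lit 312) (nat_lit 228) (nat_lit 0) (XT.nd (nat_lit 156) (nat_lit 152) (nat_lit 0) (XT.nd (nat_lit 78) (nat_lit 0) (nat_lit 0) (XT.lf (nat_lit 0) (nat_lit 10709573482) (nat_lit 76) (nat_lit 40605927310) (nat_lit 76) (nat_lit 23619939431) (nat_lit 28) (nat_lit 4) (nat_lit 29) (nat_lit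 5) (nat_lit 29) (nat_lit 4) (nat_lit 493) (nat_lit 401) (nat_lit 306)) (XT.lf (nat_lit 0) (nat_lit 49482520377) (nat_lit 76) (nat_lit 22619750146) (nat_lit 76) (nat_lit 5625834996) (nat_lit 28) (nat_lit 4) (nat_lit 29) (nat_lit 5) (nat_lit 29) (nat_lit 4) (nat_lit 494) (nat_lit 401) (nat_lit 305))) (XT.nd (nat_lit 78) (nat_lit 0) (nat_lit 0) (XT.lf (nat_lit 0) (nat_lit 9599371254) (nat_lit 76) (nat_lit 3376646397) (nat_lit 152) (nat_lit 67667394011) (nat_lit 26) (nat_lit 5) (nat_lit 27) (nat_lit 5) (nat_lit 28) (nat_lit 4) (nat_lit 495) (nat_lit 401) (nat_lit 304)) (XT.lf (nat_lit 0) (nat_lit 33050685829) (nat_lit 152) (nat_lit 33760630101) (nat_lit 0) (nat_lit 16851966590) (nat_lit 26) (nat_lit 5) (nat_lit 28) (nat_lit 4) (nat_lit 26) (nat_lit 4) (nat_lit 496) (nat_lit 401) (nat_lit 303)))) (XT.nd (nat_lit 156) (nat_lit 152) (nat_lit 0) (XT.nd (nat_lit 78) (nat_lit 0) (nat_lit 0) (XT.lf (nat_lit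 0) (nat_lit 5473985611) (nat_lit 76) (nat_lit 48779589054) (nat_lit 76) (nat_lit 32574348030) (nat_lit 25) (nat_lit 4) (nat_lit 26) (nat_lit 5) (nat_lit 26) (nat_lit 4) (nat_lit 497) (nat_lit 401) (nat_lit 302)) (XT.lf (nat_lit 0) (nat_lit 47810142203) (nat_lit 76) (nat_lit 29262160165) (nat_lit 76) (nat_lit 13050707916) (nat_lit 25) (nat_lit 4) (nat_lit 26) (nat_lit 5) (nat_lit 26) (nat_lit 4) (nat_lit 498) (nat_lit 401) (nat_lit 301))) (XT.nd (nat_lit 78) (nat_lit 76) (nat_lit 0) (XT.lf (nat_lit 0) (nat_lit 7195151689) (nat_lit 152) (nat_lit 1467306736) (nat_lit 76) (nat_lit 84915356084) (nat_lit 24) (nat_lit 5) (nat_lit 26) (nat_lit 5) (nat_lit 25) (nat_lit 4) (nat_lit 499) (nat_lit 401) (nat_lit 300)) (XT.lf (nat_lit 0) (nat_lit 28880668958) (nat_lit 152) (nat_lit 54840503722) (nat_lit 0) (nat_lit 13430191373) (nat_lit 23) (nat_lit 5) (nat_lit 25) (nat_lit 4) (nat_lit 23) (nat_lit 4) (nat_lit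 500) (nat_lit 401) (nat_lit 299))))) (XT.nd (nat_lit 312) (nat_lit 76) (nat_lit 0) (XT.nd (nat_lit 156) (nat_lit 152) (nat_lit 0) (XT.nd (nat_lit 78) (nat_lit 76) (nat_lit 0) (XT.lf (nat_lit 0) (nat_lit 51802939996) (nat_lit 152) (nat_lit 12745674866) (nat_lit 0) (nat_lit 36347352421) (nat_lit 23) (nat_lit 5) (nat_lit 25) (nat_lit 4) (nat_lit 23) (nat_lit 4) (nat_lit 501) (nat_lit 401) (nat_lit 298)) (XT.lf (nat_lit 0) (nat_lit 32464595012) (nat_lit 76) (nat_lit 43899510475) (nat_lit 76) (nat_lit 28439056243) (nat_lit 22) (nat_lit 4) (nat_lit 23) (nat_lit 5) (nat_lit 23) (nat_lit 4) (nat_lit 502) (nat_lit 401) (nat_lit 297))) (XT.nd (nat_lit 78) (nat_lit 152) (nat_lit 0) (XT.lf (nat_lit 0) (nat_lit 80349966814) (nat_lit 76) (nat_lit 22005368998) (nat_lit 76) (nat_lit 6540279854) (nat_lit 22) (nat_lit 4) (nat_lit 23) (nat_lit 5) (nat_lit 23) (nat_lit 4) (nat_lit 503) (nat_lit 401) (nat_lit 296))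 (XT.lf (nat_lit 0) (nat_lit 16213968371) (nat_lit 152) (nat_lit 95470414476) (nat_lit 0) (nat_lit 1481108042) (nat_lit 20) (nat_lit 5) (nat_lit 22) (nat_lit 4) (nat_lit 20) (nat_lit 4) (nat_lit 504) (nat_lit 401) (nat_lit 295)))) (XT.nd (nat_lit 156) (nat_lit 76) (nat_lit 0) (XT.nd (nat_lit 78) (nat_lit 0) (nat_lit 0) (XT.lf (nat_lit 0) (nat_lit 40724845303) (nat_lit 152) (nat_lit 50888736975) (nat_lit 0) (nat_lit 25987981164) (nat_lit 20) (nat_lit 5) (nat_lit 22) (nat_lit 4) (nat_lit 20) (nat_lit 4) (nat_lit 505) (nat_lit 401) (nat_lit 294)) (XT.lf (nat_lit 0) (nat_lit 66448513036) (nat_lit 152) (nat_lit 4103728573) (nat_lit 0) (nat_lit 51707835744) (nat_lit 20) (nat_lit 5) (nat_lit 22) (nat_lit 4) (nat_lit 20) (nat_lit 4) (nat_lit 506) (nat_lit 401) (nat_lit 293))) (XT.nd (nat_lit 78) (nat_lit 0) (nat_lit 0) (XT.lf (nat_lit 0) (nat_lit 46483774693) (nat_lit 76) (nat_lit 47688185698) (nat_lit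 76) (nat_lit 32943876832) (nat_lit 19) (nat_lit 4) (nat_lit 20) (nat_lit 5) (nat_lit 20) (nat_lit 4) (nat_lit 507) (nat_lit 401) (nat_lit 292)) (XT.lf (nat_lit 0) (nat_lit 99718994261) (nat_lit 76) (nat_lit 23620140340) (nat_lit 76) (nat_lit 8872372832) (nat_lit 19) (nat_lit 4) (nat_lit 20) (nat_lit 5) (nat_lit 20) (nat_lit 4) (nat_lit 508) (nat_lit 401) (nat_lit 291))))))) (XT.nd (nat_lit 1170) (nat_lit 304) (nat_lit 0) (XT.nd (nat_lit 546) (nat_lit 228) (nat_lit 0) (XT.nd (nat_lit 234) (nat_lit 228) (nat_lit 0) (XT.nd (nat_lit 78) (nat_lit 0) (nat_lit 0) (XT.lf (nat_lit 0) (nat_lit 16187337088) (nat_lit 152) (nat_lit 119207631400) (nat_lit 0) (nat_lit 2138707132) (nat_lit 17) (nat_lit 5) (nat_lit 19) (nat_lit 4) (nat_lit 17) (nat_lit 4) (nat_lit 509) (nat_lit 401) (nat_lit 290)) (XT.nd (nat_lit 78) (nat_lit 0) (nat_lit 0) (XT.lf (nat_lit 0) (nat_lit 43136823743) (nat_lit 152) (nat_lit 70845901960)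 (nat_lit 0) (nat_lit 29085206082) (nat_lit 17) (nat_lit 5) (nat_lit 19) (nat_lit 4) (nat_lit 17) (nat_lit 4) (nat_lit 510) (nat_lit 401) (nat_lit 289)) (XT.lf (nat_lit 0) (nat_lit 71422783179) (nat_lit 152) (nat_lit 20088347629) (nat_lit 0) (nat_lit 57368320084) (nat_lit 17) (nat_lit 5) (nat_lit 19) (nat_lit 4) (nat_lit 17) (nat_lit 4) (nat_lit 511) (nat_lit 401) (nat_lit 288)))) (XT.nd (nat_lit 156) (nat_lit 152) (nat_lit 0) (XT.nd (nat_lit 78) (nat_lit 0) (nat_lit 0) (XT.lf (nat_lit 0) (nat_lit 34283158072) (nat_lit 76) (nat_lit 67364661023) (nat_lit 76) (nat_lit 53307487992) (nat_lit 16) (nat_lit 4) (nat_lit 17) (nat_lit 5) (nat_lit 17) (nat_lit 4) (nat_lit 512) (nat_lit 401) (nat_lit 287)) (XT.lf (nat_lit 0) (nat_lit 92049801581) (nat_lit 76) (nat_lit 41664206706) (nat_lit 76) (nat_lit 27604452783) (nat_lit 16) (nat_lit 4) (nat_lit 17) (nat_lit 5) (nat_lit 17) (nat_lit 4) (nat_lit 513) (nat_lit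 401) (nat_lit 286))) (XT.nd (nat_lit 78) (nat_lit 152) (nat_lit 0) (XT.lf (nat_lit 0) (nat_lit 152684911030) (nat_lit 76) (nat_lit 14688782187) (nat_lit 76) (nat_lit 626570271) (nat_lit 16) (nat_lit 4) (nat_lit 17) (nat_lit 5) (nat_lit 17) (nat_lit 4) (nat_lit 514) (nat_lit 401) (nat_lit 285)) (XT.lf (nat_lit 0) (nat_lit 27694179931) (nat_lit 152) (nat_lit 132956956910) (nat_lit 0) (nat_lit 14299367683) (nat_lit 14) (nat_lit 5) (nat_lit 16) (nat_lit 4) (nat_lit 14) (nat_lit 4) (nat_lit 515) (nat_lit 401) (nat_lit 284))))) (XT.nd (nat_lit 312) (nat_lit 152) (nat_lit 0) (XT.nd (nat_lit 156) (nat_lit 76) (nat_lit 0) (XT.nd (nat_lit 78) (nat_lit 0) (nat_lit 0) (XT.lf (nat_lit 0) (nat_lit 57904843049) (nat_lit 152) (nat_lit 79810246915) (nat_lit 0) (nat_lit 44507907494) (nat_lit 14) (nat_lit 5) (nat_lit 16) (nat_lit 4) (nat_lit 14) (nat_lit 4) (nat_lit 516) (nat_lit 401) (nat_lit 283)) (XT.lf (nat_lit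 0) (nat_lit 89616998986) (nat_lit 152) (nat_lit 24024526878) (nat_lit 0) (nat_lit 76218041235) (nat_lit 14) (nat_lit 5) (nat_lit 16) (nat_lit 4) (nat_lit 14) (nat_lit 4) (nat_lit 517) (nat_lit 401) (nat_lit 282))) (XT.nd (nat_lit 78) (nat_lit 0) (nat_lit 0) (XT.lf (nat_lit 0) (nat_lit 35674844151) (nat_lit 76) (nat_lit 87788293020) (nat_lit 76) (nat_lit 74387409367) (nat_lit 13) (nat_lit 4) (nat_lit 14) (nat_lit 5) (nat_lit 14) (nat_lit 4) (nat_lit 518) (nat_lit 401) (nat_lit 281)) (XT.lf (nat_lit 0) (nat_lit 99176089738) (nat_lit 76) (nat_lit 60223891571) (nat_lit 76) (nat_lit 46821173726) (nat_lit 13) (nat_lit 4) (nat_lit 14) (nat_lit 5) (nat_lit 14) (nat_lit 4) (nat_lit 519) (nat_lit 401) (nat_lit 280)))) (XT.nd (nat_lit 156) (nat_lit 0) (nat_lit 0) (XT.nd (nat_lit 78) (nat_lit 152) (nat_lit 0) (XT.lf (nat_lit 0) (nat_lit 165836043968) (nat_lit 76) (nat_lit 31289558977) (nat_lit 76) (nat_lit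 17885094283) (nat_lit 13) (nat_lit 4) (nat_lit 14) (nat_lit 5) (nat_lit 14) (nat_lit 4) (nat_lit 520) (nat_lit 401) (nat_lit 279)) (XT.lf (nat_lit 0) (nat_lit 11754539487) (nat_lit 76) (nat_lit 518957023) (nat_lit 152) (nat_lit 211947678045) (nat_lit 11) (nat_lit 5) (nat_lit 12) (nat_lit 5) (nat_lit 13) (nat_lit 4) (nat_lit 521) (nat_lit 401) (nat_lit 278))) (XT.nd (nat_lit 78) (nat_lit 0) (nat_lit 0) (XT.lf (nat_lit 0) (nat_lit 44673941649) (nat_lit 152) (nat_lit 157232133794) (nat_lit 0) (nat_lit 31904691359) (nat_lit 11) (nat_lit 5) (nat_lit 13) (nat_lit 4) (nat_lit 11) (nat_lit 4) (nat_lit 522) (nat_lit 401) (nat_lit 277)) (XT.lf (nat_lit 0) (nat_lit 78695486609) (nat_lit 152) (nat_lit 99259499021) (nat_lit 0) (nat_lit 65924799183) (nat_lit 11) (nat_lit 5) (nat_lit 13) (nat_lit 4) (nat_lit 11) (nat_lit 4) (nat_lit 523) (nat_lit 401) (nat_lit 276)))))) (XT.nd (nat_lit 624) (nat_lit 76) (nat_lit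 0) (XT.nd (nat_lit 312) (nat_lit 152) (nat_lit 0) (XT.nd (nat_lit 156) (nat_lit 0) (nat_lit 0) (XT.nd (nat_lit 78) (nat_lit 76) (nat_lit 0) (XT.lf (nat_lit 0) (nat_lit 114411032698) (nat_lit 152) (nat_lit 38402598293) (nat_lit 0) (nat_lit 101638976569) (nat_lit 11) (nat_lit 5) (nat_lit 13) (nat_lit 4) (nat_lit 11) (nat_lit 4) (nat_lit 524) (nat_lit 401) (nat_lit 275)) (XT.lf (nat_lit 0) (nat_lit 26326064237) (nat_lit 76) (nat_lit 125990576331) (nat_lit 76) (nat_lit 113217216677) (nat_lit 10) (nat_lit 4) (nat_lit 11) (nat_lit 5) (nat_lit 11) (nat_lit 4) (nat_lit 525) (nat_lit 401) (nat_lit 274))) (XT.nd (nat_lit 78) (nat_lit 0) (nat_lit 0) (XT.lf (nat_lit 0) (nat_lit 95610950366) (nat_lit 76) (nat_lit 97150316637) (nat_lit 76) (nat_lit 84375715529) (nat_lit 10) (nat_lit 4) (nat_lit 11) (nat_lit 5) (nat_lit 11) (nat_lit 4) (nat_lit 526) (nat_lit 401) (nat_lit 273)) (XT.lf (nat_lit 0) (nat_lit 168347260777)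 (nat_lit 76) (nat_lit 66874551208) (nat_lit 76) (nat_lit 54098767764) (nat_lit 10) (nat_lit 4) (nat_lit 11) (nat_lit 5) (nat_lit 11) (nat_lit 4) (nat_lit 527) (nat_lit 401) (nat_lit 272)))) (XT.nd (nat_lit 156) (nat_lit 0) (nat_lit 0) (XT.nd (nat_lit 78) (nat_lit 152) (nat_lit 0) (XT.lf (nat_lit 0) (nat_lit 244708177160) (nat_lit 76) (nat_lit 35091194887) (nat_lit 76) (nat_lit 22314285408) (nat_lit 10) (nat_lit 4) (nat_lit 11) (nat_lit 5) (nat_lit 11) (nat_lit 4) (nat_lit 528) (nat_lit 401) (nat_lit 271)) (XT.lf (nat_lit 0) (nat_lit 9459008512) (nat_lit 76) (nat_lit 1388303880) (nat_lit 152) (nat_lit 304683350156) (nat_lit 8) (nat_lit 5) (nat_lit 9) (nat_lit 5) (nat_lit 10) (nat_lit 4) (nat_lit 529) (nat_lit 401) (nat_lit 270))) (XT.nd (nat_lit 78) (nat_lit 0) (nat_lit 0) (XT.lf (nat_lit 0) (nat_lit 46430225576) (nat_lit 152) (nat_lit 248834598551) (nat_lit 0) (nat_lit 34259746300) (nat_lit 8)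 (nat_lit 5) (nat_lit 10) (nat_lit 4) (nat_lit 8) (nat_lit 4) (nat_lit 530) (nat_lit 401) (nat_lit 269)) (XT.lf (nat_lit 0) (nat_lit 83809504059) (nat_lit 152) (nat_lit 188769710286) (nat_lit 0) (nat_lit 71638098392) (nat_lit 8) (nat_lit 5) (nat_lit 10) (nat_lit 4) (nat_lit 8) (nat_lit 4) (nat_lit 531) (nat_lit 401) (nat_lit 268))))) (XT.nd (nat_lit 312) (nat_lit 0) (nat_lit 0) (XT.nd (nat_lit 156) (nat_lit 76) (nat_lit 0) (XT.nd (nat_lit 78) (nat_lit 0) (nat_lit 0) (XT.lf (nat_lit 0) (nat_lit 123052470811) (nat_lit 152) (nat_lit 125712302287) (nat_lit 0) (nat_lit 110880182866) (nat_lit 8) (nat_lit 5) (nat_lit 10) (nat_lit 4) (nat_lit 8) (nat_lit 4) (nat_lit 532) (nat_lit 401) (nat_lit 267)) (XT.lf (nat_lit 0) (nat_lit 164252561465) (nat_lit 152) (nat_lit 59512237870) (nat_lit 0) (nat_lit 152079433256) (nat_lit 8) (nat_lit 5) (nat_lit 10) (nat_lit 4) (nat_lit 8) (nat_lit 4) (nat_lit 533) (nat_lit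 401) (nat_lit 266))) (XT.nd (nat_lit 78) (nat_lit 0) (nat_lit 0) (XT.lf (nat_lit 0) (nat_lit 10318353931) (nat_lit 76) (nat_lit 197350615967) (nat_lit 76) (nat_lit 185176687506) (nat_lit 7) (nat_lit 4) (nat_lit 8) (nat_lit 5) (nat_lit 8) (nat_lit 4) (nat_lit 534) (nat_lit 401) (nat_lit 265)) (XT.lf (nat_lit 0) (nat_lit 85697035136) (nat_lit 76) (nat_lit 168562325426) (nat_lit 76) (nat_lit 156387634820) (nat_lit 7) (nat_lit 4) (nat_lit 8) (nat_lit 5) (nat_lit 8) (nat_lit 4) (nat_lit 535) (nat_lit 401) (nat_lit 264)))) (XT.nd (nat_lit 156) (nat_lit 0) (nat_lit 0) (XT.nd (nat_lit 78) (nat_lit 0) (nat_lit 0) (XT.lf (nat_lit 0) (nat_lit 164835535445) (nat_lit 76) (nat_lit 138339252709) (nat_lit 76) (nat_lit 126163836251) (nat_lit 7) (nat_lit 4) (nat_lit 8) (nat_lit 5) (nat_lit 8) (nat_lit 4) (nat_lit 536) (nat_lit 401) (nat_lit 263)) (XT.lf (nat_lit 0) (nat_lit 247922279859) (nat_lit 76) (nat_lit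 106609438119) (nat_lit 76) (nat_lit 94433330374) (nat_lit 7) (nat_lit 4) (nat_lit 8) (nat_lit 5) (nat_lit 8) (nat_lit 4) (nat_lit 537) (nat_lit 401) (nat_lit 262))) (XT.nd (nat_lit 78) (nat_lit 0) (nat_lit 0) (XT.lf (nat_lit 0) (nat_lit 335155093958) (nat_lit 76) (nat_lit 73297334478) (nat_lit 76) (nat_lit 61120568364) (nat_lit 7) (nat_lit 4) (nat_lit 8) (nat_lit 5) (nat_lit 8) (nat_lit 4) (nat_lit 538) (nat_lit 401) (nat_lit 261)) (XT.lf (nat_lit 0) (nat_lit 426741674921) (nat_lit 76) (nat_lit 38323627254) (nat_lit 76) (nat_lit 26146234121) (nat_lit 7) (nat_lit 4) (nat_lit 8) (nat_lit 5) (nat_lit 8) (nat_lit 4) (nat_lit 539) (nat_lit 401) (nat_lit 260))))))))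
noncomputable def xc98 : XT := (XT.nd (nat_lit 53196) (nat_lit 0) (nat_lit 5016) (XT.nd (nat_lit 51948) (nat_lit 0) (nat_lit 10184) (XT.nd (nat_lit 546) (nat_lit 76) (nat_lit 0) (XT.nd (nat_lit 234) (nat_lit 0) (nat_lit 0) (XT.nd (nat_lit 78) (nat_lit 0) (nat_lit 0) (XT.lf (nat_lit 0) (nat_lit 9093886733) (nat_lit 76) (nat_lit 1282638645) (nat_lit 152) (nat_lit 503540309078) (nat_lit 5) (nat_lit 5) (nat_lit 6) (nat_lit 5) (nat_lit 7) (nat_lit 4) (nat_lit 540) (nat_lit 401) (nat_lit 259)) (XT.nd (nat_lit 78) (nat_lit 0) (nat_lit 0) (XT.lf (nat_lit 0) (nat_lit 49539922343) (nat_lit 152) (nat_lit 450170089923) (nat_lit 0) (nat_lit 37941294708) (nat_lit 5) (nat_lit 5) (nat_lit 7) (nat_lit 4) (nat_lit 5) (nat_lit 4) (nat_lit 541) (nat_lit 401) (nat_lit 258)) (XT.lf (nat_lit 0) (nat_lit 90678947968) (nat_lit 152) (nat_lit 392812877736) (nat_lit 0) (nat_lit 79079804484) (nat_lit 5) (nat_lit 5) (nat_lit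 7) (nat_lit 4) (nat_lit 5) (nat_lit 4) (nat_lit 542) (nat_lit 401) (nat_lit 257)))) (XT.nd (nat_lit 156) (nat_lit 0) (nat_lit 0) (XT.nd (nat_lit 78) (nat_lit 0) (nat_lit 0) (XT.lf (nat_lit 0) (nat_lit 133871526731) (nat_lit 152) (nat_lit 332594720787) (nat_lit 0) (nat_lit 122271891961) (nat_lit 5) (nat_lit 5) (nat_lit 7) (nat_lit 4) (nat_lit 5) (nat_lit 4) (nat_lit 543) (nat_lit 401) (nat_lit 256)) (XT.lf (nat_lit 0) (nat_lit 179220498105) (nat_lit 152) (nat_lit 269372242513) (nat_lit 0) (nat_lit 167620395445) (nat_lit 5) (nat_lit 5) (nat_lit 7) (nat_lit 4) (nat_lit 5) (nat_lit 4) (nat_lit 544) (nat_lit 401) (nat_lit 255))) (XT.nd (nat_lit 78) (nat_lit 0) (nat_lit 0) (XT.lf (nat_lit 0) (nat_lit 226833835831) (nat_lit 152) (nat_lit 202994913203) (nat_lit 0) (nat_lit 215233287560) (nat_lit 5) (nat_lit 5) (nat_lit 7) (nat_lit 4) (nat_lit 5) (nat_lit 4) (nat_lit 545) (nat_lit 401) (nat_lit 254))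 (XT.lf (nat_lit 0) (nat_lit 276824904999) (nat_lit 152) (nat_lit 133304691596) (nat_lit 0) (nat_lit 265223932338) (nat_lit 5) (nat_lit 5) (nat_lit 7) (nat_lit 4) (nat_lit 5) (nat_lit 4) (nat_lit 546) (nat_lit 401) (nat_lit 253))))) (XT.nd (nat_lit 312) (nat_lit 0) (nat_lit 0) (XT.nd (nat_lit 156) (nat_lit 0) (nat_lit 0) (XT.nd (nat_lit 78) (nat_lit 76) (nat_lit 0) (XT.lf (nat_lit 0) (nat_lit 329312731965) (nat_lit 152) (nat_lit 60135648594) (nat_lit 0) (nat_lit 317711355122) (nat_lit 5) (nat_lit 5) (nat_lit 7) (nat_lit 4) (nat_lit 5) (nat_lit 4) (nat_lit 547) (nat_lit 401) (nat_lit 252)) (XT.lf (nat_lit 0) (nat_lit 17238156470) (nat_lit 76) (nat_lit 367453267206) (nat_lit 76) (nat_lit 355851505428) (nat_lit 4) (nat_lit 4) (nat_lit 5) (nat_lit 5) (nat_lit 5) (nat_lit 4) (nat_lit 548) (nat_lit 401) (nat_lit 251))) (XT.nd (nat_lit 78) (nat_lit 0) (nat_lit 0) (XT.lf (nat_lit 0) (nat_lit 100563094369)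 (nat_lit 76) (nat_lit 343291762927) (nat_lit 76) (nat_lit 331689634544) (nat_lit 4) (nat_lit 4) (nat_lit 5) (nat_lit 5) (nat_lit 5) (nat_lit 4) (nat_lit 549) (nat_lit 401) (nat_lit 250)) (XT.lf (nat_lit 0) (nat_lit 188049201689) (nat_lit 76) (nat_lit 317924766637) (nat_lit 76) (nat_lit 306322289108) (nat_lit 4) (nat_lit 4) (nat_lit 5) (nat_lit 5) (nat_lit 5) (nat_lit 4) (nat_lit 550) (nat_lit 401) (nat_lit 249)))) (XT.nd (nat_lit 50934) (nat_lit 0) (nat_lit 14896) (XT.nd (nat_lit 50856) (nat_lit 0) (nat_lit 15124) (XT.lf (nat_lit 0) (nat_lit 279904778684) (nat_lit 76) (nat_lit 291291880727) (nat_lit 76) (nat_lit 279689070677) (nat_lit 4) (nat_lit 4) (nat_lit 5) (nat_lit 5) (nat_lit 5) (nat_lit 4) (nat_lit 551) (nat_lit 401) (nat_lit 248)) (XT.lf (nat_lit 0) (nat_lit 2732386741) (nat_lit 228) (nat_lit 255781961) (nat_lit 228) (nat_lit 255781961) (nat_lit 203) (nat_lit 3) (nat_lit 206) (nat_lit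 3) (nat_lit 206) (nat_lit 5) (nat_lit 402) (nat_lit 402) (nat_lit 396))) (XT.nd (nat_lit 78) (nat_lit 0) (nat_lit 0) (XT.lf (nat_lit 0) (nat_lit 1708189305) (nat_lit 228) (nat_lit 3740625496) (nat_lit 304) (nat_lit 1065237985) (nat_lit 200) (nat_lit 5) (nat_lit 203) (nat_lit 3) (nat_lit 204) (nat_lit 5) (nat_lit 403) (nat_lit 402) (nat_lit 395)) (XT.lf (nat_lit 0) (nat_lit 4377561545) (nat_lit 228) (nat_lit 414831388) (nat_lit 304) (nat_lit 1756531299) (nat_lit 200) (nat_lit 5) (nat_lit 203) (nat_lit 3) (nat_lit 204) (nat_lit 5) (nat_lit 404) (nat_lit 402) (nat_lit 394)))))) (XT.nd (nat_lit 624) (nat_lit 3192) (nat_lit 0) (XT.nd (nat_lit 312) (nat_lit 836) (nat_lit 0) (XT.nd (nat_lit 156) (nat_lit 380) (nat_lit 0) (XT.nd (nat_lit 78) (nat_lit 0) (nat_lit 0) (XT.lf (nat_lit 0) (nat_lit 457313112) (nat_lit 304) (nat_lit 3515483211) (nat_lit 380) (nat_lit 2618244627) (nat_lit 196) (nat_lit 5) (nat_lit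 200) (nat_lit 5) (nat_lit 201) (nat_lit 5) (nat_lit 405) (nat_lit 402) (nat_lit 393)) (XT.lf (nat_lit 0) (nat_lit 2990679354) (nat_lit 304) (nat_lit 12254960) (nat_lit 380) (nat_lit 3638276562) (nat_lit 196) (nat_lit 5) (nat_lit 200) (nat_lit 5) (nat_lit 201) (nat_lit 5) (nat_lit 406) (nat_lit 402) (nat_lit 392))) (XT.nd (nat_lit 78) (nat_lit 380) (nat_lit 0) (XT.lf (nat_lit 76) (nat_lit 3692410345) (nat_lit 0) (nat_lit 1862703041) (nat_lit 380) (nat_lit 1143592708) (nat_lit 197) (nat_lit 5) (nat_lit 196) (nat_lit 5) (nat_lit 201) (nat_lit 5) (nat_lit 407) (nat_lit 402) (nat_lit 391)) (XT.lf (nat_lit 76) (nat_lit 728324470) (nat_lit 0) (nat_lit 574489989) (nat_lit 456) (nat_lit 5462044389) (nat_lit 192) (nat_lit 5) (nat_lit 191) (nat_lit 5) (nat_lit 197) (nat_lit 5) (nat_lit 408) (nat_lit 402) (nat_lit 390)))) (XT.nd (nat_lit 156) (nat_lit 532) (nat_lit 0) (XT.nd (nat_lit 78) (nat_lit 380) (nat_lit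 0) (XT.lf (nat_lit 0) (nat_lit 3753646406) (nat_lit 380) (nat_lit 2211351145) (nat_lit 76) (nat_lit 872389250) (nat_lit 192) (nat_lit 5) (nat_lit 197) (nat_lit 5) (nat_lit 193) (nat_lit 5) (nat_lit 409) (nat_lit 402) (nat_lit 389)) (XT.lf (nat_lit 0) (nat_lit 1754795755) (nat_lit 380) (nat_lit 4472506077) (nat_lit 456) (nat_lit 691255477) (nat_lit 187) (nat_lit 5) (nat_lit 192) (nat_lit 5) (nat_lit 193) (nat_lit 5) (nat_lit 410) (nat_lit 402) (nat_lit 388))) (XT.nd (nat_lit 78) (nat_lit 456) (nat_lit 0) (XT.lf (nat_lit 0) (nat_lit 1666932903) (nat_lit 456) (nat_lit 1134858504) (nat_lit 76) (nat_lit 4205383046) (nat_lit 186) (nat_lit 5) (nat_lit 192) (nat_lit 5) (nat_lit 187) (nat_lit 5) (nat_lit 411) (nat_lit 402) (nat_lit 387)) (XT.lf (nat_lit 0) (nat_lit 3087820289) (nat_lit 456) (nat_lit 952849857) (nat_lit 532) (nat_lit 3062968330) (nat_lit 180) (nat_lit 5) (nat_lit 186) (nat_lit 5) (nat_lit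 187) (nat_lit 5) (nat_lit 412) (nat_lit 402) (nat_lit 386))))) (XT.nd (nat_lit 312) (nat_lit 1976) (nat_lit 0) (XT.nd (nat_lit 156) (nat_lit 608) (nat_lit 0) (XT.nd (nat_lit 78) (nat_lit 76) (nat_lit 0) (XT.lf (nat_lit 0) (nat_lit 249041863) (nat_lit 532) (nat_lit 6200625915) (nat_lit 608) (nat_lit 759454135) (nat_lit 173) (nat_lit 5) (nat_lit 180) (nat_lit 5) (nat_lit 181) (nat_lit 5) (nat_lit 413) (nat_lit 402) (nat_lit 385)) (XT.lf (nat_lit 0) (nat_lit 1570917787) (nat_lit 608) (nat_lit 2595174811) (nat_lit 76) (nat_lit 3154274835) (nat_lit 172) (nat_lit 5) (nat_lit 180) (nat_lit 5) (nat_lit 173) (nat_lit 5) (nat_lit 414) (nat_lit 402) (nat_lit 384))) (XT.nd (nat_lit 78) (nat_lit 0) (nat_lit 0) (XT.lf (nat_lit 0) (nat_lit 1939880471) (nat_lit 608) (nat_lit 1968447115) (nat_lit 684) (nat_lit 3532444543) (nat_lit 164) (nat_lit 5) (nat_lit 172) (nat_lit 5) (nat_lit 173) (nat_lit 5) (nat_lit 415)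 (nat_lit 402) (nat_lit 383)) (XT.lf (nat_lit 0) (nat_lit 6302487731) (nat_lit 684) (nat_lit 881140686) (nat_lit 76) (nat_lit 386595126) (nat_lit 164) (nat_lit 5) (nat_lit 173) (nat_lit 5) (nat_lit 165) (nat_lit 5) (nat_lit 416) (nat_lit 402) (nat_lit 382)))) (XT.nd (nat_lit 156) (nat_lit 456) (nat_lit 0) (XT.nd (nat_lit 78) (nat_lit 760) (nat_lit 0) (XT.lf (nat_lit 0) (nat_lit 1063847942) (nat_lit 760) (nat_lit 3756613494) (nat_lit 76) (nat_lit 2885379330) (nat_lit 154) (nat_lit 5) (nat_lit 164) (nat_lit 5) (nat_lit 155) (nat_lit 5) (nat_lit 417) (nat_lit 402) (nat_lit 381)) (XT.lf (nat_lit 0) (nat_lit 1120116387) (nat_lit 760) (nat_lit 2278924823) (nat_lit 836) (nat_lit 4451694472) (nat_lit 144) (nat_lit 5) (nat_lit 154) (nat_lit 5) (nat_lit 155) (nat_lit 5) (nat_lit 418) (nat_lit 402) (nat_lit 380))) (XT.nd (nat_lit 78) (nat_lit 456) (nat_lit 0) (XT.lf (nat_lit 0) (nat_lit 5822142853) (nat_lit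 836) (nat_lit 1738075965) (nat_lit 76) (nat_lit 444115936) (nat_lit 144) (nat_lit 5) (nat_lit 155) (nat_lit 5) (nat_lit 145) (nat_lit 5) (nat_lit 419) (nat_lit 402) (nat_lit 379)) (XT.lf (nat_lit 0) (nat_lit 191138694) (nat_lit 456) (nat_lit 4688216852) (nat_lit 76) (nat_lit 3286277806) (nat_lit 138) (nat_lit 5) (nat_lit 144) (nat_lit 5) (nat_lit 139) (nat_lit 5) (nat_lit 420) (nat_lit 402) (nat_lit 378))))))) (XT.nd (nat_lit 1170) (nat_lit 1976) (nat_lit 0) (XT.nd (nat_lit 546) (nat_lit 1444) (nat_lit 0) (XT.nd (nat_lit 234) (nat_lit 988) (nat_lit 0) (XT.nd (nat_lit 78) (nat_lit 380) (nat_lit 0) (XT.lf (nat_lit 0) (nat_lit 563258919) (nat_lit 380) (nat_lit 1991896218) (nat_lit 456) (nat_lit 5780799848) (nat_lit 133) (nat_lit 5) (nat_lit 138) (nat_lit 5) (nat_lit 139) (nat_lit 5) (nat_lit 421) (nat_lit 402) (nat_lit 377)) (XT.nd (nat_lit 78) (nat_lit 380) (nat_lit 0) (XT.lf (nat_lit 0) (nat_lit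 5043766619) (nat_lit 456) (nat_lit 2390130628) (nat_lit 76) (nat_lit 1080589601) (nat_lit 133) (nat_lit 5) (nat_lit 139) (nat_lit 5) (nat_lit 134) (nat_lit 5) (nat_lit 422) (nat_lit 402) (nat_lit 376)) (XT.lf (nat_lit 0) (nat_lit 3235471322) (nat_lit 380) (nat_lit 4418276720) (nat_lit 456) (nat_lit 1048363493) (nat_lit 128) (nat_lit 5) (nat_lit 133) (nat_lit 5) (nat_lit 134) (nat_lit 5) (nat_lit 423) (nat_lit 402) (nat_lit 375)))) (XT.nd (nat_lit 156) (nat_lit 608) (nat_lit 0) (XT.nd (nat_lit 78) (nat_lit 0) (nat_lit 0) (XT.lf (nat_lit 0) (nat_lit 212793080) (nat_lit 304) (nat_lit 1193932932) (nat_lit 380) (nat_lit 7493262879) (nat_lit 123) (nat_lit 5) (nat_lit 127) (nat_lit 5) (nat_lit 128) (nat_lit 5) (nat_lit 424) (nat_lit 402) (nat_lit 374)) (XT.lf (nat_lit 0) (nat_lit 3994973773) (nat_lit 380) (nat_lit 2890643817) (nat_lit 76) (nat_lit 2219012831) (nat_lit 123) (nat_lit 5) (nat_lit 128)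 (nat_lit 5) (nat_lit 124) (nat_lit 5) (nat_lit 425) (nat_lit 402) (nat_lit 373))) (XT.nd (nat_lit 78) (nat_lit 304) (nat_lit 0) (XT.lf (nat_lit 0) (nat_lit 3182224938) (nat_lit 304) (nat_lit 3520922536) (nat_lit 380) (nat_lit 2616841733) (nat_lit 119) (nat_lit 5) (nat_lit 123) (nat_lit 5) (nat_lit 124) (nat_lit 5) (nat_lit 426) (nat_lit 402) (nat_lit 372)) (XT.lf (nat_lit 0) (nat_lit 17185370) (nat_lit 304) (nat_lit 9503015321) (nat_lit 380) (nat_lit 27252041) (nat_lit 115) (nat_lit 5) (nat_lit 119) (nat_lit 5) (nat_lit 120) (nat_lit 5) (nat_lit 427) (nat_lit 402) (nat_lit 371))))) (XT.nd (nat_lit 312) (nat_lit 760) (nat_lit 0) (XT.nd (nat_lit 156) (nat_lit 304) (nat_lit 0) (XT.nd (nat_lit 78) (nat_lit 304) (nat_lit 0) (XT.lf (nat_lit 0) (nat_lit 2693210077) (nat_lit 380) (nat_lit 3288310406) (nat_lit 76) (nat_lit 3798299595) (nat_lit 114) (nat_lit 5) (nat_lit 119) (nat_lit 5) (nat_lit 115) (nat_lit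 5) (nat_lit 428) (nat_lit 402) (nat_lit 370)) (XT.lf (nat_lit 0) (nat_lit 3276116499) (nat_lit 304) (nat_lit 2251600715) (nat_lit 380) (nat_lit 4497128286) (nat_lit 110) (nat_lit 5) (nat_lit 114) (nat_lit 5) (nat_lit 115) (nat_lit 5) (nat_lit 429) (nat_lit 402) (nat_lit 369))) (XT.nd (nat_lit 78) (nat_lit 304) (nat_lit 0) (XT.lf (nat_lit 0) (nat_lit 8515978528) (nat_lit 380) (nat_lit 119007404) (nat_lit 76) (nat_lit 1646543327) (nat_lit 110) (nat_lit 5) (nat_lit 115) (nat_lit 5) (nat_lit 111) (nat_lit 5) (nat_lit 430) (nat_lit 402) (nat_lit 368)) (XT.lf (nat_lit 0) (nat_lit 1146585146) (nat_lit 304) (nat_lit 3629494658) (nat_lit 76) (nat_lit 5770150896) (nat_lit 106) (nat_lit 5) (nat_lit 110) (nat_lit 5) (nat_lit 107) (nat_lit 5) (nat_lit 431) (nat_lit 402) (nat_lit 367)))) (XT.nd (nat_lit 156) (nat_lit 532) (nat_lit 0) (XT.nd (nat_lit 78) (nat_lit 0) (nat_lit 0) (XT.lf (nat_lit 0) (nat_lit 3474696655)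 (nat_lit 228) (nat_lit 660110567) (nat_lit 304) (nat_lit 6688429492) (nat_lit 103) (nat_lit 5) (nat_lit 106) (nat_lit 5) (nat_lit 107) (nat_lit 5) (nat_lit 432) (nat_lit 402) (nat_lit 366)) (XT.lf (nat_lit 0) (nat_lit 7326953397) (nat_lit 304) (nat_lit 202322501) (nat_lit 76) (nat_lit 3582098481) (nat_lit 103) (nat_lit 5) (nat_lit 107) (nat_lit 5) (nat_lit 104) (nat_lit 5) (nat_lit 433) (nat_lit 402) (nat_lit 365))) (XT.nd (nat_lit 78) (nat_lit 304) (nat_lit 0) (XT.lf (nat_lit 0) (nat_lit 7439709384) (nat_lit 228) (nat_lit 3303944507) (nat_lit 304) (nat_lit 667024352) (nat_lit 100) (nat_lit 5) (nat_lit 103) (nat_lit 5) (nat_lit 104) (nat_lit 5) (nat_lit 434) (nat_lit 402) (nat_lit 364)) (XT.lf (nat_lit 0) (nat_lit 2542121690) (nat_lit 304) (nat_lit 8006321825) (nat_lit 76) (nat_lit 1173510514) (nat_lit 96) (nat_lit 5) (nat_lit 100) (nat_lit 5) (nat_lit 97) (nat_lit 5) (nat_lit 435) (nat_lit 402)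 (nat_lit 363)))))) (XT.nd (nat_lit 624) (nat_lit 912) (nat_lit 0) (XT.nd (nat_lit 312) (nat_lit 608) (nat_lit 0) (XT.nd (nat_lit 156) (nat_lit 304) (nat_lit 0) (XT.nd (nat_lit 78) (nat_lit 152) (nat_lit 0) (XT.lf (nat_lit 0) (nat_lit 5951502133) (nat_lit 304) (nat_lit 277722300) (nat_lit 76) (nat_lit 5815918515) (nat_lit 96) (nat_lit 5) (nat_lit 100) (nat_lit 5) (nat_lit 97) (nat_lit 5) (nat_lit 436) (nat_lit 402) (nat_lit 362)) (XT.lf (nat_lit 0) (nat_lit 8007386638) (nat_lit 152) (nat_lit 1591532919) (nat_lit 228) (nat_lit 2782198842) (nat_lit 94) (nat_lit 5) (nat_lit 96) (nat_lit 5) (nat_lit 97) (nat_lit 5) (nat_lit 437) (nat_lit 402) (nat_lit 361))) (XT.nd (nat_lit 78) (nat_lit 0) (nat_lit 0) (XT.lf (nat_lit 0) (nat_lit 735056774) (nat_lit 304) (nat_lit 8771265092) (nat_lit 76) (nat_lit 3223909331) (nat_lit 90) (nat_lit 5) (nat_lit 94) (nat_lit 5) (nat_lit 91) (nat_lit 5) (nat_lit 438) (nat_lit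 402) (nat_lit 360)) (XT.lf (nat_lit 0) (nat_lit 4380005786) (nat_lit 304) (nat_lit 393492076) (nat_lit 76) (nat_lit 8318759482) (nat_lit 90) (nat_lit 5) (nat_lit 94) (nat_lit 5) (nat_lit 91) (nat_lit 5) (nat_lit 439) (nat_lit 402) (nat_lit 359)))) (XT.nd (nat_lit 156) (nat_lit 228) (nat_lit 0) (XT.nd (nat_lit 78) (nat_lit 228) (nat_lit 0) (XT.lf (nat_lit 0) (nat_lit 8292804378) (nat_lit 228) (nat_lit 4878335036) (nat_lit 76) (nat_lit 296969790) (nat_lit 88) (nat_lit 5) (nat_lit 91) (nat_lit 5) (nat_lit 89) (nat_lit 5) (nat_lit 440) (nat_lit 402) (nat_lit 358)) (XT.lf (nat_lit 0) (nat_lit 4143447964) (nat_lit 228) (nat_lit 8354927964) (nat_lit 304) (nat_lit 1359525377) (nat_lit 85) (nat_lit 5) (nat_lit 88) (nat_lit 5) (nat_lit 89) (nat_lit 5) (nat_lit 441) (nat_lit 402) (nat_lit 357))) (XT.nd (nat_lit 78) (nat_lit 152) (nat_lit 0) (XT.lf (nat_lit 0) (nat_lit 2594071105) (nat_lit 304) (nat_lit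 604670477) (nat_lit 76) (nat_lit 11064791438) (nat_lit 84) (nat_lit 5) (nat_lit 88) (nat_lit 5) (nat_lit 85) (nat_lit 5) (nat_lit 442) (nat_lit 402) (nat_lit 356)) (XT.lf (nat_lit 0) (nat_lit 6829602300) (nat_lit 228) (nat_lit 5569892032) (nat_lit 76) (nat_lit 2282344143) (nat_lit 82) (nat_lit 5) (nat_lit 85) (nat_lit 5) (nat_lit 83) (nat_lit 5) (nat_lit 443) (nat_lit 402) (nat_lit 355))))) (XT.nd (nat_lit 312) (nat_lit 380) (nat_lit 0) (XT.nd (nat_lit 156) (nat_lit 304) (nat_lit 0) (XT.nd (nat_lit 78) (nat_lit 76) (nat_lit 0) (XT.lf (nat_lit 0) (nat_lit 4215923160) (nat_lit 152) (nat_lit 7140572515) (nat_lit 228) (nat_lit 3760587783) (nat_lit 80) (nat_lit 5) (nat_lit 82) (nat_lit 5) (nat_lit 83) (nat_lit 5) (nat_lit 444) (nat_lit 402) (nat_lit 354)) (XT.lf (nat_lit 0) (nat_lit 565590127) (nat_lit 228) (nat_lit 976432401) (nat_lit 76) (nat_lit 14029298672) (nat_lit 79) (nat_lit 5) (nat_lit 82)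 (nat_lit 5) (nat_lit 80) (nat_lit 5) (nat_lit 445) (nat_lit 402) (nat_lit 353))) (XT.nd (nat_lit 78) (nat_lit 152) (nat_lit 0) (XT.lf (nat_lit 0) (nat_lit 5156007523) (nat_lit 228) (nat_lit 6497811626) (nat_lit 76) (nat_lit 4382656737) (nat_lit 77) (nat_lit 5) (nat_lit 80) (nat_lit 5) (nat_lit 78) (nat_lit 5) (nat_lit 446) (nat_lit 402) (nat_lit 352)) (XT.lf (nat_lit 0) (nat_lit 4117378138) (nat_lit 152) (nat_lit 5919012621) (nat_lit 228) (nat_lit 6485478205) (nat_lit 75) (nat_lit 5) (nat_lit 77) (nat_lit 5) (nat_lit 78) (nat_lit 5) (nat_lit 447) (nat_lit 402) (nat_lit 351)))) (XT.nd (nat_lit 156) (nat_lit 152) (nat_lit 0) (XT.nd (nat_lit 78) (nat_lit 228) (nat_lit 0) (XT.lf (nat_lit 0) (nat_lit 15228802115) (nat_lit 228) (nat_lit 1619213589) (nat_lit 76) (nat_lit 180118314) (nat_lit 75) (nat_lit 5) (nat_lit 78) (nat_lit 5) (nat_lit 76) (nat_lit 4) (nat_lit 448) (nat_lit 402) (nat_lit 350)) (XT.lf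 (nat_lit 0) (nat_lit 3232146708) (nat_lit 228) (nat_lit 7752908872) (nat_lit 76) (nat_lit 6561676766) (nat_lit 72) (nat_lit 5) (nat_lit 75) (nat_lit 5) (nat_lit 73) (nat_lit 5) (nat_lit 449) (nat_lit 402) (nat_lit 349))) (XT.nd (nat_lit 78) (nat_lit 0) (nat_lit 0) (XT.lf (nat_lit 0) (nat_lit 3759038311) (nat_lit 152) (nat_lit 4739189242) (nat_lit 228) (nat_lit 9589385685) (nat_lit 70) (nat_lit 5) (nat_lit 72) (nat_lit 5) (nat_lit 73) (nat_lit 5) (nat_lit 450) (nat_lit 402) (nat_lit 348)) (XT.lf (nat_lit 0) (nat_lit 14146799928) (nat_lit 228) (nat_lit 2639346501) (nat_lit 76) (nat_lit 1863434651) (nat_lit 70) (nat_lit 5) (nat_lit 73) (nat_lit 5) (nat_lit 71) (nat_lit 4) (nat_lit 451) (nat_lit 402) (nat_lit 347))))))))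
noncomputable def xc99 : XT := (XT.nd (nat_lit 2418) (nat_lit 1672) (nat_lit 0) (XT.nd (nat_lit 1170) (nat_lit 988) (nat_lit 0) (XT.nd (nat_lit 546) (nat_lit 760) (nat_lit 0) (XT.nd (nat_lit 234) (nat_lit 380) (nat_lit 0) (XT.nd (nat_lit 78) (nat_lit 152) (nat_lit 0) (XT.lf (nat_lit 0) (nat_lit 1004479255) (nat_lit 152) (nat_lit 9448060175) (nat_lit 76) (nat_lit 8776798065) (nat_lit 68) (nat_lit 5) (nat_lit 70) (nat_lit 5) (nat_lit 69) (nat_lit 5) (nat_lit 452) (nat_lit 402) (nat_lit 346)) (XT.nd (nat_lit 78) (nat_lit 0) (nat_lit 0) (XT.lf (nat_lit 0) (nat_lit 3028966327) (nat_lit 152) (nat_lit 3659078381) (nat_lit 228) (nat_lit 13143734936) (nat_lit 66) (nat_lit 5) (nat_lit 68) (nat_lit 5) (nat_lit 69) (nat_lit 5) (nat_lit 453) (nat_lit 402) (nat_lit 345)) (XT.lf (nat_lit 0) (nat_lit 12832530553) (nat_lit 228) (nat_lit 4127825958) (nat_lit 76) (nat_lit 3495152159) (nat_lit 66) (nat_lit 5) (nat_lit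 69) (nat_lit 5) (nat_lit 67) (nat_lit 4) (nat_lit 454) (nat_lit 402) (nat_lit 344)))) (XT.nd (nat_lit 156) (nat_lit 76) (nat_lit 0) (XT.nd (nat_lit 78) (nat_lit 228) (nat_lit 0) (XT.lf (nat_lit 0) (nat_lit 9351194813) (nat_lit 76) (nat_lit 10100811818) (nat_lit 152) (nat_lit 1650031004) (nat_lit 65) (nat_lit 5) (nat_lit 66) (nat_lit 5) (nat_lit 67) (nat_lit 4) (nat_lit 455) (nat_lit 402) (nat_lit 343)) (XT.lf (nat_lit 0) (nat_lit 1784723591) (nat_lit 152) (nat_lit 2749764783) (nat_lit 228) (nat_lit 17239756327) (nat_lit 62) (nat_lit 5) (nat_lit 64) (nat_lit 5) (nat_lit 65) (nat_lit 5) (nat_lit 456) (nat_lit 402) (nat_lit 342))) (XT.nd (nat_lit 78) (nat_lit 76) (nat_lit 0) (XT.lf (nat_lit 0) (nat_lit 11214824977) (nat_lit 228) (nat_lit 6242417215) (nat_lit 76) (nat_lit 5009366829) (nat_lit 62) (nat_lit 5) (nat_lit 65) (nat_lit 5) (nat_lit 63) (nat_lit 4) (nat_lit 457) (nat_lit 402) (nat_lit 341))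 (XT.lf (nat_lit 0) (nat_lit 8348012348) (nat_lit 76) (nat_lit 10020577257) (nat_lit 152) (nat_lit 4818032862) (nat_lit 61) (nat_lit 5) (nat_lit 62) (nat_lit 5) (nat_lit 63) (nat_lit 4) (nat_lit 458) (nat_lit 402) (nat_lit 340))))) (XT.nd (nat_lit 312) (nat_lit 456) (nat_lit 0) (XT.nd (nat_lit 156) (nat_lit 76) (nat_lit 0) (XT.nd (nat_lit 78) (nat_lit 152) (nat_lit 0) (XT.lf (nat_lit 0) (nat_lit 1946963781) (nat_lit 152) (nat_lit 150907078) (nat_lit 76) (nat_lit 21839676293) (nat_lit 60) (nat_lit 5) (nat_lit 62) (nat_lit 5) (nat_lit 61) (nat_lit 5) (nat_lit 459) (nat_lit 402) (nat_lit 339)) (XT.lf (nat_lit 0) (nat_lit 9200104910) (nat_lit 228) (nat_lit 9184220925) (nat_lit 76) (nat_lit 6322153689) (nat_lit 58) (nat_lit 5) (nat_lit 61) (nat_lit 5) (nat_lit 59) (nat_lit 4) (nat_lit 460) (nat_lit 402) (nat_lit 338))) (XT.nd (nat_lit 78) (nat_lit 0) (nat_lit 0) (XT.lf (nat_lit 0) (nat_lit 6583553680)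 (nat_lit 76) (nat_lit 10338162359) (nat_lit 152) (nat_lit 8586853037) (nat_lit 57) (nat_lit 5) (nat_lit 58) (nat_lit 5) (nat_lit 59) (nat_lit 4) (nat_lit 461) (nat_lit 402) (nat_lit 337)) (XT.lf (nat_lit 0) (nat_lit 23396274787) (nat_lit 76) (nat_lit 1755353156) (nat_lit 152) (nat_lit 1193025304) (nat_lit 57) (nat_lit 5) (nat_lit 58) (nat_lit 5) (nat_lit 59) (nat_lit 4) (nat_lit 462) (nat_lit 402) (nat_lit 336)))) (XT.nd (nat_lit 156) (nat_lit 152) (nat_lit 0) (XT.nd (nat_lit 78) (nat_lit 76) (nat_lit 0) (XT.lf (nat_lit 0) (nat_lit 6666483185) (nat_lit 228) (nat_lit 13210252706) (nat_lit 76) (nat_lit 7325363277) (nat_lit 54) (nat_lit 5) (nat_lit 57) (nat_lit 5) (nat_lit 55) (nat_lit 4) (nat_lit 463) (nat_lit 402) (nat_lit 335)) (XT.lf (nat_lit 0) (nat_lit 3793202456) (nat_lit 76) (nat_lit 11192341496) (nat_lit 152) (nat_lit 13110563021) (nat_lit 53) (nat_lit 5) (nat_lit 54) (nat_lit 5) (nat_lit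 55) (nat_lit 4) (nat_lit 464) (nat_lit 402) (nat_lit 334))) (XT.nd (nat_lit 78) (nat_lit 152) (nat_lit 0) (XT.lf (nat_lit 0) (nat_lit 22045863545) (nat_lit 76) (nat_lit 1866934091) (nat_lit 152) (nat_lit 5112406487) (nat_lit 53) (nat_lit 5) (nat_lit 54) (nat_lit 5) (nat_lit 55) (nat_lit 4) (nat_lit 465) (nat_lit 402) (nat_lit 333)) (XT.lf (nat_lit 0) (nat_lit 3456152327) (nat_lit 152) (nat_lit 18649444784) (nat_lit 76) (nat_lit 7878812160) (nat_lit 51) (nat_lit 5) (nat_lit 53) (nat_lit 5) (nat_lit 52) (nat_lit 4) (nat_lit 466) (nat_lit 402) (nat_lit 332)))))) (XT.nd (nat_lit 624) (nat_lit 456) (nat_lit 0) (XT.nd (nat_lit 312) (nat_lit 304) (nat_lit 0) (XT.nd (nat_lit 156) (nat_lit 152) (nat_lit 0) (XT.nd (nat_lit 78) (nat_lit 76) (nat_lit 0) (XT.lf (nat_lit 0) (nat_lit 12401738455) (nat_lit 152) (nat_lit 352637935) (nat_lit 76) (nat_lit 18226988118) (nat_lit 51) (nat_lit 5) (nat_lit 53) (nat_lit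 5) (nat_lit 52) (nat_lit 4) (nat_lit 467) (nat_lit 402) (nat_lit 331)) (XT.lf (nat_lit 0) (nat_lit 19425595496) (nat_lit 76) (nat_lit 2643408845) (nat_lit 152) (nat_lit 9945443925) (nat_lit 50) (nat_lit 5) (nat_lit 51) (nat_lit 5) (nat_lit 52) (nat_lit 4) (nat_lit 468) (nat_lit 402) (nat_lit 330))) (XT.nd (nat_lit 78) (nat_lit 76) (nat_lit 0) (XT.lf (nat_lit 0) (nat_lit 7155249204) (nat_lit 76) (nat_lit 25277886736) (nat_lit 76) (nat_lit 655375891) (nat_lit 49) (nat_lit 4) (nat_lit 50) (nat_lit 5) (nat_lit 50) (nat_lit 4) (nat_lit 469) (nat_lit 402) (nat_lit 329)) (XT.lf (nat_lit 0) (nat_lit 9039285658) (nat_lit 152) (nat_lit 6126236454) (nat_lit 76) (nat_lit 19032087879) (nat_lit 48) (nat_lit 5) (nat_lit 50) (nat_lit 5) (nat_lit 49) (nat_lit 4) (nat_lit 470) (nat_lit 402) (nat_lit 328)))) (XT.nd (nat_lit 156) (nat_lit 152) (nat_lit 0) (XT.nd (nat_lit 78) (nat_lit 76) (nat_lit 0) (XT.lf (nat_lit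 0) (nat_lit 15090691586) (nat_lit 76) (nat_lit 4314232006) (nat_lit 152) (nat_lit 15946289502) (nat_lit 47) (nat_lit 5) (nat_lit 48) (nat_lit 5) (nat_lit 49) (nat_lit 4) (nat_lit 471) (nat_lit 402) (nat_lit 327)) (XT.lf (nat_lit 0) (nat_lit 887204299) (nat_lit 76) (nat_lit 29604237425) (nat_lit 76) (nat_lit 6060925324) (nat_lit 46) (nat_lit 4) (nat_lit 47) (nat_lit 5) (nat_lit 47) (nat_lit 4) (nat_lit 472) (nat_lit 402) (nat_lit 326))) (XT.nd (nat_lit 78) (nat_lit 76) (nat_lit 0) (XT.lf (nat_lit 0) (nat_lit 4572762248) (nat_lit 152) (nat_lit 14197336274) (nat_lit 76) (nat_lit 19020495337) (nat_lit 45) (nat_lit 5) (nat_lit 47) (nat_lit 5) (nat_lit 46) (nat_lit 4) (nat_lit 473) (nat_lit 402) (nat_lit 325)) (XT.lf (nat_lit 0) (nat_lit 8465123252) (nat_lit 76) (nat_lit 7175592206) (nat_lit 152) (nat_lit 23439735702) (nat_lit 44) (nat_lit 5) (nat_lit 45) (nat_lit 5) (nat_lit 46) (nat_lit 4) (nat_lit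 474) (nat_lit 402) (nat_lit 324))))) (XT.nd (nat_lit 312) (nat_lit 228) (nat_lit 0) (XT.nd (nat_lit 156) (nat_lit 152) (nat_lit 0) (XT.nd (nat_lit 78) (nat_lit 76) (nat_lit 0) (XT.lf (nat_lit 0) (nat_lit 27558677148) (nat_lit 152) (nat_lit 7801578593) (nat_lit 0) (nat_lit 5059715548) (nat_lit 44) (nat_lit 5) (nat_lit 46) (nat_lit 4) (nat_lit 44) (nat_lit 4) (nat_lit 475) (nat_lit 402) (nat_lit 323)) (XT.lf (nat_lit 0) (nat_lit 16515815701) (nat_lit 76) (nat_lit 23907628876) (nat_lit 76) (nat_lit 1385477941) (nat_lit 43) (nat_lit 4) (nat_lit 44) (nat_lit 5) (nat_lit 44) (nat_lit 4) (nat_lit 476) (nat_lit 402) (nat_lit 322))) (XT.nd (nat_lit 78) (nat_lit 76) (nat_lit 0) (XT.lf (nat_lit 0) (nat_lit 10432553298) (nat_lit 152) (nat_lit 1157501755) (nat_lit 76) (nat_lit 31663454695) (nat_lit 42) (nat_lit 5) (nat_lit 44) (nat_lit 5) (nat_lit 43) (nat_lit 4) (nat_lit 477) (nat_lit 402) (nat_lit 321))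 (XT.lf (nat_lit 0) (nat_lit 23187895148) (nat_lit 152) (nat_lit 19864485097) (nat_lit 0) (nat_lit 1697162360) (nat_lit 41) (nat_lit 5) (nat_lit 43) (nat_lit 4) (nat_lit 41) (nat_lit 4) (nat_lit 478) (nat_lit 402) (nat_lit 320)))) (XT.nd (nat_lit 156) (nat_lit 76) (nat_lit 0) (XT.nd (nat_lit 78) (nat_lit 76) (nat_lit 0) (XT.lf (nat_lit 0) (nat_lit 5903320147) (nat_lit 76) (nat_lit 30956464518) (nat_lit 76) (nat_lit 9446653806) (nat_lit 40) (nat_lit 4) (nat_lit 41) (nat_lit 5) (nat_lit 41) (nat_lit 4) (nat_lit 479) (nat_lit 402) (nat_lit 319)) (XT.lf (nat_lit 0) (nat_lit 3487946127) (nat_lit 152) (nat_lit 14377690601) (nat_lit 76) (nat_lit 30057054477) (nat_lit 39) (nat_lit 5) (nat_lit 41) (nat_lit 5) (nat_lit 40) (nat_lit 4) (nat_lit 480) (nat_lit 402) (nat_lit 318))) (XT.nd (nat_lit 78) (nat_lit 0) (nat_lit 0) (XT.lf (nat_lit 0) (nat_lit 13172052100) (nat_lit 76) (nat_lit 3763233998) (nat_lit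 152) (nat_lit 32667553681) (nat_lit 38) (nat_lit 5) (nat_lit 39) (nat_lit 5) (nat_lit 40) (nat_lit 4) (nat_lit 481) (nat_lit 402) (nat_lit 317)) (XT.lf (nat_lit 0) (nat_lit 31452791178) (nat_lit 152) (nat_lit 8976537776) (nat_lit 0) (nat_lit 10917777245) (nat_lit 38) (nat_lit 5) (nat_lit 40) (nat_lit 4) (nat_lit 38) (nat_lit 4) (nat_lit 482) (nat_lit 402) (nat_lit 316))))))) (XT.nd (nat_lit 1170) (nat_lit 760) (nat_lit 0) (XT.nd (nat_lit 546) (nat_lit 456) (nat_lit 0) (XT.nd (nat_lit 234) (nat_lit 228) (nat_lit 0) (XT.nd (nat_lit 78) (nat_lit 152) (nat_lit 0) (XT.lf (nat_lit 0) (nat_lit 20400006980) (nat_lit 76) (nat_lit 26655292430) (nat_lit 76) (nat_lit 6105330445) (nat_lit 37) (nat_lit 4) (nat_lit 38) (nat_lit 5) (nat_lit 38) (nat_lit 4) (nat_lit 483) (nat_lit 402) (nat_lit 315)) (XT.nd (nat_lit 78) (nat_lit 76) (nat_lit 0) (XT.lf (nat_lit 0) (nat_lit 8238583827) (nat_lit 152) (nat_lit 3675101378)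 (nat_lit 76) (nat_lit 43137934784) (nat_lit 36) (nat_lit 5) (nat_lit 38) (nat_lit 5) (nat_lit 37) (nat_lit 4) (nat_lit 484) (nat_lit 402) (nat_lit 314)) (XT.lf (nat_lit 0) (nat_lit 23569581581) (nat_lit 152) (nat_lit 29467102402) (nat_lit 0) (nat_lit 3971718199) (nat_lit 35) (nat_lit 5) (nat_lit 37) (nat_lit 4) (nat_lit 35) (nat_lit 4) (nat_lit 485) (nat_lit 402) (nat_lit 313)))) (XT.nd (nat_lit 156) (nat_lit 152) (nat_lit 0) (XT.nd (nat_lit 78) (nat_lit 0) (nat_lit 0) (XT.lf (nat_lit 0) (nat_lit 1188167767) (nat_lit 76) (nat_lit 38736080597) (nat_lit 76) (nat_lit 19125919417) (nat_lit 34) (nat_lit 4) (nat_lit 35) (nat_lit 5) (nat_lit 35) (nat_lit 4) (nat_lit 486) (nat_lit 402) (nat_lit 312)) (XT.lf (nat_lit 0) (nat_lit 34360138489) (nat_lit 76) (nat_lit 23215893796) (nat_lit 76) (nat_lit 3594020425) (nat_lit 34) (nat_lit 4) (nat_lit 35) (nat_lit 5) (nat_lit 35) (nat_lit 4) (nat_lit 487) (nat_lit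 402) (nat_lit 311))) (XT.nd (nat_lit 78) (nat_lit 0) (nat_lit 0) (XT.lf (nat_lit 0) (nat_lit 5742191360) (nat_lit 76) (nat_lit 6635964345) (nat_lit 152) (nat_lit 51004319736) (nat_lit 32) (nat_lit 5) (nat_lit 33) (nat_lit 5) (nat_lit 34) (nat_lit 4) (nat_lit 488) (nat_lit 402) (nat_lit 310)) (XT.lf (nat_lit 0) (nat_lit 29638844142) (nat_lit 152) (nat_lit 25102590187) (nat_lit 0) (nat_lit 10930604962) (nat_lit 32) (nat_lit 5) (nat_lit 34) (nat_lit 4) (nat_lit 32) (nat_lit 4) (nat_lit 489) (nat_lit 402) (nat_lit 309))))) (XT.nd (nat_lit 312) (nat_lit 228) (nat_lit 0) (XT.nd (nat_lit 156) (nat_lit 152) (nat_lit 0) (XT.nd (nat_lit 78) (nat_lit 0) (nat_lit 0) (XT.lf (nat_lit 0) (nat_lit 9211949659) (nat_lit 76) (nat_lit 38785140277) (nat_lit 76) (nat_lit 20067265449) (nat_lit 31) (nat_lit 4) (nat_lit 32) (nat_lit 5) (nat_lit 32) (nat_lit 4) (nat_lit 490) (nat_lit 402) (nat_lit 308)) (XT.lf (nat_lit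 0) (nat_lit 46078211520) (nat_lit 76) (nat_lit 21602380202) (nat_lit 76) (nat_lit 2875328566) (nat_lit 31) (nat_lit 4) (nat_lit 32) (nat_lit 5) (nat_lit 32) (nat_lit 4) (nat_lit 491) (nat_lit 402) (nat_lit 307))) (XT.nd (nat_lit 78) (nat_lit 0) (nat_lit 0) (XT.lf (nat_lit 0) (nat_lit 11719488219) (nat_lit 76) (nat_lit 3136745767) (nat_lit 152) (nat_lit 58295694359) (nat_lit 29) (nat_lit 5) (nat_lit 30) (nat_lit 5) (nat_lit 31) (nat_lit 4) (nat_lit 492) (nat_lit 402) (nat_lit 306)) (XT.lf (nat_lit 0) (nat_lit 34035639728) (nat_lit 152) (nat_lit 25622744116) (nat_lit 0) (nat_lit 16184101549) (nat_lit 29) (nat_lit 5) (nat_lit 31) (nat_lit 4) (nat_lit 29) (nat_lit 4) (nat_lit 493) (nat_lit 402) (nat_lit 305)))) (XT.nd (nat_lit 156) (nat_lit 152) (nat_lit 0) (XT.nd (nat_lit 78) (nat_lit 0) (nat_lit 0) (XT.lf (nat_lit 0) (nat_lit 12286481625) (nat_lit 76) (nat_lit 42114416337) (nat_lit 76) (nat_lit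 24255328376) (nat_lit 28) (nat_lit 4) (nat_lit 29) (nat_lit 5) (nat_lit 29) (nat_lit 4) (nat_lit 494) (nat_lit 402) (nat_lit 304)) (XT.lf (nat_lit 0) (nat_lit 52948483986) (nat_lit 76) (nat_lit 23253778283) (nat_lit 76) (nat_lit 5387500054) (nat_lit 28) (nat_lit 4) (nat_lit 29) (nat_lit 5) (nat_lit 29) (nat_lit 4) (nat_lit 495) (nat_lit 402) (nat_lit 303))) (XT.nd (nat_lit 78) (nat_lit 0) (nat_lit 0) (XT.lf (nat_lit 0) (nat_lit 11071547352) (nat_lit 76) (nat_lit 3047805553) (nat_lit 152) (nat_lit 70531498484) (nat_lit 26) (nat_lit 5) (nat_lit 27) (nat_lit 5) (nat_lit 28) (nat_lit 4) (nat_lit 496) (nat_lit 402) (nat_lit 302)) (XT.lf (nat_lit 0) (nat_lit 35181605306) (nat_lit 152) (nat_lit 34487548922) (nat_lit 0) (nat_lit 18153369220) (nat_lit 26) (nat_lit 5) (nat_lit 28) (nat_lit 4) (nat_lit 26) (nat_lit 4) (nat_lit 497) (nat_lit 402) (nat_lit 301)))))) (XT.nd (nat_lit 624) (nat_lit 304) (nat_lit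 0) (XT.nd (nat_lit 312) (nat_lit 228) (nat_lit 0) (XT.nd (nat_lit 156) (nat_lit 152) (nat_lit 0) (XT.nd (nat_lit 78) (nat_lit 0) (nat_lit 0) (XT.lf (nat_lit 0) (nat_lit 6693295758) (nat_lit 76) (nat_lit 50743326214) (nat_lit 76) (nat_lit 33709174676) (nat_lit 25) (nat_lit 4) (nat_lit 26) (nat_lit 5) (nat_lit 26) (nat_lit 4) (nat_lit 498) (nat_lit 402) (nat_lit 300)) (XT.lf (nat_lit 0) (nat_lit 51101231091) (nat_lit 76) (nat_lit 30272656466) (nat_lit 76) (nat_lit 13232871165) (nat_lit 25) (nat_lit 4) (nat_lit 26) (nat_lit 5) (nat_lit 26) (nat_lit 4) (nat_lit 499) (nat_lit 402) (nat_lit 299))) (XT.nd (nat_lit 78) (nat_lit 76) (nat_lit 0) (XT.lf (nat_lit 0) (nat_lit 7988544799) (nat_lit 152) (nat_lit 668633952) (nat_lit 76) (nat_lit 89577841466) (nat_lit 24) (nat_lit 5) (nat_lit 26) (nat_lit 5) (nat_lit 25) (nat_lit 4) (nat_lit 500) (nat_lit 402) (nat_lit 298)) (XT.lf (nat_lit 0) (nat_lit 30757822334)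 (nat_lit 152) (nat_lit 56709972103) (nat_lit 0) (nat_lit 14519478734) (nat_lit 23) (nat_lit 5) (nat_lit 25) (nat_lit 4) (nat_lit 23) (nat_lit 4) (nat_lit 501) (nat_lit 402) (nat_lit 297)))) (XT.nd (nat_lit 156) (nat_lit 152) (nat_lit 0) (XT.nd (nat_lit 78) (nat_lit 76) (nat_lit 0) (XT.lf (nat_lit 0) (nat_lit 54805582166) (nat_lit 152) (nat_lit 12551952129) (nat_lit 0) (nat_lit 38562603653) (nat_lit 23) (nat_lit 5) (nat_lit 25) (nat_lit 4) (nat_lit 23) (nat_lit 4) (nat_lit 502) (nat_lit 402) (nat_lit 296)) (XT.lf (nat_lit 0) (nat_lit 34905427913) (nat_lit 76) (nat_lit 45682500468) (nat_lit 76) (nat_lit 29435107754) (nat_lit 22) (nat_lit 4) (nat_lit 23) (nat_lit 5) (nat_lit 23) (nat_lit 4) (nat_lit 503) (nat_lit 402) (nat_lit 295))) (XT.nd (nat_lit 78) (nat_lit 152) (nat_lit 0) (XT.lf (nat_lit 0) (nat_lit 85146134821) (nat_lit 76) (nat_lit 22713270276) (nat_lit 76) (nat_lit 6461673561) (nat_lit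 22) (nat_lit 4) (nat_lit 23) (nat_lit 5) (nat_lit 23) (nat_lit 4) (nat_lit 504) (nat_lit 402) (nat_lit 294)) (XT.lf (nat_lit 0) (nat_lit 17416900710) (nat_lit 152) (nat_lit 99451874210) (nat_lit 0) (nat_lit 1935376400) (nat_lit 20) (nat_lit 5) (nat_lit 22) (nat_lit 4) (nat_lit 20) (nat_lit 4) (nat_lit 505) (nat_lit 402) (nat_lit 293))))) (XT.nd (nat_lit 312) (nat_lit 228) (nat_lit 0) (XT.nd (nat_lit 156) (nat_lit 76) (nat_lit 0) (XT.nd (nat_lit 78) (nat_lit 0) (nat_lit 0) (XT.lf (nat_lit 0) (nat_lit 43134643683) (nat_lit 152) (nat_lit 52678830023) (nat_lit 0) (nat_lit 27649487799) (nat_lit 20) (nat_lit 5) (nat_lit 22) (nat_lit 4) (nat_lit 20) (nat_lit 4) (nat_lit 506) (nat_lit 402) (nat_lit 292)) (XT.lf (nat_lit 0) (nat_lit 70126706416) (nat_lit 152) (nat_lit 3590492335) (nat_lit 0) (nat_lit 54638091890) (nat_lit 20) (nat_lit 5) (nat_lit 22) (nat_lit 4) (nat_lit 20) (nat_lit 4) (nat_lit 507)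 (nat_lit 402) (nat_lit 291))) (XT.nd (nat_lit 78) (nat_lit 0) (nat_lit 0) (XT.lf (nat_lit 0) (nat_lit 49514798632) (nat_lit 76) (nat_lit 49715621865) (nat_lit 76) (nat_lit 34223713393) (nat_lit 19) (nat_lit 4) (nat_lit 20) (nat_lit 5) (nat_lit 20) (nat_lit 4) (nat_lit 508) (nat_lit 402) (nat_lit 290)) (XT.lf (nat_lit 0) (nat_lit 105378120360) (nat_lit 76) (nat_lit 24461172959) (nat_lit 76) (nat_lit 8966127397) (nat_lit 19) (nat_lit 4) (nat_lit 20) (nat_lit 5) (nat_lit 20) (nat_lit 4) (nat_lit 509) (nat_lit 402) (nat_lit 289)))) (XT.nd (nat_lit 156) (nat_lit 76) (nat_lit 0) (XT.nd (nat_lit 78) (nat_lit 0) (nat_lit 0) (XT.lf (nat_lit 0) (nat_lit 17335068725) (nat_lit 152) (nat_lit 124483333591) (nat_lit 0) (nat_lit 2575037042) (nat_lit 17) (nat_lit 5) (nat_lit 19) (nat_lit 4) (nat_lit 17) (nat_lit 4) (nat_lit 510) (nat_lit 402) (nat_lit 288)) (XT.lf (nat_lit 0) (nat_lit 45615917104) (nat_lit 152)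 (nat_lit 73736121458) (nat_lit 0) (nat_lit 30853175484) (nat_lit 17) (nat_lit 5) (nat_lit 19) (nat_lit 4) (nat_lit 17) (nat_lit 4) (nat_lit 511) (nat_lit 402) (nat_lit 287))) (XT.nd (nat_lit 78) (nat_lit 76) (nat_lit 0) (XT.lf (nat_lit 0) (nat_lit 75300829170) (nat_lit 152) (nat_lit 20471740630) (nat_lit 0) (nat_lit 60535506658) (nat_lit 17) (nat_lit 5) (nat_lit 19) (nat_lit 4) (nat_lit 17) (nat_lit 4) (nat_lit 512) (nat_lit 402) (nat_lit 286)) (XT.lf (nat_lit 0) (nat_lit 36608323834) (nat_lit 76) (nat_lit 70423717982) (nat_lit 76) (nat_lit 55655937478) (nat_lit 16) (nat_lit 4) (nat_lit 17) (nat_lit 5) (nat_lit 17) (nat_lit 4) (nat_lit 513) (nat_lit 402) (nat_lit 285))))))))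
noncomputable def xc100 : XT := (XT.nd (nat_lit 2418) (nat_lit 76) (nat_lit 0) (XT.nd (nat_lit 1170) (nat_lit 380) (nat_lit 0) (XT.nd (nat_lit 546) (nat_lit 228) (nat_lit 0) (XT.nd (nat_lit 234) (nat_lit 76) (nat_lit 0) (XT.nd (nat_lit 78) (nat_lit 152) (nat_lit 0) (XT.lf (nat_lit 0) (nat_lit 97234203906) (nat_lit 76) (nat_lit 43452963620) (nat_lit 76) (nat_lit 28682842171) (nat_lit 16) (nat_lit 4) (nat_lit 17) (nat_lit 5) (nat_lit 17) (nat_lit 4) (nat_lit 514) (nat_lit 402) (nat_lit 284)) (XT.nd (nat_lit 78) (nat_lit 152) (nat_lit 0) (XT.lf (nat_lit 0) (nat_lit 160873358721) (nat_lit 76) (nat_lit 15142789467) (nat_lit 76) (nat_lit 370438546) (nat_lit 16) (nat_lit 4) (nat_lit 17) (nat_lit 5) (nat_lit 17) (nat_lit 4) (nat_lit 515) (nat_lit 402) (nat_lit 283)) (XT.lf (nat_lit 0) (nat_lit 29356934403) (nat_lit 152) (nat_lit 139041185223) (nat_lit 0) (nat_lit 15286006568) (nat_lit 14) (nat_lit 5)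 (nat_lit 16) (nat_lit 4) (nat_lit 14) (nat_lit 4) (nat_lit 516) (nat_lit 402) (nat_lit 282)))) (XT.nd (nat_lit 156) (nat_lit 76) (nat_lit 0) (XT.nd (nat_lit 78) (nat_lit 0) (nat_lit 0) (XT.lf (nat_lit 0) (nat_lit 61064890416) (nat_lit 152) (nat_lit 83263978754) (nat_lit 0) (nat_lit 46992036679) (nat_lit 14) (nat_lit 5) (nat_lit 16) (nat_lit 4) (nat_lit 14) (nat_lit 4) (nat_lit 517) (nat_lit 402) (nat_lit 281)) (XT.lf (nat_lit 0) (nat_lit 94350044378) (nat_lit 152) (nat_lit 24714533691) (nat_lit 0) (nat_lit 80275356449) (nat_lit 14) (nat_lit 5) (nat_lit 16) (nat_lit 4) (nat_lit 14) (nat_lit 4) (nat_lit 518) (nat_lit 402) (nat_lit 280))) (XT.nd (nat_lit 78) (nat_lit 0) (nat_lit 0) (XT.lf (nat_lit 0) (nat_lit 37961560413) (nat_lit 76) (nat_lit 91922772587) (nat_lit 76) (nat_lit 77846337809) (nat_lit 13) (nat_lit 4) (nat_lit 14) (nat_lit 5) (nat_lit 14) (nat_lit 4) (nat_lit 519) (nat_lit 402) (nat_lit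 279)) (XT.lf (nat_lit 0) (nat_lit 104613917134) (nat_lit 76) (nat_lit 62992290831) (nat_lit 76) (nat_lit 48914192387) (nat_lit 13) (nat_lit 4) (nat_lit 14) (nat_lit 5) (nat_lit 14) (nat_lit 4) (nat_lit 520) (nat_lit 402) (nat_lit 278))))) (XT.nd (nat_lit 312) (nat_lit 76) (nat_lit 0) (XT.nd (nat_lit 156) (nat_lit 0) (nat_lit 0) (XT.nd (nat_lit 78) (nat_lit 152) (nat_lit 0) (XT.lf (nat_lit 0) (nat_lit 174584058460) (nat_lit 76) (nat_lit 32622803290) (nat_lit 76) (nat_lit 18543120402) (nat_lit 13) (nat_lit 4) (nat_lit 14) (nat_lit 5) (nat_lit 14) (nat_lit 4) (nat_lit 521) (nat_lit 402) (nat_lit 277)) (XT.lf (nat_lit 0) (nat_lit 12798560277) (nat_lit 76) (nat_lit 313513946) (nat_lit 152) (nat_lit 222308913004) (nat_lit 11) (nat_lit 5) (nat_lit 12) (nat_lit 5) (nat_lit 13) (nat_lit 4) (nat_lit 522) (nat_lit 402) (nat_lit 276))) (XT.nd (nat_lit 78) (nat_lit 0) (nat_lit 0) (XT.lf (nat_lit 0) (nat_lit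 47125272587) (nat_lit 152) (nat_lit 164651905045) (nat_lit 0) (nat_lit 33713244949) (nat_lit 11) (nat_lit 5) (nat_lit 13) (nat_lit 4) (nat_lit 11) (nat_lit 4) (nat_lit 523) (nat_lit 402) (nat_lit 275)) (XT.lf (nat_lit 0) (nat_lit 82837531278) (nat_lit 152) (nat_lit 103801678317) (nat_lit 0) (nat_lit 69424200115) (nat_lit 11) (nat_lit 5) (nat_lit 13) (nat_lit 4) (nat_lit 11) (nat_lit 4) (nat_lit 524) (nat_lit 402) (nat_lit 274)))) (XT.nd (nat_lit 156) (nat_lit 0) (nat_lit 0) (XT.nd (nat_lit 78) (nat_lit 76) (nat_lit 0) (XT.lf (nat_lit 0) (nat_lit 120328984655) (nat_lit 152) (nat_lit 39921970440) (nat_lit 0) (nat_lit 106914412038) (nat_lit 11) (nat_lit 5) (nat_lit 13) (nat_lit 4) (nat_lit 11) (nat_lit 4) (nat_lit 525) (nat_lit 402) (nat_lit 273)) (XT.lf (nat_lit 0) (nat_lit 28036661381) (nat_lit 76) (nat_lit 132089967556) (nat_lit 76) (nat_lit 118674212603) (nat_lit 10) (nat_lit 4) (nat_lit 11)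 (nat_lit 5) (nat_lit 11) (nat_lit 4) (nat_lit 526) (nat_lit 402) (nat_lit 272))) (XT.nd (nat_lit 78) (nat_lit 0) (nat_lit 0) (XT.lf (nat_lit 0) (nat_lit 100767015915) (nat_lit 76) (nat_lit 101817225239) (nat_lit 76) (nat_lit 88400344251) (nat_lit 10) (nat_lit 4) (nat_lit 11) (nat_lit 5) (nat_lit 11) (nat_lit 4) (nat_lit 527) (nat_lit 402) (nat_lit 271)) (XT.lf (nat_lit 0) (nat_lit 177122260035) (nat_lit 76) (nat_lit 70036748073) (nat_lit 76) (nat_lit 56618794671) (nat_lit 10) (nat_lit 4) (nat_lit 11) (nat_lit 5) (nat_lit 11) (nat_lit 4) (nat_lit 528) (nat_lit 402) (nat_lit 270)))))) (XT.nd (nat_lit 624) (nat_lit 152) (nat_lit 0) (XT.nd (nat_lit 312) (nat_lit 76) (nat_lit 0) (XT.nd (nat_lit 156) (nat_lit 0) (nat_lit 0) (XT.nd (nat_lit 78) (nat_lit 152) (nat_lit 0) (XT.lf (nat_lit 0) (nat_lit 257284191942) (nat_lit 76) (nat_lit 36672868255) (nat_lit 76) (nat_lit 23253893507) (nat_lit 10) (nat_lit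 4) (nat_lit 11) (nat_lit 5) (nat_lit 11) (nat_lit 4) (nat_lit 529) (nat_lit 402) (nat_lit 269)) (XT.lf (nat_lit 0) (nat_lit 10272617411) (nat_lit 76) (nat_lit 1284731306) (nat_lit 152) (nat_lit 319741462837) (nat_lit 8) (nat_lit 5) (nat_lit 9) (nat_lit 5) (nat_lit 10) (nat_lit 4) (nat_lit 530) (nat_lit 402) (nat_lit 268))) (XT.nd (nat_lit 78) (nat_lit 0) (nat_lit 0) (XT.lf (nat_lit 0) (nat_lit 48913995453) (nat_lit 152) (nat_lit 260946479173) (nat_lit 0) (nat_lit 36132210833) (nat_lit 8) (nat_lit 5) (nat_lit 10) (nat_lit 4) (nat_lit 8) (nat_lit 4) (nat_lit 531) (nat_lit 402) (nat_lit 267)) (XT.lf (nat_lit 0) (nat_lit 88154511261) (nat_lit 152) (nat_lit 197894053604) (nat_lit 0) (nat_lit 75371886377) (nat_lit 8) (nat_lit 5) (nat_lit 10) (nat_lit 4) (nat_lit 8) (nat_lit 4) (nat_lit 532) (nat_lit 402) (nat_lit 266)))) (XT.nd (nat_lit 156) (nat_lit 76) (nat_lit 0) (XT.nd (nat_lit 78) (nat_lit 0)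 (nat_lit 0) (XT.lf (nat_lit 0) (nat_lit 129352267683) (nat_lit 152) (nat_lit 131698734358) (nat_lit 0) (nat_lit 116568842547) (nat_lit 8) (nat_lit 5) (nat_lit 10) (nat_lit 4) (nat_lit 8) (nat_lit 4) (nat_lit 533) (nat_lit 402) (nat_lit 265)) (XT.lf (nat_lit 0) (nat_lit 172605354617) (nat_lit 152) (nat_lit 62202913531) (nat_lit 0) (nat_lit 159821167336) (nat_lit 8) (nat_lit 5) (nat_lit 10) (nat_lit 4) (nat_lit 8) (nat_lit 4) (nat_lit 534) (nat_lit 402) (nat_lit 264))) (XT.nd (nat_lit 78) (nat_lit 0) (nat_lit 0) (XT.lf (nat_lit 0) (nat_lit 11114612115) (nat_lit 76) (nat_lit 207075673730) (nat_lit 76) (nat_lit 194290760597) (nat_lit 7) (nat_lit 4) (nat_lit 8) (nat_lit 5) (nat_lit 8) (nat_lit 4) (nat_lit 535) (nat_lit 402) (nat_lit 263)) (XT.lf (nat_lit 0) (nat_lit 90248877833) (nat_lit 76) (nat_lit 176854753092) (nat_lit 76) (nat_lit 164069148672) (nat_lit 7) (nat_lit 4) (nat_lit 8) (nat_lit 5)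 (nat_lit 8) (nat_lit 4) (nat_lit 536) (nat_lit 402) (nat_lit 262))))) (XT.nd (nat_lit 312) (nat_lit 152) (nat_lit 0) (XT.nd (nat_lit 156) (nat_lit 0) (nat_lit 0) (XT.nd (nat_lit 78) (nat_lit 0) (nat_lit 0) (XT.lf (nat_lit 0) (nat_lit 173331589303) (nat_lit 76) (nat_lit 145126988101) (nat_lit 76) (nat_lit 132340725312) (nat_lit 7) (nat_lit 4) (nat_lit 8) (nat_lit 5) (nat_lit 8) (nat_lit 4) (nat_lit 537) (nat_lit 402) (nat_lit 261)) (XT.lf (nat_lit 0) (nat_lit 260560562504) (nat_lit 76) (nat_lit 111816836460) (nat_lit 76) (nat_lit 99029946652) (nat_lit 7) (nat_lit 4) (nat_lit 8) (nat_lit 5) (nat_lit 8) (nat_lit 4) (nat_lit 538) (nat_lit 402) (nat_lit 260))) (XT.nd (nat_lit 78) (nat_lit 0) (nat_lit 0) (XT.lf (nat_lit 0) (nat_lit 352143485469) (nat_lit 76) (nat_lit 76844988283) (nat_lit 76) (nat_lit 64057501315) (nat_lit 7) (nat_lit 4) (nat_lit 8) (nat_lit 5) (nat_lit 8) (nat_lit 4) (nat_lit 539)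 (nat_lit 402) (nat_lit 259)) (XT.lf (nat_lit 0) (nat_lit 448298412775) (nat_lit 76) (nat_lit 40128177265) (nat_lit 76) (nat_lit 27340121573) (nat_lit 7) (nat_lit 4) (nat_lit 8) (nat_lit 5) (nat_lit 8) (nat_lit 4) (nat_lit 540) (nat_lit 402) (nat_lit 258)))) (XT.nd (nat_lit 156) (nat_lit 0) (nat_lit 0) (XT.nd (nat_lit 78) (nat_lit 0) (nat_lit 0) (XT.lf (nat_lit 0) (nat_lit 9768264438) (nat_lit 76) (nat_lit 1235082767) (nat_lit 152) (nat_lit 528603928868) (nat_lit 5) (nat_lit 5) (nat_lit 6) (nat_lit 5) (nat_lit 7) (nat_lit 4) (nat_lit 541) (nat_lit 402) (nat_lit 257)) (XT.lf (nat_lit 0) (nat_lit 52121432096) (nat_lit 152) (nat_lit 472465889930) (nat_lit 0) (nat_lit 39941324303) (nat_lit 5) (nat_lit 5) (nat_lit 7) (nat_lit 4) (nat_lit 5) (nat_lit 4) (nat_lit 542) (nat_lit 402) (nat_lit 256))) (XT.nd (nat_lit 78) (nat_lit 0) (nat_lit 0) (XT.lf (nat_lit 0) (nat_lit 95312432163) (nat_lit 152) (nat_lit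 412250945918) (nat_lit 0) (nat_lit 83131856479) (nat_lit 5) (nat_lit 5) (nat_lit 7) (nat_lit 4) (nat_lit 5) (nat_lit 4) (nat_lit 543) (nat_lit 402) (nat_lit 255)) (XT.lf (nat_lit 0) (nat_lit 140659900017) (nat_lit 152) (nat_lit 349031527585) (nat_lit 0) (nat_lit 128478878722) (nat_lit 5) (nat_lit 5) (nat_lit 7) (nat_lit 4) (nat_lit 5) (nat_lit 4) (nat_lit 544) (nat_lit 402) (nat_lit 254))))))) (XT.nd (nat_lit 52026) (nat_lit 0) (nat_lit 9044) (XT.nd (nat_lit 51402) (nat_lit 0) (nat_lit 13756) (XT.nd (nat_lit 234) (nat_lit 76) (nat_lit 0) (XT.nd (nat_lit 78) (nat_lit 0) (nat_lit 0) (XT.lf (nat_lit 0) (nat_lit 188271805819) (nat_lit 152) (nat_lit 282657112503) (nat_lit 0) (nat_lit 176090360134) (nat_lit 5) (nat_lit 5) (nat_lit 7) (nat_lit 4) (nat_lit 5) (nat_lit 4) (nat_lit 545) (nat_lit 402) (nat_lit 253)) (XT.nd (nat_lit 78) (nat_lit 0) (nat_lit 0) (XT.lf (nat_lit 0) (nat_lit 238261511250) (nat_lit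 152) (nat_lit 212969666353) (nat_lit 0) (nat_lit 226079661383) (nat_lit 5) (nat_lit 5) (nat_lit 7) (nat_lit 4) (nat_lit 5) (nat_lit 4) (nat_lit 546) (nat_lit 402) (nat_lit 252)) (XT.lf (nat_lit 0) (nat_lit 290748039418) (nat_lit 152) (nat_lit 139803266643) (nat_lit 0) (nat_lit 278565804617) (nat_lit 5) (nat_lit 5) (nat_lit 7) (nat_lit 4) (nat_lit 5) (nat_lit 4) (nat_lit 547) (nat_lit 402) (nat_lit 251)))) (XT.nd (nat_lit 156) (nat_lit 0) (nat_lit 0) (XT.nd (nat_lit 78) (nat_lit 76) (nat_lit 0) (XT.lf (nat_lit 0) (nat_lit 345856358248) (nat_lit 152) (nat_lit 62983707659) (nat_lit 0) (nat_lit 333673756842) (nat_lit 5) (nat_lit 5) (nat_lit 7) (nat_lit 4) (nat_lit 5) (nat_lit 4) (nat_lit 548) (nat_lit 402) (nat_lit 250)) (XT.lf (nat_lit 0) (nat_lit 18256227604) (nat_lit 76) (nat_lit 385746481293) (nat_lit 76) (nat_lit 373563530740) (nat_lit 4) (nat_lit 4) (nat_lit 5) (nat_lit 5) (nat_lit 5) (nat_lit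 4) (nat_lit 549) (nat_lit 402) (nat_lit 249))) (XT.nd (nat_lit 78) (nat_lit 0) (nat_lit 0) (XT.lf (nat_lit 0) (nat_lit 105739976050) (nat_lit 76) (nat_lit 360380685098) (nat_lit 76) (nat_lit 348197402024) (nat_lit 4) (nat_lit 4) (nat_lit 5) (nat_lit 5) (nat_lit 5) (nat_lit 4) (nat_lit 550) (nat_lit 402) (nat_lit 248)) (XT.lf (nat_lit 0) (nat_lit 197593306499) (nat_lit 76) (nat_lit 333748942136) (nat_lit 76) (nat_lit 321565342375) (nat_lit 4) (nat_lit 4) (nat_lit 5) (nat_lit 5) (nat_lit 5) (nat_lit 4) (nat_lit 551) (nat_lit 402) (nat_lit 247))))) (XT.nd (nat_lit 312) (nat_lit 760) (nat_lit 0) (XT.nd (nat_lit 156) (nat_lit 0) (nat_lit 0) (XT.nd (nat_lit 78) (nat_lit 380) (nat_lit 0) (XT.lf (nat_lit 0) (nat_lit 1075905204) (nat_lit 0) (nat_lit 1075905204) (nat_lit 228) (nat_lit 1120481747) (nat_lit 200) (nat_lit 5) (nat_lit 200) (nat_lit 3) (nat_lit 203) (nat_lit 3) (nat_lit 403) (nat_lit 403) (nat_lit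 394)) (XT.lf (nat_lit 0) (nat_lit 287289015) (nat_lit 380) (nat_lit 1105019202) (nat_lit 380) (nat_lit 5191542736) (nat_lit 195) (nat_lit 3) (nat_lit 200) (nat_lit 3) (nat_lit 200) (nat_lit 5) (nat_lit 404) (nat_lit 403) (nat_lit 393))) (XT.nd (nat_lit 78) (nat_lit 0) (nat_lit 76) (XT.lf (nat_lit 76) (nat_lit 2299590112) (nat_lit 0) (nat_lit 442236101) (nat_lit 380) (nat_lit 3887697311) (nat_lit 196) (nat_lit 5) (nat_lit 195) (nat_lit 3) (nat_lit 200) (nat_lit 5) (nat_lit 405) (nat_lit 403) (nat_lit 392)) (XT.lf (nat_lit 0) (nat_lit 5193532108) (nat_lit 304) (nat_lit 864632104) (nat_lit 380) (nat_lit 625630192) (nat_lit 196) (nat_lit 5) (nat_lit 200) (nat_lit 5) (nat_lit 201) (nat_lit 5) (nat_lit 406) (nat_lit 403) (nat_lit 391)))) (XT.nd (nat_lit 156) (nat_lit 456) (nat_lit 0) (XT.nd (nat_lit 78) (nat_lit 0) (nat_lit 0) (XT.lf (nat_lit 0) (nat_lit 897083492) (nat_lit 380) (nat_lit 3992316064)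 (nat_lit 456) (nat_lit 1855465329) (nat_lit 191) (nat_lit 5) (nat_lit 196) (nat_lit 5) (nat_lit 197) (nat_lit 5) (nat_lit 407) (nat_lit 403) (nat_lit 390)) (XT.lf (nat_lit 0) (nat_lit 3225917717) (nat_lit 380) (nat_lit 343186234) (nat_lit 456) (nat_lit 3245084989) (nat_lit 191) (nat_lit 5) (nat_lit 196) (nat_lit 5) (nat_lit 197) (nat_lit 5) (nat_lit 408) (nat_lit 403) (nat_lit 389))) (XT.nd (nat_lit 78) (nat_lit 456) (nat_lit 0) (XT.lf (nat_lit 76) (nat_lit 3514342142) (nat_lit 0) (nat_lit 2075835214) (nat_lit 456) (nat_lit 1300882910) (nat_lit 192) (nat_lit 5) (nat_lit 191) (nat_lit 5) (nat_lit 197) (nat_lit 5) (nat_lit 409) (nat_lit 403) (nat_lit 388)) (XT.lf (nat_lit 76) (nat_lit 514805753) (nat_lit 0) (nat_lit 431864198) (nat_lit 532) (nat_lit 6030221756) (nat_lit 186) (nat_lit 5) (nat_lit 185) (nat_lit 5) (nat_lit 192) (nat_lit 5) (nat_lit 410) (nat_lit 403) (nat_lit 387)))))) (XT.nd (nat_lit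 624) (nat_lit 2356) (nat_lit 0) (XT.nd (nat_lit 312) (nat_lit 1368) (nat_lit 0) (XT.nd (nat_lit 156) (nat_lit 608) (nat_lit 0) (XT.nd (nat_lit 78) (nat_lit 456) (nat_lit 0) (XT.lf (nat_lit 0) (nat_lit 3213874465) (nat_lit 456) (nat_lit 2483655601) (nat_lit 76) (nat_lit 1370894881) (nat_lit 186) (nat_lit 5) (nat_lit 192) (nat_lit 5) (nat_lit 187) (nat_lit 5) (nat_lit 411) (nat_lit 403) (nat_lit 386)) (XT.lf (nat_lit 0) (nat_lit 1648751755) (nat_lit 456) (nat_lit 3857233238) (nat_lit 532) (nat_lit 1662997455) (nat_lit 180) (nat_lit 5) (nat_lit 186) (nat_lit 5) (nat_lit 187) (nat_lit 5) (nat_lit 412) (nat_lit 403) (nat_lit 385))) (XT.nd (nat_lit 78) (nat_lit 532) (nat_lit 0) (XT.lf (nat_lit 0) (nat_lit 541628400) (nat_lit 532) (nat_lit 1302235890) (nat_lit 76) (nat_lit 5434031983) (nat_lit 179) (nat_lit 5) (nat_lit 186) (nat_lit 5) (nat_lit 180) (nat_lit 5) (nat_lit 413) (nat_lit 403) (nat_lit 384))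 (XT.lf (nat_lit 0) (nat_lit 2741827736) (nat_lit 608) (nat_lit 4289734757) (nat_lit 76) (nat_lit 362290192) (nat_lit 172) (nat_lit 5) (nat_lit 180) (nat_lit 5) (nat_lit 173) (nat_lit 5) (nat_lit 414) (nat_lit 403) (nat_lit 383)))) (XT.nd (nat_lit 156) (nat_lit 760) (nat_lit 0) (XT.nd (nat_lit 78) (nat_lit 0) (nat_lit 0) (XT.lf (nat_lit 0) (nat_lit 142384820) (nat_lit 608) (nat_lit 4855713253) (nat_lit 684) (nat_lit 2520226269) (nat_lit 164) (nat_lit 5) (nat_lit 172) (nat_lit 5) (nat_lit 173) (nat_lit 5) (nat_lit 415) (nat_lit 403) (nat_lit 382)) (XT.lf (nat_lit 0) (nat_lit 4853462097) (nat_lit 608) (nat_lit 2481315144) (nat_lit 684) (nat_lit 315882077) (nat_lit 164) (nat_lit 5) (nat_lit 172) (nat_lit 5) (nat_lit 173) (nat_lit 5) (nat_lit 416) (nat_lit 403) (nat_lit 381))) (XT.nd (nat_lit 78) (nat_lit 0) (nat_lit 0) (XT.lf (nat_lit 0) (nat_lit 1864831333) (nat_lit 760) (nat_lit 5841871989) (nat_lit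 76) (nat_lit 84859045) (nat_lit 154) (nat_lit 5) (nat_lit 164) (nat_lit 5) (nat_lit 155) (nat_lit 5) (nat_lit 417) (nat_lit 403) (nat_lit 380)) (XT.lf (nat_lit 0) (nat_lit 4134675461) (nat_lit 760) (nat_lit 1046948351) (nat_lit 76) (nat_lit 2758109146) (nat_lit 154) (nat_lit 5) (nat_lit 164) (nat_lit 5) (nat_lit 155) (nat_lit 5) (nat_lit 418) (nat_lit 403) (nat_lit 379))))) (XT.nd (nat_lit 312) (nat_lit 760) (nat_lit 0) (XT.nd (nat_lit 156) (nat_lit 380) (nat_lit 0) (XT.nd (nat_lit 78) (nat_lit 456) (nat_lit 0) (XT.lf (nat_lit 0) (nat_lit 4026884221) (nat_lit 760) (nat_lit 2460555645) (nat_lit 836) (nat_lit 1609416851) (nat_lit 144) (nat_lit 5) (nat_lit 154) (nat_lit 5) (nat_lit 155) (nat_lit 5) (nat_lit 419) (nat_lit 403) (nat_lit 378)) (XT.lf (nat_lit 0) (nat_lit 623397639) (nat_lit 456) (nat_lit 7209827958) (nat_lit 76) (nat_lit 430598871) (nat_lit 138) (nat_lit 5) (nat_lit 144) (nat_lit 5)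 (nat_lit 139) (nat_lit 5) (nat_lit 420) (nat_lit 403) (nat_lit 377))) (XT.nd (nat_lit 78) (nat_lit 380) (nat_lit 0) (XT.lf (nat_lit 0) (nat_lit 2935248848) (nat_lit 456) (nat_lit 2022379172) (nat_lit 76) (nat_lit 3479133103) (nat_lit 138) (nat_lit 5) (nat_lit 144) (nat_lit 5) (nat_lit 139) (nat_lit 5) (nat_lit 421) (nat_lit 403) (nat_lit 376)) (XT.lf (nat_lit 0) (nat_lit 3444892185) (nat_lit 380) (nat_lit 1886907777) (nat_lit 456) (nat_lit 3288102481) (nat_lit 133) (nat_lit 5) (nat_lit 138) (nat_lit 5) (nat_lit 139) (nat_lit 5) (nat_lit 422) (nat_lit 403) (nat_lit 375)))) (XT.nd (nat_lit 156) (nat_lit 304) (nat_lit 0) (XT.nd (nat_lit 78) (nat_lit 76) (nat_lit 0) (XT.lf (nat_lit 0) (nat_lit 342394450) (nat_lit 380) (nat_lit 7484697842) (nat_lit 456) (nat_lit 986175424) (nat_lit 128) (nat_lit 5) (nat_lit 133) (nat_lit 5) (nat_lit 134) (nat_lit 5) (nat_lit 423) (nat_lit 403) (nat_lit 374)) (XT.lf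 (nat_lit 0) (nat_lit 1424114242) (nat_lit 456) (nat_lit 2844866642) (nat_lit 76) (nat_lit 4744261677) (nat_lit 127) (nat_lit 5) (nat_lit 133) (nat_lit 5) (nat_lit 128) (nat_lit 5) (nat_lit 424) (nat_lit 403) (nat_lit 373))) (XT.nd (nat_lit 78) (nat_lit 0) (nat_lit 0) (XT.lf (nat_lit 0) (nat_lit 3054933977) (nat_lit 304) (nat_lit 837444600) (nat_lit 380) (nat_lit 5331509981) (nat_lit 123) (nat_lit 5) (nat_lit 127) (nat_lit 5) (nat_lit 128) (nat_lit 5) (nat_lit 425) (nat_lit 403) (nat_lit 372)) (XT.lf (nat_lit 0) (nat_lit 6501212059) (nat_lit 380) (nat_lit 229363429) (nat_lit 76) (nat_lit 2713643911) (nat_lit 123) (nat_lit 5) (nat_lit 128) (nat_lit 5) (nat_lit 124) (nat_lit 5) (nat_lit 426) (nat_lit 403) (nat_lit 371))))))))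
noncomputable def xc101 : XT := (XT.nd (nat_lit 2418) (nat_lit 2128) (nat_lit 0) (XT.nd (nat_lit 1170) (nat_lit 1976) (nat_lit 0) (XT.nd (nat_lit 546) (nat_lit 1140) (nat_lit 0) (XT.nd (nat_lit 234) (nat_lit 836) (nat_lit 0) (XT.nd (nat_lit 78) (nat_lit 380) (nat_lit 0) (XT.lf (nat_lit 0) (nat_lit 6101893722) (nat_lit 304) (nat_lit 3176167925) (nat_lit 380) (nat_lit 395636264) (nat_lit 119) (nat_lit 5) (nat_lit 123) (nat_lit 5) (nat_lit 124) (nat_lit 5) (nat_lit 427) (nat_lit 403) (nat_lit 370)) (XT.nd (nat_lit 78) (nat_lit 0) (nat_lit 0) (XT.lf (nat_lit 0) (nat_lit 2193248230) (nat_lit 380) (nat_lit 7114112663) (nat_lit 76) (nat_lit 606164708) (nat_lit 114) (nat_lit 5) (nat_lit 119) (nat_lit 5) (nat_lit 115) (nat_lit 5) (nat_lit 428) (nat_lit 403) (nat_lit 369)) (XT.lf (nat_lit 0) (nat_lit 4943058225) (nat_lit 380) (nat_lit 698229438) (nat_lit 76) (nat_lit 4521502366) (nat_lit 114) (nat_lit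 5) (nat_lit 119) (nat_lit 5) (nat_lit 115) (nat_lit 5) (nat_lit 429) (nat_lit 403) (nat_lit 368)))) (XT.nd (nat_lit 156) (nat_lit 228) (nat_lit 0) (XT.nd (nat_lit 78) (nat_lit 304) (nat_lit 0) (XT.lf (nat_lit 0) (nat_lit 6149991450) (nat_lit 304) (nat_lit 1710887822) (nat_lit 380) (nat_lit 2562120483) (nat_lit 110) (nat_lit 5) (nat_lit 114) (nat_lit 5) (nat_lit 115) (nat_lit 5) (nat_lit 430) (nat_lit 403) (nat_lit 367)) (XT.lf (nat_lit 0) (nat_lit 248268884) (nat_lit 304) (nat_lit 8070234276) (nat_lit 76) (nat_lit 2376185540) (nat_lit 106) (nat_lit 5) (nat_lit 110) (nat_lit 5) (nat_lit 107) (nat_lit 5) (nat_lit 431) (nat_lit 403) (nat_lit 366))) (XT.nd (nat_lit 78) (nat_lit 228) (nat_lit 0) (XT.lf (nat_lit 0) (nat_lit 3151353983) (nat_lit 304) (nat_lit 1119935898) (nat_lit 76) (nat_lit 6704665097) (nat_lit 106) (nat_lit 5) (nat_lit 110) (nat_lit 5) (nat_lit 107) (nat_lit 5) (nat_lit 432) (nat_lit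 403) (nat_lit 365)) (XT.lf (nat_lit 0) (nat_lit 6238501783) (nat_lit 304) (nat_lit 4974243161) (nat_lit 76) (nat_lit 56600869) (nat_lit 103) (nat_lit 5) (nat_lit 107) (nat_lit 5) (nat_lit 104) (nat_lit 5) (nat_lit 433) (nat_lit 403) (nat_lit 364))))) (XT.nd (nat_lit 312) (nat_lit 456) (nat_lit 0) (XT.nd (nat_lit 156) (nat_lit 380) (nat_lit 0) (XT.nd (nat_lit 78) (nat_lit 76) (nat_lit 0) (XT.lf (nat_lit 0) (nat_lit 2467392795) (nat_lit 228) (nat_lit 7081360410) (nat_lit 304) (nat_lit 2025222023) (nat_lit 100) (nat_lit 5) (nat_lit 103) (nat_lit 5) (nat_lit 104) (nat_lit 5) (nat_lit 434) (nat_lit 403) (nat_lit 363)) (XT.lf (nat_lit 0) (nat_lit 1121603680) (nat_lit 304) (nat_lit 1539993595) (nat_lit 76) (nat_lit 9230006369) (nat_lit 99) (nat_lit 5) (nat_lit 103) (nat_lit 5) (nat_lit 100) (nat_lit 5) (nat_lit 435) (nat_lit 403) (nat_lit 362))) (XT.nd (nat_lit 78) (nat_lit 152) (nat_lit 0) (XT.lf (nat_lit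 0) (nat_lit 4436159047) (nat_lit 304) (nat_lit 5755248773) (nat_lit 76) (nat_lit 2028128671) (nat_lit 96) (nat_lit 5) (nat_lit 100) (nat_lit 5) (nat_lit 97) (nat_lit 5) (nat_lit 436) (nat_lit 403) (nat_lit 361)) (XT.lf (nat_lit 0) (nat_lit 2307374495) (nat_lit 152) (nat_lit 5660519015) (nat_lit 228) (nat_lit 4593405128) (nat_lit 94) (nat_lit 5) (nat_lit 96) (nat_lit 5) (nat_lit 97) (nat_lit 5) (nat_lit 437) (nat_lit 403) (nat_lit 360)))) (XT.nd (nat_lit 156) (nat_lit 152) (nat_lit 0) (XT.nd (nat_lit 78) (nat_lit 304) (nat_lit 0) (XT.lf (nat_lit 0) (nat_lit 10892160543) (nat_lit 152) (nat_lit 828152260) (nat_lit 228) (nat_lit 1197636158) (nat_lit 94) (nat_lit 5) (nat_lit 96) (nat_lit 5) (nat_lit 97) (nat_lit 5) (nat_lit 438) (nat_lit 403) (nat_lit 359)) (XT.lf (nat_lit 0) (nat_lit 2413467864) (nat_lit 304) (nat_lit 6643124920) (nat_lit 76) (nat_lit 4227928290) (nat_lit 90) (nat_lit 5) (nat_lit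 94) (nat_lit 5) (nat_lit 91) (nat_lit 5) (nat_lit 439) (nat_lit 403) (nat_lit 358))) (XT.nd (nat_lit 78) (nat_lit 0) (nat_lit 0) (XT.lf (nat_lit 0) (nat_lit 2098477147) (nat_lit 152) (nat_lit 4096776086) (nat_lit 228) (nat_lit 7471672458) (nat_lit 88) (nat_lit 5) (nat_lit 90) (nat_lit 5) (nat_lit 91) (nat_lit 5) (nat_lit 440) (nat_lit 403) (nat_lit 357)) (XT.lf (nat_lit 0) (nat_lit 10247742016) (nat_lit 228) (nat_lit 2654459836) (nat_lit 76) (nat_lit 1162172073) (nat_lit 88) (nat_lit 5) (nat_lit 91) (nat_lit 5) (nat_lit 89) (nat_lit 5) (nat_lit 441) (nat_lit 403) (nat_lit 356)))))) (XT.nd (nat_lit 624) (nat_lit 836) (nat_lit 0) (XT.nd (nat_lit 312) (nat_lit 532) (nat_lit 0) (XT.nd (nat_lit 156) (nat_lit 152) (nat_lit 0) (XT.nd (nat_lit 78) (nat_lit 152) (nat_lit 0) (XT.lf (nat_lit 0) (nat_lit 147830789) (nat_lit 304) (nat_lit 7699208763) (nat_lit 76) (nat_lit 6628274842) (nat_lit 84) (nat_lit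 5) (nat_lit 88) (nat_lit 5) (nat_lit 85) (nat_lit 5) (nat_lit 442) (nat_lit 403) (nat_lit 355)) (XT.lf (nat_lit 0) (nat_lit 1782804439) (nat_lit 152) (nat_lit 2425608097) (nat_lit 228) (nat_lit 10693956511) (nat_lit 82) (nat_lit 5) (nat_lit 84) (nat_lit 5) (nat_lit 85) (nat_lit 5) (nat_lit 443) (nat_lit 403) (nat_lit 354))) (XT.nd (nat_lit 78) (nat_lit 152) (nat_lit 0) (XT.lf (nat_lit 0) (nat_lit 8608810020) (nat_lit 228) (nat_lit 3468559819) (nat_lit 76) (nat_lit 3266570627) (nat_lit 82) (nat_lit 5) (nat_lit 85) (nat_lit 5) (nat_lit 83) (nat_lit 5) (nat_lit 444) (nat_lit 403) (nat_lit 353)) (XT.lf (nat_lit 0) (nat_lit 6768161829) (nat_lit 152) (nat_lit 6561979495) (nat_lit 228) (nat_lit 2472406642) (nat_lit 80) (nat_lit 5) (nat_lit 82) (nat_lit 5) (nat_lit 83) (nat_lit 5) (nat_lit 445) (nat_lit 403) (nat_lit 352)))) (XT.nd (nat_lit 156) (nat_lit 304) (nat_lit 0) (XT.nd (nat_lit 78) (nat_lit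 0) (nat_lit 0) (XT.lf (nat_lit 0) (nat_lit 1291102061) (nat_lit 152) (nat_lit 683842030) (nat_lit 228) (nat_lit 14305799994) (nat_lit 77) (nat_lit 5) (nat_lit 79) (nat_lit 5) (nat_lit 80) (nat_lit 5) (nat_lit 446) (nat_lit 403) (nat_lit 351)) (XT.lf (nat_lit 0) (nat_lit 6759031012) (nat_lit 228) (nat_lit 4531890636) (nat_lit 76) (nat_lit 5480031683) (nat_lit 77) (nat_lit 5) (nat_lit 80) (nat_lit 5) (nat_lit 78) (nat_lit 5) (nat_lit 447) (nat_lit 403) (nat_lit 350))) (XT.nd (nat_lit 78) (nat_lit 152) (nat_lit 0) (XT.lf (nat_lit 0) (nat_lit 6577110042) (nat_lit 152) (nat_lit 5277454242) (nat_lit 228) (nat_lit 5427499293) (nat_lit 75) (nat_lit 5) (nat_lit 77) (nat_lit 5) (nat_lit 78) (nat_lit 5) (nat_lit 448) (nat_lit 403) (nat_lit 349)) (XT.lf (nat_lit 0) (nat_lit 511555549) (nat_lit 152) (nat_lit 16754284087) (nat_lit 228) (nat_lit 549843940) (nat_lit 73) (nat_lit 5) (nat_lit 75) (nat_lit 5) (nat_lit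 76) (nat_lit 4) (nat_lit 449) (nat_lit 403) (nat_lit 348))))) (XT.nd (nat_lit 312) (nat_lit 456) (nat_lit 0) (XT.nd (nat_lit 156) (nat_lit 152) (nat_lit 0) (XT.nd (nat_lit 78) (nat_lit 152) (nat_lit 0) (XT.lf (nat_lit 0) (nat_lit 4655140099) (nat_lit 228) (nat_lit 5938829243) (nat_lit 76) (nat_lit 7766960232) (nat_lit 72) (nat_lit 5) (nat_lit 75) (nat_lit 5) (nat_lit 73) (nat_lit 5) (nat_lit 450) (nat_lit 403) (nat_lit 347)) (XT.lf (nat_lit 0) (nat_lit 6113203605) (nat_lit 152) (nat_lit 4045076040) (nat_lit 228) (nat_lit 8771890470) (nat_lit 70) (nat_lit 5) (nat_lit 72) (nat_lit 5) (nat_lit 73) (nat_lit 5) (nat_lit 451) (nat_lit 403) (nat_lit 346))) (XT.nd (nat_lit 78) (nat_lit 152) (nat_lit 0) (XT.lf (nat_lit 0) (nat_lit 16044308846) (nat_lit 228) (nat_lit 663218101) (nat_lit 76) (nat_lit 2814961170) (nat_lit 70) (nat_lit 5) (nat_lit 73) (nat_lit 5) (nat_lit 71) (nat_lit 4) (nat_lit 452) (nat_lit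 403) (nat_lit 345)) (XT.lf (nat_lit 0) (nat_lit 2239751190) (nat_lit 152) (nat_lit 7807128303) (nat_lit 76) (nat_lit 10084614816) (nat_lit 68) (nat_lit 5) (nat_lit 70) (nat_lit 5) (nat_lit 69) (nat_lit 5) (nat_lit 453) (nat_lit 403) (nat_lit 344)))) (XT.nd (nat_lit 156) (nat_lit 304) (nat_lit 0) (XT.nd (nat_lit 78) (nat_lit 0) (nat_lit 0) (XT.lf (nat_lit 0) (nat_lit 5259663478) (nat_lit 152) (nat_lit 2923863484) (nat_lit 228) (nat_lit 12581732748) (nat_lit 66) (nat_lit 5) (nat_lit 68) (nat_lit 5) (nat_lit 69) (nat_lit 5) (nat_lit 454) (nat_lit 403) (nat_lit 343)) (XT.lf (nat_lit 0) (nat_lit 14593600134) (nat_lit 228) (nat_lit 2312291006) (nat_lit 76) (nat_lit 4516368509) (nat_lit 66) (nat_lit 5) (nat_lit 69) (nat_lit 5) (nat_lit 67) (nat_lit 4) (nat_lit 455) (nat_lit 403) (nat_lit 342))) (XT.nd (nat_lit 78) (nat_lit 228) (nat_lit 0) (XT.lf (nat_lit 0) (nat_lit 11808069090) (nat_lit 76) (nat_lit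 9713732889) (nat_lit 152) (nat_lit 580427976) (nat_lit 65) (nat_lit 5) (nat_lit 66) (nat_lit 5) (nat_lit 67) (nat_lit 4) (nat_lit 456) (nat_lit 403) (nat_lit 341)) (XT.lf (nat_lit 0) (nat_lit 3867515053) (nat_lit 152) (nat_lit 1986946569) (nat_lit 228) (nat_lit 16953787693) (nat_lit 62) (nat_lit 5) (nat_lit 64) (nat_lit 5) (nat_lit 65) (nat_lit 5) (nat_lit 457) (nat_lit 403) (nat_lit 340))))))) (XT.nd (nat_lit 1170) (nat_lit 988) (nat_lit 0) (XT.nd (nat_lit 546) (nat_lit 532) (nat_lit 0) (XT.nd (nat_lit 234) (nat_lit 304) (nat_lit 0) (XT.nd (nat_lit 78) (nat_lit 304) (nat_lit 0) (XT.lf (nat_lit 0) (nat_lit 12830142546) (nat_lit 228) (nat_lit 4617198460) (nat_lit 76) (nat_lit 6089826622) (nat_lit 62) (nat_lit 5) (nat_lit 65) (nat_lit 5) (nat_lit 63) (nat_lit 4) (nat_lit 458) (nat_lit 403) (nat_lit 339)) (XT.nd (nat_lit 78) (nat_lit 228) (nat_lit 0) (XT.lf (nat_lit 0) (nat_lit 10671505167) (nat_lit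 76) (nat_lit 9649631759) (nat_lit 152) (nat_lit 3973069793) (nat_lit 61) (nat_lit 5) (nat_lit 62) (nat_lit 5) (nat_lit 63) (nat_lit 4) (nat_lit 459) (nat_lit 403) (nat_lit 338)) (XT.lf (nat_lit 0) (nat_lit 1745889488) (nat_lit 152) (nat_lit 1326738099) (nat_lit 228) (nat_lit 22010343971) (nat_lit 58) (nat_lit 5) (nat_lit 60) (nat_lit 5) (nat_lit 61) (nat_lit 5) (nat_lit 460) (nat_lit 403) (nat_lit 337)))) (XT.nd (nat_lit 156) (nat_lit 228) (nat_lit 0) (XT.nd (nat_lit 78) (nat_lit 76) (nat_lit 0) (XT.lf (nat_lit 0) (nat_lit 10654958179) (nat_lit 228) (nat_lit 7788724651) (nat_lit 76) (nat_lit 7448342871) (nat_lit 58) (nat_lit 5) (nat_lit 61) (nat_lit 5) (nat_lit 59) (nat_lit 4) (nat_lit 461) (nat_lit 403) (nat_lit 336)) (XT.lf (nat_lit 0) (nat_lit 8737524050) (nat_lit 76) (nat_lit 10006242227) (nat_lit 152) (nat_lit 7991399318) (nat_lit 57) (nat_lit 5) (nat_lit 58) (nat_lit 5) (nat_lit 59) (nat_lit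 4) (nat_lit 462) (nat_lit 403) (nat_lit 335))) (XT.nd (nat_lit 78) (nat_lit 228) (nat_lit 0) (XT.lf (nat_lit 0) (nat_lit 26303986322) (nat_lit 76) (nat_lit 1034712956) (nat_lit 152) (nat_lit 276680025) (nat_lit 57) (nat_lit 5) (nat_lit 58) (nat_lit 5) (nat_lit 59) (nat_lit 4) (nat_lit 463) (nat_lit 403) (nat_lit 334)) (XT.lf (nat_lit 0) (nat_lit 7939457442) (nat_lit 228) (nat_lit 12096461396) (nat_lit 76) (nat_lit 8479273660) (nat_lit 54) (nat_lit 5) (nat_lit 57) (nat_lit 5) (nat_lit 55) (nat_lit 4) (nat_lit 464) (nat_lit 403) (nat_lit 333))))) (XT.nd (nat_lit 312) (nat_lit 228) (nat_lit 0) (XT.nd (nat_lit 156) (nat_lit 228) (nat_lit 0) (XT.nd (nat_lit 78) (nat_lit 0) (nat_lit 0) (XT.lf (nat_lit 0) (nat_lit 5728548718) (nat_lit 76) (nat_lit 10928432339) (nat_lit 152) (nat_lit 12797795533) (nat_lit 53) (nat_lit 5) (nat_lit 54) (nat_lit 5) (nat_lit 55) (nat_lit 4) (nat_lit 465) (nat_lit 403) (nat_lit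 332)) (XT.lf (nat_lit 0) (nat_lit 24810714950) (nat_lit 76) (nat_lit 1175970099) (nat_lit 152) (nat_lit 4445840488) (nat_lit 53) (nat_lit 5) (nat_lit 54) (nat_lit 5) (nat_lit 55) (nat_lit 4) (nat_lit 466) (nat_lit 403) (nat_lit 331))) (XT.nd (nat_lit 78) (nat_lit 76) (nat_lit 0) (XT.lf (nat_lit 0) (nat_lit 4517427801) (nat_lit 152) (nat_lit 17885591213) (nat_lit 76) (nat_lit 9036163368) (nat_lit 51) (nat_lit 5) (nat_lit 53) (nat_lit 5) (nat_lit 52) (nat_lit 4) (nat_lit 467) (nat_lit 403) (nat_lit 330)) (XT.lf (nat_lit 0) (nat_lit 1286453091) (nat_lit 76) (nat_lit 12601617290) (nat_lit 152) (nat_lit 18599027285) (nat_lit 50) (nat_lit 5) (nat_lit 51) (nat_lit 5) (nat_lit 52) (nat_lit 4) (nat_lit 468) (nat_lit 403) (nat_lit 329)))) (XT.nd (nat_lit 156) (nat_lit 76) (nat_lit 0) (XT.nd (nat_lit 78) (nat_lit 152) (nat_lit 0) (XT.lf (nat_lit 0) (nat_lit 21986366429) (nat_lit 76) (nat_lit 2016771077)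 (nat_lit 152) (nat_lit 9570477293) (nat_lit 50) (nat_lit 5) (nat_lit 51) (nat_lit 5) (nat_lit 52) (nat_lit 4) (nat_lit 469) (nat_lit 403) (nat_lit 328)) (XT.lf (nat_lit 0) (nat_lit 174744372) (nat_lit 152) (nat_lit 25598275626) (nat_lit 76) (nat_lit 8928391699) (nat_lit 48) (nat_lit 5) (nat_lit 50) (nat_lit 5) (nat_lit 49) (nat_lit 4) (nat_lit 470) (nat_lit 403) (nat_lit 327))) (XT.nd (nat_lit 78) (nat_lit 76) (nat_lit 0) (XT.lf (nat_lit 0) (nat_lit 10292072924) (nat_lit 152) (nat_lit 4888828024) (nat_lit 76) (nat_lit 20686529621) (nat_lit 48) (nat_lit 5) (nat_lit 50) (nat_lit 5) (nat_lit 49) (nat_lit 4) (nat_lit 471) (nat_lit 403) (nat_lit 326)) (XT.lf (nat_lit 0) (nat_lit 17364047705) (nat_lit 76) (nat_lit 3797523682) (nat_lit 152) (nat_lit 15917864402) (nat_lit 47) (nat_lit 5) (nat_lit 48) (nat_lit 5) (nat_lit 49) (nat_lit 4) (nat_lit 472) (nat_lit 403) (nat_lit 325)))))) (XT.nd (nat_lit 624)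 (nat_lit 456) (nat_lit 0) (XT.nd (nat_lit 312) (nat_lit 304) (nat_lit 0) (XT.nd (nat_lit 156) (nat_lit 76) (nat_lit 0) (XT.nd (nat_lit 78) (nat_lit 76) (nat_lit 0) (XT.lf (nat_lit 0) (nat_lit 2453341718) (nat_lit 76) (nat_lit 30346275816) (nat_lit 76) (nat_lit 5541170652) (nat_lit 46) (nat_lit 4) (nat_lit 47) (nat_lit 5) (nat_lit 47) (nat_lit 4) (nat_lit 473) (nat_lit 403) (nat_lit 324)) (XT.lf (nat_lit 0) (nat_lit 5559939569) (nat_lit 152) (nat_lit 13432795288) (nat_lit 76) (nat_lit 20649446289) (nat_lit 45) (nat_lit 5) (nat_lit 47) (nat_lit 5) (nat_lit 46) (nat_lit 4) (nat_lit 474) (nat_lit 403) (nat_lit 323))) (XT.nd (nat_lit 78) (nat_lit 0) (nat_lit 0) (XT.lf (nat_lit 0) (nat_lit 10339006443) (nat_lit 76) (nat_lit 6828811435) (nat_lit 152) (nat_lit 23829387799) (nat_lit 44) (nat_lit 5) (nat_lit 45) (nat_lit 5) (nat_lit 46) (nat_lit 4) (nat_lit 475) (nat_lit 403) (nat_lit 322)) (XT.lf (nat_lit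 0) (nat_lit 29656689503) (nat_lit 152) (nat_lit 6785105813) (nat_lit 0) (nat_lit 5963156604) (nat_lit 44) (nat_lit 5) (nat_lit 46) (nat_lit 4) (nat_lit 44) (nat_lit 4) (nat_lit 476) (nat_lit 403) (nat_lit 321)))) (XT.nd (nat_lit 156) (nat_lit 76) (nat_lit 0) (XT.nd (nat_lit 78) (nat_lit 152) (nat_lit 0) (XT.lf (nat_lit 0) (nat_lit 18725471878) (nat_lit 76) (nat_lit 24426539991) (nat_lit 76) (nat_lit 711973681) (nat_lit 43) (nat_lit 4) (nat_lit 44) (nat_lit 5) (nat_lit 44) (nat_lit 4) (nat_lit 477) (nat_lit 403) (nat_lit 320)) (XT.lf (nat_lit 0) (nat_lit 129384888) (nat_lit 76) (nat_lit 11511582437) (nat_lit 152) (nat_lit 33740866491) (nat_lit 41) (nat_lit 5) (nat_lit 42) (nat_lit 5) (nat_lit 43) (nat_lit 4) (nat_lit 478) (nat_lit 403) (nat_lit 319))) (XT.nd (nat_lit 78) (nat_lit 76) (nat_lit 0) (XT.lf (nat_lit 0) (nat_lit 25030131251) (nat_lit 152) (nat_lit 19515152263) (nat_lit 0) (nat_lit 2407582629)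 (nat_lit 41) (nat_lit 5) (nat_lit 43) (nat_lit 4) (nat_lit 41) (nat_lit 4) (nat_lit 479) (nat_lit 403) (nat_lit 318)) (XT.lf (nat_lit 0) (nat_lit 7519389096) (nat_lit 76) (nat_lit 31854332890) (nat_lit 76) (nat_lit 9214480028) (nat_lit 40) (nat_lit 4) (nat_lit 41) (nat_lit 5) (nat_lit 41) (nat_lit 4) (nat_lit 480) (nat_lit 403) (nat_lit 317))))) (XT.nd (nat_lit 312) (nat_lit 228) (nat_lit 0) (XT.nd (nat_lit 156) (nat_lit 76) (nat_lit 0) (XT.nd (nat_lit 78) (nat_lit 76) (nat_lit 0) (XT.lf (nat_lit 0) (nat_lit 4311827111) (nat_lit 152) (nat_lit 13817087509) (nat_lit 76) (nat_lit 32157427005) (nat_lit 39) (nat_lit 5) (nat_lit 41) (nat_lit 5) (nat_lit 40) (nat_lit 4) (nat_lit 481) (nat_lit 403) (nat_lit 316)) (XT.lf (nat_lit 0) (nat_lit 15089505430) (nat_lit 76) (nat_lit 3330755045) (nat_lit 152) (nat_lit 33630801308) (nat_lit 38) (nat_lit 5) (nat_lit 39) (nat_lit 5) (nat_lit 40) (nat_lit 4) (nat_lit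 482) (nat_lit 403) (nat_lit 315))) (XT.nd (nat_lit 78) (nat_lit 76) (nat_lit 0) (XT.lf (nat_lit 0) (nat_lit 33642478367) (nat_lit 152) (nat_lit 8205287742) (nat_lit 0) (nat_lit 12035833989) (nat_lit 38) (nat_lit 5) (nat_lit 40) (nat_lit 4) (nat_lit 38) (nat_lit 4) (nat_lit 483) (nat_lit 403) (nat_lit 314)) (XT.lf (nat_lit 0) (nat_lit 22620405593) (nat_lit 76) (nat_lit 27394064779) (nat_lit 76) (nat_lit 5773862077) (nat_lit 37) (nat_lit 4) (nat_lit 38) (nat_lit 5) (nat_lit 38) (nat_lit 4) (nat_lit 484) (nat_lit 403) (nat_lit 313)))) (XT.nd (nat_lit 156) (nat_lit 76) (nat_lit 0) (XT.nd (nat_lit 78) (nat_lit 76) (nat_lit 0) (XT.lf (nat_lit 0) (nat_lit 9237518159) (nat_lit 152) (nat_lit 2696203164) (nat_lit 76) (nat_lit 45841121608) (nat_lit 36) (nat_lit 5) (nat_lit 38) (nat_lit 5) (nat_lit 37) (nat_lit 4) (nat_lit 485) (nat_lit 403) (nat_lit 312)) (XT.lf (nat_lit 0) (nat_lit 25333824956) (nat_lit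 152) (nat_lit 29776555966) (nat_lit 0) (nat_lit 4719145726) (nat_lit 35) (nat_lit 5) (nat_lit 37) (nat_lit 4) (nat_lit 35) (nat_lit 4) (nat_lit 486) (nat_lit 403) (nat_lit 311))) (XT.nd (nat_lit 78) (nat_lit 0) (nat_lit 0) (XT.lf (nat_lit 0) (nat_lit 2392705105) (nat_lit 76) (nat_lit 40103505107) (nat_lit 76) (nat_lit 19477671411) (nat_lit 34) (nat_lit 4) (nat_lit 35) (nat_lit 5) (nat_lit 35) (nat_lit 4) (nat_lit 487) (nat_lit 403) (nat_lit 310)) (XT.lf (nat_lit 0) (nat_lit 37168744414) (nat_lit 76) (nat_lit 23834422277) (nat_lit 76) (nat_lit 3197965278) (nat_lit 34) (nat_lit 4) (nat_lit 35) (nat_lit 5) (nat_lit 35) (nat_lit 4) (nat_lit 488) (nat_lit 403) (nat_lit 309))))))))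
noncomputable def xc102 : XT := (XT.nd (nat_lit 2418) (nat_lit 760) (nat_lit 0) (XT.nd (nat_lit 1170) (nat_lit 684) (nat_lit 0) (XT.nd (nat_lit 546) (nat_lit 380) (nat_lit 0) (XT.nd (nat_lit 234) (nat_lit 228) (nat_lit 0) (XT.nd (nat_lit 78) (nat_lit 76) (nat_lit 0) (XT.lf (nat_lit 0) (nat_lit 7120446507) (nat_lit 76) (nat_lit 6424441754) (nat_lit 152) (nat_lit 52979313603) (nat_lit 32) (nat_lit 5) (nat_lit 33) (nat_lit 5) (nat_lit 34) (nat_lit 4) (nat_lit 489) (nat_lit 403) (nat_lit 308)) (XT.nd (nat_lit 78) (nat_lit 76) (nat_lit 0) (XT.lf (nat_lit 0) (nat_lit 31650603045) (nat_lit 152) (nat_lit 25300519536) (nat_lit 0) (nat_lit 11978022019) (nat_lit 32) (nat_lit 5) (nat_lit 34) (nat_lit 4) (nat_lit 32) (nat_lit 4) (nat_lit 490) (nat_lit 403) (nat_lit 307)) (XT.lf (nat_lit 0) (nat_lit 10712695687) (nat_lit 76) (nat_lit 40205075709) (nat_lit 76) (nat_lit 20523754867) (nat_lit 31) (nat_lit 4)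 (nat_lit 32) (nat_lit 5) (nat_lit 32) (nat_lit 4) (nat_lit 491) (nat_lit 403) (nat_lit 306)))) (XT.nd (nat_lit 156) (nat_lit 76) (nat_lit 0) (XT.nd (nat_lit 78) (nat_lit 152) (nat_lit 0) (XT.lf (nat_lit 0) (nat_lit 49372739758) (nat_lit 76) (nat_lit 22187907229) (nat_lit 76) (nat_lit 2498262752) (nat_lit 31) (nat_lit 4) (nat_lit 32) (nat_lit 5) (nat_lit 32) (nat_lit 4) (nat_lit 492) (nat_lit 403) (nat_lit 305)) (XT.lf (nat_lit 0) (nat_lit 13296508550) (nat_lit 76) (nat_lit 2798164766) (nat_lit 152) (nat_lit 60690065276) (nat_lit 29) (nat_lit 5) (nat_lit 30) (nat_lit 5) (nat_lit 31) (nat_lit 4) (nat_lit 493) (nat_lit 403) (nat_lit 304))) (XT.nd (nat_lit 78) (nat_lit 76) (nat_lit 0) (XT.lf (nat_lit 0) (nat_lit 36216814570) (nat_lit 152) (nat_lit 25943788728) (nat_lit 0) (nat_lit 17450032160) (nat_lit 29) (nat_lit 5) (nat_lit 31) (nat_lit 4) (nat_lit 29) (nat_lit 4) (nat_lit 494) (nat_lit 403) (nat_lit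 303)) (XT.lf (nat_lit 0) (nat_lit 13845412935) (nat_lit 76) (nat_lit 43746842516) (nat_lit 76) (nat_lit 24973212231) (nat_lit 28) (nat_lit 4) (nat_lit 29) (nat_lit 5) (nat_lit 29) (nat_lit 4) (nat_lit 495) (nat_lit 403) (nat_lit 302))))) (XT.nd (nat_lit 312) (nat_lit 152) (nat_lit 0) (XT.nd (nat_lit 156) (nat_lit 76) (nat_lit 0) (XT.nd (nat_lit 78) (nat_lit 152) (nat_lit 0) (XT.lf (nat_lit 0) (nat_lit 56495534117) (nat_lit 76) (nat_lit 23965710399) (nat_lit 76) (nat_lit 5185558329) (nat_lit 28) (nat_lit 4) (nat_lit 29) (nat_lit 5) (nat_lit 29) (nat_lit 4) (nat_lit 496) (nat_lit 403) (nat_lit 301)) (XT.lf (nat_lit 0) (nat_lit 12525086204) (nat_lit 76) (nat_lit 2748791600) (nat_lit 152) (nat_lit 73587084541) (nat_lit 26) (nat_lit 5) (nat_lit 27) (nat_lit 5) (nat_lit 28) (nat_lit 4) (nat_lit 497) (nat_lit 403) (nat_lit 300))) (XT.nd (nat_lit 78) (nat_lit 76) (nat_lit 0) (XT.lf (nat_lit 0) (nat_lit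 37374595036) (nat_lit 152) (nat_lit 35340168832) (nat_lit 0) (nat_lit 19477186706) (nat_lit 26) (nat_lit 5) (nat_lit 28) (nat_lit 4) (nat_lit 26) (nat_lit 4) (nat_lit 498) (nat_lit 403) (nat_lit 299)) (XT.lf (nat_lit 0) (nat_lit 7885657477) (nat_lit 76) (nat_lit 52849433756) (nat_lit 76) (nat_lit 34946659937) (nat_lit 25) (nat_lit 4) (nat_lit 26) (nat_lit 5) (nat_lit 26) (nat_lit 4) (nat_lit 499) (nat_lit 403) (nat_lit 298)))) (XT.nd (nat_lit 156) (nat_lit 0) (nat_lit 0) (XT.nd (nat_lit 78) (nat_lit 152) (nat_lit 0) (XT.lf (nat_lit 0) (nat_lit 54473146866) (nat_lit 76) (nat_lit 31375757129) (nat_lit 76) (nat_lit 13467873319) (nat_lit 25) (nat_lit 4) (nat_lit 26) (nat_lit 5) (nat_lit 26) (nat_lit 4) (nat_lit 500) (nat_lit 403) (nat_lit 297)) (XT.lf (nat_lit 0) (nat_lit 91838022) (nat_lit 76) (nat_lit 8690888069) (nat_lit 152) (nat_lit 94344304495) (nat_lit 23) (nat_lit 5) (nat_lit 24) (nat_lit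 5) (nat_lit 25) (nat_lit 4) (nat_lit 501) (nat_lit 403) (nat_lit 296))) (XT.nd (nat_lit 78) (nat_lit 0) (nat_lit 0) (XT.lf (nat_lit 0) (nat_lit 32688565994) (nat_lit 152) (nat_lit 58754035965) (nat_lit 0) (nat_lit 15624389444) (nat_lit 23) (nat_lit 5) (nat_lit 25) (nat_lit 4) (nat_lit 23) (nat_lit 4) (nat_lit 502) (nat_lit 403) (nat_lit 295)) (XT.lf (nat_lit 0) (nat_lit 57920006553) (nat_lit 152) (nat_lit 12425802361) (nat_lit 0) (nat_lit 40851626001) (nat_lit 23) (nat_lit 5) (nat_lit 25) (nat_lit 4) (nat_lit 23) (nat_lit 4) (nat_lit 503) (nat_lit 403) (nat_lit 294)))))) (XT.nd (nat_lit 624) (nat_lit 228) (nat_lit 0) (XT.nd (nat_lit 312) (nat_lit 228) (nat_lit 0) (XT.nd (nat_lit 156) (nat_lit 152) (nat_lit 0) (XT.nd (nat_lit 78) (nat_lit 0) (nat_lit 0) (XT.lf (nat_lit 0) (nat_lit 37392289467) (nat_lit 76) (nat_lit 47592942470) (nat_lit 76) (nat_lit 30520558108) (nat_lit 22) (nat_lit 4) (nat_lit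 23) (nat_lit 5) (nat_lit 23) (nat_lit 4) (nat_lit 504) (nat_lit 403) (nat_lit 293)) (XT.lf (nat_lit 0) (nat_lit 90109717904) (nat_lit 76) (nat_lit 23493045198) (nat_lit 76) (nat_lit 6416847683) (nat_lit 22) (nat_lit 4) (nat_lit 23) (nat_lit 5) (nat_lit 23) (nat_lit 4) (nat_lit 505) (nat_lit 403) (nat_lit 292))) (XT.nd (nat_lit 78) (nat_lit 0) (nat_lit 0) (XT.lf (nat_lit 0) (nat_lit 18643513473) (nat_lit 152) (nat_lit 103706045253) (nat_lit 0) (nat_lit 2377009578) (nat_lit 20) (nat_lit 5) (nat_lit 22) (nat_lit 4) (nat_lit 20) (nat_lit 4) (nat_lit 506) (nat_lit 403) (nat_lit 291)) (XT.lf (nat_lit 0) (nat_lit 45630202275) (nat_lit 152) (nat_lit 54628559460) (nat_lit 0) (nat_lit 29360404435) (nat_lit 20) (nat_lit 5) (nat_lit 22) (nat_lit 4) (nat_lit 20) (nat_lit 4) (nat_lit 507) (nat_lit 403) (nat_lit 290)))) (XT.nd (nat_lit 156) (nat_lit 152) (nat_lit 0) (XT.nd (nat_lit 78) (nat_lit 76) (nat_lit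 0) (XT.lf (nat_lit 0) (nat_lit 73955733554) (nat_lit 152) (nat_lit 3118386414) (nat_lit 0) (nat_lit 57682798624) (nat_lit 20) (nat_lit 5) (nat_lit 22) (nat_lit 4) (nat_lit 20) (nat_lit 4) (nat_lit 508) (nat_lit 403) (nat_lit 289)) (XT.lf (nat_lit 0) (nat_lit 52631658931) (nat_lit 76) (nat_lit 51877617817) (nat_lit 76) (nat_lit 35601695181) (nat_lit 19) (nat_lit 4) (nat_lit 20) (nat_lit 5) (nat_lit 20) (nat_lit 4) (nat_lit 509) (nat_lit 403) (nat_lit 288))) (XT.nd (nat_lit 78) (nat_lit 152) (nat_lit 0) (XT.lf (nat_lit 0) (nat_lit 111257617204) (nat_lit 76) (nat_lit 25375864805) (nat_lit 76) (nat_lit 9097096736) (nat_lit 19) (nat_lit 4) (nat_lit 20) (nat_lit 5) (nat_lit 20) (nat_lit 4) (nat_lit 510) (nat_lit 403) (nat_lit 287)) (XT.lf (nat_lit 0) (nat_lit 18508728993) (nat_lit 152) (nat_lit 130086475890) (nat_lit 0) (nat_lit 3002559464) (nat_lit 17) (nat_lit 5) (nat_lit 19) (nat_lit 4) (nat_lit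 17) (nat_lit 4) (nat_lit 511) (nat_lit 403) (nat_lit 286))))) (XT.nd (nat_lit 312) (nat_lit 152) (nat_lit 0) (XT.nd (nat_lit 156) (nat_lit 76) (nat_lit 0) (XT.nd (nat_lit 78) (nat_lit 0) (nat_lit 0) (XT.lf (nat_lit 0) (nat_lit 48189005180) (nat_lit 152) (nat_lit 76831475740) (nat_lit 0) (nat_lit 32680377658) (nat_lit 17) (nat_lit 5) (nat_lit 19) (nat_lit 4) (nat_lit 17) (nat_lit 4) (nat_lit 512) (nat_lit 403) (nat_lit 285)) (XT.lf (nat_lit 0) (nat_lit 79344244172) (nat_lit 152) (nat_lit 20932040241) (nat_lit 0) (nat_lit 63833275705) (nat_lit 17) (nat_lit 5) (nat_lit 19) (nat_lit 4) (nat_lit 17) (nat_lit 4) (nat_lit 513) (nat_lit 403) (nat_lit 284))) (XT.nd (nat_lit 78) (nat_lit 0) (nat_lit 0) (XT.lf (nat_lit 0) (nat_lit 38992942164) (nat_lit 76) (nat_lit 73664472051) (nat_lit 76) (nat_lit 58151274113) (nat_lit 16) (nat_lit 4) (nat_lit 17) (nat_lit 5) (nat_lit 17) (nat_lit 4) (nat_lit 514) (nat_lit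 403) (nat_lit 283)) (XT.lf (nat_lit 0) (nat_lit 102623725662) (nat_lit 76) (nat_lit 45358533868) (nat_lit 76) (nat_lit 29843212623) (nat_lit 16) (nat_lit 4) (nat_lit 17) (nat_lit 5) (nat_lit 17) (nat_lit 4) (nat_lit 515) (nat_lit 403) (nat_lit 282)))) (XT.nd (nat_lit 156) (nat_lit 0) (nat_lit 0) (XT.nd (nat_lit 78) (nat_lit 152) (nat_lit 0) (XT.lf (nat_lit 0) (nat_lit 169419704334) (nat_lit 76) (nat_lit 15645569004) (nat_lit 76) (nat_lit 128225562) (nat_lit 16) (nat_lit 4) (nat_lit 17) (nat_lit 5) (nat_lit 17) (nat_lit 4) (nat_lit 516) (nat_lit 403) (nat_lit 281)) (XT.lf (nat_lit 0) (nat_lit 31076976566) (nat_lit 152) (nat_lit 145482024954) (nat_lit 0) (nat_lit 16296720049) (nat_lit 14) (nat_lit 5) (nat_lit 16) (nat_lit 4) (nat_lit 14) (nat_lit 4) (nat_lit 517) (nat_lit 403) (nat_lit 280))) (XT.nd (nat_lit 78) (nat_lit 0) (nat_lit 0) (XT.lf (nat_lit 0) (nat_lit 64358321072) (nat_lit 152) (nat_lit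 86940301948) (nat_lit 0) (nat_lit 49576317706) (nat_lit 14) (nat_lit 5) (nat_lit 16) (nat_lit 4) (nat_lit 14) (nat_lit 4) (nat_lit 518) (nat_lit 403) (nat_lit 279)) (XT.lf (nat_lit 0) (nat_lit 99296295297) (nat_lit 152) (nat_lit 25486569192) (nat_lit 0) (nat_lit 84512628265) (nat_lit 14) (nat_lit 5) (nat_lit 16) (nat_lit 4) (nat_lit 14) (nat_lit 4) (nat_lit 519) (nat_lit 403) (nat_lit 278))))))) (XT.nd (nat_lit 1170) (nat_lit 304) (nat_lit 0) (XT.nd (nat_lit 546) (nat_lit 228) (nat_lit 0) (XT.nd (nat_lit 234) (nat_lit 152) (nat_lit 0) (XT.nd (nat_lit 78) (nat_lit 0) (nat_lit 0) (XT.lf (nat_lit 0) (nat_lit 40315850728) (nat_lit 76) (nat_lit 96287677580) (nat_lit 76) (nat_lit 81502426104) (nat_lit 13) (nat_lit 4) (nat_lit 14) (nat_lit 5) (nat_lit 14) (nat_lit 4) (nat_lit 520) (nat_lit 403) (nat_lit 277)) (XT.nd (nat_lit 78) (nat_lit 0) (nat_lit 0) (XT.lf (nat_lit 0) (nat_lit 110279100890) (nat_lit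 76) (nat_lit 65921682862) (nat_lit 76) (nat_lit 51134922392) (nat_lit 13) (nat_lit 4) (nat_lit 14) (nat_lit 5) (nat_lit 14) (nat_lit 4) (nat_lit 521) (nat_lit 403) (nat_lit 276)) (XT.lf (nat_lit 0) (nat_lit 183727059382) (nat_lit 76) (nat_lit 34044207730) (nat_lit 76) (nat_lit 19256010122) (nat_lit 13) (nat_lit 4) (nat_lit 14) (nat_lit 5) (nat_lit 14) (nat_lit 4) (nat_lit 522) (nat_lit 403) (nat_lit 275)))) (XT.nd (nat_lit 156) (nat_lit 0) (nat_lit 0) (XT.nd (nat_lit 78) (nat_lit 0) (nat_lit 0) (XT.lf (nat_lit 0) (nat_lit 13852360231) (nat_lit 76) (nat_lit 119311251) (nat_lit 152) (nat_lit 233210164601) (nat_lit 11) (nat_lit 5) (nat_lit 12) (nat_lit 5) (nat_lit 13) (nat_lit 4) (nat_lit 523) (nat_lit 403) (nat_lit 274)) (XT.lf (nat_lit 0) (nat_lit 49678936538) (nat_lit 152) (nat_lit 172483742531) (nat_lit 0) (nat_lit 35592393838) (nat_lit 11) (nat_lit 5) (nat_lit 13) (nat_lit 4) (nat_lit 11) (nat_lit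 4) (nat_lit 524) (nat_lit 403) (nat_lit 273))) (XT.nd (nat_lit 78) (nat_lit 0) (nat_lit 0) (XT.lf (nat_lit 0) (nat_lit 87167408149) (nat_lit 152) (nat_lit 108610088169) (nat_lit 0) (nat_lit 73079683112) (nat_lit 11) (nat_lit 5) (nat_lit 13) (nat_lit 4) (nat_lit 11) (nat_lit 4) (nat_lit 525) (nat_lit 403) (nat_lit 272)) (XT.lf (nat_lit 0) (nat_lit 126524481799) (nat_lit 152) (nat_lit 41554569854) (nat_lit 0) (nat_lit 112435630727) (nat_lit 11) (nat_lit 5) (nat_lit 13) (nat_lit 4) (nat_lit 11) (nat_lit 4) (nat_lit 526) (nat_lit 403) (nat_lit 271))))) (XT.nd (nat_lit 312) (nat_lit 152) (nat_lit 0) (XT.nd (nat_lit 156) (nat_lit 0) (nat_lit 0) (XT.nd (nat_lit 78) (nat_lit 0) (nat_lit 0) (XT.lf (nat_lit 0) (nat_lit 29796130670) (nat_lit 76) (nat_lit 138512935238) (nat_lit 76) (nat_lit 124423011753) (nat_lit 10) (nat_lit 4) (nat_lit 11) (nat_lit 5) (nat_lit 11) (nat_lit 4) (nat_lit 527) (nat_lit 403)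 (nat_lit 270)) (XT.lf (nat_lit 0) (nat_lit 106145972634) (nat_lit 76) (nat_lit 106735200124) (nat_lit 76) (nat_lit 92644255292) (nat_lit 10) (nat_lit 4) (nat_lit 11) (nat_lit 5) (nat_lit 11) (nat_lit 4) (nat_lit 528) (nat_lit 403) (nat_lit 269))) (XT.nd (nat_lit 78) (nat_lit 0) (nat_lit 0) (XT.lf (nat_lit 0) (nat_lit 186302759631) (nat_lit 76) (nat_lit 73373931784) (nat_lit 76) (nat_lit 59282014241) (nat_lit 10) (nat_lit 4) (nat_lit 11) (nat_lit 5) (nat_lit 11) (nat_lit 4) (nat_lit 529) (nat_lit 403) (nat_lit 268)) (XT.lf (nat_lit 0) (nat_lit 270457341152) (nat_lit 76) (nat_lit 38349698628) (nat_lit 76) (nat_lit 24256854693) (nat_lit 10) (nat_lit 4) (nat_lit 11) (nat_lit 5) (nat_lit 11) (nat_lit 4) (nat_lit 530) (nat_lit 403) (nat_lit 267)))) (XT.nd (nat_lit 156) (nat_lit 0) (nat_lit 0) (XT.nd (nat_lit 78) (nat_lit 0) (nat_lit 0) (XT.lf (nat_lit 0) (nat_lit 11095235558) (nat_lit 76) (nat_lit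 1192062866) (nat_lit 152) (nat_lit 335568849060) (nat_lit 8) (nat_lit 5) (nat_lit 9) (nat_lit 5) (nat_lit 10) (nat_lit 4) (nat_lit 531) (nat_lit 403) (nat_lit 266)) (XT.lf (nat_lit 0) (nat_lit 51506868558) (nat_lit 152) (nat_lit 273694620087) (nat_lit 0) (nat_lit 38083471913) (nat_lit 8) (nat_lit 5) (nat_lit 10) (nat_lit 4) (nat_lit 8) (nat_lit 4) (nat_lit 532) (nat_lit 403) (nat_lit 265))) (XT.nd (nat_lit 78) (nat_lit 0) (nat_lit 0) (XT.lf (nat_lit 0) (nat_lit 92702401902) (nat_lit 152) (nat_lit 207503820051) (nat_lit 0) (nat_lit 79278243113) (nat_lit 8) (nat_lit 5) (nat_lit 10) (nat_lit 4) (nat_lit 8) (nat_lit 4) (nat_lit 533) (nat_lit 403) (nat_lit 264)) (XT.lf (nat_lit 0) (nat_lit 135953371618) (nat_lit 152) (nat_lit 138012303235) (nat_lit 0) (nat_lit 122528486977) (nat_lit 8) (nat_lit 5) (nat_lit 10) (nat_lit 4) (nat_lit 8) (nat_lit 4) (nat_lit 534) (nat_lit 403) (nat_lit 263)))))) (XT.nd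 (nat_lit 624) (nat_lit 76) (nat_lit 0) (XT.nd (nat_lit 312) (nat_lit 152) (nat_lit 0) (XT.nd (nat_lit 156) (nat_lit 0) (nat_lit 0) (XT.nd (nat_lit 78) (nat_lit 76) (nat_lit 0) (XT.lf (nat_lit 0) (nat_lit 181362756205) (nat_lit 152) (nat_lit 65054613645) (nat_lit 0) (nat_lit 167937180276) (nat_lit 8) (nat_lit 5) (nat_lit 10) (nat_lit 4) (nat_lit 8) (nat_lit 4) (nat_lit 535) (nat_lit 403) (nat_lit 262)) (XT.lf (nat_lit 0) (nat_lit 11924619806) (nat_lit 76) (nat_lit 217300230173) (nat_lit 76) (nat_lit 203873995875) (nat_lit 7) (nat_lit 4) (nat_lit 8) (nat_lit 5) (nat_lit 8) (nat_lit 4) (nat_lit 536) (nat_lit 403) (nat_lit 261))) (XT.nd (nat_lit 78) (nat_lit 0) (nat_lit 0) (XT.lf (nat_lit 0) (nat_lit 95003490378) (nat_lit 76) (nat_lit 185574417181) (nat_lit 76) (nat_lit 172147555865) (nat_lit 7) (nat_lit 4) (nat_lit 8) (nat_lit 5) (nat_lit 8) (nat_lit 4) (nat_lit 537) (nat_lit 403) (nat_lit 260))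 (XT.lf (nat_lit 0) (nat_lit 182228805581) (nat_lit 76) (nat_lit 152266124587) (nat_lit 76) (nat_lit 138838666111) (nat_lit 7) (nat_lit 4) (nat_lit 8) (nat_lit 5) (nat_lit 8) (nat_lit 4) (nat_lit 538) (nat_lit 403) (nat_lit 259)))) (XT.nd (nat_lit 156) (nat_lit 152) (nat_lit 0) (XT.nd (nat_lit 78) (nat_lit 0) (nat_lit 0) (XT.lf (nat_lit 0) (nat_lit 273808244737) (nat_lit 76) (nat_lit 117296046931) (nat_lit 76) (nat_lit 103868019731) (nat_lit 7) (nat_lit 4) (nat_lit 8) (nat_lit 5) (nat_lit 8) (nat_lit 4) (nat_lit 539) (nat_lit 403) (nat_lit 258)) (XT.lf (nat_lit 0) (nat_lit 369959854130) (nat_lit 76) (nat_lit 80580922124) (nat_lit 76) (nat_lit 67152353282) (nat_lit 7) (nat_lit 4) (nat_lit 8) (nat_lit 5) (nat_lit 8) (nat_lit 4) (nat_lit 540) (nat_lit 403) (nat_lit 257))) (XT.nd (nat_lit 78) (nat_lit 152) (nat_lit 0) (XT.lf (nat_lit 0) (nat_lit 470912566163) (nat_lit 76) (nat_lit 42033333202) (nat_lit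 76) (nat_lit 28604248510) (nat_lit 7) (nat_lit 4) (nat_lit 8) (nat_lit 5) (nat_lit 8) (nat_lit 4) (nat_lit 541) (nat_lit 403) (nat_lit 256)) (XT.lf (nat_lit 0) (nat_lit 10455936951) (nat_lit 76) (nat_lit 1195532769) (nat_lit 152) (nat_lit 554931272102) (nat_lit 5) (nat_lit 5) (nat_lit 6) (nat_lit 5) (nat_lit 7) (nat_lit 4) (nat_lit 542) (nat_lit 403) (nat_lit 255))))) (XT.nd (nat_lit 312) (nat_lit 76) (nat_lit 0) (XT.nd (nat_lit 156) (nat_lit 0) (nat_lit 0) (XT.nd (nat_lit 78) (nat_lit 0) (nat_lit 0) (XT.lf (nat_lit 0) (nat_lit 54822300650) (nat_lit 152) (nat_lit 495896255184) (nat_lit 0) (nat_lit 42031782681) (nat_lit 5) (nat_lit 5) (nat_lit 7) (nat_lit 4) (nat_lit 5) (nat_lit 4) (nat_lit 543) (nat_lit 403) (nat_lit 254)) (XT.lf (nat_lit 0) (nat_lit 100168336580) (nat_lit 152) (nat_lit 432679751079) (nat_lit 0) (nat_lit 87377394220) (nat_lit 5) (nat_lit 5) (nat_lit 7) (nat_lit 4) (nat_lit 5)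 (nat_lit 4) (nat_lit 544) (nat_lit 403) (nat_lit 253))) (XT.nd (nat_lit 78) (nat_lit 0) (nat_lit 0) (XT.lf (nat_lit 0) (nat_lit 147778878645) (nat_lit 152) (nat_lit 366308111454) (nat_lit 0) (nat_lit 134987532103) (nat_lit 5) (nat_lit 5) (nat_lit 7) (nat_lit 4) (nat_lit 5) (nat_lit 4) (nat_lit 545) (nat_lit 403) (nat_lit 252)) (XT.lf (nat_lit 0) (nat_lit 197767285279) (nat_lit 152) (nat_lit 296623308595) (nat_lit 0) (nat_lit 184975553802) (nat_lit 5) (nat_lit 5) (nat_lit 7) (nat_lit 4) (nat_lit 5) (nat_lit 4) (nat_lit 546) (nat_lit 403) (nat_lit 251)))) (XT.nd (nat_lit 156) (nat_lit 76) (nat_lit 0) (XT.nd (nat_lit 78) (nat_lit 0) (nat_lit 0) (XT.lf (nat_lit 0) (nat_lit 250252576497) (nat_lit 152) (nat_lit 223459426306) (nat_lit 0) (nat_lit 237460478416) (nat_lit 5) (nat_lit 5) (nat_lit 7) (nat_lit 4) (nat_lit 5) (nat_lit 4) (nat_lit 547) (nat_lit 403) (nat_lit 250)) (XT.lf (nat_lit 0) (nat_lit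 305359717279) (nat_lit 152) (nat_lit 146642264866) (nat_lit 0) (nat_lit 292567270051) (nat_lit 5) (nat_lit 5) (nat_lit 7) (nat_lit 4) (nat_lit 5) (nat_lit 4) (nat_lit 548) (nat_lit 403) (nat_lit 249))) (XT.nd (nat_lit 78) (nat_lit 76) (nat_lit 0) (XT.lf (nat_lit 0) (nat_lit 363219915103) (nat_lit 152) (nat_lit 65988926271) (nat_lit 0) (nat_lit 350427135354) (nat_lit 5) (nat_lit 5) (nat_lit 7) (nat_lit 4) (nat_lit 5) (nat_lit 4) (nat_lit 549) (nat_lit 403) (nat_lit 248)) (XT.lf (nat_lit 0) (nat_lit 19310683711) (nat_lit 76) (nat_lit 404961742524) (nat_lit 76) (nat_lit 392168646088) (nat_lit 4) (nat_lit 4) (nat_lit 5) (nat_lit 5) (nat_lit 5) (nat_lit 4) (nat_lit 550) (nat_lit 403) (nat_lit 247))))))))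
noncomputable def xc103 : XT := (XT.nd (nat_lit 53352) (nat_lit 0) (nat_lit 3800) (XT.nd (nat_lit 52104) (nat_lit 0) (nat_lit 7524) (XT.nd (nat_lit 51480) (nat_lit 0) (nat_lit 12084) (XT.nd (nat_lit 51168) (nat_lit 0) (nat_lit 13756) (XT.nd (nat_lit 51012) (nat_lit 0) (nat_lit 14516) (XT.lf (nat_lit 0) (nat_lit 111161874592) (nat_lit 76) (nat_lit 378331088083) (nat_lit 76) (nat_lit 365537690041) (nat_lit 4) (nat_lit 4) (nat_lit 5) (nat_lit 5) (nat_lit 5) (nat_lit 4) (nat_lit 551) (nat_lit 403) (nat_lit 246)) (XT.nd (nat_lit 78) (nat_lit 0) (nat_lit 0) (XT.lf (nat_lit 0) (nat_lit 1332708369) (nat_lit 380) (nat_lit 989972575) (nat_lit 380) (nat_lit 989972575) (nat_lit 195) (nat_lit 3) (nat_lit 200) (nat_lit 3) (nat_lit 200) (nat_lit 5) (nat_lit 404) (nat_lit 404) (nat_lit 392)) (XT.lf (nat_lit 76) (nat_lit 1355229788) (nat_lit 0) (nat_lit 3675313413) (nat_lit 380) (nat_lit 1644924886) (nat_lit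 196) (nat_lit 5) (nat_lit 195) (nat_lit 3) (nat_lit 200) (nat_lit 5) (nat_lit 405) (nat_lit 404) (nat_lit 391)))) (XT.nd (nat_lit 156) (nat_lit 380) (nat_lit 0) (XT.nd (nat_lit 78) (nat_lit 0) (nat_lit 0) (XT.lf (nat_lit 0) (nat_lit 645263345) (nat_lit 380) (nat_lit 1897432950) (nat_lit 456) (nat_lit 4190629588) (nat_lit 190) (nat_lit 5) (nat_lit 195) (nat_lit 3) (nat_lit 196) (nat_lit 5) (nat_lit 406) (nat_lit 404) (nat_lit 390)) (XT.lf (nat_lit 76) (nat_lit 1642048225) (nat_lit 0) (nat_lit 1235930117) (nat_lit 456) (nat_lit 3920616813) (nat_lit 191) (nat_lit 5) (nat_lit 190) (nat_lit 5) (nat_lit 196) (nat_lit 5) (nat_lit 407) (nat_lit 404) (nat_lit 389))) (XT.nd (nat_lit 78) (nat_lit 456) (nat_lit 0) (XT.lf (nat_lit 0) (nat_lit 5121230855) (nat_lit 380) (nat_lit 1530334837) (nat_lit 456) (nat_lit 220647361) (nat_lit 191) (nat_lit 5) (nat_lit 196) (nat_lit 5) (nat_lit 197) (nat_lit 5) (nat_lit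 408) (nat_lit 404) (nat_lit 388)) (XT.lf (nat_lit 0) (nat_lit 434939798) (nat_lit 456) (nat_lit 4713851990) (nat_lit 532) (nat_lit 1804102133) (nat_lit 185) (nat_lit 5) (nat_lit 191) (nat_lit 5) (nat_lit 192) (nat_lit 5) (nat_lit 409) (nat_lit 404) (nat_lit 387))))) (XT.nd (nat_lit 312) (nat_lit 1216) (nat_lit 0) (XT.nd (nat_lit 156) (nat_lit 456) (nat_lit 0) (XT.nd (nat_lit 78) (nat_lit 0) (nat_lit 0) (XT.lf (nat_lit 0) (nat_lit 2571069659) (nat_lit 456) (nat_lit 900725415) (nat_lit 532) (nat_lit 3569416848) (nat_lit 185) (nat_lit 5) (nat_lit 191) (nat_lit 5) (nat_lit 192) (nat_lit 5) (nat_lit 410) (nat_lit 404) (nat_lit 386)) (XT.lf (nat_lit 76) (nat_lit 3121734148) (nat_lit 0) (nat_lit 1620453185) (nat_lit 532) (nat_lit 2395374310) (nat_lit 186) (nat_lit 5) (nat_lit 185) (nat_lit 5) (nat_lit 192) (nat_lit 5) (nat_lit 411) (nat_lit 404) (nat_lit 385))) (XT.nd (nat_lit 78) (nat_lit 76) (nat_lit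 0) (XT.lf (nat_lit 0) (nat_lit 48556523) (nat_lit 456) (nat_lit 6879116254) (nat_lit 532) (nat_lit 315789183) (nat_lit 180) (nat_lit 5) (nat_lit 186) (nat_lit 5) (nat_lit 187) (nat_lit 5) (nat_lit 412) (nat_lit 404) (nat_lit 384)) (XT.lf (nat_lit 0) (nat_lit 1790511078) (nat_lit 532) (nat_lit 3041207963) (nat_lit 76) (nat_lit 2522375872) (nat_lit 179) (nat_lit 5) (nat_lit 186) (nat_lit 5) (nat_lit 180) (nat_lit 5) (nat_lit 413) (nat_lit 404) (nat_lit 383)))) (XT.nd (nat_lit 156) (nat_lit 684) (nat_lit 0) (XT.nd (nat_lit 78) (nat_lit 0) (nat_lit 0) (XT.lf (nat_lit 0) (nat_lit 1271217313) (nat_lit 532) (nat_lit 2632359568) (nat_lit 608) (nat_lit 3570841109) (nat_lit 172) (nat_lit 5) (nat_lit 179) (nat_lit 5) (nat_lit 180) (nat_lit 5) (nat_lit 414) (nat_lit 404) (nat_lit 382)) (XT.lf (nat_lit 0) (nat_lit 5821743009) (nat_lit 532) (nat_lit 248108227) (nat_lit 608) (nat_lit 1533547723) (nat_lit 172)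 (nat_lit 5) (nat_lit 179) (nat_lit 5) (nat_lit 180) (nat_lit 5) (nat_lit 415) (nat_lit 404) (nat_lit 381))) (XT.nd (nat_lit 78) (nat_lit 0) (nat_lit 0) (XT.lf (nat_lit 0) (nat_lit 566631490) (nat_lit 684) (nat_lit 4916981411) (nat_lit 76) (nat_lit 2255740775) (nat_lit 163) (nat_lit 5) (nat_lit 172) (nat_lit 5) (nat_lit 164) (nat_lit 5) (nat_lit 416) (nat_lit 404) (nat_lit 380)) (XT.lf (nat_lit 0) (nat_lit 2658151856) (nat_lit 684) (nat_lit 278126399) (nat_lit 76) (nat_lit 4947694241) (nat_lit 163) (nat_lit 5) (nat_lit 172) (nat_lit 5) (nat_lit 164) (nat_lit 5) (nat_lit 417) (nat_lit 404) (nat_lit 379)))))) (XT.nd (nat_lit 624) (nat_lit 1824) (nat_lit 0) (XT.nd (nat_lit 312) (nat_lit 836) (nat_lit 0) (XT.nd (nat_lit 156) (nat_lit 456) (nat_lit 0) (XT.nd (nat_lit 78) (nat_lit 760) (nat_lit 0) (XT.lf (nat_lit 0) (nat_lit 4659633716) (nat_lit 684) (nat_lit 175111374) (nat_lit 760) (nat_lit 3202068367)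 (nat_lit 154) (nat_lit 5) (nat_lit 163) (nat_lit 5) (nat_lit 164) (nat_lit 5) (nat_lit 418) (nat_lit 404) (nat_lit 378)) (XT.lf (nat_lit 0) (nat_lit 1579367990) (nat_lit 760) (nat_lit 5523783614) (nat_lit 836) (nat_lit 1095010960) (nat_lit 144) (nat_lit 5) (nat_lit 154) (nat_lit 5) (nat_lit 155) (nat_lit 5) (nat_lit 419) (nat_lit 404) (nat_lit 377))) (XT.nd (nat_lit 78) (nat_lit 380) (nat_lit 0) (XT.lf (nat_lit 0) (nat_lit 1055144942) (nat_lit 836) (nat_lit 1571961004) (nat_lit 76) (nat_lit 5740939283) (nat_lit 143) (nat_lit 5) (nat_lit 154) (nat_lit 5) (nat_lit 144) (nat_lit 5) (nat_lit 420) (nat_lit 404) (nat_lit 376)) (XT.lf (nat_lit 0) (nat_lit 3258903921) (nat_lit 456) (nat_lit 4808177906) (nat_lit 76) (nat_lit 479311106) (nat_lit 138) (nat_lit 5) (nat_lit 144) (nat_lit 5) (nat_lit 139) (nat_lit 5) (nat_lit 421) (nat_lit 404) (nat_lit 375)))) (XT.nd (nat_lit 156) (nat_lit 456) (nat_lit 0)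 (XT.nd (nat_lit 78) (nat_lit 0) (nat_lit 0) (XT.lf (nat_lit 0) (nat_lit 523880211) (nat_lit 380) (nat_lit 5046630699) (nat_lit 456) (nat_lit 3163276683) (nat_lit 133) (nat_lit 5) (nat_lit 138) (nat_lit 5) (nat_lit 139) (nat_lit 5) (nat_lit 422) (nat_lit 404) (nat_lit 374)) (XT.lf (nat_lit 0) (nat_lit 6205318491) (nat_lit 380) (nat_lit 1795690126) (nat_lit 456) (nat_lit 929389819) (nat_lit 133) (nat_lit 5) (nat_lit 138) (nat_lit 5) (nat_lit 139) (nat_lit 5) (nat_lit 423) (nat_lit 404) (nat_lit 373))) (XT.nd (nat_lit 78) (nat_lit 0) (nat_lit 0) (XT.lf (nat_lit 0) (nat_lit 1368766358) (nat_lit 456) (nat_lit 6137374600) (nat_lit 76) (nat_lit 1629709089) (nat_lit 127) (nat_lit 5) (nat_lit 133) (nat_lit 5) (nat_lit 128) (nat_lit 5) (nat_lit 424) (nat_lit 404) (nat_lit 372)) (XT.lf (nat_lit 0) (nat_lit 3753518614) (nat_lit 456) (nat_lit 376752336) (nat_lit 76) (nat_lit 5220405742) (nat_lit 127) (nat_lit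 5) (nat_lit 133) (nat_lit 5) (nat_lit 128) (nat_lit 5) (nat_lit 425) (nat_lit 404) (nat_lit 371))))) (XT.nd (nat_lit 312) (nat_lit 836) (nat_lit 0) (XT.nd (nat_lit 156) (nat_lit 380) (nat_lit 0) (XT.nd (nat_lit 78) (nat_lit 304) (nat_lit 0) (XT.lf (nat_lit 0) (nat_lit 5775935770) (nat_lit 304) (nat_lit 501824785) (nat_lit 380) (nat_lit 3297481361) (nat_lit 123) (nat_lit 5) (nat_lit 127) (nat_lit 5) (nat_lit 128) (nat_lit 5) (nat_lit 426) (nat_lit 404) (nat_lit 370)) (XT.lf (nat_lit 0) (nat_lit 2380307834) (nat_lit 304) (nat_lit 6575182159) (nat_lit 380) (nat_lit 854191017) (nat_lit 119) (nat_lit 5) (nat_lit 123) (nat_lit 5) (nat_lit 124) (nat_lit 5) (nat_lit 427) (nat_lit 404) (nat_lit 369))) (XT.nd (nat_lit 78) (nat_lit 304) (nat_lit 0) (XT.lf (nat_lit 0) (nat_lit 1662972992) (nat_lit 380) (nat_lit 1171458454) (nat_lit 76) (nat_lit 7219759226) (nat_lit 118) (nat_lit 5) (nat_lit 123) (nat_lit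 5) (nat_lit 119) (nat_lit 5) (nat_lit 428) (nat_lit 404) (nat_lit 368)) (XT.lf (nat_lit 0) (nat_lit 4317375064) (nat_lit 380) (nat_lit 4846488307) (nat_lit 76) (nat_lit 1144366078) (nat_lit 114) (nat_lit 5) (nat_lit 119) (nat_lit 5) (nat_lit 115) (nat_lit 5) (nat_lit 429) (nat_lit 404) (nat_lit 367)))) (XT.nd (nat_lit 156) (nat_lit 532) (nat_lit 0) (XT.nd (nat_lit 78) (nat_lit 0) (nat_lit 0) (XT.lf (nat_lit 0) (nat_lit 1823636354) (nat_lit 304) (nat_lit 5313584401) (nat_lit 380) (nat_lit 3436120951) (nat_lit 110) (nat_lit 5) (nat_lit 114) (nat_lit 5) (nat_lit 115) (nat_lit 5) (nat_lit 430) (nat_lit 404) (nat_lit 366)) (XT.lf (nat_lit 0) (nat_lit 8915603608) (nat_lit 304) (nat_lit 1203876268) (nat_lit 380) (nat_lit 731165993) (nat_lit 110) (nat_lit 5) (nat_lit 114) (nat_lit 5) (nat_lit 115) (nat_lit 5) (nat_lit 431) (nat_lit 404) (nat_lit 365))) (XT.nd (nat_lit 78) (nat_lit 228) (nat_lit 0) (XT.lf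 (nat_lit 0) (nat_lit 2115386691) (nat_lit 304) (nat_lit 5910856948) (nat_lit 76) (nat_lit 3110239252) (nat_lit 106) (nat_lit 5) (nat_lit 110) (nat_lit 5) (nat_lit 107) (nat_lit 5) (nat_lit 432) (nat_lit 404) (nat_lit 364)) (XT.lf (nat_lit 0) (nat_lit 1306737783) (nat_lit 228) (nat_lit 3788970845) (nat_lit 304) (nat_lit 6339509489) (nat_lit 103) (nat_lit 5) (nat_lit 106) (nat_lit 5) (nat_lit 107) (nat_lit 5) (nat_lit 433) (nat_lit 404) (nat_lit 363))))))) (XT.nd (nat_lit 1248) (nat_lit 1596) (nat_lit 0) (XT.nd (nat_lit 624) (nat_lit 988) (nat_lit 0) (XT.nd (nat_lit 312) (nat_lit 608) (nat_lit 0) (XT.nd (nat_lit 156) (nat_lit 304) (nat_lit 0) (XT.nd (nat_lit 78) (nat_lit 228) (nat_lit 0) (XT.lf (nat_lit 0) (nat_lit 8280835657) (nat_lit 304) (nat_lit 2745946326) (nat_lit 76) (nat_lit 719324718) (nat_lit 103) (nat_lit 5) (nat_lit 107) (nat_lit 5) (nat_lit 104) (nat_lit 5) (nat_lit 434) (nat_lit 404)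 (nat_lit 362)) (XT.lf (nat_lit 0) (nat_lit 5027819671) (nat_lit 228) (nat_lit 6684428854) (nat_lit 304) (nat_lit 355945473) (nat_lit 100) (nat_lit 5) (nat_lit 103) (nat_lit 5) (nat_lit 104) (nat_lit 5) (nat_lit 435) (nat_lit 404) (nat_lit 361))) (XT.nd (nat_lit 78) (nat_lit 0) (nat_lit 0) (XT.lf (nat_lit 0) (nat_lit 783211698) (nat_lit 228) (nat_lit 2038956856) (nat_lit 304) (nat_lit 9581630394) (nat_lit 96) (nat_lit 5) (nat_lit 99) (nat_lit 5) (nat_lit 100) (nat_lit 5) (nat_lit 436) (nat_lit 404) (nat_lit 360)) (XT.lf (nat_lit 0) (nat_lit 6260625751) (nat_lit 304) (nat_lit 3638123100) (nat_lit 76) (nat_lit 2851478534) (nat_lit 96) (nat_lit 5) (nat_lit 100) (nat_lit 5) (nat_lit 97) (nat_lit 5) (nat_lit 437) (nat_lit 404) (nat_lit 359)))) (XT.nd (nat_lit 156) (nat_lit 152) (nat_lit 0) (XT.nd (nat_lit 78) (nat_lit 304) (nat_lit 0) (XT.lf (nat_lit 0) (nat_lit 4788842814) (nat_lit 152) (nat_lit 5140728485)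 (nat_lit 228) (nat_lit 3181482407) (nat_lit 94) (nat_lit 5) (nat_lit 96) (nat_lit 5) (nat_lit 97) (nat_lit 5) (nat_lit 438) (nat_lit 404) (nat_lit 358)) (XT.lf (nat_lit 0) (nat_lit 202640925) (nat_lit 228) (nat_lit 96635948) (nat_lit 304) (nat_lit 13189591723) (nat_lit 90) (nat_lit 5) (nat_lit 93) (nat_lit 5) (nat_lit 94) (nat_lit 5) (nat_lit 439) (nat_lit 404) (nat_lit 357))) (XT.nd (nat_lit 78) (nat_lit 152) (nat_lit 0) (XT.lf (nat_lit 0) (nat_lit 4023173684) (nat_lit 304) (nat_lit 4647205496) (nat_lit 76) (nat_lit 5203790457) (nat_lit 90) (nat_lit 5) (nat_lit 94) (nat_lit 5) (nat_lit 91) (nat_lit 5) (nat_lit 440) (nat_lit 404) (nat_lit 356)) (XT.lf (nat_lit 0) (nat_lit 4493927067) (nat_lit 152) (nat_lit 3464976481) (nat_lit 228) (nat_lit 6318554172) (nat_lit 88) (nat_lit 5) (nat_lit 90) (nat_lit 5) (nat_lit 91) (nat_lit 5) (nat_lit 441) (nat_lit 404) (nat_lit 355))))) (XT.nd (nat_lit 312)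 (nat_lit 532) (nat_lit 0) (XT.nd (nat_lit 156) (nat_lit 152) (nat_lit 0) (XT.nd (nat_lit 78) (nat_lit 304) (nat_lit 0) (XT.lf (nat_lit 0) (nat_lit 12157224281) (nat_lit 228) (nat_lit 548822781) (nat_lit 76) (nat_lit 1991576635) (nat_lit 88) (nat_lit 5) (nat_lit 91) (nat_lit 5) (nat_lit 89) (nat_lit 5) (nat_lit 442) (nat_lit 404) (nat_lit 354)) (XT.lf (nat_lit 0) (nat_lit 1542654046) (nat_lit 304) (nat_lit 5835933425) (nat_lit 76) (nat_lit 7751017505) (nat_lit 84) (nat_lit 5) (nat_lit 88) (nat_lit 5) (nat_lit 85) (nat_lit 5) (nat_lit 443) (nat_lit 404) (nat_lit 353))) (XT.nd (nat_lit 78) (nat_lit 0) (nat_lit 0) (XT.lf (nat_lit 0) (nat_lit 4083918569) (nat_lit 152) (nat_lit 1690813246) (nat_lit 228) (nat_lit 9804862131) (nat_lit 82) (nat_lit 5) (nat_lit 84) (nat_lit 5) (nat_lit 85) (nat_lit 5) (nat_lit 444) (nat_lit 404) (nat_lit 352)) (XT.lf (nat_lit 0) (nat_lit 10343311841) (nat_lit 228) (nat_lit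 1483414735) (nat_lit 76) (nat_lit 4219113923) (nat_lit 82) (nat_lit 5) (nat_lit 85) (nat_lit 5) (nat_lit 83) (nat_lit 5) (nat_lit 445) (nat_lit 404) (nat_lit 351)))) (XT.nd (nat_lit 156) (nat_lit 152) (nat_lit 0) (XT.nd (nat_lit 78) (nat_lit 228) (nat_lit 0) (XT.lf (nat_lit 0) (nat_lit 9230327301) (nat_lit 152) (nat_lit 6041442056) (nat_lit 228) (nat_lit 1257060507) (nat_lit 80) (nat_lit 5) (nat_lit 82) (nat_lit 5) (nat_lit 83) (nat_lit 5) (nat_lit 446) (nat_lit 404) (nat_lit 350)) (XT.lf (nat_lit 0) (nat_lit 3343645641) (nat_lit 228) (nat_lit 13546188295) (nat_lit 76) (nat_lit 141368501) (nat_lit 77) (nat_lit 5) (nat_lit 80) (nat_lit 5) (nat_lit 78) (nat_lit 5) (nat_lit 447) (nat_lit 404) (nat_lit 349))) (XT.nd (nat_lit 78) (nat_lit 152) (nat_lit 0) (XT.lf (nat_lit 0) (nat_lit 8317139581) (nat_lit 228) (nat_lit 2680651543) (nat_lit 76) (nat_lit 6550624750) (nat_lit 77) (nat_lit 5) (nat_lit 80)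 (nat_lit 5) (nat_lit 78) (nat_lit 5) (nat_lit 448) (nat_lit 404) (nat_lit 348)) (XT.lf (nat_lit 0) (nat_lit 8950285723) (nat_lit 152) (nat_lit 4690978646) (nat_lit 228) (nat_lit 4445130201) (nat_lit 75) (nat_lit 5) (nat_lit 77) (nat_lit 5) (nat_lit 78) (nat_lit 5) (nat_lit 449) (nat_lit 404) (nat_lit 347)))))) (XT.nd (nat_lit 624) (nat_lit 760) (nat_lit 0) (XT.nd (nat_lit 312) (nat_lit 380) (nat_lit 0) (XT.nd (nat_lit 156) (nat_lit 228) (nat_lit 0) (XT.nd (nat_lit 78) (nat_lit 0) (nat_lit 0) (XT.lf (nat_lit 0) (nat_lit 642462276) (nat_lit 228) (nat_lit 16063439572) (nat_lit 76) (nat_lit 1940883847) (nat_lit 72) (nat_lit 5) (nat_lit 75) (nat_lit 5) (nat_lit 73) (nat_lit 5) (nat_lit 450) (nat_lit 404) (nat_lit 346)) (XT.lf (nat_lit 0) (nat_lit 6032011439) (nat_lit 228) (nat_lit 4238741160) (nat_lit 76) (nat_lit 8950954165) (nat_lit 72) (nat_lit 5) (nat_lit 75) (nat_lit 5) (nat_lit 73) (nat_lit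 5) (nat_lit 451) (nat_lit 404) (nat_lit 345))) (XT.nd (nat_lit 78) (nat_lit 76) (nat_lit 0) (XT.lf (nat_lit 0) (nat_lit 8383683177) (nat_lit 152) (nat_lit 3402819488) (nat_lit 228) (nat_lit 8034099959) (nat_lit 70) (nat_lit 5) (nat_lit 72) (nat_lit 5) (nat_lit 73) (nat_lit 5) (nat_lit 452) (nat_lit 404) (nat_lit 344)) (XT.lf (nat_lit 0) (nat_lit 1255923349) (nat_lit 76) (nat_lit 16689727717) (nat_lit 152) (nat_lit 2497947455) (nat_lit 69) (nat_lit 5) (nat_lit 70) (nat_lit 5) (nat_lit 71) (nat_lit 4) (nat_lit 453) (nat_lit 404) (nat_lit 343)))) (XT.nd (nat_lit 156) (nat_lit 152) (nat_lit 0) (XT.nd (nat_lit 78) (nat_lit 152) (nat_lit 0) (XT.lf (nat_lit 0) (nat_lit 3426612194) (nat_lit 152) (nat_lit 6280627683) (nat_lit 76) (nat_lit 11377033174) (nat_lit 68) (nat_lit 5) (nat_lit 70) (nat_lit 5) (nat_lit 69) (nat_lit 5) (nat_lit 454) (nat_lit 404) (nat_lit 342)) (XT.lf (nat_lit 0) (nat_lit 7408586637)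 (nat_lit 152) (nat_lit 2237250476) (nat_lit 228) (nat_lit 12104979082) (nat_lit 66) (nat_lit 5) (nat_lit 68) (nat_lit 5) (nat_lit 69) (nat_lit 5) (nat_lit 455) (nat_lit 404) (nat_lit 341))) (XT.nd (nat_lit 78) (nat_lit 152) (nat_lit 0) (XT.lf (nat_lit 0) (nat_lit 16338647990) (nat_lit 228) (nat_lit 593958845) (nat_lit 76) (nat_lit 5509949967) (nat_lit 66) (nat_lit 5) (nat_lit 69) (nat_lit 5) (nat_lit 67) (nat_lit 4) (nat_lit 456) (nat_lit 404) (nat_lit 340)) (XT.lf (nat_lit 0) (nat_lit 421603328) (nat_lit 152) (nat_lit 8961497446) (nat_lit 76) (nat_lit 13774096086) (nat_lit 64) (nat_lit 5) (nat_lit 66) (nat_lit 5) (nat_lit 65) (nat_lit 5) (nat_lit 457) (nat_lit 404) (nat_lit 339))))) (XT.nd (nat_lit 312) (nat_lit 304) (nat_lit 0) (XT.nd (nat_lit 156) (nat_lit 304) (nat_lit 0) (XT.nd (nat_lit 78) (nat_lit 0) (nat_lit 0) (XT.lf (nat_lit 0) (nat_lit 5869104213) (nat_lit 152) (nat_lit 1269689404)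 (nat_lit 228) (nat_lit 16760246738) (nat_lit 62) (nat_lit 5) (nat_lit 64) (nat_lit 5) (nat_lit 65) (nat_lit 5) (nat_lit 458) (nat_lit 404) (nat_lit 338)) (XT.lf (nat_lit 0) (nat_lit 14428181482) (nat_lit 228) (nat_lit 3090834242) (nat_lit 76) (nat_lit 7147144667) (nat_lit 62) (nat_lit 5) (nat_lit 65) (nat_lit 5) (nat_lit 63) (nat_lit 4) (nat_lit 459) (nat_lit 404) (nat_lit 337))) (XT.nd (nat_lit 78) (nat_lit 228) (nat_lit 0) (XT.lf (nat_lit 0) (nat_lit 12933962242) (nat_lit 76) (nat_lit 9341206896) (nat_lit 152) (nat_lit 3186811980) (nat_lit 61) (nat_lit 5) (nat_lit 62) (nat_lit 5) (nat_lit 63) (nat_lit 4) (nat_lit 460) (nat_lit 404) (nat_lit 336)) (XT.lf (nat_lit 0) (nat_lit 3565230289) (nat_lit 152) (nat_lit 596059338) (nat_lit 228) (nat_lit 22129045264) (nat_lit 58) (nat_lit 5) (nat_lit 60) (nat_lit 5) (nat_lit 61) (nat_lit 5) (nat_lit 461) (nat_lit 404) (nat_lit 335)))) (XT.nd (nat_lit 156)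 (nat_lit 228) (nat_lit 0) (XT.nd (nat_lit 78) (nat_lit 76) (nat_lit 0) (XT.lf (nat_lit 0) (nat_lit 12090062571) (nat_lit 228) (nat_lit 6495886670) (nat_lit 76) (nat_lit 8555527812) (nat_lit 58) (nat_lit 5) (nat_lit 61) (nat_lit 5) (nat_lit 59) (nat_lit 4) (nat_lit 462) (nat_lit 404) (nat_lit 334)) (XT.lf (nat_lit 0) (nat_lit 10829541011) (nat_lit 76) (nat_lit 9736642093) (nat_lit 152) (nat_lit 7461448766) (nat_lit 57) (nat_lit 5) (nat_lit 58) (nat_lit 5) (nat_lit 59) (nat_lit 4) (nat_lit 463) (nat_lit 404) (nat_lit 333))) (XT.nd (nat_lit 78) (nat_lit 0) (nat_lit 0) (XT.lf (nat_lit 0) (nat_lit 239938683) (nat_lit 152) (nat_lit 339515530) (nat_lit 228) (nat_lit 28373859607) (nat_lit 54) (nat_lit 5) (nat_lit 56) (nat_lit 5) (nat_lit 57) (nat_lit 5) (nat_lit 464) (nat_lit 404) (nat_lit 332)) (XT.lf (nat_lit 0) (nat_lit 9188720652) (nat_lit 228) (nat_lit 11091938484) (nat_lit 76) (nat_lit 9617652055)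 (nat_lit 54) (nat_lit 5) (nat_lit 57) (nat_lit 5) (nat_lit 55) (nat_lit 4) (nat_lit 465) (nat_lit 404) (nat_lit 331))))))))
noncomputable def xc104 : XT := (XT.nd (nat_lit 2418) (nat_lit 1292) (nat_lit 0) (XT.nd (nat_lit 1170) (nat_lit 988) (nat_lit 0) (XT.nd (nat_lit 546) (nat_lit 532) (nat_lit 0) (XT.nd (nat_lit 234) (nat_lit 228) (nat_lit 0) (XT.nd (nat_lit 78) (nat_lit 152) (nat_lit 0) (XT.lf (nat_lit 0) (nat_lit 7598364943) (nat_lit 76) (nat_lit 10727891388) (nat_lit 152) (nat_lit 12559412621) (nat_lit 53) (nat_lit 5) (nat_lit 54) (nat_lit 5) (nat_lit 55) (nat_lit 4) (nat_lit 466) (nat_lit 404) (nat_lit 330)) (XT.nd (nat_lit 78) (nat_lit 152) (nat_lit 0) (XT.lf (nat_lit 0) (nat_lit 27559240020) (nat_lit 76) (nat_lit 523375682) (nat_lit 152) (nat_lit 3831682332) (nat_lit 53) (nat_lit 5) (nat_lit 54) (nat_lit 5) (nat_lit 55) (nat_lit 4) (nat_lit 467) (nat_lit 404) (nat_lit 329)) (XT.lf (nat_lit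 0) (nat_lit 5549165729) (nat_lit 152) (nat_lit 17241253258) (nat_lit 76) (nat_lit 10180407454) (nat_lit 51) (nat_lit 5) (nat_lit 53) (nat_lit 5) (nat_lit 52) (nat_lit 4) (nat_lit 468) (nat_lit 404) (nat_lit 328)))) (XT.nd (nat_lit 156) (nat_lit 152) (nat_lit 0) (XT.nd (nat_lit 78) (nat_lit 0) (nat_lit 0) (XT.lf (nat_lit 0) (nat_lit 2864576849) (nat_lit 76) (nat_lit 12509023669) (nat_lit 152) (nat_lit 18698275003) (nat_lit 50) (nat_lit 5) (nat_lit 51) (nat_lit 5) (nat_lit 52) (nat_lit 4) (nat_lit 469) (nat_lit 404) (nat_lit 327)) (XT.lf (nat_lit 0) (nat_lit 24527400088) (nat_lit 76) (nat_lit 1429348217) (nat_lit 152) (nat_lit 9257854827) (nat_lit 50) (nat_lit 5) (nat_lit 51) (nat_lit 5) (nat_lit 52) (nat_lit 4) (nat_lit 470) (nat_lit 404) (nat_lit 326))) (XT.nd (nat_lit 78) (nat_lit 0) (nat_lit 0) (XT.lf (nat_lit 0) (nat_lit 946170146) (nat_lit 152) (nat_lit 25407979643) (nat_lit 76) (nat_lit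 10044180187) (nat_lit 48) (nat_lit 5) (nat_lit 50) (nat_lit 5) (nat_lit 49) (nat_lit 4) (nat_lit 471) (nat_lit 404) (nat_lit 325)) (XT.lf (nat_lit 0) (nat_lit 11533046622) (nat_lit 152) (nat_lit 3733069649) (nat_lit 76) (nat_lit 22358350295) (nat_lit 48) (nat_lit 5) (nat_lit 50) (nat_lit 5) (nat_lit 49) (nat_lit 4) (nat_lit 472) (nat_lit 404) (nat_lit 324))))) (XT.nd (nat_lit 312) (nat_lit 228) (nat_lit 0) (XT.nd (nat_lit 156) (nat_lit 152) (nat_lit 0) (XT.nd (nat_lit 78) (nat_lit 76) (nat_lit 0) (XT.lf (nat_lit 0) (nat_lit 19609865998) (nat_lit 76) (nat_lit 3323073405) (nat_lit 152) (nat_lit 15964787486) (nat_lit 47) (nat_lit 5) (nat_lit 48) (nat_lit 5) (nat_lit 49) (nat_lit 4) (nat_lit 473) (nat_lit 404) (nat_lit 323)) (XT.lf (nat_lit 0) (nat_lit 3956305587) (nat_lit 76) (nat_lit 31194044501) (nat_lit 76) (nat_lit 5071924480) (nat_lit 46) (nat_lit 4) (nat_lit 47) (nat_lit 5) (nat_lit 47) (nat_lit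 4) (nat_lit 474) (nat_lit 404) (nat_lit 322))) (XT.nd (nat_lit 78) (nat_lit 76) (nat_lit 0) (XT.lf (nat_lit 0) (nat_lit 6525953971) (nat_lit 152) (nat_lit 12767103716) (nat_lit 76) (nat_lit 22296817638) (nat_lit 45) (nat_lit 5) (nat_lit 47) (nat_lit 5) (nat_lit 46) (nat_lit 4) (nat_lit 475) (nat_lit 404) (nat_lit 321)) (XT.lf (nat_lit 0) (nat_lit 12171718242) (nat_lit 76) (nat_lit 6530287943) (nat_lit 152) (nat_lit 24311256564) (nat_lit 44) (nat_lit 5) (nat_lit 45) (nat_lit 5) (nat_lit 46) (nat_lit 4) (nat_lit 476) (nat_lit 404) (nat_lit 320)))) (XT.nd (nat_lit 156) (nat_lit 152) (nat_lit 0) (XT.nd (nat_lit 78) (nat_lit 76) (nat_lit 0) (XT.lf (nat_lit 0) (nat_lit 31792656402) (nat_lit 152) (nat_lit 5848577240) (nat_lit 0) (nat_lit 6851296546) (nat_lit 44) (nat_lit 5) (nat_lit 46) (nat_lit 4) (nat_lit 44) (nat_lit 4) (nat_lit 477) (nat_lit 404) (nat_lit 319)) (XT.lf (nat_lit 0) (nat_lit 20916952176)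 (nat_lit 76) (nat_lit 25034288460) (nat_lit 76) (nat_lit 73850680) (nat_lit 43) (nat_lit 4) (nat_lit 44) (nat_lit 5) (nat_lit 44) (nat_lit 4) (nat_lit 478) (nat_lit 404) (nat_lit 318))) (XT.nd (nat_lit 78) (nat_lit 0) (nat_lit 0) (XT.lf (nat_lit 0) (nat_lit 1392042412) (nat_lit 76) (nat_lit 11471689120) (nat_lit 152) (nat_lit 34755147206) (nat_lit 41) (nat_lit 5) (nat_lit 42) (nat_lit 5) (nat_lit 43) (nat_lit 4) (nat_lit 479) (nat_lit 404) (nat_lit 317)) (XT.lf (nat_lit 0) (nat_lit 26900995044) (nat_lit 152) (nat_lit 19273171020) (nat_lit 0) (nat_lit 3095365072) (nat_lit 41) (nat_lit 5) (nat_lit 43) (nat_lit 4) (nat_lit 41) (nat_lit 4) (nat_lit 480) (nat_lit 404) (nat_lit 316)))))) (XT.nd (nat_lit 624) (nat_lit 456) (nat_lit 0) (XT.nd (nat_lit 312) (nat_lit 304) (nat_lit 0) (XT.nd (nat_lit 156) (nat_lit 76) (nat_lit 0) (XT.nd (nat_lit 78) (nat_lit 76) (nat_lit 0) (XT.lf (nat_lit 0) (nat_lit 9093456458)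 (nat_lit 76) (nat_lit 32857521321) (nat_lit 76) (nat_lit 9036195895) (nat_lit 40) (nat_lit 4) (nat_lit 41) (nat_lit 5) (nat_lit 41) (nat_lit 4) (nat_lit 481) (nat_lit 404) (nat_lit 315)) (XT.lf (nat_lit 0) (nat_lit 5116519309) (nat_lit 152) (nat_lit 13347408895) (nat_lit 76) (nat_lit 34307266431) (nat_lit 39) (nat_lit 5) (nat_lit 41) (nat_lit 5) (nat_lit 40) (nat_lit 4) (nat_lit 482) (nat_lit 404) (nat_lit 314))) (XT.nd (nat_lit 78) (nat_lit 0) (nat_lit 0) (XT.lf (nat_lit 0) (nat_lit 16985795417) (nat_lit 76) (nat_lit 2934353429) (nat_lit 152) (nat_lit 34704513658) (nat_lit 38) (nat_lit 5) (nat_lit 39) (nat_lit 5) (nat_lit 40) (nat_lit 4) (nat_lit 483) (nat_lit 404) (nat_lit 313)) (XT.lf (nat_lit 0) (nat_lit 35884282675) (nat_lit 152) (nat_lit 7508906393) (nat_lit 0) (nat_lit 13156598825) (nat_lit 38) (nat_lit 5) (nat_lit 40) (nat_lit 4) (nat_lit 38) (nat_lit 4) (nat_lit 484) (nat_lit 404) (nat_lit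 312)))) (XT.nd (nat_lit 156) (nat_lit 152) (nat_lit 0) (XT.nd (nat_lit 78) (nat_lit 76) (nat_lit 0) (XT.lf (nat_lit 0) (nat_lit 24840222483) (nat_lit 76) (nat_lit 28224999516) (nat_lit 76) (nat_lit 5485017866) (nat_lit 37) (nat_lit 4) (nat_lit 38) (nat_lit 5) (nat_lit 38) (nat_lit 4) (nat_lit 485) (nat_lit 404) (nat_lit 311)) (XT.lf (nat_lit 0) (nat_lit 10231825033) (nat_lit 152) (nat_lit 1776452522) (nat_lit 76) (nat_lit 48628678900) (nat_lit 36) (nat_lit 5) (nat_lit 38) (nat_lit 5) (nat_lit 37) (nat_lit 4) (nat_lit 486) (nat_lit 404) (nat_lit 310))) (XT.nd (nat_lit 78) (nat_lit 76) (nat_lit 0) (XT.lf (nat_lit 0) (nat_lit 27131821687) (nat_lit 152) (nat_lit 30209690743) (nat_lit 0) (nat_lit 5452918537) (nat_lit 35) (nat_lit 5) (nat_lit 37) (nat_lit 4) (nat_lit 35) (nat_lit 4) (nat_lit 487) (nat_lit 404) (nat_lit 309)) (XT.lf (nat_lit 0) (nat_lit 3551006075) (nat_lit 76) (nat_lit 41592236353)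 (nat_lit 76) (nat_lit 19903215773) (nat_lit 34) (nat_lit 4) (nat_lit 35) (nat_lit 5) (nat_lit 35) (nat_lit 4) (nat_lit 488) (nat_lit 404) (nat_lit 308))))) (XT.nd (nat_lit 312) (nat_lit 228) (nat_lit 0) (XT.nd (nat_lit 156) (nat_lit 76) (nat_lit 0) (XT.nd (nat_lit 78) (nat_lit 152) (nat_lit 0) (XT.lf (nat_lit 0) (nat_lit 40016387077) (nat_lit 76) (nat_lit 24534291953) (nat_lit 76) (nat_lit 2835635725) (nat_lit 34) (nat_lit 4) (nat_lit 35) (nat_lit 5) (nat_lit 35) (nat_lit 4) (nat_lit 489) (nat_lit 404) (nat_lit 307)) (XT.lf (nat_lit 0) (nat_lit 8466170037) (nat_lit 76) (nat_lit 6252855851) (nat_lit 152) (nat_lit 55106535863) (nat_lit 32) (nat_lit 5) (nat_lit 33) (nat_lit 5) (nat_lit 34) (nat_lit 4) (nat_lit 490) (nat_lit 404) (nat_lit 306))) (XT.nd (nat_lit 78) (nat_lit 76) (nat_lit 0) (XT.lf (nat_lit 0) (nat_lit 33713692557) (nat_lit 152) (nat_lit 25606633803) (nat_lit 0) (nat_lit 13031242222)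 (nat_lit 32) (nat_lit 5) (nat_lit 34) (nat_lit 4) (nat_lit 32) (nat_lit 4) (nat_lit 491) (nat_lit 404) (nat_lit 305)) (XT.lf (nat_lit 0) (nat_lit 12191775863) (nat_lit 76) (nat_lit 41744289510) (nat_lit 76) (nat_lit 21053911903) (nat_lit 31) (nat_lit 4) (nat_lit 32) (nat_lit 5) (nat_lit 32) (nat_lit 4) (nat_lit 492) (nat_lit 404) (nat_lit 304)))) (XT.nd (nat_lit 156) (nat_lit 76) (nat_lit 0) (XT.nd (nat_lit 78) (nat_lit 152) (nat_lit 0) (XT.lf (nat_lit 0) (nat_lit 52739896167) (nat_lit 76) (nat_lit 22848693082) (nat_lit 76) (nat_lit 2150765693) (nat_lit 31) (nat_lit 4) (nat_lit 32) (nat_lit 5) (nat_lit 32) (nat_lit 4) (nat_lit 493) (nat_lit 404) (nat_lit 303)) (XT.lf (nat_lit 0) (nat_lit 14860241841) (nat_lit 76) (nat_lit 2488714011) (nat_lit 152) (nat_lit 63252537881) (nat_lit 29) (nat_lit 5) (nat_lit 30) (nat_lit 5) (nat_lit 31) (nat_lit 4) (nat_lit 494) (nat_lit 404) (nat_lit 302))) (XT.nd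 (nat_lit 78) (nat_lit 76) (nat_lit 0) (XT.lf (nat_lit 0) (nat_lit 38462478751) (nat_lit 152) (nat_lit 26370145881) (nat_lit 0) (nat_lit 18736797291) (nat_lit 29) (nat_lit 5) (nat_lit 31) (nat_lit 4) (nat_lit 29) (nat_lit 4) (nat_lit 495) (nat_lit 404) (nat_lit 301)) (XT.lf (nat_lit 0) (nat_lit 15394470184) (nat_lit 76) (nat_lit 45504892454) (nat_lit 76) (nat_lit 25772999769) (nat_lit 28) (nat_lit 4) (nat_lit 29) (nat_lit 5) (nat_lit 29) (nat_lit 4) (nat_lit 496) (nat_lit 404) (nat_lit 300))))))) (XT.nd (nat_lit 1170) (nat_lit 608) (nat_lit 0) (XT.nd (nat_lit 546) (nat_lit 304) (nat_lit 0) (XT.nd (nat_lit 234) (nat_lit 228) (nat_lit 0) (XT.nd (nat_lit 78) (nat_lit 152) (nat_lit 0) (XT.lf (nat_lit 0) (nat_lit 60136298063) (nat_lit 76) (nat_lit 24755146216) (nat_lit 76) (nat_lit 5017338080) (nat_lit 28) (nat_lit 4) (nat_lit 29) (nat_lit 5) (nat_lit 29) (nat_lit 4) (nat_lit 497) (nat_lit 404) (nat_lit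 299)) (XT.nd (nat_lit 78) (nat_lit 0) (nat_lit 0) (XT.lf (nat_lit 0) (nat_lit 13967632109) (nat_lit 76) (nat_lit 2476794236) (nat_lit 152) (nat_lit 76839237980) (nat_lit 26) (nat_lit 5) (nat_lit 27) (nat_lit 5) (nat_lit 28) (nat_lit 4) (nat_lit 498) (nat_lit 404) (nat_lit 298)) (XT.lf (nat_lit 0) (nat_lit 39636893464) (nat_lit 152) (nat_lit 36316467490) (nat_lit 0) (nat_lit 20828505474) (nat_lit 26) (nat_lit 5) (nat_lit 28) (nat_lit 4) (nat_lit 26) (nat_lit 4) (nat_lit 499) (nat_lit 404) (nat_lit 297)))) (XT.nd (nat_lit 156) (nat_lit 152) (nat_lit 0) (XT.nd (nat_lit 78) (nat_lit 0) (nat_lit 0) (XT.lf (nat_lit 0) (nat_lit 9057896751) (nat_lit 76) (nat_lit 55100922434) (nat_lit 76) (nat_lit 36287667787) (nat_lit 25) (nat_lit 4) (nat_lit 26) (nat_lit 5) (nat_lit 26) (nat_lit 4) (nat_lit 500) (nat_lit 404) (nat_lit 296)) (XT.lf (nat_lit 0) (nat_lit 57937715066) (nat_lit 76) (nat_lit 32572180214)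 (nat_lit 76) (nat_lit 13754290656) (nat_lit 25) (nat_lit 4) (nat_lit 26) (nat_lit 5) (nat_lit 26) (nat_lit 4) (nat_lit 501) (nat_lit 404) (nat_lit 295))) (XT.nd (nat_lit 78) (nat_lit 0) (nat_lit 0) (XT.lf (nat_lit 0) (nat_lit 837579250) (nat_lit 76) (nat_lit 8752607583) (nat_lit 152) (nat_lit 98674776393) (nat_lit 23) (nat_lit 5) (nat_lit 24) (nat_lit 5) (nat_lit 25) (nat_lit 4) (nat_lit 502) (nat_lit 404) (nat_lit 294)) (XT.lf (nat_lit 0) (nat_lit 34679323131) (nat_lit 152) (nat_lit 60973883121) (nat_lit 0) (nat_lit 16749315740) (nat_lit 23) (nat_lit 5) (nat_lit 25) (nat_lit 4) (nat_lit 23) (nat_lit 4) (nat_lit 503) (nat_lit 404) (nat_lit 293))))) (XT.nd (nat_lit 312) (nat_lit 76) (nat_lit 0) (XT.nd (nat_lit 156) (nat_lit 152) (nat_lit 0) (XT.nd (nat_lit 78) (nat_lit 76) (nat_lit 0) (XT.lf (nat_lit 0) (nat_lit 61155367678) (nat_lit 152) (nat_lit 12363421391) (nat_lit 0) (nat_lit 43221547133)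 (nat_lit 23) (nat_lit 5) (nat_lit 25) (nat_lit 4) (nat_lit 23) (nat_lit 4) (nat_lit 504) (nat_lit 404) (nat_lit 292)) (XT.lf (nat_lit 0) (nat_lit 39934548075) (nat_lit 76) (nat_lit 49633648078) (nat_lit 76) (nat_lit 31696195959) (nat_lit 22) (nat_lit 4) (nat_lit 23) (nat_lit 5) (nat_lit 23) (nat_lit 4) (nat_lit 505) (nat_lit 404) (nat_lit 291))) (XT.nd (nat_lit 78) (nat_lit 152) (nat_lit 0) (XT.lf (nat_lit 0) (nat_lit 95255817261) (nat_lit 76) (nat_lit 24344896014) (nat_lit 76) (nat_lit 6403985254) (nat_lit 22) (nat_lit 4) (nat_lit 23) (nat_lit 5) (nat_lit 23) (nat_lit 4) (nat_lit 506) (nat_lit 404) (nat_lit 290)) (XT.lf (nat_lit 0) (nat_lit 19898380964) (nat_lit 152) (nat_lit 108239716978) (nat_lit 0) (nat_lit 2808662197) (nat_lit 20) (nat_lit 5) (nat_lit 22) (nat_lit 4) (nat_lit 20) (nat_lit 4) (nat_lit 507) (nat_lit 404) (nat_lit 289)))) (XT.nd (nat_lit 156) (nat_lit 76) (nat_lit 0) (XT.nd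 (nat_lit 78) (nat_lit 0) (nat_lit 0) (XT.lf (nat_lit 0) (nat_lit 48219037929) (nat_lit 152) (nat_lit 56739386922) (nat_lit 0) (nat_lit 31126331456) (nat_lit 20) (nat_lit 5) (nat_lit 22) (nat_lit 4) (nat_lit 20) (nat_lit 4) (nat_lit 508) (nat_lit 404) (nat_lit 288)) (XT.lf (nat_lit 0) (nat_lit 77946211222) (nat_lit 152) (nat_lit 2683257629) (nat_lit 0) (nat_lit 60850659316) (nat_lit 20) (nat_lit 5) (nat_lit 22) (nat_lit 4) (nat_lit 20) (nat_lit 4) (nat_lit 509) (nat_lit 404) (nat_lit 287))) (XT.nd (nat_lit 78) (nat_lit 0) (nat_lit 0) (XT.lf (nat_lit 0) (nat_lit 55844756950) (nat_lit 76) (nat_lit 54177816039) (nat_lit 76) (nat_lit 37079554197) (nat_lit 19) (nat_lit 4) (nat_lit 20) (nat_lit 5) (nat_lit 20) (nat_lit 4) (nat_lit 510) (nat_lit 404) (nat_lit 286)) (XT.lf (nat_lit 0) (nat_lit 117374321943) (nat_lit 76) (nat_lit 26364960267) (nat_lit 76) (nat_lit 9264117532) (nat_lit 19) (nat_lit 4) (nat_lit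 20) (nat_lit 5) (nat_lit 20) (nat_lit 4) (nat_lit 511) (nat_lit 404) (nat_lit 285)))))) (XT.nd (nat_lit 624) (nat_lit 228) (nat_lit 0) (XT.nd (nat_lit 312) (nat_lit 152) (nat_lit 0) (XT.nd (nat_lit 156) (nat_lit 76) (nat_lit 0) (XT.nd (nat_lit 78) (nat_lit 0) (nat_lit 0) (XT.lf (nat_lit 0) (nat_lit 19712538987) (nat_lit 152) (nat_lit 136027512264) (nat_lit 0) (nat_lit 3423681151) (nat_lit 17) (nat_lit 5) (nat_lit 19) (nat_lit 4) (nat_lit 17) (nat_lit 4) (nat_lit 512) (nat_lit 404) (nat_lit 284)) (XT.lf (nat_lit 0) (nat_lit 50863573100) (nat_lit 152) (nat_lit 80136585318) (nat_lit 0) (nat_lit 34572485793) (nat_lit 17) (nat_lit 5) (nat_lit 19) (nat_lit 4) (nat_lit 17) (nat_lit 4) (nat_lit 513) (nat_lit 404) (nat_lit 283))) (XT.nd (nat_lit 78) (nat_lit 76) (nat_lit 0) (XT.lf (nat_lit 0) (nat_lit 83563949391) (nat_lit 152) (nat_lit 21467723959) (nat_lit 0) (nat_lit 67270738778) (nat_lit 17) (nat_lit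 5) (nat_lit 19) (nat_lit 4) (nat_lit 17) (nat_lit 4) (nat_lit 514) (nat_lit 404) (nat_lit 282)) (XT.lf (nat_lit 0) (nat_lit 41445266950) (nat_lit 76) (nat_lit 77093335718) (nat_lit 76) (nat_lit 60798102908) (nat_lit 16) (nat_lit 4) (nat_lit 17) (nat_lit 5) (nat_lit 17) (nat_lit 4) (nat_lit 515) (nat_lit 404) (nat_lit 281)))) (XT.nd (nat_lit 156) (nat_lit 76) (nat_lit 0) (XT.nd (nat_lit 78) (nat_lit 76) (nat_lit 0) (XT.lf (nat_lit 0) (nat_lit 108233652590) (nat_lit 76) (nat_lit 47384213003) (nat_lit 76) (nat_lit 31087054292) (nat_lit 16) (nat_lit 4) (nat_lit 17) (nat_lit 5) (nat_lit 17) (nat_lit 4) (nat_lit 516) (nat_lit 404) (nat_lit 280)) (XT.lf (nat_lit 0) (nat_lit 98597335) (nat_lit 152) (nat_lit 16096868364) (nat_lit 76) (nat_lit 178246365893) (nat_lit 15) (nat_lit 5) (nat_lit 17) (nat_lit 5) (nat_lit 16) (nat_lit 4) (nat_lit 517) (nat_lit 404) (nat_lit 279))) (XT.nd (nat_lit 78) (nat_lit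 0) (nat_lit 0) (XT.lf (nat_lit 0) (nat_lit 32859574094) (nat_lit 152) (nat_lit 152292435017) (nat_lit 0) (nat_lit 17335060044) (nat_lit 14) (nat_lit 5) (nat_lit 16) (nat_lit 4) (nat_lit 14) (nat_lit 4) (nat_lit 518) (nat_lit 404) (nat_lit 278)) (XT.lf (nat_lit 0) (nat_lit 67794093031) (nat_lit 152) (nat_lit 90845706394) (nat_lit 0) (nat_lit 52267994538) (nat_lit 14) (nat_lit 5) (nat_lit 16) (nat_lit 4) (nat_lit 14) (nat_lit 4) (nat_lit 519) (nat_lit 404) (nat_lit 277))))) (XT.nd (nat_lit 312) (nat_lit 152) (nat_lit 0) (XT.nd (nat_lit 156) (nat_lit 0) (nat_lit 0) (XT.nd (nat_lit 78) (nat_lit 76) (nat_lit 0) (XT.lf (nat_lit 0) (nat_lit 104468591877) (nat_lit 152) (nat_lit 26340316078) (nat_lit 0) (nat_lit 88940984389) (nat_lit 14) (nat_lit 5) (nat_lit 16) (nat_lit 4) (nat_lit 14) (nat_lit 4) (nat_lit 520) (nat_lit 404) (nat_lit 276)) (XT.lf (nat_lit 0) (nat_lit 42745441263) (nat_lit 76) (nat_lit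 100892325734) (nat_lit 76) (nat_lit 85363281109) (nat_lit 13) (nat_lit 4) (nat_lit 14) (nat_lit 5) (nat_lit 14) (nat_lit 4) (nat_lit 521) (nat_lit 404) (nat_lit 275))) (XT.nd (nat_lit 78) (nat_lit 0) (nat_lit 0) (XT.lf (nat_lit 0) (nat_lit 116187149267) (nat_lit 76) (nat_lit 69018018696) (nat_lit 76) (nat_lit 53487605369) (nat_lit 13) (nat_lit 4) (nat_lit 14) (nat_lit 5) (nat_lit 14) (nat_lit 4) (nat_lit 522) (nat_lit 404) (nat_lit 274)) (XT.lf (nat_lit 0) (nat_lit 193288739335) (nat_lit 76) (nat_lit 35556181632) (nat_lit 76) (nat_lit 20024464778) (nat_lit 13) (nat_lit 4) (nat_lit 14) (nat_lit 5) (nat_lit 14) (nat_lit 4) (nat_lit 523) (nat_lit 404) (nat_lit 273)))) (XT.nd (nat_lit 156) (nat_lit 0) (nat_lit 0) (XT.nd (nat_lit 78) (nat_lit 0) (nat_lit 0) (XT.lf (nat_lit 0) (nat_lit 14856299442) (nat_lit 152) (nat_lit 244612319659) (nat_lit 0) (nat_lit 63005817) (nat_lit 11) (nat_lit 5) (nat_lit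 13) (nat_lit 4) (nat_lit 11) (nat_lit 4) (nat_lit 524) (nat_lit 404) (nat_lit 272)) (XT.lf (nat_lit 0) (nat_lit 52341931277) (nat_lit 152) (nat_lit 180744430549) (nat_lit 0) (nat_lit 37547511617) (nat_lit 11) (nat_lit 5) (nat_lit 13) (nat_lit 4) (nat_lit 11) (nat_lit 4) (nat_lit 525) (nat_lit 404) (nat_lit 271))) (XT.nd (nat_lit 78) (nat_lit 0) (nat_lit 0) (XT.lf (nat_lit 0) (nat_lit 91696300377) (nat_lit 152) (nat_lit 113694402950) (nat_lit 0) (nat_lit 76900808303) (nat_lit 11) (nat_lit 5) (nat_lit 13) (nat_lit 4) (nat_lit 11) (nat_lit 4) (nat_lit 526) (nat_lit 404) (nat_lit 270)) (XT.lf (nat_lit 0) (nat_lit 133013107623) (nat_lit 152) (nat_lit 43302593940) (nat_lit 0) (nat_lit 118216594202) (nat_lit 11) (nat_lit 5) (nat_lit 13) (nat_lit 4) (nat_lit 11) (nat_lit 4) (nat_lit 527) (nat_lit 404) (nat_lit 269))))))))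
noncomputable def xc105 : XT := (XT.nd (nat_lit 53508) (nat_lit 0) (nat_lit 6080) (XT.nd (nat_lit 1170) (nat_lit 152) (nat_lit 0) (XT.nd (nat_lit 546) (nat_lit 76) (nat_lit 0) (XT.nd (nat_lit 234) (nat_lit 152) (nat_lit 0) (XT.nd (nat_lit 78) (nat_lit 0) (nat_lit 0) (XT.lf (nat_lit 0) (nat_lit 31610323797) (nat_lit 76) (nat_lit 145273928308) (nat_lit 76) (nat_lit 130476442177) (nat_lit 10) (nat_lit 4) (nat_lit 11) (nat_lit 5) (nat_lit 11) (nat_lit 4) (nat_lit 528) (nat_lit 404) (nat_lit 268)) (XT.nd (nat_lit 78) (nat_lit 0) (nat_lit 0) (XT.lf (nat_lit 0) (nat_lit 111762210879) (nat_lit 76) (nat_lit 111915147090) (nat_lit 76) (nat_lit 97116734567) (nat_lit 10) (nat_lit 4) (nat_lit 11) (nat_lit 5) (nat_lit 11) (nat_lit 4) (nat_lit 529) (nat_lit 404) (nat_lit 267)) (XT.lf (nat_lit 0) (nat_lit 195912125815) (nat_lit 76) (nat_lit 76893282621) (nat_lit 76) (nat_lit 62093987820) (nat_lit 10) (nat_lit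 4) (nat_lit 11) (nat_lit 5) (nat_lit 11) (nat_lit 4) (nat_lit 530) (nat_lit 404) (nat_lit 266)))) (XT.nd (nat_lit 156) (nat_lit 0) (nat_lit 0) (XT.nd (nat_lit 78) (nat_lit 152) (nat_lit 0) (XT.lf (nat_lit 0) (nat_lit 284260425546) (nat_lit 76) (nat_lit 40124949509) (nat_lit 76) (nat_lit 25324814444) (nat_lit 10) (nat_lit 4) (nat_lit 11) (nat_lit 5) (nat_lit 11) (nat_lit 4) (nat_lit 531) (nat_lit 404) (nat_lit 265)) (XT.lf (nat_lit 0) (nat_lit 11930257904) (nat_lit 76) (nat_lit 1109348544) (nat_lit 152) (nat_lit 352202450771) (nat_lit 8) (nat_lit 5) (nat_lit 9) (nat_lit 5) (nat_lit 10) (nat_lit 4) (nat_lit 532) (nat_lit 404) (nat_lit 264))) (XT.nd (nat_lit 78) (nat_lit 0) (nat_lit 0) (XT.lf (nat_lit 0) (nat_lit 54215702536) (nat_lit 152) (nat_lit 287107983251) (nat_lit 0) (nat_lit 40118847811) (nat_lit 8) (nat_lit 5) (nat_lit 10) (nat_lit 4) (nat_lit 8) (nat_lit 4) (nat_lit 533) (nat_lit 404)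 (nat_lit 263)) (XT.lf (nat_lit 0) (nat_lit 97464655855) (nat_lit 152) (nat_lit 217620565492) (nat_lit 0) (nat_lit 83367109842) (nat_lit 8) (nat_lit 5) (nat_lit 10) (nat_lit 4) (nat_lit 8) (nat_lit 4) (nat_lit 534) (nat_lit 404) (nat_lit 262))))) (XT.nd (nat_lit 312) (nat_lit 0) (nat_lit 0) (XT.nd (nat_lit 156) (nat_lit 76) (nat_lit 0) (XT.nd (nat_lit 78) (nat_lit 0) (nat_lit 0) (XT.lf (nat_lit 0) (nat_lit 142872120063) (nat_lit 152) (nat_lit 144666779766) (nat_lit 0) (nat_lit 128773915681) (nat_lit 8) (nat_lit 5) (nat_lit 10) (nat_lit 4) (nat_lit 8) (nat_lit 4) (nat_lit 535) (nat_lit 404) (nat_lit 261)) (XT.lf (nat_lit 0) (nat_lit 190546208172) (nat_lit 152) (nat_lit 68072926584) (nat_lit 0) (nat_lit 176447376772) (nat_lit 8) (nat_lit 5) (nat_lit 10) (nat_lit 4) (nat_lit 8) (nat_lit 4) (nat_lit 536) (nat_lit 404) (nat_lit 260))) (XT.nd (nat_lit 78) (nat_lit 0) (nat_lit 0) (XT.lf (nat_lit 0) (nat_lit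 12751487609) (nat_lit 76) (nat_lit 228048028762) (nat_lit 76) (nat_lit 213948600202) (nat_lit 7) (nat_lit 4) (nat_lit 8) (nat_lit 5) (nat_lit 8) (nat_lit 4) (nat_lit 537) (nat_lit 404) (nat_lit 259)) (XT.lf (nat_lit 0) (nat_lit 99973319004) (nat_lit 76) (nat_lit 194741506689) (nat_lit 76) (nat_lit 180641509404) (nat_lit 7) (nat_lit 4) (nat_lit 8) (nat_lit 5) (nat_lit 8) (nat_lit 4) (nat_lit 538) (nat_lit 404) (nat_lit 258)))) (XT.nd (nat_lit 156) (nat_lit 0) (nat_lit 0) (XT.nd (nat_lit 78) (nat_lit 0) (nat_lit 0) (XT.lf (nat_lit 0) (nat_lit 191549440247) (nat_lit 76) (nat_lit 159773115244) (nat_lit 76) (nat_lit 145672576317) (nat_lit 7) (nat_lit 4) (nat_lit 8) (nat_lit 5) (nat_lit 8) (nat_lit 4) (nat_lit 539) (nat_lit 404) (nat_lit 257)) (XT.lf (nat_lit 0) (nat_lit 287697889724) (nat_lit 76) (nat_lit 123059596351) (nat_lit 76) (nat_lit 108958541575) (nat_lit 7) (nat_lit 4) (nat_lit 8) (nat_lit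 5) (nat_lit 8) (nat_lit 4) (nat_lit 540) (nat_lit 404) (nat_lit 256))) (XT.nd (nat_lit 78) (nat_lit 0) (nat_lit 0) (XT.lf (nat_lit 0) (nat_lit 388647592313) (nat_lit 76) (nat_lit 84513536872) (nat_lit 76) (nat_lit 70411990811) (nat_lit 7) (nat_lit 4) (nat_lit 8) (nat_lit 5) (nat_lit 8) (nat_lit 4) (nat_lit 541) (nat_lit 404) (nat_lit 255)) (XT.lf (nat_lit 0) (nat_lit 494638904449) (nat_lit 76) (nat_lit 44043160473) (nat_lit 76) (nat_lit 29941146521) (nat_lit 7) (nat_lit 4) (nat_lit 8) (nat_lit 5) (nat_lit 8) (nat_lit 4) (nat_lit 542) (nat_lit 404) (nat_lit 254)))))) (XT.nd (nat_lit 51714) (nat_lit 0) (nat_lit 13148) (XT.nd (nat_lit 312) (nat_lit 0) (nat_lit 0) (XT.nd (nat_lit 156) (nat_lit 0) (nat_lit 0) (XT.nd (nat_lit 78) (nat_lit 0) (nat_lit 0) (XT.lf (nat_lit 0) (nat_lit 11159467849) (nat_lit 76) (nat_lit 1163423570) (nat_lit 152) (nat_lit 582584544814) (nat_lit 5) (nat_lit 5) (nat_lit 6)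 (nat_lit 5) (nat_lit 7) (nat_lit 4) (nat_lit 543) (nat_lit 404) (nat_lit 253)) (XT.lf (nat_lit 0) (nat_lit 57649399310) (nat_lit 152) (nat_lit 520516075434) (nat_lit 0) (nat_lit 44218081260) (nat_lit 5) (nat_lit 5) (nat_lit 7) (nat_lit 4) (nat_lit 5) (nat_lit 4) (nat_lit 544) (nat_lit 404) (nat_lit 252))) (XT.nd (nat_lit 78) (nat_lit 0) (nat_lit 0) (XT.lf (nat_lit 0) (nat_lit 105258642578) (nat_lit 152) (nat_lit 454147079100) (nat_lit 0) (nat_lit 91826939593) (nat_lit 5) (nat_lit 5) (nat_lit 7) (nat_lit 4) (nat_lit 5) (nat_lit 4) (nat_lit 545) (nat_lit 404) (nat_lit 251)) (XT.lf (nat_lit 0) (nat_lit 155245812262) (nat_lit 152) (nat_lit 384464793662) (nat_lit 0) (nat_lit 141813742672) (nat_lit 5) (nat_lit 5) (nat_lit 7) (nat_lit 4) (nat_lit 5) (nat_lit 4) (nat_lit 546) (nat_lit 404) (nat_lit 250)))) (XT.nd (nat_lit 156) (nat_lit 0) (nat_lit 0) (XT.nd (nat_lit 78) (nat_lit 0) (nat_lit 0) (XT.lf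 (nat_lit 0) (nat_lit 207729925433) (nat_lit 152) (nat_lit 311303308916) (nat_lit 0) (nat_lit 194297506696) (nat_lit 5) (nat_lit 5) (nat_lit 7) (nat_lit 4) (nat_lit 5) (nat_lit 4) (nat_lit 547) (nat_lit 404) (nat_lit 249)) (XT.lf (nat_lit 0) (nat_lit 262835944265) (nat_lit 152) (nat_lit 234488430850) (nat_lit 0) (nat_lit 249403193007) (nat_lit 5) (nat_lit 5) (nat_lit 7) (nat_lit 4) (nat_lit 5) (nat_lit 4) (nat_lit 548) (nat_lit 404) (nat_lit 248))) (XT.nd (nat_lit 78) (nat_lit 0) (nat_lit 0) (XT.lf (nat_lit 0) (nat_lit 320695073565) (nat_lit 152) (nat_lit 153837266899) (nat_lit 0) (nat_lit 307262005620) (nat_lit 5) (nat_lit 5) (nat_lit 7) (nat_lit 4) (nat_lit 5) (nat_lit 4) (nat_lit 549) (nat_lit 404) (nat_lit 247)) (XT.lf (nat_lit 0) (nat_lit 381445073164) (nat_lit 152) (nat_lit 69157790480) (nat_lit 0) (nat_lit 368011703613) (nat_lit 5) (nat_lit 5) (nat_lit 7) (nat_lit 4) (nat_lit 5) (nat_lit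 4) (nat_lit 550) (nat_lit 404) (nat_lit 246))))) (XT.nd (nat_lit 312) (nat_lit 456) (nat_lit 0) (XT.nd (nat_lit 156) (nat_lit 456) (nat_lit 0) (XT.nd (nat_lit 78) (nat_lit 0) (nat_lit 0) (XT.lf (nat_lit 0) (nat_lit 135509300) (nat_lit 0) (nat_lit 135509300) (nat_lit 380) (nat_lit 3094206517) (nat_lit 190) (nat_lit 5) (nat_lit 190) (nat_lit 3) (nat_lit 195) (nat_lit 3) (nat_lit 405) (nat_lit 405) (nat_lit 390)) (XT.lf (nat_lit 0) (nat_lit 2705912370) (nat_lit 380) (nat_lit 3097127670) (nat_lit 456) (nat_lit 987682651) (nat_lit 190) (nat_lit 5) (nat_lit 195) (nat_lit 3) (nat_lit 196) (nat_lit 5) (nat_lit 406) (nat_lit 405) (nat_lit 389))) (XT.nd (nat_lit 78) (nat_lit 456) (nat_lit 0) (XT.lf (nat_lit 76) (nat_lit 364265174) (nat_lit 0) (nat_lit 4488284956) (nat_lit 456) (nat_lit 2007760450) (nat_lit 191) (nat_lit 5) (nat_lit 190) (nat_lit 5) (nat_lit 196) (nat_lit 5) (nat_lit 407) (nat_lit 405)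 (nat_lit 388)) (XT.lf (nat_lit 0) (nat_lit 88470776) (nat_lit 456) (nat_lit 2907484411) (nat_lit 532) (nat_lit 3941271431) (nat_lit 184) (nat_lit 5) (nat_lit 190) (nat_lit 5) (nat_lit 191) (nat_lit 5) (nat_lit 408) (nat_lit 405) (nat_lit 387)))) (XT.nd (nat_lit 156) (nat_lit 456) (nat_lit 0) (XT.nd (nat_lit 78) (nat_lit 0) (nat_lit 76) (XT.lf (nat_lit 76) (nat_lit 776816393) (nat_lit 0) (nat_lit 1331217507) (nat_lit 532) (nat_lit 4914035273) (nat_lit 185) (nat_lit 5) (nat_lit 184) (nat_lit 5) (nat_lit 191) (nat_lit 5) (nat_lit 409) (nat_lit 405) (nat_lit 386)) (XT.lf (nat_lit 0) (nat_lit 4164571092) (nat_lit 456) (nat_lit 2450970621) (nat_lit 532) (nat_lit 498837233) (nat_lit 185) (nat_lit 5) (nat_lit 191) (nat_lit 5) (nat_lit 192) (nat_lit 5) (nat_lit 410) (nat_lit 405) (nat_lit 385))) (XT.nd (nat_lit 78) (nat_lit 532) (nat_lit 0) (XT.lf (nat_lit 76) (nat_lit 1481241549) (nat_lit 0) (nat_lit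 4772826308) (nat_lit 532) (nat_lit 960753418) (nat_lit 186) (nat_lit 5) (nat_lit 185) (nat_lit 5) (nat_lit 192) (nat_lit 5) (nat_lit 411) (nat_lit 405) (nat_lit 384)) (XT.lf (nat_lit 0) (nat_lit 1021475605) (nat_lit 532) (nat_lit 1721200626) (nat_lit 608) (nat_lit 4580259769) (nat_lit 178) (nat_lit 5) (nat_lit 185) (nat_lit 5) (nat_lit 186) (nat_lit 5) (nat_lit 412) (nat_lit 405) (nat_lit 383))))))) (XT.nd (nat_lit 1170) (nat_lit 2888) (nat_lit 0) (XT.nd (nat_lit 546) (nat_lit 2356) (nat_lit 0) (XT.nd (nat_lit 234) (nat_lit 1368) (nat_lit 0) (XT.nd (nat_lit 78) (nat_lit 456) (nat_lit 0) (XT.lf (nat_lit 76) (nat_lit 2479345775) (nat_lit 0) (nat_lit 522871455) (nat_lit 608) (nat_lit 4436887765) (nat_lit 179) (nat_lit 5) (nat_lit 178) (nat_lit 5) (nat_lit 186) (nat_lit 5) (nat_lit 413) (nat_lit 405) (nat_lit 382)) (XT.nd (nat_lit 78) (nat_lit 532) (nat_lit 0) (XT.lf (nat_lit 0) (nat_lit 5037198344)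 (nat_lit 532) (nat_lit 719098737) (nat_lit 76) (nat_lit 1807044738) (nat_lit 179) (nat_lit 5) (nat_lit 186) (nat_lit 5) (nat_lit 180) (nat_lit 5) (nat_lit 414) (nat_lit 405) (nat_lit 381)) (XT.lf (nat_lit 0) (nat_lit 3769041842) (nat_lit 532) (nat_lit 3374540239) (nat_lit 608) (nat_lit 551744296) (nat_lit 172) (nat_lit 5) (nat_lit 179) (nat_lit 5) (nat_lit 180) (nat_lit 5) (nat_lit 415) (nat_lit 405) (nat_lit 380)))) (XT.nd (nat_lit 156) (nat_lit 684) (nat_lit 0) (XT.nd (nat_lit 78) (nat_lit 0) (nat_lit 0) (XT.lf (nat_lit 0) (nat_lit 589607816) (nat_lit 608) (nat_lit 808809244) (nat_lit 684) (nat_lit 6438035518) (nat_lit 163) (nat_lit 5) (nat_lit 171) (nat_lit 5) (nat_lit 172) (nat_lit 5) (nat_lit 416) (nat_lit 405) (nat_lit 379)) (XT.lf (nat_lit 0) (nat_lit 3432308140) (nat_lit 684) (nat_lit 2635447350) (nat_lit 76) (nat_lit 1916205198) (nat_lit 163) (nat_lit 5) (nat_lit 172) (nat_lit 5) (nat_lit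 164) (nat_lit 5) (nat_lit 417) (nat_lit 405) (nat_lit 378))) (XT.nd (nat_lit 78) (nat_lit 0) (nat_lit 0) (XT.lf (nat_lit 0) (nat_lit 2184930248) (nat_lit 684) (nat_lit 3342475490) (nat_lit 760) (nat_lit 2613478145) (nat_lit 154) (nat_lit 5) (nat_lit 163) (nat_lit 5) (nat_lit 164) (nat_lit 5) (nat_lit 418) (nat_lit 405) (nat_lit 377)) (XT.lf (nat_lit 0) (nat_lit 7260823866) (nat_lit 684) (nat_lit 426188473) (nat_lit 760) (nat_lit 620667745) (nat_lit 154) (nat_lit 5) (nat_lit 163) (nat_lit 5) (nat_lit 164) (nat_lit 5) (nat_lit 419) (nat_lit 405) (nat_lit 376))))) (XT.nd (nat_lit 312) (nat_lit 760) (nat_lit 0) (XT.nd (nat_lit 156) (nat_lit 380) (nat_lit 0) (XT.nd (nat_lit 78) (nat_lit 380) (nat_lit 0) (XT.lf (nat_lit 0) (nat_lit 1449843447) (nat_lit 836) (nat_lit 4384044033) (nat_lit 76) (nat_lit 2646534554) (nat_lit 143) (nat_lit 5) (nat_lit 154) (nat_lit 5) (nat_lit 144) (nat_lit 5) (nat_lit 420)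 (nat_lit 405) (nat_lit 375)) (XT.lf (nat_lit 0) (nat_lit 801512710) (nat_lit 380) (nat_lit 2759670392) (nat_lit 456) (nat_lit 5102213735) (nat_lit 138) (nat_lit 5) (nat_lit 143) (nat_lit 5) (nat_lit 144) (nat_lit 5) (nat_lit 421) (nat_lit 405) (nat_lit 374))) (XT.nd (nat_lit 78) (nat_lit 380) (nat_lit 0) (XT.lf (nat_lit 0) (nat_lit 5784059004) (nat_lit 456) (nat_lit 2543243084) (nat_lit 76) (nat_lit 527931802) (nat_lit 138) (nat_lit 5) (nat_lit 144) (nat_lit 5) (nat_lit 139) (nat_lit 5) (nat_lit 422) (nat_lit 405) (nat_lit 373)) (XT.lf (nat_lit 0) (nat_lit 3015009170) (nat_lit 380) (nat_lit 5122235529) (nat_lit 456) (nat_lit 918471197) (nat_lit 133) (nat_lit 5) (nat_lit 138) (nat_lit 5) (nat_lit 139) (nat_lit 5) (nat_lit 423) (nat_lit 405) (nat_lit 372)))) (XT.nd (nat_lit 156) (nat_lit 304) (nat_lit 0) (XT.nd (nat_lit 78) (nat_lit 380) (nat_lit 0) (XT.lf (nat_lit 0) (nat_lit 1270668848) (nat_lit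 456) (nat_lit 424975244) (nat_lit 76) (nat_lit 7570953268) (nat_lit 132) (nat_lit 5) (nat_lit 138) (nat_lit 5) (nat_lit 133) (nat_lit 5) (nat_lit 424) (nat_lit 405) (nat_lit 371)) (XT.lf (nat_lit 0) (nat_lit 3587870067) (nat_lit 456) (nat_lit 3958188437) (nat_lit 76) (nat_lit 1938747859) (nat_lit 127) (nat_lit 5) (nat_lit 133) (nat_lit 5) (nat_lit 128) (nat_lit 5) (nat_lit 425) (nat_lit 405) (nat_lit 370))) (XT.nd (nat_lit 78) (nat_lit 0) (nat_lit 0) (XT.lf (nat_lit 0) (nat_lit 2037287289) (nat_lit 304) (nat_lit 3983967773) (nat_lit 380) (nat_lit 3692663948) (nat_lit 123) (nat_lit 5) (nat_lit 127) (nat_lit 5) (nat_lit 128) (nat_lit 5) (nat_lit 426) (nat_lit 405) (nat_lit 369)) (XT.lf (nat_lit 0) (nat_lit 8394215638) (nat_lit 304) (nat_lit 184519612) (nat_lit 380) (nat_lit 1375639674) (nat_lit 123) (nat_lit 5) (nat_lit 127) (nat_lit 5) (nat_lit 128) (nat_lit 5) (nat_lit 427) (nat_lit 405) (nat_lit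 368)))))) (XT.nd (nat_lit 624) (nat_lit 1368) (nat_lit 0) (XT.nd (nat_lit 312) (nat_lit 532) (nat_lit 0) (XT.nd (nat_lit 156) (nat_lit 304) (nat_lit 0) (XT.nd (nat_lit 78) (nat_lit 304) (nat_lit 0) (XT.lf (nat_lit 0) (nat_lit 1098563086) (nat_lit 380) (nat_lit 5336886224) (nat_lit 76) (nat_lit 3766828835) (nat_lit 118) (nat_lit 5) (nat_lit 123) (nat_lit 5) (nat_lit 119) (nat_lit 5) (nat_lit 428) (nat_lit 405) (nat_lit 367)) (XT.lf (nat_lit 0) (nat_lit 1139735347) (nat_lit 304) (nat_lit 2497282886) (nat_lit 380) (nat_lit 6825099800) (nat_lit 114) (nat_lit 5) (nat_lit 118) (nat_lit 5) (nat_lit 119) (nat_lit 5) (nat_lit 429) (nat_lit 405) (nat_lit 366))) (XT.nd (nat_lit 78) (nat_lit 304) (nat_lit 0) (XT.lf (nat_lit 0) (nat_lit 6360422432) (nat_lit 380) (nat_lit 2709375091) (nat_lit 76) (nat_lit 1662258427) (nat_lit 114) (nat_lit 5) (nat_lit 119) (nat_lit 5) (nat_lit 115) (nat_lit 5) (nat_lit 430)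 (nat_lit 405) (nat_lit 365)) (XT.lf (nat_lit 0) (nat_lit 4255877778) (nat_lit 304) (nat_lit 5014924627) (nat_lit 380) (nat_lit 1742155080) (nat_lit 110) (nat_lit 5) (nat_lit 114) (nat_lit 5) (nat_lit 115) (nat_lit 5) (nat_lit 431) (nat_lit 405) (nat_lit 364)))) (XT.nd (nat_lit 156) (nat_lit 228) (nat_lit 0) (XT.nd (nat_lit 78) (nat_lit 0) (nat_lit 0) (XT.lf (nat_lit 0) (nat_lit 275663462) (nat_lit 228) (nat_lit 705541015) (nat_lit 304) (nat_lit 10326159900) (nat_lit 106) (nat_lit 5) (nat_lit 109) (nat_lit 5) (nat_lit 110) (nat_lit 5) (nat_lit 432) (nat_lit 405) (nat_lit 363)) (XT.lf (nat_lit 0) (nat_lit 3903427556) (nat_lit 304) (nat_lit 3881783885) (nat_lit 76) (nat_lit 3823796054) (nat_lit 106) (nat_lit 5) (nat_lit 110) (nat_lit 5) (nat_lit 107) (nat_lit 5) (nat_lit 433) (nat_lit 405) (nat_lit 362))) (XT.nd (nat_lit 78) (nat_lit 0) (nat_lit 0) (XT.lf (nat_lit 0) (nat_lit 3659196777) (nat_lit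 228) (nat_lit 3329169030) (nat_lit 304) (nat_lit 4936542519) (nat_lit 103) (nat_lit 5) (nat_lit 106) (nat_lit 5) (nat_lit 107) (nat_lit 5) (nat_lit 434) (nat_lit 405) (nat_lit 361)) (XT.lf (nat_lit 0) (nat_lit 10264409216) (nat_lit 304) (nat_lit 636523466) (nat_lit 76) (nat_lit 1353834089) (nat_lit 103) (nat_lit 5) (nat_lit 107) (nat_lit 5) (nat_lit 104) (nat_lit 5) (nat_lit 435) (nat_lit 405) (nat_lit 360))))) (XT.nd (nat_lit 312) (nat_lit 684) (nat_lit 0) (XT.nd (nat_lit 156) (nat_lit 152) (nat_lit 0) (XT.nd (nat_lit 78) (nat_lit 228) (nat_lit 0) (XT.lf (nat_lit 0) (nat_lit 1192749413) (nat_lit 304) (nat_lit 5124522340) (nat_lit 76) (nat_lit 6276744206) (nat_lit 99) (nat_lit 5) (nat_lit 103) (nat_lit 5) (nat_lit 100) (nat_lit 5) (nat_lit 436) (nat_lit 405) (nat_lit 359)) (XT.lf (nat_lit 0) (nat_lit 3047923370) (nat_lit 228) (nat_lit 1430605519) (nat_lit 304) (nat_lit 8469551704) (nat_lit 96)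 (nat_lit 5) (nat_lit 99) (nat_lit 5) (nat_lit 100) (nat_lit 5) (nat_lit 437) (nat_lit 405) (nat_lit 358))) (XT.nd (nat_lit 78) (nat_lit 152) (nat_lit 0) (XT.lf (nat_lit 0) (nat_lit 8027315770) (nat_lit 304) (nat_lit 1638724845) (nat_lit 76) (nat_lit 3648876433) (nat_lit 96) (nat_lit 5) (nat_lit 100) (nat_lit 5) (nat_lit 97) (nat_lit 5) (nat_lit 438) (nat_lit 405) (nat_lit 357)) (XT.lf (nat_lit 0) (nat_lit 7174407035) (nat_lit 152) (nat_lit 4669586696) (nat_lit 228) (nat_lit 1851583305) (nat_lit 94) (nat_lit 5) (nat_lit 96) (nat_lit 5) (nat_lit 97) (nat_lit 5) (nat_lit 439) (nat_lit 405) (nat_lit 356)))) (XT.nd (nat_lit 156) (nat_lit 380) (nat_lit 0) (XT.nd (nat_lit 78) (nat_lit 0) (nat_lit 0) (XT.lf (nat_lit 0) (nat_lit 1730782643) (nat_lit 304) (nat_lit 11731739935) (nat_lit 76) (nat_lit 629842477) (nat_lit 90) (nat_lit 5) (nat_lit 94) (nat_lit 5) (nat_lit 91) (nat_lit 5) (nat_lit 440) (nat_lit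 405) (nat_lit 355)) (XT.lf (nat_lit 0) (nat_lit 5574928675) (nat_lit 304) (nat_lit 2767932510) (nat_lit 76) (nat_lit 6157372953) (nat_lit 90) (nat_lit 5) (nat_lit 94) (nat_lit 5) (nat_lit 91) (nat_lit 5) (nat_lit 441) (nat_lit 405) (nat_lit 354))) (XT.nd (nat_lit 78) (nat_lit 228) (nat_lit 0) (XT.lf (nat_lit 0) (nat_lit 6796198080) (nat_lit 152) (nat_lit 2879369604) (nat_lit 228) (nat_lit 5249718244) (nat_lit 88) (nat_lit 5) (nat_lit 90) (nat_lit 5) (nat_lit 91) (nat_lit 5) (nat_lit 442) (nat_lit 405) (nat_lit 353)) (XT.lf (nat_lit 0) (nat_lit 1502070253) (nat_lit 228) (nat_lit 12553673266) (nat_lit 304) (nat_lit 1312124910) (nat_lit 85) (nat_lit 5) (nat_lit 88) (nat_lit 5) (nat_lit 89) (nat_lit 5) (nat_lit 443) (nat_lit 405) (nat_lit 352))))))))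
noncomputable def xc106 : XT := (XT.nd (nat_lit 2418) (nat_lit 1824) (nat_lit 0) (XT.nd (nat_lit 1170) (nat_lit 1292) (nat_lit 0) (XT.nd (nat_lit 546) (nat_lit 836) (nat_lit 0) (XT.nd (nat_lit 234) (nat_lit 380) (nat_lit 0) (XT.nd (nat_lit 78) (nat_lit 304) (nat_lit 0) (XT.lf (nat_lit 0) (nat_lit 2878228215) (nat_lit 304) (nat_lit 4088513973) (nat_lit 76) (nat_lit 8856327039) (nat_lit 84) (nat_lit 5) (nat_lit 88) (nat_lit 5) (nat_lit 85) (nat_lit 5) (nat_lit 444) (nat_lit 405) (nat_lit 351)) (XT.nd (nat_lit 78) (nat_lit 152) (nat_lit 0) (XT.lf (nat_lit 0) (nat_lit 6294440039) (nat_lit 152) (nat_lit 998868414) (nat_lit 228) (nat_lit 9003683736) (nat_lit 82) (nat_lit 5) (nat_lit 84) (nat_lit 5) (nat_lit 85) (nat_lit 5) (nat_lit 445) (nat_lit 405) (nat_lit 350)) (XT.lf (nat_lit 0) (nat_lit 413539794) (nat_lit 152) (nat_lit 11636216213) (nat_lit 228) (nat_lit 4738827396) (nat_lit 80) (nat_lit 5)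 (nat_lit 82) (nat_lit 5) (nat_lit 83) (nat_lit 5) (nat_lit 446) (nat_lit 405) (nat_lit 349)))) (XT.nd (nat_lit 156) (nat_lit 152) (nat_lit 0) (XT.nd (nat_lit 78) (nat_lit 228) (nat_lit 0) (XT.lf (nat_lit 0) (nat_lit 11618154215) (nat_lit 152) (nat_lit 5573775915) (nat_lit 228) (nat_lit 105431477) (nat_lit 80) (nat_lit 5) (nat_lit 82) (nat_lit 5) (nat_lit 83) (nat_lit 5) (nat_lit 447) (nat_lit 405) (nat_lit 348)) (XT.lf (nat_lit 0) (nat_lit 4672882226) (nat_lit 228) (nat_lit 12244608543) (nat_lit 76) (nat_lit 907095481) (nat_lit 77) (nat_lit 5) (nat_lit 80) (nat_lit 5) (nat_lit 78) (nat_lit 5) (nat_lit 448) (nat_lit 405) (nat_lit 347))) (XT.nd (nat_lit 78) (nat_lit 152) (nat_lit 0) (XT.lf (nat_lit 0) (nat_lit 9839714944) (nat_lit 228) (nat_lit 930027772) (nat_lit 76) (nat_lit 7600687945) (nat_lit 77) (nat_lit 5) (nat_lit 80) (nat_lit 5) (nat_lit 78) (nat_lit 5) (nat_lit 449) (nat_lit 405) (nat_lit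 346)) (XT.lf (nat_lit 0) (nat_lit 11252058675) (nat_lit 152) (nat_lit 4154236595) (nat_lit 228) (nat_lit 3530203893) (nat_lit 75) (nat_lit 5) (nat_lit 77) (nat_lit 5) (nat_lit 78) (nat_lit 5) (nat_lit 450) (nat_lit 405) (nat_lit 345))))) (XT.nd (nat_lit 312) (nat_lit 380) (nat_lit 0) (XT.nd (nat_lit 156) (nat_lit 228) (nat_lit 0) (XT.nd (nat_lit 78) (nat_lit 0) (nat_lit 0) (XT.lf (nat_lit 0) (nat_lit 1764218090) (nat_lit 228) (nat_lit 14964678650) (nat_lit 76) (nat_lit 2795686059) (nat_lit 72) (nat_lit 5) (nat_lit 75) (nat_lit 5) (nat_lit 73) (nat_lit 5) (nat_lit 451) (nat_lit 405) (nat_lit 344)) (XT.lf (nat_lit 0) (nat_lit 7371357440) (nat_lit 228) (nat_lit 2639313551) (nat_lit 76) (nat_lit 10120176178) (nat_lit 72) (nat_lit 5) (nat_lit 75) (nat_lit 5) (nat_lit 73) (nat_lit 5) (nat_lit 452) (nat_lit 405) (nat_lit 343))) (XT.nd (nat_lit 78) (nat_lit 76) (nat_lit 0) (XT.lf (nat_lit 0) (nat_lit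 10585016443) (nat_lit 152) (nat_lit 2806964677) (nat_lit 228) (nat_lit 7368789053) (nat_lit 70) (nat_lit 5) (nat_lit 72) (nat_lit 5) (nat_lit 73) (nat_lit 5) (nat_lit 453) (nat_lit 405) (nat_lit 342)) (XT.lf (nat_lit 0) (nat_lit 3110400053) (nat_lit 76) (nat_lit 16739661638) (nat_lit 152) (nat_lit 1565308052) (nat_lit 69) (nat_lit 5) (nat_lit 70) (nat_lit 5) (nat_lit 71) (nat_lit 4) (nat_lit 454) (nat_lit 405) (nat_lit 341)))) (XT.nd (nat_lit 156) (nat_lit 152) (nat_lit 0) (XT.nd (nat_lit 78) (nat_lit 152) (nat_lit 0) (XT.lf (nat_lit 0) (nat_lit 4572884703) (nat_lit 152) (nat_lit 4856013231) (nat_lit 76) (nat_lit 12660794236) (nat_lit 68) (nat_lit 5) (nat_lit 70) (nat_lit 5) (nat_lit 69) (nat_lit 5) (nat_lit 455) (nat_lit 405) (nat_lit 340)) (XT.lf (nat_lit 0) (nat_lit 9489619130) (nat_lit 152) (nat_lit 1593733242) (nat_lit 228) (nat_lit 11707198282) (nat_lit 66) (nat_lit 5) (nat_lit 68) (nat_lit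 5) (nat_lit 69) (nat_lit 5) (nat_lit 456) (nat_lit 405) (nat_lit 339))) (XT.nd (nat_lit 78) (nat_lit 76) (nat_lit 0) (XT.lf (nat_lit 0) (nat_lit 1074166994) (nat_lit 76) (nat_lit 17019152722) (nat_lit 152) (nat_lit 5424434931) (nat_lit 65) (nat_lit 5) (nat_lit 66) (nat_lit 5) (nat_lit 67) (nat_lit 4) (nat_lit 457) (nat_lit 405) (nat_lit 338)) (XT.lf (nat_lit 0) (nat_lit 1360186005) (nat_lit 152) (nat_lit 7742582522) (nat_lit 76) (nat_lit 15166374023) (nat_lit 64) (nat_lit 5) (nat_lit 66) (nat_lit 5) (nat_lit 65) (nat_lit 5) (nat_lit 458) (nat_lit 405) (nat_lit 337)))))) (XT.nd (nat_lit 624) (nat_lit 532) (nat_lit 0) (XT.nd (nat_lit 312) (nat_lit 304) (nat_lit 0) (XT.nd (nat_lit 156) (nat_lit 304) (nat_lit 0) (XT.nd (nat_lit 78) (nat_lit 0) (nat_lit 0) (XT.lf (nat_lit 0) (nat_lit 7802662288) (nat_lit 152) (nat_lit 592489527) (nat_lit 228) (nat_lit 16653832463) (nat_lit 62) (nat_lit 5) (nat_lit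 64) (nat_lit 5) (nat_lit 65) (nat_lit 5) (nat_lit 459) (nat_lit 405) (nat_lit 336)) (XT.lf (nat_lit 0) (nat_lit 16017193104) (nat_lit 228) (nat_lit 1651521858) (nat_lit 76) (nat_lit 8187337922) (nat_lit 62) (nat_lit 5) (nat_lit 65) (nat_lit 5) (nat_lit 63) (nat_lit 4) (nat_lit 460) (nat_lit 405) (nat_lit 335))) (XT.nd (nat_lit 78) (nat_lit 228) (nat_lit 0) (XT.lf (nat_lit 0) (nat_lit 15148807126) (nat_lit 76) (nat_lit 9090891776) (nat_lit 152) (nat_lit 2452808993) (nat_lit 61) (nat_lit 5) (nat_lit 62) (nat_lit 5) (nat_lit 63) (nat_lit 4) (nat_lit 461) (nat_lit 405) (nat_lit 334)) (XT.lf (nat_lit 0) (nat_lit 5218969771) (nat_lit 228) (nat_lit 22249422450) (nat_lit 76) (nat_lit 93948052) (nat_lit 58) (nat_lit 5) (nat_lit 61) (nat_lit 5) (nat_lit 59) (nat_lit 4) (nat_lit 462) (nat_lit 405) (nat_lit 333)))) (XT.nd (nat_lit 156) (nat_lit 228) (nat_lit 0) (XT.nd (nat_lit 78) (nat_lit 76) (nat_lit 0)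 (XT.lf (nat_lit 0) (nat_lit 13513029631) (nat_lit 228) (nat_lit 5294808700) (nat_lit 76) (nat_lit 9649760254) (nat_lit 58) (nat_lit 5) (nat_lit 61) (nat_lit 5) (nat_lit 59) (nat_lit 4) (nat_lit 463) (nat_lit 405) (nat_lit 332)) (XT.lf (nat_lit 0) (nat_lit 12872279521) (nat_lit 76) (nat_lit 9525141095) (nat_lit 152) (nat_lit 6991418694) (nat_lit 57) (nat_lit 5) (nat_lit 58) (nat_lit 5) (nat_lit 59) (nat_lit 4) (nat_lit 464) (nat_lit 405) (nat_lit 331))) (XT.nd (nat_lit 78) (nat_lit 0) (nat_lit 0) (XT.lf (nat_lit 0) (nat_lit 1414566181) (nat_lit 228) (nat_lit 28610767608) (nat_lit 76) (nat_lit 335313603) (nat_lit 54) (nat_lit 5) (nat_lit 57) (nat_lit 5) (nat_lit 55) (nat_lit 4) (nat_lit 465) (nat_lit 405) (nat_lit 330)) (XT.lf (nat_lit 0) (nat_lit 10421209146) (nat_lit 228) (nat_lit 10186811162) (nat_lit 76) (nat_lit 10746529860) (nat_lit 54) (nat_lit 5) (nat_lit 57) (nat_lit 5) (nat_lit 55) (nat_lit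 4) (nat_lit 466) (nat_lit 405) (nat_lit 329))))) (XT.nd (nat_lit 312) (nat_lit 228) (nat_lit 0) (XT.nd (nat_lit 156) (nat_lit 228) (nat_lit 0) (XT.nd (nat_lit 78) (nat_lit 0) (nat_lit 0) (XT.lf (nat_lit 0) (nat_lit 9414463497) (nat_lit 76) (nat_lit 10586768889) (nat_lit 152) (nat_lit 12390764033) (nat_lit 53) (nat_lit 5) (nat_lit 54) (nat_lit 5) (nat_lit 55) (nat_lit 4) (nat_lit 467) (nat_lit 405) (nat_lit 328)) (XT.lf (nat_lit 0) (nat_lit 30210777205) (nat_lit 152) (nat_lit 3170365894) (nat_lit 0) (nat_lit 92646570) (nat_lit 53) (nat_lit 5) (nat_lit 55) (nat_lit 4) (nat_lit 53) (nat_lit 4) (nat_lit 468) (nat_lit 405) (nat_lit 327))) (XT.nd (nat_lit 78) (nat_lit 76) (nat_lit 0) (XT.lf (nat_lit 0) (nat_lit 6557568721) (nat_lit 152) (nat_lit 16707744479) (nat_lit 76) (nat_lit 11317487617) (nat_lit 51) (nat_lit 5) (nat_lit 53) (nat_lit 5) (nat_lit 52) (nat_lit 4) (nat_lit 469) (nat_lit 405) (nat_lit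 326)) (XT.lf (nat_lit 0) (nat_lit 4380867917) (nat_lit 76) (nat_lit 12478987791) (nat_lit 152) (nat_lit 18879716058) (nat_lit 50) (nat_lit 5) (nat_lit 51) (nat_lit 5) (nat_lit 52) (nat_lit 4) (nat_lit 470) (nat_lit 405) (nat_lit 325)))) (XT.nd (nat_lit 156) (nat_lit 76) (nat_lit 0) (XT.nd (nat_lit 78) (nat_lit 152) (nat_lit 0) (XT.lf (nat_lit 0) (nat_lit 27061448402) (nat_lit 76) (nat_lit 876542236) (nat_lit 152) (nat_lit 9003154525) (nat_lit 50) (nat_lit 5) (nat_lit 51) (nat_lit 5) (nat_lit 52) (nat_lit 4) (nat_lit 471) (nat_lit 405) (nat_lit 324)) (XT.lf (nat_lit 0) (nat_lit 1685259655) (nat_lit 152) (nat_lit 25344855029) (nat_lit 76) (nat_lit 11153526524) (nat_lit 48) (nat_lit 5) (nat_lit 50) (nat_lit 5) (nat_lit 49) (nat_lit 4) (nat_lit 472) (nat_lit 405) (nat_lit 323))) (XT.nd (nat_lit 78) (nat_lit 76) (nat_lit 0) (XT.lf (nat_lit 0) (nat_lit 12768538002) (nat_lit 152) (nat_lit 2649700659)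 (nat_lit 76) (nat_lit 24054493836) (nat_lit 48) (nat_lit 5) (nat_lit 50) (nat_lit 5) (nat_lit 49) (nat_lit 4) (nat_lit 473) (nat_lit 405) (nat_lit 322)) (XT.lf (nat_lit 0) (nat_lit 21839897537) (nat_lit 76) (nat_lit 2886663391) (nat_lit 152) (nat_lit 16083688869) (nat_lit 47) (nat_lit 5) (nat_lit 48) (nat_lit 5) (nat_lit 49) (nat_lit 4) (nat_lit 474) (nat_lit 405) (nat_lit 321))))))) (XT.nd (nat_lit 1170) (nat_lit 836) (nat_lit 0) (XT.nd (nat_lit 546) (nat_lit 532) (nat_lit 0) (XT.nd (nat_lit 234) (nat_lit 228) (nat_lit 0) (XT.nd (nat_lit 78) (nat_lit 152) (nat_lit 0) (XT.lf (nat_lit 0) (nat_lit 5406090739) (nat_lit 76) (nat_lit 32146449577) (nat_lit 76) (nat_lit 4648600336) (nat_lit 46) (nat_lit 4) (nat_lit 47) (nat_lit 5) (nat_lit 47) (nat_lit 4) (nat_lit 475) (nat_lit 405) (nat_lit 320)) (XT.nd (nat_lit 78) (nat_lit 76) (nat_lit 0) (XT.lf (nat_lit 0) (nat_lit 7476303753) (nat_lit 152) (nat_lit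 12192459956) (nat_lit 76) (nat_lit 23969390070) (nat_lit 45) (nat_lit 5) (nat_lit 47) (nat_lit 5) (nat_lit 46) (nat_lit 4) (nat_lit 476) (nat_lit 405) (nat_lit 319)) (XT.lf (nat_lit 0) (nat_lit 13973738601) (nat_lit 76) (nat_lit 6276336068) (nat_lit 152) (nat_lit 24883190707) (nat_lit 44) (nat_lit 5) (nat_lit 45) (nat_lit 5) (nat_lit 46) (nat_lit 4) (nat_lit 477) (nat_lit 405) (nat_lit 318)))) (XT.nd (nat_lit 156) (nat_lit 76) (nat_lit 0) (XT.nd (nat_lit 78) (nat_lit 152) (nat_lit 0) (XT.lf (nat_lit 0) (nat_lit 33974699584) (nat_lit 152) (nat_lit 4983832530) (nat_lit 0) (nat_lit 7728992540) (nat_lit 44) (nat_lit 5) (nat_lit 46) (nat_lit 4) (nat_lit 44) (nat_lit 4) (nat_lit 478) (nat_lit 405) (nat_lit 317)) (XT.lf (nat_lit 0) (nat_lit 516465530) (nat_lit 152) (nat_lit 25204256945) (nat_lit 76) (nat_lit 22576097144) (nat_lit 42) (nat_lit 5) (nat_lit 44) (nat_lit 5) (nat_lit 43) (nat_lit 4) (nat_lit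 479) (nat_lit 405) (nat_lit 316))) (XT.nd (nat_lit 78) (nat_lit 0) (nat_lit 0) (XT.lf (nat_lit 0) (nat_lit 2601044334) (nat_lit 76) (nat_lit 11487021931) (nat_lit 152) (nat_lit 35882689048) (nat_lit 41) (nat_lit 5) (nat_lit 42) (nat_lit 5) (nat_lit 43) (nat_lit 4) (nat_lit 480) (nat_lit 405) (nat_lit 315)) (XT.lf (nat_lit 0) (nat_lit 28807820061) (nat_lit 152) (nat_lit 19132304532) (nat_lit 0) (nat_lit 3764784856) (nat_lit 41) (nat_lit 5) (nat_lit 43) (nat_lit 4) (nat_lit 41) (nat_lit 4) (nat_lit 481) (nat_lit 405) (nat_lit 314))))) (XT.nd (nat_lit 312) (nat_lit 304) (nat_lit 0) (XT.nd (nat_lit 156) (nat_lit 76) (nat_lit 0) (XT.nd (nat_lit 78) (nat_lit 76) (nat_lit 0) (XT.lf (nat_lit 0) (nat_lit 10634839400) (nat_lit 76) (nat_lit 33965677920) (nat_lit 76) (nat_lit 8908406475) (nat_lit 40) (nat_lit 4) (nat_lit 41) (nat_lit 5) (nat_lit 41) (nat_lit 4) (nat_lit 482) (nat_lit 405) (nat_lit 313))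 (XT.lf (nat_lit 0) (nat_lit 5906677103) (nat_lit 152) (nat_lit 12962141707) (nat_lit 76) (nat_lit 36514210774) (nat_lit 39) (nat_lit 5) (nat_lit 41) (nat_lit 5) (nat_lit 40) (nat_lit 4) (nat_lit 483) (nat_lit 405) (nat_lit 312))) (XT.nd (nat_lit 78) (nat_lit 0) (nat_lit 0) (XT.lf (nat_lit 0) (nat_lit 18870744794) (nat_lit 76) (nat_lit 2570468500) (nat_lit 152) (nat_lit 35888421685) (nat_lit 38) (nat_lit 5) (nat_lit 39) (nat_lit 5) (nat_lit 40) (nat_lit 4) (nat_lit 484) (nat_lit 405) (nat_lit 311)) (XT.lf (nat_lit 0) (nat_lit 38186143421) (nat_lit 152) (nat_lit 6880591409) (nat_lit 0) (nat_lit 14285152698) (nat_lit 38) (nat_lit 5) (nat_lit 40) (nat_lit 4) (nat_lit 38) (nat_lit 4) (nat_lit 485) (nat_lit 405) (nat_lit 310)))) (XT.nd (nat_lit 156) (nat_lit 152) (nat_lit 0) (XT.nd (nat_lit 78) (nat_lit 76) (nat_lit 0) (XT.lf (nat_lit 0) (nat_lit 27069804229) (nat_lit 76) (nat_lit 29147570579) (nat_lit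 76) (nat_lit 5235425389) (nat_lit 37) (nat_lit 4) (nat_lit 38) (nat_lit 5) (nat_lit 38) (nat_lit 4) (nat_lit 486) (nat_lit 405) (nat_lit 309)) (XT.lf (nat_lit 0) (nat_lit 11226346866) (nat_lit 152) (nat_lit 908757415) (nat_lit 76) (nat_lit 51509547050) (nat_lit 36) (nat_lit 5) (nat_lit 38) (nat_lit 5) (nat_lit 37) (nat_lit 4) (nat_lit 487) (nat_lit 405) (nat_lit 308))) (XT.nd (nat_lit 78) (nat_lit 76) (nat_lit 0) (XT.lf (nat_lit 0) (nat_lit 28970322507) (nat_lit 152) (nat_lit 30762630590) (nat_lit 0) (nat_lit 6177097820) (nat_lit 35) (nat_lit 5) (nat_lit 37) (nat_lit 4) (nat_lit 35) (nat_lit 4) (nat_lit 488) (nat_lit 405) (nat_lit 307)) (XT.lf (nat_lit 0) (nat_lit 4670656800) (nat_lit 76) (nat_lit 43203418231) (nat_lit 76) (nat_lit 20401016736) (nat_lit 34) (nat_lit 4) (nat_lit 35) (nat_lit 5) (nat_lit 35) (nat_lit 4) (nat_lit 489) (nat_lit 405) (nat_lit 306)))))) (XT.nd (nat_lit 624) (nat_lit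 380) (nat_lit 0) (XT.nd (nat_lit 312) (nat_lit 228) (nat_lit 0) (XT.nd (nat_lit 156) (nat_lit 76) (nat_lit 0) (XT.nd (nat_lit 78) (nat_lit 152) (nat_lit 0) (XT.lf (nat_lit 0) (nat_lit 42914444927) (nat_lit 76) (nat_lit 25314882798) (nat_lit 76) (nat_lit 2503741486) (nat_lit 34) (nat_lit 4) (nat_lit 35) (nat_lit 5) (nat_lit 35) (nat_lit 4) (nat_lit 490) (nat_lit 405) (nat_lit 305)) (XT.lf (nat_lit 0) (nat_lit 9787166707) (nat_lit 76) (nat_lit 6118507270) (nat_lit 152) (nat_lit 57388625995) (nat_lit 32) (nat_lit 5) (nat_lit 33) (nat_lit 5) (nat_lit 34) (nat_lit 4) (nat_lit 491) (nat_lit 405) (nat_lit 304))) (XT.nd (nat_lit 78) (nat_lit 76) (nat_lit 0) (XT.lf (nat_lit 0) (nat_lit 35835258692) (nat_lit 152) (nat_lit 26017204305) (nat_lit 0) (nat_lit 14094885151) (nat_lit 32) (nat_lit 5) (nat_lit 34) (nat_lit 4) (nat_lit 32) (nat_lit 4) (nat_lit 492) (nat_lit 405) (nat_lit 303)) (XT.lf (nat_lit 0)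 (nat_lit 13657097438) (nat_lit 76) (nat_lit 43404256835) (nat_lit 76) (nat_lit 21656693025) (nat_lit 31) (nat_lit 4) (nat_lit 32) (nat_lit 5) (nat_lit 32) (nat_lit 4) (nat_lit 493) (nat_lit 405) (nat_lit 302)))) (XT.nd (nat_lit 156) (nat_lit 76) (nat_lit 0) (XT.nd (nat_lit 78) (nat_lit 152) (nat_lit 0) (XT.lf (nat_lit 0) (nat_lit 56191874577) (nat_lit 76) (nat_lit 23584225687) (nat_lit 76) (nat_lit 1829814003) (nat_lit 31) (nat_lit 4) (nat_lit 32) (nat_lit 5) (nat_lit 32) (nat_lit 4) (nat_lit 494) (nat_lit 405) (nat_lit 301)) (XT.lf (nat_lit 0) (nat_lit 16418589864) (nat_lit 76) (nat_lit 2205567859) (nat_lit 152) (nat_lit 65987019053) (nat_lit 29) (nat_lit 5) (nat_lit 30) (nat_lit 5) (nat_lit 31) (nat_lit 4) (nat_lit 495) (nat_lit 405) (nat_lit 300))) (XT.nd (nat_lit 78) (nat_lit 76) (nat_lit 0) (XT.lf (nat_lit 0) (nat_lit 40780000377) (nat_lit 152) (nat_lit 26898782623) (nat_lit 0) (nat_lit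 20049386382) (nat_lit 29) (nat_lit 5) (nat_lit 31) (nat_lit 4) (nat_lit 29) (nat_lit 4) (nat_lit 496) (nat_lit 405) (nat_lit 299)) (XT.lf (nat_lit 0) (nat_lit 16941324397) (nat_lit 76) (nat_lit 47390756406) (nat_lit 76) (nat_lit 26654508648) (nat_lit 28) (nat_lit 4) (nat_lit 29) (nat_lit 5) (nat_lit 29) (nat_lit 4) (nat_lit 497) (nat_lit 405) (nat_lit 298))))) (XT.nd (nat_lit 312) (nat_lit 152) (nat_lit 0) (XT.nd (nat_lit 156) (nat_lit 76) (nat_lit 0) (XT.nd (nat_lit 78) (nat_lit 152) (nat_lit 0) (XT.lf (nat_lit 0) (nat_lit 63883237447) (nat_lit 76) (nat_lit 25622064794) (nat_lit 76) (nat_lit 4880451546) (nat_lit 28) (nat_lit 4) (nat_lit 29) (nat_lit 5) (nat_lit 29) (nat_lit 4) (nat_lit 498) (nat_lit 405) (nat_lit 297)) (XT.lf (nat_lit 0) (nat_lit 15406414254) (nat_lit 76) (nat_lit 2229262571) (nat_lit 152) (nat_lit 80293716172) (nat_lit 26) (nat_lit 5) (nat_lit 27) (nat_lit 5) (nat_lit 28) (nat_lit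 4) (nat_lit 499) (nat_lit 405) (nat_lit 296))) (XT.nd (nat_lit 78) (nat_lit 76) (nat_lit 0) (XT.lf (nat_lit 0) (nat_lit 41975716527) (nat_lit 152) (nat_lit 37415093782) (nat_lit 0) (nat_lit 22212297580) (nat_lit 26) (nat_lit 5) (nat_lit 28) (nat_lit 4) (nat_lit 26) (nat_lit 4) (nat_lit 500) (nat_lit 405) (nat_lit 295)) (XT.lf (nat_lit 0) (nat_lit 10216420976) (nat_lit 76) (nat_lit 57501335440) (nat_lit 76) (nat_lit 37733502291) (nat_lit 25) (nat_lit 4) (nat_lit 26) (nat_lit 5) (nat_lit 26) (nat_lit 4) (nat_lit 501) (nat_lit 405) (nat_lit 294)))) (XT.nd (nat_lit 156) (nat_lit 0) (nat_lit 0) (XT.nd (nat_lit 78) (nat_lit 152) (nat_lit 0) (XT.lf (nat_lit 0) (nat_lit 61506628808) (nat_lit 76) (nat_lit 33863043400) (nat_lit 76) (nat_lit 14091006250) (nat_lit 25) (nat_lit 4) (nat_lit 26) (nat_lit 5) (nat_lit 26) (nat_lit 4) (nat_lit 502) (nat_lit 405) (nat_lit 293)) (XT.lf (nat_lit 0) (nat_lit 1551702500)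 (nat_lit 76) (nat_lit 8852074797) (nat_lit 152) (nat_lit 103257727616) (nat_lit 23) (nat_lit 5) (nat_lit 24) (nat_lit 5) (nat_lit 25) (nat_lit 4) (nat_lit 503) (nat_lit 405) (nat_lit 292))) (XT.nd (nat_lit 78) (nat_lit 0) (nat_lit 0) (XT.lf (nat_lit 0) (nat_lit 36736490047) (nat_lit 152) (nat_lit 63371461955) (nat_lit 0) (nat_lit 17898533748) (nat_lit 23) (nat_lit 5) (nat_lit 25) (nat_lit 4) (nat_lit 23) (nat_lit 4) (nat_lit 504) (nat_lit 405) (nat_lit 291)) (XT.lf (nat_lit 0) (nat_lit 64520946308) (nat_lit 152) (nat_lit 12361482630) (nat_lit 0) (nat_lit 45679531367) (nat_lit 23) (nat_lit 5) (nat_lit 25) (nat_lit 4) (nat_lit 23) (nat_lit 4) (nat_lit 505) (nat_lit 405) (nat_lit 290))))))))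
noncomputable def xc107 : XT := (XT.nd (nat_lit 2418) (nat_lit 228) (nat_lit 0) (XT.nd (nat_lit 1170) (nat_lit 456) (nat_lit 0) (XT.nd (nat_lit 546) (nat_lit 380) (nat_lit 0) (XT.nd (nat_lit 234) (nat_lit 76) (nat_lit 0) (XT.nd (nat_lit 78) (nat_lit 152) (nat_lit 0) (XT.lf (nat_lit 0) (nat_lit 42541383538) (nat_lit 76) (nat_lit 51807900536) (nat_lit 76) (nat_lit 32963191650) (nat_lit 22) (nat_lit 4) (nat_lit 23) (nat_lit 5) (nat_lit 23) (nat_lit 4) (nat_lit 506) (nat_lit 405) (nat_lit 289)) (XT.nd (nat_lit 78) (nat_lit 152) (nat_lit 0) (XT.lf (nat_lit 0) (nat_lit 100599663419) (nat_lit 76) (nat_lit 25269350390) (nat_lit 76) (nat_lit 6421504414) (nat_lit 22) (nat_lit 4) (nat_lit 23) (nat_lit 5) (nat_lit 23) (nat_lit 4) (nat_lit 507) (nat_lit 405) (nat_lit 288)) (XT.lf (nat_lit 0) (nat_lit 21185991003) (nat_lit 152) (nat_lit 113060654721) (nat_lit 0) (nat_lit 3232816068) (nat_lit 20) (nat_lit 5)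 (nat_lit 22) (nat_lit 4) (nat_lit 20) (nat_lit 4) (nat_lit 508) (nat_lit 405) (nat_lit 287)))) (XT.nd (nat_lit 156) (nat_lit 76) (nat_lit 0) (XT.nd (nat_lit 78) (nat_lit 0) (nat_lit 0) (XT.lf (nat_lit 0) (nat_lit 50908743150) (nat_lit 152) (nat_lit 59013453310) (nat_lit 0) (nat_lit 32952858278) (nat_lit 20) (nat_lit 5) (nat_lit 22) (nat_lit 4) (nat_lit 20) (nat_lit 4) (nat_lit 509) (nat_lit 405) (nat_lit 286)) (XT.lf (nat_lit 0) (nat_lit 82109001140) (nat_lit 152) (nat_lit 2281322454) (nat_lit 0) (nat_lit 64150535376) (nat_lit 20) (nat_lit 5) (nat_lit 22) (nat_lit 4) (nat_lit 20) (nat_lit 4) (nat_lit 510) (nat_lit 405) (nat_lit 285))) (XT.nd (nat_lit 78) (nat_lit 0) (nat_lit 0) (XT.lf (nat_lit 0) (nat_lit 59164446110) (nat_lit 76) (nat_lit 56620328004) (nat_lit 76) (nat_lit 38659404248) (nat_lit 19) (nat_lit 4) (nat_lit 20) (nat_lit 5) (nat_lit 20) (nat_lit 4) (nat_lit 511) (nat_lit 405) (nat_lit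 284)) (XT.lf (nat_lit 0) (nat_lit 123745372623) (nat_lit 76) (nat_lit 27429514149) (nat_lit 76) (nat_lit 9466249448) (nat_lit 19) (nat_lit 4) (nat_lit 20) (nat_lit 5) (nat_lit 20) (nat_lit 4) (nat_lit 512) (nat_lit 405) (nat_lit 283))))) (XT.nd (nat_lit 312) (nat_lit 152) (nat_lit 0) (XT.nd (nat_lit 156) (nat_lit 76) (nat_lit 0) (XT.nd (nat_lit 78) (nat_lit 0) (nat_lit 0) (XT.lf (nat_lit 0) (nat_lit 20950658946) (nat_lit 152) (nat_lit 142317969583) (nat_lit 0) (nat_lit 3840664496) (nat_lit 17) (nat_lit 5) (nat_lit 19) (nat_lit 4) (nat_lit 17) (nat_lit 4) (nat_lit 513) (nat_lit 405) (nat_lit 282)) (XT.lf (nat_lit 0) (nat_lit 53647221288) (nat_lit 152) (nat_lit 83656825731) (nat_lit 0) (nat_lit 36535204641) (nat_lit 17) (nat_lit 5) (nat_lit 19) (nat_lit 4) (nat_lit 17) (nat_lit 4) (nat_lit 514) (nat_lit 405) (nat_lit 281))) (XT.nd (nat_lit 78) (nat_lit 76) (nat_lit 0) (XT.lf (nat_lit 0) (nat_lit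 87971165464) (nat_lit 152) (nat_lit 22077692202) (nat_lit 0) (nat_lit 70857222916) (nat_lit 17) (nat_lit 5) (nat_lit 19) (nat_lit 4) (nat_lit 17) (nat_lit 4) (nat_lit 515) (nat_lit 405) (nat_lit 280)) (XT.lf (nat_lit 0) (nat_lit 43973473768) (nat_lit 76) (nat_lit 80717290543) (nat_lit 76) (nat_lit 63601513803) (nat_lit 16) (nat_lit 4) (nat_lit 17) (nat_lit 5) (nat_lit 17) (nat_lit 4) (nat_lit 516) (nat_lit 405) (nat_lit 279)))) (XT.nd (nat_lit 156) (nat_lit 76) (nat_lit 0) (XT.nd (nat_lit 78) (nat_lit 76) (nat_lit 0) (XT.lf (nat_lit 0) (nat_lit 114079567097) (nat_lit 76) (nat_lit 49533697977) (nat_lit 76) (nat_lit 32416174388) (nat_lit 16) (nat_lit 4) (nat_lit 17) (nat_lit 5) (nat_lit 17) (nat_lit 4) (nat_lit 517) (nat_lit 405) (nat_lit 278)) (XT.lf (nat_lit 0) (nat_lit 311168886) (nat_lit 152) (nat_lit 16481291037) (nat_lit 76) (nat_lit 187361080160) (nat_lit 15) (nat_lit 5) (nat_lit 17) (nat_lit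 5) (nat_lit 16) (nat_lit 4) (nat_lit 518) (nat_lit 405) (nat_lit 277))) (XT.nd (nat_lit 78) (nat_lit 0) (nat_lit 0) (XT.lf (nat_lit 0) (nat_lit 34710034614) (nat_lit 152) (nat_lit 159486475195) (nat_lit 0) (nat_lit 18404537757) (nat_lit 14) (nat_lit 5) (nat_lit 16) (nat_lit 4) (nat_lit 14) (nat_lit 4) (nat_lit 519) (nat_lit 405) (nat_lit 276)) (XT.lf (nat_lit 0) (nat_lit 71381399411) (nat_lit 152) (nat_lit 94987437835) (nat_lit 0) (nat_lit 55074465417) (nat_lit 14) (nat_lit 5) (nat_lit 16) (nat_lit 4) (nat_lit 14) (nat_lit 4) (nat_lit 520) (nat_lit 405) (nat_lit 275)))))) (XT.nd (nat_lit 624) (nat_lit 228) (nat_lit 0) (XT.nd (nat_lit 312) (nat_lit 152) (nat_lit 0) (XT.nd (nat_lit 156) (nat_lit 0) (nat_lit 0) (XT.nd (nat_lit 78) (nat_lit 76) (nat_lit 0) (XT.lf (nat_lit 0) (nat_lit 109880213593) (nat_lit 152) (nat_lit 27275851998) (nat_lit 0) (nat_lit 93571910897) (nat_lit 14) (nat_lit 5) (nat_lit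 16) (nat_lit 4) (nat_lit 14) (nat_lit 4) (nat_lit 521) (nat_lit 405) (nat_lit 274)) (XT.lf (nat_lit 0) (nat_lit 45258040310) (nat_lit 76) (nat_lit 105746705536) (nat_lit 76) (nat_lit 89437099314) (nat_lit 13) (nat_lit 4) (nat_lit 14) (nat_lit 5) (nat_lit 14) (nat_lit 4) (nat_lit 522) (nat_lit 405) (nat_lit 273))) (XT.nd (nat_lit 78) (nat_lit 0) (nat_lit 0) (XT.lf (nat_lit 0) (nat_lit 122353961000) (nat_lit 76) (nat_lit 72287742026) (nat_lit 76) (nat_lit 55976894351) (nat_lit 13) (nat_lit 4) (nat_lit 14) (nat_lit 5) (nat_lit 14) (nat_lit 4) (nat_lit 523) (nat_lit 405) (nat_lit 272)) (XT.lf (nat_lit 0) (nat_lit 203293608940) (nat_lit 76) (nat_lit 37161440614) (nat_lit 76) (nat_lit 20849410602) (nat_lit 13) (nat_lit 4) (nat_lit 14) (nat_lit 5) (nat_lit 14) (nat_lit 4) (nat_lit 524) (nat_lit 405) (nat_lit 271)))) (XT.nd (nat_lit 156) (nat_lit 0) (nat_lit 0) (XT.nd (nat_lit 78) (nat_lit 0) (nat_lit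 0) (XT.lf (nat_lit 0) (nat_lit 15769636235) (nat_lit 152) (nat_lit 256496746015) (nat_lit 0) (nat_lit 233297143) (nat_lit 11) (nat_lit 5) (nat_lit 13) (nat_lit 4) (nat_lit 11) (nat_lit 4) (nat_lit 525) (nat_lit 405) (nat_lit 270)) (XT.lf (nat_lit 0) (nat_lit 55121429574) (nat_lit 152) (nat_lit 189451947669) (nat_lit 0) (nat_lit 39584069136) (nat_lit 11) (nat_lit 5) (nat_lit 13) (nat_lit 4) (nat_lit 11) (nat_lit 4) (nat_lit 526) (nat_lit 405) (nat_lit 269))) (XT.nd (nat_lit 78) (nat_lit 0) (nat_lit 0) (XT.lf (nat_lit 0) (nat_lit 96435783714) (nat_lit 152) (nat_lit 119065118900) (nat_lit 0) (nat_lit 80897450565) (nat_lit 11) (nat_lit 5) (nat_lit 13) (nat_lit 4) (nat_lit 11) (nat_lit 4) (nat_lit 527) (nat_lit 405) (nat_lit 268)) (XT.lf (nat_lit 0) (nat_lit 139811066164) (nat_lit 152) (nat_lit 45168672021) (nat_lit 0) (nat_lit 124271806623) (nat_lit 11) (nat_lit 5) (nat_lit 13) (nat_lit 4) (nat_lit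 11) (nat_lit 4) (nat_lit 528) (nat_lit 405) (nat_lit 267))))) (XT.nd (nat_lit 312) (nat_lit 152) (nat_lit 0) (XT.nd (nat_lit 156) (nat_lit 0) (nat_lit 0) (XT.nd (nat_lit 78) (nat_lit 0) (nat_lit 0) (XT.lf (nat_lit 0) (nat_lit 33485068190) (nat_lit 76) (nat_lit 152388278971) (nat_lit 76) (nat_lit 136848137153) (nat_lit 10) (nat_lit 4) (nat_lit 11) (nat_lit 5) (nat_lit 11) (nat_lit 4) (nat_lit 529) (nat_lit 405) (nat_lit 266)) (XT.lf (nat_lit 0) (nat_lit 117630538759) (nat_lit 76) (nat_lit 117368670395) (nat_lit 76) (nat_lit 101827688312) (nat_lit 10) (nat_lit 4) (nat_lit 11) (nat_lit 5) (nat_lit 11) (nat_lit 4) (nat_lit 530) (nat_lit 405) (nat_lit 265))) (XT.nd (nat_lit 78) (nat_lit 0) (nat_lit 0) (XT.lf (nat_lit 0) (nat_lit 205974605759) (nat_lit 76) (nat_lit 80602485752) (nat_lit 76) (nat_lit 65060703418) (nat_lit 10) (nat_lit 4) (nat_lit 11) (nat_lit 5) (nat_lit 11) (nat_lit 4) (nat_lit 531)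 (nat_lit 405) (nat_lit 264)) (XT.lf (nat_lit 0) (nat_lit 298727612207) (nat_lit 76) (nat_lit 42002186508) (nat_lit 76) (nat_lit 26459642029) (nat_lit 10) (nat_lit 4) (nat_lit 11) (nat_lit 5) (nat_lit 11) (nat_lit 4) (nat_lit 532) (nat_lit 405) (nat_lit 263)))) (XT.nd (nat_lit 156) (nat_lit 0) (nat_lit 0) (XT.nd (nat_lit 78) (nat_lit 0) (nat_lit 0) (XT.lf (nat_lit 0) (nat_lit 12780975397) (nat_lit 76) (nat_lit 1035729836) (nat_lit 152) (nat_lit 369681198487) (nat_lit 8) (nat_lit 5) (nat_lit 9) (nat_lit 5) (nat_lit 10) (nat_lit 4) (nat_lit 533) (nat_lit 405) (nat_lit 262)) (XT.lf (nat_lit 0) (nat_lit 57047567528) (nat_lit 152) (nat_lit 301217243782) (nat_lit 0) (nat_lit 42243794557) (nat_lit 8) (nat_lit 5) (nat_lit 10) (nat_lit 4) (nat_lit 8) (nat_lit 4) (nat_lit 534) (nat_lit 405) (nat_lit 261))) (XT.nd (nat_lit 78) (nat_lit 0) (nat_lit 0) (XT.lf (nat_lit 0) (nat_lit 102453202804) (nat_lit 152)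 (nat_lit 228267176022) (nat_lit 0) (nat_lit 87648802816) (nat_lit 8) (nat_lit 5) (nat_lit 10) (nat_lit 4) (nat_lit 8) (nat_lit 4) (nat_lit 535) (nat_lit 405) (nat_lit 260)) (XT.lf (nat_lit 0) (nat_lit 150125549073) (nat_lit 152) (nat_lit 151676863760) (nat_lit 0) (nat_lit 135320551924) (nat_lit 8) (nat_lit 5) (nat_lit 10) (nat_lit 4) (nat_lit 8) (nat_lit 4) (nat_lit 536) (nat_lit 405) (nat_lit 259))))))) (XT.nd (nat_lit 52416) (nat_lit 0) (nat_lit 10108) (XT.nd (nat_lit 624) (nat_lit 0) (nat_lit 0) (XT.nd (nat_lit 312) (nat_lit 152) (nat_lit 0) (XT.nd (nat_lit 156) (nat_lit 0) (nat_lit 0) (XT.nd (nat_lit 78) (nat_lit 76) (nat_lit 0) (XT.lf (nat_lit 0) (nat_lit 200178111920) (nat_lit 152) (nat_lit 71263949109) (nat_lit 0) (nat_lit 185372546047) (nat_lit 8) (nat_lit 5) (nat_lit 10) (nat_lit 4) (nat_lit 8) (nat_lit 4) (nat_lit 537) (nat_lit 405) (nat_lit 258)) (XT.lf (nat_lit 0) (nat_lit 13598256377)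 (nat_lit 76) (nat_lit 239344114627) (nat_lit 76) (nat_lit 224538007113) (nat_lit 7) (nat_lit 4) (nat_lit 8) (nat_lit 5) (nat_lit 8) (nat_lit 4) (nat_lit 538) (nat_lit 405) (nat_lit 257))) (XT.nd (nat_lit 78) (nat_lit 0) (nat_lit 0) (XT.lf (nat_lit 0) (nat_lit 105171217704) (nat_lit 76) (nat_lit 204377329097) (nat_lit 76) (nat_lit 189570705733) (nat_lit 7) (nat_lit 4) (nat_lit 8) (nat_lit 5) (nat_lit 8) (nat_lit 4) (nat_lit 539) (nat_lit 405) (nat_lit 256)) (XT.lf (nat_lit 0) (nat_lit 201316657736) (nat_lit 76) (nat_lit 167665339647) (nat_lit 76) (nat_lit 152858224998) (nat_lit 7) (nat_lit 4) (nat_lit 8) (nat_lit 5) (nat_lit 8) (nat_lit 4) (nat_lit 540) (nat_lit 405) (nat_lit 255)))) (XT.nd (nat_lit 156) (nat_lit 152) (nat_lit 0) (XT.nd (nat_lit 78) (nat_lit 0) (nat_lit 0) (XT.lf (nat_lit 0) (nat_lit 302263494187) (nat_lit 76) (nat_lit 129120736780) (nat_lit 76) (nat_lit 114313154240) (nat_lit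 7) (nat_lit 4) (nat_lit 8) (nat_lit 5) (nat_lit 8) (nat_lit 4) (nat_lit 541) (nat_lit 405) (nat_lit 254)) (XT.lf (nat_lit 0) (nat_lit 408252076669) (nat_lit 76) (nat_lit 88651747630) (nat_lit 76) (nat_lit 73843719480) (nat_lit 7) (nat_lit 4) (nat_lit 8) (nat_lit 5) (nat_lit 8) (nat_lit 4) (nat_lit 542) (nat_lit 405) (nat_lit 253))) (XT.nd (nat_lit 78) (nat_lit 152) (nat_lit 0) (XT.lf (nat_lit 0) (nat_lit 519534758948) (nat_lit 76) (nat_lit 46162017463) (nat_lit 76) (nat_lit 31353564923) (nat_lit 7) (nat_lit 4) (nat_lit 8) (nat_lit 5) (nat_lit 8) (nat_lit 4) (nat_lit 543) (nat_lit 405) (nat_lit 252)) (XT.lf (nat_lit 0) (nat_lit 11881372354) (nat_lit 76) (nat_lit 1138251585) (nat_lit 152) (nat_lit 611629154465) (nat_lit 5) (nat_lit 5) (nat_lit 6) (nat_lit 5) (nat_lit 7) (nat_lit 4) (nat_lit 544) (nat_lit 405) (nat_lit 251))))) (XT.nd (nat_lit 312) (nat_lit 0) (nat_lit 0) (XT.nd (nat_lit 156) (nat_lit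 0) (nat_lit 0) (XT.nd (nat_lit 78) (nat_lit 0) (nat_lit 0) (XT.lf (nat_lit 0) (nat_lit 60609858960) (nat_lit 152) (nat_lit 546383155840) (nat_lit 0) (nat_lit 46505819287) (nat_lit 5) (nat_lit 5) (nat_lit 7) (nat_lit 4) (nat_lit 5) (nat_lit 4) (nat_lit 545) (nat_lit 405) (nat_lit 250)) (XT.lf (nat_lit 0) (nat_lit 110595850597) (nat_lit 152) (nat_lit 476703267946) (nat_lit 0) (nat_lit 96491461776) (nat_lit 5) (nat_lit 5) (nat_lit 7) (nat_lit 4) (nat_lit 5) (nat_lit 4) (nat_lit 546) (nat_lit 405) (nat_lit 249))) (XT.nd (nat_lit 78) (nat_lit 0) (nat_lit 0) (XT.lf (nat_lit 0) (nat_lit 163078841818) (nat_lit 152) (nat_lit 403544066574) (nat_lit 0) (nat_lit 148974120476) (nat_lit 5) (nat_lit 5) (nat_lit 7) (nat_lit 4) (nat_lit 5) (nat_lit 4) (nat_lit 547) (nat_lit 405) (nat_lit 248)) (XT.lf (nat_lit 0) (nat_lit 218183792126) (nat_lit 152) (nat_lit 326731363151) (nat_lit 0) (nat_lit 204078754097) (nat_lit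 5) (nat_lit 5) (nat_lit 7) (nat_lit 4) (nat_lit 5) (nat_lit 4) (nat_lit 548) (nat_lit 405) (nat_lit 247)))) (XT.nd (nat_lit 51324) (nat_lit 0) (nat_lit 14060) (XT.nd (nat_lit 78) (nat_lit 0) (nat_lit 0) (XT.lf (nat_lit 0) (nat_lit 276041903784) (nat_lit 152) (nat_lit 246082270288) (nat_lit 0) (nat_lit 261936564149) (nat_lit 5) (nat_lit 5) (nat_lit 7) (nat_lit 4) (nat_lit 5) (nat_lit 4) (nat_lit 549) (nat_lit 405) (nat_lit 246)) (XT.lf (nat_lit 0) (nat_lit 336790934202) (nat_lit 152) (nat_lit 161404766334) (nat_lit 0) (nat_lit 322685307322) (nat_lit 5) (nat_lit 5) (nat_lit 7) (nat_lit 4) (nat_lit 5) (nat_lit 4) (nat_lit 550) (nat_lit 405) (nat_lit 245))) (XT.nd (nat_lit 78) (nat_lit 0) (nat_lit 0) (XT.lf (nat_lit 0) (nat_lit 1192819767) (nat_lit 0) (nat_lit 1192819767) (nat_lit 380) (nat_lit 1042328130) (nat_lit 190) (nat_lit 5) (nat_lit 190) (nat_lit 3) (nat_lit 195) (nat_lit 3) (nat_lit 406)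 (nat_lit 406) (nat_lit 388)) (XT.lf (nat_lit 0) (nat_lit 5896857052) (nat_lit 0) (nat_lit 929662155) (nat_lit 380) (nat_lit 103587946) (nat_lit 190) (nat_lit 5) (nat_lit 190) (nat_lit 3) (nat_lit 195) (nat_lit 3) (nat_lit 407) (nat_lit 406) (nat_lit 387)))))) (XT.nd (nat_lit 624) (nat_lit 2508) (nat_lit 0) (XT.nd (nat_lit 312) (nat_lit 456) (nat_lit 0) (XT.nd (nat_lit 156) (nat_lit 532) (nat_lit 0) (XT.nd (nat_lit 78) (nat_lit 0) (nat_lit 0) (XT.lf (nat_lit 0) (nat_lit 1838715916) (nat_lit 456) (nat_lit 4461631229) (nat_lit 532) (nat_lit 709851418) (nat_lit 184) (nat_lit 5) (nat_lit 190) (nat_lit 5) (nat_lit 191) (nat_lit 5) (nat_lit 408) (nat_lit 406) (nat_lit 386)) (XT.lf (nat_lit 0) (nat_lit 3787551908) (nat_lit 456) (nat_lit 837332591) (nat_lit 532) (nat_lit 2473705114) (nat_lit 184) (nat_lit 5) (nat_lit 190) (nat_lit 5) (nat_lit 191) (nat_lit 5) (nat_lit 409) (nat_lit 406) (nat_lit 385)))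 (XT.nd (nat_lit 78) (nat_lit 532) (nat_lit 0) (XT.lf (nat_lit 76) (nat_lit 2995448962) (nat_lit 0) (nat_lit 2770740808) (nat_lit 532) (nat_lit 1428616146) (nat_lit 185) (nat_lit 5) (nat_lit 184) (nat_lit 5) (nat_lit 191) (nat_lit 5) (nat_lit 410) (nat_lit 406) (nat_lit 384)) (XT.lf (nat_lit 0) (nat_lit 432964020) (nat_lit 532) (nat_lit 326189189) (nat_lit 608) (nat_lit 6541144861) (nat_lit 177) (nat_lit 5) (nat_lit 184) (nat_lit 5) (nat_lit 185) (nat_lit 5) (nat_lit 411) (nat_lit 406) (nat_lit 383)))) (XT.nd (nat_lit 156) (nat_lit 532) (nat_lit 0) (XT.nd (nat_lit 78) (nat_lit 0) (nat_lit 0) (XT.lf (nat_lit 0) (nat_lit 2315037808) (nat_lit 532) (nat_lit 3665318359) (nat_lit 608) (nat_lit 1430786869) (nat_lit 178) (nat_lit 5) (nat_lit 185) (nat_lit 5) (nat_lit 186) (nat_lit 5) (nat_lit 412) (nat_lit 406) (nat_lit 382)) (XT.lf (nat_lit 76) (nat_lit 434444565) (nat_lit 0) (nat_lit 3779688939) (nat_lit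 608) (nat_lit 3317270335) (nat_lit 179) (nat_lit 5) (nat_lit 178) (nat_lit 5) (nat_lit 186) (nat_lit 5) (nat_lit 413) (nat_lit 406) (nat_lit 381))) (XT.nd (nat_lit 78) (nat_lit 532) (nat_lit 0) (XT.lf (nat_lit 76) (nat_lit 4795181085) (nat_lit 0) (nat_lit 1376893182) (nat_lit 608) (nat_lit 1487427473) (nat_lit 179) (nat_lit 5) (nat_lit 178) (nat_lit 5) (nat_lit 186) (nat_lit 5) (nat_lit 414) (nat_lit 406) (nat_lit 380)) (XT.lf (nat_lit 0) (nat_lit 367965887) (nat_lit 608) (nat_lit 6264189845) (nat_lit 76) (nat_lit 1164129619) (nat_lit 171) (nat_lit 5) (nat_lit 179) (nat_lit 5) (nat_lit 172) (nat_lit 5) (nat_lit 415) (nat_lit 406) (nat_lit 379))))) (XT.nd (nat_lit 312) (nat_lit 1216) (nat_lit 0) (XT.nd (nat_lit 156) (nat_lit 684) (nat_lit 0) (XT.nd (nat_lit 78) (nat_lit 608) (nat_lit 0) (XT.lf (nat_lit 0) (nat_lit 2246734029) (nat_lit 608) (nat_lit 1812282054) (nat_lit 76) (nat_lit 3880659277)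 (nat_lit 171) (nat_lit 5) (nat_lit 179) (nat_lit 5) (nat_lit 172) (nat_lit 5) (nat_lit 416) (nat_lit 406) (nat_lit 378)) (XT.lf (nat_lit 0) (nat_lit 2883242641) (nat_lit 608) (nat_lit 1294276797) (nat_lit 684) (nat_lit 3914826769) (nat_lit 163) (nat_lit 5) (nat_lit 171) (nat_lit 5) (nat_lit 172) (nat_lit 5) (nat_lit 417) (nat_lit 406) (nat_lit 377))) (XT.nd (nat_lit 78) (nat_lit 684) (nat_lit 0) (XT.lf (nat_lit 0) (nat_lit 6177479170) (nat_lit 684) (nat_lit 474808713) (nat_lit 76) (nat_lit 1601745511) (nat_lit 163) (nat_lit 5) (nat_lit 172) (nat_lit 5) (nat_lit 164) (nat_lit 5) (nat_lit 418) (nat_lit 406) (nat_lit 376)) (XT.lf (nat_lit 0) (nat_lit 4549613393) (nat_lit 684) (nat_lit 3740381674) (nat_lit 760) (nat_lit 133195823) (nat_lit 154) (nat_lit 5) (nat_lit 163) (nat_lit 5) (nat_lit 164) (nat_lit 5) (nat_lit 419) (nat_lit 406) (nat_lit 375)))) (XT.nd (nat_lit 156) (nat_lit 380) (nat_lit 0)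 (XT.nd (nat_lit 78) (nat_lit 0) (nat_lit 0) (XT.lf (nat_lit 0) (nat_lit 1176644860) (nat_lit 760) (nat_lit 617920688) (nat_lit 836) (nat_lit 6807350268) (nat_lit 143) (nat_lit 5) (nat_lit 153) (nat_lit 5) (nat_lit 154) (nat_lit 5) (nat_lit 420) (nat_lit 406) (nat_lit 374)) (XT.lf (nat_lit 0) (nat_lit 3846875671) (nat_lit 836) (nat_lit 2292371613) (nat_lit 76) (nat_lit 2648600653) (nat_lit 143) (nat_lit 5) (nat_lit 154) (nat_lit 5) (nat_lit 144) (nat_lit 5) (nat_lit 421) (nat_lit 406) (nat_lit 373))) (XT.nd (nat_lit 78) (nat_lit 0) (nat_lit 0) (XT.lf (nat_lit 0) (nat_lit 3115190796) (nat_lit 380) (nat_lit 2873396435) (nat_lit 456) (nat_lit 2995161535) (nat_lit 138) (nat_lit 5) (nat_lit 143) (nat_lit 5) (nat_lit 144) (nat_lit 5) (nat_lit 422) (nat_lit 406) (nat_lit 372)) (XT.lf (nat_lit 0) (nat_lit 8215855955) (nat_lit 456) (nat_lit 397984632) (nat_lit 76) (nat_lit 576691331) (nat_lit 138) (nat_lit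 5) (nat_lit 144) (nat_lit 5) (nat_lit 139) (nat_lit 5) (nat_lit 423) (nat_lit 406) (nat_lit 371))))))))
noncomputable def xc108 : XT := (XT.nd (nat_lit 2418) (nat_lit 2432) (nat_lit 0) (XT.nd (nat_lit 1170) (nat_lit 1976) (nat_lit 0) (XT.nd (nat_lit 546) (nat_lit 1368) (nat_lit 0) (XT.nd (nat_lit 234) (nat_lit 988) (nat_lit 0) (XT.nd (nat_lit 78) (nat_lit 380) (nat_lit 0) (XT.lf (nat_lit 0) (nat_lit 1176276247) (nat_lit 456) (nat_lit 4021853920) (nat_lit 76) (nat_lit 4205331234) (nat_lit 132) (nat_lit 5) (nat_lit 138) (nat_lit 5) (nat_lit 133) (nat_lit 5) (nat_lit 424) (nat_lit 406) (nat_lit 370)) (XT.nd (nat_lit 78) (nat_lit 0) (nat_lit 0) (XT.lf (nat_lit 0) (nat_lit 1807662223) (nat_lit 380) (nat_lit 1564100216) (nat_lit 456) (nat_lit 6255998290) (nat_lit 127) (nat_lit 5) (nat_lit 132) (nat_lit 5) (nat_lit 133) (nat_lit 5) (nat_lit 425) (nat_lit 406) (nat_lit 369)) (XT.lf (nat_lit 0) (nat_lit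 5717980478) (nat_lit 456) (nat_lit 1901172786) (nat_lit 76) (nat_lit 2242082817) (nat_lit 127) (nat_lit 5) (nat_lit 133) (nat_lit 5) (nat_lit 128) (nat_lit 5) (nat_lit 426) (nat_lit 406) (nat_lit 368)))) (XT.nd (nat_lit 156) (nat_lit 304) (nat_lit 0) (XT.nd (nat_lit 78) (nat_lit 380) (nat_lit 0) (XT.lf (nat_lit 0) (nat_lit 4357706967) (nat_lit 304) (nat_lit 3857074340) (nat_lit 380) (nat_lit 1889948807) (nat_lit 123) (nat_lit 5) (nat_lit 127) (nat_lit 5) (nat_lit 128) (nat_lit 5) (nat_lit 427) (nat_lit 406) (nat_lit 367)) (XT.lf (nat_lit 0) (nat_lit 445030871) (nat_lit 380) (nat_lit 9786449626) (nat_lit 76) (nat_lit 129342302) (nat_lit 118) (nat_lit 5) (nat_lit 123) (nat_lit 5) (nat_lit 119) (nat_lit 5) (nat_lit 428) (nat_lit 406) (nat_lit 366))) (XT.nd (nat_lit 78) (nat_lit 304) (nat_lit 0) (XT.lf (nat_lit 0) (nat_lit 2937398030) (nat_lit 380) (nat_lit 3381551415) (nat_lit 76) (nat_lit 4304021227)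 (nat_lit 118) (nat_lit 5) (nat_lit 123) (nat_lit 5) (nat_lit 119) (nat_lit 5) (nat_lit 429) (nat_lit 406) (nat_lit 365)) (XT.lf (nat_lit 0) (nat_lit 3383059636) (nat_lit 304) (nat_lit 2168903212) (nat_lit 380) (nat_lit 5346391124) (nat_lit 114) (nat_lit 5) (nat_lit 118) (nat_lit 5) (nat_lit 119) (nat_lit 5) (nat_lit 430) (nat_lit 406) (nat_lit 364))))) (XT.nd (nat_lit 312) (nat_lit 760) (nat_lit 0) (XT.nd (nat_lit 156) (nat_lit 304) (nat_lit 0) (XT.nd (nat_lit 78) (nat_lit 304) (nat_lit 0) (XT.lf (nat_lit 0) (nat_lit 8335748420) (nat_lit 380) (nat_lit 686623771) (nat_lit 76) (nat_lit 2163216287) (nat_lit 114) (nat_lit 5) (nat_lit 119) (nat_lit 5) (nat_lit 115) (nat_lit 5) (nat_lit 431) (nat_lit 406) (nat_lit 363)) (XT.lf (nat_lit 0) (nat_lit 6592081740) (nat_lit 304) (nat_lit 4753798754) (nat_lit 380) (nat_lit 136952704) (nat_lit 110) (nat_lit 5) (nat_lit 114) (nat_lit 5) (nat_lit 115) (nat_lit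 5) (nat_lit 432) (nat_lit 406) (nat_lit 362))) (XT.nd (nat_lit 78) (nat_lit 0) (nat_lit 0) (XT.lf (nat_lit 0) (nat_lit 2432081995) (nat_lit 228) (nat_lit 191773950) (nat_lit 304) (nat_lit 9169019978) (nat_lit 106) (nat_lit 5) (nat_lit 109) (nat_lit 5) (nat_lit 110) (nat_lit 5) (nat_lit 433) (nat_lit 406) (nat_lit 361)) (XT.lf (nat_lit 0) (nat_lit 5624468803) (nat_lit 304) (nat_lit 1967377922) (nat_lit 76) (nat_lit 4521148976) (nat_lit 106) (nat_lit 5) (nat_lit 110) (nat_lit 5) (nat_lit 107) (nat_lit 5) (nat_lit 434) (nat_lit 406) (nat_lit 360)))) (XT.nd (nat_lit 156) (nat_lit 304) (nat_lit 0) (XT.nd (nat_lit 78) (nat_lit 228) (nat_lit 0) (XT.lf (nat_lit 0) (nat_lit 5916643787) (nat_lit 228) (nat_lit 2906738268) (nat_lit 304) (nat_lit 3623331146) (nat_lit 103) (nat_lit 5) (nat_lit 106) (nat_lit 5) (nat_lit 107) (nat_lit 5) (nat_lit 435) (nat_lit 406) (nat_lit 359)) (XT.lf (nat_lit 0) (nat_lit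 1414773372) (nat_lit 228) (nat_lit 10808556470) (nat_lit 304) (nat_lit 571737265) (nat_lit 100) (nat_lit 5) (nat_lit 103) (nat_lit 5) (nat_lit 104) (nat_lit 5) (nat_lit 436) (nat_lit 406) (nat_lit 358))) (XT.nd (nat_lit 78) (nat_lit 228) (nat_lit 0) (XT.lf (nat_lit 0) (nat_lit 2662391471) (nat_lit 304) (nat_lit 3329015549) (nat_lit 76) (nat_lit 7161670738) (nat_lit 99) (nat_lit 5) (nat_lit 103) (nat_lit 5) (nat_lit 100) (nat_lit 5) (nat_lit 437) (nat_lit 406) (nat_lit 357)) (XT.lf (nat_lit 0) (nat_lit 5218959981) (nat_lit 228) (nat_lit 857873499) (nat_lit 304) (nat_lit 7449800073) (nat_lit 96) (nat_lit 5) (nat_lit 99) (nat_lit 5) (nat_lit 100) (nat_lit 5) (nat_lit 438) (nat_lit 406) (nat_lit 356)))))) (XT.nd (nat_lit 624) (nat_lit 912) (nat_lit 0) (XT.nd (nat_lit 312) (nat_lit 608) (nat_lit 0) (XT.nd (nat_lit 156) (nat_lit 304) (nat_lit 0) (XT.nd (nat_lit 78) (nat_lit 0) (nat_lit 0) (XT.lf (nat_lit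 0) (nat_lit 266371876) (nat_lit 152) (nat_lit 9484979814) (nat_lit 228) (nat_lit 4163051836) (nat_lit 94) (nat_lit 5) (nat_lit 96) (nat_lit 5) (nat_lit 97) (nat_lit 5) (nat_lit 439) (nat_lit 406) (nat_lit 355)) (XT.lf (nat_lit 0) (nat_lit 9479723378) (nat_lit 152) (nat_lit 4242586925) (nat_lit 228) (nat_lit 593619866) (nat_lit 94) (nat_lit 5) (nat_lit 96) (nat_lit 5) (nat_lit 97) (nat_lit 5) (nat_lit 440) (nat_lit 406) (nat_lit 354))) (XT.nd (nat_lit 78) (nat_lit 0) (nat_lit 0) (XT.lf (nat_lit 0) (nat_lit 3103603971) (nat_lit 304) (nat_lit 10307247636) (nat_lit 76) (nat_lit 1321708861) (nat_lit 90) (nat_lit 5) (nat_lit 94) (nat_lit 5) (nat_lit 91) (nat_lit 5) (nat_lit 441) (nat_lit 406) (nat_lit 353)) (XT.lf (nat_lit 0) (nat_lit 7078705772) (nat_lit 304) (nat_lit 991015521) (nat_lit 76) (nat_lit 7094169468) (nat_lit 90) (nat_lit 5) (nat_lit 94) (nat_lit 5) (nat_lit 91) (nat_lit 5) (nat_lit 442)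 (nat_lit 406) (nat_lit 352)))) (XT.nd (nat_lit 156) (nat_lit 228) (nat_lit 0) (XT.nd (nat_lit 78) (nat_lit 228) (nat_lit 0) (XT.lf (nat_lit 0) (nat_lit 9020429444) (nat_lit 152) (nat_lit 2335033594) (nat_lit 228) (nat_lit 4256182717) (nat_lit 88) (nat_lit 5) (nat_lit 90) (nat_lit 5) (nat_lit 91) (nat_lit 5) (nat_lit 443) (nat_lit 406) (nat_lit 351)) (XT.lf (nat_lit 0) (nat_lit 3479566566) (nat_lit 228) (nat_lit 12458059462) (nat_lit 304) (nat_lit 139587131) (nat_lit 85) (nat_lit 5) (nat_lit 88) (nat_lit 5) (nat_lit 89) (nat_lit 5) (nat_lit 444) (nat_lit 406) (nat_lit 350))) (XT.nd (nat_lit 78) (nat_lit 152) (nat_lit 0) (XT.lf (nat_lit 0) (nat_lit 4163583134) (nat_lit 304) (nat_lit 2443310535) (nat_lit 76) (nat_lit 9950171652) (nat_lit 84) (nat_lit 5) (nat_lit 88) (nat_lit 5) (nat_lit 85) (nat_lit 5) (nat_lit 445) (nat_lit 406) (nat_lit 349)) (XT.lf (nat_lit 0) (nat_lit 8428958449) (nat_lit 152)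 (nat_lit 344516603) (nat_lit 228) (nat_lit 8282510552) (nat_lit 82) (nat_lit 5) (nat_lit 84) (nat_lit 5) (nat_lit 85) (nat_lit 5) (nat_lit 446) (nat_lit 406) (nat_lit 348))))) (XT.nd (nat_lit 312) (nat_lit 380) (nat_lit 0) (XT.nd (nat_lit 156) (nat_lit 304) (nat_lit 0) (XT.nd (nat_lit 78) (nat_lit 76) (nat_lit 0) (XT.lf (nat_lit 0) (nat_lit 2268798258) (nat_lit 152) (nat_lit 11484942983) (nat_lit 228) (nat_lit 3819119188) (nat_lit 80) (nat_lit 5) (nat_lit 82) (nat_lit 5) (nat_lit 83) (nat_lit 5) (nat_lit 447) (nat_lit 406) (nat_lit 347)) (XT.lf (nat_lit 0) (nat_lit 959154011) (nat_lit 228) (nat_lit 4178891684) (nat_lit 76) (nat_lit 12970884629) (nat_lit 79) (nat_lit 5) (nat_lit 82) (nat_lit 5) (nat_lit 80) (nat_lit 5) (nat_lit 448) (nat_lit 406) (nat_lit 346))) (XT.nd (nat_lit 78) (nat_lit 152) (nat_lit 0) (XT.lf (nat_lit 0) (nat_lit 5960543846) (nat_lit 228) (nat_lit 11061928162) (nat_lit 76)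 (nat_lit 1640575929) (nat_lit 77) (nat_lit 5) (nat_lit 80) (nat_lit 5) (nat_lit 78) (nat_lit 5) (nat_lit 449) (nat_lit 406) (nat_lit 345)) (XT.lf (nat_lit 0) (nat_lit 757143009) (nat_lit 152) (nat_lit 10590205005) (nat_lit 228) (nat_lit 7890758242) (nat_lit 75) (nat_lit 5) (nat_lit 77) (nat_lit 5) (nat_lit 78) (nat_lit 5) (nat_lit 450) (nat_lit 406) (nat_lit 344)))) (XT.nd (nat_lit 156) (nat_lit 152) (nat_lit 0) (XT.nd (nat_lit 78) (nat_lit 228) (nat_lit 0) (XT.lf (nat_lit 0) (nat_lit 13496528880) (nat_lit 152) (nat_lit 3662364768) (nat_lit 228) (nat_lit 2675255749) (nat_lit 75) (nat_lit 5) (nat_lit 77) (nat_lit 5) (nat_lit 78) (nat_lit 5) (nat_lit 451) (nat_lit 406) (nat_lit 343)) (XT.lf (nat_lit 0) (nat_lit 2840757974) (nat_lit 228) (nat_lit 13987803377) (nat_lit 76) (nat_lit 3622779224) (nat_lit 72) (nat_lit 5) (nat_lit 75) (nat_lit 5) (nat_lit 73) (nat_lit 5) (nat_lit 452) (nat_lit 406) (nat_lit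 342))) (XT.nd (nat_lit 78) (nat_lit 152) (nat_lit 0) (XT.lf (nat_lit 0) (nat_lit 8681191007) (nat_lit 228) (nat_lit 1128318080) (nat_lit 76) (nat_lit 11280764855) (nat_lit 72) (nat_lit 5) (nat_lit 75) (nat_lit 5) (nat_lit 73) (nat_lit 5) (nat_lit 453) (nat_lit 406) (nat_lit 341)) (XT.lf (nat_lit 0) (nat_lit 12730729041) (nat_lit 152) (nat_lit 2252532153) (nat_lit 228) (nat_lit 6769413627) (nat_lit 70) (nat_lit 5) (nat_lit 72) (nat_lit 5) (nat_lit 73) (nat_lit 5) (nat_lit 454) (nat_lit 406) (nat_lit 340))))))) (XT.nd (nat_lit 1170) (nat_lit 1140) (nat_lit 0) (XT.nd (nat_lit 546) (nat_lit 684) (nat_lit 0) (XT.nd (nat_lit 234) (nat_lit 304) (nat_lit 0) (XT.nd (nat_lit 78) (nat_lit 228) (nat_lit 0) (XT.lf (nat_lit 0) (nat_lit 4891027119) (nat_lit 76) (nat_lit 16865032507) (nat_lit 152) (nat_lit 684356424) (nat_lit 69) (nat_lit 5) (nat_lit 70) (nat_lit 5) (nat_lit 71) (nat_lit 4) (nat_lit 455) (nat_lit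 406) (nat_lit 339)) (XT.nd (nat_lit 78) (nat_lit 152) (nat_lit 0) (XT.lf (nat_lit 0) (nat_lit 5685829981) (nat_lit 152) (nat_lit 3521810867) (nat_lit 76) (nat_lit 13942277852) (nat_lit 68) (nat_lit 5) (nat_lit 70) (nat_lit 5) (nat_lit 69) (nat_lit 5) (nat_lit 456) (nat_lit 406) (nat_lit 338)) (XT.lf (nat_lit 0) (nat_lit 11515667580) (nat_lit 152) (nat_lit 988268197) (nat_lit 228) (nat_lit 11382780642) (nat_lit 66) (nat_lit 5) (nat_lit 68) (nat_lit 5) (nat_lit 69) (nat_lit 5) (nat_lit 457) (nat_lit 406) (nat_lit 337)))) (XT.nd (nat_lit 156) (nat_lit 152) (nat_lit 0) (XT.nd (nat_lit 78) (nat_lit 76) (nat_lit 0) (XT.lf (nat_lit 0) (nat_lit 2686555336) (nat_lit 76) (nat_lit 17171111371) (nat_lit 152) (nat_lit 4792952594) (nat_lit 65) (nat_lit 5) (nat_lit 66) (nat_lit 5) (nat_lit 67) (nat_lit 4) (nat_lit 458) (nat_lit 406) (nat_lit 336)) (XT.lf (nat_lit 0) (nat_lit 2260397129) (nat_lit 152) (nat_lit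 6617702763) (nat_lit 76) (nat_lit 16562854296) (nat_lit 64) (nat_lit 5) (nat_lit 66) (nat_lit 5) (nat_lit 65) (nat_lit 5) (nat_lit 459) (nat_lit 406) (nat_lit 335))) (XT.nd (nat_lit 78) (nat_lit 0) (nat_lit 0) (XT.lf (nat_lit 0) (nat_lit 9631484605) (nat_lit 228) (nat_lit 16580968865) (nat_lit 76) (nat_lit 48117549) (nat_lit 62) (nat_lit 5) (nat_lit 65) (nat_lit 5) (nat_lit 63) (nat_lit 4) (nat_lit 460) (nat_lit 406) (nat_lit 334)) (XT.lf (nat_lit 0) (nat_lit 17604993846) (nat_lit 228) (nat_lit 288425302) (nat_lit 76) (nat_lit 9216057218) (nat_lit 62) (nat_lit 5) (nat_lit 65) (nat_lit 5) (nat_lit 63) (nat_lit 4) (nat_lit 461) (nat_lit 406) (nat_lit 333))))) (XT.nd (nat_lit 312) (nat_lit 304) (nat_lit 0) (XT.nd (nat_lit 156) (nat_lit 76) (nat_lit 0) (XT.nd (nat_lit 78) (nat_lit 228) (nat_lit 0) (XT.lf (nat_lit 0) (nat_lit 17328602831) (nat_lit 76) (nat_lit 8894755671) (nat_lit 152) (nat_lit 1765160476)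 (nat_lit 61) (nat_lit 5) (nat_lit 62) (nat_lit 5) (nat_lit 63) (nat_lit 4) (nat_lit 462) (nat_lit 406) (nat_lit 332)) (XT.lf (nat_lit 0) (nat_lit 6259407718) (nat_lit 228) (nat_lit 21908681855) (nat_lit 76) (nat_lit 733365504) (nat_lit 58) (nat_lit 5) (nat_lit 61) (nat_lit 5) (nat_lit 59) (nat_lit 4) (nat_lit 463) (nat_lit 406) (nat_lit 331))) (XT.nd (nat_lit 78) (nat_lit 76) (nat_lit 0) (XT.lf (nat_lit 0) (nat_lit 14931052025) (nat_lit 228) (nat_lit 4175537977) (nat_lit 76) (nat_lit 10736743552) (nat_lit 58) (nat_lit 5) (nat_lit 61) (nat_lit 5) (nat_lit 59) (nat_lit 4) (nat_lit 464) (nat_lit 406) (nat_lit 330)) (XT.lf (nat_lit 0) (nat_lit 14877581895) (nat_lit 76) (nat_lit 9367989440) (nat_lit 152) (nat_lit 6576270798) (nat_lit 57) (nat_lit 5) (nat_lit 58) (nat_lit 5) (nat_lit 59) (nat_lit 4) (nat_lit 465) (nat_lit 406) (nat_lit 329)))) (XT.nd (nat_lit 156) (nat_lit 76) (nat_lit 0) (XT.nd (nat_lit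 78) (nat_lit 0) (nat_lit 0) (XT.lf (nat_lit 0) (nat_lit 2221534929) (nat_lit 228) (nat_lit 28651092420) (nat_lit 76) (nat_lit 969217572) (nat_lit 54) (nat_lit 5) (nat_lit 57) (nat_lit 5) (nat_lit 55) (nat_lit 4) (nat_lit 466) (nat_lit 406) (nat_lit 328)) (XT.lf (nat_lit 0) (nat_lit 11643450974) (nat_lit 228) (nat_lit 9372138798) (nat_lit 76) (nat_lit 11871607104) (nat_lit 54) (nat_lit 5) (nat_lit 57) (nat_lit 5) (nat_lit 55) (nat_lit 4) (nat_lit 467) (nat_lit 406) (nat_lit 327))) (XT.nd (nat_lit 78) (nat_lit 0) (nat_lit 0) (XT.lf (nat_lit 0) (nat_lit 11187844547) (nat_lit 76) (nat_lit 10501579380) (nat_lit 152) (nat_lit 12287745119) (nat_lit 53) (nat_lit 5) (nat_lit 54) (nat_lit 5) (nat_lit 55) (nat_lit 4) (nat_lit 468) (nat_lit 406) (nat_lit 326)) (XT.lf (nat_lit 0) (nat_lit 32385815517) (nat_lit 152) (nat_lit 2064607460) (nat_lit 0) (nat_lit 663811490) (nat_lit 53) (nat_lit 5) (nat_lit 55)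 (nat_lit 4) (nat_lit 53) (nat_lit 4) (nat_lit 469) (nat_lit 406) (nat_lit 325)))))) (XT.nd (nat_lit 624) (nat_lit 532) (nat_lit 0) (XT.nd (nat_lit 312) (nat_lit 228) (nat_lit 0) (XT.nd (nat_lit 156) (nat_lit 152) (nat_lit 0) (XT.nd (nat_lit 78) (nat_lit 76) (nat_lit 0) (XT.lf (nat_lit 0) (nat_lit 7548435552) (nat_lit 152) (nat_lit 16277307265) (nat_lit 76) (nat_lit 12453030742) (nat_lit 51) (nat_lit 5) (nat_lit 53) (nat_lit 5) (nat_lit 52) (nat_lit 4) (nat_lit 470) (nat_lit 406) (nat_lit 324)) (XT.lf (nat_lit 0) (nat_lit 5845319227) (nat_lit 76) (nat_lit 12508391093) (nat_lit 152) (nat_lit 19140279915) (nat_lit 50) (nat_lit 5) (nat_lit 51) (nat_lit 5) (nat_lit 52) (nat_lit 4) (nat_lit 471) (nat_lit 406) (nat_lit 323))) (XT.nd (nat_lit 78) (nat_lit 152) (nat_lit 0) (XT.lf (nat_lit 0) (nat_lit 29600623598) (nat_lit 76) (nat_lit 354134979) (nat_lit 152) (nat_lit 8802434208) (nat_lit 50) (nat_lit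 5) (nat_lit 51) (nat_lit 5) (nat_lit 52) (nat_lit 4) (nat_lit 472) (nat_lit 406) (nat_lit 322)) (XT.lf (nat_lit 0) (nat_lit 2396988399) (nat_lit 152) (nat_lit 25402552569) (nat_lit 76) (nat_lit 12261894303) (nat_lit 48) (nat_lit 5) (nat_lit 50) (nat_lit 5) (nat_lit 49) (nat_lit 4) (nat_lit 473) (nat_lit 406) (nat_lit 321)))) (XT.nd (nat_lit 156) (nat_lit 152) (nat_lit 0) (XT.nd (nat_lit 78) (nat_lit 76) (nat_lit 0) (XT.lf (nat_lit 0) (nat_lit 14004551342) (nat_lit 152) (nat_lit 1630237871) (nat_lit 76) (nat_lit 25781686579) (nat_lit 48) (nat_lit 5) (nat_lit 50) (nat_lit 5) (nat_lit 49) (nat_lit 4) (nat_lit 474) (nat_lit 406) (nat_lit 320)) (XT.lf (nat_lit 0) (nat_lit 24065260431) (nat_lit 76) (nat_lit 2484453537) (nat_lit 152) (nat_lit 16271693728) (nat_lit 47) (nat_lit 5) (nat_lit 48) (nat_lit 5) (nat_lit 49) (nat_lit 4) (nat_lit 475) (nat_lit 406) (nat_lit 319))) (XT.nd (nat_lit 78) (nat_lit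 76) (nat_lit 0) (XT.lf (nat_lit 0) (nat_lit 6811968855) (nat_lit 76) (nat_lit 33202935640) (nat_lit 76) (nat_lit 4267043624) (nat_lit 46) (nat_lit 4) (nat_lit 47) (nat_lit 5) (nat_lit 47) (nat_lit 4) (nat_lit 476) (nat_lit 406) (nat_lit 318)) (XT.lf (nat_lit 0) (nat_lit 8416152578) (nat_lit 152) (nat_lit 11701857153) (nat_lit 76) (nat_lit 25673738531) (nat_lit 45) (nat_lit 5) (nat_lit 47) (nat_lit 5) (nat_lit 46) (nat_lit 4) (nat_lit 477) (nat_lit 406) (nat_lit 317))))) (XT.nd (nat_lit 312) (nat_lit 228) (nat_lit 0) (XT.nd (nat_lit 156) (nat_lit 228) (nat_lit 0) (XT.nd (nat_lit 78) (nat_lit 0) (nat_lit 0) (XT.lf (nat_lit 0) (nat_lit 15754905754) (nat_lit 76) (nat_lit 6063652852) (nat_lit 152) (nat_lit 25543560052) (nat_lit 44) (nat_lit 5) (nat_lit 45) (nat_lit 5) (nat_lit 46) (nat_lit 4) (nat_lit 478) (nat_lit 406) (nat_lit 316)) (XT.lf (nat_lit 0) (nat_lit 36210768225) (nat_lit 152) (nat_lit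 4183433615) (nat_lit 0) (nat_lit 8600821911) (nat_lit 44) (nat_lit 5) (nat_lit 46) (nat_lit 4) (nat_lit 44) (nat_lit 4) (nat_lit 479) (nat_lit 406) (nat_lit 315))) (XT.nd (nat_lit 78) (nat_lit 76) (nat_lit 0) (XT.lf (nat_lit 0) (nat_lit 1078821122) (nat_lit 152) (nat_lit 25414058467) (nat_lit 76) (nat_lit 24191944913) (nat_lit 42) (nat_lit 5) (nat_lit 44) (nat_lit 5) (nat_lit 43) (nat_lit 4) (nat_lit 480) (nat_lit 406) (nat_lit 314)) (XT.lf (nat_lit 0) (nat_lit 3764565757) (nat_lit 76) (nat_lit 11555022329) (nat_lit 152) (nat_lit 37123340036) (nat_lit 41) (nat_lit 5) (nat_lit 42) (nat_lit 5) (nat_lit 43) (nat_lit 4) (nat_lit 481) (nat_lit 406) (nat_lit 313)))) (XT.nd (nat_lit 156) (nat_lit 152) (nat_lit 0) (XT.nd (nat_lit 78) (nat_lit 76) (nat_lit 0) (XT.lf (nat_lit 0) (nat_lit 30757757789) (nat_lit 152) (nat_lit 19087082988) (nat_lit 0) (nat_lit 4419828207) (nat_lit 41) (nat_lit 5) (nat_lit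 43) (nat_lit 4) (nat_lit 41) (nat_lit 4) (nat_lit 482) (nat_lit 406) (nat_lit 312)) (XT.lf (nat_lit 0) (nat_lit 12152259483) (nat_lit 76) (nat_lit 35178955497) (nat_lit 76) (nat_lit 8828113225) (nat_lit 40) (nat_lit 4) (nat_lit 41) (nat_lit 5) (nat_lit 41) (nat_lit 4) (nat_lit 483) (nat_lit 406) (nat_lit 311))) (XT.nd (nat_lit 78) (nat_lit 76) (nat_lit 0) (XT.lf (nat_lit 0) (nat_lit 6686665678) (nat_lit 152) (nat_lit 12655475430) (nat_lit 76) (nat_lit 38785799791) (nat_lit 39) (nat_lit 5) (nat_lit 41) (nat_lit 5) (nat_lit 40) (nat_lit 4) (nat_lit 484) (nat_lit 406) (nat_lit 310)) (XT.lf (nat_lit 0) (nat_lit 20753655826) (nat_lit 76) (nat_lit 2235860314) (nat_lit 152) (nat_lit 37182781404) (nat_lit 38) (nat_lit 5) (nat_lit 39) (nat_lit 5) (nat_lit 40) (nat_lit 4) (nat_lit 485) (nat_lit 406) (nat_lit 309))))))))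
noncomputable def xc109 : XT := (XT.nd (nat_lit 2418) (nat_lit 912) (nat_lit 0) (XT.nd (nat_lit 1170) (nat_lit 684) (nat_lit 0) (XT.nd (nat_lit 546) (nat_lit 456) (nat_lit 0) (XT.nd (nat_lit 234) (nat_lit 304) (nat_lit 0) (XT.nd (nat_lit 78) (nat_lit 152) (nat_lit 0) (XT.lf (nat_lit 0) (nat_lit 40555901034) (nat_lit 152) (nat_lit 6314180794) (nat_lit 0) (nat_lit 15426370816) (nat_lit 38) (nat_lit 5) (nat_lit 40) (nat_lit 4) (nat_lit 38) (nat_lit 4) (nat_lit 486) (nat_lit 406) (nat_lit 308)) (XT.nd (nat_lit 78) (nat_lit 76) (nat_lit 0) (XT.lf (nat_lit 0) (nat_lit 29319050107) (nat_lit 76) (nat_lit 30161702928) (nat_lit 76) (nat_lit 5022055280) (nat_lit 37) (nat_lit 4) (nat_lit 38) (nat_lit 5) (nat_lit 38) (nat_lit 4) (nat_lit 487) (nat_lit 406) (nat_lit 307)) (XT.lf (nat_lit 0) (nat_lit 12225696482) (nat_lit 152) (nat_lit 86605505) (nat_lit 76) (nat_lit 54492674475) (nat_lit 36) (nat_lit 5) (nat_lit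 38) (nat_lit 5) (nat_lit 37) (nat_lit 4) (nat_lit 488) (nat_lit 406) (nat_lit 306)))) (XT.nd (nat_lit 156) (nat_lit 152) (nat_lit 0) (XT.nd (nat_lit 78) (nat_lit 76) (nat_lit 0) (XT.lf (nat_lit 0) (nat_lit 30855944969) (nat_lit 152) (nat_lit 31432240858) (nat_lit 0) (nat_lit 6895506775) (nat_lit 35) (nat_lit 5) (nat_lit 37) (nat_lit 4) (nat_lit 35) (nat_lit 4) (nat_lit 489) (nat_lit 406) (nat_lit 305)) (XT.lf (nat_lit 0) (nat_lit 5758702494) (nat_lit 76) (nat_lit 44938709378) (nat_lit 76) (nat_lit 20969947549) (nat_lit 34) (nat_lit 4) (nat_lit 35) (nat_lit 5) (nat_lit 35) (nat_lit 4) (nat_lit 490) (nat_lit 406) (nat_lit 304))) (XT.nd (nat_lit 78) (nat_lit 152) (nat_lit 0) (XT.lf (nat_lit 0) (nat_lit 45873988939) (nat_lit 76) (nat_lit 26175979543) (nat_lit 76) (nat_lit 2199290443) (nat_lit 34) (nat_lit 4) (nat_lit 35) (nat_lit 5) (nat_lit 35) (nat_lit 4) (nat_lit 491) (nat_lit 406) (nat_lit 303))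 (XT.lf (nat_lit 0) (nat_lit 11090754673) (nat_lit 76) (nat_lit 6018998280) (nat_lit 152) (nat_lit 59828817693) (nat_lit 32) (nat_lit 5) (nat_lit 33) (nat_lit 5) (nat_lit 34) (nat_lit 4) (nat_lit 492) (nat_lit 406) (nat_lit 302))))) (XT.nd (nat_lit 312) (nat_lit 228) (nat_lit 0) (XT.nd (nat_lit 156) (nat_lit 152) (nat_lit 0) (XT.nd (nat_lit 78) (nat_lit 76) (nat_lit 0) (XT.lf (nat_lit 0) (nat_lit 38022379002) (nat_lit 152) (nat_lit 26529165483) (nat_lit 0) (nat_lit 15173398858) (nat_lit 32) (nat_lit 5) (nat_lit 34) (nat_lit 4) (nat_lit 32) (nat_lit 4) (nat_lit 493) (nat_lit 406) (nat_lit 301)) (XT.lf (nat_lit 0) (nat_lit 15116127169) (nat_lit 76) (nat_lit 45186943916) (nat_lit 76) (nat_lit 22331441986) (nat_lit 31) (nat_lit 4) (nat_lit 32) (nat_lit 5) (nat_lit 32) (nat_lit 4) (nat_lit 494) (nat_lit 406) (nat_lit 300))) (XT.nd (nat_lit 78) (nat_lit 152) (nat_lit 0) (XT.lf (nat_lit 0) (nat_lit 59740682457)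 (nat_lit 76) (nat_lit 24394364819) (nat_lit 76) (nat_lit 1532651665) (nat_lit 31) (nat_lit 4) (nat_lit 32) (nat_lit 5) (nat_lit 32) (nat_lit 4) (nat_lit 495) (nat_lit 406) (nat_lit 299)) (XT.lf (nat_lit 0) (nat_lit 17979053082) (nat_lit 76) (nat_lit 1946157497) (nat_lit 152) (nat_lit 68898029215) (nat_lit 29) (nat_lit 5) (nat_lit 30) (nat_lit 5) (nat_lit 31) (nat_lit 4) (nat_lit 496) (nat_lit 406) (nat_lit 298)))) (XT.nd (nat_lit 156) (nat_lit 152) (nat_lit 0) (XT.nd (nat_lit 78) (nat_lit 76) (nat_lit 0) (XT.lf (nat_lit 0) (nat_lit 43176730726) (nat_lit 152) (nat_lit 27527285879) (nat_lit 0) (nat_lit 21392671326) (nat_lit 29) (nat_lit 5) (nat_lit 31) (nat_lit 4) (nat_lit 29) (nat_lit 4) (nat_lit 497) (nat_lit 406) (nat_lit 297)) (XT.lf (nat_lit 0) (nat_lit 18493271075) (nat_lit 76) (nat_lit 49407114481) (nat_lit 76) (nat_lit 27617945091) (nat_lit 28) (nat_lit 4) (nat_lit 29) (nat_lit 5) (nat_lit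 29) (nat_lit 4) (nat_lit 498) (nat_lit 406) (nat_lit 296))) (XT.nd (nat_lit 78) (nat_lit 152) (nat_lit 0) (XT.lf (nat_lit 0) (nat_lit 67748714041) (nat_lit 76) (nat_lit 26566806371) (nat_lit 76) (nat_lit 4772770324) (nat_lit 28) (nat_lit 4) (nat_lit 29) (nat_lit 5) (nat_lit 29) (nat_lit 4) (nat_lit 499) (nat_lit 406) (nat_lit 295)) (XT.lf (nat_lit 0) (nat_lit 16848300082) (nat_lit 76) (nat_lit 2003880912) (nat_lit 152) (nat_lit 83956942836) (nat_lit 26) (nat_lit 5) (nat_lit 27) (nat_lit 5) (nat_lit 28) (nat_lit 4) (nat_lit 500) (nat_lit 406) (nat_lit 294)))))) (XT.nd (nat_lit 624) (nat_lit 380) (nat_lit 0) (XT.nd (nat_lit 312) (nat_lit 76) (nat_lit 0) (XT.nd (nat_lit 156) (nat_lit 152) (nat_lit 0) (XT.nd (nat_lit 78) (nat_lit 76) (nat_lit 0) (XT.lf (nat_lit 0) (nat_lit 44398292277) (nat_lit 152) (nat_lit 38635329575) (nat_lit 0) (nat_lit 23633449268) (nat_lit 26) (nat_lit 5) (nat_lit 28) (nat_lit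 4) (nat_lit 26) (nat_lit 4) (nat_lit 501) (nat_lit 406) (nat_lit 293)) (XT.lf (nat_lit 0) (nat_lit 11367268681) (nat_lit 76) (nat_lit 60054739522) (nat_lit 76) (nat_lit 39285892702) (nat_lit 25) (nat_lit 4) (nat_lit 26) (nat_lit 5) (nat_lit 26) (nat_lit 4) (nat_lit 502) (nat_lit 406) (nat_lit 292))) (XT.nd (nat_lit 78) (nat_lit 152) (nat_lit 0) (XT.lf (nat_lit 0) (nat_lit 65191509444) (nat_lit 76) (nat_lit 35249850151) (nat_lit 76) (nat_lit 14477190178) (nat_lit 25) (nat_lit 4) (nat_lit 26) (nat_lit 5) (nat_lit 26) (nat_lit 4) (nat_lit 503) (nat_lit 406) (nat_lit 291)) (XT.lf (nat_lit 0) (nat_lit 2239033011) (nat_lit 76) (nat_lit 8987954577) (nat_lit 152) (nat_lit 108102439305) (nat_lit 23) (nat_lit 5) (nat_lit 24) (nat_lit 5) (nat_lit 25) (nat_lit 4) (nat_lit 504) (nat_lit 406) (nat_lit 290)))) (XT.nd (nat_lit 156) (nat_lit 76) (nat_lit 0) (XT.nd (nat_lit 78) (nat_lit 0) (nat_lit 0) (XT.lf (nat_lit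 0) (nat_lit 38866467165) (nat_lit 152) (nat_lit 65949454262) (nat_lit 0) (nat_lit 19076228890) (nat_lit 23) (nat_lit 5) (nat_lit 25) (nat_lit 4) (nat_lit 23) (nat_lit 4) (nat_lit 505) (nat_lit 406) (nat_lit 289)) (XT.lf (nat_lit 0) (nat_lit 68026186592) (nat_lit 152) (nat_lit 12417098866) (nat_lit 0) (nat_lit 48232811226) (nat_lit 23) (nat_lit 5) (nat_lit 25) (nat_lit 4) (nat_lit 23) (nat_lit 4) (nat_lit 506) (nat_lit 406) (nat_lit 288))) (XT.nd (nat_lit 78) (nat_lit 0) (nat_lit 0) (XT.lf (nat_lit 0) (nat_lit 45221838709) (nat_lit 76) (nat_lit 54119447539) (nat_lit 76) (nat_lit 34323084468) (nat_lit 22) (nat_lit 4) (nat_lit 23) (nat_lit 5) (nat_lit 23) (nat_lit 4) (nat_lit 507) (nat_lit 406) (nat_lit 287)) (XT.lf (nat_lit 0) (nat_lit 106156680870) (nat_lit 76) (nat_lit 26267248363) (nat_lit 76) (nat_lit 6468039859) (nat_lit 22) (nat_lit 4) (nat_lit 23) (nat_lit 5) (nat_lit 23) (nat_lit 4) (nat_lit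 508) (nat_lit 406) (nat_lit 286))))) (XT.nd (nat_lit 312) (nat_lit 152) (nat_lit 0) (XT.nd (nat_lit 156) (nat_lit 76) (nat_lit 0) (XT.nd (nat_lit 78) (nat_lit 0) (nat_lit 0) (XT.lf (nat_lit 0) (nat_lit 22510769910) (nat_lit 152) (nat_lit 118177589402) (nat_lit 0) (nat_lit 3651799966) (nat_lit 20) (nat_lit 5) (nat_lit 22) (nat_lit 4) (nat_lit 20) (nat_lit 4) (nat_lit 509) (nat_lit 406) (nat_lit 285)) (XT.lf (nat_lit 0) (nat_lit 53707017789) (nat_lit 152) (nat_lit 61453556398) (nat_lit 0) (nat_lit 34845589853) (nat_lit 20) (nat_lit 5) (nat_lit 22) (nat_lit 4) (nat_lit 20) (nat_lit 4) (nat_lit 510) (nat_lit 406) (nat_lit 284))) (XT.nd (nat_lit 78) (nat_lit 76) (nat_lit 0) (XT.lf (nat_lit 0) (nat_lit 86455248799) (nat_lit 152) (nat_lit 1909131837) (nat_lit 0) (nat_lit 67591479918) (nat_lit 20) (nat_lit 5) (nat_lit 22) (nat_lit 4) (nat_lit 20) (nat_lit 4) (nat_lit 511) (nat_lit 406) (nat_lit 283))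 (XT.lf (nat_lit 0) (nat_lit 62601082305) (nat_lit 76) (nat_lit 59209730947) (nat_lit 76) (nat_lit 40343732594) (nat_lit 19) (nat_lit 4) (nat_lit 20) (nat_lit 5) (nat_lit 20) (nat_lit 4) (nat_lit 512) (nat_lit 406) (nat_lit 282)))) (XT.nd (nat_lit 156) (nat_lit 0) (nat_lit 0) (XT.nd (nat_lit 78) (nat_lit 152) (nat_lit 0) (XT.lf (nat_lit 0) (nat_lit 130388273530) (nat_lit 76) (nat_lit 28570881802) (nat_lit 76) (nat_lit 9702760142) (nat_lit 19) (nat_lit 4) (nat_lit 20) (nat_lit 5) (nat_lit 20) (nat_lit 4) (nat_lit 513) (nat_lit 406) (nat_lit 281)) (XT.lf (nat_lit 0) (nat_lit 22227210497) (nat_lit 152) (nat_lit 148970450108) (nat_lit 0) (nat_lit 4255644920) (nat_lit 17) (nat_lit 5) (nat_lit 19) (nat_lit 4) (nat_lit 17) (nat_lit 4) (nat_lit 514) (nat_lit 406) (nat_lit 280))) (XT.nd (nat_lit 78) (nat_lit 0) (nat_lit 0) (XT.lf (nat_lit 0) (nat_lit 56547695308) (nat_lit 152) (nat_lit 87398316585) (nat_lit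 0) (nat_lit 38574295539) (nat_lit 17) (nat_lit 5) (nat_lit 19) (nat_lit 4) (nat_lit 17) (nat_lit 4) (nat_lit 515) (nat_lit 406) (nat_lit 279)) (XT.lf (nat_lit 0) (nat_lit 92577450362) (nat_lit 152) (nat_lit 22761243067) (nat_lit 0) (nat_lit 74602303744) (nat_lit 17) (nat_lit 5) (nat_lit 19) (nat_lit 4) (nat_lit 17) (nat_lit 4) (nat_lit 516) (nat_lit 406) (nat_lit 278))))))) (XT.nd (nat_lit 1170) (nat_lit 380) (nat_lit 0) (XT.nd (nat_lit 546) (nat_lit 228) (nat_lit 0) (XT.nd (nat_lit 234) (nat_lit 152) (nat_lit 0) (XT.nd (nat_lit 78) (nat_lit 76) (nat_lit 0) (XT.lf (nat_lit 0) (nat_lit 46585701626) (nat_lit 76) (nat_lit 84543892522) (nat_lit 76) (nat_lit 66567082237) (nat_lit 16) (nat_lit 4) (nat_lit 17) (nat_lit 5) (nat_lit 17) (nat_lit 4) (nat_lit 517) (nat_lit 406) (nat_lit 277)) (XT.nd (nat_lit 78) (nat_lit 76) (nat_lit 0) (XT.lf (nat_lit 0) (nat_lit 120177406565) (nat_lit 76) (nat_lit 51811085210)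 (nat_lit 76) (nat_lit 33832690482) (nat_lit 16) (nat_lit 4) (nat_lit 17) (nat_lit 5) (nat_lit 17) (nat_lit 4) (nat_lit 518) (nat_lit 406) (nat_lit 276)) (XT.lf (nat_lit 0) (nat_lit 515064459) (nat_lit 152) (nat_lit 16924021579) (nat_lit 76) (nat_lit 196912713281) (nat_lit 15) (nat_lit 5) (nat_lit 17) (nat_lit 5) (nat_lit 16) (nat_lit 4) (nat_lit 519) (nat_lit 406) (nat_lit 275)))) (XT.nd (nat_lit 156) (nat_lit 76) (nat_lit 0) (XT.nd (nat_lit 78) (nat_lit 0) (nat_lit 0) (XT.lf (nat_lit 0) (nat_lit 36633728466) (nat_lit 152) (nat_lit 167079319070) (nat_lit 0) (nat_lit 19508641933) (nat_lit 14) (nat_lit 5) (nat_lit 16) (nat_lit 4) (nat_lit 14) (nat_lit 4) (nat_lit 520) (nat_lit 406) (nat_lit 274)) (XT.lf (nat_lit 0) (nat_lit 75129699974) (nat_lit 152) (nat_lit 99373495551) (nat_lit 0) (nat_lit 58003309915) (nat_lit 14) (nat_lit 5) (nat_lit 16) (nat_lit 4) (nat_lit 14) (nat_lit 4) (nat_lit 521) (nat_lit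 406) (nat_lit 273))) (XT.nd (nat_lit 78) (nat_lit 76) (nat_lit 0) (XT.lf (nat_lit 0) (nat_lit 115544920075) (nat_lit 152) (nat_lit 28293631097) (nat_lit 0) (nat_lit 98417288563) (nat_lit 14) (nat_lit 5) (nat_lit 16) (nat_lit 4) (nat_lit 14) (nat_lit 4) (nat_lit 522) (nat_lit 406) (nat_lit 272)) (XT.lf (nat_lit 0) (nat_lit 47861374963) (nat_lit 76) (nat_lit 110861490713) (nat_lit 76) (nat_lit 93732676865) (nat_lit 13) (nat_lit 4) (nat_lit 14) (nat_lit 5) (nat_lit 14) (nat_lit 4) (nat_lit 523) (nat_lit 406) (nat_lit 271))))) (XT.nd (nat_lit 312) (nat_lit 76) (nat_lit 0) (XT.nd (nat_lit 156) (nat_lit 152) (nat_lit 0) (XT.nd (nat_lit 78) (nat_lit 0) (nat_lit 0) (XT.lf (nat_lit 0) (nat_lit 128795880610) (nat_lit 76) (nat_lit 75737795699) (nat_lit 76) (nat_lit 58607855816) (nat_lit 13) (nat_lit 4) (nat_lit 14) (nat_lit 5) (nat_lit 14) (nat_lit 4) (nat_lit 524) (nat_lit 406) (nat_lit 270)) (XT.lf (nat_lit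 0) (nat_lit 213767071825) (nat_lit 76) (nat_lit 38863004617) (nat_lit 76) (nat_lit 21731992320) (nat_lit 13) (nat_lit 4) (nat_lit 14) (nat_lit 5) (nat_lit 14) (nat_lit 4) (nat_lit 525) (nat_lit 406) (nat_lit 269))) (XT.nd (nat_lit 78) (nat_lit 0) (nat_lit 0) (XT.lf (nat_lit 0) (nat_lit 16712786365) (nat_lit 152) (nat_lit 269007579119) (nat_lit 0) (nat_lit 396563847) (nat_lit 11) (nat_lit 5) (nat_lit 13) (nat_lit 4) (nat_lit 11) (nat_lit 4) (nat_lit 526) (nat_lit 406) (nat_lit 268)) (XT.lf (nat_lit 0) (nat_lit 58024804213) (nat_lit 152) (nat_lit 198625493437) (nat_lit 0) (nat_lit 41707655304) (nat_lit 11) (nat_lit 5) (nat_lit 13) (nat_lit 4) (nat_lit 11) (nat_lit 4) (nat_lit 527) (nat_lit 406) (nat_lit 267)))) (XT.nd (nat_lit 156) (nat_lit 76) (nat_lit 0) (XT.nd (nat_lit 78) (nat_lit 0) (nat_lit 0) (XT.lf (nat_lit 0) (nat_lit 101397861624) (nat_lit 152) (nat_lit 124733563783) (nat_lit 0) (nat_lit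 85079830437) (nat_lit 11) (nat_lit 5) (nat_lit 13) (nat_lit 4) (nat_lit 11) (nat_lit 4) (nat_lit 528) (nat_lit 406) (nat_lit 266)) (XT.lf (nat_lit 0) (nat_lit 146935227780) (nat_lit 152) (nat_lit 47155856990) (nat_lit 0) (nat_lit 130616356329) (nat_lit 11) (nat_lit 5) (nat_lit 13) (nat_lit 4) (nat_lit 11) (nat_lit 4) (nat_lit 529) (nat_lit 406) (nat_lit 265))) (XT.nd (nat_lit 78) (nat_lit 0) (nat_lit 0) (XT.lf (nat_lit 0) (nat_lit 35426195253) (nat_lit 76) (nat_lit 159872231920) (nat_lit 76) (nat_lit 143552560217) (nat_lit 10) (nat_lit 4) (nat_lit 11) (nat_lit 5) (nat_lit 11) (nat_lit 4) (nat_lit 530) (nat_lit 406) (nat_lit 264)) (XT.lf (nat_lit 0) (nat_lit 123766231081) (nat_lit 76) (nat_lit 123108093439) (nat_lit 76) (nat_lit 106787659591) (nat_lit 10) (nat_lit 4) (nat_lit 11) (nat_lit 5) (nat_lit 11) (nat_lit 4) (nat_lit 531) (nat_lit 406) (nat_lit 263)))))) (XT.nd (nat_lit 624) (nat_lit 152)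 (nat_lit 0) (XT.nd (nat_lit 312) (nat_lit 76) (nat_lit 0) (XT.nd (nat_lit 156) (nat_lit 152) (nat_lit 0) (XT.nd (nat_lit 78) (nat_lit 0) (nat_lit 0) (XT.lf (nat_lit 0) (nat_lit 216515398318) (nat_lit 76) (nat_lit 84509742920) (nat_lit 76) (nat_lit 68188583220) (nat_lit 10) (nat_lit 4) (nat_lit 11) (nat_lit 5) (nat_lit 11) (nat_lit 4) (nat_lit 532) (nat_lit 406) (nat_lit 262)) (XT.lf (nat_lit 0) (nat_lit 313894528314) (nat_lit 76) (nat_lit 43985279529) (nat_lit 76) (nat_lit 27663428542) (nat_lit 10) (nat_lit 4) (nat_lit 11) (nat_lit 5) (nat_lit 11) (nat_lit 4) (nat_lit 533) (nat_lit 406) (nat_lit 261))) (XT.nd (nat_lit 78) (nat_lit 0) (nat_lit 0) (XT.lf (nat_lit 0) (nat_lit 13650595230) (nat_lit 76) (nat_lit 970431397) (nat_lit 152) (nat_lit 388046097574) (nat_lit 8) (nat_lit 5) (nat_lit 9) (nat_lit 5) (nat_lit 10) (nat_lit 4) (nat_lit 534) (nat_lit 406) (nat_lit 260)) (XT.lf (nat_lit 0) (nat_lit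 60009768910) (nat_lit 152) (nat_lit 316054850978) (nat_lit 0) (nat_lit 44463924744) (nat_lit 8) (nat_lit 5) (nat_lit 10) (nat_lit 4) (nat_lit 8) (nat_lit 4) (nat_lit 535) (nat_lit 406) (nat_lit 259)))) (XT.nd (nat_lit 156) (nat_lit 76) (nat_lit 0) (XT.nd (nat_lit 78) (nat_lit 0) (nat_lit 0) (XT.lf (nat_lit 0) (nat_lit 107680456284) (nat_lit 152) (nat_lit 239467911020) (nat_lit 0) (nat_lit 92134043393) (nat_lit 8) (nat_lit 5) (nat_lit 10) (nat_lit 4) (nat_lit 8) (nat_lit 4) (nat_lit 536) (nat_lit 406) (nat_lit 258)) (XT.lf (nat_lit 0) (nat_lit 157731439231) (nat_lit 152) (nat_lit 159058208087) (nat_lit 0) (nat_lit 142184484698) (nat_lit 8) (nat_lit 5) (nat_lit 10) (nat_lit 4) (nat_lit 8) (nat_lit 4) (nat_lit 537) (nat_lit 406) (nat_lit 257))) (XT.nd (nat_lit 78) (nat_lit 76) (nat_lit 0) (XT.lf (nat_lit 0) (nat_lit 210281886758) (nat_lit 152) (nat_lit 74634290506) (nat_lit 0) (nat_lit 194734416376)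 (nat_lit 8) (nat_lit 5) (nat_lit 10) (nat_lit 4) (nat_lit 8) (nat_lit 4) (nat_lit 538) (nat_lit 406) (nat_lit 256)) (XT.lf (nat_lit 0) (nat_lit 14467914673) (nat_lit 76) (nat_lit 251214889000) (nat_lit 76) (nat_lit 235666927333) (nat_lit 7) (nat_lit 4) (nat_lit 8) (nat_lit 5) (nat_lit 8) (nat_lit 4) (nat_lit 539) (nat_lit 406) (nat_lit 255))))) (XT.nd (nat_lit 312) (nat_lit 152) (nat_lit 0) (XT.nd (nat_lit 156) (nat_lit 0) (nat_lit 0) (XT.nd (nat_lit 78) (nat_lit 0) (nat_lit 0) (XT.lf (nat_lit 0) (nat_lit 110610488567) (nat_lit 76) (nat_lit 214504356163) (nat_lit 76) (nat_lit 198955926605) (nat_lit 7) (nat_lit 4) (nat_lit 8) (nat_lit 5) (nat_lit 8) (nat_lit 4) (nat_lit 540) (nat_lit 406) (nat_lit 254)) (XT.lf (nat_lit 0) (nat_lit 211554595363) (nat_lit 76) (nat_lit 175961140545) (nat_lit 76) (nat_lit 160412265377) (nat_lit 7) (nat_lit 4) (nat_lit 8) (nat_lit 5) (nat_lit 8) (nat_lit 4) (nat_lit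 541) (nat_lit 406) (nat_lit 253))) (XT.nd (nat_lit 78) (nat_lit 0) (nat_lit 0) (XT.lf (nat_lit 0) (nat_lit 317540578173) (nat_lit 76) (nat_lit 135493472585) (nat_lit 76) (nat_lit 119944173027) (nat_lit 7) (nat_lit 4) (nat_lit 8) (nat_lit 5) (nat_lit 8) (nat_lit 4) (nat_lit 542) (nat_lit 406) (nat_lit 252)) (XT.lf (nat_lit 0) (nat_lit 428820784575) (nat_lit 76) (nat_lit 93005000695) (nat_lit 76) (nat_lit 77455296955) (nat_lit 7) (nat_lit 4) (nat_lit 8) (nat_lit 5) (nat_lit 8) (nat_lit 4) (nat_lit 543) (nat_lit 406) (nat_lit 251)))) (XT.nd (nat_lit 156) (nat_lit 0) (nat_lit 0) (XT.nd (nat_lit 78) (nat_lit 152) (nat_lit 0) (XT.lf (nat_lit 0) (nat_lit 545660167441) (nat_lit 76) (nat_lit 48394561844) (nat_lit 76) (nat_lit 32844473169) (nat_lit 7) (nat_lit 4) (nat_lit 8) (nat_lit 5) (nat_lit 8) (nat_lit 4) (nat_lit 544) (nat_lit 406) (nat_lit 250)) (XT.lf (nat_lit 0) (nat_lit 12624131322) (nat_lit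 76) (nat_lit 1119569458) (nat_lit 152) (nat_lit 642133861540) (nat_lit 5) (nat_lit 5) (nat_lit 6) (nat_lit 5) (nat_lit 7) (nat_lit 4) (nat_lit 545) (nat_lit 406) (nat_lit 249))) (XT.nd (nat_lit 78) (nat_lit 0) (nat_lit 0) (XT.lf (nat_lit 0) (nat_lit 63711090851) (nat_lit 152) (nat_lit 573558346862) (nat_lit 0) (nat_lit 48900800921) (nat_lit 5) (nat_lit 5) (nat_lit 7) (nat_lit 4) (nat_lit 5) (nat_lit 4) (nat_lit 546) (nat_lit 406) (nat_lit 248)) (XT.lf (nat_lit 0) (nat_lit 116193013548) (nat_lit 152) (nat_lit 500401320133) (nat_lit 0) (nat_lit 101382406931) (nat_lit 5) (nat_lit 5) (nat_lit 7) (nat_lit 4) (nat_lit 5) (nat_lit 4) (nat_lit 547) (nat_lit 406) (nat_lit 247))))))))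
noncomputable def xc110 : XT := (XT.nd (nat_lit 53664) (nat_lit 0) (nat_lit 4028) (XT.nd (nat_lit 52416) (nat_lit 0) (nat_lit 7676) (XT.nd (nat_lit 51792) (nat_lit 0) (nat_lit 12008) (XT.nd (nat_lit 51480) (nat_lit 0) (nat_lit 13072) (XT.nd (nat_lit 78) (nat_lit 0) (nat_lit 0) (XT.lf (nat_lit 0) (nat_lit 171296946215) (nat_lit 152) (nat_lit 423590687798) (nat_lit 0) (nat_lit 156486037992) (nat_lit 5) (nat_lit 5) (nat_lit 7) (nat_lit 4) (nat_lit 5) (nat_lit 4) (nat_lit 548) (nat_lit 406) (nat_lit 246)) (XT.nd (nat_lit 78) (nat_lit 0) (nat_lit 0) (XT.lf (nat_lit 0) (nat_lit 229154088691) (nat_lit 152) (nat_lit 342943567399) (nat_lit 0) (nat_lit 214342893223) (nat_lit 5) (nat_lit 5) (nat_lit 7) (nat_lit 4) (nat_lit 5) (nat_lit 4) (nat_lit 549) (nat_lit 406) (nat_lit 245)) (XT.lf (nat_lit 0) (nat_lit 289902196077) (nat_lit 152) (nat_lit 258267941983) (nat_lit 0) (nat_lit 275090727043) (nat_lit 5)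 (nat_lit 5) (nat_lit 7) (nat_lit 4) (nat_lit 5) (nat_lit 4) (nat_lit 550) (nat_lit 406) (nat_lit 244)))) (XT.nd (nat_lit 156) (nat_lit 456) (nat_lit 0) (XT.nd (nat_lit 78) (nat_lit 0) (nat_lit 0) (XT.lf (nat_lit 0) (nat_lit 877966921) (nat_lit 532) (nat_lit 1312491255) (nat_lit 532) (nat_lit 1312491255) (nat_lit 183) (nat_lit 3) (nat_lit 190) (nat_lit 3) (nat_lit 190) (nat_lit 5) (nat_lit 407) (nat_lit 407) (nat_lit 386)) (XT.lf (nat_lit 76) (nat_lit 882805986) (nat_lit 0) (nat_lit 2715943166) (nat_lit 532) (nat_lit 3491981049) (nat_lit 184) (nat_lit 5) (nat_lit 183) (nat_lit 3) (nat_lit 190) (nat_lit 5) (nat_lit 408) (nat_lit 407) (nat_lit 385))) (XT.nd (nat_lit 78) (nat_lit 456) (nat_lit 0) (XT.lf (nat_lit 76) (nat_lit 4595129312) (nat_lit 0) (nat_lit 867792592) (nat_lit 532) (nat_lit 1720444072) (nat_lit 184) (nat_lit 5) (nat_lit 183) (nat_lit 3) (nat_lit 190) (nat_lit 5) (nat_lit 409) (nat_lit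 407) (nat_lit 384)) (XT.lf (nat_lit 0) (nat_lit 59985809) (nat_lit 532) (nat_lit 6117599954) (nat_lit 608) (nat_lit 1106720926) (nat_lit 177) (nat_lit 5) (nat_lit 184) (nat_lit 5) (nat_lit 185) (nat_lit 5) (nat_lit 410) (nat_lit 407) (nat_lit 383))))) (XT.nd (nat_lit 312) (nat_lit 1064) (nat_lit 0) (XT.nd (nat_lit 156) (nat_lit 0) (nat_lit 76) (XT.nd (nat_lit 78) (nat_lit 0) (nat_lit 0) (XT.lf (nat_lit 0) (nat_lit 1823883844) (nat_lit 532) (nat_lit 2299823042) (nat_lit 608) (nat_lit 3267584584) (nat_lit 177) (nat_lit 5) (nat_lit 184) (nat_lit 5) (nat_lit 185) (nat_lit 5) (nat_lit 411) (nat_lit 407) (nat_lit 382)) (XT.lf (nat_lit 76) (nat_lit 1698612141) (nat_lit 0) (nat_lit 1902443917) (nat_lit 608) (nat_lit 3906334970) (nat_lit 178) (nat_lit 5) (nat_lit 177) (nat_lit 5) (nat_lit 185) (nat_lit 5) (nat_lit 412) (nat_lit 407) (nat_lit 381))) (XT.nd (nat_lit 78) (nat_lit 0) (nat_lit 0) (XT.lf (nat_lit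 0) (nat_lit 5416314672) (nat_lit 532) (nat_lit 1726869721) (nat_lit 608) (nat_lit 488668351) (nat_lit 178) (nat_lit 5) (nat_lit 185) (nat_lit 5) (nat_lit 186) (nat_lit 5) (nat_lit 413) (nat_lit 407) (nat_lit 380)) (XT.lf (nat_lit 76) (nat_lit 2543660147) (nat_lit 0) (nat_lit 4757128771) (nat_lit 608) (nat_lit 462843681) (nat_lit 179) (nat_lit 5) (nat_lit 178) (nat_lit 5) (nat_lit 186) (nat_lit 5) (nat_lit 414) (nat_lit 407) (nat_lit 379)))) (XT.nd (nat_lit 156) (nat_lit 532) (nat_lit 0) (XT.nd (nat_lit 78) (nat_lit 0) (nat_lit 76) (XT.lf (nat_lit 0) (nat_lit 1272590396) (nat_lit 608) (nat_lit 902505401) (nat_lit 684) (nat_lit 5728886717) (nat_lit 170) (nat_lit 5) (nat_lit 178) (nat_lit 5) (nat_lit 179) (nat_lit 5) (nat_lit 415) (nat_lit 407) (nat_lit 378)) (XT.lf (nat_lit 0) (nat_lit 3060195910) (nat_lit 608) (nat_lit 4385711985) (nat_lit 76) (nat_lit 606030213) (nat_lit 171) (nat_lit 5) (nat_lit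 179) (nat_lit 5) (nat_lit 172) (nat_lit 5) (nat_lit 416) (nat_lit 407) (nat_lit 377))) (XT.nd (nat_lit 78) (nat_lit 0) (nat_lit 0) (XT.lf (nat_lit 0) (nat_lit 190523058) (nat_lit 608) (nat_lit 4718028680) (nat_lit 684) (nat_lit 3300185794) (nat_lit 163) (nat_lit 5) (nat_lit 171) (nat_lit 5) (nat_lit 172) (nat_lit 5) (nat_lit 417) (nat_lit 407) (nat_lit 376)) (XT.lf (nat_lit 0) (nat_lit 5081059589) (nat_lit 608) (nat_lit 1762643326) (nat_lit 684) (nat_lit 1529968992) (nat_lit 163) (nat_lit 5) (nat_lit 171) (nat_lit 5) (nat_lit 172) (nat_lit 5) (nat_lit 418) (nat_lit 407) (nat_lit 375)))))) (XT.nd (nat_lit 624) (nat_lit 1596) (nat_lit 0) (XT.nd (nat_lit 312) (nat_lit 1216) (nat_lit 0) (XT.nd (nat_lit 156) (nat_lit 760) (nat_lit 0) (XT.nd (nat_lit 78) (nat_lit 0) (nat_lit 0) (XT.lf (nat_lit 0) (nat_lit 288268417) (nat_lit 760) (nat_lit 6919987837) (nat_lit 76) (nat_lit 1339851070) (nat_lit 153)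 (nat_lit 5) (nat_lit 163) (nat_lit 5) (nat_lit 154) (nat_lit 5) (nat_lit 419) (nat_lit 407) (nat_lit 374)) (XT.lf (nat_lit 0) (nat_lit 2157037258) (nat_lit 760) (nat_lit 1943159478) (nat_lit 76) (nat_lit 4629273848) (nat_lit 153) (nat_lit 5) (nat_lit 163) (nat_lit 5) (nat_lit 154) (nat_lit 5) (nat_lit 420) (nat_lit 407) (nat_lit 373))) (XT.nd (nat_lit 78) (nat_lit 0) (nat_lit 0) (XT.lf (nat_lit 0) (nat_lit 3323166050) (nat_lit 760) (nat_lit 776976374) (nat_lit 836) (nat_lit 4820726088) (nat_lit 143) (nat_lit 5) (nat_lit 153) (nat_lit 5) (nat_lit 154) (nat_lit 5) (nat_lit 421) (nat_lit 407) (nat_lit 372)) (XT.lf (nat_lit 0) (nat_lit 6147645805) (nat_lit 836) (nat_lit 310958790) (nat_lit 76) (nat_lit 2662880454) (nat_lit 143) (nat_lit 5) (nat_lit 154) (nat_lit 5) (nat_lit 144) (nat_lit 5) (nat_lit 422) (nat_lit 407) (nat_lit 371)))) (XT.nd (nat_lit 156) (nat_lit 380) (nat_lit 0) (XT.nd (nat_lit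 78) (nat_lit 456) (nat_lit 0) (XT.lf (nat_lit 0) (nat_lit 5333174781) (nat_lit 380) (nat_lit 2995064011) (nat_lit 456) (nat_lit 1002368240) (nat_lit 138) (nat_lit 5) (nat_lit 143) (nat_lit 5) (nat_lit 144) (nat_lit 5) (nat_lit 423) (nat_lit 407) (nat_lit 370)) (XT.lf (nat_lit 0) (nat_lit 1011832662) (nat_lit 456) (nat_lit 7869977972) (nat_lit 76) (nat_lit 668633956) (nat_lit 132) (nat_lit 5) (nat_lit 138) (nat_lit 5) (nat_lit 133) (nat_lit 5) (nat_lit 424) (nat_lit 407) (nat_lit 369))) (XT.nd (nat_lit 78) (nat_lit 380) (nat_lit 0) (XT.lf (nat_lit 0) (nat_lit 3148744798) (nat_lit 456) (nat_lit 2131489711) (nat_lit 76) (nat_lit 4497442471) (nat_lit 132) (nat_lit 5) (nat_lit 138) (nat_lit 5) (nat_lit 133) (nat_lit 5) (nat_lit 425) (nat_lit 407) (nat_lit 368)) (XT.lf (nat_lit 0) (nat_lit 3955769063) (nat_lit 380) (nat_lit 1439236655) (nat_lit 456) (nat_lit 4621148619) (nat_lit 127) (nat_lit 5) (nat_lit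 132) (nat_lit 5) (nat_lit 133) (nat_lit 5) (nat_lit 426) (nat_lit 407) (nat_lit 367))))) (XT.nd (nat_lit 312) (nat_lit 912) (nat_lit 0) (XT.nd (nat_lit 156) (nat_lit 380) (nat_lit 0) (XT.nd (nat_lit 78) (nat_lit 0) (nat_lit 0) (XT.lf (nat_lit 0) (nat_lit 50673970) (nat_lit 304) (nat_lit 7723354433) (nat_lit 380) (nat_lit 2491512827) (nat_lit 123) (nat_lit 5) (nat_lit 127) (nat_lit 5) (nat_lit 128) (nat_lit 5) (nat_lit 427) (nat_lit 407) (nat_lit 366)) (XT.lf (nat_lit 0) (nat_lit 6587887384) (nat_lit 304) (nat_lit 3754153162) (nat_lit 380) (nat_lit 181862721) (nat_lit 123) (nat_lit 5) (nat_lit 127) (nat_lit 5) (nat_lit 128) (nat_lit 5) (nat_lit 428) (nat_lit 407) (nat_lit 365))) (XT.nd (nat_lit 78) (nat_lit 0) (nat_lit 0) (XT.lf (nat_lit 0) (nat_lit 2166241262) (nat_lit 380) (nat_lit 8159411040) (nat_lit 76) (nat_lit 468048417) (nat_lit 118) (nat_lit 5) (nat_lit 123) (nat_lit 5) (nat_lit 119)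 (nat_lit 5) (nat_lit 429) (nat_lit 407) (nat_lit 364)) (XT.lf (nat_lit 0) (nat_lit 4702323977) (nat_lit 380) (nat_lit 1535047017) (nat_lit 76) (nat_lit 4835640383) (nat_lit 118) (nat_lit 5) (nat_lit 123) (nat_lit 5) (nat_lit 119) (nat_lit 5) (nat_lit 430) (nat_lit 407) (nat_lit 363)))) (XT.nd (nat_lit 156) (nat_lit 304) (nat_lit 0) (XT.nd (nat_lit 78) (nat_lit 304) (nat_lit 0) (XT.lf (nat_lit 0) (nat_lit 5535285200) (nat_lit 304) (nat_lit 1866242868) (nat_lit 380) (nat_lit 3962949986) (nat_lit 114) (nat_lit 5) (nat_lit 118) (nat_lit 5) (nat_lit 119) (nat_lit 5) (nat_lit 431) (nat_lit 407) (nat_lit 362)) (XT.lf (nat_lit 0) (nat_lit 1277502320) (nat_lit 304) (nat_lit 8998203280) (nat_lit 380) (nat_lit 1392817850) (nat_lit 110) (nat_lit 5) (nat_lit 114) (nat_lit 5) (nat_lit 115) (nat_lit 5) (nat_lit 432) (nat_lit 407) (nat_lit 361))) (XT.nd (nat_lit 78) (nat_lit 228) (nat_lit 0) (XT.lf (nat_lit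 0) (nat_lit 1346648552) (nat_lit 380) (nat_lit 3157750907) (nat_lit 76) (nat_lit 7478226660) (nat_lit 109) (nat_lit 5) (nat_lit 114) (nat_lit 5) (nat_lit 110) (nat_lit 5) (nat_lit 433) (nat_lit 407) (nat_lit 360)) (XT.lf (nat_lit 0) (nat_lit 4205114307) (nat_lit 304) (nat_lit 7817599164) (nat_lit 76) (nat_lit 287142327) (nat_lit 106) (nat_lit 5) (nat_lit 110) (nat_lit 5) (nat_lit 107) (nat_lit 5) (nat_lit 434) (nat_lit 407) (nat_lit 359))))))) (XT.nd (nat_lit 1170) (nat_lit 1596) (nat_lit 0) (XT.nd (nat_lit 546) (nat_lit 1064) (nat_lit 0) (XT.nd (nat_lit 234) (nat_lit 456) (nat_lit 0) (XT.nd (nat_lit 78) (nat_lit 532) (nat_lit 0) (XT.lf (nat_lit 0) (nat_lit 7289701194) (nat_lit 304) (nat_lit 153279555) (nat_lit 76) (nat_lit 5206311294) (nat_lit 106) (nat_lit 5) (nat_lit 110) (nat_lit 5) (nat_lit 107) (nat_lit 5) (nat_lit 435) (nat_lit 407) (nat_lit 358)) (XT.nd (nat_lit 78) (nat_lit 304) (nat_lit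 0) (XT.lf (nat_lit 0) (nat_lit 8094096993) (nat_lit 228) (nat_lit 2517935306) (nat_lit 304) (nat_lit 2389496797) (nat_lit 103) (nat_lit 5) (nat_lit 106) (nat_lit 5) (nat_lit 107) (nat_lit 5) (nat_lit 436) (nat_lit 407) (nat_lit 357)) (XT.lf (nat_lit 0) (nat_lit 761751504) (nat_lit 304) (nat_lit 9985904339) (nat_lit 76) (nat_lit 2620358020) (nat_lit 99) (nat_lit 5) (nat_lit 103) (nat_lit 5) (nat_lit 100) (nat_lit 5) (nat_lit 437) (nat_lit 407) (nat_lit 356)))) (XT.nd (nat_lit 156) (nat_lit 228) (nat_lit 0) (XT.nd (nat_lit 78) (nat_lit 228) (nat_lit 0) (XT.lf (nat_lit 0) (nat_lit 4074426771) (nat_lit 304) (nat_lit 1634484096) (nat_lit 76) (nat_lit 8037749124) (nat_lit 99) (nat_lit 5) (nat_lit 103) (nat_lit 5) (nat_lit 100) (nat_lit 5) (nat_lit 438) (nat_lit 407) (nat_lit 355)) (XT.lf (nat_lit 0) (nat_lit 7310874367) (nat_lit 228) (nat_lit 316402281) (nat_lit 304) (nat_lit 6513238634) (nat_lit 96)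 (nat_lit 5) (nat_lit 99) (nat_lit 5) (nat_lit 100) (nat_lit 5) (nat_lit 439) (nat_lit 407) (nat_lit 354))) (XT.nd (nat_lit 78) (nat_lit 76) (nat_lit 0) (XT.lf (nat_lit 0) (nat_lit 2133591414) (nat_lit 152) (nat_lit 9330201085) (nat_lit 228) (nat_lit 3084973375) (nat_lit 94) (nat_lit 5) (nat_lit 96) (nat_lit 5) (nat_lit 97) (nat_lit 5) (nat_lit 440) (nat_lit 407) (nat_lit 353)) (XT.lf (nat_lit 0) (nat_lit 582423542) (nat_lit 228) (nat_lit 3263355086) (nat_lit 76) (nat_lit 11127042327) (nat_lit 93) (nat_lit 5) (nat_lit 96) (nat_lit 5) (nat_lit 94) (nat_lit 5) (nat_lit 441) (nat_lit 407) (nat_lit 352))))) (XT.nd (nat_lit 312) (nat_lit 380) (nat_lit 0) (XT.nd (nat_lit 156) (nat_lit 304) (nat_lit 0) (XT.nd (nat_lit 78) (nat_lit 152) (nat_lit 0) (XT.lf (nat_lit 0) (nat_lit 4425480040) (nat_lit 304) (nat_lit 8998501813) (nat_lit 76) (nat_lit 1986773224) (nat_lit 90) (nat_lit 5) (nat_lit 94) (nat_lit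 5) (nat_lit 91) (nat_lit 5) (nat_lit 442) (nat_lit 407) (nat_lit 351)) (XT.lf (nat_lit 0) (nat_lit 719714986) (nat_lit 152) (nat_lit 7835301765) (nat_lit 228) (nat_lit 7310855837) (nat_lit 88) (nat_lit 5) (nat_lit 90) (nat_lit 5) (nat_lit 91) (nat_lit 5) (nat_lit 443) (nat_lit 407) (nat_lit 350))) (XT.nd (nat_lit 78) (nat_lit 304) (nat_lit 0) (XT.lf (nat_lit 0) (nat_lit 11180676730) (nat_lit 152) (nat_lit 1827472811) (nat_lit 228) (nat_lit 3329743381) (nat_lit 88) (nat_lit 5) (nat_lit 90) (nat_lit 5) (nat_lit 91) (nat_lit 5) (nat_lit 444) (nat_lit 407) (nat_lit 349)) (XT.lf (nat_lit 0) (nat_lit 945213609) (nat_lit 304) (nat_lit 11463689051) (nat_lit 76) (nat_lit 4417849985) (nat_lit 84) (nat_lit 5) (nat_lit 88) (nat_lit 5) (nat_lit 85) (nat_lit 5) (nat_lit 445) (nat_lit 407) (nat_lit 348)))) (XT.nd (nat_lit 156) (nat_lit 228) (nat_lit 0) (XT.nd (nat_lit 78) (nat_lit 152) (nat_lit 0) (XT.lf (nat_lit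 0) (nat_lit 5407085199) (nat_lit 304) (nat_lit 887807911) (nat_lit 76) (nat_lit 11038182059) (nat_lit 84) (nat_lit 5) (nat_lit 88) (nat_lit 5) (nat_lit 85) (nat_lit 5) (nat_lit 446) (nat_lit 407) (nat_lit 347)) (XT.lf (nat_lit 0) (nat_lit 10228267159) (nat_lit 228) (nat_lit 7361432213) (nat_lit 76) (nat_lit 268206002) (nat_lit 82) (nat_lit 5) (nat_lit 85) (nat_lit 5) (nat_lit 83) (nat_lit 5) (nat_lit 447) (nat_lit 407) (nat_lit 346))) (XT.nd (nat_lit 78) (nat_lit 76) (nat_lit 0) (XT.lf (nat_lit 0) (nat_lit 4046257650) (nat_lit 152) (nat_lit 11394261296) (nat_lit 228) (nat_lit 2960959885) (nat_lit 80) (nat_lit 5) (nat_lit 82) (nat_lit 5) (nat_lit 83) (nat_lit 5) (nat_lit 448) (nat_lit 407) (nat_lit 345)) (XT.lf (nat_lit 0) (nat_lit 1974289829) (nat_lit 228) (nat_lit 2771012964) (nat_lit 76) (nat_lit 14220651570) (nat_lit 79) (nat_lit 5) (nat_lit 82) (nat_lit 5) (nat_lit 80) (nat_lit 5) (nat_lit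 449) (nat_lit 407) (nat_lit 344)))))) (XT.nd (nat_lit 624) (nat_lit 760) (nat_lit 0) (XT.nd (nat_lit 312) (nat_lit 304) (nat_lit 0) (XT.nd (nat_lit 156) (nat_lit 228) (nat_lit 0) (XT.nd (nat_lit 78) (nat_lit 152) (nat_lit 0) (XT.lf (nat_lit 0) (nat_lit 7214595990) (nat_lit 228) (nat_lit 9986987556) (nat_lit 76) (nat_lit 2346754996) (nat_lit 77) (nat_lit 5) (nat_lit 80) (nat_lit 5) (nat_lit 78) (nat_lit 5) (nat_lit 450) (nat_lit 407) (nat_lit 343)) (XT.lf (nat_lit 0) (nat_lit 2396778512) (nat_lit 152) (nat_lit 10453445105) (nat_lit 228) (nat_lit 7302954880) (nat_lit 75) (nat_lit 5) (nat_lit 77) (nat_lit 5) (nat_lit 78) (nat_lit 5) (nat_lit 451) (nat_lit 407) (nat_lit 342))) (XT.nd (nat_lit 78) (nat_lit 228) (nat_lit 0) (XT.lf (nat_lit 0) (nat_lit 15696858517) (nat_lit 152) (nat_lit 3210940006) (nat_lit 228) (nat_lit 1873455418) (nat_lit 75) (nat_lit 5) (nat_lit 77) (nat_lit 5) (nat_lit 78) (nat_lit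 5) (nat_lit 452) (nat_lit 407) (nat_lit 341)) (XT.lf (nat_lit 0) (nat_lit 3879239392) (nat_lit 228) (nat_lit 13122468642) (nat_lit 76) (nat_lit 4427327583) (nat_lit 72) (nat_lit 5) (nat_lit 75) (nat_lit 5) (nat_lit 73) (nat_lit 5) (nat_lit 453) (nat_lit 407) (nat_lit 340)))) (XT.nd (nat_lit 156) (nat_lit 152) (nat_lit 0) (XT.nd (nat_lit 78) (nat_lit 0) (nat_lit 0) (XT.lf (nat_lit 0) (nat_lit 315580765) (nat_lit 152) (nat_lit 9658352625) (nat_lit 228) (nat_lit 12127872669) (nat_lit 70) (nat_lit 5) (nat_lit 72) (nat_lit 5) (nat_lit 73) (nat_lit 5) (nat_lit 454) (nat_lit 407) (nat_lit 339)) (XT.lf (nat_lit 0) (nat_lit 14833443974) (nat_lit 152) (nat_lit 1734972132) (nat_lit 228) (nat_lit 6230047683) (nat_lit 70) (nat_lit 5) (nat_lit 72) (nat_lit 5) (nat_lit 73) (nat_lit 5) (nat_lit 455) (nat_lit 407) (nat_lit 338))) (XT.nd (nat_lit 78) (nat_lit 0) (nat_lit 0) (XT.lf (nat_lit 0) (nat_lit 146616086)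 (nat_lit 152) (nat_lit 16913731776) (nat_lit 76) (nat_lit 6460499385) (nat_lit 68) (nat_lit 5) (nat_lit 70) (nat_lit 5) (nat_lit 69) (nat_lit 5) (nat_lit 456) (nat_lit 407) (nat_lit 337)) (XT.lf (nat_lit 0) (nat_lit 6772208594) (nat_lit 152) (nat_lit 2267513178) (nat_lit 76) (nat_lit 15227549480) (nat_lit 68) (nat_lit 5) (nat_lit 70) (nat_lit 5) (nat_lit 69) (nat_lit 5) (nat_lit 457) (nat_lit 407) (nat_lit 336))))) (XT.nd (nat_lit 312) (nat_lit 304) (nat_lit 0) (XT.nd (nat_lit 156) (nat_lit 228) (nat_lit 0) (XT.nd (nat_lit 78) (nat_lit 76) (nat_lit 0) (XT.lf (nat_lit 0) (nat_lit 13498768414) (nat_lit 152) (nat_lit 416228811) (nat_lit 228) (nat_lit 11126724614) (nat_lit 66) (nat_lit 5) (nat_lit 68) (nat_lit 5) (nat_lit 69) (nat_lit 5) (nat_lit 458) (nat_lit 407) (nat_lit 335)) (XT.lf (nat_lit 0) (nat_lit 4234651804) (nat_lit 76) (nat_lit 17395654253) (nat_lit 152) (nat_lit 4213821011) (nat_lit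 65) (nat_lit 5) (nat_lit 66) (nat_lit 5) (nat_lit 67) (nat_lit 4) (nat_lit 459) (nat_lit 407) (nat_lit 334))) (XT.nd (nat_lit 78) (nat_lit 152) (nat_lit 0) (XT.lf (nat_lit 0) (nat_lit 3128248571) (nat_lit 152) (nat_lit 5577151270) (nat_lit 76) (nat_lit 17969828368) (nat_lit 64) (nat_lit 5) (nat_lit 66) (nat_lit 5) (nat_lit 65) (nat_lit 5) (nat_lit 460) (nat_lit 407) (nat_lit 333)) (XT.lf (nat_lit 0) (nat_lit 10862526536) (nat_lit 228) (nat_lit 16033186214) (nat_lit 76) (nat_lit 640382855) (nat_lit 62) (nat_lit 5) (nat_lit 65) (nat_lit 5) (nat_lit 63) (nat_lit 4) (nat_lit 461) (nat_lit 407) (nat_lit 332)))) (XT.nd (nat_lit 156) (nat_lit 228) (nat_lit 0) (XT.nd (nat_lit 78) (nat_lit 0) (nat_lit 0) (XT.lf (nat_lit 0) (nat_lit 1041764099) (nat_lit 76) (nat_lit 18173523060) (nat_lit 152) (nat_lit 9213131722) (nat_lit 61) (nat_lit 5) (nat_lit 62) (nat_lit 5) (nat_lit 63) (nat_lit 4) (nat_lit 462) (nat_lit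 407) (nat_lit 331)) (XT.lf (nat_lit 0) (nat_lit 19485151202) (nat_lit 76) (nat_lit 8749306884) (nat_lit 152) (nat_lit 1118462521) (nat_lit 61) (nat_lit 5) (nat_lit 62) (nat_lit 5) (nat_lit 63) (nat_lit 4) (nat_lit 463) (nat_lit 407) (nat_lit 330))) (XT.nd (nat_lit 78) (nat_lit 0) (nat_lit 0) (XT.lf (nat_lit 0) (nat_lit 7279398020) (nat_lit 228) (nat_lit 21686010083) (nat_lit 76) (nat_lit 1345743575) (nat_lit 58) (nat_lit 5) (nat_lit 61) (nat_lit 5) (nat_lit 59) (nat_lit 4) (nat_lit 464) (nat_lit 407) (nat_lit 329)) (XT.lf (nat_lit 0) (nat_lit 16350956927) (nat_lit 228) (nat_lit 3128975956) (nat_lit 76) (nat_lit 11821875774) (nat_lit 58) (nat_lit 5) (nat_lit 61) (nat_lit 5) (nat_lit 59) (nat_lit 4) (nat_lit 465) (nat_lit 407) (nat_lit 328))))))))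
noncomputable def xc111 : XT := (XT.nd (nat_lit 2418) (nat_lit 1520) (nat_lit 0) (XT.nd (nat_lit 1170) (nat_lit 988) (nat_lit 0) (XT.nd (nat_lit 546) (nat_lit 456) (nat_lit 0) (XT.nd (nat_lit 234) (nat_lit 304) (nat_lit 0) (XT.nd (nat_lit 78) (nat_lit 228) (nat_lit 0) (XT.lf (nat_lit 0) (nat_lit 16856552507) (nat_lit 76) (nat_lit 9261868540) (nat_lit 152) (nat_lit 6211461816) (nat_lit 57) (nat_lit 5) (nat_lit 58) (nat_lit 5) (nat_lit 59) (nat_lit 4) (nat_lit 466) (nat_lit 407) (nat_lit 327)) (XT.nd (nat_lit 78) (nat_lit 0) (nat_lit 0) (XT.lf (nat_lit 0) (nat_lit 3000403456) (nat_lit 228) (nat_lit 28822682353) (nat_lit 76) (nat_lit 1577441071) (nat_lit 54) (nat_lit 5) (nat_lit 57) (nat_lit 5) (nat_lit 55) (nat_lit 4) (nat_lit 467) (nat_lit 407) (nat_lit 326)) (XT.lf (nat_lit 0) (nat_lit 12861615695) (nat_lit 228) (nat_lit 8639826988) (nat_lit 76) (nat_lit 12998294717) (nat_lit 54) (nat_lit 5)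 (nat_lit 57) (nat_lit 5) (nat_lit 55) (nat_lit 4) (nat_lit 468) (nat_lit 407) (nat_lit 325)))) (XT.nd (nat_lit 156) (nat_lit 228) (nat_lit 0) (XT.nd (nat_lit 78) (nat_lit 0) (nat_lit 0) (XT.lf (nat_lit 0) (nat_lit 12928785867) (nat_lit 76) (nat_lit 10469263380) (nat_lit 152) (nat_lit 12246751772) (nat_lit 53) (nat_lit 5) (nat_lit 54) (nat_lit 5) (nat_lit 55) (nat_lit 4) (nat_lit 469) (nat_lit 407) (nat_lit 324)) (XT.lf (nat_lit 0) (nat_lit 34607826885) (nat_lit 152) (nat_lit 1021101572) (nat_lit 0) (nat_lit 1210863825) (nat_lit 53) (nat_lit 5) (nat_lit 55) (nat_lit 4) (nat_lit 53) (nat_lit 4) (nat_lit 470) (nat_lit 407) (nat_lit 323))) (XT.nd (nat_lit 78) (nat_lit 76) (nat_lit 0) (XT.lf (nat_lit 0) (nat_lit 8527207348) (nat_lit 152) (nat_lit 15943032549) (nat_lit 76) (nat_lit 13592388622) (nat_lit 51) (nat_lit 5) (nat_lit 53) (nat_lit 5) (nat_lit 52) (nat_lit 4) (nat_lit 471) (nat_lit 407) (nat_lit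 322)) (XT.lf (nat_lit 0) (nat_lit 7267206880) (nat_lit 76) (nat_lit 12594539820) (nat_lit 152) (nat_lit 19477410059) (nat_lit 50) (nat_lit 5) (nat_lit 51) (nat_lit 5) (nat_lit 52) (nat_lit 4) (nat_lit 472) (nat_lit 407) (nat_lit 321))))) (XT.nd (nat_lit 312) (nat_lit 228) (nat_lit 0) (XT.nd (nat_lit 156) (nat_lit 76) (nat_lit 0) (XT.nd (nat_lit 78) (nat_lit 152) (nat_lit 0) (XT.lf (nat_lit 0) (nat_lit 32016948531) (nat_lit 152) (nat_lit 8512653917) (nat_lit 0) (nat_lit 137212665) (nat_lit 50) (nat_lit 5) (nat_lit 52) (nat_lit 4) (nat_lit 50) (nat_lit 4) (nat_lit 473) (nat_lit 407) (nat_lit 320)) (XT.lf (nat_lit 0) (nat_lit 3085967761) (nat_lit 152) (nat_lit 25575587035) (nat_lit 76) (nat_lit 13374482400) (nat_lit 48) (nat_lit 5) (nat_lit 50) (nat_lit 5) (nat_lit 49) (nat_lit 4) (nat_lit 474) (nat_lit 407) (nat_lit 319))) (XT.nd (nat_lit 78) (nat_lit 76) (nat_lit 0) (XT.lf (nat_lit 0) (nat_lit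 15246807426) (nat_lit 152) (nat_lit 666899134) (nat_lit 76) (nat_lit 27546478890) (nat_lit 48) (nat_lit 5) (nat_lit 50) (nat_lit 5) (nat_lit 49) (nat_lit 4) (nat_lit 475) (nat_lit 407) (nat_lit 318)) (XT.lf (nat_lit 0) (nat_lit 26296521654) (nat_lit 76) (nat_lit 2112945580) (nat_lit 152) (nat_lit 16526385367) (nat_lit 47) (nat_lit 5) (nat_lit 48) (nat_lit 5) (nat_lit 49) (nat_lit 4) (nat_lit 476) (nat_lit 407) (nat_lit 317)))) (XT.nd (nat_lit 156) (nat_lit 76) (nat_lit 0) (XT.nd (nat_lit 78) (nat_lit 76) (nat_lit 0) (XT.lf (nat_lit 0) (nat_lit 8182566010) (nat_lit 76) (nat_lit 34363457555) (nat_lit 76) (nat_lit 3923491744) (nat_lit 46) (nat_lit 4) (nat_lit 47) (nat_lit 5) (nat_lit 47) (nat_lit 4) (nat_lit 477) (nat_lit 407) (nat_lit 316)) (XT.lf (nat_lit 0) (nat_lit 9350369401) (nat_lit 152) (nat_lit 11289012777) (nat_lit 76) (nat_lit 27416272584) (nat_lit 45) (nat_lit 5) (nat_lit 47) (nat_lit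 5) (nat_lit 46) (nat_lit 4) (nat_lit 478) (nat_lit 407) (nat_lit 315))) (XT.nd (nat_lit 78) (nat_lit 0) (nat_lit 0) (XT.lf (nat_lit 0) (nat_lit 17524492514) (nat_lit 76) (nat_lit 5889284457) (nat_lit 152) (nat_lit 26291223143) (nat_lit 44) (nat_lit 5) (nat_lit 45) (nat_lit 5) (nat_lit 46) (nat_lit 4) (nat_lit 479) (nat_lit 407) (nat_lit 314)) (XT.lf (nat_lit 0) (nat_lit 38508684107) (nat_lit 152) (nat_lit 3440595734) (nat_lit 0) (nat_lit 9471116742) (nat_lit 44) (nat_lit 5) (nat_lit 46) (nat_lit 4) (nat_lit 44) (nat_lit 4) (nat_lit 480) (nat_lit 407) (nat_lit 313)))))) (XT.nd (nat_lit 624) (nat_lit 456) (nat_lit 0) (XT.nd (nat_lit 312) (nat_lit 228) (nat_lit 0) (XT.nd (nat_lit 156) (nat_lit 76) (nat_lit 0) (XT.nd (nat_lit 78) (nat_lit 76) (nat_lit 0) (XT.lf (nat_lit 0) (nat_lit 1619412804) (nat_lit 152) (nat_lit 25732007354) (nat_lit 76) (nat_lit 25843304437) (nat_lit 42) (nat_lit 5) (nat_lit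 44) (nat_lit 5) (nat_lit 43) (nat_lit 4) (nat_lit 481) (nat_lit 407) (nat_lit 312)) (XT.lf (nat_lit 0) (nat_lit 4890181081) (nat_lit 76) (nat_lit 11673498435) (nat_lit 152) (nat_lit 38477481220) (nat_lit 41) (nat_lit 5) (nat_lit 42) (nat_lit 5) (nat_lit 43) (nat_lit 4) (nat_lit 482) (nat_lit 407) (nat_lit 311))) (XT.nd (nat_lit 78) (nat_lit 76) (nat_lit 0) (XT.lf (nat_lit 0) (nat_lit 32757819579) (nat_lit 152) (nat_lit 19132741654) (nat_lit 0) (nat_lit 5064224704) (nat_lit 41) (nat_lit 5) (nat_lit 43) (nat_lit 4) (nat_lit 41) (nat_lit 4) (nat_lit 483) (nat_lit 407) (nat_lit 310)) (XT.lf (nat_lit 0) (nat_lit 13653911562) (nat_lit 76) (nat_lit 36497988243) (nat_lit 76) (nat_lit 8792681177) (nat_lit 40) (nat_lit 4) (nat_lit 41) (nat_lit 5) (nat_lit 41) (nat_lit 4) (nat_lit 484) (nat_lit 407) (nat_lit 309)))) (XT.nd (nat_lit 156) (nat_lit 76) (nat_lit 0) (XT.nd (nat_lit 78) (nat_lit 76) (nat_lit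 0) (XT.lf (nat_lit 0) (nat_lit 7460595080) (nat_lit 152) (nat_lit 12422241616) (nat_lit 76) (nat_lit 41129514703) (nat_lit 39) (nat_lit 5) (nat_lit 41) (nat_lit 5) (nat_lit 40) (nat_lit 4) (nat_lit 485) (nat_lit 407) (nat_lit 308)) (XT.lf (nat_lit 0) (nat_lit 22643378339) (nat_lit 76) (nat_lit 1927579306) (nat_lit 152) (nat_lit 38588350074) (nat_lit 38) (nat_lit 5) (nat_lit 39) (nat_lit 5) (nat_lit 40) (nat_lit 4) (nat_lit 486) (nat_lit 407) (nat_lit 307))) (XT.nd (nat_lit 78) (nat_lit 76) (nat_lit 0) (XT.lf (nat_lit 0) (nat_lit 43001338210) (nat_lit 152) (nat_lit 5804093747) (nat_lit 0) (nat_lit 16584955101) (nat_lit 38) (nat_lit 5) (nat_lit 40) (nat_lit 4) (nat_lit 38) (nat_lit 4) (nat_lit 487) (nat_lit 407) (nat_lit 306)) (XT.lf (nat_lit 0) (nat_lit 31597479407) (nat_lit 76) (nat_lit 31267750724) (nat_lit 76) (nat_lit 4842190808) (nat_lit 37) (nat_lit 4) (nat_lit 38) (nat_lit 5) (nat_lit 38)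 (nat_lit 4) (nat_lit 488) (nat_lit 407) (nat_lit 305))))) (XT.nd (nat_lit 312) (nat_lit 228) (nat_lit 0) (XT.nd (nat_lit 156) (nat_lit 76) (nat_lit 0) (XT.nd (nat_lit 78) (nat_lit 0) (nat_lit 0) (XT.lf (nat_lit 0) (nat_lit 719006420) (nat_lit 76) (nat_lit 12526508776) (nat_lit 152) (nat_lit 56879278116) (nat_lit 35) (nat_lit 5) (nat_lit 36) (nat_lit 5) (nat_lit 37) (nat_lit 4) (nat_lit 489) (nat_lit 407) (nat_lit 304)) (XT.lf (nat_lit 0) (nat_lit 32795210550) (nat_lit 152) (nat_lit 32216078514) (nat_lit 0) (nat_lit 7611759723) (nat_lit 35) (nat_lit 5) (nat_lit 37) (nat_lit 4) (nat_lit 35) (nat_lit 4) (nat_lit 490) (nat_lit 407) (nat_lit 303))) (XT.nd (nat_lit 78) (nat_lit 0) (nat_lit 0) (XT.lf (nat_lit 0) (nat_lit 6821705967) (nat_lit 76) (nat_lit 46800266376) (nat_lit 76) (nat_lit 21609265767) (nat_lit 34) (nat_lit 4) (nat_lit 35) (nat_lit 5) (nat_lit 35) (nat_lit 4) (nat_lit 491) (nat_lit 407)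 (nat_lit 302)) (XT.lf (nat_lit 0) (nat_lit 48905848718) (nat_lit 76) (nat_lit 27117751405) (nat_lit 76) (nat_lit 1919560528) (nat_lit 34) (nat_lit 4) (nat_lit 35) (nat_lit 5) (nat_lit 35) (nat_lit 4) (nat_lit 492) (nat_lit 407) (nat_lit 301)))) (XT.nd (nat_lit 156) (nat_lit 76) (nat_lit 0) (XT.nd (nat_lit 78) (nat_lit 0) (nat_lit 0) (XT.lf (nat_lit 0) (nat_lit 12383822683) (nat_lit 76) (nat_lit 5952207285) (nat_lit 152) (nat_lit 62430925605) (nat_lit 32) (nat_lit 5) (nat_lit 33) (nat_lit 5) (nat_lit 34) (nat_lit 4) (nat_lit 493) (nat_lit 407) (nat_lit 300)) (XT.lf (nat_lit 0) (nat_lit 40282098746) (nat_lit 152) (nat_lit 27140069075) (nat_lit 0) (nat_lit 16271088709) (nat_lit 32) (nat_lit 5) (nat_lit 34) (nat_lit 4) (nat_lit 32) (nat_lit 4) (nat_lit 494) (nat_lit 407) (nat_lit 299))) (XT.nd (nat_lit 78) (nat_lit 0) (nat_lit 0) (XT.lf (nat_lit 0) (nat_lit 16575947005) (nat_lit 76) (nat_lit 47094793823)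 (nat_lit 76) (nat_lit 23077868335) (nat_lit 31) (nat_lit 4) (nat_lit 32) (nat_lit 5) (nat_lit 32) (nat_lit 4) (nat_lit 495) (nat_lit 407) (nat_lit 298)) (XT.lf (nat_lit 0) (nat_lit 63398205606) (nat_lit 76) (nat_lit 25279323737) (nat_lit 76) (nat_lit 1256764485) (nat_lit 31) (nat_lit 4) (nat_lit 32) (nat_lit 5) (nat_lit 32) (nat_lit 4) (nat_lit 496) (nat_lit 407) (nat_lit 297))))))) (XT.nd (nat_lit 1248) (nat_lit 684) (nat_lit 0) (XT.nd (nat_lit 624) (nat_lit 380) (nat_lit 0) (XT.nd (nat_lit 312) (nat_lit 228) (nat_lit 0) (XT.nd (nat_lit 156) (nat_lit 76) (nat_lit 0) (XT.nd (nat_lit 78) (nat_lit 0) (nat_lit 0) (XT.lf (nat_lit 0) (nat_lit 19548784624) (nat_lit 76) (nat_lit 1708146773) (nat_lit 152) (nat_lit 71990694130) (nat_lit 29) (nat_lit 5) (nat_lit 30) (nat_lit 5) (nat_lit 31) (nat_lit 4) (nat_lit 497) (nat_lit 407) (nat_lit 296)) (XT.lf (nat_lit 0) (nat_lit 45660039217) (nat_lit 152) (nat_lit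 28253821715) (nat_lit 0) (nat_lit 22771434711) (nat_lit 29) (nat_lit 5) (nat_lit 31) (nat_lit 4) (nat_lit 29) (nat_lit 4) (nat_lit 498) (nat_lit 407) (nat_lit 295))) (XT.nd (nat_lit 78) (nat_lit 0) (nat_lit 0) (XT.lf (nat_lit 0) (nat_lit 20057281983) (nat_lit 76) (nat_lit 51557125764) (nat_lit 76) (nat_lit 28663886347) (nat_lit 28) (nat_lit 4) (nat_lit 29) (nat_lit 5) (nat_lit 29) (nat_lit 4) (nat_lit 499) (nat_lit 407) (nat_lit 294)) (XT.lf (nat_lit 0) (nat_lit 71745051984) (nat_lit 76) (nat_lit 27590056746) (nat_lit 76) (nat_lit 4692403127) (nat_lit 28) (nat_lit 4) (nat_lit 29) (nat_lit 5) (nat_lit 29) (nat_lit 4) (nat_lit 500) (nat_lit 407) (nat_lit 293)))) (XT.nd (nat_lit 156) (nat_lit 76) (nat_lit 0) (XT.nd (nat_lit 78) (nat_lit 0) (nat_lit 0) (XT.lf (nat_lit 0) (nat_lit 18299844442) (nat_lit 76) (nat_lit 1798546807) (nat_lit 152) (nat_lit 87836006173) (nat_lit 26) (nat_lit 5) (nat_lit 27)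 (nat_lit 5) (nat_lit 28) (nat_lit 4) (nat_lit 501) (nat_lit 407) (nat_lit 292)) (XT.lf (nat_lit 0) (nat_lit 46911893896) (nat_lit 152) (nat_lit 39977056239) (nat_lit 0) (nat_lit 25096787772) (nat_lit 26) (nat_lit 5) (nat_lit 28) (nat_lit 4) (nat_lit 26) (nat_lit 4) (nat_lit 502) (nat_lit 407) (nat_lit 291))) (XT.nd (nat_lit 78) (nat_lit 0) (nat_lit 0) (XT.lf (nat_lit 0) (nat_lit 12516155158) (nat_lit 76) (nat_lit 62765718956) (nat_lit 76) (nat_lit 40946981257) (nat_lit 25) (nat_lit 4) (nat_lit 26) (nat_lit 5) (nat_lit 26) (nat_lit 4) (nat_lit 503) (nat_lit 407) (nat_lit 290)) (XT.lf (nat_lit 0) (nat_lit 69003964005) (nat_lit 76) (nat_lit 36734478332) (nat_lit 76) (nat_lit 14912281992) (nat_lit 25) (nat_lit 4) (nat_lit 26) (nat_lit 5) (nat_lit 26) (nat_lit 4) (nat_lit 504) (nat_lit 407) (nat_lit 289))))) (XT.nd (nat_lit 312) (nat_lit 152) (nat_lit 0) (XT.nd (nat_lit 156) (nat_lit 76) (nat_lit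 0) (XT.nd (nat_lit 78) (nat_lit 0) (nat_lit 0) (XT.lf (nat_lit 0) (nat_lit 2904041701) (nat_lit 76) (nat_lit 9159144633) (nat_lit 152) (nat_lit 113218967446) (nat_lit 23) (nat_lit 5) (nat_lit 24) (nat_lit 5) (nat_lit 25) (nat_lit 4) (nat_lit 505) (nat_lit 407) (nat_lit 288)) (XT.lf (nat_lit 0) (nat_lit 41075688588) (nat_lit 152) (nat_lit 68711252789) (nat_lit 0) (nat_lit 20286519658) (nat_lit 23) (nat_lit 5) (nat_lit 25) (nat_lit 4) (nat_lit 23) (nat_lit 4) (nat_lit 506) (nat_lit 407) (nat_lit 287))) (XT.nd (nat_lit 78) (nat_lit 76) (nat_lit 0) (XT.lf (nat_lit 0) (nat_lit 71680732173) (nat_lit 152) (nat_lit 12527787917) (nat_lit 0) (nat_lit 50888717810) (nat_lit 23) (nat_lit 5) (nat_lit 25) (nat_lit 4) (nat_lit 23) (nat_lit 4) (nat_lit 507) (nat_lit 407) (nat_lit 286)) (XT.lf (nat_lit 0) (nat_lit 47984868055) (nat_lit 76) (nat_lit 56572496538) (nat_lit 76) (nat_lit 35777772238) (nat_lit 22) (nat_lit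 4) (nat_lit 23) (nat_lit 5) (nat_lit 23) (nat_lit 4) (nat_lit 508) (nat_lit 407) (nat_lit 285)))) (XT.nd (nat_lit 156) (nat_lit 0) (nat_lit 0) (XT.nd (nat_lit 78) (nat_lit 152) (nat_lit 0) (XT.lf (nat_lit 0) (nat_lit 111942550542) (nat_lit 76) (nat_lit 27339731374) (nat_lit 76) (nat_lit 6542426182) (nat_lit 22) (nat_lit 4) (nat_lit 23) (nat_lit 5) (nat_lit 23) (nat_lit 4) (nat_lit 509) (nat_lit 407) (nat_lit 284)) (XT.lf (nat_lit 0) (nat_lit 23877106007) (nat_lit 152) (nat_lit 123600212132) (nat_lit 0) (nat_lit 4067807737) (nat_lit 20) (nat_lit 5) (nat_lit 22) (nat_lit 4) (nat_lit 20) (nat_lit 4) (nat_lit 510) (nat_lit 407) (nat_lit 283))) (XT.nd (nat_lit 78) (nat_lit 0) (nat_lit 0) (XT.lf (nat_lit 0) (nat_lit 56621699729) (nat_lit 152) (nat_lit 64063132561) (nat_lit 0) (nat_lit 36810171986) (nat_lit 20) (nat_lit 5) (nat_lit 22) (nat_lit 4) (nat_lit 20) (nat_lit 4) (nat_lit 511) (nat_lit 407)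 (nat_lit 282)) (XT.lf (nat_lit 0) (nat_lit 90996421763) (nat_lit 152) (nat_lit 1563539232) (nat_lit 0) (nat_lit 71182770714) (nat_lit 20) (nat_lit 5) (nat_lit 22) (nat_lit 4) (nat_lit 20) (nat_lit 4) (nat_lit 512) (nat_lit 407) (nat_lit 281)))))) (XT.nd (nat_lit 624) (nat_lit 304) (nat_lit 0) (XT.nd (nat_lit 312) (nat_lit 152) (nat_lit 0) (XT.nd (nat_lit 156) (nat_lit 152) (nat_lit 0) (XT.nd (nat_lit 78) (nat_lit 0) (nat_lit 0) (XT.lf (nat_lit 0) (nat_lit 66165071921) (nat_lit 76) (nat_lit 61951066965) (nat_lit 76) (nat_lit 42135393720) (nat_lit 19) (nat_lit 4) (nat_lit 20) (nat_lit 5) (nat_lit 20) (nat_lit 4) (nat_lit 513) (nat_lit 407) (nat_lit 280)) (XT.lf (nat_lit 0) (nat_lit 137320959112) (nat_lit 76) (nat_lit 29790711103) (nat_lit 76) (nat_lit 9973111956) (nat_lit 19) (nat_lit 4) (nat_lit 20) (nat_lit 5) (nat_lit 20) (nat_lit 4) (nat_lit 514) (nat_lit 407) (nat_lit 279))) (XT.nd (nat_lit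 78) (nat_lit 0) (nat_lit 0) (XT.lf (nat_lit 0) (nat_lit 23546297646) (nat_lit 152) (nat_lit 155998638867) (nat_lit 0) (nat_lit 4670646848) (nat_lit 17) (nat_lit 5) (nat_lit 19) (nat_lit 4) (nat_lit 17) (nat_lit 4) (nat_lit 515) (nat_lit 407) (nat_lit 278)) (XT.lf (nat_lit 0) (nat_lit 59572914954) (nat_lit 152) (nat_lit 91367914562) (nat_lit 0) (nat_lit 40695600490) (nat_lit 17) (nat_lit 5) (nat_lit 19) (nat_lit 4) (nat_lit 17) (nat_lit 4) (nat_lit 516) (nat_lit 407) (nat_lit 277)))) (XT.nd (nat_lit 156) (nat_lit 76) (nat_lit 0) (XT.nd (nat_lit 78) (nat_lit 76) (nat_lit 0) (XT.lf (nat_lit 0) (nat_lit 97394737052) (nat_lit 152) (nat_lit 23518050122) (nat_lit 0) (nat_lit 78515838143) (nat_lit 17) (nat_lit 5) (nat_lit 19) (nat_lit 4) (nat_lit 17) (nat_lit 4) (nat_lit 517) (nat_lit 407) (nat_lit 276)) (XT.lf (nat_lit 0) (nat_lit 49290092529) (nat_lit 76) (nat_lit 88581279847) (nat_lit 76) (nat_lit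 69700871944) (nat_lit 16) (nat_lit 4) (nat_lit 17) (nat_lit 5) (nat_lit 17) (nat_lit 4) (nat_lit 518) (nat_lit 407) (nat_lit 275))) (XT.nd (nat_lit 78) (nat_lit 76) (nat_lit 0) (XT.lf (nat_lit 0) (nat_lit 126543520534) (nat_lit 76) (nat_lit 54220870613) (nat_lit 76) (nat_lit 35339025573) (nat_lit 16) (nat_lit 4) (nat_lit 17) (nat_lit 5) (nat_lit 17) (nat_lit 4) (nat_lit 519) (nat_lit 407) (nat_lit 274)) (XT.lf (nat_lit 0) (nat_lit 711645010) (nat_lit 152) (nat_lit 17424341470) (nat_lit 76) (nat_lit 206924860612) (nat_lit 15) (nat_lit 5) (nat_lit 17) (nat_lit 5) (nat_lit 16) (nat_lit 4) (nat_lit 520) (nat_lit 407) (nat_lit 273))))) (XT.nd (nat_lit 312) (nat_lit 152) (nat_lit 0) (XT.nd (nat_lit 156) (nat_lit 76) (nat_lit 0) (XT.nd (nat_lit 78) (nat_lit 0) (nat_lit 0) (XT.lf (nat_lit 0) (nat_lit 38636110692) (nat_lit 152) (nat_lit 175087271523) (nat_lit 0) (nat_lit 20650856151) (nat_lit 14) (nat_lit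 5) (nat_lit 16) (nat_lit 4) (nat_lit 14) (nat_lit 4) (nat_lit 521) (nat_lit 407) (nat_lit 272)) (XT.lf (nat_lit 0) (nat_lit 79048752403) (nat_lit 152) (nat_lit 104012633661) (nat_lit 0) (nat_lit 61062315526) (nat_lit 14) (nat_lit 5) (nat_lit 16) (nat_lit 4) (nat_lit 14) (nat_lit 4) (nat_lit 522) (nat_lit 407) (nat_lit 271))) (XT.nd (nat_lit 78) (nat_lit 76) (nat_lit 0) (XT.lf (nat_lit 0) (nat_lit 121476992203) (nat_lit 152) (nat_lit 29394468207) (nat_lit 0) (nat_lit 103489429291) (nat_lit 14) (nat_lit 5) (nat_lit 16) (nat_lit 4) (nat_lit 14) (nat_lit 4) (nat_lit 523) (nat_lit 407) (nat_lit 270)) (XT.lf (nat_lit 0) (nat_lit 50563226149) (nat_lit 76) (nat_lit 116248057222) (nat_lit 76) (nat_lit 98259421896) (nat_lit 13) (nat_lit 4) (nat_lit 14) (nat_lit 5) (nat_lit 14) (nat_lit 4) (nat_lit 524) (nat_lit 407) (nat_lit 269)))) (XT.nd (nat_lit 156) (nat_lit 152) (nat_lit 0) (XT.nd (nat_lit 78) (nat_lit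 0) (nat_lit 0) (XT.lf (nat_lit 0) (nat_lit 135529753153) (nat_lit 76) (nat_lit 79375630221) (nat_lit 76) (nat_lit 61385973548) (nat_lit 13) (nat_lit 4) (nat_lit 14) (nat_lit 5) (nat_lit 14) (nat_lit 4) (nat_lit 525) (nat_lit 407) (nat_lit 268)) (XT.lf (nat_lit 0) (nat_lit 224735500189) (nat_lit 76) (nat_lit 40664197454) (nat_lit 76) (nat_lit 22673568071) (nat_lit 13) (nat_lit 4) (nat_lit 14) (nat_lit 5) (nat_lit 14) (nat_lit 4) (nat_lit 526) (nat_lit 407) (nat_lit 267))) (XT.nd (nat_lit 78) (nat_lit 0) (nat_lit 0) (XT.lf (nat_lit 0) (nat_lit 17688714406) (nat_lit 152) (nat_lit 282173147012) (nat_lit 0) (nat_lit 553899383) (nat_lit 11) (nat_lit 5) (nat_lit 13) (nat_lit 4) (nat_lit 11) (nat_lit 4) (nat_lit 527) (nat_lit 407) (nat_lit 266)) (XT.lf (nat_lit 0) (nat_lit 61059652732) (nat_lit 152) (nat_lit 208285519477) (nat_lit 0) (nat_lit 43923997444) (nat_lit 11) (nat_lit 5) (nat_lit 13) (nat_lit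 4) (nat_lit 11) (nat_lit 4) (nat_lit 528) (nat_lit 407) (nat_lit 265))))))))
noncomputable def xc112 : XT := (XT.nd (nat_lit 53742) (nat_lit 0) (nat_lit 5852) (XT.nd (nat_lit 1170) (nat_lit 152) (nat_lit 0) (XT.nd (nat_lit 546) (nat_lit 76) (nat_lit 0) (XT.nd (nat_lit 234) (nat_lit 152) (nat_lit 0) (XT.nd (nat_lit 78) (nat_lit 76) (nat_lit 0) (XT.lf (nat_lit 0) (nat_lit 106595000713) (nat_lit 152) (nat_lit 130711909942) (nat_lit 0) (nat_lit 89458545172) (nat_lit 11) (nat_lit 5) (nat_lit 13) (nat_lit 4) (nat_lit 11) (nat_lit 4) (nat_lit 529) (nat_lit 407) (nat_lit 264)) (XT.nd (nat_lit 78) (nat_lit 76) (nat_lit 0) (XT.lf (nat_lit 0) (nat_lit 154403175844) (nat_lit 152) (nat_lit 49267619335) (nat_lit 0) (nat_lit 137265958159) (nat_lit 11) (nat_lit 5) (nat_lit 13) (nat_lit 4) (nat_lit 11) (nat_lit 4) (nat_lit 530) (nat_lit 407) (nat_lit 263)) (XT.lf (nat_lit 0) (nat_lit 37439567287) (nat_lit 76)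 (nat_lit 167742976396) (nat_lit 76) (nat_lit 150605032859) (nat_lit 10) (nat_lit 4) (nat_lit 11) (nat_lit 5) (nat_lit 11) (nat_lit 4) (nat_lit 531) (nat_lit 407) (nat_lit 262)))) (XT.nd (nat_lit 156) (nat_lit 152) (nat_lit 0) (XT.nd (nat_lit 78) (nat_lit 0) (nat_lit 0) (XT.lf (nat_lit 0) (nat_lit 130185078131) (nat_lit 76) (nat_lit 129146481806) (nat_lit 76) (nat_lit 112007846981) (nat_lit 10) (nat_lit 4) (nat_lit 11) (nat_lit 5) (nat_lit 11) (nat_lit 4) (nat_lit 532) (nat_lit 407) (nat_lit 261)) (XT.lf (nat_lit 0) (nat_lit 227560725849) (nat_lit 76) (nat_lit 88623785966) (nat_lit 76) (nat_lit 71484492772) (nat_lit 10) (nat_lit 4) (nat_lit 11) (nat_lit 5) (nat_lit 11) (nat_lit 4) (nat_lit 533) (nat_lit 407) (nat_lit 260))) (XT.nd (nat_lit 78) (nat_lit 152) (nat_lit 0) (XT.lf (nat_lit 0) (nat_lit 329798357220) (nat_lit 76) (nat_lit 46078406267) (nat_lit 76) (nat_lit 28938486056) (nat_lit 10) (nat_lit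 4) (nat_lit 11) (nat_lit 5) (nat_lit 11) (nat_lit 4) (nat_lit 534) (nat_lit 407) (nat_lit 259)) (XT.lf (nat_lit 0) (nat_lit 14542259743) (nat_lit 76) (nat_lit 912753483) (nat_lit 152) (nat_lit 407340320061) (nat_lit 8) (nat_lit 5) (nat_lit 9) (nat_lit 5) (nat_lit 10) (nat_lit 4) (nat_lit 535) (nat_lit 407) (nat_lit 258))))) (XT.nd (nat_lit 312) (nat_lit 76) (nat_lit 0) (XT.nd (nat_lit 156) (nat_lit 0) (nat_lit 0) (XT.nd (nat_lit 78) (nat_lit 0) (nat_lit 0) (XT.lf (nat_lit 0) (nat_lit 63109870060) (nat_lit 152) (nat_lit 331655094666) (nat_lit 0) (nat_lit 46785026159) (nat_lit 8) (nat_lit 5) (nat_lit 10) (nat_lit 4) (nat_lit 8) (nat_lit 4) (nat_lit 536) (nat_lit 407) (nat_lit 257)) (XT.lf (nat_lit 0) (nat_lit 113159348340) (nat_lit 152) (nat_lit 251248450513) (nat_lit 0) (nat_lit 96833988590) (nat_lit 8) (nat_lit 5) (nat_lit 10) (nat_lit 4) (nat_lit 8) (nat_lit 4) (nat_lit 537) (nat_lit 407) (nat_lit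 256))) (XT.nd (nat_lit 78) (nat_lit 0) (nat_lit 0) (XT.lf (nat_lit 0) (nat_lit 165708362851) (nat_lit 152) (nat_lit 166827446056) (nat_lit 0) (nat_lit 149382511816) (nat_lit 8) (nat_lit 5) (nat_lit 10) (nat_lit 4) (nat_lit 8) (nat_lit 4) (nat_lit 538) (nat_lit 407) (nat_lit 255)) (XT.lf (nat_lit 0) (nat_lit 220882030295) (nat_lit 152) (nat_lit 78191078902) (nat_lit 0) (nat_lit 204555711369) (nat_lit 8) (nat_lit 5) (nat_lit 10) (nat_lit 4) (nat_lit 8) (nat_lit 4) (nat_lit 539) (nat_lit 407) (nat_lit 254)))) (XT.nd (nat_lit 156) (nat_lit 0) (nat_lit 0) (XT.nd (nat_lit 78) (nat_lit 0) (nat_lit 0) (XT.lf (nat_lit 0) (nat_lit 15363415147) (nat_lit 76) (nat_lit 263688167365) (nat_lit 76) (nat_lit 247361402829) (nat_lit 7) (nat_lit 4) (nat_lit 8) (nat_lit 5) (nat_lit 8) (nat_lit 4) (nat_lit 540) (nat_lit 407) (nat_lit 253)) (XT.lf (nat_lit 0) (nat_lit 116304922272) (nat_lit 76) (nat_lit 225146272937)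 (nat_lit 76) (nat_lit 208819084010) (nat_lit 7) (nat_lit 4) (nat_lit 8) (nat_lit 5) (nat_lit 8) (nat_lit 4) (nat_lit 541) (nat_lit 407) (nat_lit 252))) (XT.nd (nat_lit 78) (nat_lit 0) (nat_lit 0) (XT.lf (nat_lit 0) (nat_lit 222288429204) (nat_lit 76) (nat_lit 184679863255) (nat_lit 76) (nat_lit 168352270146) (nat_lit 7) (nat_lit 4) (nat_lit 8) (nat_lit 5) (nat_lit 8) (nat_lit 4) (nat_lit 542) (nat_lit 407) (nat_lit 251)) (XT.lf (nat_lit 0) (nat_lit 333566277628) (nat_lit 76) (nat_lit 142192589722) (nat_lit 76) (nat_lit 125864611679) (nat_lit 7) (nat_lit 4) (nat_lit 8) (nat_lit 5) (nat_lit 8) (nat_lit 4) (nat_lit 543) (nat_lit 407) (nat_lit 250)))))) (XT.nd (nat_lit 51948) (nat_lit 0) (nat_lit 12464) (XT.nd (nat_lit 312) (nat_lit 0) (nat_lit 0) (XT.nd (nat_lit 156) (nat_lit 152) (nat_lit 0) (XT.nd (nat_lit 78) (nat_lit 0) (nat_lit 0) (XT.lf (nat_lit 0) (nat_lit 450403414800) (nat_lit 76) (nat_lit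 97583292165) (nat_lit 76) (nat_lit 81254947517) (nat_lit 7) (nat_lit 4) (nat_lit 8) (nat_lit 5) (nat_lit 8) (nat_lit 4) (nat_lit 544) (nat_lit 407) (nat_lit 249)) (XT.lf (nat_lit 0) (nat_lit 573078024381) (nat_lit 76) (nat_lit 50745757970) (nat_lit 76) (nat_lit 34417064175) (nat_lit 7) (nat_lit 4) (nat_lit 8) (nat_lit 5) (nat_lit 8) (nat_lit 4) (nat_lit 545) (nat_lit 407) (nat_lit 248))) (XT.nd (nat_lit 78) (nat_lit 0) (nat_lit 0) (XT.lf (nat_lit 0) (nat_lit 13390204420) (nat_lit 76) (nat_lit 1106981304) (nat_lit 152) (nat_lit 674170939516) (nat_lit 5) (nat_lit 5) (nat_lit 6) (nat_lit 5) (nat_lit 7) (nat_lit 4) (nat_lit 546) (nat_lit 407) (nat_lit 247)) (XT.lf (nat_lit 0) (nat_lit 66960807700) (nat_lit 152) (nat_lit 602105682100) (nat_lit 0) (nat_lit 51409052459) (nat_lit 5) (nat_lit 5) (nat_lit 7) (nat_lit 4) (nat_lit 5) (nat_lit 4) (nat_lit 547) (nat_lit 407) (nat_lit 246)))) (XT.nd (nat_lit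 156) (nat_lit 0) (nat_lit 0) (XT.nd (nat_lit 78) (nat_lit 0) (nat_lit 0) (XT.lf (nat_lit 0) (nat_lit 122063771184) (nat_lit 152) (nat_lit 525297022230) (nat_lit 0) (nat_lit 106511728699) (nat_lit 5) (nat_lit 5) (nat_lit 7) (nat_lit 4) (nat_lit 5) (nat_lit 4) (nat_lit 548) (nat_lit 407) (nat_lit 245)) (XT.lf (nat_lit 0) (nat_lit 179919990629) (nat_lit 152) (nat_lit 444651780369) (nat_lit 0) (nat_lit 164367674578) (nat_lit 5) (nat_lit 5) (nat_lit 7) (nat_lit 4) (nat_lit 5) (nat_lit 4) (nat_lit 549) (nat_lit 407) (nat_lit 244))) (XT.nd (nat_lit 51402) (nat_lit 0) (nat_lit 13528) (XT.lf (nat_lit 0) (nat_lit 240667218938) (nat_lit 152) (nat_lit 359977944037) (nat_lit 0) (nat_lit 225114642348) (nat_lit 5) (nat_lit 5) (nat_lit 7) (nat_lit 4) (nat_lit 5) (nat_lit 4) (nat_lit 550) (nat_lit 407) (nat_lit 243)) (XT.lf (nat_lit 0) (nat_lit 2679128213) (nat_lit 532) (nat_lit 455370519) (nat_lit 532) (nat_lit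 455370519) (nat_lit 183) (nat_lit 3) (nat_lit 190) (nat_lit 3) (nat_lit 190) (nat_lit 5) (nat_lit 408) (nat_lit 408) (nat_lit 384))))) (XT.nd (nat_lit 312) (nat_lit 532) (nat_lit 0) (XT.nd (nat_lit 156) (nat_lit 0) (nat_lit 0) (XT.nd (nat_lit 78) (nat_lit 532) (nat_lit 0) (XT.lf (nat_lit 76) (nat_lit 2742670904) (nat_lit 0) (nat_lit 4411531771) (nat_lit 532) (nat_lit 121593940) (nat_lit 184) (nat_lit 5) (nat_lit 183) (nat_lit 3) (nat_lit 190) (nat_lit 5) (nat_lit 409) (nat_lit 408) (nat_lit 383)) (XT.lf (nat_lit 0) (nat_lit 1519470463) (nat_lit 532) (nat_lit 851494454) (nat_lit 608) (nat_lit 5008943888) (nat_lit 176) (nat_lit 5) (nat_lit 183) (nat_lit 3) (nat_lit 184) (nat_lit 5) (nat_lit 410) (nat_lit 408) (nat_lit 382))) (XT.nd (nat_lit 78) (nat_lit 0) (nat_lit 76) (XT.lf (nat_lit 76) (nat_lit 3053027756) (nat_lit 0) (nat_lit 131941053) (nat_lit 608) (nat_lit 4306854274) (nat_lit 177) (nat_lit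 5) (nat_lit 176) (nat_lit 5) (nat_lit 184) (nat_lit 5) (nat_lit 411) (nat_lit 408) (nat_lit 381)) (XT.lf (nat_lit 0) (nat_lit 4886433980) (nat_lit 532) (nat_lit 522676486) (nat_lit 608) (nat_lit 2202606586) (nat_lit 177) (nat_lit 5) (nat_lit 184) (nat_lit 5) (nat_lit 185) (nat_lit 5) (nat_lit 412) (nat_lit 408) (nat_lit 380)))) (XT.nd (nat_lit 156) (nat_lit 0) (nat_lit 76) (XT.nd (nat_lit 78) (nat_lit 608) (nat_lit 0) (XT.lf (nat_lit 76) (nat_lit 3645162106) (nat_lit 0) (nat_lit 2994874653) (nat_lit 608) (nat_lit 1099233429) (nat_lit 178) (nat_lit 5) (nat_lit 177) (nat_lit 5) (nat_lit 185) (nat_lit 5) (nat_lit 413) (nat_lit 408) (nat_lit 379)) (XT.lf (nat_lit 76) (nat_lit 99693783) (nat_lit 0) (nat_lit 409518702) (nat_lit 684) (nat_lit 7367501949) (nat_lit 170) (nat_lit 5) (nat_lit 169) (nat_lit 5) (nat_lit 178) (nat_lit 5) (nat_lit 414) (nat_lit 408) (nat_lit 378))) (XT.nd (nat_lit 78) (nat_lit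 0) (nat_lit 0) (XT.lf (nat_lit 0) (nat_lit 2181380076) (nat_lit 608) (nat_lit 3491814682) (nat_lit 684) (nat_lit 2345938359) (nat_lit 170) (nat_lit 5) (nat_lit 178) (nat_lit 5) (nat_lit 179) (nat_lit 5) (nat_lit 415) (nat_lit 408) (nat_lit 377)) (XT.lf (nat_lit 76) (nat_lit 970644382) (nat_lit 0) (nat_lit 2906264641) (nat_lit 684) (nat_lit 4294790616) (nat_lit 171) (nat_lit 5) (nat_lit 170) (nat_lit 5) (nat_lit 179) (nat_lit 5) (nat_lit 416) (nat_lit 408) (nat_lit 376))))))) (XT.nd (nat_lit 1170) (nat_lit 2432) (nat_lit 0) (XT.nd (nat_lit 546) (nat_lit 1824) (nat_lit 0) (XT.nd (nat_lit 234) (nat_lit 1824) (nat_lit 0) (XT.nd (nat_lit 78) (nat_lit 684) (nat_lit 0) (XT.lf (nat_lit 0) (nat_lit 5638449905) (nat_lit 608) (nat_lit 2617072547) (nat_lit 76) (nat_lit 77324118) (nat_lit 171) (nat_lit 5) (nat_lit 179) (nat_lit 5) (nat_lit 172) (nat_lit 5) (nat_lit 417) (nat_lit 408) (nat_lit 375)) (XT.nd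 (nat_lit 78) (nat_lit 76) (nat_lit 0) (XT.lf (nat_lit 0) (nat_lit 2155910940) (nat_lit 608) (nat_lit 5338361247) (nat_lit 684) (nat_lit 1007481641) (nat_lit 163) (nat_lit 5) (nat_lit 171) (nat_lit 5) (nat_lit 172) (nat_lit 5) (nat_lit 418) (nat_lit 408) (nat_lit 374)) (XT.lf (nat_lit 0) (nat_lit 710712657) (nat_lit 684) (nat_lit 1494151461) (nat_lit 76) (nat_lit 6475089105) (nat_lit 162) (nat_lit 5) (nat_lit 171) (nat_lit 5) (nat_lit 163) (nat_lit 5) (nat_lit 419) (nat_lit 408) (nat_lit 373)))) (XT.nd (nat_lit 156) (nat_lit 1140) (nat_lit 0) (XT.nd (nat_lit 78) (nat_lit 0) (nat_lit 0) (XT.lf (nat_lit 0) (nat_lit 2485935762) (nat_lit 760) (nat_lit 5245117366) (nat_lit 76) (nat_lit 1134946203) (nat_lit 153) (nat_lit 5) (nat_lit 163) (nat_lit 5) (nat_lit 154) (nat_lit 5) (nat_lit 420) (nat_lit 408) (nat_lit 372)) (XT.lf (nat_lit 0) (nat_lit 4344178573) (nat_lit 760) (nat_lit 115679486) (nat_lit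 76) (nat_lit 4601787615) (nat_lit 153) (nat_lit 5) (nat_lit 163) (nat_lit 5) (nat_lit 154) (nat_lit 5) (nat_lit 421) (nat_lit 408) (nat_lit 371))) (XT.nd (nat_lit 78) (nat_lit 380) (nat_lit 0) (XT.lf (nat_lit 0) (nat_lit 5382919771) (nat_lit 760) (nat_lit 932069775) (nat_lit 836) (nat_lit 2951112330) (nat_lit 143) (nat_lit 5) (nat_lit 153) (nat_lit 5) (nat_lit 154) (nat_lit 5) (nat_lit 422) (nat_lit 408) (nat_lit 370)) (XT.lf (nat_lit 0) (nat_lit 1626720763) (nat_lit 380) (nat_lit 6766109854) (nat_lit 456) (nat_lit 1087535641) (nat_lit 138) (nat_lit 5) (nat_lit 143) (nat_lit 5) (nat_lit 144) (nat_lit 5) (nat_lit 423) (nat_lit 408) (nat_lit 369))))) (XT.nd (nat_lit 312) (nat_lit 988) (nat_lit 0) (XT.nd (nat_lit 156) (nat_lit 380) (nat_lit 0) (XT.nd (nat_lit 78) (nat_lit 380) (nat_lit 0) (XT.lf (nat_lit 0) (nat_lit 862357178) (nat_lit 456) (nat_lit 2247898911) (nat_lit 76) (nat_lit 6593370269)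 (nat_lit 137) (nat_lit 5) (nat_lit 143) (nat_lit 5) (nat_lit 138) (nat_lit 5) (nat_lit 424) (nat_lit 408) (nat_lit 368)) (XT.lf (nat_lit 0) (nat_lit 2884952618) (nat_lit 456) (nat_lit 6271613151) (nat_lit 76) (nat_lit 780012963) (nat_lit 132) (nat_lit 5) (nat_lit 138) (nat_lit 5) (nat_lit 133) (nat_lit 5) (nat_lit 425) (nat_lit 408) (nat_lit 367))) (XT.nd (nat_lit 78) (nat_lit 380) (nat_lit 0) (XT.lf (nat_lit 0) (nat_lit 5041923298) (nat_lit 456) (nat_lit 341051130) (nat_lit 76) (nat_lit 4796550127) (nat_lit 132) (nat_lit 5) (nat_lit 138) (nat_lit 5) (nat_lit 133) (nat_lit 5) (nat_lit 426) (nat_lit 408) (nat_lit 366)) (XT.lf (nat_lit 0) (nat_lit 6019973597) (nat_lit 380) (nat_lit 1327009306) (nat_lit 456) (nat_lit 3085630462) (nat_lit 127) (nat_lit 5) (nat_lit 132) (nat_lit 5) (nat_lit 133) (nat_lit 5) (nat_lit 427) (nat_lit 408) (nat_lit 365)))) (XT.nd (nat_lit 156) (nat_lit 608) (nat_lit 0)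 (XT.nd (nat_lit 78) (nat_lit 76) (nat_lit 0) (XT.lf (nat_lit 0) (nat_lit 1969679163) (nat_lit 304) (nat_lit 7827831779) (nat_lit 380) (nat_lit 899342253) (nat_lit 123) (nat_lit 5) (nat_lit 127) (nat_lit 5) (nat_lit 128) (nat_lit 5) (nat_lit 428) (nat_lit 408) (nat_lit 364)) (XT.lf (nat_lit 0) (nat_lit 1397822222) (nat_lit 380) (nat_lit 2252089254) (nat_lit 76) (nat_lit 7320997682) (nat_lit 122) (nat_lit 5) (nat_lit 127) (nat_lit 5) (nat_lit 123) (nat_lit 5) (nat_lit 429) (nat_lit 408) (nat_lit 363))) (XT.nd (nat_lit 78) (nat_lit 304) (nat_lit 0) (XT.lf (nat_lit 0) (nat_lit 3815559082) (nat_lit 380) (nat_lit 6647779718) (nat_lit 76) (nat_lit 792801405) (nat_lit 118) (nat_lit 5) (nat_lit 123) (nat_lit 5) (nat_lit 119) (nat_lit 5) (nat_lit 430) (nat_lit 408) (nat_lit 362)) (XT.lf (nat_lit 0) (nat_lit 223547819) (nat_lit 304) (nat_lit 6185007095) (nat_lit 380) (nat_lit 5144365331) (nat_lit 114) (nat_lit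 5) (nat_lit 118) (nat_lit 5) (nat_lit 119) (nat_lit 5) (nat_lit 431) (nat_lit 408) (nat_lit 361)))))) (XT.nd (nat_lit 624) (nat_lit 1292) (nat_lit 0) (XT.nd (nat_lit 312) (nat_lit 532) (nat_lit 0) (XT.nd (nat_lit 156) (nat_lit 304) (nat_lit 0) (XT.nd (nat_lit 78) (nat_lit 304) (nat_lit 0) (XT.lf (nat_lit 0) (nat_lit 7610754750) (nat_lit 304) (nat_lit 1586670200) (nat_lit 380) (nat_lit 2663808873) (nat_lit 114) (nat_lit 5) (nat_lit 118) (nat_lit 5) (nat_lit 119) (nat_lit 5) (nat_lit 432) (nat_lit 408) (nat_lit 360)) (XT.lf (nat_lit 0) (nat_lit 3175658894) (nat_lit 304) (nat_lit 9005939075) (nat_lit 380) (nat_lit 577623) (nat_lit 110) (nat_lit 5) (nat_lit 114) (nat_lit 5) (nat_lit 115) (nat_lit 5) (nat_lit 433) (nat_lit 408) (nat_lit 359))) (XT.nd (nat_lit 78) (nat_lit 228) (nat_lit 0) (XT.lf (nat_lit 0) (nat_lit 2761687450) (nat_lit 380) (nat_lit 1523989474) (nat_lit 76) (nat_lit 8228542184) (nat_lit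 109) (nat_lit 5) (nat_lit 114) (nat_lit 5) (nat_lit 110) (nat_lit 5) (nat_lit 434) (nat_lit 408) (nat_lit 358)) (XT.lf (nat_lit 0) (nat_lit 5733473785) (nat_lit 304) (nat_lit 6387081729) (nat_lit 76) (nat_lit 738742177) (nat_lit 106) (nat_lit 5) (nat_lit 110) (nat_lit 5) (nat_lit 107) (nat_lit 5) (nat_lit 435) (nat_lit 408) (nat_lit 357)))) (XT.nd (nat_lit 156) (nat_lit 304) (nat_lit 0) (XT.nd (nat_lit 78) (nat_lit 0) (nat_lit 0) (XT.lf (nat_lit 0) (nat_lit 1625754961) (nat_lit 228) (nat_lit 7309150801) (nat_lit 304) (nat_lit 4282676139) (nat_lit 103) (nat_lit 5) (nat_lit 106) (nat_lit 5) (nat_lit 107) (nat_lit 5) (nat_lit 436) (nat_lit 408) (nat_lit 356)) (XT.lf (nat_lit 0) (nat_lit 10205487572) (nat_lit 228) (nat_lit 2159351458) (nat_lit 304) (nat_lit 1225524104) (nat_lit 103) (nat_lit 5) (nat_lit 106) (nat_lit 5) (nat_lit 107) (nat_lit 5) (nat_lit 437) (nat_lit 408) (nat_lit 355))) (XT.nd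 (nat_lit 78) (nat_lit 0) (nat_lit 0) (XT.lf (nat_lit 0) (nat_lit 2017854057) (nat_lit 304) (nat_lit 8712835528) (nat_lit 76) (nat_lit 3244704349) (nat_lit 99) (nat_lit 5) (nat_lit 103) (nat_lit 5) (nat_lit 100) (nat_lit 5) (nat_lit 438) (nat_lit 408) (nat_lit 354)) (XT.lf (nat_lit 0) (nat_lit 5438162373) (nat_lit 304) (nat_lit 28242560) (nat_lit 76) (nat_lit 8909473179) (nat_lit 99) (nat_lit 5) (nat_lit 103) (nat_lit 5) (nat_lit 100) (nat_lit 5) (nat_lit 439) (nat_lit 408) (nat_lit 353))))) (XT.nd (nat_lit 312) (nat_lit 608) (nat_lit 0) (XT.nd (nat_lit 156) (nat_lit 304) (nat_lit 0) (XT.nd (nat_lit 78) (nat_lit 152) (nat_lit 0) (XT.lf (nat_lit 0) (nat_lit 9142433211) (nat_lit 304) (nat_lit 5456826956) (nat_lit 76) (nat_lit 191482513) (nat_lit 96) (nat_lit 5) (nat_lit 100) (nat_lit 5) (nat_lit 97) (nat_lit 5) (nat_lit 440) (nat_lit 408) (nat_lit 352)) (XT.lf (nat_lit 0) (nat_lit 3921813791) (nat_lit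 152) (nat_lit 9226164455) (nat_lit 228) (nat_lit 2072572564) (nat_lit 94) (nat_lit 5) (nat_lit 96) (nat_lit 5) (nat_lit 97) (nat_lit 5) (nat_lit 441) (nat_lit 408) (nat_lit 351))) (XT.nd (nat_lit 78) (nat_lit 228) (nat_lit 0) (XT.lf (nat_lit 0) (nat_lit 1687077492) (nat_lit 228) (nat_lit 1789397606) (nat_lit 76) (nat_lit 12191116342) (nat_lit 93) (nat_lit 5) (nat_lit 96) (nat_lit 5) (nat_lit 94) (nat_lit 5) (nat_lit 442) (nat_lit 408) (nat_lit 350)) (XT.lf (nat_lit 0) (nat_lit 5704981588) (nat_lit 304) (nat_lit 7793906990) (nat_lit 76) (nat_lit 2629403424) (nat_lit 90) (nat_lit 5) (nat_lit 94) (nat_lit 5) (nat_lit 91) (nat_lit 5) (nat_lit 443) (nat_lit 408) (nat_lit 349)))) (XT.nd (nat_lit 156) (nat_lit 456) (nat_lit 0) (XT.nd (nat_lit 78) (nat_lit 0) (nat_lit 0) (XT.lf (nat_lit 0) (nat_lit 2383534844) (nat_lit 152) (nat_lit 7632483555) (nat_lit 228) (nat_lit 6591400085) (nat_lit 88) (nat_lit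 5) (nat_lit 90) (nat_lit 5) (nat_lit 91) (nat_lit 5) (nat_lit 444) (nat_lit 408) (nat_lit 348)) (XT.lf (nat_lit 0) (nat_lit 13290028766) (nat_lit 152) (nat_lit 1352576644) (nat_lit 228) (nat_lit 2462898604) (nat_lit 88) (nat_lit 5) (nat_lit 90) (nat_lit 5) (nat_lit 91) (nat_lit 5) (nat_lit 445) (nat_lit 408) (nat_lit 347))) (XT.nd (nat_lit 78) (nat_lit 152) (nat_lit 0) (XT.lf (nat_lit 0) (nat_lit 1978496107) (nat_lit 304) (nat_lit 10439094311) (nat_lit 76) (nat_lit 5201125175) (nat_lit 84) (nat_lit 5) (nat_lit 88) (nat_lit 5) (nat_lit 85) (nat_lit 5) (nat_lit 446) (nat_lit 408) (nat_lit 346)) (XT.lf (nat_lit 0) (nat_lit 608987567) (nat_lit 152) (nat_lit 6017028293) (nat_lit 228) (nat_lit 11526214160) (nat_lit 82) (nat_lit 5) (nat_lit 84) (nat_lit 5) (nat_lit 85) (nat_lit 5) (nat_lit 447) (nat_lit 408) (nat_lit 345))))))))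
noncomputable def xc113 : XT := (XT.nd (nat_lit 2418) (nat_lit 1824) (nat_lit 0) (XT.nd (nat_lit 1170) (nat_lit 1216) (nat_lit 0) (XT.nd (nat_lit 546) (nat_lit 760) (nat_lit 0) (XT.nd (nat_lit 234) (nat_lit 532) (nat_lit 0) (XT.nd (nat_lit 78) (nat_lit 228) (nat_lit 0) (XT.lf (nat_lit 0) (nat_lit 11666452550) (nat_lit 228) (nat_lit 6195446240) (nat_lit 76) (nat_lit 842496500) (nat_lit 82) (nat_lit 5) (nat_lit 85) (nat_lit 5) (nat_lit 83) (nat_lit 5) (nat_lit 448) (nat_lit 408) (nat_lit 344)) (XT.nd (nat_lit 78) (nat_lit 76) (nat_lit 0) (XT.lf (nat_lit 0) (nat_lit 5757885252) (nat_lit 152) (nat_lit 11360864305) (nat_lit 228) (nat_lit 2157429410) (nat_lit 80) (nat_lit 5) (nat_lit 82) (nat_lit 5) (nat_lit 83) (nat_lit 5) (nat_lit 449) (nat_lit 408) (nat_lit 343)) (XT.lf (nat_lit 0) (nat_lit 2950263383) (nat_lit 228) (nat_lit 1443057214) (nat_lit 76) (nat_lit 15477010869) (nat_lit 79) (nat_lit 5)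 (nat_lit 82) (nat_lit 5) (nat_lit 80) (nat_lit 5) (nat_lit 450) (nat_lit 408) (nat_lit 342)))) (XT.nd (nat_lit 156) (nat_lit 228) (nat_lit 0) (XT.nd (nat_lit 78) (nat_lit 152) (nat_lit 0) (XT.lf (nat_lit 0) (nat_lit 8442468602) (nat_lit 228) (nat_lit 9009659370) (nat_lit 76) (nat_lit 3030215440) (nat_lit 77) (nat_lit 5) (nat_lit 80) (nat_lit 5) (nat_lit 78) (nat_lit 5) (nat_lit 451) (nat_lit 408) (nat_lit 341)) (XT.lf (nat_lit 0) (nat_lit 3969477622) (nat_lit 152) (nat_lit 10371790694) (nat_lit 228) (nat_lit 6777090130) (nat_lit 75) (nat_lit 5) (nat_lit 77) (nat_lit 5) (nat_lit 78) (nat_lit 5) (nat_lit 452) (nat_lit 408) (nat_lit 340))) (XT.nd (nat_lit 78) (nat_lit 228) (nat_lit 0) (XT.lf (nat_lit 0) (nat_lit 17865377808) (nat_lit 152) (nat_lit 2795937799) (nat_lit 228) (nat_lit 1118544862) (nat_lit 75) (nat_lit 5) (nat_lit 77) (nat_lit 5) (nat_lit 78) (nat_lit 5) (nat_lit 453) (nat_lit 408)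 (nat_lit 339)) (XT.lf (nat_lit 0) (nat_lit 4886302059) (nat_lit 228) (nat_lit 12359340461) (nat_lit 76) (nat_lit 5214144664) (nat_lit 72) (nat_lit 5) (nat_lit 75) (nat_lit 5) (nat_lit 73) (nat_lit 5) (nat_lit 454) (nat_lit 408) (nat_lit 338))))) (XT.nd (nat_lit 312) (nat_lit 456) (nat_lit 0) (XT.nd (nat_lit 156) (nat_lit 152) (nat_lit 0) (XT.nd (nat_lit 78) (nat_lit 0) (nat_lit 0) (XT.lf (nat_lit 0) (nat_lit 1727720261) (nat_lit 152) (nat_lit 9541092515) (nat_lit 228) (nat_lit 11898231422) (nat_lit 70) (nat_lit 5) (nat_lit 72) (nat_lit 5) (nat_lit 73) (nat_lit 5) (nat_lit 455) (nat_lit 408) (nat_lit 337)) (XT.lf (nat_lit 0) (nat_lit 16904983276) (nat_lit 152) (nat_lit 1250122890) (nat_lit 228) (nat_lit 5745326372) (nat_lit 70) (nat_lit 5) (nat_lit 72) (nat_lit 5) (nat_lit 73) (nat_lit 5) (nat_lit 456) (nat_lit 408) (nat_lit 336))) (XT.nd (nat_lit 78) (nat_lit 0) (nat_lit 0) (XT.lf (nat_lit 0)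 (nat_lit 917839379) (nat_lit 152) (nat_lit 16397143858) (nat_lit 76) (nat_lit 7343674579) (nat_lit 68) (nat_lit 5) (nat_lit 70) (nat_lit 5) (nat_lit 69) (nat_lit 5) (nat_lit 457) (nat_lit 408) (nat_lit 335)) (XT.lf (nat_lit 0) (nat_lit 7838335680) (nat_lit 152) (nat_lit 1083484544) (nat_lit 76) (nat_lit 16522403358) (nat_lit 68) (nat_lit 5) (nat_lit 70) (nat_lit 5) (nat_lit 69) (nat_lit 5) (nat_lit 458) (nat_lit 408) (nat_lit 334)))) (XT.nd (nat_lit 156) (nat_lit 228) (nat_lit 0) (XT.nd (nat_lit 78) (nat_lit 76) (nat_lit 0) (XT.lf (nat_lit 0) (nat_lit 15325526637) (nat_lit 228) (nat_lit 10809925984) (nat_lit 76) (nat_lit 122582618) (nat_lit 66) (nat_lit 5) (nat_lit 69) (nat_lit 5) (nat_lit 67) (nat_lit 4) (nat_lit 459) (nat_lit 408) (nat_lit 333)) (XT.lf (nat_lit 0) (nat_lit 5728714281) (nat_lit 76) (nat_lit 17690368768) (nat_lit 152) (nat_lit 3681855178) (nat_lit 65) (nat_lit 5) (nat_lit 66)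 (nat_lit 5) (nat_lit 67) (nat_lit 4) (nat_lit 460) (nat_lit 408) (nat_lit 332))) (XT.nd (nat_lit 78) (nat_lit 152) (nat_lit 0) (XT.lf (nat_lit 0) (nat_lit 3969315500) (nat_lit 152) (nat_lit 4612075381) (nat_lit 76) (nat_lit 19393336891) (nat_lit 64) (nat_lit 5) (nat_lit 66) (nat_lit 5) (nat_lit 65) (nat_lit 5) (nat_lit 461) (nat_lit 408) (nat_lit 331)) (XT.lf (nat_lit 0) (nat_lit 12085442162) (nat_lit 228) (nat_lit 15586019135) (nat_lit 76) (nat_lit 1207421888) (nat_lit 62) (nat_lit 5) (nat_lit 65) (nat_lit 5) (nat_lit 63) (nat_lit 4) (nat_lit 462) (nat_lit 408) (nat_lit 330)))))) (XT.nd (nat_lit 624) (nat_lit 532) (nat_lit 0) (XT.nd (nat_lit 312) (nat_lit 380) (nat_lit 0) (XT.nd (nat_lit 156) (nat_lit 228) (nat_lit 0) (XT.nd (nat_lit 78) (nat_lit 0) (nat_lit 0) (XT.lf (nat_lit 0) (nat_lit 2322536332) (nat_lit 76) (nat_lit 18520116765) (nat_lit 152) (nat_lit 8973830233) (nat_lit 61) (nat_lit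 5) (nat_lit 62) (nat_lit 5) (nat_lit 63) (nat_lit 4) (nat_lit 463) (nat_lit 408) (nat_lit 329)) (XT.lf (nat_lit 0) (nat_lit 21629584028) (nat_lit 76) (nat_lit 8651455611) (nat_lit 152) (nat_lit 507758909) (nat_lit 61) (nat_lit 5) (nat_lit 62) (nat_lit 5) (nat_lit 63) (nat_lit 4) (nat_lit 464) (nat_lit 408) (nat_lit 328))) (XT.nd (nat_lit 78) (nat_lit 0) (nat_lit 0) (XT.lf (nat_lit 0) (nat_lit 8284655827) (nat_lit 228) (nat_lit 21574749711) (nat_lit 76) (nat_lit 1935216509) (nat_lit 58) (nat_lit 5) (nat_lit 61) (nat_lit 5) (nat_lit 59) (nat_lit 4) (nat_lit 465) (nat_lit 408) (nat_lit 327)) (XT.lf (nat_lit 0) (nat_lit 17779255160) (nat_lit 228) (nat_lit 2146795348) (nat_lit 76) (nat_lit 12910289330) (nat_lit 58) (nat_lit 5) (nat_lit 61) (nat_lit 5) (nat_lit 59) (nat_lit 4) (nat_lit 466) (nat_lit 408) (nat_lit 326)))) (XT.nd (nat_lit 156) (nat_lit 76) (nat_lit 0) (XT.nd (nat_lit 78) (nat_lit 228)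 (nat_lit 0) (XT.lf (nat_lit 0) (nat_lit 18819644548) (nat_lit 76) (nat_lit 9203855055) (nat_lit 152) (nat_lit 5892898832) (nat_lit 57) (nat_lit 5) (nat_lit 58) (nat_lit 5) (nat_lit 59) (nat_lit 4) (nat_lit 467) (nat_lit 408) (nat_lit 325)) (XT.lf (nat_lit 0) (nat_lit 3756130460) (nat_lit 228) (nat_lit 29120084328) (nat_lit 76) (nat_lit 2164034321) (nat_lit 54) (nat_lit 5) (nat_lit 57) (nat_lit 5) (nat_lit 55) (nat_lit 4) (nat_lit 468) (nat_lit 408) (nat_lit 324))) (XT.nd (nat_lit 78) (nat_lit 76) (nat_lit 0) (XT.lf (nat_lit 0) (nat_lit 14081560129) (nat_lit 228) (nat_lit 7982549630) (nat_lit 76) (nat_lit 14131753450) (nat_lit 54) (nat_lit 5) (nat_lit 57) (nat_lit 5) (nat_lit 55) (nat_lit 4) (nat_lit 469) (nat_lit 408) (nat_lit 323)) (XT.lf (nat_lit 0) (nat_lit 14646925018) (nat_lit 76) (nat_lit 10487152881) (nat_lit 152) (nat_lit 12264639835) (nat_lit 53) (nat_lit 5) (nat_lit 54) (nat_lit 5)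 (nat_lit 55) (nat_lit 4) (nat_lit 470) (nat_lit 408) (nat_lit 322))))) (XT.nd (nat_lit 312) (nat_lit 304) (nat_lit 0) (XT.nd (nat_lit 156) (nat_lit 76) (nat_lit 0) (XT.nd (nat_lit 78) (nat_lit 152) (nat_lit 0) (XT.lf (nat_lit 0) (nat_lit 36884903573) (nat_lit 152) (nat_lit 32033057) (nat_lit 0) (nat_lit 1737494782) (nat_lit 53) (nat_lit 5) (nat_lit 55) (nat_lit 4) (nat_lit 53) (nat_lit 4) (nat_lit 471) (nat_lit 408) (nat_lit 321)) (XT.lf (nat_lit 0) (nat_lit 9499009909) (nat_lit 152) (nat_lit 15698787279) (nat_lit 76) (nat_lit 14740675939) (nat_lit 51) (nat_lit 5) (nat_lit 53) (nat_lit 5) (nat_lit 52) (nat_lit 4) (nat_lit 472) (nat_lit 408) (nat_lit 320))) (XT.nd (nat_lit 78) (nat_lit 0) (nat_lit 0) (XT.lf (nat_lit 0) (nat_lit 8655167397) (nat_lit 76) (nat_lit 12735132274) (nat_lit 152) (nat_lit 19889027636) (nat_lit 50) (nat_lit 5) (nat_lit 51) (nat_lit 5) (nat_lit 52) (nat_lit 4) (nat_lit 473)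 (nat_lit 408) (nat_lit 319)) (XT.lf (nat_lit 0) (nat_lit 34135036335) (nat_lit 152) (nat_lit 7944238324) (nat_lit 0) (nat_lit 595005849) (nat_lit 50) (nat_lit 5) (nat_lit 52) (nat_lit 4) (nat_lit 50) (nat_lit 4) (nat_lit 474) (nat_lit 408) (nat_lit 318)))) (XT.nd (nat_lit 156) (nat_lit 76) (nat_lit 0) (XT.nd (nat_lit 78) (nat_lit 76) (nat_lit 0) (XT.lf (nat_lit 0) (nat_lit 3756483784) (nat_lit 152) (nat_lit 25859270548) (nat_lit 76) (nat_lit 14496261741) (nat_lit 48) (nat_lit 5) (nat_lit 50) (nat_lit 5) (nat_lit 49) (nat_lit 4) (nat_lit 475) (nat_lit 408) (nat_lit 317)) (XT.lf (nat_lit 0) (nat_lit 255648582) (nat_lit 76) (nat_lit 16249126447) (nat_lit 152) (nat_lit 29103626806) (nat_lit 47) (nat_lit 5) (nat_lit 48) (nat_lit 5) (nat_lit 49) (nat_lit 4) (nat_lit 476) (nat_lit 408) (nat_lit 316))) (XT.nd (nat_lit 78) (nat_lit 76) (nat_lit 0) (XT.lf (nat_lit 0) (nat_lit 28543772410) (nat_lit 76)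 (nat_lit 1768950561) (nat_lit 152) (nat_lit 16845772166) (nat_lit 47) (nat_lit 5) (nat_lit 48) (nat_lit 5) (nat_lit 49) (nat_lit 4) (nat_lit 477) (nat_lit 408) (nat_lit 315)) (XT.lf (nat_lit 0) (nat_lit 9525933505) (nat_lit 76) (nat_lit 35628455950) (nat_lit 76) (nat_lit 3614537930) (nat_lit 46) (nat_lit 4) (nat_lit 47) (nat_lit 5) (nat_lit 47) (nat_lit 4) (nat_lit 478) (nat_lit 408) (nat_lit 314))))))) (XT.nd (nat_lit 1170) (nat_lit 912) (nat_lit 0) (XT.nd (nat_lit 546) (nat_lit 456) (nat_lit 0) (XT.nd (nat_lit 234) (nat_lit 304) (nat_lit 0) (XT.nd (nat_lit 78) (nat_lit 76) (nat_lit 0) (XT.lf (nat_lit 0) (nat_lit 10283565145) (nat_lit 152) (nat_lit 10948304926) (nat_lit 76) (nat_lit 29203274084) (nat_lit 45) (nat_lit 5) (nat_lit 47) (nat_lit 5) (nat_lit 46) (nat_lit 4) (nat_lit 479) (nat_lit 408) (nat_lit 313)) (XT.nd (nat_lit 78) (nat_lit 0) (nat_lit 0) (XT.lf (nat_lit 0) (nat_lit 19291276298)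 (nat_lit 76) (nat_lit 5750595811) (nat_lit 152) (nat_lit 27125498666) (nat_lit 44) (nat_lit 5) (nat_lit 45) (nat_lit 5) (nat_lit 46) (nat_lit 4) (nat_lit 480) (nat_lit 408) (nat_lit 312)) (XT.lf (nat_lit 0) (nat_lit 40876184045) (nat_lit 152) (nat_lit 2749124784) (nat_lit 0) (nat_lit 10343995696) (nat_lit 44) (nat_lit 5) (nat_lit 46) (nat_lit 4) (nat_lit 44) (nat_lit 4) (nat_lit 481) (nat_lit 408) (nat_lit 311)))) (XT.nd (nat_lit 156) (nat_lit 76) (nat_lit 0) (XT.nd (nat_lit 78) (nat_lit 76) (nat_lit 0) (XT.lf (nat_lit 0) (nat_lit 2141789909) (nat_lit 152) (nat_lit 26154431725) (nat_lit 76) (nat_lit 27536161068) (nat_lit 42) (nat_lit 5) (nat_lit 44) (nat_lit 5) (nat_lit 43) (nat_lit 4) (nat_lit 482) (nat_lit 408) (nat_lit 310)) (XT.lf (nat_lit 0) (nat_lit 5984927809) (nat_lit 76) (nat_lit 11840597384) (nat_lit 152) (nat_lit 39946003066) (nat_lit 41) (nat_lit 5) (nat_lit 42) (nat_lit 5) (nat_lit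 43) (nat_lit 4) (nat_lit 483) (nat_lit 408) (nat_lit 309))) (XT.nd (nat_lit 78) (nat_lit 76) (nat_lit 0) (XT.lf (nat_lit 0) (nat_lit 34814915911) (nat_lit 152) (nat_lit 19265165146) (nat_lit 0) (nat_lit 5701476835) (nat_lit 41) (nat_lit 5) (nat_lit 43) (nat_lit 4) (nat_lit 41) (nat_lit 4) (nat_lit 484) (nat_lit 408) (nat_lit 308)) (XT.lf (nat_lit 0) (nat_lit 15147526963) (nat_lit 76) (nat_lit 37923871755) (nat_lit 76) (nat_lit 8799809378) (nat_lit 40) (nat_lit 4) (nat_lit 41) (nat_lit 5) (nat_lit 41) (nat_lit 4) (nat_lit 485) (nat_lit 408) (nat_lit 307))))) (XT.nd (nat_lit 312) (nat_lit 228) (nat_lit 0) (XT.nd (nat_lit 156) (nat_lit 76) (nat_lit 0) (XT.nd (nat_lit 78) (nat_lit 76) (nat_lit 0) (XT.lf (nat_lit 0) (nat_lit 8232351472) (nat_lit 152) (nat_lit 12257859288) (nat_lit 76) (nat_lit 43552815765) (nat_lit 39) (nat_lit 5) (nat_lit 41) (nat_lit 5) (nat_lit 40) (nat_lit 4) (nat_lit 486) (nat_lit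 408) (nat_lit 306)) (XT.lf (nat_lit 0) (nat_lit 24548372400) (nat_lit 76) (nat_lit 1642938748) (nat_lit 152) (nat_lit 40106365854) (nat_lit 38) (nat_lit 5) (nat_lit 39) (nat_lit 5) (nat_lit 40) (nat_lit 4) (nat_lit 487) (nat_lit 408) (nat_lit 305))) (XT.nd (nat_lit 78) (nat_lit 76) (nat_lit 0) (XT.lf (nat_lit 0) (nat_lit 45530218838) (nat_lit 152) (nat_lit 5345277041) (nat_lit 0) (nat_lit 17765464302) (nat_lit 38) (nat_lit 5) (nat_lit 40) (nat_lit 4) (nat_lit 38) (nat_lit 4) (nat_lit 488) (nat_lit 408) (nat_lit 304)) (XT.lf (nat_lit 0) (nat_lit 33914293781) (nat_lit 76) (nat_lit 32466478531) (nat_lit 76) (nat_lit 4693400360) (nat_lit 37) (nat_lit 4) (nat_lit 38) (nat_lit 5) (nat_lit 38) (nat_lit 4) (nat_lit 489) (nat_lit 408) (nat_lit 303)))) (XT.nd (nat_lit 156) (nat_lit 76) (nat_lit 0) (XT.nd (nat_lit 78) (nat_lit 0) (nat_lit 0) (XT.lf (nat_lit 0) (nat_lit 1492325403) (nat_lit 76) (nat_lit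 12787348179) (nat_lit 152) (nat_lit 59332760475) (nat_lit 35) (nat_lit 5) (nat_lit 36) (nat_lit 5) (nat_lit 37) (nat_lit 4) (nat_lit 490) (nat_lit 408) (nat_lit 302)) (XT.lf (nat_lit 0) (nat_lit 34794579542) (nat_lit 152) (nat_lit 33112347849) (nat_lit 0) (nat_lit 8329288852) (nat_lit 35) (nat_lit 5) (nat_lit 37) (nat_lit 4) (nat_lit 35) (nat_lit 4) (nat_lit 491) (nat_lit 408) (nat_lit 301))) (XT.nd (nat_lit 78) (nat_lit 0) (nat_lit 0) (XT.lf (nat_lit 0) (nat_lit 7865801105) (nat_lit 76) (nat_lit 48790730061) (nat_lit 76) (nat_lit 22318591496) (nat_lit 34) (nat_lit 4) (nat_lit 35) (nat_lit 5) (nat_lit 35) (nat_lit 4) (nat_lit 492) (nat_lit 408) (nat_lit 300)) (XT.lf (nat_lit 0) (nat_lit 52020674334) (nat_lit 76) (nat_lit 28140734562) (nat_lit 76) (nat_lit 1662074211) (nat_lit 34) (nat_lit 4) (nat_lit 35) (nat_lit 5) (nat_lit 35) (nat_lit 4) (nat_lit 493) (nat_lit 408) (nat_lit 299)))))) (XT.nd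 (nat_lit 624) (nat_lit 456) (nat_lit 0) (XT.nd (nat_lit 312) (nat_lit 228) (nat_lit 0) (XT.nd (nat_lit 156) (nat_lit 76) (nat_lit 0) (XT.nd (nat_lit 78) (nat_lit 0) (nat_lit 0) (XT.lf (nat_lit 0) (nat_lit 13672882550) (nat_lit 76) (nat_lit 5916265803) (nat_lit 152) (nat_lit 65199335402) (nat_lit 32) (nat_lit 5) (nat_lit 33) (nat_lit 5) (nat_lit 34) (nat_lit 4) (nat_lit 494) (nat_lit 408) (nat_lit 298)) (XT.lf (nat_lit 0) (nat_lit 42621465174) (nat_lit 152) (nat_lit 27848043339) (nat_lit 0) (nat_lit 17392144196) (nat_lit 32) (nat_lit 5) (nat_lit 34) (nat_lit 4) (nat_lit 32) (nat_lit 4) (nat_lit 495) (nat_lit 408) (nat_lit 297))) (XT.nd (nat_lit 78) (nat_lit 0) (nat_lit 0) (XT.lf (nat_lit 0) (nat_lit 18043305333) (nat_lit 76) (nat_lit 49130715112) (nat_lit 76) (nat_lit 23896028645) (nat_lit 31) (nat_lit 4) (nat_lit 32) (nat_lit 5) (nat_lit 32) (nat_lit 4) (nat_lit 496) (nat_lit 408) (nat_lit 296))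 (XT.lf (nat_lit 0) (nat_lit 67176269198) (nat_lit 76) (nat_lit 26239653351) (nat_lit 76) (nat_lit 999856893) (nat_lit 31) (nat_lit 4) (nat_lit 32) (nat_lit 5) (nat_lit 32) (nat_lit 4) (nat_lit 497) (nat_lit 408) (nat_lit 295)))) (XT.nd (nat_lit 156) (nat_lit 76) (nat_lit 0) (XT.nd (nat_lit 78) (nat_lit 0) (nat_lit 0) (XT.lf (nat_lit 0) (nat_lit 21134640081) (nat_lit 76) (nat_lit 1489410258) (nat_lit 152) (nat_lit 75270739907) (nat_lit 29) (nat_lit 5) (nat_lit 30) (nat_lit 5) (nat_lit 31) (nat_lit 4) (nat_lit 498) (nat_lit 408) (nat_lit 294)) (XT.lf (nat_lit 0) (nat_lit 48237346806) (nat_lit 152) (nat_lit 29077099233) (nat_lit 0) (nat_lit 24190396305) (nat_lit 29) (nat_lit 5) (nat_lit 31) (nat_lit 4) (nat_lit 29) (nat_lit 4) (nat_lit 499) (nat_lit 408) (nat_lit 293))) (XT.nd (nat_lit 78) (nat_lit 0) (nat_lit 0) (XT.lf (nat_lit 0) (nat_lit 21640052979) (nat_lit 76) (nat_lit 53844420202) (nat_lit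 76) (nat_lit 29793265700) (nat_lit 28) (nat_lit 4) (nat_lit 29) (nat_lit 5) (nat_lit 29) (nat_lit 4) (nat_lit 500) (nat_lit 408) (nat_lit 292)) (XT.lf (nat_lit 0) (nat_lit 75884596866) (nat_lit 76) (nat_lit 28692834011) (nat_lit 76) (nat_lit 4637675698) (nat_lit 28) (nat_lit 4) (nat_lit 29) (nat_lit 5) (nat_lit 29) (nat_lit 4) (nat_lit 501) (nat_lit 408) (nat_lit 291))))) (XT.nd (nat_lit 312) (nat_lit 228) (nat_lit 0) (XT.nd (nat_lit 156) (nat_lit 76) (nat_lit 0) (XT.nd (nat_lit 78) (nat_lit 0) (nat_lit 0) (XT.lf (nat_lit 0) (nat_lit 19767334947) (nat_lit 76) (nat_lit 1611351107) (nat_lit 152) (nat_lit 91938660173) (nat_lit 26) (nat_lit 5) (nat_lit 27) (nat_lit 5) (nat_lit 28) (nat_lit 4) (nat_lit 502) (nat_lit 408) (nat_lit 290)) (XT.lf (nat_lit 0) (nat_lit 49523871363) (nat_lit 152) (nat_lit 41440725546) (nat_lit 0) (nat_lit 26607106563) (nat_lit 26) (nat_lit 5) (nat_lit 28) (nat_lit 4) (nat_lit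 26) (nat_lit 4) (nat_lit 503) (nat_lit 408) (nat_lit 289))) (XT.nd (nat_lit 78) (nat_lit 0) (nat_lit 0) (XT.lf (nat_lit 0) (nat_lit 13668514430) (nat_lit 76) (nat_lit 65639372212) (nat_lit 76) (nat_lit 42719313468) (nat_lit 25) (nat_lit 4) (nat_lit 26) (nat_lit 5) (nat_lit 26) (nat_lit 4) (nat_lit 504) (nat_lit 408) (nat_lit 288)) (XT.lf (nat_lit 0) (nat_lit 72955639837) (nat_lit 76) (nat_lit 38319171115) (nat_lit 76) (nat_lit 15395975279) (nat_lit 25) (nat_lit 4) (nat_lit 26) (nat_lit 5) (nat_lit 26) (nat_lit 4) (nat_lit 505) (nat_lit 408) (nat_lit 287)))) (XT.nd (nat_lit 156) (nat_lit 76) (nat_lit 0) (XT.nd (nat_lit 78) (nat_lit 0) (nat_lit 0) (XT.lf (nat_lit 0) (nat_lit 3550882824) (nat_lit 76) (nat_lit 9364759304) (nat_lit 152) (nat_lit 118618152712) (nat_lit 23) (nat_lit 5) (nat_lit 24) (nat_lit 5) (nat_lit 25) (nat_lit 4) (nat_lit 506) (nat_lit 408) (nat_lit 286)) (XT.lf (nat_lit 0) (nat_lit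 43370650400) (nat_lit 152) (nat_lit 71660943150) (nat_lit 0) (nat_lit 21533479949) (nat_lit 23) (nat_lit 5) (nat_lit 25) (nat_lit 4) (nat_lit 23) (nat_lit 4) (nat_lit 507) (nat_lit 408) (nat_lit 285))) (XT.nd (nat_lit 78) (nat_lit 76) (nat_lit 0) (XT.lf (nat_lit 0) (nat_lit 75494461527) (nat_lit 152) (nat_lit 12691441810) (nat_lit 0) (nat_lit 53654710184) (nat_lit 23) (nat_lit 5) (nat_lit 25) (nat_lit 4) (nat_lit 23) (nat_lit 4) (nat_lit 508) (nat_lit 408) (nat_lit 284)) (XT.lf (nat_lit 0) (nat_lit 50839383485) (nat_lit 76) (nat_lit 59171712406) (nat_lit 76) (nat_lit 37329503070) (nat_lit 22) (nat_lit 4) (nat_lit 23) (nat_lit 5) (nat_lit 23) (nat_lit 4) (nat_lit 509) (nat_lit 408) (nat_lit 283))))))))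
noncomputable def xc114 : XT := (XT.nd (nat_lit 2418) (nat_lit 228) (nat_lit 0) (XT.nd (nat_lit 1170) (nat_lit 456) (nat_lit 0) (XT.nd (nat_lit 546) (nat_lit 228) (nat_lit 0) (XT.nd (nat_lit 234) (nat_lit 228) (nat_lit 0) (XT.nd (nat_lit 78) (nat_lit 152) (nat_lit 0) (XT.lf (nat_lit 0) (nat_lit 117973270476) (nat_lit 76) (nat_lit 28488233220) (nat_lit 76) (nat_lit 6643682939) (nat_lit 22) (nat_lit 4) (nat_lit 23) (nat_lit 5) (nat_lit 23) (nat_lit 4) (nat_lit 510) (nat_lit 408) (nat_lit 282)) (XT.nd (nat_lit 78) (nat_lit 0) (nat_lit 0) (XT.lf (nat_lit 0) (nat_lit 25289371831) (nat_lit 152) (nat_lit 129339173541) (nat_lit 0) (nat_lit 4482914924) (nat_lit 20) (nat_lit 5) (nat_lit 22) (nat_lit 4) (nat_lit 20) (nat_lit 4) (nat_lit 511) (nat_lit 408) (nat_lit 281)) (XT.lf (nat_lit 0) (nat_lit 59660794738) (nat_lit 152) (nat_lit 66846242335) (nat_lit 0) (nat_lit 38852315634) (nat_lit 20) (nat_lit 5)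 (nat_lit 22) (nat_lit 4) (nat_lit 20) (nat_lit 4) (nat_lit 512) (nat_lit 408) (nat_lit 280)))) (XT.nd (nat_lit 156) (nat_lit 152) (nat_lit 0) (XT.nd (nat_lit 78) (nat_lit 76) (nat_lit 0) (XT.lf (nat_lit 0) (nat_lit 95744347634) (nat_lit 152) (nat_lit 1241671571) (nat_lit 0) (nat_lit 74933942629) (nat_lit 20) (nat_lit 5) (nat_lit 22) (nat_lit 4) (nat_lit 20) (nat_lit 4) (nat_lit 513) (nat_lit 408) (nat_lit 279)) (XT.lf (nat_lit 0) (nat_lit 69866917807) (nat_lit 76) (nat_lit 64849844324) (nat_lit 76) (nat_lit 44037605127) (nat_lit 19) (nat_lit 4) (nat_lit 20) (nat_lit 5) (nat_lit 20) (nat_lit 4) (nat_lit 514) (nat_lit 408) (nat_lit 278))) (XT.nd (nat_lit 78) (nat_lit 152) (nat_lit 0) (XT.lf (nat_lit 0) (nat_lit 144561856868) (nat_lit 76) (nat_lit 31090936192) (nat_lit 76) (nat_lit 10276950145) (nat_lit 19) (nat_lit 4) (nat_lit 20) (nat_lit 5) (nat_lit 20) (nat_lit 4) (nat_lit 515) (nat_lit 408)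 (nat_lit 277)) (XT.lf (nat_lit 0) (nat_lit 24912026700) (nat_lit 152) (nat_lit 163417315713) (nat_lit 0) (nat_lit 5087598403) (nat_lit 17) (nat_lit 5) (nat_lit 19) (nat_lit 4) (nat_lit 17) (nat_lit 4) (nat_lit 516) (nat_lit 408) (nat_lit 276))))) (XT.nd (nat_lit 312) (nat_lit 152) (nat_lit 0) (XT.nd (nat_lit 156) (nat_lit 76) (nat_lit 0) (XT.nd (nat_lit 78) (nat_lit 0) (nat_lit 0) (XT.lf (nat_lit 0) (nat_lit 62731002770) (nat_lit 152) (nat_lit 95573210197) (nat_lit 0) (nat_lit 42905065478) (nat_lit 17) (nat_lit 5) (nat_lit 19) (nat_lit 4) (nat_lit 17) (nat_lit 4) (nat_lit 517) (nat_lit 408) (nat_lit 275)) (XT.lf (nat_lit 0) (nat_lit 102435371112) (nat_lit 152) (nat_lit 24348143016) (nat_lit 0) (nat_lit 82607996683) (nat_lit 17) (nat_lit 5) (nat_lit 19) (nat_lit 4) (nat_lit 17) (nat_lit 4) (nat_lit 518) (nat_lit 408) (nat_lit 274))) (XT.nd (nat_lit 78) (nat_lit 0) (nat_lit 0) (XT.lf (nat_lit 0)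 (nat_lit 52094829194) (nat_lit 76) (nat_lit 92838183022) (nat_lit 76) (nat_lit 73009439891) (nat_lit 16) (nat_lit 4) (nat_lit 17) (nat_lit 5) (nat_lit 17) (nat_lit 4) (nat_lit 519) (nat_lit 408) (nat_lit 273)) (XT.lf (nat_lit 0) (nat_lit 133194727073) (nat_lit 76) (nat_lit 56767951461) (nat_lit 76) (nat_lit 36937904804) (nat_lit 16) (nat_lit 4) (nat_lit 17) (nat_lit 5) (nat_lit 17) (nat_lit 4) (nat_lit 520) (nat_lit 408) (nat_lit 272)))) (XT.nd (nat_lit 156) (nat_lit 0) (nat_lit 0) (XT.nd (nat_lit 78) (nat_lit 76) (nat_lit 0) (XT.lf (nat_lit 0) (nat_lit 902172682) (nat_lit 152) (nat_lit 17981834110) (nat_lit 76) (nat_lit 217422134633) (nat_lit 15) (nat_lit 5) (nat_lit 17) (nat_lit 5) (nat_lit 16) (nat_lit 4) (nat_lit 521) (nat_lit 408) (nat_lit 271)) (XT.lf (nat_lit 0) (nat_lit 40722742351) (nat_lit 152) (nat_lit 183527790654) (nat_lit 0) (nat_lit 21834675259) (nat_lit 14) (nat_lit 5) (nat_lit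 16) (nat_lit 4) (nat_lit 14) (nat_lit 4) (nat_lit 522) (nat_lit 408) (nat_lit 270))) (XT.nd (nat_lit 78) (nat_lit 0) (nat_lit 0) (XT.lf (nat_lit 0) (nat_lit 83148643476) (nat_lit 152) (nat_lit 108914365873) (nat_lit 0) (nat_lit 64259503969) (nat_lit 14) (nat_lit 5) (nat_lit 16) (nat_lit 4) (nat_lit 14) (nat_lit 4) (nat_lit 523) (nat_lit 408) (nat_lit 269)) (XT.lf (nat_lit 0) (nat_lit 127691273672) (nat_lit 152) (nat_lit 30579525453) (nat_lit 0) (nat_lit 108801112819) (nat_lit 14) (nat_lit 5) (nat_lit 16) (nat_lit 4) (nat_lit 14) (nat_lit 4) (nat_lit 524) (nat_lit 408) (nat_lit 268)))))) (XT.nd (nat_lit 624) (nat_lit 152) (nat_lit 0) (XT.nd (nat_lit 312) (nat_lit 76) (nat_lit 0) (XT.nd (nat_lit 156) (nat_lit 152) (nat_lit 0) (XT.nd (nat_lit 78) (nat_lit 0) (nat_lit 0) (XT.lf (nat_lit 0) (nat_lit 53371462231) (nat_lit 76) (nat_lit 121918502689) (nat_lit 76) (nat_lit 103027369126) (nat_lit 13) (nat_lit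 4) (nat_lit 14) (nat_lit 5) (nat_lit 14) (nat_lit 4) (nat_lit 525) (nat_lit 408) (nat_lit 267)) (XT.lf (nat_lit 0) (nat_lit 142572978690) (nat_lit 76) (nat_lit 83209214214) (nat_lit 76) (nat_lit 64317154258) (nat_lit 13) (nat_lit 4) (nat_lit 14) (nat_lit 5) (nat_lit 14) (nat_lit 4) (nat_lit 526) (nat_lit 408) (nat_lit 266))) (XT.nd (nat_lit 78) (nat_lit 152) (nat_lit 0) (XT.lf (nat_lit 0) (nat_lit 236226311275) (nat_lit 76) (nat_lit 42568647786) (nat_lit 76) (nat_lit 23675705553) (nat_lit 13) (nat_lit 4) (nat_lit 14) (nat_lit 5) (nat_lit 14) (nat_lit 4) (nat_lit 527) (nat_lit 408) (nat_lit 265)) (XT.lf (nat_lit 0) (nat_lit 18700396135) (nat_lit 152) (nat_lit 296023472333) (nat_lit 0) (nat_lit 706317566) (nat_lit 11) (nat_lit 5) (nat_lit 13) (nat_lit 4) (nat_lit 11) (nat_lit 4) (nat_lit 528) (nat_lit 408) (nat_lit 264)))) (XT.nd (nat_lit 156) (nat_lit 76) (nat_lit 0) (XT.nd (nat_lit 78) (nat_lit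 0) (nat_lit 0) (XT.lf (nat_lit 0) (nat_lit 64233822043) (nat_lit 152) (nat_lit 218453764946) (nat_lit 0) (nat_lit 46238981329) (nat_lit 11) (nat_lit 5) (nat_lit 13) (nat_lit 4) (nat_lit 11) (nat_lit 4) (nat_lit 529) (nat_lit 408) (nat_lit 263)) (XT.lf (nat_lit 0) (nat_lit 112040166628) (nat_lit 152) (nat_lit 137013190673) (nat_lit 0) (nat_lit 94044600063) (nat_lit 11) (nat_lit 5) (nat_lit 13) (nat_lit 4) (nat_lit 11) (nat_lit 4) (nat_lit 530) (nat_lit 408) (nat_lit 262))) (XT.nd (nat_lit 78) (nat_lit 76) (nat_lit 0) (XT.lf (nat_lit 0) (nat_lit 162233254522) (nat_lit 152) (nat_lit 51507843382) (nat_lit 0) (nat_lit 144236996669) (nat_lit 11) (nat_lit 5) (nat_lit 13) (nat_lit 4) (nat_lit 11) (nat_lit 4) (nat_lit 531) (nat_lit 408) (nat_lit 261)) (XT.lf (nat_lit 0) (nat_lit 39531103266) (nat_lit 76) (nat_lit 176018681116) (nat_lit 76) (nat_lit 158021764894) (nat_lit 10) (nat_lit 4) (nat_lit 11) (nat_lit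 5) (nat_lit 11) (nat_lit 4) (nat_lit 532) (nat_lit 408) (nat_lit 260))))) (XT.nd (nat_lit 312) (nat_lit 0) (nat_lit 0) (XT.nd (nat_lit 156) (nat_lit 152) (nat_lit 0) (XT.nd (nat_lit 78) (nat_lit 0) (nat_lit 0) (XT.lf (nat_lit 0) (nat_lit 136903434529) (nat_lit 76) (nat_lit 135497668658) (nat_lit 76) (nat_lit 117500125418) (nat_lit 10) (nat_lit 4) (nat_lit 11) (nat_lit 5) (nat_lit 11) (nat_lit 4) (nat_lit 533) (nat_lit 408) (nat_lit 259)) (XT.lf (nat_lit 0) (nat_lit 239137907371) (nat_lit 76) (nat_lit 92953892180) (nat_lit 76) (nat_lit 74955751780) (nat_lit 10) (nat_lit 4) (nat_lit 11) (nat_lit 5) (nat_lit 11) (nat_lit 4) (nat_lit 534) (nat_lit 408) (nat_lit 258))) (XT.nd (nat_lit 78) (nat_lit 152) (nat_lit 0) (XT.lf (nat_lit 0) (nat_lit 346477937204) (nat_lit 76) (nat_lit 48286056977) (nat_lit 76) (nat_lit 30287347852) (nat_lit 10) (nat_lit 4) (nat_lit 11) (nat_lit 5) (nat_lit 11) (nat_lit 4)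 (nat_lit 535) (nat_lit 408) (nat_lit 257)) (XT.lf (nat_lit 0) (nat_lit 15459064114) (nat_lit 76) (nat_lit 862065095) (nat_lit 152) (nat_lit 427609302148) (nat_lit 8) (nat_lit 5) (nat_lit 9) (nat_lit 5) (nat_lit 10) (nat_lit 4) (nat_lit 536) (nat_lit 408) (nat_lit 256)))) (XT.nd (nat_lit 156) (nat_lit 0) (nat_lit 0) (XT.nd (nat_lit 78) (nat_lit 0) (nat_lit 0) (XT.lf (nat_lit 0) (nat_lit 66355715222) (nat_lit 152) (nat_lit 348054176963) (nat_lit 0) (nat_lit 49213080349) (nat_lit 8) (nat_lit 5) (nat_lit 10) (nat_lit 4) (nat_lit 8) (nat_lit 4) (nat_lit 537) (nat_lit 408) (nat_lit 255)) (XT.lf (nat_lit 0) (nat_lit 118903364956) (nat_lit 152) (nat_lit 263635946909) (nat_lit 0) (nat_lit 101760262193) (nat_lit 8) (nat_lit 5) (nat_lit 10) (nat_lit 4) (nat_lit 8) (nat_lit 4) (nat_lit 538) (nat_lit 408) (nat_lit 254))) (XT.nd (nat_lit 78) (nat_lit 0) (nat_lit 0) (XT.lf (nat_lit 0) (nat_lit 174075732612)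 (nat_lit 152) (nat_lit 175002222044) (nat_lit 0) (nat_lit 156932184239) (nat_lit 8) (nat_lit 5) (nat_lit 10) (nat_lit 4) (nat_lit 8) (nat_lit 4) (nat_lit 539) (nat_lit 408) (nat_lit 253)) (XT.lf (nat_lit 0) (nat_lit 232004180970) (nat_lit 152) (nat_lit 81941969691) (nat_lit 0) (nat_lit 214860208206) (nat_lit 8) (nat_lit 5) (nat_lit 10) (nat_lit 4) (nat_lit 8) (nat_lit 4) (nat_lit 540) (nat_lit 408) (nat_lit 252))))))) (XT.nd (nat_lit 52572) (nat_lit 0) (nat_lit 8892) (XT.nd (nat_lit 546) (nat_lit 0) (nat_lit 0) (XT.nd (nat_lit 234) (nat_lit 152) (nat_lit 0) (XT.nd (nat_lit 78) (nat_lit 0) (nat_lit 0) (XT.lf (nat_lit 0) (nat_lit 16287689977) (nat_lit 76) (nat_lit 276793241416) (nat_lit 76) (nat_lit 259648864471) (nat_lit 7) (nat_lit 4) (nat_lit 8) (nat_lit 5) (nat_lit 8) (nat_lit 4) (nat_lit 541) (nat_lit 408) (nat_lit 251)) (XT.nd (nat_lit 78) (nat_lit 0) (nat_lit 0) (XT.lf (nat_lit 0) (nat_lit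 122268838931) (nat_lit 76) (nat_lit 236328030092) (nat_lit 76) (nat_lit 219183268211) (nat_lit 7) (nat_lit 4) (nat_lit 8) (nat_lit 5) (nat_lit 8) (nat_lit 4) (nat_lit 542) (nat_lit 408) (nat_lit 250)) (XT.lf (nat_lit 0) (nat_lit 233544441661) (nat_lit 76) (nat_lit 193841897853) (nat_lit 76) (nat_lit 176696769368) (nat_lit 7) (nat_lit 4) (nat_lit 8) (nat_lit 5) (nat_lit 8) (nat_lit 4) (nat_lit 543) (nat_lit 408) (nat_lit 249)))) (XT.nd (nat_lit 156) (nat_lit 152) (nat_lit 0) (XT.nd (nat_lit 78) (nat_lit 0) (nat_lit 0) (XT.lf (nat_lit 0) (nat_lit 350379440077) (nat_lit 76) (nat_lit 149233687242) (nat_lit 76) (nat_lit 132088209610) (nat_lit 7) (nat_lit 4) (nat_lit 8) (nat_lit 5) (nat_lit 8) (nat_lit 4) (nat_lit 544) (nat_lit 408) (nat_lit 248)) (XT.lf (nat_lit 0) (nat_lit 473052012747) (nat_lit 76) (nat_lit 102397188234) (nat_lit 76) (nat_lit 85251378081) (nat_lit 7) (nat_lit 4) (nat_lit 8) (nat_lit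 5) (nat_lit 8) (nat_lit 4) (nat_lit 545) (nat_lit 408) (nat_lit 247))) (XT.nd (nat_lit 78) (nat_lit 152) (nat_lit 0) (XT.lf (nat_lit 0) (nat_lit 601854237226) (nat_lit 76) (nat_lit 53220885355) (nat_lit 76) (nat_lit 36074758515) (nat_lit 7) (nat_lit 4) (nat_lit 8) (nat_lit 5) (nat_lit 8) (nat_lit 4) (nat_lit 546) (nat_lit 408) (nat_lit 246)) (XT.lf (nat_lit 0) (nat_lit 14182042561) (nat_lit 76) (nat_lit 1100138418) (nat_lit 152) (nat_lit 707816343544) (nat_lit 5) (nat_lit 5) (nat_lit 6) (nat_lit 5) (nat_lit 7) (nat_lit 4) (nat_lit 547) (nat_lit 408) (nat_lit 245))))) (XT.nd (nat_lit 51714) (nat_lit 0) (nat_lit 12996) (XT.nd (nat_lit 156) (nat_lit 0) (nat_lit 0) (XT.nd (nat_lit 78) (nat_lit 0) (nat_lit 0) (XT.lf (nat_lit 0) (nat_lit 70367045188) (nat_lit 152) (nat_lit 632092524386) (nat_lit 0) (nat_lit 54036839768) (nat_lit 5) (nat_lit 5) (nat_lit 7) (nat_lit 4) (nat_lit 5) (nat_lit 4) (nat_lit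 548) (nat_lit 408) (nat_lit 244)) (XT.lf (nat_lit 0) (nat_lit 128222385556) (nat_lit 152) (nat_lit 551449071609) (nat_lit 0) (nat_lit 111891919597) (nat_lit 5) (nat_lit 5) (nat_lit 7) (nat_lit 4) (nat_lit 5) (nat_lit 4) (nat_lit 549) (nat_lit 408) (nat_lit 243))) (XT.nd (nat_lit 51480) (nat_lit 0) (nat_lit 12996) (XT.lf (nat_lit 0) (nat_lit 188968776649) (nat_lit 152) (nat_lit 466776939166) (nat_lit 0) (nat_lit 172638062558) (nat_lit 5) (nat_lit 5) (nat_lit 7) (nat_lit 4) (nat_lit 5) (nat_lit 4) (nat_lit 550) (nat_lit 408) (nat_lit 242)) (XT.lf (nat_lit 0) (nat_lit 353030751) (nat_lit 0) (nat_lit 353030751) (nat_lit 532) (nat_lit 2982146214) (nat_lit 176) (nat_lit 5) (nat_lit 176) (nat_lit 3) (nat_lit 183) (nat_lit 3) (nat_lit 409) (nat_lit 409) (nat_lit 382)))) (XT.nd (nat_lit 156) (nat_lit 0) (nat_lit 0) (XT.nd (nat_lit 78) (nat_lit 0) (nat_lit 0) (XT.lf (nat_lit 0) (nat_lit 2988906561) (nat_lit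 532) (nat_lit 3007360043) (nat_lit 608) (nat_lit 1487195063) (nat_lit 176) (nat_lit 5) (nat_lit 183) (nat_lit 3) (nat_lit 184) (nat_lit 5) (nat_lit 410) (nat_lit 409) (nat_lit 381)) (XT.lf (nat_lit 76) (nat_lit 798564750) (nat_lit 0) (nat_lit 3773626923) (nat_lit 608) (nat_lit 3027303993) (nat_lit 177) (nat_lit 5) (nat_lit 176) (nat_lit 5) (nat_lit 184) (nat_lit 5) (nat_lit 411) (nat_lit 409) (nat_lit 380))) (XT.nd (nat_lit 78) (nat_lit 0) (nat_lit 76) (XT.lf (nat_lit 76) (nat_lit 4845865708) (nat_lit 0) (nat_lit 1347083120) (nat_lit 608) (nat_lit 1530484835) (nat_lit 177) (nat_lit 5) (nat_lit 176) (nat_lit 5) (nat_lit 184) (nat_lit 5) (nat_lit 412) (nat_lit 409) (nat_lit 379)) (XT.lf (nat_lit 76) (nat_lit 1206014359) (nat_lit 0) (nat_lit 6638678015) (nat_lit 608) (nat_lit 11395604) (nat_lit 178) (nat_lit 5) (nat_lit 177) (nat_lit 5) (nat_lit 185) (nat_lit 5) (nat_lit 413) (nat_lit 409) (nat_lit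 378)))))) (XT.nd (nat_lit 624) (nat_lit 2356) (nat_lit 0) (XT.nd (nat_lit 312) (nat_lit 1216) (nat_lit 0) (XT.nd (nat_lit 156) (nat_lit 0) (nat_lit 76) (XT.nd (nat_lit 78) (nat_lit 0) (nat_lit 0) (XT.lf (nat_lit 0) (nat_lit 1518866217) (nat_lit 608) (nat_lit 2504617680) (nat_lit 684) (nat_lit 3971374895) (nat_lit 169) (nat_lit 5) (nat_lit 177) (nat_lit 5) (nat_lit 178) (nat_lit 5) (nat_lit 414) (nat_lit 409) (nat_lit 377)) (XT.lf (nat_lit 76) (nat_lit 1852206066) (nat_lit 0) (nat_lit 1220341196) (nat_lit 684) (nat_lit 5070661639) (nat_lit 170) (nat_lit 5) (nat_lit 169) (nat_lit 5) (nat_lit 178) (nat_lit 5) (nat_lit 415) (nat_lit 409) (nat_lit 376))) (XT.nd (nat_lit 78) (nat_lit 0) (nat_lit 0) (XT.lf (nat_lit 0) (nat_lit 4695720155) (nat_lit 608) (nat_lit 1869064109) (nat_lit 684) (nat_lit 1734615721) (nat_lit 170) (nat_lit 5) (nat_lit 178) (nat_lit 5) (nat_lit 179) (nat_lit 5) (nat_lit 416) (nat_lit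 409) (nat_lit 375)) (XT.lf (nat_lit 76) (nat_lit 2787528532) (nat_lit 0) (nat_lit 3601569227) (nat_lit 684) (nat_lit 2074863759) (nat_lit 171) (nat_lit 5) (nat_lit 170) (nat_lit 5) (nat_lit 179) (nat_lit 5) (nat_lit 417) (nat_lit 409) (nat_lit 374)))) (XT.nd (nat_lit 156) (nat_lit 684) (nat_lit 0) (XT.nd (nat_lit 78) (nat_lit 608) (nat_lit 0) (XT.lf (nat_lit 76) (nat_lit 7687082417) (nat_lit 0) (nat_lit 439926447) (nat_lit 684) (nat_lit 511761603) (nat_lit 171) (nat_lit 5) (nat_lit 170) (nat_lit 5) (nat_lit 179) (nat_lit 5) (nat_lit 418) (nat_lit 409) (nat_lit 373)) (XT.lf (nat_lit 0) (nat_lit 1133871893) (nat_lit 684) (nat_lit 4800895116) (nat_lit 76) (nat_lit 2884656169) (nat_lit 162) (nat_lit 5) (nat_lit 171) (nat_lit 5) (nat_lit 163) (nat_lit 5) (nat_lit 419) (nat_lit 409) (nat_lit 372))) (XT.nd (nat_lit 78) (nat_lit 0) (nat_lit 0) (XT.lf (nat_lit 0) (nat_lit 195221485) (nat_lit 684) (nat_lit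 2609188690) (nat_lit 760) (nat_lit 6206298649) (nat_lit 153) (nat_lit 5) (nat_lit 162) (nat_lit 5) (nat_lit 163) (nat_lit 5) (nat_lit 420) (nat_lit 409) (nat_lit 371)) (XT.lf (nat_lit 0) (nat_lit 4590508218) (nat_lit 760) (nat_lit 3674384696) (nat_lit 76) (nat_lit 945074537) (nat_lit 153) (nat_lit 5) (nat_lit 163) (nat_lit 5) (nat_lit 154) (nat_lit 5) (nat_lit 421) (nat_lit 409) (nat_lit 370))))) (XT.nd (nat_lit 312) (nat_lit 1140) (nat_lit 0) (XT.nd (nat_lit 156) (nat_lit 456) (nat_lit 0) (XT.nd (nat_lit 78) (nat_lit 0) (nat_lit 0) (XT.lf (nat_lit 0) (nat_lit 1677944615) (nat_lit 760) (nat_lit 4795617131) (nat_lit 836) (nat_lit 2945254583) (nat_lit 143) (nat_lit 5) (nat_lit 153) (nat_lit 5) (nat_lit 154) (nat_lit 5) (nat_lit 422) (nat_lit 409) (nat_lit 369)) (XT.lf (nat_lit 0) (nat_lit 7369612623) (nat_lit 760) (nat_lit 1084110527) (nat_lit 836) (nat_lit 1184246121) (nat_lit 143) (nat_lit 5)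 (nat_lit 153) (nat_lit 5) (nat_lit 154) (nat_lit 5) (nat_lit 423) (nat_lit 409) (nat_lit 368))) (XT.nd (nat_lit 78) (nat_lit 0) (nat_lit 0) (XT.lf (nat_lit 0) (nat_lit 686214652) (nat_lit 456) (nat_lit 6387572950) (nat_lit 76) (nat_lit 2791647784) (nat_lit 137) (nat_lit 5) (nat_lit 143) (nat_lit 5) (nat_lit 138) (nat_lit 5) (nat_lit 424) (nat_lit 409) (nat_lit 367)) (XT.lf (nat_lit 0) (nat_lit 2611740510) (nat_lit 456) (nat_lit 607030650) (nat_lit 76) (nat_lit 6884474032) (nat_lit 137) (nat_lit 5) (nat_lit 143) (nat_lit 5) (nat_lit 138) (nat_lit 5) (nat_lit 425) (nat_lit 409) (nat_lit 366)))) (XT.nd (nat_lit 156) (nat_lit 380) (nat_lit 0) (XT.nd (nat_lit 78) (nat_lit 380) (nat_lit 0) (XT.lf (nat_lit 0) (nat_lit 4682287163) (nat_lit 456) (nat_lit 4778514699) (nat_lit 76) (nat_lit 889714119) (nat_lit 132) (nat_lit 5) (nat_lit 138) (nat_lit 5) (nat_lit 133) (nat_lit 5) (nat_lit 426) (nat_lit 409)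 (nat_lit 365)) (XT.lf (nat_lit 0) (nat_lit 1407594912) (nat_lit 380) (nat_lit 5482769541) (nat_lit 456) (nat_lit 3718093039) (nat_lit 127) (nat_lit 5) (nat_lit 132) (nat_lit 5) (nat_lit 133) (nat_lit 5) (nat_lit 427) (nat_lit 409) (nat_lit 364))) (XT.nd (nat_lit 78) (nat_lit 380) (nat_lit 0) (XT.lf (nat_lit 0) (nat_lit 8013866681) (nat_lit 380) (nat_lit 1226294755) (nat_lit 456) (nat_lit 1637575851) (nat_lit 127) (nat_lit 5) (nat_lit 132) (nat_lit 5) (nat_lit 133) (nat_lit 5) (nat_lit 428) (nat_lit 409) (nat_lit 363)) (XT.lf (nat_lit 0) (nat_lit 593215669) (nat_lit 380) (nat_lit 7360459829) (nat_lit 76) (nat_lit 3203197197) (nat_lit 122) (nat_lit 5) (nat_lit 127) (nat_lit 5) (nat_lit 123) (nat_lit 5) (nat_lit 429) (nat_lit 409) (nat_lit 362))))))))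
noncomputable def xc115 : XT := (XT.nd (nat_lit 2418) (nat_lit 2356) (nat_lit 0) (XT.nd (nat_lit 1170) (nat_lit 1824) (nat_lit 0) (XT.nd (nat_lit 546) (nat_lit 1216) (nat_lit 0) (XT.nd (nat_lit 234) (nat_lit 608) (nat_lit 0) (XT.nd (nat_lit 78) (nat_lit 608) (nat_lit 0) (XT.lf (nat_lit 0) (nat_lit 2903238322) (nat_lit 380) (nat_lit 661522679) (nat_lit 76) (nat_lit 7882731400) (nat_lit 122) (nat_lit 5) (nat_lit 127) (nat_lit 5) (nat_lit 123) (nat_lit 5) (nat_lit 430) (nat_lit 409) (nat_lit 361)) (XT.nd (nat_lit 78) (nat_lit 304) (nat_lit 0) (XT.lf (nat_lit 0) (nat_lit 5404074685) (nat_lit 380) (nat_lit 5239033216) (nat_lit 76) (nat_lit 1105775323) (nat_lit 118) (nat_lit 5) (nat_lit 123) (nat_lit 5) (nat_lit 119) (nat_lit 5) (nat_lit 431) (nat_lit 409) (nat_lit 360)) (XT.lf (nat_lit 0) (nat_lit 1947777867) (nat_lit 304) (nat_lit 6139129058) (nat_lit 380) (nat_lit 3975594443) (nat_lit 114) (nat_lit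 5) (nat_lit 118) (nat_lit 5) (nat_lit 119) (nat_lit 5) (nat_lit 432) (nat_lit 409) (nat_lit 359)))) (XT.nd (nat_lit 156) (nat_lit 228) (nat_lit 0) (XT.nd (nat_lit 78) (nat_lit 380) (nat_lit 0) (XT.lf (nat_lit 0) (nat_lit 9622771208) (nat_lit 304) (nat_lit 1327786195) (nat_lit 380) (nat_lit 1438914408) (nat_lit 114) (nat_lit 5) (nat_lit 118) (nat_lit 5) (nat_lit 119) (nat_lit 5) (nat_lit 433) (nat_lit 409) (nat_lit 358)) (XT.lf (nat_lit 0) (nat_lit 1282942878) (nat_lit 380) (nat_lit 7750500705) (nat_lit 76) (nat_lit 3693519056) (nat_lit 109) (nat_lit 5) (nat_lit 114) (nat_lit 5) (nat_lit 110) (nat_lit 5) (nat_lit 434) (nat_lit 409) (nat_lit 357))) (XT.nd (nat_lit 78) (nat_lit 0) (nat_lit 0) (XT.lf (nat_lit 0) (nat_lit 25712448) (nat_lit 228) (nat_lit 4096870313) (nat_lit 304) (nat_lit 8956067985) (nat_lit 106) (nat_lit 5) (nat_lit 109) (nat_lit 5) (nat_lit 110) (nat_lit 5) (nat_lit 435) (nat_lit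 409) (nat_lit 356)) (XT.lf (nat_lit 0) (nat_lit 7215706444) (nat_lit 304) (nat_lit 5054374688) (nat_lit 76) (nat_lit 1172271334) (nat_lit 106) (nat_lit 5) (nat_lit 110) (nat_lit 5) (nat_lit 107) (nat_lit 5) (nat_lit 436) (nat_lit 409) (nat_lit 355))))) (XT.nd (nat_lit 312) (nat_lit 456) (nat_lit 0) (XT.nd (nat_lit 156) (nat_lit 532) (nat_lit 0) (XT.nd (nat_lit 78) (nat_lit 0) (nat_lit 0) (XT.lf (nat_lit 0) (nat_lit 3332457690) (nat_lit 228) (nat_lit 7213198233) (nat_lit 304) (nat_lit 3274478962) (nat_lit 103) (nat_lit 5) (nat_lit 106) (nat_lit 5) (nat_lit 107) (nat_lit 5) (nat_lit 437) (nat_lit 409) (nat_lit 354)) (XT.lf (nat_lit 0) (nat_lit 12263776217) (nat_lit 228) (nat_lit 1827880833) (nat_lit 304) (nat_lit 122675562) (nat_lit 103) (nat_lit 5) (nat_lit 106) (nat_lit 5) (nat_lit 107) (nat_lit 5) (nat_lit 438) (nat_lit 409) (nat_lit 353))) (XT.nd (nat_lit 78) (nat_lit 228) (nat_lit 0) (XT.lf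 (nat_lit 0) (nat_lit 3223522249) (nat_lit 304) (nat_lit 7540890884) (nat_lit 76) (nat_lit 3854402993) (nat_lit 99) (nat_lit 5) (nat_lit 103) (nat_lit 5) (nat_lit 100) (nat_lit 5) (nat_lit 439) (nat_lit 409) (nat_lit 352)) (XT.lf (nat_lit 0) (nat_lit 1551022400) (nat_lit 228) (nat_lit 5235431030) (nat_lit 304) (nat_lit 8254295888) (nat_lit 96) (nat_lit 5) (nat_lit 99) (nat_lit 5) (nat_lit 100) (nat_lit 5) (nat_lit 440) (nat_lit 409) (nat_lit 351)))) (XT.nd (nat_lit 156) (nat_lit 304) (nat_lit 0) (XT.nd (nat_lit 78) (nat_lit 152) (nat_lit 0) (XT.lf (nat_lit 0) (nat_lit 10632642992) (nat_lit 304) (nat_lit 4179455984) (nat_lit 76) (nat_lit 666427810) (nat_lit 96) (nat_lit 5) (nat_lit 100) (nat_lit 5) (nat_lit 97) (nat_lit 5) (nat_lit 441) (nat_lit 409) (nat_lit 350)) (XT.lf (nat_lit 0) (nat_lit 5643113376) (nat_lit 152) (nat_lit 9169970017) (nat_lit 228) (nat_lit 1118015722) (nat_lit 94) (nat_lit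 5) (nat_lit 96) (nat_lit 5) (nat_lit 97) (nat_lit 5) (nat_lit 442) (nat_lit 409) (nat_lit 349))) (XT.nd (nat_lit 78) (nat_lit 228) (nat_lit 0) (XT.lf (nat_lit 0) (nat_lit 2746971296) (nat_lit 228) (nat_lit 393946638) (nat_lit 76) (nat_lit 13261190889) (nat_lit 93) (nat_lit 5) (nat_lit 96) (nat_lit 5) (nat_lit 94) (nat_lit 5) (nat_lit 443) (nat_lit 409) (nat_lit 348)) (XT.lf (nat_lit 0) (nat_lit 6950074246) (nat_lit 304) (nat_lit 6682904005) (nat_lit 76) (nat_lit 3253655035) (nat_lit 90) (nat_lit 5) (nat_lit 94) (nat_lit 5) (nat_lit 91) (nat_lit 5) (nat_lit 444) (nat_lit 409) (nat_lit 347)))))) (XT.nd (nat_lit 624) (nat_lit 836) (nat_lit 0) (XT.nd (nat_lit 312) (nat_lit 380) (nat_lit 0) (XT.nd (nat_lit 156) (nat_lit 456) (nat_lit 0) (XT.nd (nat_lit 78) (nat_lit 0) (nat_lit 0) (XT.lf (nat_lit 0) (nat_lit 3979205109) (nat_lit 152) (nat_lit 7474803155) (nat_lit 228) (nat_lit 5936844426) (nat_lit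 88) (nat_lit 5) (nat_lit 90) (nat_lit 5) (nat_lit 91) (nat_lit 5) (nat_lit 445) (nat_lit 409) (nat_lit 346)) (XT.lf (nat_lit 0) (nat_lit 15360714511) (nat_lit 152) (nat_lit 906582067) (nat_lit 228) (nat_lit 1648780998) (nat_lit 88) (nat_lit 5) (nat_lit 90) (nat_lit 5) (nat_lit 91) (nat_lit 5) (nat_lit 446) (nat_lit 409) (nat_lit 345))) (XT.nd (nat_lit 78) (nat_lit 152) (nat_lit 0) (XT.lf (nat_lit 0) (nat_lit 2971771768) (nat_lit 304) (nat_lit 9511816200) (nat_lit 76) (nat_lit 5971279111) (nat_lit 84) (nat_lit 5) (nat_lit 88) (nat_lit 5) (nat_lit 85) (nat_lit 5) (nat_lit 447) (nat_lit 409) (nat_lit 344)) (XT.lf (nat_lit 0) (nat_lit 2065295049) (nat_lit 152) (nat_lit 5766045965) (nat_lit 228) (nat_lit 11184735717) (nat_lit 82) (nat_lit 5) (nat_lit 84) (nat_lit 5) (nat_lit 85) (nat_lit 5) (nat_lit 448) (nat_lit 409) (nat_lit 343)))) (XT.nd (nat_lit 156) (nat_lit 228) (nat_lit 0) (XT.nd (nat_lit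 78) (nat_lit 152) (nat_lit 0) (XT.lf (nat_lit 0) (nat_lit 13090384732) (nat_lit 228) (nat_lit 5113783102) (nat_lit 76) (nat_lit 1393356199) (nat_lit 82) (nat_lit 5) (nat_lit 85) (nat_lit 5) (nat_lit 83) (nat_lit 5) (nat_lit 449) (nat_lit 409) (nat_lit 342)) (XT.lf (nat_lit 0) (nat_lit 7414772457) (nat_lit 152) (nat_lit 11381868922) (nat_lit 228) (nat_lit 1402191157) (nat_lit 80) (nat_lit 5) (nat_lit 82) (nat_lit 5) (nat_lit 83) (nat_lit 5) (nat_lit 450) (nat_lit 409) (nat_lit 341))) (XT.nd (nat_lit 78) (nat_lit 152) (nat_lit 0) (XT.lf (nat_lit 0) (nat_lit 3893476382) (nat_lit 228) (nat_lit 185045541) (nat_lit 76) (nat_lit 16745488823) (nat_lit 79) (nat_lit 5) (nat_lit 82) (nat_lit 5) (nat_lit 80) (nat_lit 5) (nat_lit 451) (nat_lit 409) (nat_lit 340)) (XT.lf (nat_lit 0) (nat_lit 9651116126) (nat_lit 228) (nat_lit 8120752258) (nat_lit 76) (nat_lit 3695216185) (nat_lit 77) (nat_lit 5) (nat_lit 80)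 (nat_lit 5) (nat_lit 78) (nat_lit 5) (nat_lit 452) (nat_lit 409) (nat_lit 339))))) (XT.nd (nat_lit 312) (nat_lit 304) (nat_lit 0) (XT.nd (nat_lit 156) (nat_lit 380) (nat_lit 0) (XT.nd (nat_lit 78) (nat_lit 0) (nat_lit 0) (XT.lf (nat_lit 0) (nat_lit 5485738518) (nat_lit 152) (nat_lit 10342238127) (nat_lit 228) (nat_lit 6307770039) (nat_lit 75) (nat_lit 5) (nat_lit 77) (nat_lit 5) (nat_lit 78) (nat_lit 5) (nat_lit 453) (nat_lit 409) (nat_lit 338)) (XT.lf (nat_lit 0) (nat_lit 20013681951) (nat_lit 152) (nat_lit 2413694593) (nat_lit 228) (nat_lit 404782012) (nat_lit 75) (nat_lit 5) (nat_lit 77) (nat_lit 5) (nat_lit 78) (nat_lit 5) (nat_lit 454) (nat_lit 409) (nat_lit 337))) (XT.nd (nat_lit 78) (nat_lit 152) (nat_lit 0) (XT.lf (nat_lit 0) (nat_lit 5868123464) (nat_lit 228) (nat_lit 11690004433) (nat_lit 76) (nat_lit 5987732352) (nat_lit 72) (nat_lit 5) (nat_lit 75) (nat_lit 5) (nat_lit 73) (nat_lit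 5) (nat_lit 455) (nat_lit 409) (nat_lit 336)) (XT.lf (nat_lit 0) (nat_lit 3080646372) (nat_lit 152) (nat_lit 9473768237) (nat_lit 228) (nat_lit 11734834711) (nat_lit 70) (nat_lit 5) (nat_lit 72) (nat_lit 5) (nat_lit 73) (nat_lit 5) (nat_lit 456) (nat_lit 409) (nat_lit 335)))) (XT.nd (nat_lit 156) (nat_lit 152) (nat_lit 0) (XT.nd (nat_lit 78) (nat_lit 152) (nat_lit 0) (XT.lf (nat_lit 0) (nat_lit 18956461105) (nat_lit 152) (nat_lit 794172935) (nat_lit 228) (nat_lit 5310394327) (nat_lit 70) (nat_lit 5) (nat_lit 72) (nat_lit 5) (nat_lit 73) (nat_lit 5) (nat_lit 457) (nat_lit 409) (nat_lit 334)) (XT.lf (nat_lit 0) (nat_lit 1656604354) (nat_lit 152) (nat_lit 15981377916) (nat_lit 76) (nat_lit 8218931074) (nat_lit 68) (nat_lit 5) (nat_lit 70) (nat_lit 5) (nat_lit 69) (nat_lit 5) (nat_lit 458) (nat_lit 409) (nat_lit 333))) (XT.nd (nat_lit 78) (nat_lit 0) (nat_lit 0) (XT.lf (nat_lit 0) (nat_lit 40418821)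 (nat_lit 152) (nat_lit 8850343747) (nat_lit 228) (nat_lit 17792614580) (nat_lit 66) (nat_lit 5) (nat_lit 68) (nat_lit 5) (nat_lit 69) (nat_lit 5) (nat_lit 459) (nat_lit 409) (nat_lit 332)) (XT.lf (nat_lit 0) (nat_lit 16746318137) (nat_lit 228) (nat_lit 10168243881) (nat_lit 76) (nat_lit 623618645) (nat_lit 66) (nat_lit 5) (nat_lit 69) (nat_lit 5) (nat_lit 67) (nat_lit 4) (nat_lit 460) (nat_lit 409) (nat_lit 331))))))) (XT.nd (nat_lit 1170) (nat_lit 1140) (nat_lit 0) (XT.nd (nat_lit 546) (nat_lit 608) (nat_lit 0) (XT.nd (nat_lit 234) (nat_lit 304) (nat_lit 0) (XT.nd (nat_lit 78) (nat_lit 228) (nat_lit 0) (XT.lf (nat_lit 0) (nat_lit 7178261004) (nat_lit 76) (nat_lit 18053283400) (nat_lit 152) (nat_lit 3192336251) (nat_lit 65) (nat_lit 5) (nat_lit 66) (nat_lit 5) (nat_lit 67) (nat_lit 4) (nat_lit 461) (nat_lit 409) (nat_lit 330)) (XT.nd (nat_lit 78) (nat_lit 152) (nat_lit 0) (XT.lf (nat_lit 0) (nat_lit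 4788783089) (nat_lit 152) (nat_lit 3714394840) (nat_lit 76) (nat_lit 20839209726) (nat_lit 64) (nat_lit 5) (nat_lit 66) (nat_lit 5) (nat_lit 65) (nat_lit 5) (nat_lit 462) (nat_lit 409) (nat_lit 329)) (XT.lf (nat_lit 0) (nat_lit 13306303203) (nat_lit 228) (nat_lit 15232597742) (nat_lit 76) (nat_lit 1753071795) (nat_lit 62) (nat_lit 5) (nat_lit 65) (nat_lit 5) (nat_lit 63) (nat_lit 4) (nat_lit 463) (nat_lit 409) (nat_lit 328)))) (XT.nd (nat_lit 156) (nat_lit 152) (nat_lit 0) (XT.nd (nat_lit 78) (nat_lit 76) (nat_lit 0) (XT.lf (nat_lit 0) (nat_lit 3553115783) (nat_lit 76) (nat_lit 18936297253) (nat_lit 152) (nat_lit 8787639137) (nat_lit 61) (nat_lit 5) (nat_lit 62) (nat_lit 5) (nat_lit 63) (nat_lit 4) (nat_lit 464) (nat_lit 409) (nat_lit 327)) (XT.lf (nat_lit 0) (nat_lit 69214697) (nat_lit 152) (nat_lit 8528093558) (nat_lit 76) (nat_lit 23702059808) (nat_lit 60) (nat_lit 5) (nat_lit 62) (nat_lit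 5) (nat_lit 61) (nat_lit 5) (nat_lit 465) (nat_lit 409) (nat_lit 326))) (XT.nd (nat_lit 78) (nat_lit 0) (nat_lit 0) (XT.lf (nat_lit 0) (nat_lit 9280555654) (nat_lit 228) (nat_lit 21569078239) (nat_lit 76) (nat_lit 2505615208) (nat_lit 58) (nat_lit 5) (nat_lit 61) (nat_lit 5) (nat_lit 59) (nat_lit 4) (nat_lit 466) (nat_lit 409) (nat_lit 325)) (XT.lf (nat_lit 0) (nat_lit 19222186523) (nat_lit 228) (nat_lit 1221364680) (nat_lit 76) (nat_lit 14006887485) (nat_lit 58) (nat_lit 5) (nat_lit 61) (nat_lit 5) (nat_lit 59) (nat_lit 4) (nat_lit 467) (nat_lit 409) (nat_lit 324))))) (XT.nd (nat_lit 312) (nat_lit 228) (nat_lit 0) (XT.nd (nat_lit 156) (nat_lit 76) (nat_lit 0) (XT.nd (nat_lit 78) (nat_lit 228) (nat_lit 0) (XT.lf (nat_lit 0) (nat_lit 20776739623) (nat_lit 76) (nat_lit 9191388476) (nat_lit 152) (nat_lit 5616898808) (nat_lit 57) (nat_lit 5) (nat_lit 58) (nat_lit 5) (nat_lit 59) (nat_lit 4) (nat_lit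 468) (nat_lit 409) (nat_lit 323)) (XT.lf (nat_lit 0) (nat_lit 4493330935) (nat_lit 228) (nat_lit 29538689775) (nat_lit 76) (nat_lit 2732754130) (nat_lit 54) (nat_lit 5) (nat_lit 57) (nat_lit 5) (nat_lit 55) (nat_lit 4) (nat_lit 469) (nat_lit 409) (nat_lit 322))) (XT.nd (nat_lit 78) (nat_lit 76) (nat_lit 0) (XT.lf (nat_lit 0) (nat_lit 15308870469) (nat_lit 228) (nat_lit 7393678284) (nat_lit 76) (nat_lit 15276929782) (nat_lit 54) (nat_lit 5) (nat_lit 57) (nat_lit 5) (nat_lit 55) (nat_lit 4) (nat_lit 470) (nat_lit 409) (nat_lit 321)) (XT.lf (nat_lit 0) (nat_lit 16351334632) (nat_lit 76) (nat_lit 10552940305) (nat_lit 152) (nat_lit 12338688582) (nat_lit 53) (nat_lit 5) (nat_lit 54) (nat_lit 5) (nat_lit 55) (nat_lit 4) (nat_lit 471) (nat_lit 409) (nat_lit 320)))) (XT.nd (nat_lit 156) (nat_lit 76) (nat_lit 0) (XT.nd (nat_lit 78) (nat_lit 76) (nat_lit 0) (XT.lf (nat_lit 0) (nat_lit 939869750) (nat_lit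 76) (nat_lit 38299812724) (nat_lit 76) (nat_lit 1321929113) (nat_lit 52) (nat_lit 4) (nat_lit 53) (nat_lit 5) (nat_lit 53) (nat_lit 4) (nat_lit 472) (nat_lit 409) (nat_lit 319)) (XT.lf (nat_lit 0) (nat_lit 10468692553) (nat_lit 152) (nat_lit 15539148958) (nat_lit 76) (nat_lit 15902805323) (nat_lit 51) (nat_lit 5) (nat_lit 53) (nat_lit 5) (nat_lit 52) (nat_lit 4) (nat_lit 473) (nat_lit 409) (nat_lit 318))) (XT.nd (nat_lit 78) (nat_lit 0) (nat_lit 0) (XT.lf (nat_lit 0) (nat_lit 10017268328) (nat_lit 76) (nat_lit 12928229443) (nat_lit 152) (nat_lit 20373499039) (nat_lit 50) (nat_lit 5) (nat_lit 51) (nat_lit 5) (nat_lit 52) (nat_lit 4) (nat_lit 474) (nat_lit 409) (nat_lit 317)) (XT.lf (nat_lit 0) (nat_lit 36310940422) (nat_lit 152) (nat_lit 7439819140) (nat_lit 0) (nat_lit 1033765257) (nat_lit 50) (nat_lit 5) (nat_lit 52) (nat_lit 4) (nat_lit 50) (nat_lit 4) (nat_lit 475) (nat_lit 409) (nat_lit 316))))))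 (XT.nd (nat_lit 624) (nat_lit 532) (nat_lit 0) (XT.nd (nat_lit 312) (nat_lit 304) (nat_lit 0) (XT.nd (nat_lit 156) (nat_lit 76) (nat_lit 0) (XT.nd (nat_lit 78) (nat_lit 76) (nat_lit 0) (XT.lf (nat_lit 0) (nat_lit 4412532585) (nat_lit 152) (nat_lit 26249652815) (nat_lit 76) (nat_lit 15632009270) (nat_lit 48) (nat_lit 5) (nat_lit 50) (nat_lit 5) (nat_lit 49) (nat_lit 4) (nat_lit 476) (nat_lit 409) (nat_lit 315)) (XT.lf (nat_lit 0) (nat_lit 1156454509) (nat_lit 76) (nat_lit 16633352009) (nat_lit 152) (nat_lit 30076015318) (nat_lit 47) (nat_lit 5) (nat_lit 48) (nat_lit 5) (nat_lit 49) (nat_lit 4) (nat_lit 477) (nat_lit 409) (nat_lit 314))) (XT.nd (nat_lit 78) (nat_lit 76) (nat_lit 0) (XT.lf (nat_lit 0) (nat_lit 30816697695) (nat_lit 76) (nat_lit 1449559269) (nat_lit 152) (nat_lit 17228258081) (nat_lit 47) (nat_lit 5) (nat_lit 48) (nat_lit 5) (nat_lit 49) (nat_lit 4) (nat_lit 478) (nat_lit 409) (nat_lit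 313)) (XT.lf (nat_lit 0) (nat_lit 10849612669) (nat_lit 76) (nat_lit 36998836132) (nat_lit 76) (nat_lit 3337098477) (nat_lit 46) (nat_lit 4) (nat_lit 47) (nat_lit 5) (nat_lit 47) (nat_lit 4) (nat_lit 479) (nat_lit 409) (nat_lit 312)))) (XT.nd (nat_lit 156) (nat_lit 152) (nat_lit 0) (XT.nd (nat_lit 78) (nat_lit 76) (nat_lit 0) (XT.lf (nat_lit 0) (nat_lit 11220126417) (nat_lit 152) (nat_lit 10674714740) (nat_lit 76) (nat_lit 31040932455) (nat_lit 45) (nat_lit 5) (nat_lit 47) (nat_lit 5) (nat_lit 46) (nat_lit 4) (nat_lit 480) (nat_lit 409) (nat_lit 311)) (XT.lf (nat_lit 0) (nat_lit 21063603523) (nat_lit 76) (nat_lit 5645243180) (nat_lit 152) (nat_lit 28046140371) (nat_lit 44) (nat_lit 5) (nat_lit 45) (nat_lit 5) (nat_lit 46) (nat_lit 4) (nat_lit 481) (nat_lit 409) (nat_lit 310))) (XT.nd (nat_lit 78) (nat_lit 152) (nat_lit 0) (XT.lf (nat_lit 0) (nat_lit 43320959899) (nat_lit 152) (nat_lit 2103360401)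 (nat_lit 0) (nat_lit 11223393318) (nat_lit 44) (nat_lit 5) (nat_lit 46) (nat_lit 4) (nat_lit 44) (nat_lit 4) (nat_lit 482) (nat_lit 409) (nat_lit 309)) (XT.lf (nat_lit 0) (nat_lit 2649248079) (nat_lit 152) (nat_lit 26678320208) (nat_lit 76) (nat_lit 29276408041) (nat_lit 42) (nat_lit 5) (nat_lit 44) (nat_lit 5) (nat_lit 43) (nat_lit 4) (nat_lit 483) (nat_lit 409) (nat_lit 308))))) (XT.nd (nat_lit 312) (nat_lit 304) (nat_lit 0) (XT.nd (nat_lit 156) (nat_lit 152) (nat_lit 0) (XT.nd (nat_lit 78) (nat_lit 0) (nat_lit 0) (XT.lf (nat_lit 0) (nat_lit 7055364834) (nat_lit 76) (nat_lit 12054780566) (nat_lit 152) (nat_lit 41530285337) (nat_lit 41) (nat_lit 5) (nat_lit 42) (nat_lit 5) (nat_lit 43) (nat_lit 4) (nat_lit 484) (nat_lit 409) (nat_lit 307)) (XT.lf (nat_lit 0) (nat_lit 36935893318) (nat_lit 152) (nat_lit 19480837380) (nat_lit 0) (nat_lit 6334887090) (nat_lit 41) (nat_lit 5) (nat_lit 43) (nat_lit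 4) (nat_lit 41) (nat_lit 4) (nat_lit 485) (nat_lit 409) (nat_lit 306))) (XT.nd (nat_lit 78) (nat_lit 76) (nat_lit 0) (XT.lf (nat_lit 0) (nat_lit 16640431495) (nat_lit 76) (nat_lit 39458146160) (nat_lit 76) (nat_lit 8847504284) (nat_lit 40) (nat_lit 4) (nat_lit 41) (nat_lit 5) (nat_lit 41) (nat_lit 4) (nat_lit 486) (nat_lit 409) (nat_lit 305)) (XT.lf (nat_lit 0) (nat_lit 9005625860) (nat_lit 152) (nat_lit 12158285669) (nat_lit 76) (nat_lit 46063177939) (nat_lit 39) (nat_lit 5) (nat_lit 41) (nat_lit 5) (nat_lit 40) (nat_lit 4) (nat_lit 487) (nat_lit 409) (nat_lit 304)))) (XT.nd (nat_lit 156) (nat_lit 228) (nat_lit 0) (XT.nd (nat_lit 78) (nat_lit 0) (nat_lit 0) (XT.lf (nat_lit 0) (nat_lit 26476766207) (nat_lit 76) (nat_lit 1379489747) (nat_lit 152) (nat_lit 41738530657) (nat_lit 38) (nat_lit 5) (nat_lit 39) (nat_lit 5) (nat_lit 40) (nat_lit 4) (nat_lit 488) (nat_lit 409) (nat_lit 303)) (XT.lf (nat_lit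 0) (nat_lit 48150324989) (nat_lit 152) (nat_lit 4933156409) (nat_lit 0) (nat_lit 18972342004) (nat_lit 38) (nat_lit 5) (nat_lit 40) (nat_lit 4) (nat_lit 38) (nat_lit 4) (nat_lit 489) (nat_lit 409) (nat_lit 302))) (XT.nd (nat_lit 78) (nat_lit 152) (nat_lit 0) (XT.lf (nat_lit 0) (nat_lit 36278435139) (nat_lit 76) (nat_lit 33759045334) (nat_lit 76) (nat_lit 4573512566) (nat_lit 37) (nat_lit 4) (nat_lit 38) (nat_lit 5) (nat_lit 38) (nat_lit 4) (nat_lit 490) (nat_lit 409) (nat_lit 301)) (XT.lf (nat_lit 0) (nat_lit 2235756786) (nat_lit 76) (nat_lit 13095208981) (nat_lit 152) (nat_lit 61945220225) (nat_lit 35) (nat_lit 5) (nat_lit 36) (nat_lit 5) (nat_lit 37) (nat_lit 4) (nat_lit 491) (nat_lit 409) (nat_lit 300))))))))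
noncomputable def xc116 : XT := (XT.nd (nat_lit 2418) (nat_lit 760) (nat_lit 0) (XT.nd (nat_lit 1170) (nat_lit 760) (nat_lit 0) (XT.nd (nat_lit 546) (nat_lit 456) (nat_lit 0) (XT.nd (nat_lit 234) (nat_lit 228) (nat_lit 0) (XT.nd (nat_lit 78) (nat_lit 76) (nat_lit 0) (XT.lf (nat_lit 0) (nat_lit 36860483997) (nat_lit 152) (nat_lit 34119861304) (nat_lit 0) (nat_lit 9051368843) (nat_lit 35) (nat_lit 5) (nat_lit 37) (nat_lit 4) (nat_lit 35) (nat_lit 4) (nat_lit 492) (nat_lit 409) (nat_lit 299)) (XT.nd (nat_lit 78) (nat_lit 0) (nat_lit 0) (XT.lf (nat_lit 0) (nat_lit 8896741808) (nat_lit 76) (nat_lit 50913214742) (nat_lit 76) (nat_lit 23097888363) (nat_lit 34) (nat_lit 4) (nat_lit 35) (nat_lit 5) (nat_lit 35) (nat_lit 4) (nat_lit 493) (nat_lit 409) (nat_lit 298)) (XT.lf (nat_lit 0) (nat_lit 55228994383) (nat_lit 76) (nat_lit 29245817174) (nat_lit 76) (nat_lit 1424575344) (nat_lit 34) (nat_lit 4) (nat_lit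 35) (nat_lit 5) (nat_lit 35) (nat_lit 4) (nat_lit 494) (nat_lit 409) (nat_lit 297)))) (XT.nd (nat_lit 156) (nat_lit 76) (nat_lit 0) (XT.nd (nat_lit 78) (nat_lit 0) (nat_lit 0) (XT.lf (nat_lit 0) (nat_lit 14964117364) (nat_lit 76) (nat_lit 5909537737) (nat_lit 152) (nat_lit 68138996972) (nat_lit 32) (nat_lit 5) (nat_lit 33) (nat_lit 5) (nat_lit 34) (nat_lit 4) (nat_lit 495) (nat_lit 409) (nat_lit 296)) (XT.lf (nat_lit 0) (nat_lit 45047560193) (nat_lit 152) (nat_lit 28651756898) (nat_lit 0) (nat_lit 18540663923) (nat_lit 32) (nat_lit 5) (nat_lit 34) (nat_lit 4) (nat_lit 32) (nat_lit 4) (nat_lit 496) (nat_lit 409) (nat_lit 295))) (XT.nd (nat_lit 78) (nat_lit 0) (nat_lit 0) (XT.lf (nat_lit 0) (nat_lit 19524664230) (nat_lit 76) (nat_lit 51298073179) (nat_lit 76) (nat_lit 24786310252) (nat_lit 31) (nat_lit 4) (nat_lit 32) (nat_lit 5) (nat_lit 32) (nat_lit 4) (nat_lit 497) (nat_lit 409) (nat_lit 294))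 (XT.lf (nat_lit 0) (nat_lit 71086695640) (nat_lit 76) (nat_lit 27276228695) (nat_lit 76) (nat_lit 759830857) (nat_lit 31) (nat_lit 4) (nat_lit 32) (nat_lit 5) (nat_lit 32) (nat_lit 4) (nat_lit 498) (nat_lit 409) (nat_lit 293))))) (XT.nd (nat_lit 312) (nat_lit 228) (nat_lit 0) (XT.nd (nat_lit 156) (nat_lit 76) (nat_lit 0) (XT.nd (nat_lit 78) (nat_lit 0) (nat_lit 0) (XT.lf (nat_lit 0) (nat_lit 22743223536) (nat_lit 76) (nat_lit 1288013329) (nat_lit 152) (nat_lit 78744491025) (nat_lit 29) (nat_lit 5) (nat_lit 30) (nat_lit 5) (nat_lit 31) (nat_lit 4) (nat_lit 499) (nat_lit 409) (nat_lit 292)) (XT.lf (nat_lit 0) (nat_lit 50916158026) (nat_lit 152) (nat_lit 29996338715) (nat_lit 0) (nat_lit 25654237987) (nat_lit 29) (nat_lit 5) (nat_lit 31) (nat_lit 4) (nat_lit 29) (nat_lit 4) (nat_lit 500) (nat_lit 409) (nat_lit 291))) (XT.nd (nat_lit 78) (nat_lit 0) (nat_lit 0) (XT.lf (nat_lit 0) (nat_lit 23248048278)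 (nat_lit 76) (nat_lit 56273093047) (nat_lit 76) (nat_lit 31007359856) (nat_lit 28) (nat_lit 4) (nat_lit 29) (nat_lit 5) (nat_lit 29) (nat_lit 4) (nat_lit 501) (nat_lit 409) (nat_lit 290)) (XT.lf (nat_lit 0) (nat_lit 80179772091) (nat_lit 76) (nat_lit 29876477460) (nat_lit 76) (nat_lit 4607112693) (nat_lit 28) (nat_lit 4) (nat_lit 29) (nat_lit 5) (nat_lit 29) (nat_lit 4) (nat_lit 502) (nat_lit 409) (nat_lit 289)))) (XT.nd (nat_lit 156) (nat_lit 76) (nat_lit 0) (XT.nd (nat_lit 78) (nat_lit 0) (nat_lit 0) (XT.lf (nat_lit 0) (nat_lit 21256833923) (nat_lit 76) (nat_lit 1440559896) (nat_lit 152) (nat_lit 96273328957) (nat_lit 26) (nat_lit 5) (nat_lit 27) (nat_lit 5) (nat_lit 28) (nat_lit 4) (nat_lit 503) (nat_lit 409) (nat_lit 288)) (XT.lf (nat_lit 0) (nat_lit 52241681957) (nat_lit 152) (nat_lit 43027334607) (nat_lit 0) (nat_lit 28169189239) (nat_lit 26) (nat_lit 5) (nat_lit 28) (nat_lit 4) (nat_lit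 26) (nat_lit 4) (nat_lit 504) (nat_lit 409) (nat_lit 287))) (XT.nd (nat_lit 78) (nat_lit 0) (nat_lit 0) (XT.lf (nat_lit 0) (nat_lit 14829537896) (nat_lit 76) (nat_lit 68681311171) (nat_lit 76) (nat_lit 44605830748) (nat_lit 25) (nat_lit 4) (nat_lit 26) (nat_lit 5) (nat_lit 26) (nat_lit 4) (nat_lit 505) (nat_lit 409) (nat_lit 286)) (XT.lf (nat_lit 0) (nat_lit 77058276824) (nat_lit 76) (nat_lit 40006530002) (nat_lit 76) (nat_lit 15928204146) (nat_lit 25) (nat_lit 4) (nat_lit 26) (nat_lit 5) (nat_lit 26) (nat_lit 4) (nat_lit 506) (nat_lit 409) (nat_lit 285)))))) (XT.nd (nat_lit 624) (nat_lit 380) (nat_lit 0) (XT.nd (nat_lit 312) (nat_lit 152) (nat_lit 0) (XT.nd (nat_lit 156) (nat_lit 76) (nat_lit 0) (XT.nd (nat_lit 78) (nat_lit 0) (nat_lit 0) (XT.lf (nat_lit 0) (nat_lit 4183428360) (nat_lit 76) (nat_lit 9604115128) (nat_lit 152) (nat_lit 124311633494) (nat_lit 23) (nat_lit 5) (nat_lit 24) (nat_lit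 5) (nat_lit 25) (nat_lit 4) (nat_lit 507) (nat_lit 409) (nat_lit 284)) (XT.lf (nat_lit 0) (nat_lit 45757937916) (nat_lit 152) (nat_lit 74803289828) (nat_lit 0) (nat_lit 22821160121) (nat_lit 23) (nat_lit 5) (nat_lit 25) (nat_lit 4) (nat_lit 23) (nat_lit 4) (nat_lit 508) (nat_lit 409) (nat_lit 283))) (XT.nd (nat_lit 78) (nat_lit 76) (nat_lit 0) (XT.lf (nat_lit 0) (nat_lit 79477522695) (nat_lit 152) (nat_lit 12906299158) (nat_lit 0) (nat_lit 56538403954) (nat_lit 23) (nat_lit 5) (nat_lit 25) (nat_lit 4) (nat_lit 23) (nat_lit 4) (nat_lit 509) (nat_lit 409) (nat_lit 282)) (XT.lf (nat_lit 0) (nat_lit 53794297808) (nat_lit 76) (nat_lit 61922217338) (nat_lit 76) (nat_lit 38980869125) (nat_lit 22) (nat_lit 4) (nat_lit 23) (nat_lit 5) (nat_lit 23) (nat_lit 4) (nat_lit 510) (nat_lit 409) (nat_lit 281)))) (XT.nd (nat_lit 156) (nat_lit 0) (nat_lit 0) (XT.nd (nat_lit 78) (nat_lit 152) (nat_lit 0) (XT.lf (nat_lit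 0) (nat_lit 124265215094) (nat_lit 76) (nat_lit 29714472796) (nat_lit 76) (nat_lit 6771001278) (nat_lit 22) (nat_lit 4) (nat_lit 23) (nat_lit 5) (nat_lit 23) (nat_lit 4) (nat_lit 511) (nat_lit 409) (nat_lit 280)) (XT.lf (nat_lit 0) (nat_lit 26751945206) (nat_lit 152) (nat_lit 135406087595) (nat_lit 0) (nat_lit 4899094049) (nat_lit 20) (nat_lit 5) (nat_lit 22) (nat_lit 4) (nat_lit 20) (nat_lit 4) (nat_lit 512) (nat_lit 409) (nat_lit 279))) (XT.nd (nat_lit 78) (nat_lit 0) (nat_lit 0) (XT.lf (nat_lit 0) (nat_lit 62832505697) (nat_lit 152) (nat_lit 69807559573) (nat_lit 0) (nat_lit 40977820348) (nat_lit 20) (nat_lit 5) (nat_lit 22) (nat_lit 4) (nat_lit 20) (nat_lit 4) (nat_lit 513) (nat_lit 409) (nat_lit 278)) (XT.lf (nat_lit 0) (nat_lit 100711251894) (nat_lit 152) (nat_lit 940902883) (nat_lit 0) (nat_lit 78854819696) (nat_lit 20) (nat_lit 5) (nat_lit 22) (nat_lit 4) (nat_lit 20) (nat_lit 4) (nat_lit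 514) (nat_lit 409) (nat_lit 277))))) (XT.nd (nat_lit 312) (nat_lit 152) (nat_lit 0) (XT.nd (nat_lit 156) (nat_lit 152) (nat_lit 0) (XT.nd (nat_lit 78) (nat_lit 0) (nat_lit 0) (XT.lf (nat_lit 0) (nat_lit 73717263508) (nat_lit 76) (nat_lit 67912040858) (nat_lit 76) (nat_lit 46053944994) (nat_lit 19) (nat_lit 4) (nat_lit 20) (nat_lit 5) (nat_lit 20) (nat_lit 4) (nat_lit 515) (nat_lit 409) (nat_lit 276)) (XT.lf (nat_lit 0) (nat_lit 152129949530) (nat_lit 76) (nat_lit 32473772828) (nat_lit 76) (nat_lit 10614092520) (nat_lit 19) (nat_lit 4) (nat_lit 20) (nat_lit 5) (nat_lit 20) (nat_lit 4) (nat_lit 516) (nat_lit 409) (nat_lit 275))) (XT.nd (nat_lit 78) (nat_lit 0) (nat_lit 0) (XT.lf (nat_lit 0) (nat_lit 26328525243) (nat_lit 152) (nat_lit 171242371886) (nat_lit 0) (nat_lit 5508344956) (nat_lit 17) (nat_lit 5) (nat_lit 19) (nat_lit 4) (nat_lit 17) (nat_lit 4) (nat_lit 517) (nat_lit 409) (nat_lit 274))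 (XT.lf (nat_lit 0) (nat_lit 66030312154) (nat_lit 152) (nat_lit 100022528218) (nat_lit 0) (nat_lit 45208763164) (nat_lit 17) (nat_lit 5) (nat_lit 19) (nat_lit 4) (nat_lit 17) (nat_lit 4) (nat_lit 518) (nat_lit 409) (nat_lit 273)))) (XT.nd (nat_lit 156) (nat_lit 76) (nat_lit 0) (XT.nd (nat_lit 78) (nat_lit 76) (nat_lit 0) (XT.lf (nat_lit 0) (nat_lit 107712148474) (nat_lit 152) (nat_lit 25251890654) (nat_lit 0) (nat_lit 86889295958) (nat_lit 17) (nat_lit 5) (nat_lit 19) (nat_lit 4) (nat_lit 17) (nat_lit 4) (nat_lit 519) (nat_lit 409) (nat_lit 272)) (XT.lf (nat_lit 0) (nat_lit 55008171142) (nat_lit 76) (nat_lit 97323937238) (nat_lit 76) (nat_lit 76499843269) (nat_lit 16) (nat_lit 4) (nat_lit 17) (nat_lit 5) (nat_lit 17) (nat_lit 4) (nat_lit 520) (nat_lit 409) (nat_lit 271))) (XT.nd (nat_lit 78) (nat_lit 76) (nat_lit 0) (XT.lf (nat_lit 0) (nat_lit 140148368653) (nat_lit 76) (nat_lit 59457630047)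 (nat_lit 76) (nat_lit 38632353742) (nat_lit 16) (nat_lit 4) (nat_lit 17) (nat_lit 5) (nat_lit 17) (nat_lit 4) (nat_lit 521) (nat_lit 409) (nat_lit 270)) (XT.lf (nat_lit 0) (nat_lit 1087821382) (nat_lit 152) (nat_lit 18596368506) (nat_lit 76) (nat_lit 228430230926) (nat_lit 15) (nat_lit 5) (nat_lit 17) (nat_lit 5) (nat_lit 16) (nat_lit 4) (nat_lit 522) (nat_lit 409) (nat_lit 269))))))) (XT.nd (nat_lit 1170) (nat_lit 228) (nat_lit 0) (XT.nd (nat_lit 546) (nat_lit 228) (nat_lit 0) (XT.nd (nat_lit 234) (nat_lit 228) (nat_lit 0) (XT.nd (nat_lit 78) (nat_lit 0) (nat_lit 0) (XT.lf (nat_lit 0) (nat_lit 42899311328) (nat_lit 152) (nat_lit 192419514023) (nat_lit 0) (nat_lit 23063621086) (nat_lit 14) (nat_lit 5) (nat_lit 16) (nat_lit 4) (nat_lit 14) (nat_lit 4) (nat_lit 523) (nat_lit 409) (nat_lit 268)) (XT.nd (nat_lit 78) (nat_lit 0) (nat_lit 0) (XT.lf (nat_lit 0) (nat_lit 87439820277) (nat_lit 152) (nat_lit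 114088973535) (nat_lit 0) (nat_lit 67603157324) (nat_lit 14) (nat_lit 5) (nat_lit 16) (nat_lit 4) (nat_lit 14) (nat_lit 4) (nat_lit 524) (nat_lit 409) (nat_lit 267)) (XT.lf (nat_lit 0) (nat_lit 134203213191) (nat_lit 152) (nat_lit 31850301124) (nat_lit 0) (nat_lit 114365623847) (nat_lit 14) (nat_lit 5) (nat_lit 16) (nat_lit 4) (nat_lit 14) (nat_lit 4) (nat_lit 525) (nat_lit 409) (nat_lit 266)))) (XT.nd (nat_lit 156) (nat_lit 152) (nat_lit 0) (XT.nd (nat_lit 78) (nat_lit 0) (nat_lit 0) (XT.lf (nat_lit 0) (nat_lit 56294071418) (nat_lit 76) (nat_lit 127885668283) (nat_lit 76) (nat_lit 108047196661) (nat_lit 13) (nat_lit 4) (nat_lit 14) (nat_lit 5) (nat_lit 14) (nat_lit 4) (nat_lit 526) (nat_lit 409) (nat_lit 265)) (XT.lf (nat_lit 0) (nat_lit 149943566745) (nat_lit 76) (nat_lit 87247046790) (nat_lit 76) (nat_lit 67407734903) (nat_lit 13) (nat_lit 4) (nat_lit 14) (nat_lit 5) (nat_lit 14) (nat_lit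 4) (nat_lit 527) (nat_lit 409) (nat_lit 264))) (XT.nd (nat_lit 78) (nat_lit 152) (nat_lit 0) (XT.lf (nat_lit 0) (nat_lit 248268045048) (nat_lit 76) (nat_lit 44580291476) (nat_lit 76) (nat_lit 24740179337) (nat_lit 13) (nat_lit 4) (nat_lit 14) (nat_lit 5) (nat_lit 14) (nat_lit 4) (nat_lit 528) (nat_lit 409) (nat_lit 263)) (XT.lf (nat_lit 0) (nat_lit 19750831822) (nat_lit 152) (nat_lit 310590331183) (nat_lit 0) (nat_lit 854761076) (nat_lit 11) (nat_lit 5) (nat_lit 13) (nat_lit 4) (nat_lit 11) (nat_lit 4) (nat_lit 529) (nat_lit 409) (nat_lit 262))))) (XT.nd (nat_lit 312) (nat_lit 152) (nat_lit 0) (XT.nd (nat_lit 156) (nat_lit 76) (nat_lit 0) (XT.nd (nat_lit 78) (nat_lit 0) (nat_lit 0) (XT.lf (nat_lit 0) (nat_lit 67555433031) (nat_lit 152) (nat_lit 229153296273) (nat_lit 0) (nat_lit 48658670997) (nat_lit 11) (nat_lit 5) (nat_lit 13) (nat_lit 4) (nat_lit 11) (nat_lit 4) (nat_lit 530) (nat_lit 409)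 (nat_lit 261)) (XT.lf (nat_lit 0) (nat_lit 117746860565) (nat_lit 152) (nat_lit 143651319806) (nat_lit 0) (nat_lit 98849440163) (nat_lit 11) (nat_lit 5) (nat_lit 13) (nat_lit 4) (nat_lit 11) (nat_lit 4) (nat_lit 531) (nat_lit 409) (nat_lit 260))) (XT.nd (nat_lit 78) (nat_lit 76) (nat_lit 0) (XT.lf (nat_lit 0) (nat_lit 170444617825) (nat_lit 152) (nat_lit 53880825646) (nat_lit 0) (nat_lit 151546570404) (nat_lit 11) (nat_lit 5) (nat_lit 13) (nat_lit 4) (nat_lit 11) (nat_lit 4) (nat_lit 532) (nat_lit 409) (nat_lit 259)) (XT.lf (nat_lit 0) (nat_lit 41706803659) (nat_lit 76) (nat_lit 184718532088) (nat_lit 76) (nat_lit 165819887507) (nat_lit 10) (nat_lit 4) (nat_lit 11) (nat_lit 5) (nat_lit 11) (nat_lit 4) (nat_lit 533) (nat_lit 409) (nat_lit 258)))) (XT.nd (nat_lit 156) (nat_lit 152) (nat_lit 0) (XT.nd (nat_lit 78) (nat_lit 0) (nat_lit 0) (XT.lf (nat_lit 0) (nat_lit 143938268378) (nat_lit 76) (nat_lit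 142176282487) (nat_lit 76) (nat_lit 123277069182) (nat_lit 10) (nat_lit 4) (nat_lit 11) (nat_lit 5) (nat_lit 11) (nat_lit 4) (nat_lit 534) (nat_lit 409) (nat_lit 257)) (XT.lf (nat_lit 0) (nat_lit 251275433333) (nat_lit 76) (nat_lit 97509901453) (nat_lit 76) (nat_lit 78610146506) (nat_lit 10) (nat_lit 4) (nat_lit 11) (nat_lit 5) (nat_lit 11) (nat_lit 4) (nat_lit 535) (nat_lit 409) (nat_lit 256))) (XT.nd (nat_lit 78) (nat_lit 152) (nat_lit 0) (XT.lf (nat_lit 0) (nat_lit 363973863201) (nat_lit 76) (nat_lit 50613040458) (nat_lit 76) (nat_lit 31712769661) (nat_lit 10) (nat_lit 4) (nat_lit 11) (nat_lit 5) (nat_lit 11) (nat_lit 4) (nat_lit 536) (nat_lit 409) (nat_lit 255)) (XT.lf (nat_lit 0) (nat_lit 16404072997) (nat_lit 76) (nat_lit 817797772) (nat_lit 152) (nat_lit 448900847605) (nat_lit 8) (nat_lit 5) (nat_lit 9) (nat_lit 5) (nat_lit 10) (nat_lit 4) (nat_lit 537) (nat_lit 409) (nat_lit 254))))))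 (XT.nd (nat_lit 624) (nat_lit 152) (nat_lit 0) (XT.nd (nat_lit 312) (nat_lit 76) (nat_lit 0) (XT.nd (nat_lit 156) (nat_lit 0) (nat_lit 0) (XT.nd (nat_lit 78) (nat_lit 0) (nat_lit 0) (XT.lf (nat_lit 0) (nat_lit 69755452601) (nat_lit 152) (nat_lit 365290289497) (nat_lit 0) (nat_lit 51754281199) (nat_lit 8) (nat_lit 5) (nat_lit 10) (nat_lit 4) (nat_lit 8) (nat_lit 4) (nat_lit 538) (nat_lit 409) (nat_lit 253)) (XT.lf (nat_lit 0) (nat_lit 124926582364) (nat_lit 152) (nat_lit 276659081098) (nat_lit 0) (nat_lit 106924986571) (nat_lit 8) (nat_lit 5) (nat_lit 10) (nat_lit 4) (nat_lit 8) (nat_lit 4) (nat_lit 539) (nat_lit 409) (nat_lit 252))) (XT.nd (nat_lit 78) (nat_lit 0) (nat_lit 0) (XT.lf (nat_lit 0) (nat_lit 182853851776) (nat_lit 152) (nat_lit 183601225379) (nat_lit 0) (nat_lit 164851851802) (nat_lit 8) (nat_lit 5) (nat_lit 10) (nat_lit 4) (nat_lit 8) (nat_lit 4) (nat_lit 540) (nat_lit 409) (nat_lit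 251)) (XT.lf (nat_lit 0) (nat_lit 243675182908) (nat_lit 152) (nat_lit 85895156016) (nat_lit 0) (nat_lit 225672797998) (nat_lit 8) (nat_lit 5) (nat_lit 10) (nat_lit 4) (nat_lit 8) (nat_lit 4) (nat_lit 541) (nat_lit 409) (nat_lit 250)))) (XT.nd (nat_lit 156) (nat_lit 0) (nat_lit 0) (XT.nd (nat_lit 78) (nat_lit 0) (nat_lit 0) (XT.lf (nat_lit 0) (nat_lit 17243665472) (nat_lit 76) (nat_lit 290560944923) (nat_lit 76) (nat_lit 272558193409) (nat_lit 7) (nat_lit 4) (nat_lit 8) (nat_lit 5) (nat_lit 8) (nat_lit 4) (nat_lit 542) (nat_lit 409) (nat_lit 249)) (XT.lf (nat_lit 0) (nat_lit 128517129445) (nat_lit 76) (nat_lit 248075899630) (nat_lit 76) (nat_lit 230072798969) (nat_lit 7) (nat_lit 4) (nat_lit 8) (nat_lit 5) (nat_lit 8) (nat_lit 4) (nat_lit 543) (nat_lit 409) (nat_lit 248))) (XT.nd (nat_lit 78) (nat_lit 0) (nat_lit 0) (XT.lf (nat_lit 0) (nat_lit 245350090951) (nat_lit 76) (nat_lit 203468724206)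 (nat_lit 76) (nat_lit 185465291024) (nat_lit 7) (nat_lit 4) (nat_lit 8) (nat_lit 5) (nat_lit 8) (nat_lit 4) (nat_lit 544) (nat_lit 409) (nat_lit 247)) (XT.lf (nat_lit 0) (nat_lit 368020723706) (nat_lit 76) (nat_lit 156633211090) (nat_lit 76) (nat_lit 138629461222) (nat_lit 7) (nat_lit 4) (nat_lit 8) (nat_lit 5) (nat_lit 8) (nat_lit 4) (nat_lit 545) (nat_lit 409) (nat_lit 246))))) (XT.nd (nat_lit 312) (nat_lit 0) (nat_lit 0) (XT.nd (nat_lit 156) (nat_lit 152) (nat_lit 0) (XT.nd (nat_lit 78) (nat_lit 0) (nat_lit 0) (XT.lf (nat_lit 0) (nat_lit 496821100647) (nat_lit 76) (nat_lit 107457847156) (nat_lit 76) (nat_lit 89453795681) (nat_lit 7) (nat_lit 4) (nat_lit 8) (nat_lit 5) (nat_lit 8) (nat_lit 4) (nat_lit 546) (nat_lit 409) (nat_lit 245)) (XT.lf (nat_lit 0) (nat_lit 632057889337) (nat_lit 76) (nat_lit 55825548204) (nat_lit 76) (nat_lit 37821209485) (nat_lit 7) (nat_lit 4) (nat_lit 8) (nat_lit 5)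 (nat_lit 8) (nat_lit 4) (nat_lit 547) (nat_lit 409) (nat_lit 244))) (XT.nd (nat_lit 78) (nat_lit 0) (nat_lit 0) (XT.lf (nat_lit 0) (nat_lit 15002099718) (nat_lit 76) (nat_lit 1098735405) (nat_lit 152) (nat_lit 743149888205) (nat_lit 5) (nat_lit 5) (nat_lit 6) (nat_lit 5) (nat_lit 7) (nat_lit 4) (nat_lit 548) (nat_lit 409) (nat_lit 243)) (XT.lf (nat_lit 0) (nat_lit 73938183936) (nat_lit 152) (nat_lit 663589720384) (nat_lit 0) (nat_lit 56790686008) (nat_lit 5) (nat_lit 5) (nat_lit 7) (nat_lit 4) (nat_lit 5) (nat_lit 4) (nat_lit 549) (nat_lit 409) (nat_lit 242)))) (XT.nd (nat_lit 51636) (nat_lit 0) (nat_lit 12996) (XT.nd (nat_lit 51558) (nat_lit 0) (nat_lit 12996) (XT.lf (nat_lit 0) (nat_lit 134683777680) (nat_lit 152) (nat_lit 578919210693) (nat_lit 0) (nat_lit 117536043435) (nat_lit 5) (nat_lit 5) (nat_lit 7) (nat_lit 4) (nat_lit 5) (nat_lit 4) (nat_lit 550) (nat_lit 409) (nat_lit 241)) (XT.lf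 (nat_lit 0) (nat_lit 1117582857) (nat_lit 0) (nat_lit 1117582857) (nat_lit 532) (nat_lit 1562476732) (nat_lit 176) (nat_lit 5) (nat_lit 176) (nat_lit 3) (nat_lit 183) (nat_lit 3) (nat_lit 410) (nat_lit 410) (nat_lit 380))) (XT.nd (nat_lit 78) (nat_lit 0) (nat_lit 0) (XT.lf (nat_lit 0) (nat_lit 5961475558) (nat_lit 532) (nat_lit 1570037694) (nat_lit 608) (nat_lit 184421319) (nat_lit 176) (nat_lit 5) (nat_lit 183) (nat_lit 3) (nat_lit 184) (nat_lit 5) (nat_lit 411) (nat_lit 410) (nat_lit 379)) (XT.lf (nat_lit 76) (nat_lit 2400575429) (nat_lit 0) (nat_lit 5113303520) (nat_lit 608) (nat_lit 329419524) (nat_lit 177) (nat_lit 5) (nat_lit 176) (nat_lit 5) (nat_lit 184) (nat_lit 5) (nat_lit 412) (nat_lit 410) (nat_lit 378))))))))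
noncomputable def xc117 : XT := (XT.nd (nat_lit 2418) (nat_lit 3268) (nat_lit 0) (XT.nd (nat_lit 1170) (nat_lit 2888) (nat_lit 0) (XT.nd (nat_lit 546) (nat_lit 2204) (nat_lit 0) (XT.nd (nat_lit 234) (nat_lit 532) (nat_lit 0) (XT.nd (nat_lit 78) (nat_lit 0) (nat_lit 76) (XT.lf (nat_lit 0) (nat_lit 1071145139) (nat_lit 608) (nat_lit 1421337729) (nat_lit 684) (nat_lit 5486571056) (nat_lit 168) (nat_lit 5) (nat_lit 176) (nat_lit 5) (nat_lit 177) (nat_lit 5) (nat_lit 413) (nat_lit 410) (nat_lit 377)) (XT.nd (nat_lit 78) (nat_lit 0) (nat_lit 0) (XT.lf (nat_lit 0) (nat_lit 2499007931) (nat_lit 608) (nat_lit 5290794690) (nat_lit 684) (nat_lit 333122033) (nat_lit 169) (nat_lit 5) (nat_lit 177) (nat_lit 5) (nat_lit 178) (nat_lit 5) (nat_lit 414) (nat_lit 410) (nat_lit 376)) (XT.lf (nat_lit 0) (nat_lit 3985847956) (nat_lit 608) (nat_lit 1018804947) (nat_lit 684) (nat_lit 3269970672) (nat_lit 169) (nat_lit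 5) (nat_lit 177) (nat_lit 5) (nat_lit 178) (nat_lit 5) (nat_lit 415) (nat_lit 410) (nat_lit 375)))) (XT.nd (nat_lit 156) (nat_lit 608) (nat_lit 0) (XT.nd (nat_lit 78) (nat_lit 0) (nat_lit 76) (XT.lf (nat_lit 76) (nat_lit 3529875411) (nat_lit 0) (nat_lit 1998225883) (nat_lit 684) (nat_lit 2906765781) (nat_lit 170) (nat_lit 5) (nat_lit 169) (nat_lit 5) (nat_lit 178) (nat_lit 5) (nat_lit 416) (nat_lit 410) (nat_lit 374)) (XT.lf (nat_lit 0) (nat_lit 7112157930) (nat_lit 608) (nat_lit 332275767) (nat_lit 684) (nat_lit 1160467092) (nat_lit 170) (nat_lit 5) (nat_lit 178) (nat_lit 5) (nat_lit 179) (nat_lit 5) (nat_lit 417) (nat_lit 410) (nat_lit 373))) (XT.nd (nat_lit 78) (nat_lit 0) (nat_lit 0) (XT.lf (nat_lit 0) (nat_lit 28756419) (nat_lit 684) (nat_lit 4251262637) (nat_lit 760) (nat_lit 4501608865) (nat_lit 161) (nat_lit 5) (nat_lit 170) (nat_lit 5) (nat_lit 171) (nat_lit 5) (nat_lit 418) (nat_lit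 410) (nat_lit 372)) (XT.lf (nat_lit 76) (nat_lit 624316084) (nat_lit 0) (nat_lit 901122329) (nat_lit 760) (nat_lit 7443076612) (nat_lit 162) (nat_lit 5) (nat_lit 161) (nat_lit 5) (nat_lit 171) (nat_lit 5) (nat_lit 419) (nat_lit 410) (nat_lit 371))))) (XT.nd (nat_lit 312) (nat_lit 836) (nat_lit 0) (XT.nd (nat_lit 156) (nat_lit 760) (nat_lit 0) (XT.nd (nat_lit 78) (nat_lit 684) (nat_lit 0) (XT.lf (nat_lit 0) (nat_lit 3147816851) (nat_lit 684) (nat_lit 3366813955) (nat_lit 76) (nat_lit 2647582901) (nat_lit 162) (nat_lit 5) (nat_lit 171) (nat_lit 5) (nat_lit 163) (nat_lit 5) (nat_lit 420) (nat_lit 410) (nat_lit 370)) (XT.lf (nat_lit 0) (nat_lit 1852106445) (nat_lit 684) (nat_lit 2982289375) (nat_lit 760) (nat_lit 4532057271) (nat_lit 153) (nat_lit 5) (nat_lit 162) (nat_lit 5) (nat_lit 163) (nat_lit 5) (nat_lit 421) (nat_lit 410) (nat_lit 369))) (XT.nd (nat_lit 78) (nat_lit 760) (nat_lit 0) (XT.lf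 (nat_lit 0) (nat_lit 6616202036) (nat_lit 760) (nat_lit 2195529292) (nat_lit 76) (nat_lit 768637583) (nat_lit 153) (nat_lit 5) (nat_lit 163) (nat_lit 5) (nat_lit 154) (nat_lit 5) (nat_lit 422) (nat_lit 410) (nat_lit 368)) (XT.lf (nat_lit 0) (nat_lit 3397600764) (nat_lit 760) (nat_lit 5135814428) (nat_lit 836) (nat_lit 1269258431) (nat_lit 143) (nat_lit 5) (nat_lit 153) (nat_lit 5) (nat_lit 154) (nat_lit 5) (nat_lit 423) (nat_lit 410) (nat_lit 367)))) (XT.nd (nat_lit 156) (nat_lit 380) (nat_lit 0) (XT.nd (nat_lit 78) (nat_lit 380) (nat_lit 0) (XT.lf (nat_lit 0) (nat_lit 477200207) (nat_lit 836) (nat_lit 748668934) (nat_lit 76) (nat_lit 8810677066) (nat_lit 142) (nat_lit 5) (nat_lit 153) (nat_lit 5) (nat_lit 143) (nat_lit 5) (nat_lit 424) (nat_lit 410) (nat_lit 366)) (XT.lf (nat_lit 0) (nat_lit 2345540121) (nat_lit 456) (nat_lit 5037177114) (nat_lit 76) (nat_lit 2894501840) (nat_lit 137) (nat_lit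 5) (nat_lit 143) (nat_lit 5) (nat_lit 138) (nat_lit 5) (nat_lit 425) (nat_lit 410) (nat_lit 365))) (XT.nd (nat_lit 78) (nat_lit 0) (nat_lit 0) (XT.lf (nat_lit 0) (nat_lit 984385720) (nat_lit 380) (nat_lit 3320943917) (nat_lit 456) (nat_lit 6224701668) (nat_lit 132) (nat_lit 5) (nat_lit 137) (nat_lit 5) (nat_lit 138) (nat_lit 5) (nat_lit 426) (nat_lit 410) (nat_lit 364)) (XT.lf (nat_lit 0) (nat_lit 6415800082) (nat_lit 456) (nat_lit 3378729222) (nat_lit 76) (nat_lit 998327269) (nat_lit 132) (nat_lit 5) (nat_lit 138) (nat_lit 5) (nat_lit 133) (nat_lit 5) (nat_lit 427) (nat_lit 410) (nat_lit 363)))))) (XT.nd (nat_lit 624) (nat_lit 1140) (nat_lit 0) (XT.nd (nat_lit 312) (nat_lit 684) (nat_lit 0) (XT.nd (nat_lit 156) (nat_lit 684) (nat_lit 0) (XT.nd (nat_lit 78) (nat_lit 0) (nat_lit 0) (XT.lf (nat_lit 0) (nat_lit 3090255042) (nat_lit 380) (nat_lit 5597798478) (nat_lit 456) (nat_lit 2377963278) (nat_lit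 127) (nat_lit 5) (nat_lit 132) (nat_lit 5) (nat_lit 133) (nat_lit 5) (nat_lit 428) (nat_lit 410) (nat_lit 362)) (XT.lf (nat_lit 0) (nat_lit 9950065144) (nat_lit 380) (nat_lit 1136076597) (nat_lit 456) (nat_lit 266088536) (nat_lit 127) (nat_lit 5) (nat_lit 132) (nat_lit 5) (nat_lit 133) (nat_lit 5) (nat_lit 429) (nat_lit 410) (nat_lit 361))) (XT.nd (nat_lit 78) (nat_lit 304) (nat_lit 0) (XT.lf (nat_lit 0) (nat_lit 1990043109) (nat_lit 380) (nat_lit 6106415166) (nat_lit 76) (nat_lit 3549722613) (nat_lit 122) (nat_lit 5) (nat_lit 127) (nat_lit 5) (nat_lit 123) (nat_lit 5) (nat_lit 430) (nat_lit 410) (nat_lit 360)) (XT.lf (nat_lit 0) (nat_lit 878339885) (nat_lit 304) (nat_lit 3485837182) (nat_lit 380) (nat_lit 7589732438) (nat_lit 118) (nat_lit 5) (nat_lit 122) (nat_lit 5) (nat_lit 123) (nat_lit 5) (nat_lit 431) (nat_lit 410) (nat_lit 359)))) (XT.nd (nat_lit 156) (nat_lit 380) (nat_lit 0) (XT.nd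 (nat_lit 78) (nat_lit 304) (nat_lit 0) (XT.lf (nat_lit 0) (nat_lit 6942067669) (nat_lit 380) (nat_lit 3921723664) (nat_lit 76) (nat_lit 1408985946) (nat_lit 118) (nat_lit 5) (nat_lit 123) (nat_lit 5) (nat_lit 119) (nat_lit 5) (nat_lit 432) (nat_lit 410) (nat_lit 358)) (XT.lf (nat_lit 0) (nat_lit 3598956018) (nat_lit 304) (nat_lit 6123973591) (nat_lit 380) (nat_lit 2880959967) (nat_lit 114) (nat_lit 5) (nat_lit 118) (nat_lit 5) (nat_lit 119) (nat_lit 5) (nat_lit 433) (nat_lit 410) (nat_lit 357))) (XT.nd (nat_lit 78) (nat_lit 380) (nat_lit 0) (XT.lf (nat_lit 0) (nat_lit 11583709062) (nat_lit 304) (nat_lit 1087402248) (nat_lit 380) (nat_lit 279037082) (nat_lit 114) (nat_lit 5) (nat_lit 118) (nat_lit 5) (nat_lit 119) (nat_lit 5) (nat_lit 434) (nat_lit 410) (nat_lit 356)) (XT.lf (nat_lit 0) (nat_lit 2511289542) (nat_lit 380) (nat_lit 6590331989) (nat_lit 76) (nat_lit 4203347102) (nat_lit 109) (nat_lit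 5) (nat_lit 114) (nat_lit 5) (nat_lit 110) (nat_lit 5) (nat_lit 435) (nat_lit 410) (nat_lit 355))))) (XT.nd (nat_lit 312) (nat_lit 608) (nat_lit 0) (XT.nd (nat_lit 156) (nat_lit 304) (nat_lit 0) (XT.nd (nat_lit 78) (nat_lit 0) (nat_lit 0) (XT.lf (nat_lit 0) (nat_lit 1549729019) (nat_lit 228) (nat_lit 3911518426) (nat_lit 304) (nat_lit 8214583193) (nat_lit 106) (nat_lit 5) (nat_lit 109) (nat_lit 5) (nat_lit 110) (nat_lit 5) (nat_lit 436) (nat_lit 410) (nat_lit 354)) (XT.lf (nat_lit 0) (nat_lit 8660898994) (nat_lit 304) (nat_lit 3808625280) (nat_lit 76) (nat_lit 1590605580) (nat_lit 106) (nat_lit 5) (nat_lit 110) (nat_lit 5) (nat_lit 107) (nat_lit 5) (nat_lit 437) (nat_lit 410) (nat_lit 353))) (XT.nd (nat_lit 78) (nat_lit 76) (nat_lit 0) (XT.lf (nat_lit 0) (nat_lit 4973379876) (nat_lit 228) (nat_lit 7155345575) (nat_lit 304) (nat_lit 2329512675) (nat_lit 103) (nat_lit 5) (nat_lit 106) (nat_lit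 5) (nat_lit 107) (nat_lit 5) (nat_lit 438) (nat_lit 410) (nat_lit 352)) (XT.lf (nat_lit 0) (nat_lit 897413575) (nat_lit 304) (nat_lit 608079766) (nat_lit 76) (nat_lit 13368447892) (nat_lit 102) (nat_lit 5) (nat_lit 106) (nat_lit 5) (nat_lit 103) (nat_lit 5) (nat_lit 439) (nat_lit 410) (nat_lit 351)))) (XT.nd (nat_lit 156) (nat_lit 152) (nat_lit 0) (XT.nd (nat_lit 78) (nat_lit 228) (nat_lit 0) (XT.lf (nat_lit 0) (nat_lit 4386762297) (nat_lit 304) (nat_lit 6459807156) (nat_lit 76) (nat_lit 4452985661) (nat_lit 99) (nat_lit 5) (nat_lit 103) (nat_lit 5) (nat_lit 100) (nat_lit 5) (nat_lit 440) (nat_lit 410) (nat_lit 350)) (XT.lf (nat_lit 0) (nat_lit 3063183595) (nat_lit 228) (nat_lit 5039337397) (nat_lit 304) (nat_lit 7641334623) (nat_lit 96) (nat_lit 5) (nat_lit 99) (nat_lit 5) (nat_lit 100) (nat_lit 5) (nat_lit 441) (nat_lit 410) (nat_lit 349))) (XT.nd (nat_lit 78) (nat_lit 152) (nat_lit 0) (XT.lf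 (nat_lit 0) (nat_lit 12101316521) (nat_lit 304) (nat_lit 2982340512) (nat_lit 76) (nat_lit 1121854571) (nat_lit 96) (nat_lit 5) (nat_lit 100) (nat_lit 5) (nat_lit 97) (nat_lit 5) (nat_lit 442) (nat_lit 410) (nat_lit 348)) (XT.lf (nat_lit 0) (nat_lit 7308678473) (nat_lit 152) (nat_lit 9159078349) (nat_lit 228) (nat_lit 214111093) (nat_lit 94) (nat_lit 5) (nat_lit 96) (nat_lit 5) (nat_lit 97) (nat_lit 5) (nat_lit 443) (nat_lit 410) (nat_lit 347))))))) (XT.nd (nat_lit 1170) (nat_lit 1444) (nat_lit 0) (XT.nd (nat_lit 546) (nat_lit 912) (nat_lit 0) (XT.nd (nat_lit 234) (nat_lit 456) (nat_lit 0) (XT.nd (nat_lit 78) (nat_lit 152) (nat_lit 0) (XT.lf (nat_lit 0) (nat_lit 964079579) (nat_lit 228) (nat_lit 2820135739) (nat_lit 304) (nat_lit 13392926901) (nat_lit 90) (nat_lit 5) (nat_lit 93) (nat_lit 5) (nat_lit 94) (nat_lit 5) (nat_lit 444) (nat_lit 410) (nat_lit 346)) (XT.nd (nat_lit 78) (nat_lit 152)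 (nat_lit 0) (XT.lf (nat_lit 0) (nat_lit 8168184380) (nat_lit 304) (nat_lit 5655871577) (nat_lit 76) (nat_lit 3863305080) (nat_lit 90) (nat_lit 5) (nat_lit 94) (nat_lit 5) (nat_lit 91) (nat_lit 5) (nat_lit 445) (nat_lit 410) (nat_lit 345)) (XT.lf (nat_lit 0) (nat_lit 5517388514) (nat_lit 152) (nat_lit 7359378162) (nat_lit 228) (nat_lit 5341055661) (nat_lit 88) (nat_lit 5) (nat_lit 90) (nat_lit 5) (nat_lit 91) (nat_lit 5) (nat_lit 446) (nat_lit 410) (nat_lit 344)))) (XT.nd (nat_lit 156) (nat_lit 152) (nat_lit 0) (XT.nd (nat_lit 78) (nat_lit 304) (nat_lit 0) (XT.lf (nat_lit 0) (nat_lit 17404200856) (nat_lit 152) (nat_lit 486039599) (nat_lit 228) (nat_lit 881095298) (nat_lit 88) (nat_lit 5) (nat_lit 90) (nat_lit 5) (nat_lit 91) (nat_lit 5) (nat_lit 447) (nat_lit 410) (nat_lit 343)) (XT.lf (nat_lit 0) (nat_lit 3931562947) (nat_lit 304) (nat_lit 8672910115) (nat_lit 76) (nat_lit 6732516698) (nat_lit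 84) (nat_lit 5) (nat_lit 88) (nat_lit 5) (nat_lit 85) (nat_lit 5) (nat_lit 448) (nat_lit 410) (nat_lit 342))) (XT.nd (nat_lit 78) (nat_lit 0) (nat_lit 0) (XT.lf (nat_lit 0) (nat_lit 3461855134) (nat_lit 152) (nat_lit 5553818790) (nat_lit 228) (nat_lit 10911510688) (nat_lit 82) (nat_lit 5) (nat_lit 84) (nat_lit 5) (nat_lit 85) (nat_lit 5) (nat_lit 449) (nat_lit 410) (nat_lit 341)) (XT.lf (nat_lit 0) (nat_lit 14507361614) (nat_lit 228) (nat_lit 4107399286) (nat_lit 76) (nat_lit 1924461536) (nat_lit 82) (nat_lit 5) (nat_lit 85) (nat_lit 5) (nat_lit 83) (nat_lit 5) (nat_lit 450) (nat_lit 410) (nat_lit 340))))) (XT.nd (nat_lit 312) (nat_lit 380) (nat_lit 0) (XT.nd (nat_lit 156) (nat_lit 152) (nat_lit 0) (XT.nd (nat_lit 78) (nat_lit 228) (nat_lit 0) (XT.lf (nat_lit 0) (nat_lit 9027228035) (nat_lit 152) (nat_lit 11454782233) (nat_lit 228) (nat_lit 689434753) (nat_lit 80) (nat_lit 5) (nat_lit 82) (nat_lit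 5) (nat_lit 83) (nat_lit 5) (nat_lit 451) (nat_lit 410) (nat_lit 339)) (XT.lf (nat_lit 0) (nat_lit 1045668548) (nat_lit 152) (nat_lit 3780530672) (nat_lit 228) (nat_lit 17002062176) (nat_lit 77) (nat_lit 5) (nat_lit 79) (nat_lit 5) (nat_lit 80) (nat_lit 5) (nat_lit 452) (nat_lit 410) (nat_lit 338))) (XT.nd (nat_lit 78) (nat_lit 152) (nat_lit 0) (XT.lf (nat_lit 0) (nat_lit 10847072470) (nat_lit 228) (nat_lit 7311923584) (nat_lit 76) (nat_lit 4345727536) (nat_lit 77) (nat_lit 5) (nat_lit 80) (nat_lit 5) (nat_lit 78) (nat_lit 5) (nat_lit 453) (nat_lit 410) (nat_lit 337)) (XT.lf (nat_lit 0) (nat_lit 6955297112) (nat_lit 152) (nat_lit 10362168989) (nat_lit 228) (nat_lit 5890120357) (nat_lit 75) (nat_lit 5) (nat_lit 77) (nat_lit 5) (nat_lit 78) (nat_lit 5) (nat_lit 454) (nat_lit 410) (nat_lit 336)))) (XT.nd (nat_lit 156) (nat_lit 152) (nat_lit 0) (XT.nd (nat_lit 78) (nat_lit 152) (nat_lit 0) (XT.lf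 (nat_lit 0) (nat_lit 264369249) (nat_lit 228) (nat_lit 1792027096) (nat_lit 76) (nat_lit 21883873549) (nat_lit 74) (nat_lit 5) (nat_lit 77) (nat_lit 5) (nat_lit 75) (nat_lit 5) (nat_lit 455) (nat_lit 410) (nat_lit 335)) (XT.lf (nat_lit 0) (nat_lit 6830469593) (nat_lit 228) (nat_lit 11106882840) (nat_lit 76) (nat_lit 6752316661) (nat_lit 72) (nat_lit 5) (nat_lit 75) (nat_lit 5) (nat_lit 73) (nat_lit 5) (nat_lit 456) (nat_lit 410) (nat_lit 334))) (XT.nd (nat_lit 78) (nat_lit 0) (nat_lit 0) (XT.lf (nat_lit 0) (nat_lit 4383467896) (nat_lit 152) (nat_lit 9453688935) (nat_lit 228) (nat_lit 11633768481) (nat_lit 70) (nat_lit 5) (nat_lit 72) (nat_lit 5) (nat_lit 73) (nat_lit 5) (nat_lit 457) (nat_lit 410) (nat_lit 333)) (XT.lf (nat_lit 0) (nat_lit 20998369117) (nat_lit 152) (nat_lit 363626617) (nat_lit 228) (nat_lit 4920858838) (nat_lit 70) (nat_lit 5) (nat_lit 72) (nat_lit 5) (nat_lit 73) (nat_lit 5)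 (nat_lit 458) (nat_lit 410) (nat_lit 332)))))) (XT.nd (nat_lit 624) (nat_lit 684) (nat_lit 0) (XT.nd (nat_lit 312) (nat_lit 380) (nat_lit 0) (XT.nd (nat_lit 156) (nat_lit 76) (nat_lit 0) (XT.nd (nat_lit 78) (nat_lit 152) (nat_lit 0) (XT.lf (nat_lit 0) (nat_lit 2367890813) (nat_lit 152) (nat_lit 15659700203) (nat_lit 76) (nat_lit 9090714603) (nat_lit 68) (nat_lit 5) (nat_lit 70) (nat_lit 5) (nat_lit 69) (nat_lit 5) (nat_lit 459) (nat_lit 410) (nat_lit 331)) (XT.lf (nat_lit 0) (nat_lit 1145109812) (nat_lit 152) (nat_lit 8805936407) (nat_lit 228) (nat_lit 18035683386) (nat_lit 66) (nat_lit 5) (nat_lit 68) (nat_lit 5) (nat_lit 69) (nat_lit 5) (nat_lit 460) (nat_lit 410) (nat_lit 330))) (XT.nd (nat_lit 78) (nat_lit 76) (nat_lit 0) (XT.lf (nat_lit 0) (nat_lit 18177298596) (nat_lit 228) (nat_lit 9604385415) (nat_lit 76) (nat_lit 1103694721) (nat_lit 66) (nat_lit 5) (nat_lit 69) (nat_lit 5) (nat_lit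 67) (nat_lit 4) (nat_lit 461) (nat_lit 410) (nat_lit 329)) (XT.lf (nat_lit 0) (nat_lit 8592150026) (nat_lit 76) (nat_lit 18482837542) (nat_lit 152) (nat_lit 2740967408) (nat_lit 65) (nat_lit 5) (nat_lit 66) (nat_lit 5) (nat_lit 67) (nat_lit 4) (nat_lit 462) (nat_lit 410) (nat_lit 328)))) (XT.nd (nat_lit 156) (nat_lit 152) (nat_lit 0) (XT.nd (nat_lit 78) (nat_lit 152) (nat_lit 0) (XT.lf (nat_lit 0) (nat_lit 5591489195) (nat_lit 152) (nat_lit 2876727453) (nat_lit 76) (nat_lit 22313103083) (nat_lit 64) (nat_lit 5) (nat_lit 66) (nat_lit 5) (nat_lit 65) (nat_lit 5) (nat_lit 463) (nat_lit 410) (nat_lit 327)) (XT.lf (nat_lit 0) (nat_lit 14530882701) (nat_lit 228) (nat_lit 14966815068) (nat_lit 76) (nat_lit 2280887572) (nat_lit 62) (nat_lit 5) (nat_lit 65) (nat_lit 5) (nat_lit 63) (nat_lit 4) (nat_lit 464) (nat_lit 410) (nat_lit 326))) (XT.nd (nat_lit 78) (nat_lit 76) (nat_lit 0) (XT.lf (nat_lit 0) (nat_lit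 4741612963) (nat_lit 76) (nat_lit 19420685495) (nat_lit 152) (nat_lit 8651163853) (nat_lit 61) (nat_lit 5) (nat_lit 62) (nat_lit 5) (nat_lit 63) (nat_lit 4) (nat_lit 465) (nat_lit 410) (nat_lit 325)) (XT.lf (nat_lit 0) (nat_lit 603557539) (nat_lit 152) (nat_lit 7974219077) (nat_lit 76) (nat_lit 25309996033) (nat_lit 60) (nat_lit 5) (nat_lit 62) (nat_lit 5) (nat_lit 61) (nat_lit 5) (nat_lit 466) (nat_lit 410) (nat_lit 324))))) (XT.nd (nat_lit 312) (nat_lit 228) (nat_lit 0) (XT.nd (nat_lit 156) (nat_lit 304) (nat_lit 0) (XT.nd (nat_lit 78) (nat_lit 0) (nat_lit 0) (XT.lf (nat_lit 0) (nat_lit 10272172584) (nat_lit 228) (nat_lit 21663941260) (nat_lit 76) (nat_lit 3060499482) (nat_lit 58) (nat_lit 5) (nat_lit 61) (nat_lit 5) (nat_lit 59) (nat_lit 4) (nat_lit 467) (nat_lit 410) (nat_lit 323)) (XT.lf (nat_lit 0) (nat_lit 20685761704) (nat_lit 228) (nat_lit 345679684) (nat_lit 76) (nat_lit 15116378063)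 (nat_lit 58) (nat_lit 5) (nat_lit 61) (nat_lit 5) (nat_lit 59) (nat_lit 4) (nat_lit 468) (nat_lit 410) (nat_lit 322))) (XT.nd (nat_lit 78) (nat_lit 228) (nat_lit 0) (XT.lf (nat_lit 0) (nat_lit 22737220911) (nat_lit 76) (nat_lit 9222241953) (nat_lit 152) (nat_lit 5380151943) (nat_lit 57) (nat_lit 5) (nat_lit 58) (nat_lit 5) (nat_lit 59) (nat_lit 4) (nat_lit 469) (nat_lit 410) (nat_lit 321)) (XT.lf (nat_lit 0) (nat_lit 5216313990) (nat_lit 228) (nat_lit 30074673000) (nat_lit 76) (nat_lit 3287095322) (nat_lit 54) (nat_lit 5) (nat_lit 57) (nat_lit 5) (nat_lit 55) (nat_lit 4) (nat_lit 470) (nat_lit 410) (nat_lit 320)))) (XT.nd (nat_lit 156) (nat_lit 152) (nat_lit 0) (XT.nd (nat_lit 78) (nat_lit 76) (nat_lit 0) (XT.lf (nat_lit 0) (nat_lit 16548901144) (nat_lit 228) (nat_lit 6867218136) (nat_lit 76) (nat_lit 16438589114) (nat_lit 54) (nat_lit 5) (nat_lit 57) (nat_lit 5) (nat_lit 55) (nat_lit 4) (nat_lit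 471) (nat_lit 410) (nat_lit 319)) (XT.lf (nat_lit 0) (nat_lit 18050591488) (nat_lit 76) (nat_lit 10664650612) (nat_lit 152) (nat_lit 12466567915) (nat_lit 53) (nat_lit 5) (nat_lit 54) (nat_lit 5) (nat_lit 55) (nat_lit 4) (nat_lit 472) (nat_lit 410) (nat_lit 318))) (XT.nd (nat_lit 78) (nat_lit 76) (nat_lit 0) (XT.lf (nat_lit 0) (nat_lit 1870869204) (nat_lit 76) (nat_lit 39794358591) (nat_lit 76) (nat_lit 901272971) (nat_lit 52) (nat_lit 4) (nat_lit 53) (nat_lit 5) (nat_lit 53) (nat_lit 4) (nat_lit 473) (nat_lit 410) (nat_lit 317)) (XT.lf (nat_lit 0) (nat_lit 11440863823) (nat_lit 152) (nat_lit 15459346601) (nat_lit 76) (nat_lit 17083519819) (nat_lit 51) (nat_lit 5) (nat_lit 53) (nat_lit 5) (nat_lit 52) (nat_lit 4) (nat_lit 474) (nat_lit 410) (nat_lit 316))))))))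
noncomputable def xc118 : XT := (XT.nd (nat_lit 2418) (nat_lit 1216) (nat_lit 0) (XT.nd (nat_lit 1170) (nat_lit 912) (nat_lit 0) (XT.nd (nat_lit 546) (nat_lit 532) (nat_lit 0) (XT.nd (nat_lit 234) (nat_lit 228) (nat_lit 0) (XT.nd (nat_lit 78) (nat_lit 152) (nat_lit 0) (XT.lf (nat_lit 0) (nat_lit 11361072843) (nat_lit 76) (nat_lit 13172228720) (nat_lit 152) (nat_lit 20929607117) (nat_lit 50) (nat_lit 5) (nat_lit 51) (nat_lit 5) (nat_lit 52) (nat_lit 4) (nat_lit 475) (nat_lit 410) (nat_lit 315)) (XT.nd (nat_lit 78) (nat_lit 152) (nat_lit 0) (XT.lf (nat_lit 0) (nat_lit 38552022382) (nat_lit 152) (nat_lit 6994004110) (nat_lit 0) (nat_lit 1456436845) (nat_lit 50) (nat_lit 5) (nat_lit 52) (nat_lit 4) (nat_lit 50) (nat_lit 4) (nat_lit 476) (nat_lit 410) (nat_lit 314)) (XT.lf (nat_lit 0) (nat_lit 5057852740) (nat_lit 152) (nat_lit 26743467647) (nat_lit 76) (nat_lit 16786339385) (nat_lit 48) (nat_lit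 5) (nat_lit 50) (nat_lit 5) (nat_lit 49) (nat_lit 4) (nat_lit 477) (nat_lit 410) (nat_lit 313)))) (XT.nd (nat_lit 156) (nat_lit 152) (nat_lit 0) (XT.nd (nat_lit 78) (nat_lit 0) (nat_lit 0) (XT.lf (nat_lit 0) (nat_lit 2019740725) (nat_lit 76) (nat_lit 17076601687) (nat_lit 152) (nat_lit 31141908758) (nat_lit 47) (nat_lit 5) (nat_lit 48) (nat_lit 5) (nat_lit 49) (nat_lit 4) (nat_lit 478) (nat_lit 410) (nat_lit 312)) (XT.lf (nat_lit 0) (nat_lit 33124640665) (nat_lit 76) (nat_lit 1152115401) (nat_lit 152) (nat_lit 17672616388) (nat_lit 47) (nat_lit 5) (nat_lit 48) (nat_lit 5) (nat_lit 49) (nat_lit 4) (nat_lit 479) (nat_lit 410) (nat_lit 311))) (XT.nd (nat_lit 78) (nat_lit 76) (nat_lit 0) (XT.lf (nat_lit 0) (nat_lit 12160694200) (nat_lit 76) (nat_lit 38475950171) (nat_lit 76) (nat_lit 3088383015) (nat_lit 46) (nat_lit 4) (nat_lit 47) (nat_lit 5) (nat_lit 47) (nat_lit 4) (nat_lit 480) (nat_lit 410)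 (nat_lit 310)) (XT.lf (nat_lit 0) (nat_lit 12164246583) (nat_lit 152) (nat_lit 10463774348) (nat_lit 76) (nat_lit 32935377868) (nat_lit 45) (nat_lit 5) (nat_lit 47) (nat_lit 5) (nat_lit 46) (nat_lit 4) (nat_lit 481) (nat_lit 410) (nat_lit 309))))) (XT.nd (nat_lit 312) (nat_lit 228) (nat_lit 0) (XT.nd (nat_lit 156) (nat_lit 228) (nat_lit 0) (XT.nd (nat_lit 78) (nat_lit 0) (nat_lit 0) (XT.lf (nat_lit 0) (nat_lit 22849448922) (nat_lit 76) (nat_lit 5571149402) (nat_lit 152) (nat_lit 29053315210) (nat_lit 44) (nat_lit 5) (nat_lit 45) (nat_lit 5) (nat_lit 46) (nat_lit 4) (nat_lit 482) (nat_lit 410) (nat_lit 308)) (XT.lf (nat_lit 0) (nat_lit 45850696467) (nat_lit 152) (nat_lit 1498124228) (nat_lit 0) (nat_lit 12113087100) (nat_lit 44) (nat_lit 5) (nat_lit 46) (nat_lit 4) (nat_lit 44) (nat_lit 4) (nat_lit 483) (nat_lit 410) (nat_lit 307))) (XT.nd (nat_lit 78) (nat_lit 76) (nat_lit 0) (XT.lf (nat_lit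 0) (nat_lit 3144856673) (nat_lit 152) (nat_lit 27301276487) (nat_lit 76) (nat_lit 31069878257) (nat_lit 42) (nat_lit 5) (nat_lit 44) (nat_lit 5) (nat_lit 43) (nat_lit 4) (nat_lit 484) (nat_lit 410) (nat_lit 306)) (XT.lf (nat_lit 0) (nat_lit 8107625715) (nat_lit 76) (nat_lit 12314801511) (nat_lit 152) (nat_lit 43232180209) (nat_lit 41) (nat_lit 5) (nat_lit 42) (nat_lit 5) (nat_lit 43) (nat_lit 4) (nat_lit 485) (nat_lit 410) (nat_lit 305)))) (XT.nd (nat_lit 156) (nat_lit 152) (nat_lit 0) (XT.nd (nat_lit 78) (nat_lit 76) (nat_lit 0) (XT.lf (nat_lit 0) (nat_lit 39127569265) (nat_lit 152) (nat_lit 19776796689) (nat_lit 0) (nat_lit 6967582839) (nat_lit 41) (nat_lit 5) (nat_lit 43) (nat_lit 4) (nat_lit 41) (nat_lit 4) (nat_lit 486) (nat_lit 410) (nat_lit 304)) (XT.lf (nat_lit 0) (nat_lit 18139598815) (nat_lit 76) (nat_lit 41102782100) (nat_lit 76) (nat_lit 8934055859) (nat_lit 40) (nat_lit 4) (nat_lit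 41) (nat_lit 5) (nat_lit 41) (nat_lit 4) (nat_lit 487) (nat_lit 410) (nat_lit 303))) (XT.nd (nat_lit 78) (nat_lit 76) (nat_lit 0) (XT.lf (nat_lit 0) (nat_lit 9783940545) (nat_lit 152) (nat_lit 12119971758) (nat_lit 76) (nat_lit 48668124940) (nat_lit 39) (nat_lit 5) (nat_lit 41) (nat_lit 5) (nat_lit 40) (nat_lit 4) (nat_lit 488) (nat_lit 410) (nat_lit 302)) (XT.lf (nat_lit 0) (nat_lit 28436409676) (nat_lit 76) (nat_lit 1134998530) (nat_lit 152) (nat_lit 43486995974) (nat_lit 38) (nat_lit 5) (nat_lit 39) (nat_lit 5) (nat_lit 40) (nat_lit 4) (nat_lit 489) (nat_lit 410) (nat_lit 301)))))) (XT.nd (nat_lit 624) (nat_lit 456) (nat_lit 0) (XT.nd (nat_lit 312) (nat_lit 228) (nat_lit 0) (XT.nd (nat_lit 156) (nat_lit 152) (nat_lit 0) (XT.nd (nat_lit 78) (nat_lit 76) (nat_lit 0) (XT.lf (nat_lit 0) (nat_lit 50869492222) (nat_lit 152) (nat_lit 4563592476) (nat_lit 0) (nat_lit 20209942765) (nat_lit 38) (nat_lit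 5) (nat_lit 40) (nat_lit 4) (nat_lit 38) (nat_lit 4) (nat_lit 490) (nat_lit 410) (nat_lit 300)) (XT.lf (nat_lit 0) (nat_lit 38698639590) (nat_lit 76) (nat_lit 35146991139) (nat_lit 76) (nat_lit 4480593807) (nat_lit 37) (nat_lit 4) (nat_lit 38) (nat_lit 5) (nat_lit 38) (nat_lit 4) (nat_lit 491) (nat_lit 410) (nat_lit 299))) (XT.nd (nat_lit 78) (nat_lit 0) (nat_lit 0) (XT.lf (nat_lit 0) (nat_lit 2954179648) (nat_lit 76) (nat_lit 13449283164) (nat_lit 152) (nat_lit 64721231101) (nat_lit 35) (nat_lit 5) (nat_lit 36) (nat_lit 5) (nat_lit 37) (nat_lit 4) (nat_lit 492) (nat_lit 410) (nat_lit 298)) (XT.lf (nat_lit 0) (nat_lit 38999358971) (nat_lit 152) (nat_lit 35238004993) (nat_lit 0) (nat_lit 9781139597) (nat_lit 35) (nat_lit 5) (nat_lit 37) (nat_lit 4) (nat_lit 35) (nat_lit 4) (nat_lit 493) (nat_lit 410) (nat_lit 297)))) (XT.nd (nat_lit 156) (nat_lit 152) (nat_lit 0) (XT.nd (nat_lit 78) (nat_lit 0)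 (nat_lit 0) (XT.lf (nat_lit 0) (nat_lit 9919946833) (nat_lit 76) (nat_lit 53171300130) (nat_lit 76) (nat_lit 23947446992) (nat_lit 34) (nat_lit 4) (nat_lit 35) (nat_lit 5) (nat_lit 35) (nat_lit 4) (nat_lit 494) (nat_lit 410) (nat_lit 296)) (XT.lf (nat_lit 0) (nat_lit 58541270706) (nat_lit 76) (nat_lit 30434226748) (nat_lit 76) (nat_lit 1205008121) (nat_lit 34) (nat_lit 4) (nat_lit 35) (nat_lit 5) (nat_lit 35) (nat_lit 4) (nat_lit 495) (nat_lit 410) (nat_lit 295))) (XT.nd (nat_lit 78) (nat_lit 0) (nat_lit 0) (XT.lf (nat_lit 0) (nat_lit 16263425896) (nat_lit 76) (nat_lit 5930600695) (nat_lit 152) (nat_lit 71255420562) (nat_lit 32) (nat_lit 5) (nat_lit 33) (nat_lit 5) (nat_lit 34) (nat_lit 4) (nat_lit 496) (nat_lit 410) (nat_lit 294)) (XT.lf (nat_lit 0) (nat_lit 47567531637) (nat_lit 152) (nat_lit 29550386822) (nat_lit 0) (nat_lit 19720678995) (nat_lit 32) (nat_lit 5) (nat_lit 34) (nat_lit 4) (nat_lit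 32) (nat_lit 4) (nat_lit 497) (nat_lit 410) (nat_lit 293))))) (XT.nd (nat_lit 312) (nat_lit 228) (nat_lit 0) (XT.nd (nat_lit 156) (nat_lit 152) (nat_lit 0) (XT.nd (nat_lit 78) (nat_lit 0) (nat_lit 0) (XT.lf (nat_lit 0) (nat_lit 21026243137) (nat_lit 76) (nat_lit 53600684149) (nat_lit 76) (nat_lit 25749417306) (nat_lit 31) (nat_lit 4) (nat_lit 32) (nat_lit 5) (nat_lit 32) (nat_lit 4) (nat_lit 498) (nat_lit 410) (nat_lit 292)) (XT.lf (nat_lit 0) (nat_lit 75141359656) (nat_lit 76) (nat_lit 28390237569) (nat_lit 76) (nat_lit 534766725) (nat_lit 31) (nat_lit 4) (nat_lit 32) (nat_lit 5) (nat_lit 32) (nat_lit 4) (nat_lit 499) (nat_lit 410) (nat_lit 291))) (XT.nd (nat_lit 78) (nat_lit 0) (nat_lit 0) (XT.lf (nat_lit 0) (nat_lit 24380930247) (nat_lit 76) (nat_lit 1102194095) (nat_lit 152) (nat_lit 82418871243) (nat_lit 29) (nat_lit 5) (nat_lit 30) (nat_lit 5) (nat_lit 31) (nat_lit 4) (nat_lit 500) (nat_lit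 410) (nat_lit 290)) (XT.lf (nat_lit 0) (nat_lit 53704091896) (nat_lit 152) (nat_lit 31011243650) (nat_lit 0) (nat_lit 27167627317) (nat_lit 29) (nat_lit 5) (nat_lit 31) (nat_lit 4) (nat_lit 29) (nat_lit 4) (nat_lit 501) (nat_lit 410) (nat_lit 289)))) (XT.nd (nat_lit 156) (nat_lit 152) (nat_lit 0) (XT.nd (nat_lit 78) (nat_lit 0) (nat_lit 0) (XT.lf (nat_lit 0) (nat_lit 24887541531) (nat_lit 76) (nat_lit 58847701746) (nat_lit 76) (nat_lit 32307778525) (nat_lit 28) (nat_lit 4) (nat_lit 29) (nat_lit 5) (nat_lit 29) (nat_lit 4) (nat_lit 502) (nat_lit 410) (nat_lit 288)) (XT.lf (nat_lit 0) (nat_lit 84643132923) (nat_lit 76) (nat_lit 31142638519) (nat_lit 76) (nat_lit 4599421353) (nat_lit 28) (nat_lit 4) (nat_lit 29) (nat_lit 5) (nat_lit 29) (nat_lit 4) (nat_lit 503) (nat_lit 410) (nat_lit 287))) (XT.nd (nat_lit 78) (nat_lit 0) (nat_lit 0) (XT.lf (nat_lit 0) (nat_lit 22774217324) (nat_lit 76) (nat_lit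 1284598081) (nat_lit 152) (nat_lit 100849114021) (nat_lit 26) (nat_lit 5) (nat_lit 27) (nat_lit 5) (nat_lit 28) (nat_lit 4) (nat_lit 504) (nat_lit 410) (nat_lit 286)) (XT.lf (nat_lit 0) (nat_lit 55072919820) (nat_lit 152) (nat_lit 44738404543) (nat_lit 0) (nat_lit 29787832237) (nat_lit 26) (nat_lit 5) (nat_lit 28) (nat_lit 4) (nat_lit 26) (nat_lit 4) (nat_lit 505) (nat_lit 410) (nat_lit 285))))))) (XT.nd (nat_lit 1170) (nat_lit 532) (nat_lit 0) (XT.nd (nat_lit 546) (nat_lit 380) (nat_lit 0) (XT.nd (nat_lit 234) (nat_lit 76) (nat_lit 0) (XT.nd (nat_lit 78) (nat_lit 152) (nat_lit 0) (XT.lf (nat_lit 0) (nat_lit 16004210024) (nat_lit 76) (nat_lit 71897662760) (nat_lit 76) (nat_lit 46609865240) (nat_lit 25) (nat_lit 4) (nat_lit 26) (nat_lit 5) (nat_lit 26) (nat_lit 4) (nat_lit 506) (nat_lit 410) (nat_lit 284)) (XT.nd (nat_lit 78) (nat_lit 152) (nat_lit 0) (XT.lf (nat_lit 0) (nat_lit 81323757554) (nat_lit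 76) (nat_lit 41799509864) (nat_lit 76) (nat_lit 16509131453) (nat_lit 25) (nat_lit 4) (nat_lit 26) (nat_lit 5) (nat_lit 26) (nat_lit 4) (nat_lit 507) (nat_lit 410) (nat_lit 283)) (XT.lf (nat_lit 0) (nat_lit 4805299456) (nat_lit 76) (nat_lit 9876718036) (nat_lit 152) (nat_lit 130311862014) (nat_lit 23) (nat_lit 5) (nat_lit 24) (nat_lit 5) (nat_lit 25) (nat_lit 4) (nat_lit 508) (nat_lit 410) (nat_lit 282)))) (XT.nd (nat_lit 156) (nat_lit 76) (nat_lit 0) (XT.nd (nat_lit 78) (nat_lit 0) (nat_lit 0) (XT.lf (nat_lit 0) (nat_lit 48244252041) (nat_lit 152) (nat_lit 78143725994) (nat_lit 0) (nat_lit 24153606947) (nat_lit 23) (nat_lit 5) (nat_lit 25) (nat_lit 4) (nat_lit 23) (nat_lit 4) (nat_lit 509) (nat_lit 410) (nat_lit 281)) (XT.lf (nat_lit 0) (nat_lit 83640367620) (nat_lit 152) (nat_lit 13170920473) (nat_lit 0) (nat_lit 59547599219) (nat_lit 23) (nat_lit 5) (nat_lit 25) (nat_lit 4) (nat_lit 23) (nat_lit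 4) (nat_lit 510) (nat_lit 410) (nat_lit 280))) (XT.nd (nat_lit 78) (nat_lit 0) (nat_lit 0) (XT.lf (nat_lit 0) (nat_lit 56858566122) (nat_lit 76) (nat_lit 64829592886) (nat_lit 76) (nat_lit 40734802289) (nat_lit 22) (nat_lit 4) (nat_lit 23) (nat_lit 5) (nat_lit 23) (nat_lit 4) (nat_lit 511) (nat_lit 410) (nat_lit 279)) (XT.lf (nat_lit 0) (nat_lit 130835193395) (nat_lit 76) (nat_lit 31020448514) (nat_lit 76) (nat_lit 6923732015) (nat_lit 22) (nat_lit 4) (nat_lit 23) (nat_lit 5) (nat_lit 23) (nat_lit 4) (nat_lit 512) (nat_lit 410) (nat_lit 278))))) (XT.nd (nat_lit 312) (nat_lit 152) (nat_lit 0) (XT.nd (nat_lit 156) (nat_lit 76) (nat_lit 0) (XT.nd (nat_lit 78) (nat_lit 0) (nat_lit 0) (XT.lf (nat_lit 0) (nat_lit 28269229345) (nat_lit 152) (nat_lit 141813539709) (nat_lit 0) (nat_lit 5318228687) (nat_lit 20) (nat_lit 5) (nat_lit 22) (nat_lit 4) (nat_lit 20) (nat_lit 4) (nat_lit 513) (nat_lit 410) (nat_lit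 277)) (XT.lf (nat_lit 0) (nat_lit 66145261342) (nat_lit 152) (nat_lit 72952363965) (nat_lit 0) (nat_lit 43192597018) (nat_lit 20) (nat_lit 5) (nat_lit 22) (nat_lit 4) (nat_lit 20) (nat_lit 4) (nat_lit 514) (nat_lit 410) (nat_lit 276))) (XT.nd (nat_lit 78) (nat_lit 76) (nat_lit 0) (XT.lf (nat_lit 0) (nat_lit 105909795785) (nat_lit 152) (nat_lit 658830326) (nat_lit 0) (nat_lit 82955547017) (nat_lit 20) (nat_lit 5) (nat_lit 22) (nat_lit 4) (nat_lit 20) (nat_lit 4) (nat_lit 515) (nat_lit 410) (nat_lit 275)) (XT.lf (nat_lit 0) (nat_lit 77726936035) (nat_lit 76) (nat_lit 71144109402) (nat_lit 76) (nat_lit 48188351641) (nat_lit 19) (nat_lit 4) (nat_lit 20) (nat_lit 5) (nat_lit 20) (nat_lit 4) (nat_lit 516) (nat_lit 410) (nat_lit 274)))) (XT.nd (nat_lit 156) (nat_lit 0) (nat_lit 0) (XT.nd (nat_lit 78) (nat_lit 152) (nat_lit 0) (XT.lf (nat_lit 0) (nat_lit 160044836865) (nat_lit 76) (nat_lit 33941715280)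 (nat_lit 76) (nat_lit 10984520381) (nat_lit 19) (nat_lit 4) (nat_lit 20) (nat_lit 5) (nat_lit 20) (nat_lit 4) (nat_lit 517) (nat_lit 410) (nat_lit 273)) (XT.lf (nat_lit 0) (nat_lit 27799960311) (nat_lit 152) (nat_lit 179490830968) (nat_lit 0) (nat_lit 5934661643) (nat_lit 17) (nat_lit 5) (nat_lit 19) (nat_lit 4) (nat_lit 17) (nat_lit 4) (nat_lit 518) (nat_lit 410) (nat_lit 272))) (XT.nd (nat_lit 78) (nat_lit 0) (nat_lit 0) (XT.lf (nat_lit 0) (nat_lit 69479455196) (nat_lit 152) (nat_lit 104724931284) (nat_lit 0) (nat_lit 47612915075) (nat_lit 17) (nat_lit 5) (nat_lit 19) (nat_lit 4) (nat_lit 17) (nat_lit 4) (nat_lit 519) (nat_lit 410) (nat_lit 271)) (XT.lf (nat_lit 0) (nat_lit 113238353453) (nat_lit 152) (nat_lit 26229986763) (nat_lit 0) (nat_lit 91370630996) (nat_lit 17) (nat_lit 5) (nat_lit 19) (nat_lit 4) (nat_lit 17) (nat_lit 4) (nat_lit 520) (nat_lit 410) (nat_lit 270)))))) (XT.nd (nat_lit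 624) (nat_lit 228) (nat_lit 0) (XT.nd (nat_lit 312) (nat_lit 76) (nat_lit 0) (XT.nd (nat_lit 156) (nat_lit 152) (nat_lit 0) (XT.nd (nat_lit 78) (nat_lit 0) (nat_lit 0) (XT.lf (nat_lit 0) (nat_lit 58038489439) (nat_lit 76) (nat_lit 102048496969) (nat_lit 76) (nat_lit 80179648478) (nat_lit 16) (nat_lit 4) (nat_lit 17) (nat_lit 5) (nat_lit 17) (nat_lit 4) (nat_lit 521) (nat_lit 410) (nat_lit 269)) (XT.lf (nat_lit 0) (nat_lit 147422367791) (nat_lit 76) (nat_lit 62295619045) (nat_lit 76) (nat_lit 40425698139) (nat_lit 16) (nat_lit 4) (nat_lit 17) (nat_lit 5) (nat_lit 17) (nat_lit 4) (nat_lit 522) (nat_lit 410) (nat_lit 268))) (XT.nd (nat_lit 78) (nat_lit 76) (nat_lit 0) (XT.lf (nat_lit 0) (nat_lit 1269686433) (nat_lit 152) (nat_lit 19268085064) (nat_lit 76) (nat_lit 239975996042) (nat_lit 15) (nat_lit 5) (nat_lit 17) (nat_lit 5) (nat_lit 16) (nat_lit 4) (nat_lit 523) (nat_lit 410) (nat_lit 267)) (XT.lf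 (nat_lit 0) (nat_lit 45171652730) (nat_lit 152) (nat_lit 201782289123) (nat_lit 0) (nat_lit 24341257526) (nat_lit 14) (nat_lit 5) (nat_lit 16) (nat_lit 4) (nat_lit 14) (nat_lit 4) (nat_lit 524) (nat_lit 410) (nat_lit 266)))) (XT.nd (nat_lit 156) (nat_lit 76) (nat_lit 0) (XT.nd (nat_lit 78) (nat_lit 0) (nat_lit 0) (XT.lf (nat_lit 0) (nat_lit 91933121611) (nat_lit 152) (nat_lit 119547516876) (nat_lit 0) (nat_lit 71101844130) (nat_lit 14) (nat_lit 5) (nat_lit 16) (nat_lit 4) (nat_lit 14) (nat_lit 4) (nat_lit 525) (nat_lit 410) (nat_lit 265)) (XT.lf (nat_lit 0) (nat_lit 141028907489) (nat_lit 152) (nat_lit 33208620623) (nat_lit 0) (nat_lit 120196789743) (nat_lit 14) (nat_lit 5) (nat_lit 16) (nat_lit 4) (nat_lit 14) (nat_lit 4) (nat_lit 526) (nat_lit 410) (nat_lit 264))) (XT.nd (nat_lit 78) (nat_lit 0) (nat_lit 0) (XT.lf (nat_lit 0) (nat_lit 59339193198) (nat_lit 76) (nat_lit 134163162998) (nat_lit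 76) (nat_lit 113330245000) (nat_lit 13) (nat_lit 4) (nat_lit 14) (nat_lit 5) (nat_lit 14) (nat_lit 4) (nat_lit 527) (nat_lit 410) (nat_lit 263)) (XT.lf (nat_lit 0) (nat_lit 157660190996) (nat_lit 76) (nat_lit 91498171797) (nat_lit 76) (nat_lit 70664491655) (nat_lit 13) (nat_lit 4) (nat_lit 14) (nat_lit 5) (nat_lit 14) (nat_lit 4) (nat_lit 528) (nat_lit 410) (nat_lit 262))))) (XT.nd (nat_lit 312) (nat_lit 76) (nat_lit 0) (XT.nd (nat_lit 156) (nat_lit 0) (nat_lit 0) (XT.nd (nat_lit 78) (nat_lit 152) (nat_lit 0) (XT.lf (nat_lit 0) (nat_lit 260890443409) (nat_lit 76) (nat_lit 46703375257) (nat_lit 76) (nat_lit 25868969263) (nat_lit 13) (nat_lit 4) (nat_lit 14) (nat_lit 5) (nat_lit 14) (nat_lit 4) (nat_lit 529) (nat_lit 410) (nat_lit 261)) (XT.lf (nat_lit 0) (nat_lit 20843059018) (nat_lit 152) (nat_lit 325907317342) (nat_lit 0) (nat_lit 1000109226) (nat_lit 11) (nat_lit 5) (nat_lit 13) (nat_lit 4)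 (nat_lit 11) (nat_lit 4) (nat_lit 530) (nat_lit 410) (nat_lit 260))) (XT.nd (nat_lit 78) (nat_lit 0) (nat_lit 0) (XT.lf (nat_lit 0) (nat_lit 71032905259) (nat_lit 152) (nat_lit 240408551182) (nat_lit 0) (nat_lit 51189328449) (nat_lit 11) (nat_lit 5) (nat_lit 13) (nat_lit 4) (nat_lit 11) (nat_lit 4) (nat_lit 531) (nat_lit 410) (nat_lit 259)) (XT.lf (nat_lit 0) (nat_lit 123729156524) (nat_lit 152) (nat_lit 150641114458) (nat_lit 0) (nat_lit 103884982554) (nat_lit 11) (nat_lit 5) (nat_lit 13) (nat_lit 4) (nat_lit 11) (nat_lit 4) (nat_lit 532) (nat_lit 410) (nat_lit 258)))) (XT.nd (nat_lit 156) (nat_lit 0) (nat_lit 0) (XT.nd (nat_lit 78) (nat_lit 76) (nat_lit 0) (XT.lf (nat_lit 0) (nat_lit 179057280078) (nat_lit 152) (nat_lit 56391275178) (nat_lit 0) (nat_lit 159212537384) (nat_lit 11) (nat_lit 5) (nat_lit 13) (nat_lit 4) (nat_lit 11) (nat_lit 4) (nat_lit 533) (nat_lit 410) (nat_lit 257)) (XT.lf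 (nat_lit 0) (nat_lit 43972774435) (nat_lit 76) (nat_lit 193862773355) (nat_lit 76) (nat_lit 174017489019) (nat_lit 10) (nat_lit 4) (nat_lit 11) (nat_lit 5) (nat_lit 11) (nat_lit 4) (nat_lit 534) (nat_lit 410) (nat_lit 256))) (XT.nd (nat_lit 78) (nat_lit 0) (nat_lit 0) (XT.lf (nat_lit 0) (nat_lit 151307210934) (nat_lit 76) (nat_lit 149197777243) (nat_lit 76) (nat_lit 129351977058) (nat_lit 10) (nat_lit 4) (nat_lit 11) (nat_lit 5) (nat_lit 11) (nat_lit 4) (nat_lit 535) (nat_lit 410) (nat_lit 255)) (XT.lf (nat_lit 0) (nat_lit 264003042272) (nat_lit 76) (nat_lit 102302235222) (nat_lit 76) (nat_lit 82455943751) (nat_lit 10) (nat_lit 4) (nat_lit 11) (nat_lit 5) (nat_lit 11) (nat_lit 4) (nat_lit 536) (nat_lit 410) (nat_lit 254))))))))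
noncomputable def xc119 : XT := (XT.nd (nat_lit 53976) (nat_lit 0) (nat_lit 4940) (XT.nd (nat_lit 52728) (nat_lit 0) (nat_lit 9652) (XT.nd (nat_lit 546) (nat_lit 152) (nat_lit 0) (XT.nd (nat_lit 234) (nat_lit 76) (nat_lit 0) (XT.nd (nat_lit 78) (nat_lit 152) (nat_lit 0) (XT.lf (nat_lit 0) (nat_lit 382328591859) (nat_lit 76) (nat_lit 53064491239) (nat_lit 76) (nat_lit 33217731878) (nat_lit 10) (nat_lit 4) (nat_lit 11) (nat_lit 5) (nat_lit 11) (nat_lit 4) (nat_lit 537) (nat_lit 410) (nat_lit 253)) (XT.nd (nat_lit 78) (nat_lit 0) (nat_lit 0) (XT.lf (nat_lit 0) (nat_lit 17380336219) (nat_lit 76) (nat_lit 779439971) (nat_lit 152) (nat_lit 471265237240) (nat_lit 8) (nat_lit 5) (nat_lit 9) (nat_lit 5) (nat_lit 10) (nat_lit 4) (nat_lit 538) (nat_lit 410) (nat_lit 252)) (XT.lf (nat_lit 0) (nat_lit 73317557765) (nat_lit 152) (nat_lit 383403696204) (nat_lit 0) (nat_lit 54415053610) (nat_lit 8) (nat_lit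 5) (nat_lit 10) (nat_lit 4) (nat_lit 8) (nat_lit 4) (nat_lit 539) (nat_lit 410) (nat_lit 251)))) (XT.nd (nat_lit 156) (nat_lit 76) (nat_lit 0) (XT.nd (nat_lit 78) (nat_lit 0) (nat_lit 0) (XT.lf (nat_lit 0) (nat_lit 131243704371) (nat_lit 152) (nat_lit 290348122993) (nat_lit 0) (nat_lit 112340815282) (nat_lit 8) (nat_lit 5) (nat_lit 10) (nat_lit 4) (nat_lit 8) (nat_lit 4) (nat_lit 540) (nat_lit 410) (nat_lit 250)) (XT.lf (nat_lit 0) (nat_lit 192063966164) (nat_lit 152) (nat_lit 192644227448) (nat_lit 0) (nat_lit 173160710470) (nat_lit 8) (nat_lit 5) (nat_lit 10) (nat_lit 4) (nat_lit 8) (nat_lit 4) (nat_lit 541) (nat_lit 410) (nat_lit 249))) (XT.nd (nat_lit 78) (nat_lit 76) (nat_lit 0) (XT.lf (nat_lit 0) (nat_lit 255923153290) (nat_lit 152) (nat_lit 90059381246) (nat_lit 0) (nat_lit 237019548449) (nat_lit 8) (nat_lit 5) (nat_lit 10) (nat_lit 4) (nat_lit 8) (nat_lit 4) (nat_lit 542) (nat_lit 410)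 (nat_lit 248)) (XT.lf (nat_lit 0) (nat_lit 18234275952) (nat_lit 76) (nat_lit 305023723629) (nat_lit 76) (nat_lit 286119786267) (nat_lit 7) (nat_lit 4) (nat_lit 8) (nat_lit 5) (nat_lit 8) (nat_lit 4) (nat_lit 543) (nat_lit 410) (nat_lit 247))))) (XT.nd (nat_lit 312) (nat_lit 152) (nat_lit 0) (XT.nd (nat_lit 156) (nat_lit 0) (nat_lit 0) (XT.nd (nat_lit 78) (nat_lit 0) (nat_lit 0) (XT.lf (nat_lit 0) (nat_lit 135065297543) (nat_lit 76) (nat_lit 260417534098) (nat_lit 76) (nat_lit 241513280049) (nat_lit 7) (nat_lit 4) (nat_lit 8) (nat_lit 5) (nat_lit 8) (nat_lit 4) (nat_lit 544) (nat_lit 410) (nat_lit 246)) (XT.lf (nat_lit 0) (nat_lit 257734082761) (nat_lit 76) (nat_lit 213582959927) (nat_lit 76) (nat_lit 194678404272) (nat_lit 7) (nat_lit 4) (nat_lit 8) (nat_lit 5) (nat_lit 8) (nat_lit 4) (nat_lit 545) (nat_lit 410) (nat_lit 245))) (XT.nd (nat_lit 78) (nat_lit 0) (nat_lit 0) (XT.lf (nat_lit 0) (nat_lit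 386532700142) (nat_lit 76) (nat_lit 164408490227) (nat_lit 76) (nat_lit 145503647327) (nat_lit 7) (nat_lit 4) (nat_lit 8) (nat_lit 5) (nat_lit 8) (nat_lit 4) (nat_lit 546) (nat_lit 410) (nat_lit 244)) (XT.lf (nat_lit 0) (nat_lit 521767813061) (nat_lit 76) (nat_lit 112777042926) (nat_lit 76) (nat_lit 93871926460) (nat_lit 7) (nat_lit 4) (nat_lit 8) (nat_lit 5) (nat_lit 8) (nat_lit 4) (nat_lit 547) (nat_lit 410) (nat_lit 243)))) (XT.nd (nat_lit 156) (nat_lit 0) (nat_lit 0) (XT.nd (nat_lit 78) (nat_lit 152) (nat_lit 0) (XT.lf (nat_lit 0) (nat_lit 663761409881) (nat_lit 76) (nat_lit 58565686006) (nat_lit 76) (nat_lit 39660309001) (nat_lit 7) (nat_lit 4) (nat_lit 8) (nat_lit 5) (nat_lit 8) (nat_lit 4) (nat_lit 548) (nat_lit 410) (nat_lit 242)) (XT.lf (nat_lit 0) (nat_lit 15852844186) (nat_lit 76) (nat_lit 1102506703) (nat_lit 152) (nat_lit 780255434756) (nat_lit 5) (nat_lit 5) (nat_lit 6) (nat_lit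 5) (nat_lit 7) (nat_lit 4) (nat_lit 549) (nat_lit 410) (nat_lit 241))) (XT.nd (nat_lit 51636) (nat_lit 0) (nat_lit 12996) (XT.lf (nat_lit 0) (nat_lit 77682972034) (nat_lit 152) (nat_lit 696671764026) (nat_lit 0) (nat_lit 59677389697) (nat_lit 5) (nat_lit 5) (nat_lit 7) (nat_lit 4) (nat_lit 5) (nat_lit 4) (nat_lit 550) (nat_lit 410) (nat_lit 240)) (XT.lf (nat_lit 0) (nat_lit 1850922833) (nat_lit 0) (nat_lit 1850922833) (nat_lit 532) (nat_lit 217673774) (nat_lit 176) (nat_lit 5) (nat_lit 176) (nat_lit 3) (nat_lit 183) (nat_lit 3) (nat_lit 411) (nat_lit 411) (nat_lit 378)))))) (XT.nd (nat_lit 624) (nat_lit 2204) (nat_lit 0) (XT.nd (nat_lit 312) (nat_lit 456) (nat_lit 0) (XT.nd (nat_lit 156) (nat_lit 0) (nat_lit 76) (XT.nd (nat_lit 78) (nat_lit 0) (nat_lit 76) (XT.lf (nat_lit 0) (nat_lit 837193947) (nat_lit 684) (nat_lit 238984277) (nat_lit 684) (nat_lit 6895500505) (nat_lit 167) (nat_lit 3) (nat_lit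 176) (nat_lit 3) (nat_lit 176) (nat_lit 5) (nat_lit 412) (nat_lit 411) (nat_lit 377)) (XT.lf (nat_lit 0) (nat_lit 2166818146) (nat_lit 608) (nat_lit 4209441059) (nat_lit 684) (nat_lit 1733944763) (nat_lit 168) (nat_lit 5) (nat_lit 176) (nat_lit 5) (nat_lit 177) (nat_lit 5) (nat_lit 413) (nat_lit 411) (nat_lit 376))) (XT.nd (nat_lit 78) (nat_lit 0) (nat_lit 0) (XT.lf (nat_lit 0) (nat_lit 3507214769) (nat_lit 608) (nat_lit 63816217) (nat_lit 684) (nat_lit 4687423781) (nat_lit 168) (nat_lit 5) (nat_lit 176) (nat_lit 5) (nat_lit 177) (nat_lit 5) (nat_lit 414) (nat_lit 411) (nat_lit 375)) (XT.lf (nat_lit 76) (nat_lit 4385206775) (nat_lit 0) (nat_lit 524113894) (nat_lit 684) (nat_lit 3505076163) (nat_lit 169) (nat_lit 5) (nat_lit 168) (nat_lit 5) (nat_lit 177) (nat_lit 5) (nat_lit 415) (nat_lit 411) (nat_lit 374)))) (XT.nd (nat_lit 156) (nat_lit 608) (nat_lit 0) (XT.nd (nat_lit 78) (nat_lit 0) (nat_lit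 0) (XT.lf (nat_lit 76) (nat_lit 404464237) (nat_lit 0) (nat_lit 5955733275) (nat_lit 684) (nat_lit 2219017777) (nat_lit 170) (nat_lit 5) (nat_lit 169) (nat_lit 5) (nat_lit 178) (nat_lit 5) (nat_lit 416) (nat_lit 411) (nat_lit 373)) (XT.lf (nat_lit 76) (nat_lit 5144064458) (nat_lit 0) (nat_lit 2748357247) (nat_lit 684) (nat_lit 859424759) (nat_lit 170) (nat_lit 5) (nat_lit 169) (nat_lit 5) (nat_lit 178) (nat_lit 5) (nat_lit 417) (nat_lit 411) (nat_lit 372))) (XT.nd (nat_lit 78) (nat_lit 0) (nat_lit 0) (XT.lf (nat_lit 0) (nat_lit 512908672) (nat_lit 684) (nat_lit 7776072178) (nat_lit 760) (nat_lit 645548436) (nat_lit 161) (nat_lit 5) (nat_lit 170) (nat_lit 5) (nat_lit 171) (nat_lit 5) (nat_lit 418) (nat_lit 411) (nat_lit 371)) (XT.lf (nat_lit 0) (nat_lit 1969091600) (nat_lit 684) (nat_lit 2944571493) (nat_lit 760) (nat_lit 4209783294) (nat_lit 161) (nat_lit 5) (nat_lit 170) (nat_lit 5) (nat_lit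 171) (nat_lit 5) (nat_lit 419) (nat_lit 411) (nat_lit 370))))) (XT.nd (nat_lit 312) (nat_lit 1596) (nat_lit 0) (XT.nd (nat_lit 156) (nat_lit 608) (nat_lit 0) (XT.nd (nat_lit 78) (nat_lit 0) (nat_lit 76) (XT.lf (nat_lit 76) (nat_lit 2150282063) (nat_lit 0) (nat_lit 1321334424) (nat_lit 760) (nat_lit 5851526065) (nat_lit 162) (nat_lit 5) (nat_lit 161) (nat_lit 5) (nat_lit 171) (nat_lit 5) (nat_lit 420) (nat_lit 411) (nat_lit 369)) (XT.lf (nat_lit 0) (nat_lit 5080492376) (nat_lit 684) (nat_lit 2016673095) (nat_lit 76) (nat_lit 2434106194) (nat_lit 162) (nat_lit 5) (nat_lit 171) (nat_lit 5) (nat_lit 163) (nat_lit 5) (nat_lit 421) (nat_lit 411) (nat_lit 368))) (XT.nd (nat_lit 78) (nat_lit 0) (nat_lit 0) (XT.lf (nat_lit 0) (nat_lit 3438701687) (nat_lit 684) (nat_lit 3351486611) (nat_lit 760) (nat_lit 2958609059) (nat_lit 153) (nat_lit 5) (nat_lit 162) (nat_lit 5) (nat_lit 163) (nat_lit 5) (nat_lit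 422) (nat_lit 411) (nat_lit 367)) (XT.lf (nat_lit 0) (nat_lit 8576189831) (nat_lit 760) (nat_lit 797301550) (nat_lit 76) (nat_lit 604175420) (nat_lit 153) (nat_lit 5) (nat_lit 163) (nat_lit 5) (nat_lit 154) (nat_lit 5) (nat_lit 423) (nat_lit 411) (nat_lit 366)))) (XT.nd (nat_lit 156) (nat_lit 380) (nat_lit 0) (XT.nd (nat_lit 78) (nat_lit 380) (nat_lit 0) (XT.lf (nat_lit 0) (nat_lit 310753291) (nat_lit 836) (nat_lit 5167669772) (nat_lit 76) (nat_lit 4735146312) (nat_lit 142) (nat_lit 5) (nat_lit 153) (nat_lit 5) (nat_lit 143) (nat_lit 5) (nat_lit 424) (nat_lit 411) (nat_lit 365)) (XT.lf (nat_lit 0) (nat_lit 699966848) (nat_lit 380) (nat_lit 1336611564) (nat_lit 456) (nat_lit 8424793154) (nat_lit 137) (nat_lit 5) (nat_lit 142) (nat_lit 5) (nat_lit 143) (nat_lit 5) (nat_lit 425) (nat_lit 411) (nat_lit 364))) (XT.nd (nat_lit 78) (nat_lit 380) (nat_lit 0) (XT.lf (nat_lit 0) (nat_lit 3936753397) (nat_lit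 456) (nat_lit 3774501291) (nat_lit 76) (nat_lit 3005913250) (nat_lit 137) (nat_lit 5) (nat_lit 143) (nat_lit 5) (nat_lit 138) (nat_lit 5) (nat_lit 426) (nat_lit 411) (nat_lit 363)) (XT.lf (nat_lit 0) (nat_lit 2523711706) (nat_lit 380) (nat_lit 3423897983) (nat_lit 456) (nat_lit 5037367477) (nat_lit 132) (nat_lit 5) (nat_lit 137) (nat_lit 5) (nat_lit 138) (nat_lit 5) (nat_lit 427) (nat_lit 411) (nat_lit 362))))))) (XT.nd (nat_lit 1248) (nat_lit 1976) (nat_lit 0) (XT.nd (nat_lit 624) (nat_lit 1292) (nat_lit 0) (XT.nd (nat_lit 312) (nat_lit 684) (nat_lit 0) (XT.nd (nat_lit 156) (nat_lit 380) (nat_lit 0) (XT.nd (nat_lit 78) (nat_lit 380) (nat_lit 0) (XT.lf (nat_lit 0) (nat_lit 8096588781) (nat_lit 456) (nat_lit 2061306308) (nat_lit 76) (nat_lit 1106409115) (nat_lit 132) (nat_lit 5) (nat_lit 138) (nat_lit 5) (nat_lit 133) (nat_lit 5) (nat_lit 428) (nat_lit 411) (nat_lit 361)) (XT.lf (nat_lit 0) (nat_lit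 4707153631) (nat_lit 380) (nat_lit 5733371359) (nat_lit 456) (nat_lit 1112703243) (nat_lit 127) (nat_lit 5) (nat_lit 132) (nat_lit 5) (nat_lit 133) (nat_lit 5) (nat_lit 429) (nat_lit 411) (nat_lit 360))) (XT.nd (nat_lit 78) (nat_lit 304) (nat_lit 0) (XT.lf (nat_lit 0) (nat_lit 1005603157) (nat_lit 456) (nat_lit 32802090) (nat_lit 76) (nat_lit 10817683283) (nat_lit 126) (nat_lit 5) (nat_lit 132) (nat_lit 5) (nat_lit 127) (nat_lit 5) (nat_lit 430) (nat_lit 411) (nat_lit 359)) (XT.lf (nat_lit 0) (nat_lit 3329605724) (nat_lit 380) (nat_lit 4940472746) (nat_lit 76) (nat_lit 3896247797) (nat_lit 122) (nat_lit 5) (nat_lit 127) (nat_lit 5) (nat_lit 123) (nat_lit 5) (nat_lit 431) (nat_lit 411) (nat_lit 358)))) (XT.nd (nat_lit 156) (nat_lit 380) (nat_lit 0) (XT.nd (nat_lit 78) (nat_lit 0) (nat_lit 0) (XT.lf (nat_lit 0) (nat_lit 2369790007) (nat_lit 304) (nat_lit 3416205924) (nat_lit 380) (nat_lit 6705275556)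 (nat_lit 118) (nat_lit 5) (nat_lit 122) (nat_lit 5) (nat_lit 123) (nat_lit 5) (nat_lit 432) (nat_lit 411) (nat_lit 357)) (XT.lf (nat_lit 0) (nat_lit 8439093275) (nat_lit 380) (nat_lit 2685373373) (nat_lit 76) (nat_lit 1704307676) (nat_lit 118) (nat_lit 5) (nat_lit 123) (nat_lit 5) (nat_lit 119) (nat_lit 5) (nat_lit 433) (nat_lit 411) (nat_lit 356))) (XT.nd (nat_lit 78) (nat_lit 76) (nat_lit 0) (XT.lf (nat_lit 0) (nat_lit 5188236479) (nat_lit 304) (nat_lit 6138007264) (nat_lit 380) (nat_lit 1851843159) (nat_lit 114) (nat_lit 5) (nat_lit 118) (nat_lit 5) (nat_lit 119) (nat_lit 5) (nat_lit 434) (nat_lit 411) (nat_lit 355)) (XT.lf (nat_lit 0) (nat_lit 797927782) (nat_lit 380) (nat_lit 52078897) (nat_lit 76) (nat_lit 12693675021) (nat_lit 113) (nat_lit 5) (nat_lit 118) (nat_lit 5) (nat_lit 114) (nat_lit 5) (nat_lit 435) (nat_lit 411) (nat_lit 354))))) (XT.nd (nat_lit 312) (nat_lit 532) (nat_lit 0)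 (XT.nd (nat_lit 156) (nat_lit 228) (nat_lit 0) (XT.nd (nat_lit 78) (nat_lit 228) (nat_lit 0) (XT.lf (nat_lit 0) (nat_lit 3692817303) (nat_lit 380) (nat_lit 5516044733) (nat_lit 76) (nat_lit 4708436989) (nat_lit 109) (nat_lit 5) (nat_lit 114) (nat_lit 5) (nat_lit 110) (nat_lit 5) (nat_lit 436) (nat_lit 411) (nat_lit 353)) (XT.lf (nat_lit 0) (nat_lit 3008377328) (nat_lit 228) (nat_lit 3753175615) (nat_lit 304) (nat_lit 7546592905) (nat_lit 106) (nat_lit 5) (nat_lit 109) (nat_lit 5) (nat_lit 110) (nat_lit 5) (nat_lit 437) (nat_lit 411) (nat_lit 352))) (XT.nd (nat_lit 78) (nat_lit 228) (nat_lit 0) (XT.lf (nat_lit 0) (nat_lit 10077533266) (nat_lit 304) (nat_lit 2639901766) (nat_lit 76) (nat_lit 1996413119) (nat_lit 106) (nat_lit 5) (nat_lit 110) (nat_lit 5) (nat_lit 107) (nat_lit 5) (nat_lit 438) (nat_lit 411) (nat_lit 351)) (XT.lf (nat_lit 0) (nat_lit 6559281796) (nat_lit 228) (nat_lit 7133509617)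 (nat_lit 304) (nat_lit 1440373583) (nat_lit 103) (nat_lit 5) (nat_lit 106) (nat_lit 5) (nat_lit 107) (nat_lit 5) (nat_lit 439) (nat_lit 411) (nat_lit 350)))) (XT.nd (nat_lit 156) (nat_lit 228) (nat_lit 0) (XT.nd (nat_lit 78) (nat_lit 0) (nat_lit 0) (XT.lf (nat_lit 0) (nat_lit 687833595) (nat_lit 228) (nat_lit 1192264692) (nat_lit 304) (nat_lit 13690555382) (nat_lit 99) (nat_lit 5) (nat_lit 102) (nat_lit 5) (nat_lit 103) (nat_lit 5) (nat_lit 440) (nat_lit 411) (nat_lit 349)) (XT.lf (nat_lit 0) (nat_lit 5515001941) (nat_lit 304) (nat_lit 5460232187) (nat_lit 76) (nat_lit 5043764213) (nat_lit 99) (nat_lit 5) (nat_lit 103) (nat_lit 5) (nat_lit 100) (nat_lit 5) (nat_lit 441) (nat_lit 411) (nat_lit 348))) (XT.nd (nat_lit 78) (nat_lit 0) (nat_lit 0) (XT.lf (nat_lit 0) (nat_lit 4517576402) (nat_lit 228) (nat_lit 4876007047) (nat_lit 304) (nat_lit 7093082934) (nat_lit 96) (nat_lit 5) (nat_lit 99) (nat_lit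 5) (nat_lit 100) (nat_lit 5) (nat_lit 442) (nat_lit 411) (nat_lit 347)) (XT.lf (nat_lit 0) (nat_lit 13556306501) (nat_lit 304) (nat_lit 1856094026) (nat_lit 76) (nat_lit 1560809315) (nat_lit 96) (nat_lit 5) (nat_lit 100) (nat_lit 5) (nat_lit 97) (nat_lit 5) (nat_lit 443) (nat_lit 411) (nat_lit 346)))))) (XT.nd (nat_lit 624) (nat_lit 912) (nat_lit 0) (XT.nd (nat_lit 312) (nat_lit 456) (nat_lit 0) (XT.nd (nat_lit 156) (nat_lit 152) (nat_lit 0) (XT.nd (nat_lit 78) (nat_lit 228) (nat_lit 0) (XT.lf (nat_lit 0) (nat_lit 625086958) (nat_lit 228) (nat_lit 8555608437) (nat_lit 76) (nat_lit 8293232420) (nat_lit 93) (nat_lit 5) (nat_lit 96) (nat_lit 5) (nat_lit 94) (nat_lit 5) (nat_lit 444) (nat_lit 411) (nat_lit 345)) (XT.lf (nat_lit 0) (nat_lit 2274324817) (nat_lit 228) (nat_lit 2521384383) (nat_lit 304) (nat_lit 13199105886) (nat_lit 90) (nat_lit 5) (nat_lit 93) (nat_lit 5) (nat_lit 94) (nat_lit 5) (nat_lit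 445) (nat_lit 411) (nat_lit 344))) (XT.nd (nat_lit 78) (nat_lit 152) (nat_lit 0) (XT.lf (nat_lit 0) (nat_lit 9366259287) (nat_lit 304) (nat_lit 4704036923) (nat_lit 76) (nat_lit 4461882845) (nat_lit 90) (nat_lit 5) (nat_lit 94) (nat_lit 5) (nat_lit 91) (nat_lit 5) (nat_lit 446) (nat_lit 411) (nat_lit 343)) (XT.lf (nat_lit 0) (nat_lit 7007972815) (nat_lit 152) (nat_lit 7283659858) (nat_lit 228) (nat_lit 4798465825) (nat_lit 88) (nat_lit 5) (nat_lit 90) (nat_lit 5) (nat_lit 91) (nat_lit 5) (nat_lit 447) (nat_lit 411) (nat_lit 342)))) (XT.nd (nat_lit 156) (nat_lit 152) (nat_lit 0) (XT.nd (nat_lit 78) (nat_lit 304) (nat_lit 0) (XT.lf (nat_lit 0) (nat_lit 19431282208) (nat_lit 152) (nat_lit 87782330) (nat_lit 228) (nat_lit 154061854) (nat_lit 88) (nat_lit 5) (nat_lit 90) (nat_lit 5) (nat_lit 91) (nat_lit 5) (nat_lit 448) (nat_lit 411) (nat_lit 341)) (XT.lf (nat_lit 0) (nat_lit 4863925757) (nat_lit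 304) (nat_lit 7914268187) (nat_lit 76) (nat_lit 7488801155) (nat_lit 84) (nat_lit 5) (nat_lit 88) (nat_lit 5) (nat_lit 85) (nat_lit 5) (nat_lit 449) (nat_lit 411) (nat_lit 340))) (XT.nd (nat_lit 78) (nat_lit 0) (nat_lit 0) (XT.lf (nat_lit 0) (nat_lit 4808004881) (nat_lit 152) (nat_lit 5377514744) (nat_lit 228) (nat_lit 10702018817) (nat_lit 82) (nat_lit 5) (nat_lit 84) (nat_lit 5) (nat_lit 85) (nat_lit 5) (nat_lit 450) (nat_lit 411) (nat_lit 339)) (XT.lf (nat_lit 0) (nat_lit 15924301255) (nat_lit 228) (nat_lit 3168031862) (nat_lit 76) (nat_lit 2439222052) (nat_lit 82) (nat_lit 5) (nat_lit 85) (nat_lit 5) (nat_lit 83) (nat_lit 5) (nat_lit 451) (nat_lit 411) (nat_lit 338))))) (XT.nd (nat_lit 312) (nat_lit 380) (nat_lit 0) (XT.nd (nat_lit 156) (nat_lit 152) (nat_lit 0) (XT.nd (nat_lit 78) (nat_lit 228) (nat_lit 0) (XT.lf (nat_lit 0) (nat_lit 10604863319) (nat_lit 152) (nat_lit 11577471336) (nat_lit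 228) (nat_lit 13823986) (nat_lit 80) (nat_lit 5) (nat_lit 82) (nat_lit 5) (nat_lit 83) (nat_lit 5) (nat_lit 452) (nat_lit 411) (nat_lit 337)) (XT.lf (nat_lit 0) (nat_lit 2228465109) (nat_lit 152) (nat_lit 3511318769) (nat_lit 228) (nat_lit 17146233824) (nat_lit 77) (nat_lit 5) (nat_lit 79) (nat_lit 5) (nat_lit 80) (nat_lit 5) (nat_lit 453) (nat_lit 411) (nat_lit 336))) (XT.nd (nat_lit 78) (nat_lit 152) (nat_lit 0) (XT.lf (nat_lit 0) (nat_lit 12036501412) (nat_lit 228) (nat_lit 6575600229) (nat_lit 76) (nat_lit 4985463384) (nat_lit 77) (nat_lit 5) (nat_lit 80) (nat_lit 5) (nat_lit 78) (nat_lit 5) (nat_lit 454) (nat_lit 411) (nat_lit 335)) (XT.lf (nat_lit 0) (nat_lit 8387208607) (nat_lit 152) (nat_lit 10429319575) (nat_lit 228) (nat_lit 5519739133) (nat_lit 75) (nat_lit 5) (nat_lit 77) (nat_lit 5) (nat_lit 78) (nat_lit 5) (nat_lit 455) (nat_lit 411) (nat_lit 334)))) (XT.nd (nat_lit 156) (nat_lit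 152) (nat_lit 0) (XT.nd (nat_lit 78) (nat_lit 152) (nat_lit 0) (XT.lf (nat_lit 0) (nat_lit 890546471) (nat_lit 228) (nat_lit 828805258) (nat_lit 76) (nat_lit 23387248322) (nat_lit 74) (nat_lit 5) (nat_lit 77) (nat_lit 5) (nat_lit 75) (nat_lit 5) (nat_lit 456) (nat_lit 411) (nat_lit 333)) (XT.lf (nat_lit 0) (nat_lit 7778741333) (nat_lit 228) (nat_lit 10603159576) (nat_lit 76) (nat_lit 7511880513) (nat_lit 72) (nat_lit 5) (nat_lit 75) (nat_lit 5) (nat_lit 73) (nat_lit 5) (nat_lit 457) (nat_lit 411) (nat_lit 332))) (XT.nd (nat_lit 78) (nat_lit 0) (nat_lit 0) (XT.lf (nat_lit 0) (nat_lit 5644626964) (nat_lit 152) (nat_lit 9478511511) (nat_lit 228) (nat_lit 11591594805) (nat_lit 70) (nat_lit 5) (nat_lit 72) (nat_lit 5) (nat_lit 73) (nat_lit 5) (nat_lit 458) (nat_lit 411) (nat_lit 331)) (XT.lf (nat_lit 0) (nat_lit 22996626030) (nat_lit 228) (nat_lit 4528718548) (nat_lit 76) (nat_lit 43295618) (nat_lit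 70) (nat_lit 5) (nat_lit 73) (nat_lit 5) (nat_lit 71) (nat_lit 4) (nat_lit 459) (nat_lit 411) (nat_lit 330))))))))
noncomputable def xc120 : XT := (XT.nd (nat_lit 2418) (nat_lit 1596) (nat_lit 0) (XT.nd (nat_lit 1170) (nat_lit 1064) (nat_lit 0) (XT.nd (nat_lit 546) (nat_lit 684) (nat_lit 0) (XT.nd (nat_lit 234) (nat_lit 380) (nat_lit 0) (XT.nd (nat_lit 78) (nat_lit 152) (nat_lit 0) (XT.lf (nat_lit 0) (nat_lit 3056313691) (nat_lit 152) (nat_lit 15426135002) (nat_lit 76) (nat_lit 9963243055) (nat_lit 68) (nat_lit 5) (nat_lit 70) (nat_lit 5) (nat_lit 69) (nat_lit 5) (nat_lit 460) (nat_lit 411) (nat_lit 329)) (XT.nd (nat_lit 78) (nat_lit 0) (nat_lit 0) (XT.lf (nat_lit 0) (nat_lit 2202519543) (nat_lit 152) (nat_lit 8804578328) (nat_lit 228) (nat_lit 18351016832) (nat_lit 66) (nat_lit 5) (nat_lit 68) (nat_lit 5) (nat_lit 69) (nat_lit 5) (nat_lit 461) (nat_lit 411) (nat_lit 328)) (XT.lf (nat_lit 0)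 (nat_lit 19624634775) (nat_lit 228) (nat_lit 9112023588) (nat_lit 76) (nat_lit 1566040586) (nat_lit 66) (nat_lit 5) (nat_lit 69) (nat_lit 5) (nat_lit 67) (nat_lit 4) (nat_lit 462) (nat_lit 411) (nat_lit 327)))) (XT.nd (nat_lit 156) (nat_lit 228) (nat_lit 0) (XT.nd (nat_lit 78) (nat_lit 76) (nat_lit 0) (XT.lf (nat_lit 0) (nat_lit 9978651833) (nat_lit 76) (nat_lit 18977854676) (nat_lit 152) (nat_lit 2323833778) (nat_lit 65) (nat_lit 5) (nat_lit 66) (nat_lit 5) (nat_lit 67) (nat_lit 4) (nat_lit 463) (nat_lit 411) (nat_lit 326)) (XT.lf (nat_lit 0) (nat_lit 6381963384) (nat_lit 152) (nat_lit 2092321531) (nat_lit 76) (nat_lit 23820534084) (nat_lit 64) (nat_lit 5) (nat_lit 66) (nat_lit 5) (nat_lit 65) (nat_lit 5) (nat_lit 464) (nat_lit 411) (nat_lit 325))) (XT.nd (nat_lit 78) (nat_lit 76) (nat_lit 0) (XT.lf (nat_lit 0) (nat_lit 15764696077) (nat_lit 228) (nat_lit 14783262342) (nat_lit 76) (nat_lit 2794172030)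 (nat_lit 62) (nat_lit 5) (nat_lit 65) (nat_lit 5) (nat_lit 63) (nat_lit 4) (nat_lit 465) (nat_lit 411) (nat_lit 324)) (XT.lf (nat_lit 0) (nat_lit 5895556551) (nat_lit 76) (nat_lit 19972285193) (nat_lit 152) (nat_lit 8561402553) (nat_lit 61) (nat_lit 5) (nat_lit 62) (nat_lit 5) (nat_lit 63) (nat_lit 4) (nat_lit 466) (nat_lit 411) (nat_lit 323))))) (XT.nd (nat_lit 312) (nat_lit 380) (nat_lit 0) (XT.nd (nat_lit 156) (nat_lit 76) (nat_lit 0) (XT.nd (nat_lit 78) (nat_lit 152) (nat_lit 0) (XT.lf (nat_lit 0) (nat_lit 1115261137) (nat_lit 152) (nat_lit 7483787937) (nat_lit 76) (nat_lit 26959018043) (nat_lit 60) (nat_lit 5) (nat_lit 62) (nat_lit 5) (nat_lit 61) (nat_lit 5) (nat_lit 467) (nat_lit 411) (nat_lit 322)) (XT.lf (nat_lit 0) (nat_lit 11264320122) (nat_lit 228) (nat_lit 21854992390) (nat_lit 76) (nat_lit 3603187507) (nat_lit 58) (nat_lit 5) (nat_lit 61) (nat_lit 5) (nat_lit 59) (nat_lit 4) (nat_lit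 468) (nat_lit 411) (nat_lit 321))) (XT.nd (nat_lit 78) (nat_lit 0) (nat_lit 0) (XT.lf (nat_lit 0) (nat_lit 502791595) (nat_lit 76) (nat_lit 21680859522) (nat_lit 152) (nat_lit 15748363024) (nat_lit 57) (nat_lit 5) (nat_lit 58) (nat_lit 5) (nat_lit 59) (nat_lit 4) (nat_lit 469) (nat_lit 411) (nat_lit 320)) (XT.lf (nat_lit 0) (nat_lit 24710040512) (nat_lit 76) (nat_lit 9294496048) (nat_lit 152) (nat_lit 5179688515) (nat_lit 57) (nat_lit 5) (nat_lit 58) (nat_lit 5) (nat_lit 59) (nat_lit 4) (nat_lit 470) (nat_lit 411) (nat_lit 319)))) (XT.nd (nat_lit 156) (nat_lit 152) (nat_lit 0) (XT.nd (nat_lit 78) (nat_lit 0) (nat_lit 0) (XT.lf (nat_lit 0) (nat_lit 5929117453) (nat_lit 228) (nat_lit 30724936115) (nat_lit 76) (nat_lit 3830319463) (nat_lit 54) (nat_lit 5) (nat_lit 57) (nat_lit 5) (nat_lit 55) (nat_lit 4) (nat_lit 471) (nat_lit 411) (nat_lit 318)) (XT.lf (nat_lit 0) (nat_lit 17806810738) (nat_lit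 228) (nat_lit 6397749962) (nat_lit 76) (nat_lit 17621346546) (nat_lit 54) (nat_lit 5) (nat_lit 57) (nat_lit 5) (nat_lit 55) (nat_lit 4) (nat_lit 472) (nat_lit 411) (nat_lit 317))) (XT.nd (nat_lit 78) (nat_lit 76) (nat_lit 0) (XT.lf (nat_lit 0) (nat_lit 19752839997) (nat_lit 76) (nat_lit 10820616288) (nat_lit 152) (nat_lit 12646308921) (nat_lit 53) (nat_lit 5) (nat_lit 54) (nat_lit 5) (nat_lit 55) (nat_lit 4) (nat_lit 473) (nat_lit 411) (nat_lit 316)) (XT.lf (nat_lit 0) (nat_lit 2766232134) (nat_lit 76) (nat_lit 41402720720) (nat_lit 76) (nat_lit 504837665) (nat_lit 52) (nat_lit 4) (nat_lit 53) (nat_lit 5) (nat_lit 53) (nat_lit 4) (nat_lit 474) (nat_lit 411) (nat_lit 315)))))) (XT.nd (nat_lit 624) (nat_lit 532) (nat_lit 0) (XT.nd (nat_lit 312) (nat_lit 228) (nat_lit 0) (XT.nd (nat_lit 156) (nat_lit 152) (nat_lit 0) (XT.nd (nat_lit 78) (nat_lit 76) (nat_lit 0) (XT.lf (nat_lit 0) (nat_lit 12419924377)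 (nat_lit 152) (nat_lit 15455207533) (nat_lit 76) (nat_lit 18287423001) (nat_lit 51) (nat_lit 5) (nat_lit 53) (nat_lit 5) (nat_lit 52) (nat_lit 4) (nat_lit 475) (nat_lit 411) (nat_lit 314)) (XT.lf (nat_lit 0) (nat_lit 12693698909) (nat_lit 76) (nat_lit 13465840434) (nat_lit 152) (nat_lit 21556525683) (nat_lit 50) (nat_lit 5) (nat_lit 51) (nat_lit 5) (nat_lit 52) (nat_lit 4) (nat_lit 476) (nat_lit 411) (nat_lit 313))) (XT.nd (nat_lit 78) (nat_lit 152) (nat_lit 0) (XT.lf (nat_lit 0) (nat_lit 40865596235) (nat_lit 152) (nat_lit 6601930178) (nat_lit 0) (nat_lit 1865751499) (nat_lit 50) (nat_lit 5) (nat_lit 52) (nat_lit 4) (nat_lit 50) (nat_lit 4) (nat_lit 477) (nat_lit 411) (nat_lit 312)) (XT.lf (nat_lit 0) (nat_lit 5695954924) (nat_lit 152) (nat_lit 27338085193) (nat_lit 76) (nat_lit 17963733136) (nat_lit 48) (nat_lit 5) (nat_lit 50) (nat_lit 5) (nat_lit 49) (nat_lit 4) (nat_lit 478) (nat_lit 411)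 (nat_lit 311)))) (XT.nd (nat_lit 156) (nat_lit 152) (nat_lit 0) (XT.nd (nat_lit 78) (nat_lit 0) (nat_lit 0) (XT.lf (nat_lit 0) (nat_lit 2851306890) (nat_lit 76) (nat_lit 17578125265) (nat_lit 152) (nat_lit 32301809341) (nat_lit 47) (nat_lit 5) (nat_lit 48) (nat_lit 5) (nat_lit 49) (nat_lit 4) (nat_lit 479) (nat_lit 411) (nat_lit 310)) (XT.lf (nat_lit 0) (nat_lit 35476662345) (nat_lit 76) (nat_lit 874191165) (nat_lit 152) (nat_lit 18177966394) (nat_lit 47) (nat_lit 5) (nat_lit 48) (nat_lit 5) (nat_lit 49) (nat_lit 4) (nat_lit 480) (nat_lit 411) (nat_lit 309))) (XT.nd (nat_lit 78) (nat_lit 76) (nat_lit 0) (XT.lf (nat_lit 0) (nat_lit 13465872581) (nat_lit 76) (nat_lit 40061581903) (nat_lit 76) (nat_lit 2865867576) (nat_lit 46) (nat_lit 4) (nat_lit 47) (nat_lit 5) (nat_lit 47) (nat_lit 4) (nat_lit 481) (nat_lit 411) (nat_lit 308)) (XT.lf (nat_lit 0) (nat_lit 13119954464) (nat_lit 152) (nat_lit 10311519865)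 (nat_lit 76) (nat_lit 34892712558) (nat_lit 45) (nat_lit 5) (nat_lit 47) (nat_lit 5) (nat_lit 46) (nat_lit 4) (nat_lit 482) (nat_lit 411) (nat_lit 307))))) (XT.nd (nat_lit 312) (nat_lit 228) (nat_lit 0) (XT.nd (nat_lit 156) (nat_lit 228) (nat_lit 0) (XT.nd (nat_lit 78) (nat_lit 0) (nat_lit 0) (XT.lf (nat_lit 0) (nat_lit 24656470324) (nat_lit 76) (nat_lit 5526481532) (nat_lit 152) (nat_lit 30147584435) (nat_lit 44) (nat_lit 5) (nat_lit 45) (nat_lit 5) (nat_lit 46) (nat_lit 4) (nat_lit 483) (nat_lit 411) (nat_lit 306)) (XT.lf (nat_lit 0) (nat_lit 48473107546) (nat_lit 152) (nat_lit 928672895) (nat_lit 0) (nat_lit 13016722513) (nat_lit 44) (nat_lit 5) (nat_lit 46) (nat_lit 4) (nat_lit 44) (nat_lit 4) (nat_lit 484) (nat_lit 411) (nat_lit 305))) (XT.nd (nat_lit 78) (nat_lit 76) (nat_lit 0) (XT.lf (nat_lit 0) (nat_lit 3631483806) (nat_lit 152) (nat_lit 28021478878) (nat_lit 76) (nat_lit 32922374269)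 (nat_lit 42) (nat_lit 5) (nat_lit 44) (nat_lit 5) (nat_lit 43) (nat_lit 4) (nat_lit 485) (nat_lit 411) (nat_lit 304)) (XT.lf (nat_lit 0) (nat_lit 9147467444) (nat_lit 76) (nat_lit 12619686181) (nat_lit 152) (nat_lit 45053998385) (nat_lit 41) (nat_lit 5) (nat_lit 42) (nat_lit 5) (nat_lit 43) (nat_lit 4) (nat_lit 486) (nat_lit 411) (nat_lit 303)))) (XT.nd (nat_lit 156) (nat_lit 152) (nat_lit 0) (XT.nd (nat_lit 78) (nat_lit 76) (nat_lit 0) (XT.lf (nat_lit 0) (nat_lit 41396765216) (nat_lit 152) (nat_lit 20150595652) (nat_lit 0) (nat_lit 7602539211) (nat_lit 41) (nat_lit 5) (nat_lit 43) (nat_lit 4) (nat_lit 41) (nat_lit 4) (nat_lit 487) (nat_lit 411) (nat_lit 302)) (XT.lf (nat_lit 0) (nat_lit 19651699613) (nat_lit 76) (nat_lit 42860169398) (nat_lit 76) (nat_lit 9058016121) (nat_lit 40) (nat_lit 4) (nat_lit 41) (nat_lit 5) (nat_lit 41) (nat_lit 4) (nat_lit 488) (nat_lit 411) (nat_lit 301))) (XT.nd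 (nat_lit 78) (nat_lit 76) (nat_lit 0) (XT.lf (nat_lit 0) (nat_lit 10570673528) (nat_lit 152) (nat_lit 12139822325) (nat_lit 76) (nat_lit 51375261894) (nat_lit 39) (nat_lit 5) (nat_lit 41) (nat_lit 5) (nat_lit 40) (nat_lit 4) (nat_lit 489) (nat_lit 411) (nat_lit 300)) (XT.lf (nat_lit 0) (nat_lit 30434924181) (nat_lit 76) (nat_lit 907425823) (nat_lit 152) (nat_lit 45354351472) (nat_lit 38) (nat_lit 5) (nat_lit 39) (nat_lit 5) (nat_lit 40) (nat_lit 4) (nat_lit 490) (nat_lit 411) (nat_lit 299))))))) (XT.nd (nat_lit 1170) (nat_lit 684) (nat_lit 0) (XT.nd (nat_lit 546) (nat_lit 456) (nat_lit 0) (XT.nd (nat_lit 234) (nat_lit 228) (nat_lit 0) (XT.nd (nat_lit 78) (nat_lit 228) (nat_lit 0) (XT.lf (nat_lit 0) (nat_lit 53695643462) (nat_lit 152) (nat_lit 4232840803) (nat_lit 0) (nat_lit 21482556602) (nat_lit 38) (nat_lit 5) (nat_lit 40) (nat_lit 4) (nat_lit 38) (nat_lit 4) (nat_lit 491) (nat_lit 411) (nat_lit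 298)) (XT.nd (nat_lit 78) (nat_lit 152) (nat_lit 0) (XT.lf (nat_lit 0) (nat_lit 41183487845) (nat_lit 76) (nat_lit 36632225992) (nat_lit 76) (nat_lit 4412927908) (nat_lit 37) (nat_lit 4) (nat_lit 38) (nat_lit 5) (nat_lit 38) (nat_lit 4) (nat_lit 492) (nat_lit 411) (nat_lit 297)) (XT.lf (nat_lit 0) (nat_lit 3652124478) (nat_lit 76) (nat_lit 13849016016) (nat_lit 152) (nat_lit 67665909314) (nat_lit 35) (nat_lit 5) (nat_lit 36) (nat_lit 5) (nat_lit 37) (nat_lit 4) (nat_lit 493) (nat_lit 411) (nat_lit 296)))) (XT.nd (nat_lit 156) (nat_lit 152) (nat_lit 0) (XT.nd (nat_lit 78) (nat_lit 76) (nat_lit 0) (XT.lf (nat_lit 0) (nat_lit 41217672292) (nat_lit 152) (nat_lit 36466708529) (nat_lit 0) (nat_lit 10521627245) (nat_lit 35) (nat_lit 5) (nat_lit 37) (nat_lit 4) (nat_lit 35) (nat_lit 4) (nat_lit 494) (nat_lit 411) (nat_lit 295)) (XT.lf (nat_lit 0) (nat_lit 10940540941) (nat_lit 76) (nat_lit 55569025818)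 (nat_lit 76) (nat_lit 24867870781) (nat_lit 34) (nat_lit 4) (nat_lit 35) (nat_lit 5) (nat_lit 35) (nat_lit 4) (nat_lit 495) (nat_lit 411) (nat_lit 294))) (XT.nd (nat_lit 78) (nat_lit 152) (nat_lit 0) (XT.lf (nat_lit 0) (nat_lit 61967950210) (nat_lit 76) (nat_lit 31707519687) (nat_lit 76) (nat_lit 1001497993) (nat_lit 34) (nat_lit 4) (nat_lit 35) (nat_lit 5) (nat_lit 35) (nat_lit 4) (nat_lit 496) (nat_lit 411) (nat_lit 293)) (XT.lf (nat_lit 0) (nat_lit 17576463552) (nat_lit 76) (nat_lit 5978229207) (nat_lit 152) (nat_lit 74554675709) (nat_lit 32) (nat_lit 5) (nat_lit 33) (nat_lit 5) (nat_lit 34) (nat_lit 4) (nat_lit 497) (nat_lit 411) (nat_lit 292))))) (XT.nd (nat_lit 312) (nat_lit 228) (nat_lit 0) (XT.nd (nat_lit 156) (nat_lit 152) (nat_lit 0) (XT.nd (nat_lit 78) (nat_lit 76) (nat_lit 0) (XT.lf (nat_lit 0) (nat_lit 50188623351) (nat_lit 152) (nat_lit 30543590589) (nat_lit 0) (nat_lit 20936174963)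 (nat_lit 32) (nat_lit 5) (nat_lit 34) (nat_lit 4) (nat_lit 32) (nat_lit 4) (nat_lit 498) (nat_lit 411) (nat_lit 291)) (XT.lf (nat_lit 0) (nat_lit 22554059327) (nat_lit 76) (nat_lit 56042811156) (nat_lit 76) (nat_lit 26786358958) (nat_lit 31) (nat_lit 4) (nat_lit 32) (nat_lit 5) (nat_lit 32) (nat_lit 4) (nat_lit 499) (nat_lit 411) (nat_lit 290))) (XT.nd (nat_lit 78) (nat_lit 152) (nat_lit 0) (XT.lf (nat_lit 0) (nat_lit 79352241004) (nat_lit 76) (nat_lit 29583171162) (nat_lit 76) (nat_lit 322905810) (nat_lit 31) (nat_lit 4) (nat_lit 32) (nat_lit 5) (nat_lit 32) (nat_lit 4) (nat_lit 500) (nat_lit 411) (nat_lit 289)) (XT.lf (nat_lit 0) (nat_lit 26053986314) (nat_lit 76) (nat_lit 930346973) (nat_lit 152) (nat_lit 86301407247) (nat_lit 29) (nat_lit 5) (nat_lit 30) (nat_lit 5) (nat_lit 31) (nat_lit 4) (nat_lit 501) (nat_lit 411) (nat_lit 288)))) (XT.nd (nat_lit 156) (nat_lit 152) (nat_lit 0) (XT.nd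 (nat_lit 78) (nat_lit 76) (nat_lit 0) (XT.lf (nat_lit 0) (nat_lit 56608911881) (nat_lit 152) (nat_lit 32121976353) (nat_lit 0) (nat_lit 28735239912) (nat_lit 29) (nat_lit 5) (nat_lit 31) (nat_lit 4) (nat_lit 29) (nat_lit 4) (nat_lit 502) (nat_lit 411) (nat_lit 287)) (XT.lf (nat_lit 0) (nat_lit 26564654063) (nat_lit 76) (nat_lit 61573265106) (nat_lit 76) (nat_lit 33696456047) (nat_lit 28) (nat_lit 4) (nat_lit 29) (nat_lit 5) (nat_lit 29) (nat_lit 4) (nat_lit 503) (nat_lit 411) (nat_lit 286))) (XT.nd (nat_lit 78) (nat_lit 152) (nat_lit 0) (XT.lf (nat_lit 0) (nat_lit 89287418575) (nat_lit 76) (nat_lit 32493273563) (nat_lit 76) (nat_lit 4613476798) (nat_lit 28) (nat_lit 4) (nat_lit 29) (nat_lit 5) (nat_lit 29) (nat_lit 4) (nat_lit 504) (nat_lit 411) (nat_lit 285)) (XT.lf (nat_lit 0) (nat_lit 24325210915) (nat_lit 76) (nat_lit 1142034506) (nat_lit 152) (nat_lit 105675804295) (nat_lit 26) (nat_lit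 5) (nat_lit 27) (nat_lit 5) (nat_lit 28) (nat_lit 4) (nat_lit 505) (nat_lit 411) (nat_lit 284)))))) (XT.nd (nat_lit 624) (nat_lit 380) (nat_lit 0) (XT.nd (nat_lit 312) (nat_lit 76) (nat_lit 0) (XT.nd (nat_lit 156) (nat_lit 152) (nat_lit 0) (XT.nd (nat_lit 78) (nat_lit 76) (nat_lit 0) (XT.lf (nat_lit 0) (nat_lit 58025344736) (nat_lit 152) (nat_lit 46575962598) (nat_lit 0) (nat_lit 31467866512) (nat_lit 26) (nat_lit 5) (nat_lit 28) (nat_lit 4) (nat_lit 26) (nat_lit 4) (nat_lit 506) (nat_lit 411) (nat_lit 283)) (XT.lf (nat_lit 0) (nat_lit 17197341371) (nat_lit 76) (nat_lit 75295072909) (nat_lit 76) (nat_lit 48735136693) (nat_lit 25) (nat_lit 4) (nat_lit 26) (nat_lit 5) (nat_lit 26) (nat_lit 4) (nat_lit 507) (nat_lit 411) (nat_lit 282))) (XT.nd (nat_lit 78) (nat_lit 152) (nat_lit 0) (XT.lf (nat_lit 0) (nat_lit 85764155762) (nat_lit 76) (nat_lit 43701415844) (nat_lit 76) (nat_lit 17139138683) (nat_lit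 25) (nat_lit 4) (nat_lit 26) (nat_lit 5) (nat_lit 26) (nat_lit 4) (nat_lit 508) (nat_lit 411) (nat_lit 281)) (XT.lf (nat_lit 0) (nat_lit 5419895203) (nat_lit 76) (nat_lit 10182252034) (nat_lit 152) (nat_lit 136632123455) (nat_lit 23) (nat_lit 5) (nat_lit 24) (nat_lit 5) (nat_lit 25) (nat_lit 4) (nat_lit 509) (nat_lit 411) (nat_lit 280)))) (XT.nd (nat_lit 156) (nat_lit 76) (nat_lit 0) (XT.nd (nat_lit 78) (nat_lit 0) (nat_lit 0) (XT.lf (nat_lit 0) (nat_lit 50836434920) (nat_lit 152) (nat_lit 81688346919) (nat_lit 0) (nat_lit 25534882596) (nat_lit 23) (nat_lit 5) (nat_lit 25) (nat_lit 4) (nat_lit 23) (nat_lit 4) (nat_lit 510) (nat_lit 411) (nat_lit 279)) (XT.lf (nat_lit 0) (nat_lit 87993786264) (nat_lit 152) (nat_lit 13484166139) (nat_lit 0) (nat_lit 62690308039) (nat_lit 23) (nat_lit 5) (nat_lit 25) (nat_lit 4) (nat_lit 23) (nat_lit 4) (nat_lit 511) (nat_lit 411) (nat_lit 278))) (XT.nd (nat_lit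 78) (nat_lit 0) (nat_lit 0) (XT.lf (nat_lit 0) (nat_lit 60041225425) (nat_lit 76) (nat_lit 67899884033) (nat_lit 76) (nat_lit 42594571616) (nat_lit 22) (nat_lit 4) (nat_lit 23) (nat_lit 5) (nat_lit 23) (nat_lit 4) (nat_lit 512) (nat_lit 411) (nat_lit 277)) (XT.lf (nat_lit 0) (nat_lit 137700506395) (nat_lit 76) (nat_lit 32408434275) (nat_lit 76) (nat_lit 7101375009) (nat_lit 22) (nat_lit 4) (nat_lit 23) (nat_lit 5) (nat_lit 23) (nat_lit 4) (nat_lit 513) (nat_lit 411) (nat_lit 276))))) (XT.nd (nat_lit 312) (nat_lit 152) (nat_lit 0) (XT.nd (nat_lit 156) (nat_lit 76) (nat_lit 0) (XT.nd (nat_lit 78) (nat_lit 0) (nat_lit 0) (XT.lf (nat_lit 0) (nat_lit 29845672108) (nat_lit 152) (nat_lit 148575098993) (nat_lit 0) (nat_lit 5742126458) (nat_lit 20) (nat_lit 5) (nat_lit 22) (nat_lit 4) (nat_lit 20) (nat_lit 4) (nat_lit 514) (nat_lit 411) (nat_lit 275)) (XT.lf (nat_lit 0) (nat_lit 69607744690) (nat_lit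 152) (nat_lit 76286536733) (nat_lit 0) (nat_lit 45502690047) (nat_lit 20) (nat_lit 5) (nat_lit 22) (nat_lit 4) (nat_lit 20) (nat_lit 4) (nat_lit 515) (nat_lit 411) (nat_lit 274))) (XT.nd (nat_lit 78) (nat_lit 76) (nat_lit 0) (XT.lf (nat_lit 0) (nat_lit 111353114413) (nat_lit 152) (nat_lit 393252385) (nat_lit 0) (nat_lit 87246622632) (nat_lit 20) (nat_lit 5) (nat_lit 22) (nat_lit 4) (nat_lit 20) (nat_lit 4) (nat_lit 516) (nat_lit 411) (nat_lit 273)) (XT.lf (nat_lit 0) (nat_lit 81906987463) (nat_lit 76) (nat_lit 74552985169) (nat_lit 76) (nat_lit 50445124685) (nat_lit 19) (nat_lit 4) (nat_lit 20) (nat_lit 5) (nat_lit 20) (nat_lit 4) (nat_lit 517) (nat_lit 411) (nat_lit 272)))) (XT.nd (nat_lit 156) (nat_lit 0) (nat_lit 0) (XT.nd (nat_lit 78) (nat_lit 152) (nat_lit 0) (XT.lf (nat_lit 0) (nat_lit 168326797401) (nat_lit 76) (nat_lit 35497534659) (nat_lit 76) (nat_lit 11388370650) (nat_lit 19) (nat_lit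 4) (nat_lit 20) (nat_lit 5) (nat_lit 20) (nat_lit 4) (nat_lit 518) (nat_lit 411) (nat_lit 271)) (XT.lf (nat_lit 0) (nat_lit 29330555883) (nat_lit 152) (nat_lit 188180874092) (nat_lit 0) (nat_lit 6368264966) (nat_lit 17) (nat_lit 5) (nat_lit 19) (nat_lit 4) (nat_lit 17) (nat_lit 4) (nat_lit 519) (nat_lit 411) (nat_lit 270))) (XT.nd (nat_lit 78) (nat_lit 0) (nat_lit 0) (XT.lf (nat_lit 0) (nat_lit 73087330390) (nat_lit 152) (nat_lit 109690226968) (nat_lit 0) (nat_lit 50123913439) (nat_lit 17) (nat_lit 5) (nat_lit 19) (nat_lit 4) (nat_lit 17) (nat_lit 4) (nat_lit 520) (nat_lit 411) (nat_lit 269)) (XT.lf (nat_lit 0) (nat_lit 119027797254) (nat_lit 152) (nat_lit 27283437644) (nat_lit 0) (nat_lit 96063307889) (nat_lit 17) (nat_lit 5) (nat_lit 19) (nat_lit 4) (nat_lit 17) (nat_lit 4) (nat_lit 521) (nat_lit 411) (nat_lit 268))))))))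
noncomputable def xc121 : XT := (XT.nd (nat_lit 54054) (nat_lit 0) (nat_lit 6916) (XT.nd (nat_lit 1170) (nat_lit 380) (nat_lit 0) (XT.nd (nat_lit 546) (nat_lit 228) (nat_lit 0) (XT.nd (nat_lit 234) (nat_lit 152) (nat_lit 0) (XT.nd (nat_lit 78) (nat_lit 76) (nat_lit 0) (XT.lf (nat_lit 0) (nat_lit 61194300296) (nat_lit 76) (nat_lit 107022452766) (nat_lit 76) (nat_lit 84056942054) (nat_lit 16) (nat_lit 4) (nat_lit 17) (nat_lit 5) (nat_lit 17) (nat_lit 4) (nat_lit 522) (nat_lit 411) (nat_lit 267)) (XT.nd (nat_lit 78) (nat_lit 76) (nat_lit 0) (XT.lf (nat_lit 0) (nat_lit 155035282738) (nat_lit 76) (nat_lit 65288048519) (nat_lit 76) (nat_lit 42321565096) (nat_lit 16) (nat_lit 4) (nat_lit 17) (nat_lit 5) (nat_lit 17) (nat_lit 4) (nat_lit 523) (nat_lit 411) (nat_lit 266)) (XT.lf (nat_lit 0) (nat_lit 1448793414) (nat_lit 152) (nat_lit 19997383314) (nat_lit 76) (nat_lit 252087497494) (nat_lit 15) (nat_lit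 5) (nat_lit 17) (nat_lit 5) (nat_lit 16) (nat_lit 4) (nat_lit 524) (nat_lit 411) (nat_lit 265)))) (XT.nd (nat_lit 156) (nat_lit 76) (nat_lit 0) (XT.nd (nat_lit 78) (nat_lit 0) (nat_lit 0) (XT.lf (nat_lit 0) (nat_lit 47545769004) (nat_lit 152) (nat_lit 211637208022) (nat_lit 0) (nat_lit 25671205107) (nat_lit 14) (nat_lit 5) (nat_lit 16) (nat_lit 4) (nat_lit 14) (nat_lit 4) (nat_lit 525) (nat_lit 411) (nat_lit 264)) (XT.lf (nat_lit 0) (nat_lit 96639809727) (nat_lit 152) (nat_lit 125301849332) (nat_lit 0) (nat_lit 74764445578) (nat_lit 14) (nat_lit 5) (nat_lit 16) (nat_lit 4) (nat_lit 14) (nat_lit 4) (nat_lit 526) (nat_lit 411) (nat_lit 263))) (XT.nd (nat_lit 78) (nat_lit 76) (nat_lit 0) (XT.lf (nat_lit 0) (nat_lit 148185145279) (nat_lit 152) (nat_lit 34656629381) (nat_lit 0) (nat_lit 126309018985) (nat_lit 14) (nat_lit 5) (nat_lit 16) (nat_lit 4) (nat_lit 14) (nat_lit 4) (nat_lit 527) (nat_lit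 411) (nat_lit 262)) (XT.lf (nat_lit 0) (nat_lit 62515148967) (nat_lit 76) (nat_lit 140765390354) (nat_lit 76) (nat_lit 118888538209) (nat_lit 13) (nat_lit 4) (nat_lit 14) (nat_lit 5) (nat_lit 14) (nat_lit 4) (nat_lit 528) (nat_lit 411) (nat_lit 261))))) (XT.nd (nat_lit 312) (nat_lit 76) (nat_lit 0) (XT.nd (nat_lit 156) (nat_lit 152) (nat_lit 0) (XT.nd (nat_lit 78) (nat_lit 0) (nat_lit 0) (XT.lf (nat_lit 0) (nat_lit 165742244458) (nat_lit 76) (nat_lit 95972193917) (nat_lit 76) (nat_lit 74094650484) (nat_lit 13) (nat_lit 4) (nat_lit 14) (nat_lit 5) (nat_lit 14) (nat_lit 4) (nat_lit 529) (nat_lit 411) (nat_lit 260)) (XT.lf (nat_lit 0) (nat_lit 274124531211) (nat_lit 76) (nat_lit 48942461668) (nat_lit 76) (nat_lit 27064259865) (nat_lit 13) (nat_lit 4) (nat_lit 14) (nat_lit 5) (nat_lit 14) (nat_lit 4) (nat_lit 530) (nat_lit 411) (nat_lit 259))) (XT.nd (nat_lit 78) (nat_lit 0) (nat_lit 0) (XT.lf (nat_lit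 0) (nat_lit 21980164899) (nat_lit 152) (nat_lit 342009911871) (nat_lit 0) (nat_lit 1143185070) (nat_lit 11) (nat_lit 5) (nat_lit 13) (nat_lit 4) (nat_lit 11) (nat_lit 4) (nat_lit 531) (nat_lit 411) (nat_lit 258)) (XT.lf (nat_lit 0) (nat_lit 74674981884) (nat_lit 152) (nat_lit 252245386991) (nat_lit 0) (nat_lit 53837433331) (nat_lit 11) (nat_lit 5) (nat_lit 13) (nat_lit 4) (nat_lit 11) (nat_lit 4) (nat_lit 532) (nat_lit 411) (nat_lit 257)))) (XT.nd (nat_lit 156) (nat_lit 76) (nat_lit 0) (XT.nd (nat_lit 78) (nat_lit 0) (nat_lit 0) (XT.lf (nat_lit 0) (nat_lit 130001739457) (nat_lit 152) (nat_lit 157998320895) (nat_lit 0) (nat_lit 109163649262) (nat_lit 11) (nat_lit 5) (nat_lit 13) (nat_lit 4) (nat_lit 11) (nat_lit 4) (nat_lit 533) (nat_lit 411) (nat_lit 256)) (XT.lf (nat_lit 0) (nat_lit 188092167993) (nat_lit 152) (nat_lit 59044315807) (nat_lit 0) (nat_lit 167253561949) (nat_lit 11) (nat_lit 5)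 (nat_lit 13) (nat_lit 4) (nat_lit 11) (nat_lit 4) (nat_lit 534) (nat_lit 411) (nat_lit 255))) (XT.nd (nat_lit 78) (nat_lit 0) (nat_lit 0) (XT.lf (nat_lit 0) (nat_lit 46335250430) (nat_lit 76) (nat_lit 203472750720) (nat_lit 76) (nat_lit 182633653390) (nat_lit 10) (nat_lit 4) (nat_lit 11) (nat_lit 5) (nat_lit 11) (nat_lit 4) (nat_lit 535) (nat_lit 411) (nat_lit 254)) (XT.lf (nat_lit 0) (nat_lit 159028606978) (nat_lit 76) (nat_lit 156578464864) (nat_lit 76) (nat_lit 135738899644) (nat_lit 10) (nat_lit 4) (nat_lit 11) (nat_lit 5) (nat_lit 11) (nat_lit 4) (nat_lit 536) (nat_lit 411) (nat_lit 253)))))) (XT.nd (nat_lit 624) (nat_lit 152) (nat_lit 0) (XT.nd (nat_lit 312) (nat_lit 76) (nat_lit 0) (XT.nd (nat_lit 156) (nat_lit 152) (nat_lit 0) (XT.nd (nat_lit 78) (nat_lit 0) (nat_lit 0) (XT.lf (nat_lit 0) (nat_lit 277351799622) (nat_lit 76) (nat_lit 107341917230) (nat_lit 76) (nat_lit 86501906399) (nat_lit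 10) (nat_lit 4) (nat_lit 11) (nat_lit 5) (nat_lit 11) (nat_lit 4) (nat_lit 537) (nat_lit 411) (nat_lit 252)) (XT.lf (nat_lit 0) (nat_lit 401586550248) (nat_lit 76) (nat_lit 55645877941) (nat_lit 76) (nat_lit 34805442720) (nat_lit 10) (nat_lit 4) (nat_lit 11) (nat_lit 5) (nat_lit 11) (nat_lit 4) (nat_lit 538) (nat_lit 411) (nat_lit 251))) (XT.nd (nat_lit 78) (nat_lit 0) (nat_lit 0) (XT.lf (nat_lit 0) (nat_lit 18390903661) (nat_lit 76) (nat_lit 746531979) (nat_lit 152) (nat_lit 494755344685) (nat_lit 8) (nat_lit 5) (nat_lit 9) (nat_lit 5) (nat_lit 10) (nat_lit 4) (nat_lit 539) (nat_lit 411) (nat_lit 250)) (XT.lf (nat_lit 0) (nat_lit 77050857452) (nat_lit 152) (nat_lit 402436821815) (nat_lit 0) (nat_lit 57202072369) (nat_lit 8) (nat_lit 5) (nat_lit 10) (nat_lit 4) (nat_lit 8) (nat_lit 4) (nat_lit 540) (nat_lit 411) (nat_lit 249)))) (XT.nd (nat_lit 156) (nat_lit 76) (nat_lit 0) (XT.nd (nat_lit 78)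 (nat_lit 0) (nat_lit 0) (XT.lf (nat_lit 0) (nat_lit 137870100827) (nat_lit 152) (nat_lit 304734996572) (nat_lit 0) (nat_lit 118020966597) (nat_lit 8) (nat_lit 5) (nat_lit 10) (nat_lit 4) (nat_lit 8) (nat_lit 4) (nat_lit 541) (nat_lit 411) (nat_lit 248)) (XT.lf (nat_lit 0) (nat_lit 201728318032) (nat_lit 152) (nat_lit 202152122086) (nat_lit 0) (nat_lit 181878851280) (nat_lit 8) (nat_lit 5) (nat_lit 10) (nat_lit 4) (nat_lit 8) (nat_lit 4) (nat_lit 542) (nat_lit 411) (nat_lit 247))) (XT.nd (nat_lit 78) (nat_lit 76) (nat_lit 0) (XT.lf (nat_lit 0) (nat_lit 268777552440) (nat_lit 152) (nat_lit 94443953418) (nat_lit 0) (nat_lit 248927769001) (nat_lit 8) (nat_lit 5) (nat_lit 10) (nat_lit 4) (nat_lit 8) (nat_lit 4) (nat_lit 543) (nat_lit 411) (nat_lit 246)) (XT.lf (nat_lit 0) (nat_lit 19262477013) (nat_lit 76) (nat_lit 320215709322) (nat_lit 76) (nat_lit 300365624277) (nat_lit 7) (nat_lit 4) (nat_lit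 8) (nat_lit 5) (nat_lit 8) (nat_lit 4) (nat_lit 544) (nat_lit 411) (nat_lit 245))))) (XT.nd (nat_lit 312) (nat_lit 152) (nat_lit 0) (XT.nd (nat_lit 156) (nat_lit 0) (nat_lit 0) (XT.nd (nat_lit 78) (nat_lit 0) (nat_lit 0) (XT.lf (nat_lit 0) (nat_lit 141929502671) (nat_lit 76) (nat_lit 273382029385) (nat_lit 76) (nat_lit 253531657095) (nat_lit 7) (nat_lit 4) (nat_lit 8) (nat_lit 5) (nat_lit 8) (nat_lit 4) (nat_lit 545) (nat_lit 411) (nat_lit 244)) (XT.lf (nat_lit 0) (nat_lit 270726444280) (nat_lit 76) (nat_lit 224208411335) (nat_lit 76) (nat_lit 204357765480) (nat_lit 7) (nat_lit 4) (nat_lit 8) (nat_lit 5) (nat_lit 8) (nat_lit 4) (nat_lit 546) (nat_lit 411) (nat_lit 243))) (XT.nd (nat_lit 78) (nat_lit 0) (nat_lit 0) (XT.lf (nat_lit 0) (nat_lit 405959961226) (nat_lit 76) (nat_lit 172577775130) (nat_lit 76) (nat_lit 152726868736) (nat_lit 7) (nat_lit 4) (nat_lit 8) (nat_lit 5) (nat_lit 8) (nat_lit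 4) (nat_lit 547) (nat_lit 411) (nat_lit 242)) (XT.lf (nat_lit 0) (nat_lit 547952038073) (nat_lit 76) (nat_lit 118367190683) (nat_lit 76) (nat_lit 98516036156) (nat_lit 7) (nat_lit 4) (nat_lit 8) (nat_lit 5) (nat_lit 8) (nat_lit 4) (nat_lit 548) (nat_lit 411) (nat_lit 241)))) (XT.nd (nat_lit 51792) (nat_lit 0) (nat_lit 12312) (XT.nd (nat_lit 78) (nat_lit 152) (nat_lit 0) (XT.lf (nat_lit 0) (nat_lit 697040751194) (nat_lit 76) (nat_lit 61447585174) (nat_lit 76) (nat_lit 41596194331) (nat_lit 7) (nat_lit 4) (nat_lit 8) (nat_lit 5) (nat_lit 8) (nat_lit 4) (nat_lit 549) (nat_lit 411) (nat_lit 240)) (XT.lf (nat_lit 0) (nat_lit 16736769373) (nat_lit 76) (nat_lit 1111223446) (nat_lit 152) (nat_lit 819221088253) (nat_lit 5) (nat_lit 5) (nat_lit 6) (nat_lit 5) (nat_lit 7) (nat_lit 4) (nat_lit 550) (nat_lit 411) (nat_lit 239))) (XT.nd (nat_lit 78) (nat_lit 0) (nat_lit 0) (XT.lf (nat_lit 0) (nat_lit 1028085922)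 (nat_lit 684) (nat_lit 1512448866) (nat_lit 684) (nat_lit 1512448866) (nat_lit 167) (nat_lit 3) (nat_lit 176) (nat_lit 3) (nat_lit 176) (nat_lit 5) (nat_lit 412) (nat_lit 412) (nat_lit 376)) (XT.lf (nat_lit 76) (nat_lit 1031626226) (nat_lit 0) (nat_lit 2243206602) (nat_lit 684) (nat_lit 4975214643) (nat_lit 168) (nat_lit 5) (nat_lit 167) (nat_lit 3) (nat_lit 176) (nat_lit 5) (nat_lit 413) (nat_lit 412) (nat_lit 375))))))) (XT.nd (nat_lit 1170) (nat_lit 2736) (nat_lit 0) (XT.nd (nat_lit 546) (nat_lit 2128) (nat_lit 0) (XT.nd (nat_lit 234) (nat_lit 608) (nat_lit 0) (XT.nd (nat_lit 78) (nat_lit 0) (nat_lit 0) (XT.lf (nat_lit 0) (nat_lit 4544218456) (nat_lit 608) (nat_lit 3059352732) (nat_lit 684) (nat_lit 798284070) (nat_lit 168) (nat_lit 5) (nat_lit 176) (nat_lit 5) (nat_lit 177) (nat_lit 5) (nat_lit 414) (nat_lit 412) (nat_lit 374)) (XT.nd (nat_lit 78) (nat_lit 0) (nat_lit 0) (XT.lf (nat_lit 76)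 (nat_lit 1269393274) (nat_lit 0) (nat_lit 4594009975) (nat_lit 684) (nat_lit 2698546263) (nat_lit 169) (nat_lit 5) (nat_lit 168) (nat_lit 5) (nat_lit 177) (nat_lit 5) (nat_lit 415) (nat_lit 412) (nat_lit 373)) (XT.lf (nat_lit 76) (nat_lit 5879339359) (nat_lit 0) (nat_lit 1353455439) (nat_lit 684) (nat_lit 1498053274) (nat_lit 169) (nat_lit 5) (nat_lit 168) (nat_lit 5) (nat_lit 177) (nat_lit 5) (nat_lit 416) (nat_lit 412) (nat_lit 372)))) (XT.nd (nat_lit 156) (nat_lit 0) (nat_lit 76) (XT.nd (nat_lit 78) (nat_lit 684) (nat_lit 0) (XT.lf (nat_lit 76) (nat_lit 1793921045) (nat_lit 0) (nat_lit 6872777148) (nat_lit 684) (nat_lit 241702656) (nat_lit 170) (nat_lit 5) (nat_lit 169) (nat_lit 5) (nat_lit 178) (nat_lit 5) (nat_lit 417) (nat_lit 412) (nat_lit 371)) (XT.lf (nat_lit 0) (nat_lit 1051656268) (nat_lit 684) (nat_lit 2406077304) (nat_lit 760) (nat_lit 5635833101) (nat_lit 160) (nat_lit 5) (nat_lit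 169) (nat_lit 5) (nat_lit 170) (nat_lit 5) (nat_lit 418) (nat_lit 412) (nat_lit 370))) (XT.nd (nat_lit 78) (nat_lit 0) (nat_lit 0) (XT.lf (nat_lit 0) (nat_lit 2385123020) (nat_lit 684) (nat_lit 6717966952) (nat_lit 760) (nat_lit 185534415) (nat_lit 161) (nat_lit 5) (nat_lit 170) (nat_lit 5) (nat_lit 171) (nat_lit 5) (nat_lit 419) (nat_lit 412) (nat_lit 369)) (XT.lf (nat_lit 0) (nat_lit 3826183241) (nat_lit 684) (nat_lit 1713791654) (nat_lit 760) (nat_lit 3951423466) (nat_lit 161) (nat_lit 5) (nat_lit 170) (nat_lit 5) (nat_lit 171) (nat_lit 5) (nat_lit 420) (nat_lit 412) (nat_lit 368))))) (XT.nd (nat_lit 312) (nat_lit 760) (nat_lit 0) (XT.nd (nat_lit 156) (nat_lit 1444) (nat_lit 0) (XT.nd (nat_lit 78) (nat_lit 0) (nat_lit 76) (XT.lf (nat_lit 76) (nat_lit 3613578637) (nat_lit 0) (nat_lit 1727678676) (nat_lit 760) (nat_lit 4362964610) (nat_lit 162) (nat_lit 5) (nat_lit 161) (nat_lit 5) (nat_lit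 171) (nat_lit 5) (nat_lit 421) (nat_lit 412) (nat_lit 367)) (XT.lf (nat_lit 0) (nat_lit 6944752535) (nat_lit 684) (nat_lit 740199215) (nat_lit 76) (nat_lit 2242110051) (nat_lit 162) (nat_lit 5) (nat_lit 171) (nat_lit 5) (nat_lit 163) (nat_lit 5) (nat_lit 422) (nat_lit 412) (nat_lit 366))) (XT.nd (nat_lit 78) (nat_lit 836) (nat_lit 0) (XT.lf (nat_lit 0) (nat_lit 4965729669) (nat_lit 684) (nat_lit 3718682499) (nat_lit 760) (nat_lit 1473840124) (nat_lit 153) (nat_lit 5) (nat_lit 162) (nat_lit 5) (nat_lit 163) (nat_lit 5) (nat_lit 423) (nat_lit 412) (nat_lit 365)) (XT.lf (nat_lit 0) (nat_lit 86413704) (nat_lit 836) (nat_lit 9855210107) (nat_lit 76) (nat_lit 460305755) (nat_lit 142) (nat_lit 5) (nat_lit 153) (nat_lit 5) (nat_lit 143) (nat_lit 5) (nat_lit 424) (nat_lit 412) (nat_lit 364)))) (XT.nd (nat_lit 156) (nat_lit 380) (nat_lit 0) (XT.nd (nat_lit 78) (nat_lit 380) (nat_lit 0) (XT.lf (nat_lit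 0) (nat_lit 1778281195) (nat_lit 836) (nat_lit 4032085718) (nat_lit 76) (nat_lit 4841066141) (nat_lit 142) (nat_lit 5) (nat_lit 153) (nat_lit 5) (nat_lit 143) (nat_lit 5) (nat_lit 425) (nat_lit 412) (nat_lit 363)) (XT.lf (nat_lit 0) (nat_lit 2106449385) (nat_lit 380) (nat_lit 1436218506) (nat_lit 456) (nat_lit 7371354200) (nat_lit 137) (nat_lit 5) (nat_lit 142) (nat_lit 5) (nat_lit 143) (nat_lit 5) (nat_lit 426) (nat_lit 412) (nat_lit 362))) (XT.nd (nat_lit 78) (nat_lit 380) (nat_lit 0) (XT.lf (nat_lit 0) (nat_lit 5470494712) (nat_lit 456) (nat_lit 2589498756) (nat_lit 76) (nat_lit 3125992422) (nat_lit 137) (nat_lit 5) (nat_lit 143) (nat_lit 5) (nat_lit 138) (nat_lit 5) (nat_lit 427) (nat_lit 412) (nat_lit 361)) (XT.lf (nat_lit 0) (nat_lit 4001467994) (nat_lit 380) (nat_lit 3537865552) (nat_lit 456) (nat_lit 3929989345) (nat_lit 132) (nat_lit 5) (nat_lit 137) (nat_lit 5) (nat_lit 138) (nat_lit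 5) (nat_lit 428) (nat_lit 412) (nat_lit 360)))))) (XT.nd (nat_lit 624) (nat_lit 988) (nat_lit 0) (XT.nd (nat_lit 312) (nat_lit 988) (nat_lit 0) (XT.nd (nat_lit 156) (nat_lit 304) (nat_lit 0) (XT.nd (nat_lit 78) (nat_lit 456) (nat_lit 0) (XT.lf (nat_lit 0) (nat_lit 9734977128) (nat_lit 456) (nat_lit 816199855) (nat_lit 76) (nat_lit 1214487378) (nat_lit 132) (nat_lit 5) (nat_lit 138) (nat_lit 5) (nat_lit 133) (nat_lit 5) (nat_lit 429) (nat_lit 412) (nat_lit 359)) (XT.lf (nat_lit 0) (nat_lit 84345053) (nat_lit 456) (nat_lit 5803366636) (nat_lit 76) (nat_lit 6183164897) (nat_lit 126) (nat_lit 5) (nat_lit 132) (nat_lit 5) (nat_lit 127) (nat_lit 5) (nat_lit 430) (nat_lit 412) (nat_lit 358))) (XT.nd (nat_lit 78) (nat_lit 0) (nat_lit 0) (XT.lf (nat_lit 0) (nat_lit 1309144962) (nat_lit 304) (nat_lit 924596189) (nat_lit 380) (nat_lit 10156105922) (nat_lit 122) (nat_lit 5) (nat_lit 126) (nat_lit 5) (nat_lit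 127) (nat_lit 5) (nat_lit 431) (nat_lit 412) (nat_lit 357)) (XT.lf (nat_lit 0) (nat_lit 4620857401) (nat_lit 380) (nat_lit 3853017309) (nat_lit 76) (nat_lit 4244383591) (nat_lit 122) (nat_lit 5) (nat_lit 127) (nat_lit 5) (nat_lit 123) (nat_lit 5) (nat_lit 432) (nat_lit 412) (nat_lit 356)))) (XT.nd (nat_lit 156) (nat_lit 684) (nat_lit 0) (XT.nd (nat_lit 78) (nat_lit 0) (nat_lit 0) (XT.lf (nat_lit 0) (nat_lit 3801234725) (nat_lit 304) (nat_lit 3365770762) (nat_lit 380) (nat_lit 5894105316) (nat_lit 118) (nat_lit 5) (nat_lit 122) (nat_lit 5) (nat_lit 123) (nat_lit 5) (nat_lit 433) (nat_lit 412) (nat_lit 355)) (XT.lf (nat_lit 0) (nat_lit 9904061292) (nat_lit 380) (nat_lit 1520379933) (nat_lit 76) (nat_lit 1993488985) (nat_lit 118) (nat_lit 5) (nat_lit 123) (nat_lit 5) (nat_lit 119) (nat_lit 5) (nat_lit 434) (nat_lit 412) (nat_lit 354))) (XT.nd (nat_lit 78) (nat_lit 380) (nat_lit 0) (XT.lf (nat_lit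 0) (nat_lit 6725954571) (nat_lit 304) (nat_lit 6179905354) (nat_lit 380) (nat_lit 880340255) (nat_lit 114) (nat_lit 5) (nat_lit 118) (nat_lit 5) (nat_lit 119) (nat_lit 5) (nat_lit 435) (nat_lit 412) (nat_lit 353)) (XT.lf (nat_lit 0) (nat_lit 1234823831) (nat_lit 304) (nat_lit 603267376) (nat_lit 380) (nat_lit 12332647060) (nat_lit 109) (nat_lit 5) (nat_lit 113) (nat_lit 5) (nat_lit 114) (nat_lit 5) (nat_lit 436) (nat_lit 412) (nat_lit 352))))) (XT.nd (nat_lit 312) (nat_lit 532) (nat_lit 0) (XT.nd (nat_lit 156) (nat_lit 228) (nat_lit 0) (XT.nd (nat_lit 78) (nat_lit 228) (nat_lit 0) (XT.lf (nat_lit 0) (nat_lit 4835247995) (nat_lit 380) (nat_lit 4518555491) (nat_lit 76) (nat_lit 5211362270) (nat_lit 109) (nat_lit 5) (nat_lit 114) (nat_lit 5) (nat_lit 110) (nat_lit 5) (nat_lit 437) (nat_lit 412) (nat_lit 351)) (XT.lf (nat_lit 0) (nat_lit 4411550714) (nat_lit 228) (nat_lit 3619819673) (nat_lit 304)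 (nat_lit 6945492212) (nat_lit 106) (nat_lit 5) (nat_lit 109) (nat_lit 5) (nat_lit 110) (nat_lit 5) (nat_lit 438) (nat_lit 412) (nat_lit 350))) (XT.nd (nat_lit 78) (nat_lit 228) (nat_lit 0) (XT.lf (nat_lit 0) (nat_lit 11473554439) (nat_lit 304) (nat_lit 1539103405) (nat_lit 76) (nat_lit 2392176868) (nat_lit 106) (nat_lit 5) (nat_lit 110) (nat_lit 5) (nat_lit 107) (nat_lit 5) (nat_lit 439) (nat_lit 412) (nat_lit 349)) (XT.lf (nat_lit 0) (nat_lit 8100155570) (nat_lit 228) (nat_lit 7145873771) (nat_lit 304) (nat_lit 600270062) (nat_lit 103) (nat_lit 5) (nat_lit 106) (nat_lit 5) (nat_lit 107) (nat_lit 5) (nat_lit 440) (nat_lit 412) (nat_lit 348)))) (XT.nd (nat_lit 156) (nat_lit 228) (nat_lit 0) (XT.nd (nat_lit 78) (nat_lit 0) (nat_lit 0) (XT.lf (nat_lit 0) (nat_lit 1944382651) (nat_lit 228) (nat_lit 889686227) (nat_lit 304) (nat_lit 13472033998) (nat_lit 99) (nat_lit 5) (nat_lit 102) (nat_lit 5) (nat_lit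 103) (nat_lit 5) (nat_lit 441) (nat_lit 412) (nat_lit 347)) (XT.lf (nat_lit 0) (nat_lit 6615152519) (nat_lit 304) (nat_lit 4533638058) (nat_lit 76) (nat_lit 5629856522) (nat_lit 99) (nat_lit 5) (nat_lit 103) (nat_lit 5) (nat_lit 100) (nat_lit 5) (nat_lit 442) (nat_lit 412) (nat_lit 346))) (XT.nd (nat_lit 78) (nat_lit 0) (nat_lit 0) (XT.lf (nat_lit 0) (nat_lit 5923712481) (nat_lit 228) (nat_lit 4743120578) (nat_lit 304) (nat_lit 6603910849) (nat_lit 96) (nat_lit 5) (nat_lit 99) (nat_lit 5) (nat_lit 100) (nat_lit 5) (nat_lit 443) (nat_lit 412) (nat_lit 345)) (XT.lf (nat_lit 0) (nat_lit 15005028088) (nat_lit 304) (nat_lit 792106427) (nat_lit 76) (nat_lit 1986116914) (nat_lit 96) (nat_lit 5) (nat_lit 100) (nat_lit 5) (nat_lit 97) (nat_lit 5) (nat_lit 444) (nat_lit 412) (nat_lit 344))))))))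
noncomputable def xc122 : XT := (XT.nd (nat_lit 2418) (nat_lit 1976) (nat_lit 0) (XT.nd (nat_lit 1170) (nat_lit 1368) (nat_lit 0) (XT.nd (nat_lit 546) (nat_lit 912) (nat_lit 0) (XT.nd (nat_lit 234) (nat_lit 608) (nat_lit 0) (XT.nd (nat_lit 78) (nat_lit 228) (nat_lit 0) (XT.lf (nat_lit 0) (nat_lit 1420702368) (nat_lit 228) (nat_lit 7819914519) (nat_lit 76) (nat_lit 9068722515) (nat_lit 93) (nat_lit 5) (nat_lit 96) (nat_lit 5) (nat_lit 94) (nat_lit 5) (nat_lit 445) (nat_lit 412) (nat_lit 343)) (XT.nd (nat_lit 78) (nat_lit 0) (nat_lit 0) (XT.lf (nat_lit 0) (nat_lit 3532749682) (nat_lit 228) (nat_lit 2248580003) (nat_lit 304) (nat_lit 13075870832) (nat_lit 90) (nat_lit 5) (nat_lit 93) (nat_lit 5) (nat_lit 94) (nat_lit 5) (nat_lit 446) (nat_lit 412) (nat_lit 342)) (XT.lf (nat_lit 0) (nat_lit 10550822309) (nat_lit 304) (nat_lit 3819394566) (nat_lit 76) (nat_lit 5052698085) (nat_lit 90) (nat_lit 5)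 (nat_lit 94) (nat_lit 5) (nat_lit 91) (nat_lit 5) (nat_lit 447) (nat_lit 412) (nat_lit 341)))) (XT.nd (nat_lit 156) (nat_lit 152) (nat_lit 0) (XT.nd (nat_lit 78) (nat_lit 304) (nat_lit 0) (XT.lf (nat_lit 0) (nat_lit 8460153656) (nat_lit 152) (nat_lit 7245405471) (nat_lit 228) (nat_lit 4304019394) (nat_lit 88) (nat_lit 5) (nat_lit 90) (nat_lit 5) (nat_lit 91) (nat_lit 5) (nat_lit 448) (nat_lit 412) (nat_lit 340)) (XT.lf (nat_lit 0) (nat_lit 538557891) (nat_lit 304) (nat_lit 19779776535) (nat_lit 76) (nat_lit 303764997) (nat_lit 84) (nat_lit 5) (nat_lit 88) (nat_lit 5) (nat_lit 85) (nat_lit 5) (nat_lit 449) (nat_lit 412) (nat_lit 339))) (XT.nd (nat_lit 78) (nat_lit 152) (nat_lit 0) (XT.lf (nat_lit 0) (nat_lit 5774500423) (nat_lit 304) (nat_lit 7228541748) (nat_lit 76) (nat_lit 8243883954) (nat_lit 84) (nat_lit 5) (nat_lit 88) (nat_lit 5) (nat_lit 85) (nat_lit 5) (nat_lit 450) (nat_lit 412) (nat_lit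 338)) (XT.lf (nat_lit 0) (nat_lit 6112402396) (nat_lit 152) (nat_lit 5234603645) (nat_lit 228) (nat_lit 10552251363) (nat_lit 82) (nat_lit 5) (nat_lit 84) (nat_lit 5) (nat_lit 85) (nat_lit 5) (nat_lit 451) (nat_lit 412) (nat_lit 337))))) (XT.nd (nat_lit 312) (nat_lit 532) (nat_lit 0) (XT.nd (nat_lit 156) (nat_lit 152) (nat_lit 0) (XT.nd (nat_lit 78) (nat_lit 228) (nat_lit 0) (XT.lf (nat_lit 0) (nat_lit 17347792110) (nat_lit 228) (nat_lit 2288122899) (nat_lit 76) (nat_lit 2940808950) (nat_lit 82) (nat_lit 5) (nat_lit 85) (nat_lit 5) (nat_lit 83) (nat_lit 5) (nat_lit 452) (nat_lit 412) (nat_lit 336)) (XT.lf (nat_lit 0) (nat_lit 609401028) (nat_lit 228) (nat_lit 11128414747) (nat_lit 76) (nat_lit 11536948567) (nat_lit 79) (nat_lit 5) (nat_lit 82) (nat_lit 5) (nat_lit 80) (nat_lit 5) (nat_lit 453) (nat_lit 412) (nat_lit 335))) (XT.nd (nat_lit 78) (nat_lit 0) (nat_lit 0) (XT.lf (nat_lit 0) (nat_lit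 3365297103) (nat_lit 152) (nat_lit 3271248938) (nat_lit 228) (nat_lit 17363244870) (nat_lit 77) (nat_lit 5) (nat_lit 79) (nat_lit 5) (nat_lit 80) (nat_lit 5) (nat_lit 454) (nat_lit 412) (nat_lit 334)) (XT.lf (nat_lit 0) (nat_lit 13225242871) (nat_lit 228) (nat_lit 5904906740) (nat_lit 76) (nat_lit 5617910676) (nat_lit 77) (nat_lit 5) (nat_lit 80) (nat_lit 5) (nat_lit 78) (nat_lit 5) (nat_lit 455) (nat_lit 412) (nat_lit 333)))) (XT.nd (nat_lit 156) (nat_lit 152) (nat_lit 0) (XT.nd (nat_lit 78) (nat_lit 228) (nat_lit 0) (XT.lf (nat_lit 0) (nat_lit 9789921997) (nat_lit 152) (nat_lit 10541753478) (nat_lit 228) (nat_lit 5192653762) (nat_lit 75) (nat_lit 5) (nat_lit 77) (nat_lit 5) (nat_lit 78) (nat_lit 5) (nat_lit 456) (nat_lit 412) (nat_lit 332)) (XT.lf (nat_lit 0) (nat_lit 87496586) (nat_lit 152) (nat_lit 1404914939) (nat_lit 228) (nat_lit 24841619534) (nat_lit 72) (nat_lit 5) (nat_lit 74) (nat_lit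 5) (nat_lit 75) (nat_lit 5) (nat_lit 457) (nat_lit 412) (nat_lit 331))) (XT.nd (nat_lit 78) (nat_lit 152) (nat_lit 0) (XT.lf (nat_lit 0) (nat_lit 8718016957) (nat_lit 228) (nat_lit 10172712199) (nat_lit 76) (nat_lit 8270193831) (nat_lit 72) (nat_lit 5) (nat_lit 75) (nat_lit 5) (nat_lit 73) (nat_lit 5) (nat_lit 458) (nat_lit 412) (nat_lit 330)) (XT.lf (nat_lit 0) (nat_lit 6871970034) (nat_lit 152) (nat_lit 9546213167) (nat_lit 228) (nat_lit 11605313230) (nat_lit 70) (nat_lit 5) (nat_lit 72) (nat_lit 5) (nat_lit 73) (nat_lit 5) (nat_lit 459) (nat_lit 412) (nat_lit 329)))))) (XT.nd (nat_lit 624) (nat_lit 684) (nat_lit 0) (XT.nd (nat_lit 312) (nat_lit 380) (nat_lit 0) (XT.nd (nat_lit 156) (nat_lit 152) (nat_lit 0) (XT.nd (nat_lit 78) (nat_lit 152) (nat_lit 0) (XT.lf (nat_lit 0) (nat_lit 24665724090) (nat_lit 228) (nat_lit 3835399293) (nat_lit 76) (nat_lit 419957749) (nat_lit 70) (nat_lit 5) (nat_lit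 73) (nat_lit 5) (nat_lit 71) (nat_lit 4) (nat_lit 460) (nat_lit 412) (nat_lit 328)) (XT.lf (nat_lit 0) (nat_lit 3726161880) (nat_lit 152) (nat_lit 15275400744) (nat_lit 76) (nat_lit 10840536928) (nat_lit 68) (nat_lit 5) (nat_lit 70) (nat_lit 5) (nat_lit 69) (nat_lit 5) (nat_lit 461) (nat_lit 412) (nat_lit 327))) (XT.nd (nat_lit 78) (nat_lit 0) (nat_lit 0) (XT.lf (nat_lit 0) (nat_lit 3219814899) (nat_lit 152) (nat_lit 8844213231) (nat_lit 228) (nat_lit 18736639580) (nat_lit 66) (nat_lit 5) (nat_lit 68) (nat_lit 5) (nat_lit 69) (nat_lit 5) (nat_lit 462) (nat_lit 412) (nat_lit 326)) (XT.lf (nat_lit 0) (nat_lit 21094275810) (nat_lit 228) (nat_lit 8685465042) (nat_lit 76) (nat_lit 2013649761) (nat_lit 66) (nat_lit 5) (nat_lit 69) (nat_lit 5) (nat_lit 67) (nat_lit 4) (nat_lit 463) (nat_lit 412) (nat_lit 325)))) (XT.nd (nat_lit 156) (nat_lit 228) (nat_lit 0) (XT.nd (nat_lit 78) (nat_lit 76) (nat_lit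 0) (XT.lf (nat_lit 0) (nat_lit 11345515767) (nat_lit 76) (nat_lit 19537518618) (nat_lit 152) (nat_lit 1937366056) (nat_lit 65) (nat_lit 5) (nat_lit 66) (nat_lit 5) (nat_lit 67) (nat_lit 4) (nat_lit 464) (nat_lit 412) (nat_lit 324)) (XT.lf (nat_lit 0) (nat_lit 7164462668) (nat_lit 152) (nat_lit 1354994483) (nat_lit 76) (nat_lit 25366913030) (nat_lit 64) (nat_lit 5) (nat_lit 66) (nat_lit 5) (nat_lit 65) (nat_lit 5) (nat_lit 465) (nat_lit 412) (nat_lit 323))) (XT.nd (nat_lit 78) (nat_lit 76) (nat_lit 0) (XT.lf (nat_lit 0) (nat_lit 17013039036) (nat_lit 228) (nat_lit 14677170602) (nat_lit 76) (nat_lit 3296003153) (nat_lit 62) (nat_lit 5) (nat_lit 65) (nat_lit 5) (nat_lit 63) (nat_lit 4) (nat_lit 466) (nat_lit 412) (nat_lit 322)) (XT.lf (nat_lit 0) (nat_lit 7021956093) (nat_lit 76) (nat_lit 20590459927) (nat_lit 152) (nat_lit 8515713504) (nat_lit 61) (nat_lit 5) (nat_lit 62) (nat_lit 5) (nat_lit 63)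 (nat_lit 4) (nat_lit 467) (nat_lit 412) (nat_lit 321))))) (XT.nd (nat_lit 312) (nat_lit 380) (nat_lit 0) (XT.nd (nat_lit 156) (nat_lit 76) (nat_lit 0) (XT.nd (nat_lit 78) (nat_lit 152) (nat_lit 0) (XT.lf (nat_lit 0) (nat_lit 1607782217) (nat_lit 152) (nat_lit 7051499244) (nat_lit 76) (nat_lit 28654834893) (nat_lit 60) (nat_lit 5) (nat_lit 62) (nat_lit 5) (nat_lit 61) (nat_lit 5) (nat_lit 468) (nat_lit 412) (nat_lit 320)) (XT.lf (nat_lit 0) (nat_lit 12261585026) (nat_lit 228) (nat_lit 22138539349) (nat_lit 76) (nat_lit 4136782756) (nat_lit 58) (nat_lit 5) (nat_lit 61) (nat_lit 5) (nat_lit 59) (nat_lit 4) (nat_lit 469) (nat_lit 412) (nat_lit 319))) (XT.nd (nat_lit 78) (nat_lit 0) (nat_lit 0) (XT.lf (nat_lit 0) (nat_lit 1324082180) (nat_lit 76) (nat_lit 22394561544) (nat_lit 152) (nat_lit 16088665913) (nat_lit 57) (nat_lit 5) (nat_lit 58) (nat_lit 5) (nat_lit 59) (nat_lit 4) (nat_lit 470) (nat_lit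 412) (nat_lit 318)) (XT.lf (nat_lit 0) (nat_lit 26703781589) (nat_lit 76) (nat_lit 9406515180) (nat_lit 152) (nat_lit 5012848882) (nat_lit 57) (nat_lit 5) (nat_lit 58) (nat_lit 5) (nat_lit 59) (nat_lit 4) (nat_lit 471) (nat_lit 412) (nat_lit 317)))) (XT.nd (nat_lit 156) (nat_lit 152) (nat_lit 0) (XT.nd (nat_lit 78) (nat_lit 0) (nat_lit 0) (XT.lf (nat_lit 0) (nat_lit 6635539551) (nat_lit 228) (nat_lit 31487059987) (nat_lit 76) (nat_lit 4365481127) (nat_lit 54) (nat_lit 5) (nat_lit 57) (nat_lit 5) (nat_lit 55) (nat_lit 4) (nat_lit 472) (nat_lit 412) (nat_lit 316)) (XT.lf (nat_lit 0) (nat_lit 19087595299) (nat_lit 228) (nat_lit 5980377524) (nat_lit 76) (nat_lit 18829695484) (nat_lit 54) (nat_lit 5) (nat_lit 57) (nat_lit 5) (nat_lit 55) (nat_lit 4) (nat_lit 473) (nat_lit 412) (nat_lit 315))) (XT.nd (nat_lit 78) (nat_lit 76) (nat_lit 0) (XT.lf (nat_lit 0) (nat_lit 21465850645) (nat_lit 76) (nat_lit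 11019454943) (nat_lit 152) (nat_lit 12876277529) (nat_lit 53) (nat_lit 5) (nat_lit 54) (nat_lit 5) (nat_lit 55) (nat_lit 4) (nat_lit 474) (nat_lit 412) (nat_lit 314)) (XT.lf (nat_lit 0) (nat_lit 3631817637) (nat_lit 76) (nat_lit 43126955804) (nat_lit 76) (nat_lit 129626982) (nat_lit 52) (nat_lit 4) (nat_lit 53) (nat_lit 5) (nat_lit 53) (nat_lit 4) (nat_lit 475) (nat_lit 412) (nat_lit 313))))))) (XT.nd (nat_lit 1170) (nat_lit 988) (nat_lit 0) (XT.nd (nat_lit 546) (nat_lit 532) (nat_lit 0) (XT.nd (nat_lit 234) (nat_lit 304) (nat_lit 0) (XT.nd (nat_lit 78) (nat_lit 76) (nat_lit 0) (XT.lf (nat_lit 0) (nat_lit 13410097342) (nat_lit 152) (nat_lit 15523109498) (nat_lit 76) (nat_lit 19519007024) (nat_lit 51) (nat_lit 5) (nat_lit 53) (nat_lit 5) (nat_lit 52) (nat_lit 4) (nat_lit 476) (nat_lit 412) (nat_lit 312)) (XT.nd (nat_lit 78) (nat_lit 0) (nat_lit 0) (XT.lf (nat_lit 0) (nat_lit 14021873583) (nat_lit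 76) (nat_lit 13808066947) (nat_lit 152) (nat_lit 22253797055) (nat_lit 50) (nat_lit 5) (nat_lit 51) (nat_lit 5) (nat_lit 52) (nat_lit 4) (nat_lit 477) (nat_lit 412) (nat_lit 311)) (XT.lf (nat_lit 0) (nat_lit 43258964694) (nat_lit 152) (nat_lit 6259215677) (nat_lit 0) (nat_lit 2264247973) (nat_lit 50) (nat_lit 5) (nat_lit 52) (nat_lit 4) (nat_lit 50) (nat_lit 4) (nat_lit 478) (nat_lit 412) (nat_lit 310)))) (XT.nd (nat_lit 156) (nat_lit 76) (nat_lit 0) (XT.nd (nat_lit 78) (nat_lit 76) (nat_lit 0) (XT.lf (nat_lit 0) (nat_lit 6330149085) (nat_lit 152) (nat_lit 28031469420) (nat_lit 76) (nat_lit 19168565400) (nat_lit 48) (nat_lit 5) (nat_lit 50) (nat_lit 5) (nat_lit 49) (nat_lit 4) (nat_lit 479) (nat_lit 412) (nat_lit 309)) (XT.lf (nat_lit 0) (nat_lit 3656529041) (nat_lit 76) (nat_lit 18137479141) (nat_lit 152) (nat_lit 33556632367) (nat_lit 47) (nat_lit 5) (nat_lit 48) (nat_lit 5) (nat_lit 49) (nat_lit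 4) (nat_lit 480) (nat_lit 412) (nat_lit 308))) (XT.nd (nat_lit 78) (nat_lit 76) (nat_lit 0) (XT.lf (nat_lit 0) (nat_lit 37881597183) (nat_lit 76) (nat_lit 613565117) (nat_lit 152) (nat_lit 18743752865) (nat_lit 47) (nat_lit 5) (nat_lit 48) (nat_lit 5) (nat_lit 49) (nat_lit 4) (nat_lit 481) (nat_lit 412) (nat_lit 307)) (XT.lf (nat_lit 0) (nat_lit 14771496071) (nat_lit 76) (nat_lit 41757934670) (nat_lit 76) (nat_lit 2667270171) (nat_lit 46) (nat_lit 4) (nat_lit 47) (nat_lit 5) (nat_lit 47) (nat_lit 4) (nat_lit 482) (nat_lit 412) (nat_lit 306))))) (XT.nd (nat_lit 312) (nat_lit 228) (nat_lit 0) (XT.nd (nat_lit 156) (nat_lit 152) (nat_lit 0) (XT.nd (nat_lit 78) (nat_lit 76) (nat_lit 0) (XT.lf (nat_lit 0) (nat_lit 14091140896) (nat_lit 152) (nat_lit 10214448964) (nat_lit 76) (nat_lit 36919040519) (nat_lit 45) (nat_lit 5) (nat_lit 47) (nat_lit 5) (nat_lit 46) (nat_lit 4) (nat_lit 483) (nat_lit 412)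 (nat_lit 305)) (XT.lf (nat_lit 0) (nat_lit 26492059333) (nat_lit 76) (nat_lit 5509630698) (nat_lit 152) (nat_lit 31329887434) (nat_lit 44) (nat_lit 5) (nat_lit 45) (nat_lit 5) (nat_lit 46) (nat_lit 4) (nat_lit 484) (nat_lit 412) (nat_lit 304))) (XT.nd (nat_lit 78) (nat_lit 152) (nat_lit 0) (XT.lf (nat_lit 0) (nat_lit 51195970413) (nat_lit 152) (nat_lit 390655253) (nat_lit 0) (nat_lit 13937836242) (nat_lit 44) (nat_lit 5) (nat_lit 46) (nat_lit 4) (nat_lit 44) (nat_lit 4) (nat_lit 485) (nat_lit 412) (nat_lit 303)) (XT.lf (nat_lit 0) (nat_lit 4111819266) (nat_lit 152) (nat_lit 28837644491) (nat_lit 76) (nat_lit 34839696700) (nat_lit 42) (nat_lit 5) (nat_lit 44) (nat_lit 5) (nat_lit 43) (nat_lit 4) (nat_lit 486) (nat_lit 412) (nat_lit 302)))) (XT.nd (nat_lit 156) (nat_lit 152) (nat_lit 0) (XT.nd (nat_lit 78) (nat_lit 0) (nat_lit 0) (XT.lf (nat_lit 0) (nat_lit 10180315141) (nat_lit 76) (nat_lit 12968715475)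 (nat_lit 152) (nat_lit 46998498002) (nat_lit 41) (nat_lit 5) (nat_lit 42) (nat_lit 5) (nat_lit 43) (nat_lit 4) (nat_lit 487) (nat_lit 412) (nat_lit 301)) (XT.lf (nat_lit 0) (nat_lit 43750338160) (nat_lit 152) (nat_lit 20600265234) (nat_lit 0) (nat_lit 8242600166) (nat_lit 41) (nat_lit 5) (nat_lit 43) (nat_lit 4) (nat_lit 41) (nat_lit 4) (nat_lit 488) (nat_lit 412) (nat_lit 300))) (XT.nd (nat_lit 78) (nat_lit 76) (nat_lit 0) (XT.lf (nat_lit 0) (nat_lit 21183147050) (nat_lit 76) (nat_lit 44733108201) (nat_lit 76) (nat_lit 9218179938) (nat_lit 40) (nat_lit 4) (nat_lit 41) (nat_lit 5) (nat_lit 41) (nat_lit 4) (nat_lit 489) (nat_lit 412) (nat_lit 299)) (XT.lf (nat_lit 0) (nat_lit 11369081088) (nat_lit 152) (nat_lit 12215159907) (nat_lit 76) (nat_lit 54192306809) (nat_lit 39) (nat_lit 5) (nat_lit 41) (nat_lit 5) (nat_lit 40) (nat_lit 4) (nat_lit 490) (nat_lit 412) (nat_lit 298)))))) (XT.nd (nat_lit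 624) (nat_lit 456) (nat_lit 0) (XT.nd (nat_lit 312) (nat_lit 228) (nat_lit 0) (XT.nd (nat_lit 156) (nat_lit 228) (nat_lit 0) (XT.nd (nat_lit 78) (nat_lit 0) (nat_lit 0) (XT.lf (nat_lit 0) (nat_lit 32479748867) (nat_lit 76) (nat_lit 694908103) (nat_lit 152) (nat_lit 47343616166) (nat_lit 38) (nat_lit 5) (nat_lit 39) (nat_lit 5) (nat_lit 40) (nat_lit 4) (nat_lit 491) (nat_lit 412) (nat_lit 297)) (XT.lf (nat_lit 0) (nat_lit 56636821670) (nat_lit 152) (nat_lit 3937515681) (nat_lit 0) (nat_lit 22794432005) (nat_lit 38) (nat_lit 5) (nat_lit 40) (nat_lit 4) (nat_lit 38) (nat_lit 4) (nat_lit 492) (nat_lit 412) (nat_lit 296))) (XT.nd (nat_lit 78) (nat_lit 152) (nat_lit 0) (XT.lf (nat_lit 0) (nat_lit 43741452510) (nat_lit 76) (nat_lit 38217021233) (nat_lit 76) (nat_lit 4368997805) (nat_lit 37) (nat_lit 4) (nat_lit 38) (nat_lit 5) (nat_lit 38) (nat_lit 4) (nat_lit 493) (nat_lit 412) (nat_lit 295)) (XT.lf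 (nat_lit 0) (nat_lit 4333810837) (nat_lit 76) (nat_lit 14294091482) (nat_lit 152) (nat_lit 70784911499) (nat_lit 35) (nat_lit 5) (nat_lit 36) (nat_lit 5) (nat_lit 37) (nat_lit 4) (nat_lit 494) (nat_lit 412) (nat_lit 294)))) (XT.nd (nat_lit 156) (nat_lit 152) (nat_lit 0) (XT.nd (nat_lit 78) (nat_lit 76) (nat_lit 0) (XT.lf (nat_lit 0) (nat_lit 43521953071) (nat_lit 152) (nat_lit 37806418819) (nat_lit 0) (nat_lit 11275763635) (nat_lit 35) (nat_lit 5) (nat_lit 37) (nat_lit 4) (nat_lit 35) (nat_lit 4) (nat_lit 495) (nat_lit 412) (nat_lit 293)) (XT.lf (nat_lit 0) (nat_lit 11963392720) (nat_lit 76) (nat_lit 58110888158) (nat_lit 76) (nat_lit 25860063811) (nat_lit 34) (nat_lit 4) (nat_lit 35) (nat_lit 5) (nat_lit 35) (nat_lit 4) (nat_lit 496) (nat_lit 412) (nat_lit 292))) (XT.nd (nat_lit 78) (nat_lit 152) (nat_lit 0) (XT.lf (nat_lit 0) (nat_lit 65519514131) (nat_lit 76) (nat_lit 33067572861) (nat_lit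 76) (nat_lit 812334312) (nat_lit 34) (nat_lit 4) (nat_lit 35) (nat_lit 5) (nat_lit 35) (nat_lit 4) (nat_lit 497) (nat_lit 412) (nat_lit 291)) (XT.lf (nat_lit 0) (nat_lit 18908680255) (nat_lit 76) (nat_lit 6051379649) (nat_lit 152) (nat_lit 78043392823) (nat_lit 32) (nat_lit 5) (nat_lit 33) (nat_lit 5) (nat_lit 34) (nat_lit 4) (nat_lit 498) (nat_lit 412) (nat_lit 290))))) (XT.nd (nat_lit 312) (nat_lit 228) (nat_lit 0) (XT.nd (nat_lit 156) (nat_lit 152) (nat_lit 0) (XT.nd (nat_lit 78) (nat_lit 76) (nat_lit 0) (XT.lf (nat_lit 0) (nat_lit 52918204299) (nat_lit 152) (nat_lit 31631481615) (nat_lit 0) (nat_lit 22191112527) (nat_lit 32) (nat_lit 5) (nat_lit 34) (nat_lit 4) (nat_lit 32) (nat_lit 4) (nat_lit 499) (nat_lit 412) (nat_lit 289)) (XT.lf (nat_lit 0) (nat_lit 24113965498) (nat_lit 76) (nat_lit 58629162870) (nat_lit 76) (nat_lit 27898439524) (nat_lit 31) (nat_lit 4) (nat_lit 32) (nat_lit 5) (nat_lit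 32) (nat_lit 4) (nat_lit 500) (nat_lit 412) (nat_lit 288))) (XT.nd (nat_lit 78) (nat_lit 152) (nat_lit 0) (XT.lf (nat_lit 0) (nat_lit 83731475153) (nat_lit 76) (nat_lit 30856816535) (nat_lit 76) (nat_lit 122634547) (nat_lit 31) (nat_lit 4) (nat_lit 32) (nat_lit 5) (nat_lit 32) (nat_lit 4) (nat_lit 501) (nat_lit 412) (nat_lit 287)) (XT.lf (nat_lit 0) (nat_lit 27768485680) (nat_lit 76) (nat_lit 771007789) (nat_lit 152) (nat_lit 90400234926) (nat_lit 29) (nat_lit 5) (nat_lit 30) (nat_lit 5) (nat_lit 31) (nat_lit 4) (nat_lit 502) (nat_lit 412) (nat_lit 286)))) (XT.nd (nat_lit 156) (nat_lit 152) (nat_lit 0) (XT.nd (nat_lit 78) (nat_lit 76) (nat_lit 0) (XT.lf (nat_lit 0) (nat_lit 59638555109) (nat_lit 152) (nat_lit 33329136868) (nat_lit 0) (nat_lit 30361780800) (nat_lit 29) (nat_lit 5) (nat_lit 31) (nat_lit 4) (nat_lit 29) (nat_lit 4) (nat_lit 503) (nat_lit 412) (nat_lit 285)) (XT.lf (nat_lit 0) (nat_lit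 28285390580) (nat_lit 76) (nat_lit 64455264664) (nat_lit 76) (nat_lit 35175644922) (nat_lit 28) (nat_lit 4) (nat_lit 29) (nat_lit 5) (nat_lit 29) (nat_lit 4) (nat_lit 504) (nat_lit 412) (nat_lit 284))) (XT.nd (nat_lit 78) (nat_lit 152) (nat_lit 0) (XT.lf (nat_lit 0) (nat_lit 94125602660) (nat_lit 76) (nat_lit 33930638481) (nat_lit 76) (nat_lit 4648308802) (nat_lit 28) (nat_lit 4) (nat_lit 29) (nat_lit 5) (nat_lit 29) (nat_lit 4) (nat_lit 505) (nat_lit 412) (nat_lit 283)) (XT.lf (nat_lit 0) (nat_lit 25915424045) (nat_lit 76) (nat_lit 1011568450) (nat_lit 152) (nat_lit 110763888907) (nat_lit 26) (nat_lit 5) (nat_lit 27) (nat_lit 5) (nat_lit 28) (nat_lit 4) (nat_lit 506) (nat_lit 412) (nat_lit 282))))))))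
noncomputable def xc123 : XT := (XT.nd (nat_lit 2418) (nat_lit 228) (nat_lit 0) (XT.nd (nat_lit 1170) (nat_lit 532) (nat_lit 0) (XT.nd (nat_lit 546) (nat_lit 380) (nat_lit 0) (XT.nd (nat_lit 234) (nat_lit 228) (nat_lit 0) (XT.nd (nat_lit 78) (nat_lit 76) (nat_lit 0) (XT.lf (nat_lit 0) (nat_lit 61106910318) (nat_lit 152) (nat_lit 48542527466) (nat_lit 0) (nat_lit 33214178353) (nat_lit 26) (nat_lit 5) (nat_lit 28) (nat_lit 4) (nat_lit 26) (nat_lit 4) (nat_lit 507) (nat_lit 412) (nat_lit 281)) (XT.nd (nat_lit 78) (nat_lit 0) (nat_lit 0) (XT.lf (nat_lit 0) (nat_lit 18413599230) (nat_lit 76) (nat_lit 78880712733) (nat_lit 76) (nat_lit 50985751296) (nat_lit 25) (nat_lit 4) (nat_lit 26) (nat_lit 5) (nat_lit 26) (nat_lit 4) (nat_lit 508) (nat_lit 412) (nat_lit 280)) (XT.lf (nat_lit 0) (nat_lit 90391783350) (nat_lit 76) (nat_lit 45715902044) (nat_lit 76) (nat_lit 17818817301) (nat_lit 25) (nat_lit 4)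 (nat_lit 26) (nat_lit 5) (nat_lit 26) (nat_lit 4) (nat_lit 509) (nat_lit 412) (nat_lit 279)))) (XT.nd (nat_lit 156) (nat_lit 76) (nat_lit 0) (XT.nd (nat_lit 78) (nat_lit 0) (nat_lit 0) (XT.lf (nat_lit 0) (nat_lit 6030419009) (nat_lit 76) (nat_lit 10520569258) (nat_lit 152) (nat_lit 143286558054) (nat_lit 23) (nat_lit 5) (nat_lit 24) (nat_lit 5) (nat_lit 25) (nat_lit 4) (nat_lit 510) (nat_lit 412) (nat_lit 278)) (XT.lf (nat_lit 0) (nat_lit 53541495012) (nat_lit 152) (nat_lit 85443906782) (nat_lit 0) (nat_lit 26969082782) (nat_lit 23) (nat_lit 5) (nat_lit 25) (nat_lit 4) (nat_lit 23) (nat_lit 4) (nat_lit 511) (nat_lit 412) (nat_lit 277))) (XT.nd (nat_lit 78) (nat_lit 76) (nat_lit 0) (XT.lf (nat_lit 0) (nat_lit 92548940668) (nat_lit 152) (nat_lit 13845176844) (nat_lit 0) (nat_lit 65974781590) (nat_lit 23) (nat_lit 5) (nat_lit 25) (nat_lit 4) (nat_lit 23) (nat_lit 4) (nat_lit 512) (nat_lit 412) (nat_lit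 276)) (XT.lf (nat_lit 0) (nat_lit 63351432724) (nat_lit 76) (nat_lit 71139605221) (nat_lit 76) (nat_lit 44563782476) (nat_lit 22) (nat_lit 4) (nat_lit 23) (nat_lit 5) (nat_lit 23) (nat_lit 4) (nat_lit 513) (nat_lit 412) (nat_lit 275))))) (XT.nd (nat_lit 312) (nat_lit 228) (nat_lit 0) (XT.nd (nat_lit 156) (nat_lit 0) (nat_lit 0) (XT.nd (nat_lit 78) (nat_lit 152) (nat_lit 0) (XT.lf (nat_lit 0) (nat_lit 144879004123) (nat_lit 76) (nat_lit 33880976929) (nat_lit 76) (nat_lit 7303569740) (nat_lit 22) (nat_lit 4) (nat_lit 23) (nat_lit 5) (nat_lit 23) (nat_lit 4) (nat_lit 514) (nat_lit 412) (nat_lit 274)) (XT.lf (nat_lit 0) (nat_lit 31485784552) (nat_lit 152) (nat_lit 155705334486) (nat_lit 0) (nat_lit 6172531045) (nat_lit 20) (nat_lit 5) (nat_lit 22) (nat_lit 4) (nat_lit 20) (nat_lit 4) (nat_lit 515) (nat_lit 412) (nat_lit 273))) (XT.nd (nat_lit 78) (nat_lit 0) (nat_lit 0) (XT.lf (nat_lit 0) (nat_lit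 73228921296) (nat_lit 152) (nat_lit 79816559325) (nat_lit 0) (nat_lit 47914299086) (nat_lit 20) (nat_lit 5) (nat_lit 22) (nat_lit 4) (nat_lit 20) (nat_lit 4) (nat_lit 516) (nat_lit 412) (nat_lit 272)) (XT.lf (nat_lit 0) (nat_lit 117054855249) (nat_lit 152) (nat_lit 142149057) (nat_lit 0) (nat_lit 91738929514) (nat_lit 20) (nat_lit 5) (nat_lit 22) (nat_lit 4) (nat_lit 20) (nat_lit 4) (nat_lit 517) (nat_lit 412) (nat_lit 271)))) (XT.nd (nat_lit 156) (nat_lit 152) (nat_lit 0) (XT.nd (nat_lit 78) (nat_lit 0) (nat_lit 0) (XT.lf (nat_lit 0) (nat_lit 86268735592) (nat_lit 76) (nat_lit 78146095013) (nat_lit 76) (nat_lit 52828927824) (nat_lit 19) (nat_lit 4) (nat_lit 20) (nat_lit 5) (nat_lit 20) (nat_lit 4) (nat_lit 518) (nat_lit 412) (nat_lit 270)) (XT.lf (nat_lit 0) (nat_lit 176996850371) (nat_lit 76) (nat_lit 37144278617) (nat_lit 76) (nat_lit 11825929092) (nat_lit 19) (nat_lit 4) (nat_lit 20) (nat_lit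 5) (nat_lit 20) (nat_lit 4) (nat_lit 519) (nat_lit 412) (nat_lit 269))) (XT.nd (nat_lit 78) (nat_lit 0) (nat_lit 0) (XT.lf (nat_lit 0) (nat_lit 30924609805) (nat_lit 152) (nat_lit 197331869339) (nat_lit 0) (nat_lit 6810823557) (nat_lit 17) (nat_lit 5) (nat_lit 19) (nat_lit 4) (nat_lit 17) (nat_lit 4) (nat_lit 520) (nat_lit 412) (nat_lit 268)) (XT.lf (nat_lit 0) (nat_lit 76863150365) (nat_lit 152) (nat_lit 114928977881) (nat_lit 0) (nat_lit 52748342771) (nat_lit 17) (nat_lit 5) (nat_lit 19) (nat_lit 4) (nat_lit 17) (nat_lit 4) (nat_lit 521) (nat_lit 412) (nat_lit 267)))))) (XT.nd (nat_lit 624) (nat_lit 228) (nat_lit 0) (XT.nd (nat_lit 312) (nat_lit 152) (nat_lit 0) (XT.nd (nat_lit 156) (nat_lit 76) (nat_lit 0) (XT.nd (nat_lit 78) (nat_lit 76) (nat_lit 0) (XT.lf (nat_lit 0) (nat_lit 125094857074) (nat_lit 152) (nat_lit 28413551968) (nat_lit 0) (nat_lit 100979076769) (nat_lit 17) (nat_lit 5) (nat_lit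 19) (nat_lit 4) (nat_lit 17) (nat_lit 4) (nat_lit 522) (nat_lit 412) (nat_lit 266)) (XT.lf (nat_lit 0) (nat_lit 64484297747) (nat_lit 76) (nat_lit 112257050186) (nat_lit 76) (nat_lit 88140343490) (nat_lit 16) (nat_lit 4) (nat_lit 17) (nat_lit 5) (nat_lit 17) (nat_lit 4) (nat_lit 523) (nat_lit 412) (nat_lit 265))) (XT.nd (nat_lit 78) (nat_lit 76) (nat_lit 0) (XT.lf (nat_lit 0) (nat_lit 163006363480) (nat_lit 76) (nat_lit 68441474547) (nat_lit 76) (nat_lit 44323885573) (nat_lit 16) (nat_lit 4) (nat_lit 17) (nat_lit 5) (nat_lit 17) (nat_lit 4) (nat_lit 524) (nat_lit 412) (nat_lit 264)) (XT.lf (nat_lit 0) (nat_lit 1626106245) (nat_lit 152) (nat_lit 20784911434) (nat_lit 76) (nat_lit 264794096089) (nat_lit 15) (nat_lit 5) (nat_lit 17) (nat_lit 5) (nat_lit 16) (nat_lit 4) (nat_lit 525) (nat_lit 412) (nat_lit 263)))) (XT.nd (nat_lit 156) (nat_lit 76) (nat_lit 0) (XT.nd (nat_lit 78) (nat_lit 0) (nat_lit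 0) (XT.lf (nat_lit 0) (nat_lit 50027849870) (nat_lit 152) (nat_lit 222006646149) (nat_lit 0) (nat_lit 27057155117) (nat_lit 14) (nat_lit 5) (nat_lit 16) (nat_lit 4) (nat_lit 14) (nat_lit 4) (nat_lit 526) (nat_lit 412) (nat_lit 262)) (XT.lf (nat_lit 0) (nat_lit 101571602514) (nat_lit 152) (nat_lit 131364634871) (nat_lit 0) (nat_lit 78600181909) (nat_lit 14) (nat_lit 5) (nat_lit 16) (nat_lit 4) (nat_lit 14) (nat_lit 4) (nat_lit 527) (nat_lit 412) (nat_lit 261))) (XT.nd (nat_lit 78) (nat_lit 76) (nat_lit 0) (XT.lf (nat_lit 0) (nat_lit 155689452352) (nat_lit 152) (nat_lit 36196787585) (nat_lit 0) (nat_lit 132717340460) (nat_lit 14) (nat_lit 5) (nat_lit 16) (nat_lit 4) (nat_lit 14) (nat_lit 4) (nat_lit 528) (nat_lit 412) (nat_lit 260)) (XT.lf (nat_lit 0) (nat_lit 65830472046) (nat_lit 76) (nat_lit 147707577520) (nat_lit 76) (nat_lit 124734807259) (nat_lit 13) (nat_lit 4) (nat_lit 14) (nat_lit 5) (nat_lit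 14) (nat_lit 4) (nat_lit 529) (nat_lit 412) (nat_lit 259))))) (XT.nd (nat_lit 312) (nat_lit 76) (nat_lit 0) (XT.nd (nat_lit 156) (nat_lit 152) (nat_lit 0) (XT.nd (nat_lit 78) (nat_lit 0) (nat_lit 0) (XT.lf (nat_lit 0) (nat_lit 174209895378) (nat_lit 76) (nat_lit 100679296611) (nat_lit 76) (nat_lit 77705899331) (nat_lit 13) (nat_lit 4) (nat_lit 14) (nat_lit 5) (nat_lit 14) (nat_lit 4) (nat_lit 530) (nat_lit 412) (nat_lit 258)) (XT.lf (nat_lit 0) (nat_lit 288002699387) (nat_lit 76) (nat_lit 51302435225) (nat_lit 76) (nat_lit 28328440785) (nat_lit 13) (nat_lit 4) (nat_lit 14) (nat_lit 5) (nat_lit 14) (nat_lit 4) (nat_lit 531) (nat_lit 412) (nat_lit 257))) (XT.nd (nat_lit 78) (nat_lit 0) (nat_lit 0) (XT.lf (nat_lit 0) (nat_lit 23165298251) (nat_lit 152) (nat_lit 358935558178) (nat_lit 0) (nat_lit 1284761905) (nat_lit 11) (nat_lit 5) (nat_lit 13) (nat_lit 4) (nat_lit 11) (nat_lit 4) (nat_lit 532)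 (nat_lit 412) (nat_lit 256)) (XT.lf (nat_lit 0) (nat_lit 78490754890) (nat_lit 152) (nat_lit 264691133210) (nat_lit 0) (nat_lit 56609702694) (nat_lit 11) (nat_lit 5) (nat_lit 13) (nat_lit 4) (nat_lit 11) (nat_lit 4) (nat_lit 533) (nat_lit 412) (nat_lit 255)))) (XT.nd (nat_lit 156) (nat_lit 76) (nat_lit 0) (XT.nd (nat_lit 78) (nat_lit 0) (nat_lit 0) (XT.lf (nat_lit 0) (nat_lit 136579944441) (nat_lit 152) (nat_lit 165739643482) (nat_lit 0) (nat_lit 114698400959) (nat_lit 11) (nat_lit 5) (nat_lit 13) (nat_lit 4) (nat_lit 11) (nat_lit 4) (nat_lit 534) (nat_lit 412) (nat_lit 254)) (XT.lf (nat_lit 0) (nat_lit 197571174498) (nat_lit 152) (nat_lit 61845490209) (nat_lit 0) (nat_lit 175689163126) (nat_lit 11) (nat_lit 5) (nat_lit 13) (nat_lit 4) (nat_lit 11) (nat_lit 4) (nat_lit 535) (nat_lit 412) (nat_lit 253))) (XT.nd (nat_lit 78) (nat_lit 0) (nat_lit 0) (XT.lf (nat_lit 0) (nat_lit 48800618187) (nat_lit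 76) (nat_lit 213570958503) (nat_lit 76) (nat_lit 191688501520) (nat_lit 10) (nat_lit 4) (nat_lit 11) (nat_lit 5) (nat_lit 11) (nat_lit 4) (nat_lit 536) (nat_lit 412) (nat_lit 252)) (XT.lf (nat_lit 0) (nat_lit 167121566124) (nat_lit 76) (nat_lit 164335550247) (nat_lit 76) (nat_lit 142452668874) (nat_lit 10) (nat_lit 4) (nat_lit 11) (nat_lit 5) (nat_lit 11) (nat_lit 4) (nat_lit 537) (nat_lit 412) (nat_lit 251))))))) (XT.nd (nat_lit 52962) (nat_lit 0) (nat_lit 9044) (XT.nd (nat_lit 624) (nat_lit 0) (nat_lit 0) (XT.nd (nat_lit 312) (nat_lit 76) (nat_lit 0) (XT.nd (nat_lit 156) (nat_lit 152) (nat_lit 0) (XT.nd (nat_lit 78) (nat_lit 0) (nat_lit 0) (XT.lf (nat_lit 0) (nat_lit 291354178933) (nat_lit 76) (nat_lit 112640596081) (nat_lit 76) (nat_lit 90757310527) (nat_lit 10) (nat_lit 4) (nat_lit 11) (nat_lit 5) (nat_lit 11) (nat_lit 4) (nat_lit 538) (nat_lit 412) (nat_lit 250)) (XT.lf (nat_lit 0) (nat_lit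 421794248551) (nat_lit 76) (nat_lit 58363012781) (nat_lit 76) (nat_lit 36479342292) (nat_lit 10) (nat_lit 4) (nat_lit 11) (nat_lit 5) (nat_lit 11) (nat_lit 4) (nat_lit 539) (nat_lit 412) (nat_lit 249))) (XT.nd (nat_lit 78) (nat_lit 0) (nat_lit 0) (XT.lf (nat_lit 0) (nat_lit 19438839440) (nat_lit 76) (nat_lit 718661307) (nat_lit 152) (nat_lit 519426758706) (nat_lit 8) (nat_lit 5) (nat_lit 9) (nat_lit 5) (nat_lit 10) (nat_lit 4) (nat_lit 540) (nat_lit 412) (nat_lit 248)) (XT.lf (nat_lit 0) (nat_lit 80964553884) (nat_lit 152) (nat_lit 422434346171) (nat_lit 0) (nat_lit 60122281274) (nat_lit 8) (nat_lit 5) (nat_lit 10) (nat_lit 4) (nat_lit 8) (nat_lit 4) (nat_lit 541) (nat_lit 412) (nat_lit 247)))) (XT.nd (nat_lit 156) (nat_lit 76) (nat_lit 0) (XT.nd (nat_lit 78) (nat_lit 0) (nat_lit 0) (XT.lf (nat_lit 0) (nat_lit 144821847354) (nat_lit 152) (nat_lit 319853349511) (nat_lit 0) (nat_lit 123979258057)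 (nat_lit 8) (nat_lit 5) (nat_lit 10) (nat_lit 4) (nat_lit 8) (nat_lit 4) (nat_lit 542) (nat_lit 412) (nat_lit 246)) (XT.lf (nat_lit 0) (nat_lit 211870202014) (nat_lit 152) (nat_lit 212146969248) (nat_lit 0) (nat_lit 191027311111) (nat_lit 8) (nat_lit 5) (nat_lit 10) (nat_lit 4) (nat_lit 8) (nat_lit 4) (nat_lit 543) (nat_lit 412) (nat_lit 245))) (XT.nd (nat_lit 78) (nat_lit 76) (nat_lit 0) (XT.lf (nat_lit 0) (nat_lit 282269256806) (nat_lit 152) (nat_lit 99058761620) (nat_lit 0) (nat_lit 261426078658) (nat_lit 8) (nat_lit 5) (nat_lit 10) (nat_lit 4) (nat_lit 8) (nat_lit 4) (nat_lit 544) (nat_lit 412) (nat_lit 244)) (XT.lf (nat_lit 0) (nat_lit 20331258245) (nat_lit 76) (nat_lit 336172798199) (nat_lit 76) (nat_lit 315329346485) (nat_lit 7) (nat_lit 4) (nat_lit 8) (nat_lit 5) (nat_lit 8) (nat_lit 4) (nat_lit 545) (nat_lit 412) (nat_lit 243))))) (XT.nd (nat_lit 312) (nat_lit 0) (nat_lit 0) (XT.nd (nat_lit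 156) (nat_lit 0) (nat_lit 0) (XT.nd (nat_lit 78) (nat_lit 0) (nat_lit 0) (XT.lf (nat_lit 0) (nat_lit 149126603882) (nat_lit 76) (nat_lit 286999991246) (nat_lit 76) (nat_lit 266156278993) (nat_lit 7) (nat_lit 4) (nat_lit 8) (nat_lit 5) (nat_lit 8) (nat_lit 4) (nat_lit 546) (nat_lit 412) (nat_lit 242)) (XT.lf (nat_lit 0) (nat_lit 284358600854) (nat_lit 76) (nat_lit 235370127513) (nat_lit 76) (nat_lit 214526167128) (nat_lit 7) (nat_lit 4) (nat_lit 8) (nat_lit 5) (nat_lit 8) (nat_lit 4) (nat_lit 547) (nat_lit 412) (nat_lit 241))) (XT.nd (nat_lit 78) (nat_lit 0) (nat_lit 0) (XT.lf (nat_lit 0) (nat_lit 426349230106) (nat_lit 76) (nat_lit 181160278754) (nat_lit 76) (nat_lit 160316082052) (nat_lit 7) (nat_lit 4) (nat_lit 8) (nat_lit 5) (nat_lit 8) (nat_lit 4) (nat_lit 548) (nat_lit 412) (nat_lit 240)) (XT.lf (nat_lit 0) (nat_lit 575436564566) (nat_lit 76) (nat_lit 124241373901) (nat_lit 76) (nat_lit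 103396952135) (nat_lit 7) (nat_lit 4) (nat_lit 8) (nat_lit 5) (nat_lit 8) (nat_lit 4) (nat_lit 549) (nat_lit 412) (nat_lit 239)))) (XT.nd (nat_lit 51870) (nat_lit 0) (nat_lit 12160) (XT.nd (nat_lit 51792) (nat_lit 0) (nat_lit 12160) (XT.lf (nat_lit 0) (nat_lit 731975574077) (nat_lit 76) (nat_lit 64477891751) (nat_lit 76) (nat_lit 43633255639) (nat_lit 7) (nat_lit 4) (nat_lit 8) (nat_lit 5) (nat_lit 8) (nat_lit 4) (nat_lit 550) (nat_lit 412) (nat_lit 238)) (XT.lf (nat_lit 0) (nat_lit 2212667650) (nat_lit 684) (nat_lit 993051673) (nat_lit 684) (nat_lit 993051673) (nat_lit 167) (nat_lit 3) (nat_lit 176) (nat_lit 3) (nat_lit 176) (nat_lit 5) (nat_lit 413) (nat_lit 413) (nat_lit 374))) (XT.nd (nat_lit 78) (nat_lit 0) (nat_lit 0) (XT.lf (nat_lit 76) (nat_lit 2254052629) (nat_lit 0) (nat_lit 3361235219) (nat_lit 684) (nat_lit 2938039721) (nat_lit 168) (nat_lit 5) (nat_lit 167) (nat_lit 3) (nat_lit 176)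 (nat_lit 5) (nat_lit 414) (nat_lit 413) (nat_lit 373)) (XT.lf (nat_lit 76) (nat_lit 6738913510) (nat_lit 0) (nat_lit 92056902) (nat_lit 684) (nat_lit 1887632361) (nat_lit 168) (nat_lit 5) (nat_lit 167) (nat_lit 3) (nat_lit 176) (nat_lit 5) (nat_lit 415) (nat_lit 413) (nat_lit 372)))))) (XT.nd (nat_lit 624) (nat_lit 2052) (nat_lit 0) (XT.nd (nat_lit 312) (nat_lit 456) (nat_lit 0) (XT.nd (nat_lit 156) (nat_lit 0) (nat_lit 76) (XT.nd (nat_lit 78) (nat_lit 684) (nat_lit 0) (XT.lf (nat_lit 76) (nat_lit 2547026980) (nat_lit 0) (nat_lit 5588601759) (nat_lit 684) (nat_lit 755114817) (nat_lit 169) (nat_lit 5) (nat_lit 168) (nat_lit 5) (nat_lit 177) (nat_lit 5) (nat_lit 416) (nat_lit 413) (nat_lit 371)) (XT.lf (nat_lit 0) (nat_lit 393424950) (nat_lit 684) (nat_lit 1749508310) (nat_lit 760) (nat_lit 6929565242) (nat_lit 159) (nat_lit 5) (nat_lit 168) (nat_lit 5) (nat_lit 169) (nat_lit 5) (nat_lit 417) (nat_lit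 413) (nat_lit 370))) (XT.nd (nat_lit 78) (nat_lit 0) (nat_lit 0) (XT.lf (nat_lit 0) (nat_lit 1587830203) (nat_lit 684) (nat_lit 6163379672) (nat_lit 760) (nat_lit 1510831456) (nat_lit 160) (nat_lit 5) (nat_lit 169) (nat_lit 5) (nat_lit 170) (nat_lit 5) (nat_lit 418) (nat_lit 413) (nat_lit 369)) (XT.lf (nat_lit 0) (nat_lit 2850424985) (nat_lit 684) (nat_lit 1285560424) (nat_lit 760) (nat_lit 5324661811) (nat_lit 160) (nat_lit 5) (nat_lit 169) (nat_lit 5) (nat_lit 170) (nat_lit 5) (nat_lit 419) (nat_lit 413) (nat_lit 368)))) (XT.nd (nat_lit 156) (nat_lit 532) (nat_lit 0) (XT.nd (nat_lit 78) (nat_lit 0) (nat_lit 76) (XT.lf (nat_lit 76) (nat_lit 3923297037) (nat_lit 0) (nat_lit 260034439) (nat_lit 760) (nat_lit 5485501761) (nat_lit 161) (nat_lit 5) (nat_lit 160) (nat_lit 5) (nat_lit 170) (nat_lit 5) (nat_lit 420) (nat_lit 413) (nat_lit 367)) (XT.lf (nat_lit 0) (nat_lit 5612628059) (nat_lit 684) (nat_lit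 549586984) (nat_lit 760) (nat_lit 3723734782) (nat_lit 161) (nat_lit 5) (nat_lit 170) (nat_lit 5) (nat_lit 171) (nat_lit 5) (nat_lit 421) (nat_lit 413) (nat_lit 366))) (XT.nd (nat_lit 78) (nat_lit 608) (nat_lit 0) (XT.lf (nat_lit 76) (nat_lit 5023992237) (nat_lit 0) (nat_lit 2122704362) (nat_lit 760) (nat_lit 2965568390) (nat_lit 162) (nat_lit 5) (nat_lit 161) (nat_lit 5) (nat_lit 171) (nat_lit 5) (nat_lit 422) (nat_lit 413) (nat_lit 365)) (XT.lf (nat_lit 0) (nat_lit 487657443) (nat_lit 684) (nat_lit 8272477520) (nat_lit 760) (nat_lit 1589635345) (nat_lit 153) (nat_lit 5) (nat_lit 162) (nat_lit 5) (nat_lit 163) (nat_lit 5) (nat_lit 423) (nat_lit 413) (nat_lit 364))))) (XT.nd (nat_lit 312) (nat_lit 836) (nat_lit 0) (XT.nd (nat_lit 156) (nat_lit 380) (nat_lit 0) (XT.nd (nat_lit 78) (nat_lit 836) (nat_lit 0) (XT.lf (nat_lit 0) (nat_lit 6443125357) (nat_lit 684) (nat_lit 4085679261) (nat_lit 760)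 (nat_lit 66625656) (nat_lit 153) (nat_lit 5) (nat_lit 162) (nat_lit 5) (nat_lit 163) (nat_lit 5) (nat_lit 424) (nat_lit 413) (nat_lit 363)) (XT.lf (nat_lit 0) (nat_lit 1473582236) (nat_lit 836) (nat_lit 9020382477) (nat_lit 76) (nat_lit 358713913) (nat_lit 142) (nat_lit 5) (nat_lit 153) (nat_lit 5) (nat_lit 143) (nat_lit 5) (nat_lit 425) (nat_lit 413) (nat_lit 362))) (XT.nd (nat_lit 78) (nat_lit 380) (nat_lit 0) (XT.lf (nat_lit 0) (nat_lit 3184193204) (nat_lit 836) (nat_lit 2969320351) (nat_lit 76) (nat_lit 4964445991) (nat_lit 142) (nat_lit 5) (nat_lit 153) (nat_lit 5) (nat_lit 143) (nat_lit 5) (nat_lit 426) (nat_lit 413) (nat_lit 361)) (XT.lf (nat_lit 0) (nat_lit 3455748449) (nat_lit 380) (nat_lit 1537758560) (nat_lit 456) (nat_lit 6402344937) (nat_lit 137) (nat_lit 5) (nat_lit 142) (nat_lit 5) (nat_lit 143) (nat_lit 5) (nat_lit 427) (nat_lit 413) (nat_lit 360)))) (XT.nd (nat_lit 156) (nat_lit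 456) (nat_lit 0) (XT.nd (nat_lit 78) (nat_lit 380) (nat_lit 0) (XT.lf (nat_lit 0) (nat_lit 6956630464) (nat_lit 456) (nat_lit 1472962265) (nat_lit 76) (nat_lit 3254884795) (nat_lit 137) (nat_lit 5) (nat_lit 143) (nat_lit 5) (nat_lit 138) (nat_lit 5) (nat_lit 428) (nat_lit 413) (nat_lit 359)) (XT.lf (nat_lit 0) (nat_lit 5427455864) (nat_lit 380) (nat_lit 3662851955) (nat_lit 456) (nat_lit 2893612162) (nat_lit 132) (nat_lit 5) (nat_lit 137) (nat_lit 5) (nat_lit 138) (nat_lit 5) (nat_lit 429) (nat_lit 413) (nat_lit 358))) (XT.nd (nat_lit 78) (nat_lit 76) (nat_lit 0) (XT.lf (nat_lit 0) (nat_lit 377917405) (nat_lit 380) (nat_lit 10968583221) (nat_lit 456) (nat_lit 951047578) (nat_lit 127) (nat_lit 5) (nat_lit 132) (nat_lit 5) (nat_lit 133) (nat_lit 5) (nat_lit 430) (nat_lit 413) (nat_lit 357)) (XT.lf (nat_lit 0) (nat_lit 1190865558) (nat_lit 456) (nat_lit 4853833689) (nat_lit 76) (nat_lit 6574460299)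 (nat_lit 126) (nat_lit 5) (nat_lit 132) (nat_lit 5) (nat_lit 127) (nat_lit 5) (nat_lit 431) (nat_lit 413) (nat_lit 356))))))))
noncomputable def xc124 : XT := (XT.nd (nat_lit 2418) (nat_lit 2280) (nat_lit 0) (XT.nd (nat_lit 1170) (nat_lit 1900) (nat_lit 0) (XT.nd (nat_lit 546) (nat_lit 1216) (nat_lit 0) (XT.nd (nat_lit 234) (nat_lit 684) (nat_lit 0) (XT.nd (nat_lit 78) (nat_lit 304) (nat_lit 0) (XT.lf (nat_lit 0) (nat_lit 2594308307) (nat_lit 304) (nat_lit 819975552) (nat_lit 380) (nat_lit 9541474015) (nat_lit 122) (nat_lit 5) (nat_lit 126) (nat_lit 5) (nat_lit 127) (nat_lit 5) (nat_lit 432) (nat_lit 413) (nat_lit 355)) (XT.nd (nat_lit 78) (nat_lit 304) (nat_lit 0) (XT.lf (nat_lit 0) (nat_lit 5872101080) (nat_lit 380) (nat_lit 2835256317) (nat_lit 76) (nat_lit 4595671618) (nat_lit 122) (nat_lit 5) (nat_lit 127) (nat_lit 5) (nat_lit 123) (nat_lit 5) (nat_lit 433) (nat_lit 413) (nat_lit 354)) (XT.lf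 (nat_lit 0) (nat_lit 5182185547) (nat_lit 304) (nat_lit 3333383148) (nat_lit 380) (nat_lit 5148961133) (nat_lit 118) (nat_lit 5) (nat_lit 122) (nat_lit 5) (nat_lit 123) (nat_lit 5) (nat_lit 434) (nat_lit 413) (nat_lit 353)))) (XT.nd (nat_lit 156) (nat_lit 304) (nat_lit 0) (XT.nd (nat_lit 78) (nat_lit 380) (nat_lit 0) (XT.lf (nat_lit 0) (nat_lit 11345308215) (nat_lit 380) (nat_lit 417929898) (nat_lit 76) (nat_lit 2278166542) (nat_lit 118) (nat_lit 5) (nat_lit 123) (nat_lit 5) (nat_lit 119) (nat_lit 5) (nat_lit 435) (nat_lit 413) (nat_lit 352)) (XT.lf (nat_lit 0) (nat_lit 39502200) (nat_lit 380) (nat_lit 6208364559) (nat_lit 76) (nat_lit 8181542578) (nat_lit 113) (nat_lit 5) (nat_lit 118) (nat_lit 5) (nat_lit 114) (nat_lit 5) (nat_lit 436) (nat_lit 413) (nat_lit 351))) (XT.nd (nat_lit 78) (nat_lit 0) (nat_lit 0) (XT.lf (nat_lit 0) (nat_lit 2467825553) (nat_lit 304) (nat_lit 370241886) (nat_lit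 380) (nat_lit 11995700606) (nat_lit 109) (nat_lit 5) (nat_lit 113) (nat_lit 5) (nat_lit 114) (nat_lit 5) (nat_lit 437) (nat_lit 413) (nat_lit 350)) (XT.lf (nat_lit 0) (nat_lit 5945754002) (nat_lit 380) (nat_lit 3589570360) (nat_lit 76) (nat_lit 5714563881) (nat_lit 109) (nat_lit 5) (nat_lit 114) (nat_lit 5) (nat_lit 110) (nat_lit 5) (nat_lit 438) (nat_lit 413) (nat_lit 349))))) (XT.nd (nat_lit 312) (nat_lit 456) (nat_lit 0) (XT.nd (nat_lit 156) (nat_lit 532) (nat_lit 0) (XT.nd (nat_lit 78) (nat_lit 0) (nat_lit 0) (XT.lf (nat_lit 0) (nat_lit 5768413528) (nat_lit 228) (nat_lit 3509640839) (nat_lit 304) (nat_lit 6405301663) (nat_lit 106) (nat_lit 5) (nat_lit 109) (nat_lit 5) (nat_lit 110) (nat_lit 5) (nat_lit 439) (nat_lit 413) (nat_lit 348)) (XT.lf (nat_lit 0) (nat_lit 12856433531) (nat_lit 304) (nat_lit 497878576) (nat_lit 76) (nat_lit 2780214820) (nat_lit 106) (nat_lit 5) (nat_lit 110) (nat_lit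 5) (nat_lit 107) (nat_lit 5) (nat_lit 440) (nat_lit 413) (nat_lit 347))) (XT.nd (nat_lit 78) (nat_lit 228) (nat_lit 0) (XT.lf (nat_lit 0) (nat_lit 190731706) (nat_lit 304) (nat_lit 6996905096) (nat_lit 76) (nat_lit 9411346347) (nat_lit 102) (nat_lit 5) (nat_lit 106) (nat_lit 5) (nat_lit 103) (nat_lit 5) (nat_lit 441) (nat_lit 413) (nat_lit 346)) (XT.lf (nat_lit 0) (nat_lit 3150134551) (nat_lit 228) (nat_lit 605651990) (nat_lit 304) (nat_lit 13326543496) (nat_lit 99) (nat_lit 5) (nat_lit 102) (nat_lit 5) (nat_lit 103) (nat_lit 5) (nat_lit 442) (nat_lit 413) (nat_lit 345)))) (XT.nd (nat_lit 156) (nat_lit 228) (nat_lit 0) (XT.nd (nat_lit 78) (nat_lit 228) (nat_lit 0) (XT.lf (nat_lit 0) (nat_lit 7693665682) (nat_lit 304) (nat_lit 3672242194) (nat_lit 76) (nat_lit 6214210208) (nat_lit 99) (nat_lit 5) (nat_lit 103) (nat_lit 5) (nat_lit 100) (nat_lit 5) (nat_lit 443) (nat_lit 413) (nat_lit 344)) (XT.lf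 (nat_lit 0) (nat_lit 7290426231) (nat_lit 228) (nat_lit 4638610557) (nat_lit 304) (nat_lit 6168731124) (nat_lit 96) (nat_lit 5) (nat_lit 99) (nat_lit 5) (nat_lit 100) (nat_lit 5) (nat_lit 444) (nat_lit 413) (nat_lit 343))) (XT.nd (nat_lit 78) (nat_lit 76) (nat_lit 0) (XT.lf (nat_lit 0) (nat_lit 224725590) (nat_lit 152) (nat_lit 16233297202) (nat_lit 228) (nat_lit 2179187292) (nat_lit 94) (nat_lit 5) (nat_lit 96) (nat_lit 5) (nat_lit 97) (nat_lit 5) (nat_lit 445) (nat_lit 413) (nat_lit 342)) (XT.lf (nat_lit 0) (nat_lit 2185035501) (nat_lit 228) (nat_lit 7155604722) (nat_lit 76) (nat_lit 9849440704) (nat_lit 93) (nat_lit 5) (nat_lit 96) (nat_lit 5) (nat_lit 94) (nat_lit 5) (nat_lit 446) (nat_lit 413) (nat_lit 341)))))) (XT.nd (nat_lit 624) (nat_lit 836) (nat_lit 0) (XT.nd (nat_lit 312) (nat_lit 380) (nat_lit 0) (XT.nd (nat_lit 156) (nat_lit 456) (nat_lit 0) (XT.nd (nat_lit 78) (nat_lit 0) (nat_lit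 0) (XT.lf (nat_lit 0) (nat_lit 4747671633) (nat_lit 228) (nat_lit 1999218891) (nat_lit 304) (nat_lit 13019287640) (nat_lit 90) (nat_lit 5) (nat_lit 93) (nat_lit 5) (nat_lit 94) (nat_lit 5) (nat_lit 447) (nat_lit 413) (nat_lit 340)) (XT.lf (nat_lit 0) (nat_lit 11728023340) (nat_lit 304) (nat_lit 2994632591) (nat_lit 76) (nat_lit 5638866865) (nat_lit 90) (nat_lit 5) (nat_lit 94) (nat_lit 5) (nat_lit 91) (nat_lit 5) (nat_lit 448) (nat_lit 413) (nat_lit 339))) (XT.nd (nat_lit 78) (nat_lit 304) (nat_lit 0) (XT.lf (nat_lit 0) (nat_lit 9882510272) (nat_lit 152) (nat_lit 7242653177) (nat_lit 228) (nat_lit 3853125378) (nat_lit 88) (nat_lit 5) (nat_lit 90) (nat_lit 5) (nat_lit 91) (nat_lit 5) (nat_lit 449) (nat_lit 413) (nat_lit 338)) (XT.lf (nat_lit 0) (nat_lit 1201084242) (nat_lit 304) (nat_lit 19738822649) (nat_lit 76) (nat_lit 681470143) (nat_lit 84) (nat_lit 5) (nat_lit 88) (nat_lit 5) (nat_lit 85)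 (nat_lit 5) (nat_lit 450) (nat_lit 413) (nat_lit 337)))) (XT.nd (nat_lit 156) (nat_lit 228) (nat_lit 0) (XT.nd (nat_lit 78) (nat_lit 152) (nat_lit 0) (XT.lf (nat_lit 0) (nat_lit 6668557306) (nat_lit 304) (nat_lit 6609071013) (nat_lit 76) (nat_lit 9001332339) (nat_lit 84) (nat_lit 5) (nat_lit 88) (nat_lit 5) (nat_lit 85) (nat_lit 5) (nat_lit 451) (nat_lit 413) (nat_lit 336)) (XT.lf (nat_lit 0) (nat_lit 7383099405) (nat_lit 152) (nat_lit 5122831028) (nat_lit 228) (nat_lit 10458668108) (nat_lit 82) (nat_lit 5) (nat_lit 84) (nat_lit 5) (nat_lit 85) (nat_lit 5) (nat_lit 452) (nat_lit 413) (nat_lit 335))) (XT.nd (nat_lit 78) (nat_lit 228) (nat_lit 0) (XT.lf (nat_lit 0) (nat_lit 18784139350) (nat_lit 228) (nat_lit 1460750761) (nat_lit 76) (nat_lit 3432181185) (nat_lit 82) (nat_lit 5) (nat_lit 85) (nat_lit 5) (nat_lit 83) (nat_lit 5) (nat_lit 453) (nat_lit 413) (nat_lit 334)) (XT.lf (nat_lit 0) (nat_lit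 1205360093) (nat_lit 228) (nat_lit 10739512385) (nat_lit 76) (nat_lit 12465318462) (nat_lit 79) (nat_lit 5) (nat_lit 82) (nat_lit 5) (nat_lit 80) (nat_lit 5) (nat_lit 454) (nat_lit 413) (nat_lit 333))))) (XT.nd (nat_lit 312) (nat_lit 304) (nat_lit 0) (XT.nd (nat_lit 156) (nat_lit 380) (nat_lit 0) (XT.nd (nat_lit 78) (nat_lit 0) (nat_lit 0) (XT.lf (nat_lit 0) (nat_lit 4463637911) (nat_lit 152) (nat_lit 3057817489) (nat_lit 228) (nat_lit 17650635554) (nat_lit 77) (nat_lit 5) (nat_lit 79) (nat_lit 5) (nat_lit 80) (nat_lit 5) (nat_lit 455) (nat_lit 413) (nat_lit 332)) (XT.lf (nat_lit 0) (nat_lit 14418855480) (nat_lit 228) (nat_lit 5293600150) (nat_lit 76) (nat_lit 6246356436) (nat_lit 77) (nat_lit 5) (nat_lit 80) (nat_lit 5) (nat_lit 78) (nat_lit 5) (nat_lit 456) (nat_lit 413) (nat_lit 331))) (XT.nd (nat_lit 78) (nat_lit 228) (nat_lit 0) (XT.lf (nat_lit 0) (nat_lit 11171348219) (nat_lit 152) (nat_lit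 10697837002) (nat_lit 228) (nat_lit 4905282071) (nat_lit 75) (nat_lit 5) (nat_lit 77) (nat_lit 5) (nat_lit 78) (nat_lit 5) (nat_lit 457) (nat_lit 413) (nat_lit 330)) (XT.lf (nat_lit 0) (nat_lit 986670830) (nat_lit 152) (nat_lit 1098614285) (nat_lit 228) (nat_lit 25539505722) (nat_lit 72) (nat_lit 5) (nat_lit 74) (nat_lit 5) (nat_lit 75) (nat_lit 5) (nat_lit 458) (nat_lit 413) (nat_lit 329)))) (XT.nd (nat_lit 156) (nat_lit 152) (nat_lit 0) (XT.nd (nat_lit 78) (nat_lit 152) (nat_lit 0) (XT.lf (nat_lit 0) (nat_lit 9653091099) (nat_lit 228) (nat_lit 9810050433) (nat_lit 76) (nat_lit 9030841202) (nat_lit 72) (nat_lit 5) (nat_lit 75) (nat_lit 5) (nat_lit 73) (nat_lit 5) (nat_lit 459) (nat_lit 413) (nat_lit 328)) (XT.lf (nat_lit 0) (nat_lit 8072812728) (nat_lit 152) (nat_lit 9655066755) (nat_lit 228) (nat_lit 11672325998) (nat_lit 70) (nat_lit 5) (nat_lit 72) (nat_lit 5) (nat_lit 73) (nat_lit 5) (nat_lit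 460) (nat_lit 413) (nat_lit 327))) (XT.nd (nat_lit 78) (nat_lit 152) (nat_lit 0) (XT.lf (nat_lit 0) (nat_lit 26370000551) (nat_lit 228) (nat_lit 3192924195) (nat_lit 76) (nat_lit 780635772) (nat_lit 70) (nat_lit 5) (nat_lit 73) (nat_lit 5) (nat_lit 71) (nat_lit 4) (nat_lit 461) (nat_lit 413) (nat_lit 326)) (XT.lf (nat_lit 0) (nat_lit 4381433697) (nat_lit 152) (nat_lit 15202852406) (nat_lit 76) (nat_lit 11726447421) (nat_lit 68) (nat_lit 5) (nat_lit 70) (nat_lit 5) (nat_lit 69) (nat_lit 5) (nat_lit 462) (nat_lit 413) (nat_lit 325))))))) (XT.nd (nat_lit 1170) (nat_lit 988) (nat_lit 0) (XT.nd (nat_lit 546) (nat_lit 684) (nat_lit 0) (XT.nd (nat_lit 234) (nat_lit 380) (nat_lit 0) (XT.nd (nat_lit 78) (nat_lit 76) (nat_lit 0) (XT.lf (nat_lit 0) (nat_lit 4203635013) (nat_lit 152) (nat_lit 8923073314) (nat_lit 228) (nat_lit 19190997098) (nat_lit 66) (nat_lit 5) (nat_lit 68) (nat_lit 5) (nat_lit 69) (nat_lit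 5) (nat_lit 463) (nat_lit 413) (nat_lit 324)) (XT.nd (nat_lit 78) (nat_lit 76) (nat_lit 0) (XT.lf (nat_lit 0) (nat_lit 22591991230) (nat_lit 228) (nat_lit 8319593419) (nat_lit 76) (nat_lit 2449304717) (nat_lit 66) (nat_lit 5) (nat_lit 69) (nat_lit 5) (nat_lit 67) (nat_lit 4) (nat_lit 464) (nat_lit 413) (nat_lit 323)) (XT.lf (nat_lit 0) (nat_lit 12700030869) (nat_lit 76) (nat_lit 20161352562) (nat_lit 152) (nat_lit 1578307456) (nat_lit 65) (nat_lit 5) (nat_lit 66) (nat_lit 5) (nat_lit 67) (nat_lit 4) (nat_lit 465) (nat_lit 413) (nat_lit 322)))) (XT.nd (nat_lit 156) (nat_lit 152) (nat_lit 0) (XT.nd (nat_lit 78) (nat_lit 152) (nat_lit 0) (XT.lf (nat_lit 0) (nat_lit 7943004273) (nat_lit 152) (nat_lit 659076975) (nat_lit 76) (nat_lit 26957573640) (nat_lit 64) (nat_lit 5) (nat_lit 66) (nat_lit 5) (nat_lit 65) (nat_lit 5) (nat_lit 466) (nat_lit 413) (nat_lit 321)) (XT.lf (nat_lit 0) (nat_lit 18281022648)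 (nat_lit 228) (nat_lit 14644358060) (nat_lit 76) (nat_lit 3789259112) (nat_lit 62) (nat_lit 5) (nat_lit 65) (nat_lit 5) (nat_lit 63) (nat_lit 4) (nat_lit 467) (nat_lit 413) (nat_lit 320))) (XT.nd (nat_lit 78) (nat_lit 76) (nat_lit 0) (XT.lf (nat_lit 0) (nat_lit 8127359307) (nat_lit 76) (nat_lit 21274913059) (nat_lit 152) (nat_lit 8511785640) (nat_lit 61) (nat_lit 5) (nat_lit 62) (nat_lit 5) (nat_lit 63) (nat_lit 4) (nat_lit 468) (nat_lit 413) (nat_lit 319)) (XT.lf (nat_lit 0) (nat_lit 2084323730) (nat_lit 152) (nat_lit 6672574805) (nat_lit 76) (nat_lit 30403101307) (nat_lit 60) (nat_lit 5) (nat_lit 62) (nat_lit 5) (nat_lit 61) (nat_lit 5) (nat_lit 469) (nat_lit 413) (nat_lit 318))))) (XT.nd (nat_lit 312) (nat_lit 228) (nat_lit 0) (XT.nd (nat_lit 156) (nat_lit 228) (nat_lit 0) (XT.nd (nat_lit 78) (nat_lit 76) (nat_lit 0) (XT.lf (nat_lit 0) (nat_lit 13268359422) (nat_lit 228) (nat_lit 22511495649)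 (nat_lit 76) (nat_lit 4664198650) (nat_lit 58) (nat_lit 5) (nat_lit 61) (nat_lit 5) (nat_lit 59) (nat_lit 4) (nat_lit 470) (nat_lit 413) (nat_lit 317)) (XT.lf (nat_lit 0) (nat_lit 2112418719) (nat_lit 76) (nat_lit 23178379459) (nat_lit 152) (nat_lit 16487552485) (nat_lit 57) (nat_lit 5) (nat_lit 58) (nat_lit 5) (nat_lit 59) (nat_lit 4) (nat_lit 471) (nat_lit 413) (nat_lit 316))) (XT.nd (nat_lit 78) (nat_lit 228) (nat_lit 0) (XT.lf (nat_lit 0) (nat_lit 28726715841) (nat_lit 76) (nat_lit 9556926499) (nat_lit 152) (nat_lit 4877256351) (nat_lit 57) (nat_lit 5) (nat_lit 58) (nat_lit 5) (nat_lit 59) (nat_lit 4) (nat_lit 472) (nat_lit 413) (nat_lit 315)) (XT.lf (nat_lit 0) (nat_lit 7339167980) (nat_lit 228) (nat_lit 32359260665) (nat_lit 76) (nat_lit 4895451956) (nat_lit 54) (nat_lit 5) (nat_lit 57) (nat_lit 5) (nat_lit 55) (nat_lit 4) (nat_lit 473) (nat_lit 413) (nat_lit 314)))) (XT.nd (nat_lit 156)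 (nat_lit 152) (nat_lit 0) (XT.nd (nat_lit 78) (nat_lit 76) (nat_lit 0) (XT.lf (nat_lit 0) (nat_lit 20396119303) (nat_lit 228) (nat_lit 5610679903) (nat_lit 76) (nat_lit 20068034327) (nat_lit 54) (nat_lit 5) (nat_lit 57) (nat_lit 5) (nat_lit 55) (nat_lit 4) (nat_lit 474) (nat_lit 413) (nat_lit 313)) (XT.lf (nat_lit 0) (nat_lit 23197073923) (nat_lit 76) (nat_lit 11260049315) (nat_lit 152) (nat_lit 13155150963) (nat_lit 53) (nat_lit 5) (nat_lit 54) (nat_lit 5) (nat_lit 55) (nat_lit 4) (nat_lit 475) (nat_lit 413) (nat_lit 312))) (XT.nd (nat_lit 78) (nat_lit 0) (nat_lit 0) (XT.lf (nat_lit 0) (nat_lit 219844886) (nat_lit 152) (nat_lit 44745993167) (nat_lit 76) (nat_lit 4249499315) (nat_lit 51) (nat_lit 5) (nat_lit 53) (nat_lit 5) (nat_lit 52) (nat_lit 4) (nat_lit 476) (nat_lit 413) (nat_lit 311)) (XT.lf (nat_lit 0) (nat_lit 14415456400) (nat_lit 152) (nat_lit 15659937615) (nat_lit 76) (nat_lit 20782678801)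 (nat_lit 51) (nat_lit 5) (nat_lit 53) (nat_lit 5) (nat_lit 52) (nat_lit 4) (nat_lit 477) (nat_lit 413) (nat_lit 310)))))) (XT.nd (nat_lit 624) (nat_lit 456) (nat_lit 0) (XT.nd (nat_lit 312) (nat_lit 228) (nat_lit 0) (XT.nd (nat_lit 156) (nat_lit 228) (nat_lit 0) (XT.nd (nat_lit 78) (nat_lit 0) (nat_lit 0) (XT.lf (nat_lit 0) (nat_lit 15351982888) (nat_lit 76) (nat_lit 14198184119) (nat_lit 152) (nat_lit 23021312385) (nat_lit 50) (nat_lit 5) (nat_lit 51) (nat_lit 5) (nat_lit 52) (nat_lit 4) (nat_lit 478) (nat_lit 413) (nat_lit 309)) (XT.lf (nat_lit 0) (nat_lit 45739453652) (nat_lit 152) (nat_lit 5961917042) (nat_lit 0) (nat_lit 2654293841) (nat_lit 50) (nat_lit 5) (nat_lit 52) (nat_lit 4) (nat_lit 50) (nat_lit 4) (nat_lit 479) (nat_lit 413) (nat_lit 308))) (XT.nd (nat_lit 78) (nat_lit 76) (nat_lit 0) (XT.lf (nat_lit 0) (nat_lit 6963569387) (nat_lit 152) (nat_lit 28822140366) (nat_lit 76) (nat_lit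 20405130275) (nat_lit 48) (nat_lit 5) (nat_lit 50) (nat_lit 5) (nat_lit 49) (nat_lit 4) (nat_lit 480) (nat_lit 413) (nat_lit 307)) (XT.lf (nat_lit 0) (nat_lit 4440404751) (nat_lit 76) (nat_lit 18754509664) (nat_lit 152) (nat_lit 34907690796) (nat_lit 47) (nat_lit 5) (nat_lit 48) (nat_lit 5) (nat_lit 49) (nat_lit 4) (nat_lit 481) (nat_lit 413) (nat_lit 306)))) (XT.nd (nat_lit 156) (nat_lit 152) (nat_lit 0) (XT.nd (nat_lit 78) (nat_lit 76) (nat_lit 0) (XT.lf (nat_lit 0) (nat_lit 40348104907) (nat_lit 76) (nat_lit 368202007) (nat_lit 152) (nat_lit 19369727947) (nat_lit 47) (nat_lit 5) (nat_lit 48) (nat_lit 5) (nat_lit 49) (nat_lit 4) (nat_lit 482) (nat_lit 413) (nat_lit 305)) (XT.lf (nat_lit 0) (nat_lit 16083612698) (nat_lit 76) (nat_lit 43567621583) (nat_lit 76) (nat_lit 2490528659) (nat_lit 46) (nat_lit 4) (nat_lit 47) (nat_lit 5) (nat_lit 47) (nat_lit 4) (nat_lit 483) (nat_lit 413) (nat_lit 304)))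 (XT.nd (nat_lit 78) (nat_lit 76) (nat_lit 0) (XT.lf (nat_lit 0) (nat_lit 15081583391) (nat_lit 152) (nat_lit 10169482619) (nat_lit 76) (nat_lit 39020495794) (nat_lit 45) (nat_lit 5) (nat_lit 47) (nat_lit 5) (nat_lit 46) (nat_lit 4) (nat_lit 484) (nat_lit 413) (nat_lit 303)) (XT.lf (nat_lit 0) (nat_lit 28363388371) (nat_lit 76) (nat_lit 5519193945) (nat_lit 152) (nat_lit 32601528090) (nat_lit 44) (nat_lit 5) (nat_lit 45) (nat_lit 5) (nat_lit 46) (nat_lit 4) (nat_lit 485) (nat_lit 413) (nat_lit 302))))) (XT.nd (nat_lit 312) (nat_lit 228) (nat_lit 0) (XT.nd (nat_lit 156) (nat_lit 76) (nat_lit 0) (XT.nd (nat_lit 78) (nat_lit 76) (nat_lit 0) (XT.lf (nat_lit 0) (nat_lit 123891843) (nat_lit 76) (nat_lit 53905201401) (nat_lit 76) (nat_lit 14757920263) (nat_lit 43) (nat_lit 4) (nat_lit 44) (nat_lit 5) (nat_lit 44) (nat_lit 4) (nat_lit 486) (nat_lit 413) (nat_lit 301)) (XT.lf (nat_lit 0) (nat_lit 4588395507)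 (nat_lit 152) (nat_lit 29748997618) (nat_lit 76) (nat_lit 36827671302) (nat_lit 42) (nat_lit 5) (nat_lit 44) (nat_lit 5) (nat_lit 43) (nat_lit 4) (nat_lit 487) (nat_lit 413) (nat_lit 300))) (XT.nd (nat_lit 78) (nat_lit 0) (nat_lit 0) (XT.lf (nat_lit 0) (nat_lit 11211303075) (nat_lit 76) (nat_lit 13361409738) (nat_lit 152) (nat_lit 49068876142) (nat_lit 41) (nat_lit 5) (nat_lit 42) (nat_lit 5) (nat_lit 43) (nat_lit 4) (nat_lit 488) (nat_lit 413) (nat_lit 299)) (XT.lf (nat_lit 0) (nat_lit 46195210789) (nat_lit 152) (nat_lit 21124282849) (nat_lit 0) (nat_lit 8890497970) (nat_lit 41) (nat_lit 5) (nat_lit 43) (nat_lit 4) (nat_lit 41) (nat_lit 4) (nat_lit 489) (nat_lit 413) (nat_lit 298)))) (XT.nd (nat_lit 156) (nat_lit 76) (nat_lit 0) (XT.nd (nat_lit 78) (nat_lit 76) (nat_lit 0) (XT.lf (nat_lit 0) (nat_lit 22740138829) (nat_lit 76) (nat_lit 46724802462) (nat_lit 76) (nat_lit 9413567856) (nat_lit 40)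 (nat_lit 4) (nat_lit 41) (nat_lit 5) (nat_lit 41) (nat_lit 4) (nat_lit 490) (nat_lit 413) (nat_lit 297)) (XT.lf (nat_lit 0) (nat_lit 12182318709) (nat_lit 152) (nat_lit 12343692474) (nat_lit 76) (nat_lit 57127121079) (nat_lit 39) (nat_lit 5) (nat_lit 41) (nat_lit 5) (nat_lit 40) (nat_lit 4) (nat_lit 491) (nat_lit 413) (nat_lit 296))) (XT.nd (nat_lit 78) (nat_lit 0) (nat_lit 0) (XT.lf (nat_lit 0) (nat_lit 34578183909) (nat_lit 76) (nat_lit 495740574) (nat_lit 152) (nat_lit 49458232004) (nat_lit 38) (nat_lit 5) (nat_lit 39) (nat_lit 5) (nat_lit 40) (nat_lit 4) (nat_lit 492) (nat_lit 413) (nat_lit 295)) (XT.lf (nat_lit 0) (nat_lit 59701221516) (nat_lit 152) (nat_lit 3674557304) (nat_lit 0) (nat_lit 24149797663) (nat_lit 38) (nat_lit 5) (nat_lit 40) (nat_lit 4) (nat_lit 38) (nat_lit 4) (nat_lit 493) (nat_lit 413) (nat_lit 294))))))))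
noncomputable def xc125 : XT := (XT.nd (nat_lit 2418) (nat_lit 684) (nat_lit 0) (XT.nd (nat_lit 1170) (nat_lit 760) (nat_lit 0) (XT.nd (nat_lit 546) (nat_lit 456) (nat_lit 0) (XT.nd (nat_lit 234) (nat_lit 228) (nat_lit 0) (XT.nd (nat_lit 78) (nat_lit 152) (nat_lit 0) (XT.lf (nat_lit 0) (nat_lit 46380942616) (nat_lit 76) (nat_lit 39904002854) (nat_lit 76) (nat_lit 4347469012) (nat_lit 37) (nat_lit 4) (nat_lit 38) (nat_lit 5) (nat_lit 38) (nat_lit 4) (nat_lit 494) (nat_lit 413) (nat_lit 293)) (XT.nd (nat_lit 78) (nat_lit 0) (nat_lit 0) (XT.lf (nat_lit 0) (nat_lit 5003181773) (nat_lit 76) (nat_lit 14784419335) (nat_lit 152) (nat_lit 74084435277) (nat_lit 35) (nat_lit 5) (nat_lit 36) (nat_lit 5) (nat_lit 37) (nat_lit 4) (nat_lit 495) (nat_lit 413) (nat_lit 292)) (XT.lf (nat_lit 0) (nat_lit 45918819127) (nat_lit 152) (nat_lit 39258077505) (nat_lit 0) (nat_lit 12046404450) (nat_lit 35) (nat_lit 5)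 (nat_lit 37) (nat_lit 4) (nat_lit 35) (nat_lit 4) (nat_lit 496) (nat_lit 413) (nat_lit 291)))) (XT.nd (nat_lit 156) (nat_lit 152) (nat_lit 0) (XT.nd (nat_lit 78) (nat_lit 0) (nat_lit 0) (XT.lf (nat_lit 0) (nat_lit 12993149413) (nat_lit 76) (nat_lit 60801839413) (nat_lit 76) (nat_lit 26925220734) (nat_lit 34) (nat_lit 4) (nat_lit 35) (nat_lit 5) (nat_lit 35) (nat_lit 4) (nat_lit 497) (nat_lit 413) (nat_lit 290)) (XT.lf (nat_lit 0) (nat_lit 69206525131) (nat_lit 76) (nat_lit 34516577073) (nat_lit 76) (nat_lit 635954583) (nat_lit 34) (nat_lit 4) (nat_lit 35) (nat_lit 5) (nat_lit 35) (nat_lit 4) (nat_lit 498) (nat_lit 413) (nat_lit 289))) (XT.nd (nat_lit 78) (nat_lit 0) (nat_lit 0) (XT.lf (nat_lit 0) (nat_lit 20265355561) (nat_lit 76) (nat_lit 6149176733) (nat_lit 152) (nat_lit 81728767297) (nat_lit 32) (nat_lit 5) (nat_lit 33) (nat_lit 5) (nat_lit 34) (nat_lit 4) (nat_lit 499) (nat_lit 413) (nat_lit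 288)) (XT.lf (nat_lit 0) (nat_lit 55763796854) (nat_lit 152) (nat_lit 32814608074) (nat_lit 0) (nat_lit 23489447124) (nat_lit 32) (nat_lit 5) (nat_lit 34) (nat_lit 4) (nat_lit 32) (nat_lit 4) (nat_lit 500) (nat_lit 413) (nat_lit 287))))) (XT.nd (nat_lit 312) (nat_lit 228) (nat_lit 0) (XT.nd (nat_lit 156) (nat_lit 76) (nat_lit 0) (XT.nd (nat_lit 78) (nat_lit 76) (nat_lit 0) (XT.lf (nat_lit 0) (nat_lit 25711684820) (nat_lit 76) (nat_lit 61364894171) (nat_lit 76) (nat_lit 29087250496) (nat_lit 31) (nat_lit 4) (nat_lit 32) (nat_lit 5) (nat_lit 32) (nat_lit 4) (nat_lit 501) (nat_lit 413) (nat_lit 286)) (XT.lf (nat_lit 0) (nat_lit 65368540) (nat_lit 152) (nat_lit 32146775256) (nat_lit 76) (nat_lit 88224926701) (nat_lit 30) (nat_lit 5) (nat_lit 32) (nat_lit 5) (nat_lit 31) (nat_lit 4) (nat_lit 502) (nat_lit 413) (nat_lit 285))) (XT.nd (nat_lit 78) (nat_lit 0) (nat_lit 0) (XT.lf (nat_lit 0) (nat_lit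 29530424748) (nat_lit 76) (nat_lit 622840236) (nat_lit 152) (nat_lit 94724108184) (nat_lit 29) (nat_lit 5) (nat_lit 30) (nat_lit 5) (nat_lit 31) (nat_lit 4) (nat_lit 503) (nat_lit 413) (nat_lit 284)) (XT.lf (nat_lit 0) (nat_lit 62801160990) (nat_lit 152) (nat_lit 34633744911) (nat_lit 0) (nat_lit 32052004890) (nat_lit 29) (nat_lit 5) (nat_lit 31) (nat_lit 4) (nat_lit 29) (nat_lit 4) (nat_lit 504) (nat_lit 413) (nat_lit 283)))) (XT.nd (nat_lit 156) (nat_lit 152) (nat_lit 0) (XT.nd (nat_lit 78) (nat_lit 0) (nat_lit 0) (XT.lf (nat_lit 0) (nat_lit 30055672639) (nat_lit 76) (nat_lit 67499648126) (nat_lit 76) (nat_lit 36747911134) (nat_lit 28) (nat_lit 4) (nat_lit 29) (nat_lit 5) (nat_lit 29) (nat_lit 4) (nat_lit 505) (nat_lit 413) (nat_lit 282)) (XT.lf (nat_lit 0) (nat_lit 99170942345) (nat_lit 76) (nat_lit 35457284909) (nat_lit 76) (nat_lit 4703089925) (nat_lit 28) (nat_lit 4) (nat_lit 29) (nat_lit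 5) (nat_lit 29) (nat_lit 4) (nat_lit 506) (nat_lit 413) (nat_lit 281))) (XT.nd (nat_lit 78) (nat_lit 0) (nat_lit 0) (XT.lf (nat_lit 0) (nat_lit 27550381266) (nat_lit 76) (nat_lit 892017365) (nat_lit 152) (nat_lit 116124572602) (nat_lit 26) (nat_lit 5) (nat_lit 27) (nat_lit 5) (nat_lit 28) (nat_lit 4) (nat_lit 507) (nat_lit 413) (nat_lit 280)) (XT.lf (nat_lit 0) (nat_lit 64325791748) (nat_lit 152) (nat_lit 50641097592) (nat_lit 0) (nat_lit 35031729462) (nat_lit 26) (nat_lit 5) (nat_lit 28) (nat_lit 4) (nat_lit 26) (nat_lit 4) (nat_lit 508) (nat_lit 413) (nat_lit 279)))))) (XT.nd (nat_lit 624) (nat_lit 304) (nat_lit 0) (XT.nd (nat_lit 312) (nat_lit 228) (nat_lit 0) (XT.nd (nat_lit 156) (nat_lit 152) (nat_lit 0) (XT.nd (nat_lit 78) (nat_lit 0) (nat_lit 0) (XT.lf (nat_lit 0) (nat_lit 19657536145) (nat_lit 76) (nat_lit 82662286853) (nat_lit 76) (nat_lit 53366202370) (nat_lit 25) (nat_lit 4) (nat_lit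 26) (nat_lit 5) (nat_lit 26) (nat_lit 4) (nat_lit 509) (nat_lit 413) (nat_lit 278)) (XT.lf (nat_lit 0) (nat_lit 95219236282) (nat_lit 76) (nat_lit 47846971893) (nat_lit 76) (nat_lit 18548961508) (nat_lit 25) (nat_lit 4) (nat_lit 26) (nat_lit 5) (nat_lit 26) (nat_lit 4) (nat_lit 510) (nat_lit 413) (nat_lit 277))) (XT.nd (nat_lit 78) (nat_lit 0) (nat_lit 0) (XT.lf (nat_lit 0) (nat_lit 6639902814) (nat_lit 76) (nat_lit 10891681278) (nat_lit 152) (nat_lit 150290186116) (nat_lit 23) (nat_lit 5) (nat_lit 24) (nat_lit 5) (nat_lit 25) (nat_lit 4) (nat_lit 511) (nat_lit 413) (nat_lit 276)) (XT.lf (nat_lit 0) (nat_lit 56366631754) (nat_lit 152) (nat_lit 89417818690) (nat_lit 0) (nat_lit 28460354206) (nat_lit 23) (nat_lit 5) (nat_lit 25) (nat_lit 4) (nat_lit 23) (nat_lit 4) (nat_lit 512) (nat_lit 413) (nat_lit 275)))) (XT.nd (nat_lit 156) (nat_lit 152) (nat_lit 0) (XT.nd (nat_lit 78) (nat_lit 76) (nat_lit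 0) (XT.lf (nat_lit 0) (nat_lit 97317399123) (nat_lit 152) (nat_lit 14253356228) (nat_lit 0) (nat_lit 69409537131) (nat_lit 23) (nat_lit 5) (nat_lit 25) (nat_lit 4) (nat_lit 23) (nat_lit 4) (nat_lit 513) (nat_lit 413) (nat_lit 274)) (XT.lf (nat_lit 0) (nat_lit 66798501892) (nat_lit 76) (nat_lit 74555748281) (nat_lit 76) (nat_lit 46646377295) (nat_lit 22) (nat_lit 4) (nat_lit 23) (nat_lit 5) (nat_lit 23) (nat_lit 4) (nat_lit 514) (nat_lit 413) (nat_lit 273))) (XT.nd (nat_lit 78) (nat_lit 152) (nat_lit 0) (XT.lf (nat_lit 0) (nat_lit 152389142454) (nat_lit 76) (nat_lit 35440895108) (nat_lit 76) (nat_lit 7530086984) (nat_lit 22) (nat_lit 4) (nat_lit 23) (nat_lit 5) (nat_lit 23) (nat_lit 4) (nat_lit 515) (nat_lit 413) (nat_lit 272)) (XT.lf (nat_lit 0) (nat_lit 33194158895) (nat_lit 152) (nat_lit 163219835262) (nat_lit 0) (nat_lit 6611133347) (nat_lit 20) (nat_lit 5) (nat_lit 22) (nat_lit 4) (nat_lit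 20) (nat_lit 4) (nat_lit 516) (nat_lit 413) (nat_lit 271))))) (XT.nd (nat_lit 312) (nat_lit 228) (nat_lit 0) (XT.nd (nat_lit 156) (nat_lit 0) (nat_lit 0) (XT.nd (nat_lit 78) (nat_lit 76) (nat_lit 0) (XT.lf (nat_lit 0) (nat_lit 77018067470) (nat_lit 152) (nat_lit 83549514960) (nat_lit 0) (nat_lit 50433800469) (nat_lit 20) (nat_lit 5) (nat_lit 22) (nat_lit 4) (nat_lit 20) (nat_lit 4) (nat_lit 517) (nat_lit 413) (nat_lit 270)) (XT.lf (nat_lit 0) (nat_lit 99521495) (nat_lit 76) (nat_lit 122931249478) (nat_lit 76) (nat_lit 96345800140) (nat_lit 19) (nat_lit 4) (nat_lit 20) (nat_lit 5) (nat_lit 20) (nat_lit 4) (nat_lit 518) (nat_lit 413) (nat_lit 269))) (XT.nd (nat_lit 78) (nat_lit 0) (nat_lit 0) (XT.lf (nat_lit 0) (nat_lit 90823803895) (nat_lit 76) (nat_lit 81931368549) (nat_lit 76) (nat_lit 55344793177) (nat_lit 19) (nat_lit 4) (nat_lit 20) (nat_lit 5) (nat_lit 20) (nat_lit 4) (nat_lit 519) (nat_lit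 413) (nat_lit 268)) (XT.lf (nat_lit 0) (nat_lit 186076818150) (nat_lit 76) (nat_lit 38885272343) (nat_lit 76) (nat_lit 12297624557) (nat_lit 19) (nat_lit 4) (nat_lit 20) (nat_lit 5) (nat_lit 20) (nat_lit 4) (nat_lit 520) (nat_lit 413) (nat_lit 267)))) (XT.nd (nat_lit 156) (nat_lit 76) (nat_lit 0) (XT.nd (nat_lit 78) (nat_lit 0) (nat_lit 0) (XT.lf (nat_lit 0) (nat_lit 32586510252) (nat_lit 152) (nat_lit 206964405249) (nat_lit 0) (nat_lit 7263968221) (nat_lit 17) (nat_lit 5) (nat_lit 19) (nat_lit 4) (nat_lit 17) (nat_lit 4) (nat_lit 521) (nat_lit 413) (nat_lit 266)) (XT.lf (nat_lit 0) (nat_lit 80816469747) (nat_lit 152) (nat_lit 120452514815) (nat_lit 0) (nat_lit 55493001324) (nat_lit 17) (nat_lit 5) (nat_lit 19) (nat_lit 4) (nat_lit 17) (nat_lit 4) (nat_lit 522) (nat_lit 413) (nat_lit 265))) (XT.nd (nat_lit 78) (nat_lit 76) (nat_lit 0) (XT.lf (nat_lit 0) (nat_lit 131454515988) (nat_lit 152) (nat_lit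 29621932462) (nat_lit 0) (nat_lit 106130165288) (nat_lit 17) (nat_lit 5) (nat_lit 19) (nat_lit 4) (nat_lit 17) (nat_lit 4) (nat_lit 523) (nat_lit 413) (nat_lit 264)) (XT.lf (nat_lit 0) (nat_lit 67917385592) (nat_lit 76) (nat_lit 117764210888) (nat_lit 76) (nat_lit 92439019924) (nat_lit 16) (nat_lit 4) (nat_lit 17) (nat_lit 5) (nat_lit 17) (nat_lit 4) (nat_lit 524) (nat_lit 413) (nat_lit 263))))))) (XT.nd (nat_lit 1170) (nat_lit 228) (nat_lit 0) (XT.nd (nat_lit 546) (nat_lit 228) (nat_lit 0) (XT.nd (nat_lit 234) (nat_lit 76) (nat_lit 0) (XT.nd (nat_lit 78) (nat_lit 152) (nat_lit 0) (XT.lf (nat_lit 0) (nat_lit 171355608281) (nat_lit 76) (nat_lit 71762889410) (nat_lit 76) (nat_lit 46436898194) (nat_lit 16) (nat_lit 4) (nat_lit 17) (nat_lit 5) (nat_lit 17) (nat_lit 4) (nat_lit 525) (nat_lit 413) (nat_lit 262)) (XT.nd (nat_lit 78) (nat_lit 76) (nat_lit 0) (XT.lf (nat_lit 0) (nat_lit 1802534606) (nat_lit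 152) (nat_lit 21631557418) (nat_lit 76) (nat_lit 278126520820) (nat_lit 15) (nat_lit 5) (nat_lit 17) (nat_lit 5) (nat_lit 16) (nat_lit 4) (nat_lit 526) (nat_lit 413) (nat_lit 261)) (XT.lf (nat_lit 0) (nat_lit 52624292173) (nat_lit 152) (nat_lit 232914305192) (nat_lit 0) (nat_lit 28502883399) (nat_lit 14) (nat_lit 5) (nat_lit 16) (nat_lit 4) (nat_lit 14) (nat_lit 4) (nat_lit 527) (nat_lit 413) (nat_lit 260)))) (XT.nd (nat_lit 156) (nat_lit 76) (nat_lit 0) (XT.nd (nat_lit 78) (nat_lit 0) (nat_lit 0) (XT.lf (nat_lit 0) (nat_lit 106740706268) (nat_lit 152) (nat_lit 137749368268) (nat_lit 0) (nat_lit 82618639124) (nat_lit 14) (nat_lit 5) (nat_lit 16) (nat_lit 4) (nat_lit 14) (nat_lit 4) (nat_lit 528) (nat_lit 413) (nat_lit 259)) (XT.lf (nat_lit 0) (nat_lit 163560137949) (nat_lit 152) (nat_lit 37831866634) (nat_lit 0) (nat_lit 139437443788) (nat_lit 14) (nat_lit 5) (nat_lit 16) (nat_lit 4) (nat_lit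 14) (nat_lit 4) (nat_lit 529) (nat_lit 413) (nat_lit 258))) (XT.nd (nat_lit 78) (nat_lit 0) (nat_lit 0) (XT.lf (nat_lit 0) (nat_lit 69293937264) (nat_lit 76) (nat_lit 155005806871) (nat_lit 76) (nat_lit 130882515548) (nat_lit 13) (nat_lit 4) (nat_lit 14) (nat_lit 5) (nat_lit 14) (nat_lit 4) (nat_lit 530) (nat_lit 413) (nat_lit 257)) (XT.lf (nat_lit 0) (nat_lit 183084144066) (nat_lit 76) (nat_lit 105630261893) (nat_lit 76) (nat_lit 81506401847) (nat_lit 13) (nat_lit 4) (nat_lit 14) (nat_lit 5) (nat_lit 14) (nat_lit 4) (nat_lit 531) (nat_lit 413) (nat_lit 256))))) (XT.nd (nat_lit 312) (nat_lit 76) (nat_lit 0) (XT.nd (nat_lit 156) (nat_lit 0) (nat_lit 0) (XT.nd (nat_lit 78) (nat_lit 152) (nat_lit 0) (XT.lf (nat_lit 0) (nat_lit 302558790470) (nat_lit 76) (nat_lit 53788509798) (nat_lit 76) (nat_lit 29664108110) (nat_lit 13) (nat_lit 4) (nat_lit 14) (nat_lit 5) (nat_lit 14) (nat_lit 4) (nat_lit 532)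 (nat_lit 413) (nat_lit 255)) (XT.lf (nat_lit 0) (nat_lit 24401681175) (nat_lit 152) (nat_lit 376723742630) (nat_lit 0) (nat_lit 1425569234) (nat_lit 11) (nat_lit 5) (nat_lit 13) (nat_lit 4) (nat_lit 11) (nat_lit 4) (nat_lit 533) (nat_lit 413) (nat_lit 254))) (XT.nd (nat_lit 78) (nat_lit 0) (nat_lit 0) (XT.lf (nat_lit 0) (nat_lit 82489690740) (nat_lit 152) (nat_lit 277774648483) (nat_lit 0) (nat_lit 59513110908) (nat_lit 11) (nat_lit 5) (nat_lit 13) (nat_lit 4) (nat_lit 11) (nat_lit 4) (nat_lit 534) (nat_lit 413) (nat_lit 253)) (XT.lf (nat_lit 0) (nat_lit 143479797001) (nat_lit 152) (nat_lit 173882776716) (nat_lit 0) (nat_lit 120502771560) (nat_lit 11) (nat_lit 5) (nat_lit 13) (nat_lit 4) (nat_lit 11) (nat_lit 4) (nat_lit 535) (nat_lit 413) (nat_lit 252)))) (XT.nd (nat_lit 156) (nat_lit 0) (nat_lit 0) (XT.nd (nat_lit 78) (nat_lit 76) (nat_lit 0) (XT.lf (nat_lit 0) (nat_lit 207517214498) (nat_lit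 152) (nat_lit 64800765729) (nat_lit 0) (nat_lit 184539764666) (nat_lit 11) (nat_lit 5) (nat_lit 13) (nat_lit 4) (nat_lit 11) (nat_lit 4) (nat_lit 536) (nat_lit 413) (nat_lit 251)) (XT.lf (nat_lit 0) (nat_lit 51375438426) (nat_lit 76) (nat_lit 224181089418) (nat_lit 76) (nat_lit 201203235404) (nat_lit 10) (nat_lit 4) (nat_lit 11) (nat_lit 5) (nat_lit 11) (nat_lit 4) (nat_lit 537) (nat_lit 413) (nat_lit 250))) (XT.nd (nat_lit 78) (nat_lit 0) (nat_lit 0) (XT.lf (nat_lit 0) (nat_lit 175606015220) (nat_lit 76) (nat_lit 172487168702) (nat_lit 76) (nat_lit 149508929754) (nat_lit 10) (nat_lit 4) (nat_lit 11) (nat_lit 5) (nat_lit 11) (nat_lit 4) (nat_lit 538) (nat_lit 413) (nat_lit 249)) (XT.lf (nat_lit 0) (nat_lit 306044145775) (nat_lit 76) (nat_lit 118210569641) (nat_lit 76) (nat_lit 95231964088) (nat_lit 10) (nat_lit 4) (nat_lit 11) (nat_lit 5) (nat_lit 11) (nat_lit 4) (nat_lit 539) (nat_lit 413) (nat_lit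 248)))))) (XT.nd (nat_lit 624) (nat_lit 0) (nat_lit 0) (XT.nd (nat_lit 312) (nat_lit 76) (nat_lit 0) (XT.nd (nat_lit 156) (nat_lit 0) (nat_lit 0) (XT.nd (nat_lit 78) (nat_lit 152) (nat_lit 0) (XT.lf (nat_lit 0) (nat_lit 443000397069) (nat_lit 76) (nat_lit 61222062234) (nat_lit 76) (nat_lit 38243107534) (nat_lit 10) (nat_lit 4) (nat_lit 11) (nat_lit 5) (nat_lit 11) (nat_lit 4) (nat_lit 540) (nat_lit 413) (nat_lit 247)) (XT.lf (nat_lit 0) (nat_lit 20527235467) (nat_lit 76) (nat_lit 695458527) (nat_lit 152) (nat_lit 545337912322) (nat_lit 8) (nat_lit 5) (nat_lit 9) (nat_lit 5) (nat_lit 10) (nat_lit 4) (nat_lit 541) (nat_lit 413) (nat_lit 246))) (XT.nd (nat_lit 78) (nat_lit 0) (nat_lit 0) (XT.lf (nat_lit 0) (nat_lit 85068249659) (nat_lit 152) (nat_lit 443443304537) (nat_lit 0) (nat_lit 63182912604) (nat_lit 8) (nat_lit 5) (nat_lit 10) (nat_lit 4) (nat_lit 8) (nat_lit 4) (nat_lit 542) (nat_lit 413)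 (nat_lit 245)) (XT.lf (nat_lit 0) (nat_lit 152115766465) (nat_lit 152) (nat_lit 335738627517) (nat_lit 0) (nat_lit 130230142166) (nat_lit 8) (nat_lit 5) (nat_lit 10) (nat_lit 4) (nat_lit 8) (nat_lit 4) (nat_lit 543) (nat_lit 413) (nat_lit 244)))) (XT.nd (nat_lit 156) (nat_lit 76) (nat_lit 0) (XT.nd (nat_lit 78) (nat_lit 0) (nat_lit 0) (XT.lf (nat_lit 0) (nat_lit 222514023300) (nat_lit 152) (nat_lit 222652042025) (nat_lit 0) (nat_lit 200628125434) (nat_lit 8) (nat_lit 5) (nat_lit 10) (nat_lit 4) (nat_lit 8) (nat_lit 4) (nat_lit 544) (nat_lit 413) (nat_lit 243)) (XT.lf (nat_lit 0) (nat_lit 296430635060) (nat_lit 152) (nat_lit 103914294286) (nat_lit 0) (nat_lit 274544476655) (nat_lit 8) (nat_lit 5) (nat_lit 10) (nat_lit 4) (nat_lit 8) (nat_lit 4) (nat_lit 545) (nat_lit 413) (nat_lit 242))) (XT.nd (nat_lit 78) (nat_lit 0) (nat_lit 0) (XT.lf (nat_lit 0) (nat_lit 21443655516) (nat_lit 76) (nat_lit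 352932733720) (nat_lit 76) (nat_lit 331046327183) (nat_lit 7) (nat_lit 4) (nat_lit 8) (nat_lit 5) (nat_lit 8) (nat_lit 4) (nat_lit 546) (nat_lit 413) (nat_lit 241)) (XT.lf (nat_lit 0) (nat_lit 156674204894) (nat_lit 76) (nat_lit 301303605676) (nat_lit 76) (nat_lit 279416962822) (nat_lit 7) (nat_lit 4) (nat_lit 8) (nat_lit 5) (nat_lit 8) (nat_lit 4) (nat_lit 547) (nat_lit 413) (nat_lit 240))))) (XT.nd (nat_lit 52104) (nat_lit 0) (nat_lit 11552) (XT.nd (nat_lit 156) (nat_lit 0) (nat_lit 0) (XT.nd (nat_lit 78) (nat_lit 0) (nat_lit 0) (XT.lf (nat_lit 0) (nat_lit 298663455485) (nat_lit 76) (nat_lit 247094457572) (nat_lit 76) (nat_lit 225207589655) (nat_lit 7) (nat_lit 4) (nat_lit 8) (nat_lit 5) (nat_lit 8) (nat_lit 4) (nat_lit 548) (nat_lit 413) (nat_lit 239)) (XT.lf (nat_lit 0) (nat_lit 447749476934) (nat_lit 76) (nat_lit 190176220009) (nat_lit 76) (nat_lit 168289137746) (nat_lit 7) (nat_lit 4) (nat_lit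 8) (nat_lit 5) (nat_lit 8) (nat_lit 4) (nat_lit 549) (nat_lit 413) (nat_lit 238))) (XT.nd (nat_lit 51870) (nat_lit 0) (nat_lit 12160) (XT.lf (nat_lit 0) (nat_lit 604287235959) (nat_lit 76) (nat_lit 130413373374) (nat_lit 76) (nat_lit 108526086972) (nat_lit 7) (nat_lit 4) (nat_lit 8) (nat_lit 5) (nat_lit 8) (nat_lit 4) (nat_lit 550) (nat_lit 413) (nat_lit 237)) (XT.lf (nat_lit 0) (nat_lit 3351126369) (nat_lit 684) (nat_lit 503003906) (nat_lit 684) (nat_lit 503003906) (nat_lit 167) (nat_lit 3) (nat_lit 176) (nat_lit 3) (nat_lit 176) (nat_lit 5) (nat_lit 414) (nat_lit 414) (nat_lit 372)))) (XT.nd (nat_lit 156) (nat_lit 608) (nat_lit 0) (XT.nd (nat_lit 78) (nat_lit 0) (nat_lit 0) (XT.lf (nat_lit 76) (nat_lit 3428746273) (nat_lit 0) (nat_lit 4441649167) (nat_lit 684) (nat_lit 1011530683) (nat_lit 168) (nat_lit 5) (nat_lit 167) (nat_lit 3) (nat_lit 176) (nat_lit 5) (nat_lit 415) (nat_lit 414) (nat_lit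 371)) (XT.lf (nat_lit 76) (nat_lit 8087279197) (nat_lit 0) (nat_lit 965566592) (nat_lit 684) (nat_lit 7336813) (nat_lit 168) (nat_lit 5) (nat_lit 167) (nat_lit 3) (nat_lit 176) (nat_lit 5) (nat_lit 416) (nat_lit 414) (nat_lit 370))) (XT.nd (nat_lit 78) (nat_lit 0) (nat_lit 0) (XT.lf (nat_lit 0) (nat_lit 1057302895) (nat_lit 684) (nat_lit 5486601960) (nat_lit 760) (nat_lit 2700452077) (nat_lit 159) (nat_lit 5) (nat_lit 168) (nat_lit 5) (nat_lit 169) (nat_lit 5) (nat_lit 417) (nat_lit 414) (nat_lit 369)) (XT.lf (nat_lit 0) (nat_lit 2150997763) (nat_lit 684) (nat_lit 730391807) (nat_lit 760) (nat_lit 6557550286) (nat_lit 159) (nat_lit 5) (nat_lit 168) (nat_lit 5) (nat_lit 169) (nat_lit 5) (nat_lit 418) (nat_lit 414) (nat_lit 368))))))))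
noncomputable def xc126 : XT := (XT.nd (nat_lit 2418) (nat_lit 3040) (nat_lit 0) (XT.nd (nat_lit 1170) (nat_lit 2432) (nat_lit 0) (XT.nd (nat_lit 546) (nat_lit 2280) (nat_lit 0) (XT.nd (nat_lit 234) (nat_lit 608) (nat_lit 0) (XT.nd (nat_lit 78) (nat_lit 0) (nat_lit 0) (XT.lf (nat_lit 0) (nat_lit 3330255907) (nat_lit 684) (nat_lit 5289814612) (nat_lit 760) (nat_lit 1021646414) (nat_lit 160) (nat_lit 5) (nat_lit 169) (nat_lit 5) (nat_lit 170) (nat_lit 5) (nat_lit 419) (nat_lit 414) (nat_lit 367)) (XT.nd (nat_lit 78) (nat_lit 0) (nat_lit 0) (XT.lf (nat_lit 0) (nat_lit 4576788323) (nat_lit 684) (nat_lit 224377451) (nat_lit 760) (nat_lit 5053060031) (nat_lit 160) (nat_lit 5) (nat_lit 169) (nat_lit 5) (nat_lit 170) (nat_lit 5) (nat_lit 420) (nat_lit 414) (nat_lit 366)) (XT.lf (nat_lit 76) (nat_lit 5226770286) (nat_lit 0) (nat_lit 691436988) (nat_lit 760) (nat_lit 4157532953) (nat_lit 161) (nat_lit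 5) (nat_lit 160) (nat_lit 5) (nat_lit 170) (nat_lit 5) (nat_lit 421) (nat_lit 414) (nat_lit 365)))) (XT.nd (nat_lit 156) (nat_lit 684) (nat_lit 0) (XT.nd (nat_lit 78) (nat_lit 0) (nat_lit 0) (XT.lf (nat_lit 76) (nat_lit 575029121) (nat_lit 0) (nat_lit 6774043219) (nat_lit 760) (nat_lit 2958146989) (nat_lit 162) (nat_lit 5) (nat_lit 161) (nat_lit 5) (nat_lit 171) (nat_lit 5) (nat_lit 422) (nat_lit 414) (nat_lit 364)) (XT.lf (nat_lit 76) (nat_lit 6390597443) (nat_lit 0) (nat_lit 2508786747) (nat_lit 760) (nat_lit 1648500368) (nat_lit 162) (nat_lit 5) (nat_lit 161) (nat_lit 5) (nat_lit 171) (nat_lit 5) (nat_lit 423) (nat_lit 414) (nat_lit 363))) (XT.nd (nat_lit 78) (nat_lit 76) (nat_lit 0) (XT.lf (nat_lit 0) (nat_lit 1682620509) (nat_lit 684) (nat_lit 8858542002) (nat_lit 760) (nat_lit 258729994) (nat_lit 153) (nat_lit 5) (nat_lit 162) (nat_lit 5) (nat_lit 163) (nat_lit 5) (nat_lit 424) (nat_lit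 414) (nat_lit 362)) (XT.lf (nat_lit 0) (nat_lit 1232516331) (nat_lit 760) (nat_lit 3200802781) (nat_lit 76) (nat_lit 6626730312) (nat_lit 152) (nat_lit 5) (nat_lit 162) (nat_lit 5) (nat_lit 153) (nat_lit 5) (nat_lit 425) (nat_lit 414) (nat_lit 361))))) (XT.nd (nat_lit 312) (nat_lit 1140) (nat_lit 0) (XT.nd (nat_lit 156) (nat_lit 380) (nat_lit 0) (XT.nd (nat_lit 78) (nat_lit 0) (nat_lit 0) (XT.lf (nat_lit 0) (nat_lit 2801545109) (nat_lit 836) (nat_lit 8267240026) (nat_lit 76) (nat_lit 263627269) (nat_lit 142) (nat_lit 5) (nat_lit 153) (nat_lit 5) (nat_lit 143) (nat_lit 5) (nat_lit 426) (nat_lit 414) (nat_lit 360)) (XT.lf (nat_lit 0) (nat_lit 4537958827) (nat_lit 836) (nat_lit 1970965822) (nat_lit 76) (nat_lit 5105027967) (nat_lit 142) (nat_lit 5) (nat_lit 153) (nat_lit 5) (nat_lit 143) (nat_lit 5) (nat_lit 427) (nat_lit 414) (nat_lit 359))) (XT.nd (nat_lit 78) (nat_lit 0) (nat_lit 0) (XT.lf (nat_lit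 0) (nat_lit 4756859312) (nat_lit 380) (nat_lit 1641611684) (nat_lit 456) (nat_lit 5509240439) (nat_lit 137) (nat_lit 5) (nat_lit 142) (nat_lit 5) (nat_lit 143) (nat_lit 5) (nat_lit 428) (nat_lit 414) (nat_lit 358)) (XT.lf (nat_lit 0) (nat_lit 8404335925) (nat_lit 456) (nat_lit 416441283) (nat_lit 76) (nat_lit 3392769853) (nat_lit 137) (nat_lit 5) (nat_lit 143) (nat_lit 5) (nat_lit 138) (nat_lit 5) (nat_lit 429) (nat_lit 414) (nat_lit 357)))) (XT.nd (nat_lit 156) (nat_lit 304) (nat_lit 0) (XT.nd (nat_lit 78) (nat_lit 456) (nat_lit 0) (XT.lf (nat_lit 0) (nat_lit 6810769219) (nat_lit 380) (nat_lit 3798913487) (nat_lit 456) (nat_lit 1920037305) (nat_lit 132) (nat_lit 5) (nat_lit 137) (nat_lit 5) (nat_lit 138) (nat_lit 5) (nat_lit 430) (nat_lit 414) (nat_lit 356)) (XT.lf (nat_lit 0) (nat_lit 83174098) (nat_lit 456) (nat_lit 11319353510) (nat_lit 76) (nat_lit 1458048151) (nat_lit 126) (nat_lit 5) (nat_lit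 132) (nat_lit 5) (nat_lit 127) (nat_lit 5) (nat_lit 431) (nat_lit 414) (nat_lit 355))) (XT.nd (nat_lit 78) (nat_lit 304) (nat_lit 0) (XT.lf (nat_lit 0) (nat_lit 2250230379) (nat_lit 456) (nat_lit 3972079769) (nat_lit 76) (nat_lit 6977684136) (nat_lit 126) (nat_lit 5) (nat_lit 132) (nat_lit 5) (nat_lit 127) (nat_lit 5) (nat_lit 432) (nat_lit 414) (nat_lit 354)) (XT.lf (nat_lit 0) (nat_lit 3830333107) (nat_lit 304) (nat_lit 724148528) (nat_lit 380) (nat_lit 9000464084) (nat_lit 122) (nat_lit 5) (nat_lit 126) (nat_lit 5) (nat_lit 127) (nat_lit 5) (nat_lit 433) (nat_lit 414) (nat_lit 353)))))) (XT.nd (nat_lit 624) (nat_lit 988) (nat_lit 0) (XT.nd (nat_lit 312) (nat_lit 760) (nat_lit 0) (XT.nd (nat_lit 156) (nat_lit 380) (nat_lit 0) (XT.nd (nat_lit 78) (nat_lit 304) (nat_lit 0) (XT.lf (nat_lit 0) (nat_lit 7091058342) (nat_lit 380) (nat_lit 1879139896) (nat_lit 76) (nat_lit 4951594743) (nat_lit 122)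 (nat_lit 5) (nat_lit 127) (nat_lit 5) (nat_lit 123) (nat_lit 5) (nat_lit 434) (nat_lit 414) (nat_lit 352)) (XT.lf (nat_lit 0) (nat_lit 6521466331) (nat_lit 304) (nat_lit 3318033119) (nat_lit 380) (nat_lit 4463235087) (nat_lit 118) (nat_lit 5) (nat_lit 122) (nat_lit 5) (nat_lit 123) (nat_lit 5) (nat_lit 435) (nat_lit 414) (nat_lit 351))) (XT.nd (nat_lit 78) (nat_lit 76) (nat_lit 0) (XT.lf (nat_lit 0) (nat_lit 650913041) (nat_lit 304) (nat_lit 12129912828) (nat_lit 380) (nat_lit 1919127676) (nat_lit 114) (nat_lit 5) (nat_lit 118) (nat_lit 5) (nat_lit 119) (nat_lit 5) (nat_lit 436) (nat_lit 414) (nat_lit 350)) (XT.lf (nat_lit 0) (nat_lit 888891607) (nat_lit 380) (nat_lit 5438999092) (nat_lit 76) (nat_lit 8780519768) (nat_lit 113) (nat_lit 5) (nat_lit 118) (nat_lit 5) (nat_lit 114) (nat_lit 5) (nat_lit 437) (nat_lit 414) (nat_lit 349)))) (XT.nd (nat_lit 156) (nat_lit 456) (nat_lit 0) (XT.nd (nat_lit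 78) (nat_lit 0) (nat_lit 0) (XT.lf (nat_lit 0) (nat_lit 3653584660) (nat_lit 304) (nat_lit 150033926) (nat_lit 380) (nat_lit 11730561548) (nat_lit 109) (nat_lit 5) (nat_lit 113) (nat_lit 5) (nat_lit 114) (nat_lit 5) (nat_lit 438) (nat_lit 414) (nat_lit 348)) (XT.lf (nat_lit 0) (nat_lit 7031017763) (nat_lit 380) (nat_lit 2721508827) (nat_lit 76) (nat_lit 6220367810) (nat_lit 109) (nat_lit 5) (nat_lit 114) (nat_lit 5) (nat_lit 110) (nat_lit 5) (nat_lit 439) (nat_lit 414) (nat_lit 347))) (XT.nd (nat_lit 78) (nat_lit 228) (nat_lit 0) (XT.lf (nat_lit 0) (nat_lit 7087478448) (nat_lit 228) (nat_lit 3421023274) (nat_lit 304) (nat_lit 5920609686) (nat_lit 106) (nat_lit 5) (nat_lit 109) (nat_lit 5) (nat_lit 110) (nat_lit 5) (nat_lit 440) (nat_lit 414) (nat_lit 346)) (XT.lf (nat_lit 0) (nat_lit 507699263) (nat_lit 228) (nat_lit 13733452049) (nat_lit 304) (nat_lit 2662926020) (nat_lit 103) (nat_lit 5) (nat_lit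 106) (nat_lit 5) (nat_lit 107) (nat_lit 5) (nat_lit 441) (nat_lit 414) (nat_lit 345))))) (XT.nd (nat_lit 312) (nat_lit 456) (nat_lit 0) (XT.nd (nat_lit 156) (nat_lit 228) (nat_lit 0) (XT.nd (nat_lit 78) (nat_lit 228) (nat_lit 0) (XT.lf (nat_lit 0) (nat_lit 926655831) (nat_lit 304) (nat_lit 6324795307) (nat_lit 76) (nat_lit 10141088199) (nat_lit 102) (nat_lit 5) (nat_lit 106) (nat_lit 5) (nat_lit 103) (nat_lit 5) (nat_lit 442) (nat_lit 414) (nat_lit 344)) (XT.lf (nat_lit 0) (nat_lit 4313113177) (nat_lit 228) (nat_lit 337958582) (nat_lit 304) (nat_lit 13249929898) (nat_lit 99) (nat_lit 5) (nat_lit 102) (nat_lit 5) (nat_lit 103) (nat_lit 5) (nat_lit 443) (nat_lit 414) (nat_lit 343))) (XT.nd (nat_lit 78) (nat_lit 228) (nat_lit 0) (XT.lf (nat_lit 0) (nat_lit 8756585281) (nat_lit 304) (nat_lit 2868935694) (nat_lit 76) (nat_lit 6799624447) (nat_lit 99) (nat_lit 5) (nat_lit 103) (nat_lit 5) (nat_lit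 100) (nat_lit 5) (nat_lit 444) (nat_lit 414) (nat_lit 342)) (XT.lf (nat_lit 0) (nat_lit 8625948110) (nat_lit 228) (nat_lit 4560639905) (nat_lit 304) (nat_lit 5782949751) (nat_lit 96) (nat_lit 5) (nat_lit 99) (nat_lit 5) (nat_lit 100) (nat_lit 5) (nat_lit 445) (nat_lit 414) (nat_lit 341)))) (XT.nd (nat_lit 156) (nat_lit 228) (nat_lit 0) (XT.nd (nat_lit 78) (nat_lit 76) (nat_lit 0) (XT.lf (nat_lit 0) (nat_lit 1219125122) (nat_lit 152) (nat_lit 16711375232) (nat_lit 228) (nat_lit 1606030868) (nat_lit 94) (nat_lit 5) (nat_lit 96) (nat_lit 5) (nat_lit 97) (nat_lit 5) (nat_lit 446) (nat_lit 414) (nat_lit 340)) (XT.lf (nat_lit 0) (nat_lit 2923129013) (nat_lit 228) (nat_lit 6556191739) (nat_lit 76) (nat_lit 10638767218) (nat_lit 93) (nat_lit 5) (nat_lit 96) (nat_lit 5) (nat_lit 94) (nat_lit 5) (nat_lit 447) (nat_lit 414) (nat_lit 339))) (XT.nd (nat_lit 78) (nat_lit 0) (nat_lit 0) (XT.lf (nat_lit 0) (nat_lit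 5926809833) (nat_lit 228) (nat_lit 1771025538) (nat_lit 304) (nat_lit 13025919384) (nat_lit 90) (nat_lit 5) (nat_lit 93) (nat_lit 5) (nat_lit 94) (nat_lit 5) (nat_lit 448) (nat_lit 414) (nat_lit 338)) (XT.lf (nat_lit 0) (nat_lit 12903685202) (nat_lit 304) (nat_lit 2223065623) (nat_lit 76) (nat_lit 6223335266) (nat_lit 90) (nat_lit 5) (nat_lit 94) (nat_lit 5) (nat_lit 91) (nat_lit 5) (nat_lit 449) (nat_lit 414) (nat_lit 337))))))) (XT.nd (nat_lit 1170) (nat_lit 1216) (nat_lit 0) (XT.nd (nat_lit 546) (nat_lit 836) (nat_lit 0) (XT.nd (nat_lit 234) (nat_lit 532) (nat_lit 0) (XT.nd (nat_lit 78) (nat_lit 304) (nat_lit 0) (XT.lf (nat_lit 0) (nat_lit 11283074728) (nat_lit 152) (nat_lit 7273699608) (nat_lit 228) (nat_lit 3441613859) (nat_lit 88) (nat_lit 5) (nat_lit 90) (nat_lit 5) (nat_lit 91) (nat_lit 5) (nat_lit 450) (nat_lit 414) (nat_lit 336)) (XT.nd (nat_lit 78) (nat_lit 0) (nat_lit 0) (XT.lf (nat_lit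 0) (nat_lit 1837644989) (nat_lit 304) (nat_lit 19791575379) (nat_lit 76) (nat_lit 1044357162) (nat_lit 84) (nat_lit 5) (nat_lit 88) (nat_lit 5) (nat_lit 85) (nat_lit 5) (nat_lit 451) (nat_lit 414) (nat_lit 335)) (XT.lf (nat_lit 0) (nat_lit 7551039015) (nat_lit 304) (nat_lit 6049821324) (nat_lit 76) (nat_lit 9764554681) (nat_lit 84) (nat_lit 5) (nat_lit 88) (nat_lit 5) (nat_lit 85) (nat_lit 5) (nat_lit 452) (nat_lit 414) (nat_lit 334)))) (XT.nd (nat_lit 156) (nat_lit 380) (nat_lit 0) (XT.nd (nat_lit 78) (nat_lit 0) (nat_lit 0) (XT.lf (nat_lit 0) (nat_lit 8627607563) (nat_lit 152) (nat_lit 5040194531) (nat_lit 228) (nat_lit 10418158590) (nat_lit 82) (nat_lit 5) (nat_lit 84) (nat_lit 5) (nat_lit 85) (nat_lit 5) (nat_lit 453) (nat_lit 414) (nat_lit 333)) (XT.lf (nat_lit 0) (nat_lit 20239407663) (nat_lit 228) (nat_lit 679567635) (nat_lit 76) (nat_lit 3916109326) (nat_lit 82) (nat_lit 5) (nat_lit 85)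 (nat_lit 5) (nat_lit 83) (nat_lit 5) (nat_lit 454) (nat_lit 414) (nat_lit 332))) (XT.nd (nat_lit 78) (nat_lit 152) (nat_lit 0) (XT.lf (nat_lit 0) (nat_lit 1778543303) (nat_lit 228) (nat_lit 10419052086) (nat_lit 76) (nat_lit 13407425625) (nat_lit 79) (nat_lit 5) (nat_lit 82) (nat_lit 5) (nat_lit 80) (nat_lit 5) (nat_lit 455) (nat_lit 414) (nat_lit 331)) (XT.lf (nat_lit 0) (nat_lit 5530426114) (nat_lit 152) (nat_lit 2868763787) (nat_lit 228) (nat_lit 18006390407) (nat_lit 77) (nat_lit 5) (nat_lit 79) (nat_lit 5) (nat_lit 80) (nat_lit 5) (nat_lit 456) (nat_lit 414) (nat_lit 330))))) (XT.nd (nat_lit 312) (nat_lit 456) (nat_lit 0) (XT.nd (nat_lit 156) (nat_lit 228) (nat_lit 0) (XT.nd (nat_lit 78) (nat_lit 152) (nat_lit 0) (XT.lf (nat_lit 0) (nat_lit 15622655819) (nat_lit 228) (nat_lit 4736010835) (nat_lit 76) (nat_lit 6873912557) (nat_lit 77) (nat_lit 5) (nat_lit 80) (nat_lit 5) (nat_lit 78) (nat_lit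 5) (nat_lit 457) (nat_lit 414) (nat_lit 329)) (XT.lf (nat_lit 0) (nat_lit 12538922544) (nat_lit 152) (nat_lit 10896217151) (nat_lit 228) (nat_lit 4654397078) (nat_lit 75) (nat_lit 5) (nat_lit 77) (nat_lit 5) (nat_lit 78) (nat_lit 5) (nat_lit 458) (nat_lit 414) (nat_lit 328))) (XT.nd (nat_lit 78) (nat_lit 0) (nat_lit 0) (XT.lf (nat_lit 0) (nat_lit 1847613819) (nat_lit 152) (nat_lit 812006315) (nat_lit 228) (nat_lit 26322880292) (nat_lit 72) (nat_lit 5) (nat_lit 74) (nat_lit 5) (nat_lit 75) (nat_lit 5) (nat_lit 459) (nat_lit 414) (nat_lit 327)) (XT.lf (nat_lit 0) (nat_lit 10588510548) (nat_lit 228) (nat_lit 9510260551) (nat_lit 76) (nat_lit 9797247371) (nat_lit 72) (nat_lit 5) (nat_lit 75) (nat_lit 5) (nat_lit 73) (nat_lit 5) (nat_lit 460) (nat_lit 414) (nat_lit 326)))) (XT.nd (nat_lit 156) (nat_lit 304) (nat_lit 0) (XT.nd (nat_lit 78) (nat_lit 0) (nat_lit 0) (XT.lf (nat_lit 0) (nat_lit 9253999117)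 (nat_lit 152) (nat_lit 9803618669) (nat_lit 228) (nat_lit 11790406793) (nat_lit 70) (nat_lit 5) (nat_lit 72) (nat_lit 5) (nat_lit 73) (nat_lit 5) (nat_lit 461) (nat_lit 414) (nat_lit 325)) (XT.lf (nat_lit 0) (nat_lit 28115702626) (nat_lit 228) (nat_lit 2595885540) (nat_lit 76) (nat_lit 1127767457) (nat_lit 70) (nat_lit 5) (nat_lit 73) (nat_lit 5) (nat_lit 71) (nat_lit 4) (nat_lit 462) (nat_lit 414) (nat_lit 324))) (XT.nd (nat_lit 78) (nat_lit 152) (nat_lit 0) (XT.lf (nat_lit 0) (nat_lit 5025869304) (nat_lit 152) (nat_lit 15204429607) (nat_lit 76) (nat_lit 12624682397) (nat_lit 68) (nat_lit 5) (nat_lit 70) (nat_lit 5) (nat_lit 69) (nat_lit 5) (nat_lit 463) (nat_lit 414) (nat_lit 323)) (XT.lf (nat_lit 0) (nat_lit 5160147257) (nat_lit 152) (nat_lit 9039657293) (nat_lit 228) (nat_lit 19712928394) (nat_lit 66) (nat_lit 5) (nat_lit 68) (nat_lit 5) (nat_lit 69) (nat_lit 5) (nat_lit 464) (nat_lit 414)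 (nat_lit 322)))))) (XT.nd (nat_lit 624) (nat_lit 532) (nat_lit 0) (XT.nd (nat_lit 312) (nat_lit 380) (nat_lit 0) (XT.nd (nat_lit 156) (nat_lit 228) (nat_lit 0) (XT.nd (nat_lit 78) (nat_lit 76) (nat_lit 0) (XT.lf (nat_lit 0) (nat_lit 24123406328) (nat_lit 228) (nat_lit 8009818101) (nat_lit 76) (nat_lit 2875599855) (nat_lit 66) (nat_lit 5) (nat_lit 69) (nat_lit 5) (nat_lit 67) (nat_lit 4) (nat_lit 465) (nat_lit 414) (nat_lit 321)) (XT.lf (nat_lit 0) (nat_lit 14049081676) (nat_lit 76) (nat_lit 20849200700) (nat_lit 152) (nat_lit 1243683687) (nat_lit 65) (nat_lit 5) (nat_lit 66) (nat_lit 5) (nat_lit 67) (nat_lit 4) (nat_lit 466) (nat_lit 414) (nat_lit 320))) (XT.nd (nat_lit 78) (nat_lit 0) (nat_lit 0) (XT.lf (nat_lit 0) (nat_lit 658958) (nat_lit 152) (nat_lit 8720747060) (nat_lit 228) (nat_lit 28597152820) (nat_lit 62) (nat_lit 5) (nat_lit 64) (nat_lit 5) (nat_lit 65) (nat_lit 5) (nat_lit 467) (nat_lit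 414) (nat_lit 319)) (XT.lf (nat_lit 0) (nat_lit 19573605898) (nat_lit 228) (nat_lit 14681182700) (nat_lit 76) (nat_lit 4276641162) (nat_lit 62) (nat_lit 5) (nat_lit 65) (nat_lit 5) (nat_lit 63) (nat_lit 4) (nat_lit 468) (nat_lit 414) (nat_lit 318)))) (XT.nd (nat_lit 156) (nat_lit 228) (nat_lit 0) (XT.nd (nat_lit 78) (nat_lit 76) (nat_lit 0) (XT.lf (nat_lit 0) (nat_lit 9217904515) (nat_lit 76) (nat_lit 22025670172) (nat_lit 152) (nat_lit 8547612075) (nat_lit 61) (nat_lit 5) (nat_lit 62) (nat_lit 5) (nat_lit 63) (nat_lit 4) (nat_lit 469) (nat_lit 414) (nat_lit 317)) (XT.lf (nat_lit 0) (nat_lit 2547861823) (nat_lit 152) (nat_lit 6342712026) (nat_lit 76) (nat_lit 32209446549) (nat_lit 60) (nat_lit 5) (nat_lit 62) (nat_lit 5) (nat_lit 61) (nat_lit 5) (nat_lit 470) (nat_lit 414) (nat_lit 316))) (XT.nd (nat_lit 78) (nat_lit 76) (nat_lit 0) (XT.lf (nat_lit 0) (nat_lit 14288870495) (nat_lit 228) (nat_lit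 22971337400) (nat_lit 76) (nat_lit 5188181151) (nat_lit 58) (nat_lit 5) (nat_lit 61) (nat_lit 5) (nat_lit 59) (nat_lit 4) (nat_lit 471) (nat_lit 414) (nat_lit 315)) (XT.lf (nat_lit 0) (nat_lit 2873035057) (nat_lit 76) (nat_lit 24032618012) (nat_lit 152) (nat_lit 16944087277) (nat_lit 57) (nat_lit 5) (nat_lit 58) (nat_lit 5) (nat_lit 59) (nat_lit 4) (nat_lit 472) (nat_lit 414) (nat_lit 314))))) (XT.nd (nat_lit 312) (nat_lit 228) (nat_lit 0) (XT.nd (nat_lit 156) (nat_lit 76) (nat_lit 0) (XT.nd (nat_lit 78) (nat_lit 228) (nat_lit 0) (XT.lf (nat_lit 0) (nat_lit 30786856777) (nat_lit 76) (nat_lit 9744600996) (nat_lit 152) (nat_lit 4770792662) (nat_lit 57) (nat_lit 5) (nat_lit 58) (nat_lit 5) (nat_lit 59) (nat_lit 4) (nat_lit 473) (nat_lit 414) (nat_lit 313)) (XT.lf (nat_lit 0) (nat_lit 8043406607) (nat_lit 228) (nat_lit 33340350845) (nat_lit 76) (nat_lit 5422942714) (nat_lit 54) (nat_lit 5) (nat_lit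 57) (nat_lit 5) (nat_lit 55) (nat_lit 4) (nat_lit 474) (nat_lit 414) (nat_lit 312))) (XT.nd (nat_lit 78) (nat_lit 76) (nat_lit 0) (XT.lf (nat_lit 0) (nat_lit 21737144533) (nat_lit 228) (nat_lit 5284668324) (nat_lit 76) (nat_lit 21340691434) (nat_lit 54) (nat_lit 5) (nat_lit 57) (nat_lit 5) (nat_lit 55) (nat_lit 4) (nat_lit 475) (nat_lit 414) (nat_lit 311)) (XT.lf (nat_lit 0) (nat_lit 24953690201) (nat_lit 76) (nat_lit 11541529445) (nat_lit 152) (nat_lit 13481896771) (nat_lit 53) (nat_lit 5) (nat_lit 54) (nat_lit 5) (nat_lit 55) (nat_lit 4) (nat_lit 476) (nat_lit 414) (nat_lit 310)))) (XT.nd (nat_lit 156) (nat_lit 76) (nat_lit 0) (XT.nd (nat_lit 78) (nat_lit 0) (nat_lit 0) (XT.lf (nat_lit 0) (nat_lit 549745884) (nat_lit 152) (nat_lit 46374409628) (nat_lit 76) (nat_lit 4735994687) (nat_lit 51) (nat_lit 5) (nat_lit 53) (nat_lit 5) (nat_lit 52) (nat_lit 4) (nat_lit 477) (nat_lit 414) (nat_lit 309))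 (XT.lf (nat_lit 0) (nat_lit 15439951843) (nat_lit 152) (nat_lit 15863045736) (nat_lit 76) (nat_lit 22082784557) (nat_lit 51) (nat_lit 5) (nat_lit 53) (nat_lit 5) (nat_lit 52) (nat_lit 4) (nat_lit 478) (nat_lit 414) (nat_lit 308))) (XT.nd (nat_lit 78) (nat_lit 0) (nat_lit 0) (XT.lf (nat_lit 0) (nat_lit 16690117747) (nat_lit 76) (nat_lit 14635724912) (nat_lit 152) (nat_lit 23859294536) (nat_lit 50) (nat_lit 5) (nat_lit 51) (nat_lit 5) (nat_lit 52) (nat_lit 4) (nat_lit 479) (nat_lit 414) (nat_lit 307)) (XT.lf (nat_lit 0) (nat_lit 48314445131) (nat_lit 152) (nat_lit 5706489612) (nat_lit 0) (nat_lit 3038104650) (nat_lit 50) (nat_lit 5) (nat_lit 52) (nat_lit 4) (nat_lit 50) (nat_lit 4) (nat_lit 480) (nat_lit 414) (nat_lit 306))))))))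
noncomputable def xc127 : XT := (XT.nd (nat_lit 2418) (nat_lit 1292) (nat_lit 0) (XT.nd (nat_lit 1170) (nat_lit 912) (nat_lit 0) (XT.nd (nat_lit 546) (nat_lit 456) (nat_lit 0) (XT.nd (nat_lit 234) (nat_lit 304) (nat_lit 0) (XT.nd (nat_lit 78) (nat_lit 76) (nat_lit 0) (XT.lf (nat_lit 0) (nat_lit 7599197151) (nat_lit 152) (nat_lit 29709140787) (nat_lit 76) (nat_lit 21677664888) (nat_lit 48) (nat_lit 5) (nat_lit 50) (nat_lit 5) (nat_lit 49) (nat_lit 4) (nat_lit 481) (nat_lit 414) (nat_lit 305)) (XT.nd (nat_lit 78) (nat_lit 0) (nat_lit 0) (XT.lf (nat_lit 0) (nat_lit 5207594383) (nat_lit 76) (nat_lit 19429338608) (nat_lit 152) (nat_lit 36356682420) (nat_lit 47) (nat_lit 5) (nat_lit 48) (nat_lit 5) (nat_lit 49) (nat_lit 4) (nat_lit 482) (nat_lit 414) (nat_lit 304)) (XT.lf (nat_lit 0) (nat_lit 42884719099) (nat_lit 76) (nat_lit 136234451) (nat_lit 152) (nat_lit 20055935377) (nat_lit 47) (nat_lit 5)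 (nat_lit 48) (nat_lit 5) (nat_lit 49) (nat_lit 4) (nat_lit 483) (nat_lit 414) (nat_lit 303)))) (XT.nd (nat_lit 156) (nat_lit 152) (nat_lit 0) (XT.nd (nat_lit 78) (nat_lit 76) (nat_lit 0) (XT.lf (nat_lit 0) (nat_lit 17408012674) (nat_lit 76) (nat_lit 45493658153) (nat_lit 76) (nat_lit 2333780698) (nat_lit 46) (nat_lit 4) (nat_lit 47) (nat_lit 5) (nat_lit 47) (nat_lit 4) (nat_lit 484) (nat_lit 414) (nat_lit 302)) (XT.lf (nat_lit 0) (nat_lit 16094969091) (nat_lit 152) (nat_lit 10173930634) (nat_lit 76) (nat_lit 41203269563) (nat_lit 45) (nat_lit 5) (nat_lit 47) (nat_lit 5) (nat_lit 46) (nat_lit 4) (nat_lit 485) (nat_lit 414) (nat_lit 301))) (XT.nd (nat_lit 78) (nat_lit 76) (nat_lit 0) (XT.lf (nat_lit 0) (nat_lit 30277454452) (nat_lit 76) (nat_lit 5553957917) (nat_lit 152) (nat_lit 33964163482) (nat_lit 44) (nat_lit 5) (nat_lit 45) (nat_lit 5) (nat_lit 46) (nat_lit 4) (nat_lit 486) (nat_lit 414)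 (nat_lit 300)) (XT.lf (nat_lit 0) (nat_lit 626814351) (nat_lit 76) (nat_lit 56357647612) (nat_lit 76) (nat_lit 15229201728) (nat_lit 43) (nat_lit 4) (nat_lit 44) (nat_lit 5) (nat_lit 44) (nat_lit 4) (nat_lit 487) (nat_lit 414) (nat_lit 299))))) (XT.nd (nat_lit 312) (nat_lit 228) (nat_lit 0) (XT.nd (nat_lit 156) (nat_lit 76) (nat_lit 0) (XT.nd (nat_lit 78) (nat_lit 76) (nat_lit 0) (XT.lf (nat_lit 0) (nat_lit 5063606919) (nat_lit 152) (nat_lit 30755241968) (nat_lit 76) (nat_lit 38892174837) (nat_lit 42) (nat_lit 5) (nat_lit 44) (nat_lit 5) (nat_lit 43) (nat_lit 4) (nat_lit 488) (nat_lit 414) (nat_lit 298)) (XT.lf (nat_lit 0) (nat_lit 12245312380) (nat_lit 76) (nat_lit 13797515135) (nat_lit 152) (nat_lit 51268762797) (nat_lit 41) (nat_lit 5) (nat_lit 42) (nat_lit 5) (nat_lit 43) (nat_lit 4) (nat_lit 489) (nat_lit 414) (nat_lit 297))) (XT.nd (nat_lit 78) (nat_lit 76) (nat_lit 0) (XT.lf (nat_lit 0)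 (nat_lit 48738400555) (nat_lit 152) (nat_lit 21721544023) (nat_lit 0) (nat_lit 9548871209) (nat_lit 41) (nat_lit 5) (nat_lit 43) (nat_lit 4) (nat_lit 41) (nat_lit 4) (nat_lit 490) (nat_lit 414) (nat_lit 296)) (XT.lf (nat_lit 0) (nat_lit 24328696271) (nat_lit 76) (nat_lit 48838855602) (nat_lit 76) (nat_lit 9643410804) (nat_lit 40) (nat_lit 4) (nat_lit 41) (nat_lit 5) (nat_lit 41) (nat_lit 4) (nat_lit 491) (nat_lit 414) (nat_lit 295)))) (XT.nd (nat_lit 156) (nat_lit 76) (nat_lit 0) (XT.nd (nat_lit 78) (nat_lit 76) (nat_lit 0) (XT.lf (nat_lit 0) (nat_lit 13013460556) (nat_lit 152) (nat_lit 12523484419) (nat_lit 76) (nat_lit 60187739201) (nat_lit 39) (nat_lit 5) (nat_lit 41) (nat_lit 5) (nat_lit 40) (nat_lit 4) (nat_lit 492) (nat_lit 414) (nat_lit 294)) (XT.lf (nat_lit 0) (nat_lit 36737431062) (nat_lit 76) (nat_lit 308361675) (nat_lit 152) (nat_lit 51702059731) (nat_lit 38) (nat_lit 5) (nat_lit 39)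 (nat_lit 5) (nat_lit 40) (nat_lit 4) (nat_lit 493) (nat_lit 414) (nat_lit 293))) (XT.nd (nat_lit 78) (nat_lit 76) (nat_lit 0) (XT.lf (nat_lit 0) (nat_lit 62897220244) (nat_lit 152) (nat_lit 3441202031) (nat_lit 0) (nat_lit 25552883063) (nat_lit 38) (nat_lit 5) (nat_lit 40) (nat_lit 4) (nat_lit 38) (nat_lit 4) (nat_lit 494) (nat_lit 414) (nat_lit 292)) (XT.lf (nat_lit 0) (nat_lit 49110345738) (nat_lit 76) (nat_lit 41696146815) (nat_lit 76) (nat_lit 4347174722) (nat_lit 37) (nat_lit 4) (nat_lit 38) (nat_lit 5) (nat_lit 38) (nat_lit 4) (nat_lit 495) (nat_lit 414) (nat_lit 291)))))) (XT.nd (nat_lit 624) (nat_lit 380) (nat_lit 0) (XT.nd (nat_lit 312) (nat_lit 304) (nat_lit 0) (XT.nd (nat_lit 156) (nat_lit 76) (nat_lit 0) (XT.nd (nat_lit 78) (nat_lit 0) (nat_lit 0) (XT.lf (nat_lit 0) (nat_lit 5663935323) (nat_lit 76) (nat_lit 15320124002) (nat_lit 152) (nat_lit 77571222304) (nat_lit 35) (nat_lit 5)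 (nat_lit 36) (nat_lit 5) (nat_lit 37) (nat_lit 4) (nat_lit 496) (nat_lit 414) (nat_lit 290)) (XT.lf (nat_lit 0) (nat_lit 48415003532) (nat_lit 152) (nat_lit 40823101783) (nat_lit 0) (nat_lit 12836346108) (nat_lit 35) (nat_lit 5) (nat_lit 37) (nat_lit 4) (nat_lit 35) (nat_lit 4) (nat_lit 497) (nat_lit 414) (nat_lit 289))) (XT.nd (nat_lit 78) (nat_lit 0) (nat_lit 0) (XT.lf (nat_lit 0) (nat_lit 14034269068) (nat_lit 76) (nat_lit 63647289068) (nat_lit 76) (nat_lit 28064818490) (nat_lit 34) (nat_lit 4) (nat_lit 35) (nat_lit 5) (nat_lit 35) (nat_lit 4) (nat_lit 498) (nat_lit 414) (nat_lit 288)) (XT.lf (nat_lit 0) (nat_lit 73039672515) (nat_lit 76) (nat_lit 36057032292) (nat_lit 76) (nat_lit 470930141) (nat_lit 34) (nat_lit 4) (nat_lit 35) (nat_lit 5) (nat_lit 35) (nat_lit 4) (nat_lit 499) (nat_lit 414) (nat_lit 287)))) (XT.nd (nat_lit 156) (nat_lit 152) (nat_lit 0) (XT.nd (nat_lit 78) (nat_lit 0) (nat_lit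 0) (XT.lf (nat_lit 0) (nat_lit 21651631314) (nat_lit 76) (nat_lit 6270901421) (nat_lit 152) (nat_lit 85618566054) (nat_lit 32) (nat_lit 5) (nat_lit 33) (nat_lit 5) (nat_lit 34) (nat_lit 4) (nat_lit 500) (nat_lit 414) (nat_lit 286)) (XT.lf (nat_lit 0) (nat_lit 58733104466) (nat_lit 152) (nat_lit 34093934739) (nat_lit 0) (nat_lit 24835147571) (nat_lit 32) (nat_lit 5) (nat_lit 34) (nat_lit 4) (nat_lit 32) (nat_lit 4) (nat_lit 501) (nat_lit 414) (nat_lit 285))) (XT.nd (nat_lit 78) (nat_lit 76) (nat_lit 0) (XT.lf (nat_lit 0) (nat_lit 27352843707) (nat_lit 76) (nat_lit 64255608864) (nat_lit 76) (nat_lit 30354664264) (nat_lit 31) (nat_lit 4) (nat_lit 32) (nat_lit 5) (nat_lit 32) (nat_lit 4) (nat_lit 502) (nat_lit 414) (nat_lit 284)) (XT.lf (nat_lit 0) (nat_lit 240984804) (nat_lit 152) (nat_lit 33409771183) (nat_lit 76) (nat_lit 92799548925) (nat_lit 30) (nat_lit 5) (nat_lit 32) (nat_lit 5) (nat_lit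 31) (nat_lit 4) (nat_lit 503) (nat_lit 414) (nat_lit 283))))) (XT.nd (nat_lit 312) (nat_lit 228) (nat_lit 0) (XT.nd (nat_lit 156) (nat_lit 76) (nat_lit 0) (XT.nd (nat_lit 78) (nat_lit 0) (nat_lit 0) (XT.lf (nat_lit 0) (nat_lit 31345734905) (nat_lit 76) (nat_lit 484623569) (nat_lit 152) (nat_lit 99282410202) (nat_lit 29) (nat_lit 5) (nat_lit 30) (nat_lit 5) (nat_lit 31) (nat_lit 4) (nat_lit 504) (nat_lit 414) (nat_lit 282)) (XT.lf (nat_lit 0) (nat_lit 66105099425) (nat_lit 152) (nat_lit 36037224627) (nat_lit 0) (nat_lit 33810736700) (nat_lit 29) (nat_lit 5) (nat_lit 31) (nat_lit 4) (nat_lit 29) (nat_lit 4) (nat_lit 505) (nat_lit 414) (nat_lit 281))) (XT.nd (nat_lit 78) (nat_lit 0) (nat_lit 0) (XT.lf (nat_lit 0) (nat_lit 31881370131) (nat_lit 76) (nat_lit 70712834821) (nat_lit 76) (nat_lit 38416131151) (nat_lit 28) (nat_lit 4) (nat_lit 29) (nat_lit 5) (nat_lit 29) (nat_lit 4) (nat_lit 506) (nat_lit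 414) (nat_lit 280)) (XT.lf (nat_lit 0) (nat_lit 104437026471) (nat_lit 76) (nat_lit 37076058001) (nat_lit 76) (nat_lit 4777124858) (nat_lit 28) (nat_lit 4) (nat_lit 29) (nat_lit 5) (nat_lit 29) (nat_lit 4) (nat_lit 507) (nat_lit 414) (nat_lit 279)))) (XT.nd (nat_lit 156) (nat_lit 76) (nat_lit 0) (XT.nd (nat_lit 78) (nat_lit 0) (nat_lit 0) (XT.lf (nat_lit 0) (nat_lit 29235552046) (nat_lit 76) (nat_lit 782305755) (nat_lit 152) (nat_lit 121769793748) (nat_lit 26) (nat_lit 5) (nat_lit 27) (nat_lit 5) (nat_lit 28) (nat_lit 4) (nat_lit 508) (nat_lit 414) (nat_lit 278)) (XT.lf (nat_lit 0) (nat_lit 67690413230) (nat_lit 152) (nat_lit 52875142270) (nat_lit 0) (nat_lit 36925576425) (nat_lit 26) (nat_lit 5) (nat_lit 28) (nat_lit 4) (nat_lit 26) (nat_lit 4) (nat_lit 509) (nat_lit 414) (nat_lit 277))) (XT.nd (nat_lit 78) (nat_lit 0) (nat_lit 0) (XT.lf (nat_lit 0) (nat_lit 20933616537) (nat_lit 76) (nat_lit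 86648043811) (nat_lit 76) (nat_lit 55881372815) (nat_lit 25) (nat_lit 4) (nat_lit 26) (nat_lit 5) (nat_lit 26) (nat_lit 4) (nat_lit 510) (nat_lit 414) (nat_lit 276)) (XT.lf (nat_lit 0) (nat_lit 100259439606) (nat_lit 76) (nat_lit 50098980121) (nat_lit 76) (nat_lit 19330562275) (nat_lit 25) (nat_lit 4) (nat_lit 26) (nat_lit 5) (nat_lit 26) (nat_lit 4) (nat_lit 511) (nat_lit 414) (nat_lit 275))))))) (XT.nd (nat_lit 1248) (nat_lit 532) (nat_lit 0) (XT.nd (nat_lit 624) (nat_lit 304) (nat_lit 0) (XT.nd (nat_lit 312) (nat_lit 228) (nat_lit 0) (XT.nd (nat_lit 156) (nat_lit 76) (nat_lit 0) (XT.nd (nat_lit 78) (nat_lit 0) (nat_lit 0) (XT.lf (nat_lit 0) (nat_lit 7251229341) (nat_lit 76) (nat_lit 11295751562) (nat_lit 152) (nat_lit 157658935930) (nat_lit 23) (nat_lit 5) (nat_lit 24) (nat_lit 5) (nat_lit 25) (nat_lit 4) (nat_lit 512) (nat_lit 414) (nat_lit 274)) (XT.lf (nat_lit 0) (nat_lit 59319259933) (nat_lit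 152) (nat_lit 93618157760) (nat_lit 0) (nat_lit 30012911403) (nat_lit 23) (nat_lit 5) (nat_lit 25) (nat_lit 4) (nat_lit 23) (nat_lit 4) (nat_lit 513) (nat_lit 414) (nat_lit 273))) (XT.nd (nat_lit 78) (nat_lit 76) (nat_lit 0) (XT.lf (nat_lit 0) (nat_lit 102311170594) (nat_lit 152) (nat_lit 14708355596) (nat_lit 0) (nat_lit 73003384927) (nat_lit 23) (nat_lit 5) (nat_lit 25) (nat_lit 4) (nat_lit 23) (nat_lit 4) (nat_lit 514) (nat_lit 414) (nat_lit 272)) (XT.lf (nat_lit 0) (nat_lit 70391939487) (nat_lit 76) (nat_lit 78155792203) (nat_lit 76) (nat_lit 48846637834) (nat_lit 22) (nat_lit 4) (nat_lit 23) (nat_lit 5) (nat_lit 23) (nat_lit 4) (nat_lit 515) (nat_lit 414) (nat_lit 271)))) (XT.nd (nat_lit 156) (nat_lit 76) (nat_lit 0) (XT.nd (nat_lit 78) (nat_lit 152) (nat_lit 0) (XT.lf (nat_lit 0) (nat_lit 160250040053) (nat_lit 76) (nat_lit 37091279394) (nat_lit 76) (nat_lit 7780821499) (nat_lit 22) (nat_lit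 4) (nat_lit 23) (nat_lit 5) (nat_lit 23) (nat_lit 4) (nat_lit 516) (nat_lit 414) (nat_lit 270)) (XT.lf (nat_lit 0) (nat_lit 34975485992) (nat_lit 152) (nat_lit 171135234329) (nat_lit 0) (nat_lit 7059581851) (nat_lit 20) (nat_lit 5) (nat_lit 22) (nat_lit 4) (nat_lit 20) (nat_lit 4) (nat_lit 517) (nat_lit 414) (nat_lit 269))) (XT.nd (nat_lit 78) (nat_lit 76) (nat_lit 0) (XT.lf (nat_lit 0) (nat_lit 80984798608) (nat_lit 152) (nat_lit 87493092902) (nat_lit 0) (nat_lit 53067768432) (nat_lit 20) (nat_lit 5) (nat_lit 22) (nat_lit 4) (nat_lit 20) (nat_lit 4) (nat_lit 518) (nat_lit 414) (nat_lit 268)) (XT.lf (nat_lit 0) (nat_lit 334622830) (nat_lit 76) (nat_lit 128961591747) (nat_lit 76) (nat_lit 101043489158) (nat_lit 19) (nat_lit 4) (nat_lit 20) (nat_lit 5) (nat_lit 20) (nat_lit 4) (nat_lit 519) (nat_lit 414) (nat_lit 267))))) (XT.nd (nat_lit 312) (nat_lit 152) (nat_lit 0) (XT.nd (nat_lit 156) (nat_lit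 152) (nat_lit 0) (XT.nd (nat_lit 78) (nat_lit 0) (nat_lit 0) (XT.lf (nat_lit 0) (nat_lit 95584161004) (nat_lit 76) (nat_lit 85917251068) (nat_lit 76) (nat_lit 57998127131) (nat_lit 19) (nat_lit 4) (nat_lit 20) (nat_lit 5) (nat_lit 20) (nat_lit 4) (nat_lit 520) (nat_lit 414) (nat_lit 266)) (XT.lf (nat_lit 0) (nat_lit 195589389453) (nat_lit 76) (nat_lit 40724120809) (nat_lit 76) (nat_lit 12804024162) (nat_lit 19) (nat_lit 4) (nat_lit 20) (nat_lit 5) (nat_lit 20) (nat_lit 4) (nat_lit 521) (nat_lit 414) (nat_lit 265))) (XT.nd (nat_lit 78) (nat_lit 0) (nat_lit 0) (XT.lf (nat_lit 0) (nat_lit 34320751826) (nat_lit 152) (nat_lit 217100328407) (nat_lit 0) (nat_lit 7729301312) (nat_lit 17) (nat_lit 5) (nat_lit 19) (nat_lit 4) (nat_lit 17) (nat_lit 4) (nat_lit 522) (nat_lit 414) (nat_lit 264)) (XT.lf (nat_lit 0) (nat_lit 84957213292) (nat_lit 152) (nat_lit 126272952838) (nat_lit 0) (nat_lit 58364922515)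 (nat_lit 17) (nat_lit 5) (nat_lit 19) (nat_lit 4) (nat_lit 17) (nat_lit 4) (nat_lit 523) (nat_lit 414) (nat_lit 263)))) (XT.nd (nat_lit 156) (nat_lit 76) (nat_lit 0) (XT.nd (nat_lit 78) (nat_lit 76) (nat_lit 0) (XT.lf (nat_lit 0) (nat_lit 138122403748) (nat_lit 152) (nat_lit 30910469353) (nat_lit 0) (nat_lit 111529312718) (nat_lit 17) (nat_lit 5) (nat_lit 19) (nat_lit 4) (nat_lit 17) (nat_lit 4) (nat_lit 524) (nat_lit 414) (nat_lit 262)) (XT.lf (nat_lit 0) (nat_lit 71502708801) (nat_lit 76) (nat_lit 123556555848) (nat_lit 76) (nat_lit 96962702674) (nat_lit 16) (nat_lit 4) (nat_lit 17) (nat_lit 5) (nat_lit 17) (nat_lit 4) (nat_lit 525) (nat_lit 414) (nat_lit 261))) (XT.nd (nat_lit 78) (nat_lit 76) (nat_lit 0) (XT.lf (nat_lit 0) (nat_lit 180103821009) (nat_lit 76) (nat_lit 75259733324) (nat_lit 76) (nat_lit 48665154298) (nat_lit 16) (nat_lit 4) (nat_lit 17) (nat_lit 5) (nat_lit 17) (nat_lit 4)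 (nat_lit 526) (nat_lit 414) (nat_lit 260)) (XT.lf (nat_lit 0) (nat_lit 1978940745) (nat_lit 152) (nat_lit 22538441786) (nat_lit 76) (nat_lit 292116946568) (nat_lit 15) (nat_lit 5) (nat_lit 17) (nat_lit 5) (nat_lit 16) (nat_lit 4) (nat_lit 527) (nat_lit 414) (nat_lit 259)))))) (XT.nd (nat_lit 624) (nat_lit 228) (nat_lit 0) (XT.nd (nat_lit 312) (nat_lit 152) (nat_lit 0) (XT.nd (nat_lit 156) (nat_lit 76) (nat_lit 0) (XT.nd (nat_lit 78) (nat_lit 0) (nat_lit 0) (XT.lf (nat_lit 0) (nat_lit 55341719761) (nat_lit 152) (nat_lit 244385260121) (nat_lit 0) (nat_lit 30012263873) (nat_lit 14) (nat_lit 5) (nat_lit 16) (nat_lit 4) (nat_lit 14) (nat_lit 4) (nat_lit 528) (nat_lit 414) (nat_lit 258)) (XT.lf (nat_lit 0) (nat_lit 112159849181) (nat_lit 152) (nat_lit 144470398271) (nat_lit 0) (nat_lit 86829796132) (nat_lit 14) (nat_lit 5) (nat_lit 16) (nat_lit 4) (nat_lit 14) (nat_lit 4) (nat_lit 529) (nat_lit 414)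 (nat_lit 257))) (XT.nd (nat_lit 78) (nat_lit 76) (nat_lit 0) (XT.lf (nat_lit 0) (nat_lit 171816342561) (nat_lit 152) (nat_lit 39564947194) (nat_lit 0) (nat_lit 146485720788) (nat_lit 14) (nat_lit 5) (nat_lit 16) (nat_lit 4) (nat_lit 14) (nat_lit 4) (nat_lit 530) (nat_lit 414) (nat_lit 256)) (XT.lf (nat_lit 0) (nat_lit 72914590241) (nat_lit 76) (nat_lit 162677050025) (nat_lit 76) (nat_lit 137345886611) (nat_lit 13) (nat_lit 4) (nat_lit 14) (nat_lit 5) (nat_lit 14) (nat_lit 4) (nat_lit 531) (nat_lit 414) (nat_lit 255)))) (XT.nd (nat_lit 156) (nat_lit 152) (nat_lit 0) (XT.nd (nat_lit 78) (nat_lit 0) (nat_lit 0) (XT.lf (nat_lit 0) (nat_lit 192386880902) (nat_lit 76) (nat_lit 110836491951) (nat_lit 76) (nat_lit 85504812687) (nat_lit 13) (nat_lit 4) (nat_lit 14) (nat_lit 5) (nat_lit 14) (nat_lit 4) (nat_lit 532) (nat_lit 414) (nat_lit 254)) (XT.lf (nat_lit 0) (nat_lit 317828186786) (nat_lit 76) (nat_lit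 56406237157) (nat_lit 76) (nat_lit 31074066608) (nat_lit 13) (nat_lit 4) (nat_lit 14) (nat_lit 5) (nat_lit 14) (nat_lit 4) (nat_lit 533) (nat_lit 414) (nat_lit 253))) (XT.nd (nat_lit 78) (nat_lit 0) (nat_lit 0) (XT.lf (nat_lit 0) (nat_lit 25692620572) (nat_lit 152) (nat_lit 395416080821) (nat_lit 0) (nat_lit 1566298248) (nat_lit 11) (nat_lit 5) (nat_lit 13) (nat_lit 4) (nat_lit 11) (nat_lit 4) (nat_lit 534) (nat_lit 414) (nat_lit 252)) (XT.lf (nat_lit 0) (nat_lit 86681656551) (nat_lit 152) (nat_lit 291526381916) (nat_lit 0) (nat_lit 62554909837) (nat_lit 11) (nat_lit 5) (nat_lit 13) (nat_lit 4) (nat_lit 11) (nat_lit 4) (nat_lit 535) (nat_lit 414) (nat_lit 251))))) (XT.nd (nat_lit 312) (nat_lit 152) (nat_lit 0) (XT.nd (nat_lit 156) (nat_lit 76) (nat_lit 0) (XT.nd (nat_lit 78) (nat_lit 0) (nat_lit 0) (XT.lf (nat_lit 0) (nat_lit 150718054732) (nat_lit 152) (nat_lit 182446440322) (nat_lit 0) (nat_lit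 126590903836) (nat_lit 11) (nat_lit 5) (nat_lit 13) (nat_lit 4) (nat_lit 11) (nat_lit 4) (nat_lit 536) (nat_lit 414) (nat_lit 250)) (XT.lf (nat_lit 0) (nat_lit 217954282728) (nat_lit 152) (nat_lit 67916541892) (nat_lit 0) (nat_lit 193826746898) (nat_lit 11) (nat_lit 5) (nat_lit 13) (nat_lit 4) (nat_lit 11) (nat_lit 4) (nat_lit 537) (nat_lit 414) (nat_lit 249))) (XT.nd (nat_lit 78) (nat_lit 0) (nat_lit 0) (XT.lf (nat_lit 0) (nat_lit 54066468243) (nat_lit 76) (nat_lit 235328087644) (nat_lit 76) (nat_lit 211200185209) (nat_lit 10) (nat_lit 4) (nat_lit 11) (nat_lit 5) (nat_lit 11) (nat_lit 4) (nat_lit 538) (nat_lit 414) (nat_lit 248)) (XT.lf (nat_lit 0) (nat_lit 184502752072) (nat_lit 76) (nat_lit 181052425952) (nat_lit 76) (nat_lit 156924174370) (nat_lit 10) (nat_lit 4) (nat_lit 11) (nat_lit 5) (nat_lit 11) (nat_lit 4) (nat_lit 539) (nat_lit 414) (nat_lit 247)))) (XT.nd (nat_lit 156) (nat_lit 152)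 (nat_lit 0) (XT.nd (nat_lit 78) (nat_lit 0) (nat_lit 0) (XT.lf (nat_lit 0) (nat_lit 321457244579) (nat_lit 76) (nat_lit 124064811279) (nat_lit 76) (nat_lit 99936227176) (nat_lit 10) (nat_lit 4) (nat_lit 11) (nat_lit 5) (nat_lit 11) (nat_lit 4) (nat_lit 540) (nat_lit 414) (nat_lit 246)) (XT.lf (nat_lit 0) (nat_lit 465256027890) (nat_lit 76) (nat_lit 64229558829) (nat_lit 76) (nat_lit 40100658038) (nat_lit 10) (nat_lit 4) (nat_lit 11) (nat_lit 5) (nat_lit 11) (nat_lit 4) (nat_lit 541) (nat_lit 414) (nat_lit 245))) (XT.nd (nat_lit 78) (nat_lit 0) (nat_lit 0) (XT.lf (nat_lit 0) (nat_lit 21659224501) (nat_lit 76) (nat_lit 676593497) (nat_lit 152) (nat_lit 572550218985) (nat_lit 8) (nat_lit 5) (nat_lit 9) (nat_lit 5) (nat_lit 10) (nat_lit 4) (nat_lit 542) (nat_lit 414) (nat_lit 244)) (XT.lf (nat_lit 0) (nat_lit 89371973327) (nat_lit 152) (nat_lit 465513194078) (nat_lit 0) (nat_lit 66391507002) (nat_lit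 8) (nat_lit 5) (nat_lit 10) (nat_lit 4) (nat_lit 8) (nat_lit 4) (nat_lit 543) (nat_lit 414) (nat_lit 243))))))))
noncomputable def xc128 : XT := (XT.nd (nat_lit 54288) (nat_lit 0) (nat_lit 4180) (XT.nd (nat_lit 53040) (nat_lit 0) (nat_lit 8056) (XT.nd (nat_lit 52416) (nat_lit 0) (nat_lit 11476) (XT.nd (nat_lit 234) (nat_lit 76) (nat_lit 0) (XT.nd (nat_lit 78) (nat_lit 0) (nat_lit 0) (XT.lf (nat_lit 0) (nat_lit 159769470202) (nat_lit 152) (nat_lit 352428153478) (nat_lit 0) (nat_lit 136788743338) (nat_lit 8) (nat_lit 5) (nat_lit 10) (nat_lit 4) (nat_lit 8) (nat_lit 4) (nat_lit 544) (nat_lit 414) (nat_lit 242)) (XT.nd (nat_lit 78) (nat_lit 0) (nat_lit 0) (XT.lf (nat_lit 0) (nat_lit 233685358192) (nat_lit 152) (nat_lit 233691877065) (nat_lit 0) (nat_lit 210704383196) (nat_lit 8) (nat_lit 5) (nat_lit 10) (nat_lit 4) (nat_lit 8) (nat_lit 4) (nat_lit 545) (nat_lit 414) (nat_lit 241)) (XT.lf (nat_lit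 0) (nat_lit 311295627506) (nat_lit 152) (nat_lit 109021659418) (nat_lit 0) (nat_lit 288314416193) (nat_lit 8) (nat_lit 5) (nat_lit 10) (nat_lit 4) (nat_lit 8) (nat_lit 4) (nat_lit 546) (nat_lit 414) (nat_lit 240)))) (XT.nd (nat_lit 156) (nat_lit 0) (nat_lit 0) (XT.nd (nat_lit 78) (nat_lit 0) (nat_lit 0) (XT.lf (nat_lit 0) (nat_lit 22602762881) (nat_lit 76) (nat_lit 370535194090) (nat_lit 76) (nat_lit 347553757714) (nat_lit 7) (nat_lit 4) (nat_lit 8) (nat_lit 5) (nat_lit 8) (nat_lit 4) (nat_lit 547) (nat_lit 414) (nat_lit 239)) (XT.lf (nat_lit 0) (nat_lit 164590700462) (nat_lit 76) (nat_lit 316326713277) (nat_lit 76) (nat_lit 293345062555) (nat_lit 7) (nat_lit 4) (nat_lit 8) (nat_lit 5) (nat_lit 8) (nat_lit 4) (nat_lit 548) (nat_lit 414) (nat_lit 238))) (XT.nd (nat_lit 78) (nat_lit 0) (nat_lit 0) (XT.lf (nat_lit 0) (nat_lit 313675471424) (nat_lit 76) (nat_lit 259409111229) (nat_lit 76) (nat_lit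 236427256368) (nat_lit 7) (nat_lit 4) (nat_lit 8) (nat_lit 5) (nat_lit 8) (nat_lit 4) (nat_lit 549) (nat_lit 414) (nat_lit 237)) (XT.lf (nat_lit 0) (nat_lit 470212039509) (nat_lit 76) (nat_lit 199646869847) (nat_lit 76) (nat_lit 176664820567) (nat_lit 7) (nat_lit 4) (nat_lit 8) (nat_lit 5) (nat_lit 8) (nat_lit 4) (nat_lit 550) (nat_lit 414) (nat_lit 236))))) (XT.nd (nat_lit 312) (nat_lit 0) (nat_lit 76) (XT.nd (nat_lit 156) (nat_lit 0) (nat_lit 0) (XT.nd (nat_lit 78) (nat_lit 684) (nat_lit 0) (XT.lf (nat_lit 0) (nat_lit 4450950565) (nat_lit 684) (nat_lit 38629974) (nat_lit 684) (nat_lit 38629974) (nat_lit 167) (nat_lit 3) (nat_lit 176) (nat_lit 3) (nat_lit 176) (nat_lit 5) (nat_lit 415) (nat_lit 415) (nat_lit 370)) (XT.lf (nat_lit 0) (nat_lit 792339383) (nat_lit 684) (nat_lit 4685503920) (nat_lit 760) (nat_lit 3757682706) (nat_lit 158) (nat_lit 5) (nat_lit 167) (nat_lit 3) (nat_lit 168) (nat_lit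 5) (nat_lit 416) (nat_lit 415) (nat_lit 369))) (XT.nd (nat_lit 78) (nat_lit 0) (nat_lit 76) (XT.lf (nat_lit 0) (nat_lit 1726307231) (nat_lit 684) (nat_lit 46425964) (nat_lit 760) (nat_lit 7653487842) (nat_lit 158) (nat_lit 5) (nat_lit 167) (nat_lit 3) (nat_lit 168) (nat_lit 5) (nat_lit 417) (nat_lit 415) (nat_lit 368)) (XT.lf (nat_lit 0) (nat_lit 2765312387) (nat_lit 684) (nat_lit 4707034993) (nat_lit 760) (nat_lit 2151195426) (nat_lit 159) (nat_lit 5) (nat_lit 168) (nat_lit 5) (nat_lit 169) (nat_lit 5) (nat_lit 418) (nat_lit 415) (nat_lit 367)))) (XT.nd (nat_lit 156) (nat_lit 0) (nat_lit 76) (XT.nd (nat_lit 78) (nat_lit 0) (nat_lit 76) (XT.lf (nat_lit 76) (nat_lit 244629772) (nat_lit 0) (nat_lit 3594065186) (nat_lit 760) (nat_lit 5992922855) (nat_lit 160) (nat_lit 5) (nat_lit 159) (nat_lit 5) (nat_lit 169) (nat_lit 5) (nat_lit 419) (nat_lit 415) (nat_lit 366)) (XT.lf (nat_lit 0) (nat_lit 5005189740)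 (nat_lit 684) (nat_lit 4482437729) (nat_lit 760) (nat_lit 560505049) (nat_lit 160) (nat_lit 5) (nat_lit 169) (nat_lit 5) (nat_lit 170) (nat_lit 5) (nat_lit 420) (nat_lit 415) (nat_lit 365))) (XT.nd (nat_lit 78) (nat_lit 0) (nat_lit 0) (XT.lf (nat_lit 76) (nat_lit 811193223) (nat_lit 0) (nat_lit 5443690980) (nat_lit 760) (nat_lit 4019352726) (nat_lit 161) (nat_lit 5) (nat_lit 160) (nat_lit 5) (nat_lit 170) (nat_lit 5) (nat_lit 421) (nat_lit 415) (nat_lit 364)) (XT.lf (nat_lit 76) (nat_lit 6492470158) (nat_lit 0) (nat_lit 1105510722) (nat_lit 760) (nat_lit 2912127155) (nat_lit 161) (nat_lit 5) (nat_lit 160) (nat_lit 5) (nat_lit 170) (nat_lit 5) (nat_lit 422) (nat_lit 415) (nat_lit 363)))))) (XT.nd (nat_lit 624) (nat_lit 1444) (nat_lit 0) (XT.nd (nat_lit 312) (nat_lit 1520) (nat_lit 0) (XT.nd (nat_lit 156) (nat_lit 684) (nat_lit 0) (XT.nd (nat_lit 78) (nat_lit 0) (nat_lit 0) (XT.lf (nat_lit 76)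 (nat_lit 1666071619) (nat_lit 0) (nat_lit 7379361730) (nat_lit 760) (nat_lit 1710486300) (nat_lit 162) (nat_lit 5) (nat_lit 161) (nat_lit 5) (nat_lit 171) (nat_lit 5) (nat_lit 423) (nat_lit 415) (nat_lit 362)) (XT.lf (nat_lit 76) (nat_lit 7721833070) (nat_lit 0) (nat_lit 2888146418) (nat_lit 760) (nat_lit 401812968) (nat_lit 162) (nat_lit 5) (nat_lit 161) (nat_lit 5) (nat_lit 171) (nat_lit 5) (nat_lit 424) (nat_lit 415) (nat_lit 361))) (XT.nd (nat_lit 78) (nat_lit 0) (nat_lit 0) (XT.lf (nat_lit 0) (nat_lit 975346827) (nat_lit 760) (nat_lit 8466013018) (nat_lit 76) (nat_lit 1836637480) (nat_lit 152) (nat_lit 5) (nat_lit 162) (nat_lit 5) (nat_lit 153) (nat_lit 5) (nat_lit 425) (nat_lit 415) (nat_lit 360)) (XT.lf (nat_lit 0) (nat_lit 2473492907) (nat_lit 760) (nat_lit 2310479964) (nat_lit 76) (nat_lit 6769934377) (nat_lit 152) (nat_lit 5) (nat_lit 162) (nat_lit 5) (nat_lit 153) (nat_lit 5) (nat_lit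 426) (nat_lit 415) (nat_lit 359)))) (XT.nd (nat_lit 156) (nat_lit 760) (nat_lit 0) (XT.nd (nat_lit 78) (nat_lit 0) (nat_lit 0) (XT.lf (nat_lit 0) (nat_lit 4079294710) (nat_lit 836) (nat_lit 7588391983) (nat_lit 76) (nat_lit 174294038) (nat_lit 142) (nat_lit 5) (nat_lit 153) (nat_lit 5) (nat_lit 143) (nat_lit 5) (nat_lit 427) (nat_lit 415) (nat_lit 358)) (XT.lf (nat_lit 0) (nat_lit 5848354241) (nat_lit 836) (nat_lit 1029314071) (nat_lit 76) (nat_lit 5262646419) (nat_lit 142) (nat_lit 5) (nat_lit 153) (nat_lit 5) (nat_lit 143) (nat_lit 5) (nat_lit 428) (nat_lit 415) (nat_lit 357))) (XT.nd (nat_lit 78) (nat_lit 380) (nat_lit 0) (XT.lf (nat_lit 0) (nat_lit 6018124900) (nat_lit 380) (nat_lit 1748150495) (nat_lit 456) (nat_lit 4684274576) (nat_lit 137) (nat_lit 5) (nat_lit 142) (nat_lit 5) (nat_lit 143) (nat_lit 5) (nat_lit 429) (nat_lit 415) (nat_lit 356)) (XT.lf (nat_lit 0) (nat_lit 607269763) (nat_lit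 380) (nat_lit 9224382225) (nat_lit 456) (nat_lit 2942071755) (nat_lit 132) (nat_lit 5) (nat_lit 137) (nat_lit 5) (nat_lit 138) (nat_lit 5) (nat_lit 430) (nat_lit 415) (nat_lit 355))))) (XT.nd (nat_lit 312) (nat_lit 684) (nat_lit 0) (XT.nd (nat_lit 156) (nat_lit 304) (nat_lit 0) (XT.nd (nat_lit 78) (nat_lit 456) (nat_lit 0) (XT.lf (nat_lit 0) (nat_lit 8159870548) (nat_lit 380) (nat_lit 3946155248) (nat_lit 456) (nat_lit 1001748499) (nat_lit 132) (nat_lit 5) (nat_lit 137) (nat_lit 5) (nat_lit 138) (nat_lit 5) (nat_lit 431) (nat_lit 415) (nat_lit 354)) (XT.lf (nat_lit 0) (nat_lit 1039543797) (nat_lit 456) (nat_lit 10814420610) (nat_lit 76) (nat_lit 1601903723) (nat_lit 126) (nat_lit 5) (nat_lit 132) (nat_lit 5) (nat_lit 127) (nat_lit 5) (nat_lit 432) (nat_lit 415) (nat_lit 353))) (XT.nd (nat_lit 78) (nat_lit 304) (nat_lit 0) (XT.lf (nat_lit 0) (nat_lit 3269609511) (nat_lit 456) (nat_lit 3150778448)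 (nat_lit 76) (nat_lit 7394142785) (nat_lit 126) (nat_lit 5) (nat_lit 132) (nat_lit 5) (nat_lit 127) (nat_lit 5) (nat_lit 433) (nat_lit 415) (nat_lit 352)) (XT.lf (nat_lit 0) (nat_lit 5025304987) (nat_lit 304) (nat_lit 636250919) (nat_lit 380) (nat_lit 8527055424) (nat_lit 122) (nat_lit 5) (nat_lit 126) (nat_lit 5) (nat_lit 127) (nat_lit 5) (nat_lit 434) (nat_lit 415) (nat_lit 351)))) (XT.nd (nat_lit 156) (nat_lit 380) (nat_lit 0) (XT.nd (nat_lit 78) (nat_lit 304) (nat_lit 0) (XT.lf (nat_lit 0) (nat_lit 8284932989) (nat_lit 380) (nat_lit 977288060) (nat_lit 76) (nat_lit 5313586765) (nat_lit 122) (nat_lit 5) (nat_lit 127) (nat_lit 5) (nat_lit 123) (nat_lit 5) (nat_lit 435) (nat_lit 415) (nat_lit 350)) (XT.lf (nat_lit 0) (nat_lit 7827287046) (nat_lit 304) (nat_lit 3318838008) (nat_lit 380) (nat_lit 3830910126) (nat_lit 118) (nat_lit 5) (nat_lit 122) (nat_lit 5) (nat_lit 123) (nat_lit 5) (nat_lit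 436) (nat_lit 415) (nat_lit 349))) (XT.nd (nat_lit 78) (nat_lit 76) (nat_lit 0) (XT.lf (nat_lit 0) (nat_lit 1685045102) (nat_lit 304) (nat_lit 12528772254) (nat_lit 380) (nat_lit 1181337735) (nat_lit 114) (nat_lit 5) (nat_lit 118) (nat_lit 5) (nat_lit 119) (nat_lit 5) (nat_lit 437) (nat_lit 415) (nat_lit 348)) (XT.lf (nat_lit 0) (nat_lit 1701965936) (nat_lit 380) (nat_lit 4731553405) (nat_lit 76) (nat_lit 9391790711) (nat_lit 113) (nat_lit 5) (nat_lit 118) (nat_lit 5) (nat_lit 114) (nat_lit 5) (nat_lit 438) (nat_lit 415) (nat_lit 347))))))) (XT.nd (nat_lit 1170) (nat_lit 1672) (nat_lit 0) (XT.nd (nat_lit 546) (nat_lit 1140) (nat_lit 0) (XT.nd (nat_lit 234) (nat_lit 532) (nat_lit 0) (XT.nd (nat_lit 78) (nat_lit 228) (nat_lit 0) (XT.lf (nat_lit 0) (nat_lit 4741793334) (nat_lit 380) (nat_lit 11474508484) (nat_lit 76) (nat_lit 57102439) (nat_lit 109) (nat_lit 5) (nat_lit 114) (nat_lit 5) (nat_lit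 110) (nat_lit 5) (nat_lit 439) (nat_lit 415) (nat_lit 346)) (XT.nd (nat_lit 78) (nat_lit 228) (nat_lit 0) (XT.lf (nat_lit 0) (nat_lit 8097286166) (nat_lit 380) (nat_lit 1907434563) (nat_lit 76) (nat_lit 6731001379) (nat_lit 109) (nat_lit 5) (nat_lit 114) (nat_lit 5) (nat_lit 110) (nat_lit 5) (nat_lit 440) (nat_lit 415) (nat_lit 345)) (XT.lf (nat_lit 0) (nat_lit 8376677081) (nat_lit 228) (nat_lit 3352528309) (nat_lit 304) (nat_lit 5486520388) (nat_lit 106) (nat_lit 5) (nat_lit 109) (nat_lit 5) (nat_lit 110) (nat_lit 5) (nat_lit 441) (nat_lit 415) (nat_lit 344)))) (XT.nd (nat_lit 156) (nat_lit 228) (nat_lit 0) (XT.nd (nat_lit 78) (nat_lit 76) (nat_lit 0) (XT.lf (nat_lit 0) (nat_lit 1483430702) (nat_lit 228) (nat_lit 14150347718) (nat_lit 304) (nat_lit 2081400710) (nat_lit 103) (nat_lit 5) (nat_lit 106) (nat_lit 5) (nat_lit 107) (nat_lit 5) (nat_lit 442) (nat_lit 415) (nat_lit 343)) (XT.lf (nat_lit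 0) (nat_lit 1631843533) (nat_lit 304) (nat_lit 5714091722) (nat_lit 76) (nat_lit 10883221553) (nat_lit 102) (nat_lit 5) (nat_lit 106) (nat_lit 5) (nat_lit 103) (nat_lit 5) (nat_lit 443) (nat_lit 415) (nat_lit 342))) (XT.nd (nat_lit 78) (nat_lit 0) (nat_lit 0) (XT.lf (nat_lit 0) (nat_lit 5440761487) (nat_lit 228) (nat_lit 84583488) (nat_lit 304) (nat_lit 13238557211) (nat_lit 99) (nat_lit 5) (nat_lit 102) (nat_lit 5) (nat_lit 103) (nat_lit 5) (nat_lit 444) (nat_lit 415) (nat_lit 341)) (XT.lf (nat_lit 0) (nat_lit 9809594877) (nat_lit 304) (nat_lit 2117218207) (nat_lit 76) (nat_lit 7388770048) (nat_lit 99) (nat_lit 5) (nat_lit 103) (nat_lit 5) (nat_lit 100) (nat_lit 5) (nat_lit 445) (nat_lit 415) (nat_lit 340))))) (XT.nd (nat_lit 312) (nat_lit 456) (nat_lit 0) (XT.nd (nat_lit 156) (nat_lit 304) (nat_lit 0) (XT.nd (nat_lit 78) (nat_lit 152) (nat_lit 0) (XT.lf (nat_lit 0) (nat_lit 9937971654) (nat_lit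 228) (nat_lit 4507582395) (nat_lit 304) (nat_lit 5442421112) (nat_lit 96) (nat_lit 5) (nat_lit 99) (nat_lit 5) (nat_lit 100) (nat_lit 5) (nat_lit 446) (nat_lit 415) (nat_lit 339)) (XT.lf (nat_lit 0) (nat_lit 2171839431) (nat_lit 152) (nat_lit 17244370906) (nat_lit 228) (nat_lit 1067633283) (nat_lit 94) (nat_lit 5) (nat_lit 96) (nat_lit 5) (nat_lit 97) (nat_lit 5) (nat_lit 447) (nat_lit 415) (nat_lit 338))) (XT.nd (nat_lit 78) (nat_lit 228) (nat_lit 0) (XT.lf (nat_lit 0) (nat_lit 3639663457) (nat_lit 228) (nat_lit 6015798860) (nat_lit 76) (nat_lit 11439961342) (nat_lit 93) (nat_lit 5) (nat_lit 96) (nat_lit 5) (nat_lit 94) (nat_lit 5) (nat_lit 448) (nat_lit 415) (nat_lit 337)) (XT.lf (nat_lit 0) (nat_lit 7077349525) (nat_lit 228) (nat_lit 1561931194) (nat_lit 304) (nat_lit 13092786656) (nat_lit 90) (nat_lit 5) (nat_lit 93) (nat_lit 5) (nat_lit 94) (nat_lit 5) (nat_lit 449) (nat_lit 415) (nat_lit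 336)))) (XT.nd (nat_lit 156) (nat_lit 304) (nat_lit 0) (XT.nd (nat_lit 78) (nat_lit 152) (nat_lit 0) (XT.lf (nat_lit 0) (nat_lit 14083346282) (nat_lit 304) (nat_lit 1498573918) (nat_lit 76) (nat_lit 6808901174) (nat_lit 90) (nat_lit 5) (nat_lit 94) (nat_lit 5) (nat_lit 91) (nat_lit 5) (nat_lit 450) (nat_lit 415) (nat_lit 335)) (XT.lf (nat_lit 0) (nat_lit 12669395306) (nat_lit 152) (nat_lit 7337079619) (nat_lit 228) (nat_lit 3065696558) (nat_lit 88) (nat_lit 5) (nat_lit 90) (nat_lit 5) (nat_lit 91) (nat_lit 5) (nat_lit 451) (nat_lit 415) (nat_lit 334))) (XT.nd (nat_lit 78) (nat_lit 0) (nat_lit 0) (XT.lf (nat_lit 0) (nat_lit 2452435661) (nat_lit 304) (nat_lit 19933817729) (nat_lit 76) (nat_lit 1394818568) (nat_lit 84) (nat_lit 5) (nat_lit 88) (nat_lit 5) (nat_lit 85) (nat_lit 5) (nat_lit 452) (nat_lit 415) (nat_lit 333)) (XT.lf (nat_lit 0) (nat_lit 8426598988) (nat_lit 304) (nat_lit 5545325324)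 (nat_lit 76) (nat_lit 10536823889) (nat_lit 84) (nat_lit 5) (nat_lit 88) (nat_lit 5) (nat_lit 85) (nat_lit 5) (nat_lit 453) (nat_lit 415) (nat_lit 332)))))) (XT.nd (nat_lit 624) (nat_lit 760) (nat_lit 0) (XT.nd (nat_lit 312) (nat_lit 380) (nat_lit 0) (XT.nd (nat_lit 156) (nat_lit 228) (nat_lit 0) (XT.nd (nat_lit 78) (nat_lit 152) (nat_lit 0) (XT.lf (nat_lit 0) (nat_lit 9852959087) (nat_lit 152) (nat_lit 4984922581) (nat_lit 228) (nat_lit 10428007179) (nat_lit 82) (nat_lit 5) (nat_lit 84) (nat_lit 5) (nat_lit 85) (nat_lit 5) (nat_lit 454) (nat_lit 415) (nat_lit 331)) (XT.lf (nat_lit 0) (nat_lit 63282749) (nat_lit 152) (nat_lit 21657166172) (nat_lit 228) (nat_lit 4332902677) (nat_lit 80) (nat_lit 5) (nat_lit 82) (nat_lit 5) (nat_lit 83) (nat_lit 5) (nat_lit 455) (nat_lit 415) (nat_lit 330))) (XT.nd (nat_lit 78) (nat_lit 152) (nat_lit 0) (XT.lf (nat_lit 0) (nat_lit 2332699680) (nat_lit 228) (nat_lit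 10162285036) (nat_lit 76) (nat_lit 14366995309) (nat_lit 79) (nat_lit 5) (nat_lit 82) (nat_lit 5) (nat_lit 80) (nat_lit 5) (nat_lit 456) (nat_lit 415) (nat_lit 329)) (XT.lf (nat_lit 0) (nat_lit 6572123208) (nat_lit 152) (nat_lit 2702048165) (nat_lit 228) (nat_lit 18428907728) (nat_lit 77) (nat_lit 5) (nat_lit 79) (nat_lit 5) (nat_lit 80) (nat_lit 5) (nat_lit 457) (nat_lit 415) (nat_lit 328)))) (XT.nd (nat_lit 156) (nat_lit 228) (nat_lit 0) (XT.nd (nat_lit 78) (nat_lit 152) (nat_lit 0) (XT.lf (nat_lit 0) (nat_lit 16841754656) (nat_lit 228) (nat_lit 4226988862) (nat_lit 76) (nat_lit 7503538615) (nat_lit 77) (nat_lit 5) (nat_lit 80) (nat_lit 5) (nat_lit 78) (nat_lit 5) (nat_lit 458) (nat_lit 415) (nat_lit 327)) (XT.lf (nat_lit 0) (nat_lit 13899661791) (nat_lit 152) (nat_lit 11135801976) (nat_lit 228) (nat_lit 4437095076) (nat_lit 75) (nat_lit 5) (nat_lit 77) (nat_lit 5) (nat_lit 78) (nat_lit 5)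 (nat_lit 459) (nat_lit 415) (nat_lit 326))) (XT.nd (nat_lit 78) (nat_lit 0) (nat_lit 0) (XT.lf (nat_lit 0) (nat_lit 2676148203) (nat_lit 152) (nat_lit 542820975) (nat_lit 228) (nat_lit 27191313908) (nat_lit 72) (nat_lit 5) (nat_lit 74) (nat_lit 5) (nat_lit 75) (nat_lit 5) (nat_lit 460) (nat_lit 415) (nat_lit 325)) (XT.lf (nat_lit 0) (nat_lit 11528607180) (nat_lit 228) (nat_lit 9268955071) (nat_lit 76) (nat_lit 10572700768) (nat_lit 72) (nat_lit 5) (nat_lit 75) (nat_lit 5) (nat_lit 73) (nat_lit 5) (nat_lit 461) (nat_lit 415) (nat_lit 324))))) (XT.nd (nat_lit 312) (nat_lit 304) (nat_lit 0) (XT.nd (nat_lit 156) (nat_lit 304) (nat_lit 0) (XT.nd (nat_lit 78) (nat_lit 0) (nat_lit 0) (XT.lf (nat_lit 0) (nat_lit 10421955991) (nat_lit 152) (nat_lit 9990669059) (nat_lit 228) (nat_lit 11957672707) (nat_lit 70) (nat_lit 5) (nat_lit 72) (nat_lit 5) (nat_lit 73) (nat_lit 5) (nat_lit 462) (nat_lit 415) (nat_lit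 323)) (XT.lf (nat_lit 0) (nat_lit 29908972607) (nat_lit 228) (nat_lit 2039344340) (nat_lit 76) (nat_lit 1463611518) (nat_lit 70) (nat_lit 5) (nat_lit 73) (nat_lit 5) (nat_lit 71) (nat_lit 4) (nat_lit 463) (nat_lit 415) (nat_lit 322))) (XT.nd (nat_lit 78) (nat_lit 152) (nat_lit 0) (XT.lf (nat_lit 0) (nat_lit 5662980385) (nat_lit 152) (nat_lit 15276609891) (nat_lit 76) (nat_lit 13538830444) (nat_lit 68) (nat_lit 5) (nat_lit 70) (nat_lit 5) (nat_lit 69) (nat_lit 5) (nat_lit 464) (nat_lit 415) (nat_lit 321)) (XT.lf (nat_lit 0) (nat_lit 6095098378) (nat_lit 152) (nat_lit 9192710738) (nat_lit 228) (nat_lit 20301641880) (nat_lit 66) (nat_lit 5) (nat_lit 68) (nat_lit 5) (nat_lit 69) (nat_lit 5) (nat_lit 465) (nat_lit 415) (nat_lit 320)))) (XT.nd (nat_lit 156) (nat_lit 228) (nat_lit 0) (XT.nd (nat_lit 78) (nat_lit 76) (nat_lit 0) (XT.lf (nat_lit 0) (nat_lit 25694035181) (nat_lit 228) (nat_lit 7752027836)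 (nat_lit 76) (nat_lit 3294962526) (nat_lit 66) (nat_lit 5) (nat_lit 69) (nat_lit 5) (nat_lit 67) (nat_lit 4) (nat_lit 466) (nat_lit 415) (nat_lit 319)) (XT.lf (nat_lit 0) (nat_lit 15399199491) (nat_lit 76) (nat_lit 21601212218) (nat_lit 152) (nat_lit 930775680) (nat_lit 65) (nat_lit 5) (nat_lit 66) (nat_lit 5) (nat_lit 67) (nat_lit 4) (nat_lit 467) (nat_lit 415) (nat_lit 318))) (XT.nd (nat_lit 78) (nat_lit 0) (nat_lit 0) (XT.lf (nat_lit 0) (nat_lit 649736303) (nat_lit 152) (nat_lit 8863670465) (nat_lit 228) (nat_lit 29653268781) (nat_lit 62) (nat_lit 5) (nat_lit 64) (nat_lit 5) (nat_lit 65) (nat_lit 5) (nat_lit 468) (nat_lit 415) (nat_lit 317)) (XT.lf (nat_lit 0) (nat_lit 20895625983) (nat_lit 228) (nat_lit 14784499647) (nat_lit 76) (nat_lit 4760694621) (nat_lit 62) (nat_lit 5) (nat_lit 65) (nat_lit 5) (nat_lit 63) (nat_lit 4) (nat_lit 469) (nat_lit 415) (nat_lit 316))))))))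
noncomputable def xc129 : XT := (XT.nd (nat_lit 2418) (nat_lit 1520) (nat_lit 0) (XT.nd (nat_lit 1170) (nat_lit 988) (nat_lit 0) (XT.nd (nat_lit 546) (nat_lit 532) (nat_lit 0) (XT.nd (nat_lit 234) (nat_lit 304) (nat_lit 0) (XT.nd (nat_lit 78) (nat_lit 228) (nat_lit 0) (XT.lf (nat_lit 0) (nat_lit 10299368668) (nat_lit 76) (nat_lit 22843063850) (nat_lit 152) (nat_lit 8621466286) (nat_lit 61) (nat_lit 5) (nat_lit 62) (nat_lit 5) (nat_lit 63) (nat_lit 4) (nat_lit 470) (nat_lit 415) (nat_lit 315)) (XT.nd (nat_lit 78) (nat_lit 152) (nat_lit 0) (XT.lf (nat_lit 0) (nat_lit 3001170476) (nat_lit 152) (nat_lit 6058041259) (nat_lit 76) (nat_lit 34079501803) (nat_lit 60) (nat_lit 5) (nat_lit 62) (nat_lit 5) (nat_lit 61) (nat_lit 5) (nat_lit 471) (nat_lit 415) (nat_lit 314)) (XT.lf (nat_lit 0) (nat_lit 15327207990) (nat_lit 228) (nat_lit 23516064786) (nat_lit 76) (nat_lit 5711329499) (nat_lit 58) (nat_lit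 5) (nat_lit 61) (nat_lit 5) (nat_lit 59) (nat_lit 4) (nat_lit 472) (nat_lit 415) (nat_lit 313)))) (XT.nd (nat_lit 156) (nat_lit 228) (nat_lit 0) (XT.nd (nat_lit 78) (nat_lit 0) (nat_lit 0) (XT.lf (nat_lit 0) (nat_lit 3610786947) (nat_lit 76) (nat_lit 24957894791) (nat_lit 152) (nat_lit 17457647348) (nat_lit 57) (nat_lit 5) (nat_lit 58) (nat_lit 5) (nat_lit 59) (nat_lit 4) (nat_lit 473) (nat_lit 415) (nat_lit 312)) (XT.lf (nat_lit 0) (nat_lit 32892009271) (nat_lit 76) (nat_lit 9968636644) (nat_lit 152) (nat_lit 4691575825) (nat_lit 57) (nat_lit 5) (nat_lit 58) (nat_lit 5) (nat_lit 59) (nat_lit 4) (nat_lit 474) (nat_lit 415) (nat_lit 311))) (XT.nd (nat_lit 78) (nat_lit 0) (nat_lit 0) (XT.lf (nat_lit 0) (nat_lit 8751500047) (nat_lit 228) (nat_lit 34429705935) (nat_lit 76) (nat_lit 5950523556) (nat_lit 54) (nat_lit 5) (nat_lit 57) (nat_lit 5) (nat_lit 55) (nat_lit 4) (nat_lit 475) (nat_lit 415) (nat_lit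 310)) (XT.lf (nat_lit 0) (nat_lit 23115357102) (nat_lit 228) (nat_lit 4998747024) (nat_lit 76) (nat_lit 22651948583) (nat_lit 54) (nat_lit 5) (nat_lit 57) (nat_lit 5) (nat_lit 55) (nat_lit 4) (nat_lit 476) (nat_lit 415) (nat_lit 309))))) (XT.nd (nat_lit 312) (nat_lit 228) (nat_lit 0) (XT.nd (nat_lit 156) (nat_lit 76) (nat_lit 0) (XT.nd (nat_lit 78) (nat_lit 152) (nat_lit 0) (XT.lf (nat_lit 0) (nat_lit 26742655964) (nat_lit 76) (nat_lit 11863256859) (nat_lit 152) (nat_lit 13855754204) (nat_lit 53) (nat_lit 5) (nat_lit 54) (nat_lit 5) (nat_lit 55) (nat_lit 4) (nat_lit 477) (nat_lit 415) (nat_lit 308)) (XT.lf (nat_lit 0) (nat_lit 866492819) (nat_lit 152) (nat_lit 48140855100) (nat_lit 76) (nat_lit 5221339007) (nat_lit 51) (nat_lit 5) (nat_lit 53) (nat_lit 5) (nat_lit 52) (nat_lit 4) (nat_lit 478) (nat_lit 415) (nat_lit 307))) (XT.nd (nat_lit 78) (nat_lit 76) (nat_lit 0) (XT.lf (nat_lit 0) (nat_lit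 16487434807) (nat_lit 152) (nat_lit 16130221824) (nat_lit 76) (nat_lit 23423632914) (nat_lit 51) (nat_lit 5) (nat_lit 53) (nat_lit 5) (nat_lit 52) (nat_lit 4) (nat_lit 479) (nat_lit 415) (nat_lit 306)) (XT.lf (nat_lit 0) (nat_lit 18042116347) (nat_lit 76) (nat_lit 15120464978) (nat_lit 152) (nat_lit 24768283328) (nat_lit 50) (nat_lit 5) (nat_lit 51) (nat_lit 5) (nat_lit 52) (nat_lit 4) (nat_lit 480) (nat_lit 415) (nat_lit 305)))) (XT.nd (nat_lit 156) (nat_lit 76) (nat_lit 0) (XT.nd (nat_lit 78) (nat_lit 152) (nat_lit 0) (XT.lf (nat_lit 0) (nat_lit 50991408927) (nat_lit 152) (nat_lit 5489752158) (nat_lit 0) (nat_lit 3417761463) (nat_lit 50) (nat_lit 5) (nat_lit 52) (nat_lit 4) (nat_lit 50) (nat_lit 4) (nat_lit 481) (nat_lit 415) (nat_lit 304)) (XT.lf (nat_lit 0) (nat_lit 8239881993) (nat_lit 152) (nat_lit 30692006808) (nat_lit 76) (nat_lit 22990371806) (nat_lit 48) (nat_lit 5) (nat_lit 50) (nat_lit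 5) (nat_lit 49) (nat_lit 4) (nat_lit 482) (nat_lit 415) (nat_lit 303))) (XT.nd (nat_lit 78) (nat_lit 0) (nat_lit 0) (XT.lf (nat_lit 0) (nat_lit 5962458814) (nat_lit 76) (nat_lit 20162350627) (nat_lit 152) (nat_lit 37905679429) (nat_lit 47) (nat_lit 5) (nat_lit 48) (nat_lit 5) (nat_lit 49) (nat_lit 4) (nat_lit 483) (nat_lit 415) (nat_lit 302)) (XT.lf (nat_lit 0) (nat_lit 45417151448) (nat_lit 152) (nat_lit 20719955375) (nat_lit 0) (nat_lit 81363496) (nat_lit 47) (nat_lit 5) (nat_lit 49) (nat_lit 4) (nat_lit 47) (nat_lit 4) (nat_lit 484) (nat_lit 415) (nat_lit 301)))))) (XT.nd (nat_lit 624) (nat_lit 456) (nat_lit 0) (XT.nd (nat_lit 312) (nat_lit 228) (nat_lit 0) (XT.nd (nat_lit 156) (nat_lit 152) (nat_lit 0) (XT.nd (nat_lit 78) (nat_lit 76) (nat_lit 0) (XT.lf (nat_lit 0) (nat_lit 18750267585) (nat_lit 76) (nat_lit 47539457152) (nat_lit 76) (nat_lit 2195345565) (nat_lit 46) (nat_lit 4) (nat_lit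 47) (nat_lit 5) (nat_lit 47) (nat_lit 4) (nat_lit 485) (nat_lit 415) (nat_lit 300)) (XT.lf (nat_lit 0) (nat_lit 17134916213) (nat_lit 152) (nat_lit 10225460620) (nat_lit 76) (nat_lit 43473636196) (nat_lit 45) (nat_lit 5) (nat_lit 47) (nat_lit 5) (nat_lit 46) (nat_lit 4) (nat_lit 486) (nat_lit 415) (nat_lit 299))) (XT.nd (nat_lit 78) (nat_lit 76) (nat_lit 0) (XT.lf (nat_lit 0) (nat_lit 32241120066) (nat_lit 76) (nat_lit 5612884181) (nat_lit 152) (nat_lit 35419794774) (nat_lit 44) (nat_lit 5) (nat_lit 45) (nat_lit 5) (nat_lit 46) (nat_lit 4) (nat_lit 487) (nat_lit 415) (nat_lit 298)) (XT.lf (nat_lit 0) (nat_lit 1108701931) (nat_lit 76) (nat_lit 58955290664) (nat_lit 76) (nat_lit 15748834560) (nat_lit 43) (nat_lit 4) (nat_lit 44) (nat_lit 5) (nat_lit 44) (nat_lit 4) (nat_lit 488) (nat_lit 415) (nat_lit 297)))) (XT.nd (nat_lit 156) (nat_lit 76) (nat_lit 0) (XT.nd (nat_lit 78) (nat_lit 76) (nat_lit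 0) (XT.lf (nat_lit 0) (nat_lit 5539727524) (nat_lit 152) (nat_lit 31856536465) (nat_lit 76) (nat_lit 41039159968) (nat_lit 42) (nat_lit 5) (nat_lit 44) (nat_lit 5) (nat_lit 43) (nat_lit 4) (nat_lit 489) (nat_lit 415) (nat_lit 296)) (XT.lf (nat_lit 0) (nat_lit 13287005800) (nat_lit 76) (nat_lit 14276991718) (nat_lit 152) (nat_lit 53602217125) (nat_lit 41) (nat_lit 5) (nat_lit 42) (nat_lit 5) (nat_lit 43) (nat_lit 4) (nat_lit 490) (nat_lit 415) (nat_lit 295))) (XT.nd (nat_lit 78) (nat_lit 76) (nat_lit 0) (XT.lf (nat_lit 0) (nat_lit 51387047772) (nat_lit 152) (nat_lit 22391337354) (nat_lit 0) (nat_lit 10220281518) (nat_lit 41) (nat_lit 5) (nat_lit 43) (nat_lit 4) (nat_lit 41) (nat_lit 4) (nat_lit 491) (nat_lit 415) (nat_lit 294)) (XT.lf (nat_lit 0) (nat_lit 25954700699) (nat_lit 76) (nat_lit 51079268239) (nat_lit 76) (nat_lit 9907136496) (nat_lit 40) (nat_lit 4) (nat_lit 41) (nat_lit 5) (nat_lit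 41) (nat_lit 4) (nat_lit 492) (nat_lit 415) (nat_lit 293))))) (XT.nd (nat_lit 312) (nat_lit 228) (nat_lit 0) (XT.nd (nat_lit 156) (nat_lit 76) (nat_lit 0) (XT.nd (nat_lit 78) (nat_lit 76) (nat_lit 0) (XT.lf (nat_lit 0) (nat_lit 13865517631) (nat_lit 152) (nat_lit 12752930587) (nat_lit 76) (nat_lit 63382397878) (nat_lit 39) (nat_lit 5) (nat_lit 41) (nat_lit 5) (nat_lit 40) (nat_lit 4) (nat_lit 493) (nat_lit 415) (nat_lit 292)) (XT.lf (nat_lit 0) (nat_lit 38964631829) (nat_lit 76) (nat_lit 131339009) (nat_lit 152) (nat_lit 54079376891) (nat_lit 38) (nat_lit 5) (nat_lit 39) (nat_lit 5) (nat_lit 40) (nat_lit 4) (nat_lit 494) (nat_lit 415) (nat_lit 291))) (XT.nd (nat_lit 78) (nat_lit 76) (nat_lit 0) (XT.lf (nat_lit 0) (nat_lit 66233407926) (nat_lit 152) (nat_lit 3234955430) (nat_lit 0) (nat_lit 27007938115) (nat_lit 38) (nat_lit 5) (nat_lit 40) (nat_lit 4) (nat_lit 38) (nat_lit 4) (nat_lit 495) (nat_lit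 415) (nat_lit 290)) (XT.lf (nat_lit 0) (nat_lit 51938068006) (nat_lit 76) (nat_lit 43596776213) (nat_lit 76) (nat_lit 4367102402) (nat_lit 37) (nat_lit 4) (nat_lit 38) (nat_lit 5) (nat_lit 38) (nat_lit 4) (nat_lit 496) (nat_lit 415) (nat_lit 289)))) (XT.nd (nat_lit 156) (nat_lit 76) (nat_lit 0) (XT.nd (nat_lit 78) (nat_lit 0) (nat_lit 0) (XT.lf (nat_lit 0) (nat_lit 6319553370) (nat_lit 76) (nat_lit 15901534918) (nat_lit 152) (nat_lit 81252563704) (nat_lit 35) (nat_lit 5) (nat_lit 36) (nat_lit 5) (nat_lit 37) (nat_lit 4) (nat_lit 497) (nat_lit 415) (nat_lit 288)) (XT.lf (nat_lit 0) (nat_lit 51017380420) (nat_lit 152) (nat_lit 42503368349) (nat_lit 0) (nat_lit 13648341586) (nat_lit 35) (nat_lit 5) (nat_lit 37) (nat_lit 4) (nat_lit 35) (nat_lit 4) (nat_lit 498) (nat_lit 415) (nat_lit 287))) (XT.nd (nat_lit 78) (nat_lit 0) (nat_lit 0) (XT.lf (nat_lit 0) (nat_lit 15091050262) (nat_lit 76) (nat_lit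 66653107203) (nat_lit 76) (nat_lit 29280609727) (nat_lit 34) (nat_lit 4) (nat_lit 35) (nat_lit 5) (nat_lit 35) (nat_lit 4) (nat_lit 499) (nat_lit 415) (nat_lit 286)) (XT.lf (nat_lit 0) (nat_lit 77029815894) (nat_lit 76) (nat_lit 37691744557) (nat_lit 76) (nat_lit 315953136) (nat_lit 34) (nat_lit 4) (nat_lit 35) (nat_lit 5) (nat_lit 35) (nat_lit 4) (nat_lit 500) (nat_lit 415) (nat_lit 285))))))) (XT.nd (nat_lit 1170) (nat_lit 684) (nat_lit 0) (XT.nd (nat_lit 546) (nat_lit 380) (nat_lit 0) (XT.nd (nat_lit 234) (nat_lit 228) (nat_lit 0) (XT.nd (nat_lit 78) (nat_lit 76) (nat_lit 0) (XT.lf (nat_lit 0) (nat_lit 23072542109) (nat_lit 76) (nat_lit 6415980144) (nat_lit 152) (nat_lit 89721136436) (nat_lit 32) (nat_lit 5) (nat_lit 33) (nat_lit 5) (nat_lit 34) (nat_lit 4) (nat_lit 501) (nat_lit 415) (nat_lit 284)) (XT.nd (nat_lit 78) (nat_lit 76) (nat_lit 0) (XT.lf (nat_lit 0) (nat_lit 61834038844) (nat_lit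 152) (nat_lit 35470827632) (nat_lit 0) (nat_lit 26232213876) (nat_lit 32) (nat_lit 5) (nat_lit 34) (nat_lit 4) (nat_lit 32) (nat_lit 4) (nat_lit 502) (nat_lit 415) (nat_lit 283)) (XT.lf (nat_lit 0) (nat_lit 29043002578) (nat_lit 76) (nat_lit 67307364349) (nat_lit 76) (nat_lit 31702829444) (nat_lit 31) (nat_lit 4) (nat_lit 32) (nat_lit 5) (nat_lit 32) (nat_lit 4) (nat_lit 503) (nat_lit 415) (nat_lit 282)))) (XT.nd (nat_lit 156) (nat_lit 76) (nat_lit 0) (XT.nd (nat_lit 78) (nat_lit 76) (nat_lit 0) (XT.lf (nat_lit 0) (nat_lit 409358613) (nat_lit 152) (nat_lit 34767930638) (nat_lit 76) (nat_lit 97587713118) (nat_lit 30) (nat_lit 5) (nat_lit 32) (nat_lit 5) (nat_lit 31) (nat_lit 4) (nat_lit 504) (nat_lit 415) (nat_lit 281)) (XT.lf (nat_lit 0) (nat_lit 33220313188) (nat_lit 76) (nat_lit 355241434) (nat_lit 152) (nat_lit 104085167093) (nat_lit 29) (nat_lit 5) (nat_lit 30) (nat_lit 5) (nat_lit 31) (nat_lit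 4) (nat_lit 505) (nat_lit 415) (nat_lit 280))) (XT.nd (nat_lit 78) (nat_lit 76) (nat_lit 0) (XT.lf (nat_lit 0) (nat_lit 69558998738) (nat_lit 152) (nat_lit 37541391954) (nat_lit 0) (nat_lit 35642889466) (nat_lit 29) (nat_lit 5) (nat_lit 31) (nat_lit 4) (nat_lit 29) (nat_lit 4) (nat_lit 506) (nat_lit 415) (nat_lit 279)) (XT.lf (nat_lit 0) (nat_lit 33768331026) (nat_lit 76) (nat_lit 74101723083) (nat_lit 76) (nat_lit 40183490506) (nat_lit 28) (nat_lit 4) (nat_lit 29) (nat_lit 5) (nat_lit 29) (nat_lit 4) (nat_lit 507) (nat_lit 415) (nat_lit 278))))) (XT.nd (nat_lit 312) (nat_lit 152) (nat_lit 0) (XT.nd (nat_lit 156) (nat_lit 76) (nat_lit 0) (XT.nd (nat_lit 78) (nat_lit 152) (nat_lit 0) (XT.lf (nat_lit 0) (nat_lit 109937822927) (nat_lit 76) (nat_lit 38790095682) (nat_lit 76) (nat_lit 4869840909) (nat_lit 28) (nat_lit 4) (nat_lit 29) (nat_lit 5) (nat_lit 29) (nat_lit 4) (nat_lit 508) (nat_lit 415)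 (nat_lit 277)) (XT.lf (nat_lit 0) (nat_lit 30976378825) (nat_lit 76) (nat_lit 681455077) (nat_lit 152) (nat_lit 127712244901) (nat_lit 26) (nat_lit 5) (nat_lit 27) (nat_lit 5) (nat_lit 28) (nat_lit 4) (nat_lit 509) (nat_lit 415) (nat_lit 276))) (XT.nd (nat_lit 78) (nat_lit 76) (nat_lit 0) (XT.lf (nat_lit 0) (nat_lit 71209475293) (nat_lit 152) (nat_lit 55248595346) (nat_lit 0) (nat_lit 38900889705) (nat_lit 26) (nat_lit 5) (nat_lit 28) (nat_lit 4) (nat_lit 26) (nat_lit 4) (nat_lit 510) (nat_lit 415) (nat_lit 275)) (XT.lf (nat_lit 0) (nat_lit 22246241659) (nat_lit 76) (nat_lit 90846788510) (nat_lit 76) (nat_lit 58536539256) (nat_lit 25) (nat_lit 4) (nat_lit 26) (nat_lit 5) (nat_lit 26) (nat_lit 4) (nat_lit 511) (nat_lit 415) (nat_lit 274)))) (XT.nd (nat_lit 156) (nat_lit 0) (nat_lit 0) (XT.nd (nat_lit 78) (nat_lit 152) (nat_lit 0) (XT.lf (nat_lit 0) (nat_lit 105525691868) (nat_lit 76) (nat_lit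 52476636278) (nat_lit 76) (nat_lit 20164802581) (nat_lit 25) (nat_lit 4) (nat_lit 26) (nat_lit 5) (nat_lit 26) (nat_lit 4) (nat_lit 512) (nat_lit 415) (nat_lit 273)) (XT.lf (nat_lit 0) (nat_lit 7867152610) (nat_lit 76) (nat_lit 11733089000) (nat_lit 152) (nat_lit 165409674570) (nat_lit 23) (nat_lit 5) (nat_lit 24) (nat_lit 5) (nat_lit 25) (nat_lit 4) (nat_lit 513) (nat_lit 415) (nat_lit 272))) (XT.nd (nat_lit 78) (nat_lit 0) (nat_lit 0) (XT.lf (nat_lit 0) (nat_lit 62407033896) (nat_lit 152) (nat_lit 98053667131) (nat_lit 0) (nat_lit 31631053107) (nat_lit 23) (nat_lit 5) (nat_lit 25) (nat_lit 4) (nat_lit 23) (nat_lit 4) (nat_lit 514) (nat_lit 415) (nat_lit 271)) (XT.lf (nat_lit 0) (nat_lit 107542739569) (nat_lit 152) (nat_lit 15210060503) (nat_lit 0) (nat_lit 76765455253) (nat_lit 23) (nat_lit 5) (nat_lit 25) (nat_lit 4) (nat_lit 23) (nat_lit 4) (nat_lit 515) (nat_lit 415) (nat_lit 270)))))) (XT.nd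 (nat_lit 624) (nat_lit 228) (nat_lit 0) (XT.nd (nat_lit 312) (nat_lit 228) (nat_lit 0) (XT.nd (nat_lit 156) (nat_lit 152) (nat_lit 0) (XT.nd (nat_lit 78) (nat_lit 0) (nat_lit 0) (XT.lf (nat_lit 0) (nat_lit 74141479772) (nat_lit 76) (nat_lit 81947714700) (nat_lit 76) (nat_lit 51169188931) (nat_lit 22) (nat_lit 4) (nat_lit 23) (nat_lit 5) (nat_lit 23) (nat_lit 4) (nat_lit 516) (nat_lit 415) (nat_lit 269)) (XT.lf (nat_lit 0) (nat_lit 168481535685) (nat_lit 76) (nat_lit 38835493732) (nat_lit 76) (nat_lit 8055785627) (nat_lit 22) (nat_lit 4) (nat_lit 23) (nat_lit 5) (nat_lit 23) (nat_lit 4) (nat_lit 517) (nat_lit 415) (nat_lit 268))) (XT.nd (nat_lit 78) (nat_lit 0) (nat_lit 0) (XT.lf (nat_lit 0) (nat_lit 36834572448) (nat_lit 152) (nat_lit 179469236231) (nat_lit 0) (nat_lit 7519492315) (nat_lit 20) (nat_lit 5) (nat_lit 22) (nat_lit 4) (nat_lit 20) (nat_lit 4) (nat_lit 518) (nat_lit 415) (nat_lit 267))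 (XT.lf (nat_lit 0) (nat_lit 85139097734) (nat_lit 152) (nat_lit 91655595343) (nat_lit 0) (nat_lit 55822996255) (nat_lit 20) (nat_lit 5) (nat_lit 22) (nat_lit 4) (nat_lit 20) (nat_lit 4) (nat_lit 519) (nat_lit 415) (nat_lit 266)))) (XT.nd (nat_lit 156) (nat_lit 152) (nat_lit 0) (XT.nd (nat_lit 78) (nat_lit 0) (nat_lit 0) (XT.lf (nat_lit 0) (nat_lit 560084367) (nat_lit 76) (nat_lit 135304256184) (nat_lit 76) (nat_lit 105987181993) (nat_lit 19) (nat_lit 4) (nat_lit 20) (nat_lit 5) (nat_lit 20) (nat_lit 4) (nat_lit 520) (nat_lit 415) (nat_lit 265)) (XT.lf (nat_lit 0) (nat_lit 100562159907) (nat_lit 76) (nat_lit 90112718239) (nat_lit 76) (nat_lit 60794717657) (nat_lit 19) (nat_lit 4) (nat_lit 20) (nat_lit 5) (nat_lit 20) (nat_lit 4) (nat_lit 521) (nat_lit 415) (nat_lit 264))) (XT.nd (nat_lit 78) (nat_lit 152) (nat_lit 0) (XT.lf (nat_lit 0) (nat_lit 205558183547) (nat_lit 76) (nat_lit 42664712200)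 (nat_lit 76) (nat_lit 13345829340) (nat_lit 19) (nat_lit 4) (nat_lit 20) (nat_lit 5) (nat_lit 20) (nat_lit 4) (nat_lit 522) (nat_lit 415) (nat_lit 263)) (XT.lf (nat_lit 0) (nat_lit 36131951377) (nat_lit 152) (nat_lit 227762785095) (nat_lit 0) (nat_lit 8208405544) (nat_lit 17) (nat_lit 5) (nat_lit 19) (nat_lit 4) (nat_lit 17) (nat_lit 4) (nat_lit 523) (nat_lit 415) (nat_lit 262))))) (XT.nd (nat_lit 312) (nat_lit 152) (nat_lit 0) (XT.nd (nat_lit 156) (nat_lit 76) (nat_lit 0) (XT.nd (nat_lit 78) (nat_lit 0) (nat_lit 0) (XT.lf (nat_lit 0) (nat_lit 89295704395) (nat_lit 152) (nat_lit 132403210259) (nat_lit 0) (nat_lit 61371396418) (nat_lit 17) (nat_lit 5) (nat_lit 19) (nat_lit 4) (nat_lit 17) (nat_lit 4) (nat_lit 524) (nat_lit 415) (nat_lit 261)) (XT.lf (nat_lit 0) (nat_lit 145114838638) (nat_lit 152) (nat_lit 32281335468) (nat_lit 0) (nat_lit 117189804809) (nat_lit 17) (nat_lit 5) (nat_lit 19) (nat_lit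 4) (nat_lit 17) (nat_lit 4) (nat_lit 525) (nat_lit 415) (nat_lit 260))) (XT.nd (nat_lit 78) (nat_lit 0) (nat_lit 0) (XT.lf (nat_lit 0) (nat_lit 75249684540) (nat_lit 76) (nat_lit 129647430729) (nat_lit 76) (nat_lit 101721705612) (nat_lit 16) (nat_lit 4) (nat_lit 17) (nat_lit 5) (nat_lit 17) (nat_lit 4) (nat_lit 526) (nat_lit 415) (nat_lit 259)) (XT.lf (nat_lit 0) (nat_lit 189272669487) (nat_lit 76) (nat_lit 78939907694) (nat_lit 76) (nat_lit 51013524208) (nat_lit 16) (nat_lit 4) (nat_lit 17) (nat_lit 5) (nat_lit 17) (nat_lit 4) (nat_lit 527) (nat_lit 415) (nat_lit 258)))) (XT.nd (nat_lit 156) (nat_lit 0) (nat_lit 0) (XT.nd (nat_lit 78) (nat_lit 76) (nat_lit 0) (XT.lf (nat_lit 0) (nat_lit 2156145749) (nat_lit 152) (nat_lit 23506911718) (nat_lit 76) (nat_lit 306799074809) (nat_lit 15) (nat_lit 5) (nat_lit 17) (nat_lit 5) (nat_lit 16) (nat_lit 4) (nat_lit 528) (nat_lit 415) (nat_lit 257)) (XT.lf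 (nat_lit 0) (nat_lit 58187003463) (nat_lit 152) (nat_lit 256446010355) (nat_lit 0) (nat_lit 31589281878) (nat_lit 14) (nat_lit 5) (nat_lit 16) (nat_lit 4) (nat_lit 14) (nat_lit 4) (nat_lit 529) (nat_lit 415) (nat_lit 256))) (XT.nd (nat_lit 78) (nat_lit 0) (nat_lit 0) (XT.lf (nat_lit 0) (nat_lit 117842315653) (nat_lit 152) (nat_lit 151542953641) (nat_lit 0) (nat_lit 91244052426) (nat_lit 14) (nat_lit 5) (nat_lit 16) (nat_lit 4) (nat_lit 14) (nat_lit 4) (nat_lit 530) (nat_lit 415) (nat_lit 255)) (XT.lf (nat_lit 0) (nat_lit 180478087320) (nat_lit 152) (nat_lit 41399418797) (nat_lit 0) (nat_lit 153879308244) (nat_lit 14) (nat_lit 5) (nat_lit 16) (nat_lit 4) (nat_lit 14) (nat_lit 4) (nat_lit 531) (nat_lit 415) (nat_lit 254))))))))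
noncomputable def xc130 : XT := (XT.nd (nat_lit 54366) (nat_lit 0) (nat_lit 5320) (XT.nd (nat_lit 1170) (nat_lit 76) (nat_lit 0) (XT.nd (nat_lit 546) (nat_lit 228) (nat_lit 0) (XT.nd (nat_lit 234) (nat_lit 152) (nat_lit 0) (XT.nd (nat_lit 78) (nat_lit 0) (nat_lit 0) (XT.lf (nat_lit 0) (nat_lit 76701776546) (nat_lit 76) (nat_lit 170739204396) (nat_lit 76) (nat_lit 144139934035) (nat_lit 13) (nat_lit 4) (nat_lit 14) (nat_lit 5) (nat_lit 14) (nat_lit 4) (nat_lit 532) (nat_lit 415) (nat_lit 253)) (XT.nd (nat_lit 78) (nat_lit 0) (nat_lit 0) (XT.lf (nat_lit 0) (nat_lit 202140945702) (nat_lit 76) (nat_lit 116310032615) (nat_lit 76) (nat_lit 89710294363) (nat_lit 13) (nat_lit 4) (nat_lit 14) (nat_lit 5) (nat_lit 14) (nat_lit 4) (nat_lit 533) (nat_lit 415) (nat_lit 252)) (XT.lf (nat_lit 0) (nat_lit 333847901606) (nat_lit 76) (nat_lit 59161516697) (nat_lit 76) (nat_lit 32561332835) (nat_lit 13) (nat_lit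 4) (nat_lit 14) (nat_lit 5) (nat_lit 14) (nat_lit 4) (nat_lit 534) (nat_lit 415) (nat_lit 251)))) (XT.nd (nat_lit 156) (nat_lit 0) (nat_lit 0) (XT.nd (nat_lit 78) (nat_lit 0) (nat_lit 0) (XT.lf (nat_lit 0) (nat_lit 27041519481) (nat_lit 152) (nat_lit 415056409633) (nat_lit 0) (nat_lit 1707606859) (nat_lit 11) (nat_lit 5) (nat_lit 13) (nat_lit 4) (nat_lit 11) (nat_lit 4) (nat_lit 535) (nat_lit 415) (nat_lit 250)) (XT.lf (nat_lit 0) (nat_lit 91076946884) (nat_lit 152) (nat_lit 305978438889) (nat_lit 0) (nat_lit 65742649328) (nat_lit 11) (nat_lit 5) (nat_lit 13) (nat_lit 4) (nat_lit 11) (nat_lit 4) (nat_lit 536) (nat_lit 415) (nat_lit 249))) (XT.nd (nat_lit 78) (nat_lit 0) (nat_lit 0) (XT.lf (nat_lit 0) (nat_lit 158312250331) (nat_lit 152) (nat_lit 191450417459) (nat_lit 0) (nat_lit 132977586169) (nat_lit 11) (nat_lit 5) (nat_lit 13) (nat_lit 4) (nat_lit 11) (nat_lit 4) (nat_lit 537) (nat_lit 415)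 (nat_lit 248)) (XT.lf (nat_lit 0) (nat_lit 228907513876) (nat_lit 152) (nat_lit 71199659578) (nat_lit 0) (nat_lit 203572500568) (nat_lit 11) (nat_lit 5) (nat_lit 13) (nat_lit 4) (nat_lit 11) (nat_lit 4) (nat_lit 538) (nat_lit 415) (nat_lit 247))))) (XT.nd (nat_lit 312) (nat_lit 152) (nat_lit 0) (XT.nd (nat_lit 156) (nat_lit 0) (nat_lit 0) (XT.nd (nat_lit 78) (nat_lit 0) (nat_lit 0) (XT.lf (nat_lit 0) (nat_lit 56880683171) (nat_lit 76) (nat_lit 247038205183) (nat_lit 76) (nat_lit 221702859353) (nat_lit 10) (nat_lit 4) (nat_lit 11) (nat_lit 5) (nat_lit 11) (nat_lit 4) (nat_lit 539) (nat_lit 415) (nat_lit 246)) (XT.lf (nat_lit 0) (nat_lit 193833500643) (nat_lit 76) (nat_lit 190051440732) (nat_lit 76) (nat_lit 164715778215) (nat_lit 10) (nat_lit 4) (nat_lit 11) (nat_lit 5) (nat_lit 11) (nat_lit 4) (nat_lit 540) (nat_lit 415) (nat_lit 245))) (XT.nd (nat_lit 78) (nat_lit 0) (nat_lit 0) (XT.lf (nat_lit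 0) (nat_lit 337630688682) (nat_lit 76) (nat_lit 130216998017) (nat_lit 76) (nat_lit 104881033894) (nat_lit 10) (nat_lit 4) (nat_lit 11) (nat_lit 5) (nat_lit 11) (nat_lit 4) (nat_lit 541) (nat_lit 415) (nat_lit 244)) (XT.lf (nat_lit 0) (nat_lit 488614621545) (nat_lit 76) (nat_lit 67392414078) (nat_lit 76) (nat_lit 42056162711) (nat_lit 10) (nat_lit 4) (nat_lit 11) (nat_lit 5) (nat_lit 11) (nat_lit 4) (nat_lit 542) (nat_lit 415) (nat_lit 243)))) (XT.nd (nat_lit 156) (nat_lit 0) (nat_lit 0) (XT.nd (nat_lit 78) (nat_lit 0) (nat_lit 0) (XT.lf (nat_lit 0) (nat_lit 22837992765) (nat_lit 76) (nat_lit 661771965) (nat_lit 152) (nat_lit 601128216145) (nat_lit 8) (nat_lit 5) (nat_lit 9) (nat_lit 5) (nat_lit 10) (nat_lit 4) (nat_lit 543) (nat_lit 415) (nat_lit 242)) (XT.lf (nat_lit 0) (nat_lit 93886205721) (nat_lit 152) (nat_lit 488696086721) (nat_lit 0) (nat_lit 69755933842) (nat_lit 8) (nat_lit 5) (nat_lit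 10) (nat_lit 4) (nat_lit 8) (nat_lit 4) (nat_lit 544) (nat_lit 415) (nat_lit 241))) (XT.nd (nat_lit 78) (nat_lit 0) (nat_lit 0) (XT.lf (nat_lit 0) (nat_lit 167801404405) (nat_lit 152) (nat_lit 369961211570) (nat_lit 0) (nat_lit 143670896210) (nat_lit 8) (nat_lit 5) (nat_lit 10) (nat_lit 4) (nat_lit 8) (nat_lit 4) (nat_lit 545) (nat_lit 415) (nat_lit 240)) (XT.lf (nat_lit 0) (nat_lit 245411017238) (nat_lit 152) (nat_lit 245292328459) (nat_lit 0) (nat_lit 221280283979) (nat_lit 8) (nat_lit 5) (nat_lit 10) (nat_lit 4) (nat_lit 8) (nat_lit 4) (nat_lit 546) (nat_lit 415) (nat_lit 239)))))) (XT.nd (nat_lit 52572) (nat_lit 0) (nat_lit 10944) (XT.nd (nat_lit 52260) (nat_lit 0) (nat_lit 11476) (XT.nd (nat_lit 156) (nat_lit 0) (nat_lit 0) (XT.nd (nat_lit 78) (nat_lit 76) (nat_lit 0) (XT.lf (nat_lit 0) (nat_lit 326899829011) (nat_lit 152) (nat_lit 114392606714) (nat_lit 0) (nat_lit 302768881406) (nat_lit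 8) (nat_lit 5) (nat_lit 10) (nat_lit 4) (nat_lit 8) (nat_lit 4) (nat_lit 547) (nat_lit 415) (nat_lit 238)) (XT.lf (nat_lit 0) (nat_lit 23811744190) (nat_lit 76) (nat_lit 389021884573) (nat_lit 76) (nat_lit 364890732829) (nat_lit 7) (nat_lit 4) (nat_lit 8) (nat_lit 5) (nat_lit 8) (nat_lit 4) (nat_lit 548) (nat_lit 415) (nat_lit 237))) (XT.nd (nat_lit 78) (nat_lit 0) (nat_lit 0) (XT.lf (nat_lit 0) (nat_lit 172895324213) (nat_lit 76) (nat_lit 332104887778) (nat_lit 76) (nat_lit 307973541616) (nat_lit 7) (nat_lit 4) (nat_lit 8) (nat_lit 5) (nat_lit 8) (nat_lit 4) (nat_lit 549) (nat_lit 415) (nat_lit 236)) (XT.lf (nat_lit 0) (nat_lit 329430758070) (nat_lit 76) (nat_lit 272343222826) (nat_lit 76) (nat_lit 248211691504) (nat_lit 7) (nat_lit 4) (nat_lit 8) (nat_lit 5) (nat_lit 8) (nat_lit 4) (nat_lit 550) (nat_lit 415) (nat_lit 235)))) (XT.nd (nat_lit 156) (nat_lit 0) (nat_lit 0) (XT.nd (nat_lit 78)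 (nat_lit 0) (nat_lit 0) (XT.lf (nat_lit 0) (nat_lit 396944060) (nat_lit 0) (nat_lit 396944060) (nat_lit 684) (nat_lit 3917031269) (nat_lit 158) (nat_lit 5) (nat_lit 158) (nat_lit 3) (nat_lit 167) (nat_lit 3) (nat_lit 416) (nat_lit 416) (nat_lit 368)) (XT.lf (nat_lit 0) (nat_lit 2483160468) (nat_lit 684) (nat_lit 3991205462) (nat_lit 760) (nat_lit 3140101419) (nat_lit 158) (nat_lit 5) (nat_lit 167) (nat_lit 3) (nat_lit 168) (nat_lit 5) (nat_lit 417) (nat_lit 416) (nat_lit 367))) (XT.nd (nat_lit 78) (nat_lit 0) (nat_lit 76) (XT.lf (nat_lit 76) (nat_lit 863237591) (nat_lit 0) (nat_lit 2535437907) (nat_lit 760) (nat_lit 6419292275) (nat_lit 159) (nat_lit 5) (nat_lit 158) (nat_lit 5) (nat_lit 168) (nat_lit 5) (nat_lit 418) (nat_lit 416) (nat_lit 366)) (XT.lf (nat_lit 0) (nat_lit 4404842721) (nat_lit 684) (nat_lit 3986471038) (nat_lit 760) (nat_lit 1638093741) (nat_lit 159) (nat_lit 5) (nat_lit 168)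 (nat_lit 5) (nat_lit 169) (nat_lit 5) (nat_lit 419) (nat_lit 416) (nat_lit 365))))) (XT.nd (nat_lit 312) (nat_lit 608) (nat_lit 0) (XT.nd (nat_lit 156) (nat_lit 0) (nat_lit 76) (XT.nd (nat_lit 78) (nat_lit 0) (nat_lit 76) (XT.lf (nat_lit 76) (nat_lit 1197358970) (nat_lit 0) (nat_lit 4277730459) (nat_lit 760) (nat_lit 4775648945) (nat_lit 160) (nat_lit 5) (nat_lit 159) (nat_lit 5) (nat_lit 169) (nat_lit 5) (nat_lit 420) (nat_lit 416) (nat_lit 364)) (XT.lf (nat_lit 0) (nat_lit 6623631574) (nat_lit 684) (nat_lit 3734344094) (nat_lit 760) (nat_lit 123928318) (nat_lit 160) (nat_lit 5) (nat_lit 169) (nat_lit 5) (nat_lit 170) (nat_lit 5) (nat_lit 421) (nat_lit 416) (nat_lit 363))) (XT.nd (nat_lit 78) (nat_lit 0) (nat_lit 0) (XT.lf (nat_lit 76) (nat_lit 1808287511) (nat_lit 0) (nat_lit 6077305895) (nat_lit 760) (nat_lit 2836241843) (nat_lit 161) (nat_lit 5) (nat_lit 160) (nat_lit 5) (nat_lit 170) (nat_lit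 5) (nat_lit 422) (nat_lit 416) (nat_lit 362)) (XT.lf (nat_lit 76) (nat_lit 7728079025) (nat_lit 0) (nat_lit 1505005654) (nat_lit 760) (nat_lit 1739563494) (nat_lit 161) (nat_lit 5) (nat_lit 160) (nat_lit 5) (nat_lit 170) (nat_lit 5) (nat_lit 423) (nat_lit 416) (nat_lit 361)))) (XT.nd (nat_lit 156) (nat_lit 0) (nat_lit 76) (XT.nd (nat_lit 78) (nat_lit 760) (nat_lit 0) (XT.lf (nat_lit 76) (nat_lit 2712904490) (nat_lit 0) (nat_lit 7990158705) (nat_lit 760) (nat_lit 530189264) (nat_lit 162) (nat_lit 5) (nat_lit 161) (nat_lit 5) (nat_lit 171) (nat_lit 5) (nat_lit 424) (nat_lit 416) (nat_lit 360)) (XT.lf (nat_lit 0) (nat_lit 758559135) (nat_lit 760) (nat_lit 2491461265) (nat_lit 836) (nat_lit 8254165965) (nat_lit 151) (nat_lit 5) (nat_lit 161) (nat_lit 5) (nat_lit 162) (nat_lit 5) (nat_lit 425) (nat_lit 416) (nat_lit 359))) (XT.nd (nat_lit 78) (nat_lit 0) (nat_lit 0) (XT.lf (nat_lit 0) (nat_lit 2147305368)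 (nat_lit 760) (nat_lit 7888967997) (nat_lit 76) (nat_lit 1749295591) (nat_lit 152) (nat_lit 5) (nat_lit 162) (nat_lit 5) (nat_lit 153) (nat_lit 5) (nat_lit 426) (nat_lit 416) (nat_lit 358)) (XT.lf (nat_lit 0) (nat_lit 3666873457) (nat_lit 760) (nat_lit 1473293799) (nat_lit 76) (nat_lit 6937789417) (nat_lit 152) (nat_lit 5) (nat_lit 162) (nat_lit 5) (nat_lit 153) (nat_lit 5) (nat_lit 427) (nat_lit 416) (nat_lit 357))))))) (XT.nd (nat_lit 1170) (nat_lit 2204) (nat_lit 0) (XT.nd (nat_lit 546) (nat_lit 1520) (nat_lit 0) (XT.nd (nat_lit 234) (nat_lit 836) (nat_lit 0) (XT.nd (nat_lit 78) (nat_lit 380) (nat_lit 0) (XT.lf (nat_lit 0) (nat_lit 5315161800) (nat_lit 836) (nat_lit 6977144875) (nat_lit 76) (nat_lit 90024981) (nat_lit 142) (nat_lit 5) (nat_lit 153) (nat_lit 5) (nat_lit 143) (nat_lit 5) (nat_lit 428) (nat_lit 416) (nat_lit 356)) (XT.nd (nat_lit 78) (nat_lit 380) (nat_lit 0) (XT.lf (nat_lit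 0) (nat_lit 7123536100) (nat_lit 836) (nat_lit 137287673) (nat_lit 76) (nat_lit 5437222779) (nat_lit 142) (nat_lit 5) (nat_lit 153) (nat_lit 5) (nat_lit 143) (nat_lit 5) (nat_lit 429) (nat_lit 416) (nat_lit 355)) (XT.lf (nat_lit 0) (nat_lit 7247305633) (nat_lit 380) (nat_lit 1857742353) (nat_lit 456) (nat_lit 3920367773) (nat_lit 137) (nat_lit 5) (nat_lit 142) (nat_lit 5) (nat_lit 143) (nat_lit 5) (nat_lit 430) (nat_lit 416) (nat_lit 354)))) (XT.nd (nat_lit 156) (nat_lit 456) (nat_lit 0) (XT.nd (nat_lit 78) (nat_lit 0) (nat_lit 0) (XT.lf (nat_lit 0) (nat_lit 1598169316) (nat_lit 380) (nat_lit 9644930941) (nat_lit 456) (nat_lit 2123184227) (nat_lit 132) (nat_lit 5) (nat_lit 137) (nat_lit 5) (nat_lit 138) (nat_lit 5) (nat_lit 431) (nat_lit 416) (nat_lit 353)) (XT.lf (nat_lit 0) (nat_lit 9482660328) (nat_lit 380) (nat_lit 4104729301) (nat_lit 456) (nat_lit 131844385) (nat_lit 132) (nat_lit 5) (nat_lit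 137) (nat_lit 5) (nat_lit 138) (nat_lit 5) (nat_lit 432) (nat_lit 416) (nat_lit 352))) (XT.nd (nat_lit 78) (nat_lit 0) (nat_lit 0) (XT.lf (nat_lit 0) (nat_lit 1955204427) (nat_lit 456) (nat_lit 10383803250) (nat_lit 76) (nat_lit 1746355521) (nat_lit 126) (nat_lit 5) (nat_lit 132) (nat_lit 5) (nat_lit 127) (nat_lit 5) (nat_lit 433) (nat_lit 416) (nat_lit 351)) (XT.lf (nat_lit 0) (nat_lit 4255645644) (nat_lit 456) (nat_lit 2383233189) (nat_lit 76) (nat_lit 7825141935) (nat_lit 126) (nat_lit 5) (nat_lit 132) (nat_lit 5) (nat_lit 127) (nat_lit 5) (nat_lit 434) (nat_lit 416) (nat_lit 350))))) (XT.nd (nat_lit 312) (nat_lit 608) (nat_lit 0) (XT.nd (nat_lit 156) (nat_lit 608) (nat_lit 0) (XT.nd (nat_lit 78) (nat_lit 0) (nat_lit 0) (XT.lf (nat_lit 0) (nat_lit 6186733706) (nat_lit 304) (nat_lit 555496540) (nat_lit 380) (nat_lit 8115828272) (nat_lit 122) (nat_lit 5) (nat_lit 126) (nat_lit 5) (nat_lit 127)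 (nat_lit 5) (nat_lit 435) (nat_lit 416) (nat_lit 349)) (XT.lf (nat_lit 0) (nat_lit 9460469189) (nat_lit 380) (nat_lit 122924498) (nat_lit 76) (nat_lit 5683041418) (nat_lit 122) (nat_lit 5) (nat_lit 127) (nat_lit 5) (nat_lit 123) (nat_lit 5) (nat_lit 436) (nat_lit 416) (nat_lit 348))) (XT.nd (nat_lit 78) (nat_lit 304) (nat_lit 0) (XT.lf (nat_lit 0) (nat_lit 9107311171) (nat_lit 304) (nat_lit 3335032274) (nat_lit 380) (nat_lit 3246503964) (nat_lit 118) (nat_lit 5) (nat_lit 122) (nat_lit 5) (nat_lit 123) (nat_lit 5) (nat_lit 437) (nat_lit 416) (nat_lit 347)) (XT.lf (nat_lit 0) (nat_lit 2677765756) (nat_lit 304) (nat_lit 12966878699) (nat_lit 380) (nat_lit 484172127) (nat_lit 114) (nat_lit 5) (nat_lit 118) (nat_lit 5) (nat_lit 119) (nat_lit 5) (nat_lit 438) (nat_lit 416) (nat_lit 346)))) (XT.nd (nat_lit 156) (nat_lit 228) (nat_lit 0) (XT.nd (nat_lit 78) (nat_lit 304) (nat_lit 0) (XT.lf (nat_lit 0)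 (nat_lit 2484234072) (nat_lit 380) (nat_lit 4079790357) (nat_lit 76) (nat_lit 10017611497) (nat_lit 113) (nat_lit 5) (nat_lit 118) (nat_lit 5) (nat_lit 114) (nat_lit 5) (nat_lit 439) (nat_lit 416) (nat_lit 345)) (XT.lf (nat_lit 0) (nat_lit 5659566349) (nat_lit 380) (nat_lit 11143329427) (nat_lit 76) (nat_lit 250067255) (nat_lit 109) (nat_lit 5) (nat_lit 114) (nat_lit 5) (nat_lit 110) (nat_lit 5) (nat_lit 440) (nat_lit 416) (nat_lit 344))) (XT.nd (nat_lit 78) (nat_lit 228) (nat_lit 0) (XT.lf (nat_lit 0) (nat_lit 9150420330) (nat_lit 380) (nat_lit 1140992498) (nat_lit 76) (nat_lit 7248608300) (nat_lit 109) (nat_lit 5) (nat_lit 114) (nat_lit 5) (nat_lit 110) (nat_lit 5) (nat_lit 441) (nat_lit 416) (nat_lit 343)) (XT.lf (nat_lit 0) (nat_lit 9643424504) (nat_lit 228) (nat_lit 3302879324) (nat_lit 304) (nat_lit 5098606241) (nat_lit 106) (nat_lit 5) (nat_lit 109) (nat_lit 5) (nat_lit 110) (nat_lit 5)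 (nat_lit 442) (nat_lit 416) (nat_lit 342)))))) (XT.nd (nat_lit 624) (nat_lit 988) (nat_lit 0) (XT.nd (nat_lit 312) (nat_lit 684) (nat_lit 0) (XT.nd (nat_lit 156) (nat_lit 228) (nat_lit 0) (XT.nd (nat_lit 78) (nat_lit 76) (nat_lit 0) (XT.lf (nat_lit 0) (nat_lit 2419594504) (nat_lit 228) (nat_lit 14613169472) (nat_lit 304) (nat_lit 1537242527) (nat_lit 103) (nat_lit 5) (nat_lit 106) (nat_lit 5) (nat_lit 107) (nat_lit 5) (nat_lit 443) (nat_lit 416) (nat_lit 341)) (XT.lf (nat_lit 0) (nat_lit 2311036536) (nat_lit 304) (nat_lit 5159031364) (nat_lit 76) (nat_lit 11640606162) (nat_lit 102) (nat_lit 5) (nat_lit 106) (nat_lit 5) (nat_lit 103) (nat_lit 5) (nat_lit 444) (nat_lit 416) (nat_lit 340))) (XT.nd (nat_lit 78) (nat_lit 0) (nat_lit 0) (XT.lf (nat_lit 0) (nat_lit 6386111639) (nat_lit 304) (nat_lit 13135373718) (nat_lit 76) (nat_lit 151329305) (nat_lit 99) (nat_lit 5) (nat_lit 103) (nat_lit 5) (nat_lit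 100) (nat_lit 5) (nat_lit 445) (nat_lit 416) (nat_lit 339)) (XT.lf (nat_lit 0) (nat_lit 10858061315) (nat_lit 304) (nat_lit 1411138735) (nat_lit 76) (nat_lit 7984207988) (nat_lit 99) (nat_lit 5) (nat_lit 103) (nat_lit 5) (nat_lit 100) (nat_lit 5) (nat_lit 446) (nat_lit 416) (nat_lit 338)))) (XT.nd (nat_lit 156) (nat_lit 304) (nat_lit 0) (XT.nd (nat_lit 78) (nat_lit 152) (nat_lit 0) (XT.lf (nat_lit 0) (nat_lit 11233714807) (nat_lit 228) (nat_lit 4478005047) (nat_lit 304) (nat_lit 5143407359) (nat_lit 96) (nat_lit 5) (nat_lit 99) (nat_lit 5) (nat_lit 100) (nat_lit 5) (nat_lit 447) (nat_lit 416) (nat_lit 337)) (XT.lf (nat_lit 0) (nat_lit 3089282244) (nat_lit 152) (nat_lit 17832146741) (nat_lit 228) (nat_lit 559836599) (nat_lit 94) (nat_lit 5) (nat_lit 96) (nat_lit 5) (nat_lit 97) (nat_lit 5) (nat_lit 448) (nat_lit 416) (nat_lit 336))) (XT.nd (nat_lit 78) (nat_lit 228) (nat_lit 0) (XT.lf (nat_lit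 0) (nat_lit 4338996283) (nat_lit 228) (nat_lit 5529103573) (nat_lit 76) (nat_lit 12256182324) (nat_lit 93) (nat_lit 5) (nat_lit 96) (nat_lit 5) (nat_lit 94) (nat_lit 5) (nat_lit 449) (nat_lit 416) (nat_lit 335)) (XT.lf (nat_lit 0) (nat_lit 8206000856) (nat_lit 228) (nat_lit 1370054402) (nat_lit 304) (nat_lit 13217331933) (nat_lit 90) (nat_lit 5) (nat_lit 93) (nat_lit 5) (nat_lit 94) (nat_lit 5) (nat_lit 450) (nat_lit 416) (nat_lit 334))))) (XT.nd (nat_lit 312) (nat_lit 532) (nat_lit 0) (XT.nd (nat_lit 156) (nat_lit 304) (nat_lit 0) (XT.nd (nat_lit 78) (nat_lit 152) (nat_lit 0) (XT.lf (nat_lit 0) (nat_lit 15272299828) (nat_lit 304) (nat_lit 815547979) (nat_lit 76) (nat_lit 7398234346) (nat_lit 90) (nat_lit 5) (nat_lit 94) (nat_lit 5) (nat_lit 91) (nat_lit 5) (nat_lit 451) (nat_lit 416) (nat_lit 333)) (XT.lf (nat_lit 0) (nat_lit 14048594632) (nat_lit 152) (nat_lit 7431548140) (nat_lit 228) (nat_lit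 2721931052) (nat_lit 88) (nat_lit 5) (nat_lit 90) (nat_lit 5) (nat_lit 91) (nat_lit 5) (nat_lit 452) (nat_lit 416) (nat_lit 332))) (XT.nd (nat_lit 78) (nat_lit 0) (nat_lit 0) (XT.lf (nat_lit 0) (nat_lit 3049350798) (nat_lit 304) (nat_lit 20161949506) (nat_lit 76) (nat_lit 1735075186) (nat_lit 84) (nat_lit 5) (nat_lit 88) (nat_lit 5) (nat_lit 85) (nat_lit 5) (nat_lit 453) (nat_lit 416) (nat_lit 331)) (XT.lf (nat_lit 0) (nat_lit 9299636893) (nat_lit 304) (nat_lit 5090630533) (nat_lit 76) (nat_lit 11321299073) (nat_lit 84) (nat_lit 5) (nat_lit 88) (nat_lit 5) (nat_lit 85) (nat_lit 5) (nat_lit 454) (nat_lit 416) (nat_lit 330)))) (XT.nd (nat_lit 156) (nat_lit 228) (nat_lit 0) (XT.nd (nat_lit 78) (nat_lit 152) (nat_lit 0) (XT.lf (nat_lit 0) (nat_lit 11065762275) (nat_lit 152) (nat_lit 4955455171) (nat_lit 228) (nat_lit 10485861650) (nat_lit 82) (nat_lit 5) (nat_lit 84) (nat_lit 5) (nat_lit 85) (nat_lit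 5) (nat_lit 455) (nat_lit 416) (nat_lit 329)) (XT.lf (nat_lit 0) (nat_lit 792453073) (nat_lit 152) (nat_lit 22449918232) (nat_lit 228) (nat_lit 4091822297) (nat_lit 80) (nat_lit 5) (nat_lit 82) (nat_lit 5) (nat_lit 83) (nat_lit 5) (nat_lit 456) (nat_lit 416) (nat_lit 328))) (XT.nd (nat_lit 78) (nat_lit 152) (nat_lit 0) (XT.lf (nat_lit 0) (nat_lit 2871311272) (nat_lit 228) (nat_lit 9964984636) (nat_lit 76) (nat_lit 15347656551) (nat_lit 79) (nat_lit 5) (nat_lit 82) (nat_lit 5) (nat_lit 80) (nat_lit 5) (nat_lit 457) (nat_lit 416) (nat_lit 327)) (XT.lf (nat_lit 0) (nat_lit 7594766365) (nat_lit 152) (nat_lit 2555831924) (nat_lit 228) (nat_lit 18916972434) (nat_lit 77) (nat_lit 5) (nat_lit 79) (nat_lit 5) (nat_lit 80) (nat_lit 5) (nat_lit 458) (nat_lit 416) (nat_lit 326))))))))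
noncomputable def xc131 : XT := (XT.nd (nat_lit 2418) (nat_lit 1748) (nat_lit 0) (XT.nd (nat_lit 1170) (nat_lit 1140) (nat_lit 0) (XT.nd (nat_lit 546) (nat_lit 760) (nat_lit 0) (XT.nd (nat_lit 234) (nat_lit 304) (nat_lit 0) (XT.nd (nat_lit 78) (nat_lit 380) (nat_lit 0) (XT.lf (nat_lit 0) (nat_lit 18081090502) (nat_lit 228) (nat_lit 3761855299) (nat_lit 76) (nat_lit 8138062875) (nat_lit 77) (nat_lit 5) (nat_lit 80) (nat_lit 5) (nat_lit 78) (nat_lit 5) (nat_lit 459) (nat_lit 416) (nat_lit 325)) (XT.nd (nat_lit 78) (nat_lit 228) (nat_lit 0) (XT.lf (nat_lit 0) (nat_lit 15260216870) (nat_lit 152) (nat_lit 11415743066) (nat_lit 228) (nat_lit 4250766740) (nat_lit 75) (nat_lit 5) (nat_lit 77) (nat_lit 5) (nat_lit 78) (nat_lit 5) (nat_lit 460) (nat_lit 416) (nat_lit 324)) (XT.lf (nat_lit 0) (nat_lit 3477668713) (nat_lit 152) (nat_lit 288977303) (nat_lit 228) (nat_lit 28144793073) (nat_lit 72) (nat_lit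 5) (nat_lit 74) (nat_lit 5) (nat_lit 75) (nat_lit 5) (nat_lit 461) (nat_lit 416) (nat_lit 323)))) (XT.nd (nat_lit 156) (nat_lit 152) (nat_lit 0) (XT.nd (nat_lit 78) (nat_lit 152) (nat_lit 0) (XT.lf (nat_lit 0) (nat_lit 12477528337) (nat_lit 228) (nat_lit 9082227308) (nat_lit 76) (nat_lit 11360375287) (nat_lit 72) (nat_lit 5) (nat_lit 75) (nat_lit 5) (nat_lit 73) (nat_lit 5) (nat_lit 462) (nat_lit 416) (nat_lit 322)) (XT.lf (nat_lit 0) (nat_lit 11582742605) (nat_lit 152) (nat_lit 10215254173) (nat_lit 228) (nat_lit 12172559131) (nat_lit 70) (nat_lit 5) (nat_lit 72) (nat_lit 5) (nat_lit 73) (nat_lit 5) (nat_lit 463) (nat_lit 416) (nat_lit 321))) (XT.nd (nat_lit 78) (nat_lit 152) (nat_lit 0) (XT.lf (nat_lit 0) (nat_lit 31755881418) (nat_lit 228) (nat_lit 1518785046) (nat_lit 76) (nat_lit 1790266641) (nat_lit 70) (nat_lit 5) (nat_lit 73) (nat_lit 5) (nat_lit 71) (nat_lit 4) (nat_lit 464) (nat_lit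 416) (nat_lit 320)) (XT.lf (nat_lit 0) (nat_lit 6296077355) (nat_lit 152) (nat_lit 15416366738) (nat_lit 76) (nat_lit 14472383238) (nat_lit 68) (nat_lit 5) (nat_lit 70) (nat_lit 5) (nat_lit 69) (nat_lit 5) (nat_lit 465) (nat_lit 416) (nat_lit 319))))) (XT.nd (nat_lit 312) (nat_lit 304) (nat_lit 0) (XT.nd (nat_lit 156) (nat_lit 304) (nat_lit 0) (XT.nd (nat_lit 78) (nat_lit 0) (nat_lit 0) (XT.lf (nat_lit 0) (nat_lit 7013861241) (nat_lit 152) (nat_lit 9381208478) (nat_lit 228) (nat_lit 20956694102) (nat_lit 66) (nat_lit 5) (nat_lit 68) (nat_lit 5) (nat_lit 69) (nat_lit 5) (nat_lit 466) (nat_lit 416) (nat_lit 318)) (XT.lf (nat_lit 0) (nat_lit 27309311577) (nat_lit 228) (nat_lit 7542548802) (nat_lit 76) (nat_lit 3709672266) (nat_lit 66) (nat_lit 5) (nat_lit 69) (nat_lit 5) (nat_lit 67) (nat_lit 4) (nat_lit 467) (nat_lit 416) (nat_lit 317))) (XT.nd (nat_lit 78) (nat_lit 228) (nat_lit 0) (XT.lf (nat_lit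 0) (nat_lit 16756609562) (nat_lit 76) (nat_lit 22417827462) (nat_lit 152) (nat_lit 637094789) (nat_lit 65) (nat_lit 5) (nat_lit 66) (nat_lit 5) (nat_lit 67) (nat_lit 4) (nat_lit 468) (nat_lit 416) (nat_lit 316)) (XT.lf (nat_lit 0) (nat_lit 1270925518) (nat_lit 152) (nat_lit 9040990997) (nat_lit 228) (nat_lit 30796937498) (nat_lit 62) (nat_lit 5) (nat_lit 64) (nat_lit 5) (nat_lit 65) (nat_lit 5) (nat_lit 469) (nat_lit 416) (nat_lit 315)))) (XT.nd (nat_lit 156) (nat_lit 228) (nat_lit 0) (XT.nd (nat_lit 78) (nat_lit 76) (nat_lit 0) (XT.lf (nat_lit 0) (nat_lit 22251826592) (nat_lit 228) (nat_lit 14951622871) (nat_lit 76) (nat_lit 5243828128) (nat_lit 62) (nat_lit 5) (nat_lit 65) (nat_lit 5) (nat_lit 63) (nat_lit 4) (nat_lit 470) (nat_lit 416) (nat_lit 314)) (XT.lf (nat_lit 0) (nat_lit 11377211411) (nat_lit 76) (nat_lit 23727720596) (nat_lit 152) (nat_lit 8731880741) (nat_lit 61) (nat_lit 5) (nat_lit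 62) (nat_lit 5) (nat_lit 63) (nat_lit 4) (nat_lit 471) (nat_lit 416) (nat_lit 313))) (XT.nd (nat_lit 78) (nat_lit 152) (nat_lit 0) (XT.lf (nat_lit 0) (nat_lit 3446844022) (nat_lit 152) (nat_lit 5815087207) (nat_lit 76) (nat_lit 36018926260) (nat_lit 60) (nat_lit 5) (nat_lit 62) (nat_lit 5) (nat_lit 61) (nat_lit 5) (nat_lit 472) (nat_lit 416) (nat_lit 312)) (XT.lf (nat_lit 0) (nat_lit 16387349768) (nat_lit 228) (nat_lit 24144167813) (nat_lit 76) (nat_lit 6236115285) (nat_lit 58) (nat_lit 5) (nat_lit 61) (nat_lit 5) (nat_lit 59) (nat_lit 4) (nat_lit 473) (nat_lit 416) (nat_lit 311)))))) (XT.nd (nat_lit 624) (nat_lit 532) (nat_lit 0) (XT.nd (nat_lit 312) (nat_lit 304) (nat_lit 0) (XT.nd (nat_lit 156) (nat_lit 228) (nat_lit 0) (XT.nd (nat_lit 78) (nat_lit 0) (nat_lit 0) (XT.lf (nat_lit 0) (nat_lit 4330192633) (nat_lit 76) (nat_lit 25955128195) (nat_lit 152) (nat_lit 18027904506) (nat_lit 57) (nat_lit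 5) (nat_lit 58) (nat_lit 5) (nat_lit 59) (nat_lit 4) (nat_lit 474) (nat_lit 416) (nat_lit 310)) (XT.lf (nat_lit 0) (nat_lit 35049815771) (nat_lit 76) (nat_lit 10228343395) (nat_lit 152) (nat_lit 4637940132) (nat_lit 57) (nat_lit 5) (nat_lit 58) (nat_lit 5) (nat_lit 59) (nat_lit 4) (nat_lit 475) (nat_lit 416) (nat_lit 309))) (XT.nd (nat_lit 78) (nat_lit 0) (nat_lit 0) (XT.lf (nat_lit 0) (nat_lit 9466556328) (nat_lit 228) (nat_lit 35627234359) (nat_lit 76) (nat_lit 6480642664) (nat_lit 54) (nat_lit 5) (nat_lit 57) (nat_lit 5) (nat_lit 55) (nat_lit 4) (nat_lit 476) (nat_lit 416) (nat_lit 308)) (XT.lf (nat_lit 0) (nat_lit 24535392842) (nat_lit 228) (nat_lit 4749677829) (nat_lit 76) (nat_lit 24006063089) (nat_lit 54) (nat_lit 5) (nat_lit 57) (nat_lit 5) (nat_lit 55) (nat_lit 4) (nat_lit 477) (nat_lit 416) (nat_lit 307)))) (XT.nd (nat_lit 156) (nat_lit 76) (nat_lit 0) (XT.nd (nat_lit 78) (nat_lit 152)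 (nat_lit 0) (XT.lf (nat_lit 0) (nat_lit 28570746815) (nat_lit 76) (nat_lit 12224810580) (nat_lit 152) (nat_lit 14276217737) (nat_lit 53) (nat_lit 5) (nat_lit 54) (nat_lit 5) (nat_lit 55) (nat_lit 4) (nat_lit 478) (nat_lit 416) (nat_lit 306)) (XT.lf (nat_lit 0) (nat_lit 1172184481) (nat_lit 152) (nat_lit 50046968142) (nat_lit 76) (nat_lit 5707843224) (nat_lit 51) (nat_lit 5) (nat_lit 53) (nat_lit 5) (nat_lit 52) (nat_lit 4) (nat_lit 479) (nat_lit 416) (nat_lit 305))) (XT.nd (nat_lit 78) (nat_lit 76) (nat_lit 0) (XT.lf (nat_lit 0) (nat_lit 17561679901) (nat_lit 152) (nat_lit 16459656997) (nat_lit 76) (nat_lit 24809516718) (nat_lit 51) (nat_lit 5) (nat_lit 53) (nat_lit 5) (nat_lit 52) (nat_lit 4) (nat_lit 480) (nat_lit 416) (nat_lit 304)) (XT.lf (nat_lit 0) (nat_lit 19413603309) (nat_lit 76) (nat_lit 15652410059) (nat_lit 152) (nat_lit 25749122951) (nat_lit 50) (nat_lit 5) (nat_lit 51) (nat_lit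 5) (nat_lit 52) (nat_lit 4) (nat_lit 481) (nat_lit 416) (nat_lit 303))))) (XT.nd (nat_lit 312) (nat_lit 304) (nat_lit 0) (XT.nd (nat_lit 156) (nat_lit 76) (nat_lit 0) (XT.nd (nat_lit 78) (nat_lit 152) (nat_lit 0) (XT.lf (nat_lit 0) (nat_lit 53777933150) (nat_lit 152) (nat_lit 5308854792) (nat_lit 0) (nat_lit 3795226933) (nat_lit 50) (nat_lit 5) (nat_lit 52) (nat_lit 4) (nat_lit 50) (nat_lit 4) (nat_lit 482) (nat_lit 416) (nat_lit 302)) (XT.lf (nat_lit 0) (nat_lit 8888361339) (nat_lit 152) (nat_lit 31770742279) (nat_lit 76) (nat_lit 24347440213) (nat_lit 48) (nat_lit 5) (nat_lit 50) (nat_lit 5) (nat_lit 49) (nat_lit 4) (nat_lit 483) (nat_lit 416) (nat_lit 301))) (XT.nd (nat_lit 78) (nat_lit 0) (nat_lit 0) (XT.lf (nat_lit 0) (nat_lit 6709093965) (nat_lit 76) (nat_lit 20954182525) (nat_lit 152) (nat_lit 39557120216) (nat_lit 47) (nat_lit 5) (nat_lit 48) (nat_lit 5) (nat_lit 49) (nat_lit 4) (nat_lit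 484) (nat_lit 416) (nat_lit 300)) (XT.lf (nat_lit 0) (nat_lit 47912393213) (nat_lit 152) (nat_lit 21320951244) (nat_lit 0) (nat_lit 284825140) (nat_lit 47) (nat_lit 5) (nat_lit 49) (nat_lit 4) (nat_lit 47) (nat_lit 4) (nat_lit 485) (nat_lit 416) (nat_lit 299)))) (XT.nd (nat_lit 156) (nat_lit 152) (nat_lit 0) (XT.nd (nat_lit 78) (nat_lit 76) (nat_lit 0) (XT.lf (nat_lit 0) (nat_lit 20115766703) (nat_lit 76) (nat_lit 49708825558) (nat_lit 76) (nat_lit 2073707703) (nat_lit 46) (nat_lit 4) (nat_lit 47) (nat_lit 5) (nat_lit 47) (nat_lit 4) (nat_lit 486) (nat_lit 416) (nat_lit 298)) (XT.lf (nat_lit 0) (nat_lit 18204994148) (nat_lit 152) (nat_lit 10322070118) (nat_lit 76) (nat_lit 45837978465) (nat_lit 45) (nat_lit 5) (nat_lit 47) (nat_lit 5) (nat_lit 46) (nat_lit 4) (nat_lit 487) (nat_lit 416) (nat_lit 297))) (XT.nd (nat_lit 78) (nat_lit 76) (nat_lit 0) (XT.lf (nat_lit 0) (nat_lit 34261151481) (nat_lit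 76) (nat_lit 5695096069) (nat_lit 152) (nat_lit 36970760130) (nat_lit 44) (nat_lit 5) (nat_lit 45) (nat_lit 5) (nat_lit 46) (nat_lit 4) (nat_lit 488) (nat_lit 416) (nat_lit 296)) (XT.lf (nat_lit 0) (nat_lit 1572796313) (nat_lit 76) (nat_lit 61703291634) (nat_lit 76) (nat_lit 16316931839) (nat_lit 43) (nat_lit 4) (nat_lit 44) (nat_lit 5) (nat_lit 44) (nat_lit 4) (nat_lit 489) (nat_lit 416) (nat_lit 295))))))) (XT.nd (nat_lit 1170) (nat_lit 836) (nat_lit 0) (XT.nd (nat_lit 546) (nat_lit 532) (nat_lit 0) (XT.nd (nat_lit 234) (nat_lit 228) (nat_lit 0) (XT.nd (nat_lit 78) (nat_lit 76) (nat_lit 0) (XT.lf (nat_lit 0) (nat_lit 6018927287) (nat_lit 152) (nat_lit 33053474307) (nat_lit 76) (nat_lit 43274679318) (nat_lit 42) (nat_lit 5) (nat_lit 44) (nat_lit 5) (nat_lit 43) (nat_lit 4) (nat_lit 490) (nat_lit 416) (nat_lit 294)) (XT.nd (nat_lit 78) (nat_lit 0) (nat_lit 0) (XT.lf (nat_lit 0) (nat_lit 14340859765)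 (nat_lit 76) (nat_lit 14800003051) (nat_lit 152) (nat_lit 56073725885) (nat_lit 41) (nat_lit 5) (nat_lit 42) (nat_lit 5) (nat_lit 43) (nat_lit 4) (nat_lit 491) (nat_lit 416) (nat_lit 293)) (XT.lf (nat_lit 0) (nat_lit 54148442962) (nat_lit 152) (nat_lit 23133322479) (nat_lit 0) (nat_lit 10907229153) (nat_lit 41) (nat_lit 5) (nat_lit 43) (nat_lit 4) (nat_lit 41) (nat_lit 4) (nat_lit 492) (nat_lit 416) (nat_lit 292)))) (XT.nd (nat_lit 156) (nat_lit 76) (nat_lit 0) (XT.nd (nat_lit 78) (nat_lit 76) (nat_lit 0) (XT.lf (nat_lit 0) (nat_lit 27623927449) (nat_lit 76) (nat_lit 53450437870) (nat_lit 76) (nat_lit 10204357404) (nat_lit 40) (nat_lit 4) (nat_lit 41) (nat_lit 5) (nat_lit 41) (nat_lit 4) (nat_lit 493) (nat_lit 416) (nat_lit 291)) (XT.lf (nat_lit 0) (nat_lit 14741454780) (nat_lit 152) (nat_lit 13030733078) (nat_lit 76) (nat_lit 66719564681) (nat_lit 39) (nat_lit 5) (nat_lit 41) (nat_lit 5) (nat_lit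 40) (nat_lit 4) (nat_lit 494) (nat_lit 416) (nat_lit 290))) (XT.nd (nat_lit 78) (nat_lit 0) (nat_lit 0) (XT.lf (nat_lit 0) (nat_lit 41230832157) (nat_lit 152) (nat_lit 56558806499) (nat_lit 0) (nat_lit 35470653) (nat_lit 38) (nat_lit 5) (nat_lit 40) (nat_lit 4) (nat_lit 38) (nat_lit 4) (nat_lit 495) (nat_lit 416) (nat_lit 289)) (XT.lf (nat_lit 0) (nat_lit 69718617251) (nat_lit 152) (nat_lit 3053567871) (nat_lit 0) (nat_lit 28519251937) (nat_lit 38) (nat_lit 5) (nat_lit 40) (nat_lit 4) (nat_lit 38) (nat_lit 4) (nat_lit 496) (nat_lit 416) (nat_lit 288))))) (XT.nd (nat_lit 312) (nat_lit 228) (nat_lit 0) (XT.nd (nat_lit 156) (nat_lit 76) (nat_lit 0) (XT.nd (nat_lit 78) (nat_lit 152) (nat_lit 0) (XT.lf (nat_lit 0) (nat_lit 54872572296) (nat_lit 76) (nat_lit 45609560201) (nat_lit 76) (nat_lit 4406381733) (nat_lit 37) (nat_lit 4) (nat_lit 38) (nat_lit 5) (nat_lit 38) (nat_lit 4) (nat_lit 497) (nat_lit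 416) (nat_lit 287)) (XT.lf (nat_lit 0) (nat_lit 6973328118) (nat_lit 76) (nat_lit 16529178300) (nat_lit 152) (nat_lit 85136307793) (nat_lit 35) (nat_lit 5) (nat_lit 36) (nat_lit 5) (nat_lit 37) (nat_lit 4) (nat_lit 498) (nat_lit 416) (nat_lit 286))) (XT.nd (nat_lit 78) (nat_lit 76) (nat_lit 0) (XT.lf (nat_lit 0) (nat_lit 53732990222) (nat_lit 152) (nat_lit 44301200237) (nat_lit 0) (nat_lit 14485115285) (nat_lit 35) (nat_lit 5) (nat_lit 37) (nat_lit 4) (nat_lit 35) (nat_lit 4) (nat_lit 499) (nat_lit 416) (nat_lit 285)) (XT.lf (nat_lit 0) (nat_lit 16167659683) (nat_lit 76) (nat_lit 69825629849) (nat_lit 76) (nat_lit 30574617821) (nat_lit 34) (nat_lit 4) (nat_lit 35) (nat_lit 5) (nat_lit 35) (nat_lit 4) (nat_lit 500) (nat_lit 416) (nat_lit 284)))) (XT.nd (nat_lit 156) (nat_lit 76) (nat_lit 0) (XT.nd (nat_lit 78) (nat_lit 152) (nat_lit 0) (XT.lf (nat_lit 0) (nat_lit 81188027553) (nat_lit 76) (nat_lit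 39423824437) (nat_lit 76) (nat_lit 169824704) (nat_lit 34) (nat_lit 4) (nat_lit 35) (nat_lit 5) (nat_lit 35) (nat_lit 4) (nat_lit 501) (nat_lit 416) (nat_lit 283)) (XT.lf (nat_lit 0) (nat_lit 24533043799) (nat_lit 76) (nat_lit 6583975208) (nat_lit 152) (nat_lit 94045417366) (nat_lit 32) (nat_lit 5) (nat_lit 33) (nat_lit 5) (nat_lit 34) (nat_lit 4) (nat_lit 502) (nat_lit 416) (nat_lit 282))) (XT.nd (nat_lit 78) (nat_lit 76) (nat_lit 0) (XT.lf (nat_lit 0) (nat_lit 65074746823) (nat_lit 152) (nat_lit 36947041264) (nat_lit 0) (nat_lit 27684694344) (nat_lit 32) (nat_lit 5) (nat_lit 34) (nat_lit 4) (nat_lit 32) (nat_lit 4) (nat_lit 503) (nat_lit 416) (nat_lit 281)) (XT.lf (nat_lit 0) (nat_lit 30787684849) (nat_lit 76) (nat_lit 70526678183) (nat_lit 76) (nat_lit 33134167712) (nat_lit 31) (nat_lit 4) (nat_lit 32) (nat_lit 5) (nat_lit 32) (nat_lit 4) (nat_lit 504) (nat_lit 416) (nat_lit 280)))))) (XT.nd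 (nat_lit 624) (nat_lit 380) (nat_lit 0) (XT.nd (nat_lit 312) (nat_lit 228) (nat_lit 0) (XT.nd (nat_lit 156) (nat_lit 76) (nat_lit 0) (XT.nd (nat_lit 78) (nat_lit 76) (nat_lit 0) (XT.lf (nat_lit 0) (nat_lit 571617536) (nat_lit 152) (nat_lit 36223035466) (nat_lit 76) (nat_lit 102601508522) (nat_lit 30) (nat_lit 5) (nat_lit 32) (nat_lit 5) (nat_lit 31) (nat_lit 4) (nat_lit 505) (nat_lit 416) (nat_lit 279)) (XT.lf (nat_lit 0) (nat_lit 35160051331) (nat_lit 76) (nat_lit 233671702) (nat_lit 152) (nat_lit 109143063887) (nat_lit 29) (nat_lit 5) (nat_lit 30) (nat_lit 5) (nat_lit 31) (nat_lit 4) (nat_lit 506) (nat_lit 416) (nat_lit 278))) (XT.nd (nat_lit 78) (nat_lit 76) (nat_lit 0) (XT.lf (nat_lit 0) (nat_lit 73171773474) (nat_lit 152) (nat_lit 39148444406) (nat_lit 0) (nat_lit 37553483765) (nat_lit 29) (nat_lit 5) (nat_lit 31) (nat_lit 4) (nat_lit 29) (nat_lit 4) (nat_lit 507) (nat_lit 416) (nat_lit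 277)) (XT.lf (nat_lit 0) (nat_lit 35722409609) (nat_lit 76) (nat_lit 77673699505) (nat_lit 76) (nat_lit 42053483895) (nat_lit 28) (nat_lit 4) (nat_lit 29) (nat_lit 5) (nat_lit 29) (nat_lit 4) (nat_lit 508) (nat_lit 416) (nat_lit 276)))) (XT.nd (nat_lit 156) (nat_lit 76) (nat_lit 0) (XT.nd (nat_lit 78) (nat_lit 152) (nat_lit 0) (XT.lf (nat_lit 0) (nat_lit 115687725532) (nat_lit 76) (nat_lit 40602829294) (nat_lit 76) (nat_lit 4980779491) (nat_lit 28) (nat_lit 4) (nat_lit 29) (nat_lit 5) (nat_lit 29) (nat_lit 4) (nat_lit 509) (nat_lit 416) (nat_lit 275)) (XT.lf (nat_lit 0) (nat_lit 32778303595) (nat_lit 76) (nat_lit 588574573) (nat_lit 152) (nat_lit 133965395891) (nat_lit 26) (nat_lit 5) (nat_lit 27) (nat_lit 5) (nat_lit 28) (nat_lit 4) (nat_lit 510) (nat_lit 416) (nat_lit 274))) (XT.nd (nat_lit 78) (nat_lit 76) (nat_lit 0) (XT.lf (nat_lit 0) (nat_lit 74891982074) (nat_lit 152) (nat_lit 57765851384)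 (nat_lit 0) (nat_lit 40962972248) (nat_lit 26) (nat_lit 5) (nat_lit 28) (nat_lit 4) (nat_lit 26) (nat_lit 4) (nat_lit 511) (nat_lit 416) (nat_lit 273)) (XT.lf (nat_lit 0) (nat_lit 23599773057) (nat_lit 76) (nat_lit 95267896651) (nat_lit 76) (nat_lit 61337377830) (nat_lit 25) (nat_lit 4) (nat_lit 26) (nat_lit 5) (nat_lit 26) (nat_lit 4) (nat_lit 512) (nat_lit 416) (nat_lit 272))))) (XT.nd (nat_lit 312) (nat_lit 228) (nat_lit 0) (XT.nd (nat_lit 156) (nat_lit 0) (nat_lit 0) (XT.nd (nat_lit 78) (nat_lit 152) (nat_lit 0) (XT.lf (nat_lit 0) (nat_lit 111031709142) (nat_lit 76) (nat_lit 54985009725) (nat_lit 76) (nat_lit 21053053768) (nat_lit 25) (nat_lit 4) (nat_lit 26) (nat_lit 5) (nat_lit 26) (nat_lit 4) (nat_lit 513) (nat_lit 416) (nat_lit 271)) (XT.lf (nat_lit 0) (nat_lit 8490316864) (nat_lit 76) (nat_lit 12204142415) (nat_lit 152) (nat_lit 173560241604) (nat_lit 23) (nat_lit 5) (nat_lit 24) (nat_lit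 5) (nat_lit 25) (nat_lit 4) (nat_lit 514) (nat_lit 416) (nat_lit 270))) (XT.nd (nat_lit 78) (nat_lit 0) (nat_lit 0) (XT.lf (nat_lit 0) (nat_lit 65637871729) (nat_lit 152) (nat_lit 102733766799) (nat_lit 0) (nat_lit 33319178219) (nat_lit 23) (nat_lit 5) (nat_lit 25) (nat_lit 4) (nat_lit 23) (nat_lit 4) (nat_lit 515) (nat_lit 416) (nat_lit 269)) (XT.lf (nat_lit 0) (nat_lit 113025101440) (nat_lit 152) (nat_lit 15758579062) (nat_lit 0) (nat_lit 80705225594) (nat_lit 23) (nat_lit 5) (nat_lit 25) (nat_lit 4) (nat_lit 23) (nat_lit 4) (nat_lit 516) (nat_lit 416) (nat_lit 268)))) (XT.nd (nat_lit 156) (nat_lit 152) (nat_lit 0) (XT.nd (nat_lit 78) (nat_lit 0) (nat_lit 0) (XT.lf (nat_lit 0) (nat_lit 78057119122) (nat_lit 76) (nat_lit 85940005547) (nat_lit 76) (nat_lit 53619003666) (nat_lit 22) (nat_lit 4) (nat_lit 23) (nat_lit 5) (nat_lit 23) (nat_lit 4) (nat_lit 517) (nat_lit 416) (nat_lit 267)) (XT.lf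 (nat_lit 0) (nat_lit 177104246147) (nat_lit 76) (nat_lit 40677178050) (nat_lit 76) (nat_lit 8355103754) (nat_lit 22) (nat_lit 4) (nat_lit 23) (nat_lit 5) (nat_lit 23) (nat_lit 4) (nat_lit 518) (nat_lit 416) (nat_lit 266))) (XT.nd (nat_lit 78) (nat_lit 0) (nat_lit 0) (XT.lf (nat_lit 0) (nat_lit 38776357448) (nat_lit 152) (nat_lit 188240648323) (nat_lit 0) (nat_lit 7992456836) (nat_lit 20) (nat_lit 5) (nat_lit 22) (nat_lit 4) (nat_lit 20) (nat_lit 4) (nat_lit 519) (nat_lit 416) (nat_lit 265)) (XT.lf (nat_lit 0) (nat_lit 89491344409) (nat_lit 152) (nat_lit 96045946806) (nat_lit 0) (nat_lit 58706517406) (nat_lit 20) (nat_lit 5) (nat_lit 22) (nat_lit 4) (nat_lit 20) (nat_lit 4) (nat_lit 520) (nat_lit 416) (nat_lit 264))))))))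
noncomputable def xc132 : XT := (XT.nd (nat_lit 54444) (nat_lit 0) (nat_lit 6764) (XT.nd (nat_lit 1170) (nat_lit 456) (nat_lit 0) (XT.nd (nat_lit 546) (nat_lit 228) (nat_lit 0) (XT.nd (nat_lit 234) (nat_lit 228) (nat_lit 0) (XT.nd (nat_lit 78) (nat_lit 0) (nat_lit 0) (XT.lf (nat_lit 0) (nat_lit 777413207) (nat_lit 76) (nat_lit 141973854343) (nat_lit 76) (nat_lit 111188145063) (nat_lit 19) (nat_lit 4) (nat_lit 20) (nat_lit 5) (nat_lit 20) (nat_lit 4) (nat_lit 521) (nat_lit 416) (nat_lit 263)) (XT.nd (nat_lit 78) (nat_lit 0) (nat_lit 0) (XT.lf (nat_lit 0) (nat_lit 105770577066) (nat_lit 76) (nat_lit 94527292580) (nat_lit 76) (nat_lit 63740743035) (nat_lit 19) (nat_lit 4) (nat_lit 20) (nat_lit 5) (nat_lit 20) (nat_lit 4) (nat_lit 522) (nat_lit 416) (nat_lit 262)) (XT.lf (nat_lit 0) (nat_lit 216007815737) (nat_lit 76) (nat_lit 44711222504) (nat_lit 76) (nat_lit 13923872707) (nat_lit 19) (nat_lit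 4) (nat_lit 20) (nat_lit 5) (nat_lit 20) (nat_lit 4) (nat_lit 523) (nat_lit 416) (nat_lit 261)))) (XT.nd (nat_lit 156) (nat_lit 76) (nat_lit 0) (XT.nd (nat_lit 78) (nat_lit 0) (nat_lit 0) (XT.lf (nat_lit 0) (nat_lit 38024863649) (nat_lit 152) (nat_lit 238976266997) (nat_lit 0) (nat_lit 8702852276) (nat_lit 17) (nat_lit 5) (nat_lit 19) (nat_lit 4) (nat_lit 17) (nat_lit 4) (nat_lit 524) (nat_lit 416) (nat_lit 260)) (XT.lf (nat_lit 0) (nat_lit 93842694094) (nat_lit 152) (nat_lit 138857030435) (nat_lit 0) (nat_lit 64519991434) (nat_lit 17) (nat_lit 5) (nat_lit 19) (nat_lit 4) (nat_lit 17) (nat_lit 4) (nat_lit 525) (nat_lit 416) (nat_lit 259))) (XT.nd (nat_lit 78) (nat_lit 76) (nat_lit 0) (XT.lf (nat_lit 0) (nat_lit 152448870550) (nat_lit 152) (nat_lit 33736982873) (nat_lit 0) (nat_lit 123125509521) (nat_lit 17) (nat_lit 5) (nat_lit 19) (nat_lit 4) (nat_lit 17) (nat_lit 4) (nat_lit 526) (nat_lit 416)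 (nat_lit 258)) (XT.lf (nat_lit 0) (nat_lit 79168032984) (nat_lit 76) (nat_lit 136050933412) (nat_lit 76) (nat_lit 106726945364) (nat_lit 16) (nat_lit 4) (nat_lit 17) (nat_lit 5) (nat_lit 17) (nat_lit 4) (nat_lit 527) (nat_lit 416) (nat_lit 257))))) (XT.nd (nat_lit 312) (nat_lit 76) (nat_lit 0) (XT.nd (nat_lit 156) (nat_lit 76) (nat_lit 0) (XT.nd (nat_lit 78) (nat_lit 76) (nat_lit 0) (XT.lf (nat_lit 0) (nat_lit 198884745072) (nat_lit 76) (nat_lit 82811789884) (nat_lit 76) (nat_lit 53487204676) (nat_lit 16) (nat_lit 4) (nat_lit 17) (nat_lit 5) (nat_lit 17) (nat_lit 4) (nat_lit 528) (nat_lit 416) (nat_lit 256)) (XT.lf (nat_lit 0) (nat_lit 2334935319) (nat_lit 152) (nat_lit 24538536526) (nat_lit 76) (nat_lit 322208217587) (nat_lit 15) (nat_lit 5) (nat_lit 17) (nat_lit 5) (nat_lit 16) (nat_lit 4) (nat_lit 529) (nat_lit 416) (nat_lit 255))) (XT.nd (nat_lit 78) (nat_lit 0) (nat_lit 0) (XT.lf (nat_lit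 0) (nat_lit 61167281268) (nat_lit 152) (nat_lit 269124535117) (nat_lit 0) (nat_lit 33238047388) (nat_lit 14) (nat_lit 5) (nat_lit 16) (nat_lit 4) (nat_lit 14) (nat_lit 4) (nat_lit 530) (nat_lit 416) (nat_lit 254)) (XT.lf (nat_lit 0) (nat_lit 123801981561) (nat_lit 152) (nat_lit 158983172031) (nat_lit 0) (nat_lit 95872256396) (nat_lit 14) (nat_lit 5) (nat_lit 16) (nat_lit 4) (nat_lit 14) (nat_lit 4) (nat_lit 531) (nat_lit 416) (nat_lit 253)))) (XT.nd (nat_lit 156) (nat_lit 0) (nat_lit 0) (XT.nd (nat_lit 78) (nat_lit 76) (nat_lit 0) (XT.lf (nat_lit 0) (nat_lit 189566325139) (nat_lit 152) (nat_lit 43338980888) (nat_lit 0) (nat_lit 161636132083) (nat_lit 14) (nat_lit 5) (nat_lit 16) (nat_lit 4) (nat_lit 14) (nat_lit 4) (nat_lit 532) (nat_lit 416) (nat_lit 252)) (XT.lf (nat_lit 0) (nat_lit 80665170854) (nat_lit 76) (nat_lit 179211132298) (nat_lit 76) (nat_lit 151280493632) (nat_lit 13) (nat_lit 4)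 (nat_lit 14) (nat_lit 5) (nat_lit 14) (nat_lit 4) (nat_lit 533) (nat_lit 416) (nat_lit 251))) (XT.nd (nat_lit 78) (nat_lit 0) (nat_lit 0) (XT.lf (nat_lit 0) (nat_lit 212370188683) (nat_lit 76) (nat_lit 122063598705) (nat_lit 76) (nat_lit 94132535648) (nat_lit 13) (nat_lit 4) (nat_lit 14) (nat_lit 5) (nat_lit 14) (nat_lit 4) (nat_lit 534) (nat_lit 416) (nat_lit 250)) (XT.lf (nat_lit 0) (nat_lit 350656673540) (nat_lit 76) (nat_lit 62060606303) (nat_lit 76) (nat_lit 34129139065) (nat_lit 13) (nat_lit 4) (nat_lit 14) (nat_lit 5) (nat_lit 14) (nat_lit 4) (nat_lit 535) (nat_lit 416) (nat_lit 249)))))) (XT.nd (nat_lit 624) (nat_lit 228) (nat_lit 0) (XT.nd (nat_lit 312) (nat_lit 76) (nat_lit 0) (XT.nd (nat_lit 156) (nat_lit 0) (nat_lit 0) (XT.nd (nat_lit 78) (nat_lit 0) (nat_lit 0) (XT.lf (nat_lit 0) (nat_lit 28451888318) (nat_lit 152) (nat_lit 435690885235) (nat_lit 0) (nat_lit 1850124343) (nat_lit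 11) (nat_lit 5) (nat_lit 13) (nat_lit 4) (nat_lit 11) (nat_lit 4) (nat_lit 536) (nat_lit 416) (nat_lit 248)) (XT.lf (nat_lit 0) (nat_lit 95686311240) (nat_lit 152) (nat_lit 321164651424) (nat_lit 0) (nat_lit 69084198119) (nat_lit 11) (nat_lit 5) (nat_lit 13) (nat_lit 4) (nat_lit 11) (nat_lit 4) (nat_lit 537) (nat_lit 416) (nat_lit 247))) (XT.nd (nat_lit 78) (nat_lit 0) (nat_lit 0) (XT.lf (nat_lit 0) (nat_lit 166280736192) (nat_lit 152) (nat_lit 200915596038) (nat_lit 0) (nat_lit 139678290550) (nat_lit 11) (nat_lit 5) (nat_lit 13) (nat_lit 4) (nat_lit 11) (nat_lit 4) (nat_lit 538) (nat_lit 416) (nat_lit 246)) (XT.lf (nat_lit 0) (nat_lit 240403245136) (nat_lit 152) (nat_lit 74657411800) (nat_lit 0) (nat_lit 213800482807) (nat_lit 11) (nat_lit 5) (nat_lit 13) (nat_lit 4) (nat_lit 11) (nat_lit 4) (nat_lit 539) (nat_lit 416) (nat_lit 245)))) (XT.nd (nat_lit 156) (nat_lit 0) (nat_lit 0) (XT.nd (nat_lit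 78) (nat_lit 0) (nat_lit 0) (XT.lf (nat_lit 0) (nat_lit 59825299203) (nat_lit 76) (nat_lit 259339061616) (nat_lit 76) (nat_lit 232735997680) (nat_lit 10) (nat_lit 4) (nat_lit 11) (nat_lit 5) (nat_lit 11) (nat_lit 4) (nat_lit 540) (nat_lit 416) (nat_lit 244)) (XT.lf (nat_lit 0) (nat_lit 203620967935) (nat_lit 76) (nat_lit 199505390077) (nat_lit 76) (nat_lit 172902038897) (nat_lit 10) (nat_lit 4) (nat_lit 11) (nat_lit 5) (nat_lit 11) (nat_lit 4) (nat_lit 541) (nat_lit 416) (nat_lit 243))) (XT.nd (nat_lit 78) (nat_lit 0) (nat_lit 0) (XT.lf (nat_lit 0) (nat_lit 354603453840) (nat_lit 76) (nat_lit 136681540593) (nat_lit 76) (nat_lit 110077915846) (nat_lit 10) (nat_lit 4) (nat_lit 11) (nat_lit 5) (nat_lit 11) (nat_lit 4) (nat_lit 542) (nat_lit 416) (nat_lit 242)) (XT.lf (nat_lit 0) (nat_lit 513132239026) (nat_lit 76) (nat_lit 70717932568) (nat_lit 76) (nat_lit 44114047283) (nat_lit 10) (nat_lit 4)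 (nat_lit 11) (nat_lit 5) (nat_lit 11) (nat_lit 4) (nat_lit 543) (nat_lit 416) (nat_lit 241))))) (XT.nd (nat_lit 312) (nat_lit 76) (nat_lit 0) (XT.nd (nat_lit 156) (nat_lit 0) (nat_lit 0) (XT.nd (nat_lit 78) (nat_lit 0) (nat_lit 0) (XT.lf (nat_lit 0) (nat_lit 24066792212) (nat_lit 76) (nat_lit 650732484) (nat_lit 152) (nat_lit 631139716486) (nat_lit 8) (nat_lit 5) (nat_lit 9) (nat_lit 5) (nat_lit 10) (nat_lit 4) (nat_lit 544) (nat_lit 416) (nat_lit 240)) (XT.lf (nat_lit 0) (nat_lit 98621907143) (nat_lit 152) (nat_lit 513046748598) (nat_lit 0) (nat_lit 73284412158) (nat_lit 8) (nat_lit 5) (nat_lit 10) (nat_lit 4) (nat_lit 8) (nat_lit 4) (nat_lit 545) (nat_lit 416) (nat_lit 239))) (XT.nd (nat_lit 78) (nat_lit 0) (nat_lit 0) (XT.lf (nat_lit 0) (nat_lit 176230894755) (nat_lit 152) (nat_lit 388379136473) (nat_lit 0) (nat_lit 150893185424) (nat_lit 8) (nat_lit 5) (nat_lit 10) (nat_lit 4) (nat_lit 8)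 (nat_lit 4) (nat_lit 546) (nat_lit 416) (nat_lit 238)) (XT.lf (nat_lit 0) (nat_lit 257719111080) (nat_lit 152) (nat_lit 257480625191) (nat_lit 0) (nat_lit 232381197610) (nat_lit 8) (nat_lit 5) (nat_lit 10) (nat_lit 4) (nat_lit 8) (nat_lit 4) (nat_lit 547) (nat_lit 416) (nat_lit 237)))) (XT.nd (nat_lit 156) (nat_lit 0) (nat_lit 0) (XT.nd (nat_lit 78) (nat_lit 76) (nat_lit 0) (XT.lf (nat_lit 0) (nat_lit 343280575681) (nat_lit 152) (nat_lit 120039551630) (nat_lit 0) (nat_lit 317942467792) (nat_lit 8) (nat_lit 5) (nat_lit 10) (nat_lit 4) (nat_lit 8) (nat_lit 4) (nat_lit 548) (nat_lit 416) (nat_lit 236)) (XT.lf (nat_lit 0) (nat_lit 25073844474) (nat_lit 76) (nat_lit 408436634837) (nat_lit 76) (nat_lit 383098341788) (nat_lit 7) (nat_lit 4) (nat_lit 8) (nat_lit 5) (nat_lit 8) (nat_lit 4) (nat_lit 549) (nat_lit 416) (nat_lit 235))) (XT.nd (nat_lit 52104) (nat_lit 0) (nat_lit 11476) (XT.lf (nat_lit 0)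 (nat_lit 181608198114) (nat_lit 76) (nat_lit 348675518867) (nat_lit 76) (nat_lit 323337049475) (nat_lit 7) (nat_lit 4) (nat_lit 8) (nat_lit 5) (nat_lit 8) (nat_lit 4) (nat_lit 550) (nat_lit 416) (nat_lit 234)) (XT.lf (nat_lit 0) (nat_lit 813028286) (nat_lit 0) (nat_lit 813028286) (nat_lit 684) (nat_lit 3280654251) (nat_lit 158) (nat_lit 5) (nat_lit 158) (nat_lit 3) (nat_lit 167) (nat_lit 3) (nat_lit 417) (nat_lit 417) (nat_lit 366))))))) (XT.nd (nat_lit 1170) (nat_lit 2736) (nat_lit 0) (XT.nd (nat_lit 546) (nat_lit 1976) (nat_lit 0) (XT.nd (nat_lit 234) (nat_lit 0) (nat_lit 76) (XT.nd (nat_lit 78) (nat_lit 0) (nat_lit 0) (XT.lf (nat_lit 0) (nat_lit 4105009299) (nat_lit 684) (nat_lit 3348522058) (nat_lit 760) (nat_lit 2566525608) (nat_lit 158) (nat_lit 5) (nat_lit 167) (nat_lit 3) (nat_lit 168) (nat_lit 5) (nat_lit 418) (nat_lit 417) (nat_lit 365)) (XT.nd (nat_lit 78) (nat_lit 0) (nat_lit 76)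 (XT.lf (nat_lit 76) (nat_lit 1735058572) (nat_lit 0) (nat_lit 3272860590) (nat_lit 760) (nat_lit 5228744162) (nat_lit 159) (nat_lit 5) (nat_lit 158) (nat_lit 5) (nat_lit 168) (nat_lit 5) (nat_lit 419) (nat_lit 417) (nat_lit 364)) (XT.lf (nat_lit 0) (nat_lit 5986776208) (nat_lit 684) (nat_lit 3318750867) (nat_lit 760) (nat_lit 1157040191) (nat_lit 159) (nat_lit 5) (nat_lit 168) (nat_lit 5) (nat_lit 169) (nat_lit 5) (nat_lit 420) (nat_lit 417) (nat_lit 363)))) (XT.nd (nat_lit 156) (nat_lit 0) (nat_lit 76) (XT.nd (nat_lit 78) (nat_lit 0) (nat_lit 0) (XT.lf (nat_lit 76) (nat_lit 2110286066) (nat_lit 0) (nat_lit 4948725385) (nat_lit 760) (nat_lit 3638540187) (nat_lit 160) (nat_lit 5) (nat_lit 159) (nat_lit 5) (nat_lit 169) (nat_lit 5) (nat_lit 421) (nat_lit 417) (nat_lit 362)) (XT.lf (nat_lit 76) (nat_lit 7899578896) (nat_lit 0) (nat_lit 300914090) (nat_lit 760) (nat_lit 2743017182) (nat_lit 160)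 (nat_lit 5) (nat_lit 159) (nat_lit 5) (nat_lit 169) (nat_lit 5) (nat_lit 422) (nat_lit 417) (nat_lit 361))) (XT.nd (nat_lit 78) (nat_lit 0) (nat_lit 0) (XT.lf (nat_lit 76) (nat_lit 2766306991) (nat_lit 0) (nat_lit 6708999186) (nat_lit 760) (nat_lit 1722653917) (nat_lit 161) (nat_lit 5) (nat_lit 160) (nat_lit 5) (nat_lit 170) (nat_lit 5) (nat_lit 423) (nat_lit 417) (nat_lit 360)) (XT.lf (nat_lit 76) (nat_lit 8940773551) (nat_lit 0) (nat_lit 1892473076) (nat_lit 760) (nat_lit 630922604) (nat_lit 161) (nat_lit 5) (nat_lit 160) (nat_lit 5) (nat_lit 170) (nat_lit 5) (nat_lit 424) (nat_lit 417) (nat_lit 359))))) (XT.nd (nat_lit 312) (nat_lit 1444) (nat_lit 0) (XT.nd (nat_lit 156) (nat_lit 0) (nat_lit 76) (XT.nd (nat_lit 78) (nat_lit 0) (nat_lit 0) (XT.lf (nat_lit 0) (nat_lit 572508824) (nat_lit 760) (nat_lit 8026808033) (nat_lit 836) (nat_lit 3140294646) (nat_lit 151) (nat_lit 5) (nat_lit 161) (nat_lit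 5) (nat_lit 162) (nat_lit 5) (nat_lit 425) (nat_lit 417) (nat_lit 358)) (XT.lf (nat_lit 0) (nat_lit 1854953488) (nat_lit 760) (nat_lit 1748543177) (nat_lit 836) (nat_lit 8422815054) (nat_lit 151) (nat_lit 5) (nat_lit 161) (nat_lit 5) (nat_lit 162) (nat_lit 5) (nat_lit 426) (nat_lit 417) (nat_lit 357))) (XT.nd (nat_lit 78) (nat_lit 0) (nat_lit 0) (XT.lf (nat_lit 0) (nat_lit 3273438164) (nat_lit 760) (nat_lit 7376073384) (nat_lit 76) (nat_lit 1674244486) (nat_lit 152) (nat_lit 5) (nat_lit 162) (nat_lit 5) (nat_lit 153) (nat_lit 5) (nat_lit 427) (nat_lit 417) (nat_lit 356)) (XT.lf (nat_lit 0) (nat_lit 4820471918) (nat_lit 760) (nat_lit 682822286) (nat_lit 76) (nat_lit 7129901855) (nat_lit 152) (nat_lit 5) (nat_lit 162) (nat_lit 5) (nat_lit 153) (nat_lit 5) (nat_lit 428) (nat_lit 417) (nat_lit 355)))) (XT.nd (nat_lit 156) (nat_lit 380) (nat_lit 0) (XT.nd (nat_lit 78) (nat_lit 380) (nat_lit 0) (XT.lf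 (nat_lit 0) (nat_lit 6516885745) (nat_lit 836) (nat_lit 6427438213) (nat_lit 76) (nat_lit 10187220) (nat_lit 142) (nat_lit 5) (nat_lit 153) (nat_lit 5) (nat_lit 143) (nat_lit 5) (nat_lit 429) (nat_lit 417) (nat_lit 354)) (XT.lf (nat_lit 0) (nat_lit 735152565) (nat_lit 380) (nat_lit 7647434183) (nat_lit 456) (nat_lit 4905086277) (nat_lit 137) (nat_lit 5) (nat_lit 142) (nat_lit 5) (nat_lit 143) (nat_lit 5) (nat_lit 430) (nat_lit 417) (nat_lit 353))) (XT.nd (nat_lit 78) (nat_lit 380) (nat_lit 0) (XT.lf (nat_lit 0) (nat_lit 8451643238) (nat_lit 380) (nat_lit 1970751315) (nat_lit 456) (nat_lit 3211061417) (nat_lit 137) (nat_lit 5) (nat_lit 142) (nat_lit 5) (nat_lit 143) (nat_lit 5) (nat_lit 431) (nat_lit 417) (nat_lit 352)) (XT.lf (nat_lit 0) (nat_lit 2549312307) (nat_lit 380) (nat_lit 10090288242) (nat_lit 456) (nat_lit 1353161021) (nat_lit 132) (nat_lit 5) (nat_lit 137) (nat_lit 5) (nat_lit 138)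 (nat_lit 5) (nat_lit 432) (nat_lit 417) (nat_lit 351)))))) (XT.nd (nat_lit 624) (nat_lit 1292) (nat_lit 0) (XT.nd (nat_lit 312) (nat_lit 684) (nat_lit 0) (XT.nd (nat_lit 156) (nat_lit 304) (nat_lit 0) (XT.nd (nat_lit 78) (nat_lit 380) (nat_lit 0) (XT.lf (nat_lit 0) (nat_lit 673745763) (nat_lit 456) (nat_lit 3589677176) (nat_lit 76) (nat_lit 10101384538) (nat_lit 131) (nat_lit 5) (nat_lit 137) (nat_lit 5) (nat_lit 132) (nat_lit 5) (nat_lit 433) (nat_lit 417) (nat_lit 350)) (XT.lf (nat_lit 0) (nat_lit 2836350990) (nat_lit 456) (nat_lit 10021960859) (nat_lit 76) (nat_lit 1892046641) (nat_lit 126) (nat_lit 5) (nat_lit 132) (nat_lit 5) (nat_lit 127) (nat_lit 5) (nat_lit 434) (nat_lit 417) (nat_lit 349))) (XT.nd (nat_lit 78) (nat_lit 304) (nat_lit 0) (XT.lf (nat_lit 0) (nat_lit 5214510156) (nat_lit 456) (nat_lit 1663316225) (nat_lit 76) (nat_lit 8271992693) (nat_lit 126) (nat_lit 5) (nat_lit 132) (nat_lit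 5) (nat_lit 127) (nat_lit 5) (nat_lit 435) (nat_lit 417) (nat_lit 348)) (XT.lf (nat_lit 0) (nat_lit 7321615488) (nat_lit 304) (nat_lit 481169847) (nat_lit 380) (nat_lit 7761910005) (nat_lit 122) (nat_lit 5) (nat_lit 126) (nat_lit 5) (nat_lit 127) (nat_lit 5) (nat_lit 436) (nat_lit 417) (nat_lit 347)))) (XT.nd (nat_lit 156) (nat_lit 380) (nat_lit 0) (XT.nd (nat_lit 78) (nat_lit 0) (nat_lit 0) (XT.lf (nat_lit 0) (nat_lit 713004255) (nat_lit 304) (nat_lit 9922132452) (nat_lit 380) (nat_lit 5359448498) (nat_lit 118) (nat_lit 5) (nat_lit 122) (nat_lit 5) (nat_lit 123) (nat_lit 5) (nat_lit 437) (nat_lit 417) (nat_lit 346)) (XT.lf (nat_lit 0) (nat_lit 10368717339) (nat_lit 304) (nat_lit 3365958368) (nat_lit 380) (nat_lit 2705018125) (nat_lit 118) (nat_lit 5) (nat_lit 122) (nat_lit 5) (nat_lit 123) (nat_lit 5) (nat_lit 438) (nat_lit 417) (nat_lit 345))) (XT.nd (nat_lit 78) (nat_lit 0) (nat_lit 0) (XT.lf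 (nat_lit 0) (nat_lit 171861900) (nat_lit 380) (nat_lit 13269627341) (nat_lit 76) (nat_lit 3460889197) (nat_lit 113) (nat_lit 5) (nat_lit 118) (nat_lit 5) (nat_lit 114) (nat_lit 5) (nat_lit 439) (nat_lit 417) (nat_lit 344)) (XT.lf (nat_lit 0) (nat_lit 3240799372) (nat_lit 380) (nat_lit 3478028657) (nat_lit 76) (nat_lit 10660198421) (nat_lit 113) (nat_lit 5) (nat_lit 118) (nat_lit 5) (nat_lit 114) (nat_lit 5) (nat_lit 440) (nat_lit 417) (nat_lit 343))))) (XT.nd (nat_lit 312) (nat_lit 532) (nat_lit 0) (XT.nd (nat_lit 156) (nat_lit 456) (nat_lit 0) (XT.nd (nat_lit 78) (nat_lit 0) (nat_lit 0) (XT.lf (nat_lit 0) (nat_lit 6559944528) (nat_lit 380) (nat_lit 10879720858) (nat_lit 76) (nat_lit 435005714) (nat_lit 109) (nat_lit 5) (nat_lit 114) (nat_lit 5) (nat_lit 110) (nat_lit 5) (nat_lit 441) (nat_lit 417) (nat_lit 342)) (XT.lf (nat_lit 0) (nat_lit 10195941215) (nat_lit 380) (nat_lit 416351609) (nat_lit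 76) (nat_lit 7775262617) (nat_lit 109) (nat_lit 5) (nat_lit 114) (nat_lit 5) (nat_lit 110) (nat_lit 5) (nat_lit 442) (nat_lit 417) (nat_lit 341))) (XT.nd (nat_lit 78) (nat_lit 228) (nat_lit 0) (XT.lf (nat_lit 0) (nat_lit 10894678333) (nat_lit 228) (nat_lit 3270948097) (nat_lit 304) (nat_lit 4752865201) (nat_lit 106) (nat_lit 5) (nat_lit 109) (nat_lit 5) (nat_lit 110) (nat_lit 5) (nat_lit 443) (nat_lit 417) (nat_lit 340)) (XT.lf (nat_lit 0) (nat_lit 3322426626) (nat_lit 228) (nat_lit 15121881794) (nat_lit 304) (nat_lit 1026142551) (nat_lit 103) (nat_lit 5) (nat_lit 106) (nat_lit 5) (nat_lit 107) (nat_lit 5) (nat_lit 444) (nat_lit 417) (nat_lit 339)))) (XT.nd (nat_lit 156) (nat_lit 228) (nat_lit 0) (XT.nd (nat_lit 78) (nat_lit 228) (nat_lit 0) (XT.lf (nat_lit 0) (nat_lit 2968629928) (nat_lit 304) (nat_lit 4654384344) (nat_lit 76) (nat_lit 12416036499) (nat_lit 102) (nat_lit 5) (nat_lit 106) (nat_lit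 5) (nat_lit 103) (nat_lit 5) (nat_lit 445) (nat_lit 417) (nat_lit 338)) (XT.lf (nat_lit 0) (nat_lit 7236833121) (nat_lit 304) (nat_lit 13018865849) (nat_lit 76) (nat_lit 374133330) (nat_lit 99) (nat_lit 5) (nat_lit 103) (nat_lit 5) (nat_lit 100) (nat_lit 5) (nat_lit 446) (nat_lit 417) (nat_lit 337))) (XT.nd (nat_lit 78) (nat_lit 228) (nat_lit 0) (XT.lf (nat_lit 0) (nat_lit 11907074762) (nat_lit 304) (nat_lit 745241810) (nat_lit 76) (nat_lit 8588406538) (nat_lit 99) (nat_lit 5) (nat_lit 103) (nat_lit 5) (nat_lit 100) (nat_lit 5) (nat_lit 447) (nat_lit 417) (nat_lit 336)) (XT.lf (nat_lit 0) (nat_lit 12519976121) (nat_lit 228) (nat_lit 4470652268) (nat_lit 304) (nat_lit 4882541620) (nat_lit 96) (nat_lit 5) (nat_lit 99) (nat_lit 5) (nat_lit 100) (nat_lit 5) (nat_lit 448) (nat_lit 417) (nat_lit 335))))))))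
noncomputable def xc133 : XT := (XT.nd (nat_lit 2418) (nat_lit 1900) (nat_lit 0) (XT.nd (nat_lit 1170) (nat_lit 1444) (nat_lit 0) (XT.nd (nat_lit 546) (nat_lit 912) (nat_lit 0) (XT.nd (nat_lit 234) (nat_lit 456) (nat_lit 0) (XT.nd (nat_lit 78) (nat_lit 304) (nat_lit 0) (XT.lf (nat_lit 0) (nat_lit 3977397912) (nat_lit 152) (nat_lit 18474826449) (nat_lit 228) (nat_lit 78823125) (nat_lit 94) (nat_lit 5) (nat_lit 96) (nat_lit 5) (nat_lit 97) (nat_lit 5) (nat_lit 449) (nat_lit 417) (nat_lit 334)) (XT.nd (nat_lit 78) (nat_lit 228) (nat_lit 0) (XT.lf (nat_lit 0) (nat_lit 5025197483) (nat_lit 228) (nat_lit 5091286435) (nat_lit 76) (nat_lit 13090508823) (nat_lit 93) (nat_lit 5) (nat_lit 96) (nat_lit 5) (nat_lit 94) (nat_lit 5) (nat_lit 450) (nat_lit 417) (nat_lit 333)) (XT.lf (nat_lit 0) (nat_lit 9319052695) (nat_lit 228) (nat_lit 1193683333) (nat_lit 304) (nat_lit 13397387595) (nat_lit 90) (nat_lit 5)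 (nat_lit 93) (nat_lit 5) (nat_lit 94) (nat_lit 5) (nat_lit 451) (nat_lit 417) (nat_lit 332)))) (XT.nd (nat_lit 156) (nat_lit 304) (nat_lit 0) (XT.nd (nat_lit 78) (nat_lit 152) (nat_lit 0) (XT.lf (nat_lit 0) (nat_lit 16475630223) (nat_lit 304) (nat_lit 168838179) (nat_lit 76) (nat_lit 7993894919) (nat_lit 90) (nat_lit 5) (nat_lit 94) (nat_lit 5) (nat_lit 91) (nat_lit 5) (nat_lit 452) (nat_lit 417) (nat_lit 331)) (XT.lf (nat_lit 0) (nat_lit 15427423059) (nat_lit 152) (nat_lit 7556063906) (nat_lit 228) (nat_lit 2407188299) (nat_lit 88) (nat_lit 5) (nat_lit 90) (nat_lit 5) (nat_lit 91) (nat_lit 5) (nat_lit 453) (nat_lit 417) (nat_lit 330))) (XT.nd (nat_lit 78) (nat_lit 0) (nat_lit 0) (XT.lf (nat_lit 0) (nat_lit 3632016391) (nat_lit 304) (nat_lit 20472941212) (nat_lit 76) (nat_lit 2067194650) (nat_lit 84) (nat_lit 5) (nat_lit 88) (nat_lit 5) (nat_lit 85) (nat_lit 5) (nat_lit 454) (nat_lit 417) (nat_lit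 329)) (XT.lf (nat_lit 0) (nat_lit 10174331169) (nat_lit 304) (nat_lit 4681251804) (nat_lit 76) (nat_lit 12121045651) (nat_lit 84) (nat_lit 5) (nat_lit 88) (nat_lit 5) (nat_lit 85) (nat_lit 5) (nat_lit 455) (nat_lit 417) (nat_lit 328))))) (XT.nd (nat_lit 312) (nat_lit 380) (nat_lit 0) (XT.nd (nat_lit 156) (nat_lit 228) (nat_lit 0) (XT.nd (nat_lit 78) (nat_lit 152) (nat_lit 0) (XT.lf (nat_lit 0) (nat_lit 12272252415) (nat_lit 152) (nat_lit 4950426533) (nat_lit 228) (nat_lit 10589704948) (nat_lit 82) (nat_lit 5) (nat_lit 84) (nat_lit 5) (nat_lit 85) (nat_lit 5) (nat_lit 456) (nat_lit 417) (nat_lit 327)) (XT.lf (nat_lit 0) (nat_lit 1490584740) (nat_lit 152) (nat_lit 23309279224) (nat_lit 228) (nat_lit 3881242878) (nat_lit 80) (nat_lit 5) (nat_lit 82) (nat_lit 5) (nat_lit 83) (nat_lit 5) (nat_lit 457) (nat_lit 417) (nat_lit 326))) (XT.nd (nat_lit 78) (nat_lit 152) (nat_lit 0) (XT.lf (nat_lit 0) (nat_lit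 3397622059) (nat_lit 228) (nat_lit 9823401984) (nat_lit 76) (nat_lit 16352963620) (nat_lit 79) (nat_lit 5) (nat_lit 82) (nat_lit 5) (nat_lit 80) (nat_lit 5) (nat_lit 458) (nat_lit 417) (nat_lit 325)) (XT.lf (nat_lit 0) (nat_lit 8604016698) (nat_lit 152) (nat_lit 2428459213) (nat_lit 228) (nat_lit 19469732004) (nat_lit 77) (nat_lit 5) (nat_lit 79) (nat_lit 5) (nat_lit 80) (nat_lit 5) (nat_lit 459) (nat_lit 417) (nat_lit 324)))) (XT.nd (nat_lit 156) (nat_lit 228) (nat_lit 0) (XT.nd (nat_lit 78) (nat_lit 152) (nat_lit 0) (XT.lf (nat_lit 0) (nat_lit 19345460777) (nat_lit 228) (nat_lit 3336358035) (nat_lit 76) (nat_lit 8780201692) (nat_lit 77) (nat_lit 5) (nat_lit 80) (nat_lit 5) (nat_lit 78) (nat_lit 5) (nat_lit 460) (nat_lit 417) (nat_lit 323)) (XT.lf (nat_lit 0) (nat_lit 16626921129) (nat_lit 152) (nat_lit 11735420007) (nat_lit 228) (nat_lit 4093070982) (nat_lit 75) (nat_lit 5) (nat_lit 77) (nat_lit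 5) (nat_lit 78) (nat_lit 5) (nat_lit 461) (nat_lit 417) (nat_lit 322))) (XT.nd (nat_lit 78) (nat_lit 0) (nat_lit 0) (XT.lf (nat_lit 0) (nat_lit 4257187614) (nat_lit 152) (nat_lit 48564743) (nat_lit 228) (nat_lit 29183700273) (nat_lit 72) (nat_lit 5) (nat_lit 74) (nat_lit 5) (nat_lit 75) (nat_lit 5) (nat_lit 462) (nat_lit 417) (nat_lit 321)) (XT.lf (nat_lit 0) (nat_lit 13439264888) (nat_lit 228) (nat_lit 8946610314) (nat_lit 76) (nat_lit 12163350498) (nat_lit 72) (nat_lit 5) (nat_lit 75) (nat_lit 5) (nat_lit 73) (nat_lit 5) (nat_lit 463) (nat_lit 417) (nat_lit 320)))))) (XT.nd (nat_lit 624) (nat_lit 684) (nat_lit 0) (XT.nd (nat_lit 312) (nat_lit 304) (nat_lit 0) (XT.nd (nat_lit 156) (nat_lit 304) (nat_lit 0) (XT.nd (nat_lit 78) (nat_lit 0) (nat_lit 0) (XT.lf (nat_lit 0) (nat_lit 12742096347) (nat_lit 152) (nat_lit 10476630634) (nat_lit 228) (nat_lit 12433797326) (nat_lit 70) (nat_lit 5) (nat_lit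 72) (nat_lit 5) (nat_lit 73) (nat_lit 5) (nat_lit 464) (nat_lit 417) (nat_lit 319)) (XT.lf (nat_lit 0) (nat_lit 33662460234) (nat_lit 228) (nat_lit 1030074402) (nat_lit 76) (nat_lit 2109688860) (nat_lit 70) (nat_lit 5) (nat_lit 73) (nat_lit 5) (nat_lit 71) (nat_lit 4) (nat_lit 465) (nat_lit 417) (nat_lit 318))) (XT.nd (nat_lit 78) (nat_lit 152) (nat_lit 0) (XT.lf (nat_lit 0) (nat_lit 6928294330) (nat_lit 152) (nat_lit 15621131879) (nat_lit 76) (nat_lit 15428756388) (nat_lit 68) (nat_lit 5) (nat_lit 70) (nat_lit 5) (nat_lit 69) (nat_lit 5) (nat_lit 466) (nat_lit 417) (nat_lit 317)) (XT.lf (nat_lit 0) (nat_lit 7921477608) (nat_lit 152) (nat_lit 9604338928) (nat_lit 228) (nat_lit 21677971101) (nat_lit 66) (nat_lit 5) (nat_lit 68) (nat_lit 5) (nat_lit 69) (nat_lit 5) (nat_lit 467) (nat_lit 417) (nat_lit 316)))) (XT.nd (nat_lit 156) (nat_lit 228) (nat_lit 0) (XT.nd (nat_lit 78) (nat_lit 76) (nat_lit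 0) (XT.lf (nat_lit 0) (nat_lit 28974618096) (nat_lit 228) (nat_lit 7378106695) (nat_lit 76) (nat_lit 4121878430) (nat_lit 66) (nat_lit 5) (nat_lit 69) (nat_lit 5) (nat_lit 67) (nat_lit 4) (nat_lit 468) (nat_lit 417) (nat_lit 315)) (XT.lf (nat_lit 0) (nat_lit 18127274595) (nat_lit 76) (nat_lit 23299766121) (nat_lit 152) (nat_lit 360360254) (nat_lit 65) (nat_lit 5) (nat_lit 66) (nat_lit 5) (nat_lit 67) (nat_lit 4) (nat_lit 469) (nat_lit 417) (nat_lit 314))) (XT.nd (nat_lit 78) (nat_lit 0) (nat_lit 0) (XT.lf (nat_lit 0) (nat_lit 1868442225) (nat_lit 152) (nat_lit 9251894977) (nat_lit 228) (nat_lit 32029306168) (nat_lit 62) (nat_lit 5) (nat_lit 64) (nat_lit 5) (nat_lit 65) (nat_lit 5) (nat_lit 470) (nat_lit 417) (nat_lit 313)) (XT.lf (nat_lit 0) (nat_lit 23646884416) (nat_lit 228) (nat_lit 15180290855) (nat_lit 76) (nat_lit 5728331350) (nat_lit 62) (nat_lit 5) (nat_lit 65) (nat_lit 5) (nat_lit 63)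 (nat_lit 4) (nat_lit 471) (nat_lit 417) (nat_lit 312))))) (XT.nd (nat_lit 312) (nat_lit 304) (nat_lit 0) (XT.nd (nat_lit 156) (nat_lit 228) (nat_lit 0) (XT.nd (nat_lit 78) (nat_lit 76) (nat_lit 0) (XT.lf (nat_lit 0) (nat_lit 12456615574) (nat_lit 76) (nat_lit 24680549759) (nat_lit 152) (nat_lit 8877627741) (nat_lit 61) (nat_lit 5) (nat_lit 62) (nat_lit 5) (nat_lit 63) (nat_lit 4) (nat_lit 472) (nat_lit 417) (nat_lit 311)) (XT.lf (nat_lit 0) (nat_lit 3887317762) (nat_lit 152) (nat_lit 5610733979) (nat_lit 76) (nat_lit 38033432089) (nat_lit 60) (nat_lit 5) (nat_lit 62) (nat_lit 5) (nat_lit 61) (nat_lit 5) (nat_lit 473) (nat_lit 417) (nat_lit 310))) (XT.nd (nat_lit 78) (nat_lit 76) (nat_lit 0) (XT.lf (nat_lit 0) (nat_lit 17473185627) (nat_lit 228) (nat_lit 24854595966) (nat_lit 76) (nat_lit 6764900017) (nat_lit 58) (nat_lit 5) (nat_lit 61) (nat_lit 5) (nat_lit 59) (nat_lit 4) (nat_lit 474) (nat_lit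 417) (nat_lit 309)) (XT.lf (nat_lit 0) (nat_lit 5035469918) (nat_lit 76) (nat_lit 27025527385) (nat_lit 152) (nat_lit 18654809746) (nat_lit 57) (nat_lit 5) (nat_lit 58) (nat_lit 5) (nat_lit 59) (nat_lit 4) (nat_lit 475) (nat_lit 417) (nat_lit 308)))) (XT.nd (nat_lit 156) (nat_lit 76) (nat_lit 0) (XT.nd (nat_lit 78) (nat_lit 228) (nat_lit 0) (XT.lf (nat_lit 0) (nat_lit 37267799563) (nat_lit 76) (nat_lit 10523229879) (nat_lit 152) (nat_lit 4608418105) (nat_lit 57) (nat_lit 5) (nat_lit 58) (nat_lit 5) (nat_lit 59) (nat_lit 4) (nat_lit 476) (nat_lit 417) (nat_lit 307)) (XT.lf (nat_lit 0) (nat_lit 10191567843) (nat_lit 228) (nat_lit 36933351748) (nat_lit 76) (nat_lit 7015643442) (nat_lit 54) (nat_lit 5) (nat_lit 57) (nat_lit 5) (nat_lit 55) (nat_lit 4) (nat_lit 477) (nat_lit 417) (nat_lit 306))) (XT.nd (nat_lit 78) (nat_lit 76) (nat_lit 0) (XT.lf (nat_lit 0) (nat_lit 26001861245) (nat_lit 228) (nat_lit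 4534548074) (nat_lit 76) (nat_lit 25407288762) (nat_lit 54) (nat_lit 5) (nat_lit 57) (nat_lit 5) (nat_lit 55) (nat_lit 4) (nat_lit 478) (nat_lit 417) (nat_lit 305)) (XT.lf (nat_lit 0) (nat_lit 30444597583) (nat_lit 76) (nat_lit 12625974807) (nat_lit 152) (nat_lit 14743022568) (nat_lit 53) (nat_lit 5) (nat_lit 54) (nat_lit 5) (nat_lit 55) (nat_lit 4) (nat_lit 479) (nat_lit 417) (nat_lit 304))))))) (XT.nd (nat_lit 1170) (nat_lit 912) (nat_lit 0) (XT.nd (nat_lit 546) (nat_lit 532) (nat_lit 0) (XT.nd (nat_lit 234) (nat_lit 228) (nat_lit 0) (XT.nd (nat_lit 78) (nat_lit 76) (nat_lit 0) (XT.lf (nat_lit 0) (nat_lit 1468768327) (nat_lit 152) (nat_lit 52094958532) (nat_lit 76) (nat_lit 6197713631) (nat_lit 51) (nat_lit 5) (nat_lit 53) (nat_lit 5) (nat_lit 52) (nat_lit 4) (nat_lit 480) (nat_lit 417) (nat_lit 303)) (XT.nd (nat_lit 78) (nat_lit 76) (nat_lit 0) (XT.lf (nat_lit 0) (nat_lit 18666406394) (nat_lit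 152) (nat_lit 16849917926) (nat_lit 76) (nat_lit 26244733741) (nat_lit 51) (nat_lit 5) (nat_lit 53) (nat_lit 5) (nat_lit 52) (nat_lit 4) (nat_lit 481) (nat_lit 417) (nat_lit 302)) (XT.lf (nat_lit 0) (nat_lit 20810026010) (nat_lit 76) (nat_lit 16231785059) (nat_lit 152) (nat_lit 26802951395) (nat_lit 50) (nat_lit 5) (nat_lit 51) (nat_lit 5) (nat_lit 52) (nat_lit 4) (nat_lit 482) (nat_lit 417) (nat_lit 301)))) (XT.nd (nat_lit 156) (nat_lit 76) (nat_lit 0) (XT.nd (nat_lit 78) (nat_lit 152) (nat_lit 0) (XT.lf (nat_lit 0) (nat_lit 56681753868) (nat_lit 152) (nat_lit 5161249936) (nat_lit 0) (nat_lit 4172360068) (nat_lit 50) (nat_lit 5) (nat_lit 52) (nat_lit 4) (nat_lit 50) (nat_lit 4) (nat_lit 483) (nat_lit 417) (nat_lit 300)) (XT.lf (nat_lit 0) (nat_lit 9547278495) (nat_lit 152) (nat_lit 32945796518) (nat_lit 76) (nat_lit 25753066026) (nat_lit 48) (nat_lit 5) (nat_lit 50) (nat_lit 5) (nat_lit 49)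 (nat_lit 4) (nat_lit 484) (nat_lit 417) (nat_lit 299))) (XT.nd (nat_lit 78) (nat_lit 0) (nat_lit 0) (XT.lf (nat_lit 0) (nat_lit 7451362459) (nat_lit 76) (nat_lit 21805714206) (nat_lit 152) (nat_lit 41313803269) (nat_lit 47) (nat_lit 5) (nat_lit 48) (nat_lit 5) (nat_lit 49) (nat_lit 4) (nat_lit 485) (nat_lit 417) (nat_lit 298)) (XT.lf (nat_lit 0) (nat_lit 50511535950) (nat_lit 152) (nat_lit 21992439261) (nat_lit 0) (nat_lit 479922151) (nat_lit 47) (nat_lit 5) (nat_lit 49) (nat_lit 4) (nat_lit 47) (nat_lit 4) (nat_lit 486) (nat_lit 417) (nat_lit 297))))) (XT.nd (nat_lit 312) (nat_lit 228) (nat_lit 0) (XT.nd (nat_lit 156) (nat_lit 152) (nat_lit 0) (XT.nd (nat_lit 78) (nat_lit 76) (nat_lit 0) (XT.lf (nat_lit 0) (nat_lit 21509750720) (nat_lit 76) (nat_lit 52005963478) (nat_lit 76) (nat_lit 1967501804) (nat_lit 46) (nat_lit 4) (nat_lit 47) (nat_lit 5) (nat_lit 47) (nat_lit 4) (nat_lit 487) (nat_lit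 417) (nat_lit 296)) (XT.lf (nat_lit 0) (nat_lit 19308742381) (nat_lit 152) (nat_lit 10462061576) (nat_lit 76) (nat_lit 48302812045) (nat_lit 45) (nat_lit 5) (nat_lit 47) (nat_lit 5) (nat_lit 46) (nat_lit 4) (nat_lit 488) (nat_lit 417) (nat_lit 295))) (XT.nd (nat_lit 78) (nat_lit 76) (nat_lit 0) (XT.lf (nat_lit 0) (nat_lit 36344254779) (nat_lit 76) (nat_lit 5799866909) (nat_lit 152) (nat_lit 38619729535) (nat_lit 44) (nat_lit 5) (nat_lit 45) (nat_lit 5) (nat_lit 46) (nat_lit 4) (nat_lit 489) (nat_lit 417) (nat_lit 294)) (XT.lf (nat_lit 0) (nat_lit 2022102148) (nat_lit 76) (nat_lit 64607264775) (nat_lit 76) (nat_lit 16933826551) (nat_lit 43) (nat_lit 4) (nat_lit 44) (nat_lit 5) (nat_lit 44) (nat_lit 4) (nat_lit 490) (nat_lit 417) (nat_lit 293)))) (XT.nd (nat_lit 156) (nat_lit 76) (nat_lit 0) (XT.nd (nat_lit 78) (nat_lit 76) (nat_lit 0) (XT.lf (nat_lit 0) (nat_lit 6503287154) (nat_lit 152) (nat_lit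 34347065046) (nat_lit 76) (nat_lit 45604908841) (nat_lit 42) (nat_lit 5) (nat_lit 44) (nat_lit 5) (nat_lit 43) (nat_lit 4) (nat_lit 491) (nat_lit 417) (nat_lit 292)) (XT.lf (nat_lit 0) (nat_lit 15411194069) (nat_lit 76) (nat_lit 15366907283) (nat_lit 152) (nat_lit 58688203928) (nat_lit 41) (nat_lit 5) (nat_lit 42) (nat_lit 5) (nat_lit 43) (nat_lit 4) (nat_lit 492) (nat_lit 417) (nat_lit 291))) (XT.nd (nat_lit 78) (nat_lit 76) (nat_lit 0) (XT.lf (nat_lit 0) (nat_lit 57030053593) (nat_lit 152) (nat_lit 23947510832) (nat_lit 0) (nat_lit 11612167535) (nat_lit 41) (nat_lit 5) (nat_lit 43) (nat_lit 4) (nat_lit 41) (nat_lit 4) (nat_lit 493) (nat_lit 417) (nat_lit 290)) (XT.lf (nat_lit 0) (nat_lit 29342077757) (nat_lit 76) (nat_lit 55957160415) (nat_lit 76) (nat_lit 10534860156) (nat_lit 40) (nat_lit 4) (nat_lit 41) (nat_lit 5) (nat_lit 41) (nat_lit 4) (nat_lit 494) (nat_lit 417) (nat_lit 289)))))) (XT.nd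 (nat_lit 624) (nat_lit 456) (nat_lit 0) (XT.nd (nat_lit 312) (nat_lit 228) (nat_lit 0) (XT.nd (nat_lit 156) (nat_lit 76) (nat_lit 0) (XT.nd (nat_lit 78) (nat_lit 76) (nat_lit 0) (XT.lf (nat_lit 0) (nat_lit 15644206672) (nat_lit 152) (nat_lit 13355880581) (nat_lit 76) (nat_lit 70207966415) (nat_lit 39) (nat_lit 5) (nat_lit 41) (nat_lit 5) (nat_lit 40) (nat_lit 4) (nat_lit 495) (nat_lit 417) (nat_lit 288)) (XT.lf (nat_lit 0) (nat_lit 43457648935) (nat_lit 152) (nat_lit 59059951272) (nat_lit 0) (nat_lit 190498391) (nat_lit 38) (nat_lit 5) (nat_lit 40) (nat_lit 4) (nat_lit 38) (nat_lit 4) (nat_lit 496) (nat_lit 417) (nat_lit 287))) (XT.nd (nat_lit 78) (nat_lit 76) (nat_lit 0) (XT.lf (nat_lit 0) (nat_lit 73361953038) (nat_lit 152) (nat_lit 2895012405) (nat_lit 0) (nat_lit 30091170920) (nat_lit 38) (nat_lit 5) (nat_lit 40) (nat_lit 4) (nat_lit 38) (nat_lit 4) (nat_lit 497) (nat_lit 417) (nat_lit 286))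 (XT.lf (nat_lit 0) (nat_lit 57922414870) (nat_lit 76) (nat_lit 47738514561) (nat_lit 76) (nat_lit 4464273801) (nat_lit 37) (nat_lit 4) (nat_lit 38) (nat_lit 5) (nat_lit 38) (nat_lit 4) (nat_lit 498) (nat_lit 417) (nat_lit 285)))) (XT.nd (nat_lit 156) (nat_lit 76) (nat_lit 0) (XT.nd (nat_lit 78) (nat_lit 0) (nat_lit 0) (XT.lf (nat_lit 0) (nat_lit 7628386434) (nat_lit 76) (nat_lit 17203770219) (nat_lit 152) (nat_lit 89230870035) (nat_lit 35) (nat_lit 5) (nat_lit 36) (nat_lit 5) (nat_lit 37) (nat_lit 4) (nat_lit 499) (nat_lit 417) (nat_lit 284)) (XT.lf (nat_lit 0) (nat_lit 56569064478) (nat_lit 152) (nat_lit 46219356368) (nat_lit 0) (nat_lit 15349377054) (nat_lit 35) (nat_lit 5) (nat_lit 37) (nat_lit 4) (nat_lit 35) (nat_lit 4) (nat_lit 500) (nat_lit 417) (nat_lit 283))) (XT.nd (nat_lit 78) (nat_lit 0) (nat_lit 0) (XT.lf (nat_lit 0) (nat_lit 17268157776) (nat_lit 76) (nat_lit 73171666249) (nat_lit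 76) (nat_lit 31949133391) (nat_lit 34) (nat_lit 4) (nat_lit 35) (nat_lit 5) (nat_lit 35) (nat_lit 4) (nat_lit 501) (nat_lit 417) (nat_lit 282)) (XT.lf (nat_lit 0) (nat_lit 85525633796) (nat_lit 76) (nat_lit 41256686999) (nat_lit 76) (nat_lit 31444205) (nat_lit 34) (nat_lit 4) (nat_lit 35) (nat_lit 5) (nat_lit 35) (nat_lit 4) (nat_lit 502) (nat_lit 417) (nat_lit 281))))) (XT.nd (nat_lit 312) (nat_lit 152) (nat_lit 0) (XT.nd (nat_lit 156) (nat_lit 152) (nat_lit 0) (XT.nd (nat_lit 78) (nat_lit 0) (nat_lit 0) (XT.lf (nat_lit 0) (nat_lit 26038040283) (nat_lit 76) (nat_lit 6774576287) (nat_lit 152) (nat_lit 98600952732) (nat_lit 32) (nat_lit 5) (nat_lit 33) (nat_lit 5) (nat_lit 34) (nat_lit 4) (nat_lit 503) (nat_lit 417) (nat_lit 280)) (XT.lf (nat_lit 0) (nat_lit 68463637032) (nat_lit 152) (nat_lit 38524708293) (nat_lit 0) (nat_lit 29196702100) (nat_lit 32) (nat_lit 5) (nat_lit 34) (nat_lit 4) (nat_lit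 32) (nat_lit 4) (nat_lit 504) (nat_lit 417) (nat_lit 279))) (XT.nd (nat_lit 78) (nat_lit 76) (nat_lit 0) (XT.lf (nat_lit 0) (nat_lit 32592404366) (nat_lit 76) (nat_lit 73920536461) (nat_lit 76) (nat_lit 34651372057) (nat_lit 31) (nat_lit 4) (nat_lit 32) (nat_lit 5) (nat_lit 32) (nat_lit 4) (nat_lit 505) (nat_lit 417) (nat_lit 278)) (XT.lf (nat_lit 0) (nat_lit 728807022) (nat_lit 152) (nat_lit 37777233313) (nat_lit 76) (nat_lit 107853497552) (nat_lit 30) (nat_lit 5) (nat_lit 32) (nat_lit 5) (nat_lit 31) (nat_lit 4) (nat_lit 506) (nat_lit 417) (nat_lit 277)))) (XT.nd (nat_lit 156) (nat_lit 76) (nat_lit 0) (XT.nd (nat_lit 78) (nat_lit 0) (nat_lit 0) (XT.lf (nat_lit 0) (nat_lit 37170863405) (nat_lit 76) (nat_lit 118977234) (nat_lit 152) (nat_lit 114467462832) (nat_lit 29) (nat_lit 5) (nat_lit 30) (nat_lit 5) (nat_lit 31) (nat_lit 4) (nat_lit 507) (nat_lit 417) (nat_lit 276)) (XT.lf (nat_lit 0) (nat_lit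 76952652214) (nat_lit 152) (nat_lit 40860953115) (nat_lit 0) (nat_lit 39547665730) (nat_lit 29) (nat_lit 5) (nat_lit 31) (nat_lit 4) (nat_lit 29) (nat_lit 4) (nat_lit 508) (nat_lit 417) (nat_lit 275))) (XT.nd (nat_lit 78) (nat_lit 0) (nat_lit 0) (XT.lf (nat_lit 0) (nat_lit 37749493383) (nat_lit 76) (nat_lit 81436650030) (nat_lit 76) (nat_lit 44029916697) (nat_lit 28) (nat_lit 4) (nat_lit 29) (nat_lit 5) (nat_lit 29) (nat_lit 4) (nat_lit 509) (nat_lit 417) (nat_lit 274)) (XT.lf (nat_lit 0) (nat_lit 121701600660) (nat_lit 76) (nat_lit 42517985567) (nat_lit 76) (nat_lit 5109588568) (nat_lit 28) (nat_lit 4) (nat_lit 29) (nat_lit 5) (nat_lit 29) (nat_lit 4) (nat_lit 510) (nat_lit 417) (nat_lit 273))))))))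
noncomputable def xc134 : XT := (XT.nd (nat_lit 2418) (nat_lit 152) (nat_lit 0) (XT.nd (nat_lit 1170) (nat_lit 532) (nat_lit 0) (XT.nd (nat_lit 546) (nat_lit 456) (nat_lit 0) (XT.nd (nat_lit 234) (nat_lit 152) (nat_lit 0) (XT.nd (nat_lit 78) (nat_lit 76) (nat_lit 0) (XT.lf (nat_lit 0) (nat_lit 34646793223) (nat_lit 76) (nat_lit 502852955) (nat_lit 152) (nat_lit 140543519422) (nat_lit 26) (nat_lit 5) (nat_lit 27) (nat_lit 5) (nat_lit 28) (nat_lit 4) (nat_lit 511) (nat_lit 417) (nat_lit 272)) (XT.nd (nat_lit 78) (nat_lit 76) (nat_lit 0) (XT.lf (nat_lit 0) (nat_lit 78747268722) (nat_lit 152) (nat_lit 60431764152) (nat_lit 0) (nat_lit 43117277829) (nat_lit 26) (nat_lit 5) (nat_lit 28) (nat_lit 4) (nat_lit 26) (nat_lit 4) (nat_lit 512) (nat_lit 417) (nat_lit 271)) (XT.lf (nat_lit 0) (nat_lit 24998554740) (nat_lit 76) (nat_lit 99921331134) (nat_lit 76) (nat_lit 64289971539) (nat_lit 25) (nat_lit 4)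 (nat_lit 26) (nat_lit 5) (nat_lit 26) (nat_lit 4) (nat_lit 513) (nat_lit 417) (nat_lit 270)))) (XT.nd (nat_lit 156) (nat_lit 0) (nat_lit 0) (XT.nd (nat_lit 78) (nat_lit 152) (nat_lit 0) (XT.lf (nat_lit 0) (nat_lit 116791668913) (nat_lit 76) (nat_lit 57629536070) (nat_lit 76) (nat_lit 21996872949) (nat_lit 25) (nat_lit 4) (nat_lit 26) (nat_lit 5) (nat_lit 26) (nat_lit 4) (nat_lit 514) (nat_lit 417) (nat_lit 269)) (XT.lf (nat_lit 0) (nat_lit 9123274089) (nat_lit 76) (nat_lit 12709495990) (nat_lit 152) (nat_lit 182129485707) (nat_lit 23) (nat_lit 5) (nat_lit 24) (nat_lit 5) (nat_lit 25) (nat_lit 4) (nat_lit 515) (nat_lit 417) (nat_lit 268))) (XT.nd (nat_lit 78) (nat_lit 0) (nat_lit 0) (XT.lf (nat_lit 0) (nat_lit 69019979500) (nat_lit 152) (nat_lit 107668565172) (nat_lit 0) (nat_lit 35081801490) (nat_lit 23) (nat_lit 5) (nat_lit 25) (nat_lit 4) (nat_lit 23) (nat_lit 4) (nat_lit 516) (nat_lit 417)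 (nat_lit 267)) (XT.lf (nat_lit 0) (nat_lit 118771798592) (nat_lit 152) (nat_lit 16354231856) (nat_lit 0) (nat_lit 84832548168) (nat_lit 23) (nat_lit 5) (nat_lit 25) (nat_lit 4) (nat_lit 23) (nat_lit 4) (nat_lit 517) (nat_lit 417) (nat_lit 266))))) (XT.nd (nat_lit 312) (nat_lit 228) (nat_lit 0) (XT.nd (nat_lit 156) (nat_lit 152) (nat_lit 0) (XT.nd (nat_lit 78) (nat_lit 0) (nat_lit 0) (XT.lf (nat_lit 0) (nat_lit 82149150009) (nat_lit 76) (nat_lit 90141681664) (nat_lit 76) (nat_lit 56201409893) (nat_lit 22) (nat_lit 4) (nat_lit 23) (nat_lit 5) (nat_lit 23) (nat_lit 4) (nat_lit 518) (nat_lit 417) (nat_lit 265)) (XT.lf (nat_lit 0) (nat_lit 186139625055) (nat_lit 76) (nat_lit 42620252037) (nat_lit 76) (nat_lit 8679007555) (nat_lit 22) (nat_lit 4) (nat_lit 23) (nat_lit 5) (nat_lit 23) (nat_lit 4) (nat_lit 519) (nat_lit 417) (nat_lit 264))) (XT.nd (nat_lit 78) (nat_lit 0) (nat_lit 0) (XT.lf (nat_lit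 0) (nat_lit 40805929404) (nat_lit 152) (nat_lit 197469415688) (nat_lit 0) (nat_lit 8480052382) (nat_lit 20) (nat_lit 5) (nat_lit 22) (nat_lit 4) (nat_lit 20) (nat_lit 4) (nat_lit 520) (nat_lit 417) (nat_lit 263)) (XT.lf (nat_lit 0) (nat_lit 94052344090) (nat_lit 152) (nat_lit 100673706002) (nat_lit 0) (nat_lit 61725626804) (nat_lit 20) (nat_lit 5) (nat_lit 22) (nat_lit 4) (nat_lit 20) (nat_lit 4) (nat_lit 521) (nat_lit 417) (nat_lit 262)))) (XT.nd (nat_lit 156) (nat_lit 152) (nat_lit 0) (XT.nd (nat_lit 78) (nat_lit 0) (nat_lit 0) (XT.lf (nat_lit 0) (nat_lit 988006880) (nat_lit 76) (nat_lit 148985821754) (nat_lit 76) (nat_lit 116658304216) (nat_lit 19) (nat_lit 4) (nat_lit 20) (nat_lit 5) (nat_lit 20) (nat_lit 4) (nat_lit 522) (nat_lit 417) (nat_lit 261)) (XT.lf (nat_lit 0) (nat_lit 111222651645) (nat_lit 76) (nat_lit 99171061679) (nat_lit 76) (nat_lit 66842781996) (nat_lit 19) (nat_lit 4) (nat_lit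 20) (nat_lit 5) (nat_lit 20) (nat_lit 4) (nat_lit 523) (nat_lit 417) (nat_lit 260))) (XT.nd (nat_lit 78) (nat_lit 152) (nat_lit 0) (XT.lf (nat_lit 0) (nat_lit 226963964358) (nat_lit 76) (nat_lit 46868121220) (nat_lit 76) (nat_lit 14539115686) (nat_lit 19) (nat_lit 4) (nat_lit 20) (nat_lit 5) (nat_lit 20) (nat_lit 4) (nat_lit 524) (nat_lit 417) (nat_lit 259)) (XT.lf (nat_lit 0) (nat_lit 40004396811) (nat_lit 152) (nat_lit 250766660979) (nat_lit 0) (nat_lit 9214209361) (nat_lit 17) (nat_lit 5) (nat_lit 19) (nat_lit 4) (nat_lit 17) (nat_lit 4) (nat_lit 525) (nat_lit 417) (nat_lit 258)))))) (XT.nd (nat_lit 624) (nat_lit 304) (nat_lit 0) (XT.nd (nat_lit 312) (nat_lit 152) (nat_lit 0) (XT.nd (nat_lit 156) (nat_lit 76) (nat_lit 0) (XT.nd (nat_lit 78) (nat_lit 0) (nat_lit 0) (XT.lf (nat_lit 0) (nat_lit 98609390684) (nat_lit 152) (nat_lit 145649006368) (nat_lit 0) (nat_lit 67818576216) (nat_lit 17) (nat_lit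 5) (nat_lit 19) (nat_lit 4) (nat_lit 17) (nat_lit 4) (nat_lit 526) (nat_lit 417) (nat_lit 257)) (XT.lf (nat_lit 0) (nat_lit 160142325398) (nat_lit 152) (nat_lit 35280140980) (nat_lit 0) (nat_lit 129350913769) (nat_lit 17) (nat_lit 5) (nat_lit 19) (nat_lit 4) (nat_lit 17) (nat_lit 4) (nat_lit 527) (nat_lit 417) (nat_lit 256))) (XT.nd (nat_lit 78) (nat_lit 0) (nat_lit 0) (XT.lf (nat_lit 0) (nat_lit 83267808073) (nat_lit 76) (nat_lit 142781943707) (nat_lit 76) (nat_lit 111989963354) (nat_lit 16) (nat_lit 4) (nat_lit 17) (nat_lit 5) (nat_lit 17) (nat_lit 4) (nat_lit 528) (nat_lit 417) (nat_lit 255)) (XT.lf (nat_lit 0) (nat_lit 208963623697) (nat_lit 76) (nat_lit 86884249497) (nat_lit 76) (nat_lit 56091727502) (nat_lit 16) (nat_lit 4) (nat_lit 17) (nat_lit 5) (nat_lit 17) (nat_lit 4) (nat_lit 529) (nat_lit 417) (nat_lit 254)))) (XT.nd (nat_lit 156) (nat_lit 0) (nat_lit 0) (XT.nd (nat_lit 78) (nat_lit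 76) (nat_lit 0) (XT.lf (nat_lit 0) (nat_lit 2516065109) (nat_lit 152) (nat_lit 25635104370) (nat_lit 76) (nat_lit 338381384962) (nat_lit 15) (nat_lit 5) (nat_lit 17) (nat_lit 5) (nat_lit 16) (nat_lit 4) (nat_lit 530) (nat_lit 417) (nat_lit 253)) (XT.lf (nat_lit 0) (nat_lit 64289978784) (nat_lit 152) (nat_lit 282450353023) (nat_lit 0) (nat_lit 34962808185) (nat_lit 14) (nat_lit 5) (nat_lit 16) (nat_lit 4) (nat_lit 14) (nat_lit 4) (nat_lit 531) (nat_lit 417) (nat_lit 252))) (XT.nd (nat_lit 78) (nat_lit 0) (nat_lit 0) (XT.lf (nat_lit 0) (nat_lit 130053350594) (nat_lit 152) (nat_lit 166808131728) (nat_lit 0) (nat_lit 100725734385) (nat_lit 14) (nat_lit 5) (nat_lit 16) (nat_lit 4) (nat_lit 14) (nat_lit 4) (nat_lit 532) (nat_lit 417) (nat_lit 251)) (XT.lf (nat_lit 0) (nat_lit 199102993734) (nat_lit 152) (nat_lit 45387645262) (nat_lit 0) (nat_lit 169774953134) (nat_lit 14) (nat_lit 5) (nat_lit 16) (nat_lit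 4) (nat_lit 14) (nat_lit 4) (nat_lit 533) (nat_lit 417) (nat_lit 250))))) (XT.nd (nat_lit 312) (nat_lit 76) (nat_lit 0) (XT.nd (nat_lit 156) (nat_lit 152) (nat_lit 0) (XT.nd (nat_lit 78) (nat_lit 0) (nat_lit 0) (XT.lf (nat_lit 0) (nat_lit 84814806250) (nat_lit 76) (nat_lit 188112702684) (nat_lit 76) (nat_lit 158784257902) (nat_lit 13) (nat_lit 4) (nat_lit 14) (nat_lit 5) (nat_lit 14) (nat_lit 4) (nat_lit 534) (nat_lit 417) (nat_lit 249)) (XT.lf (nat_lit 0) (nat_lit 223099533215) (nat_lit 76) (nat_lit 128110601279) (nat_lit 76) (nat_lit 98781771563) (nat_lit 13) (nat_lit 4) (nat_lit 14) (nat_lit 5) (nat_lit 14) (nat_lit 4) (nat_lit 535) (nat_lit 417) (nat_lit 248))) (XT.nd (nat_lit 78) (nat_lit 152) (nat_lit 0) (XT.lf (nat_lit 0) (nat_lit 368295064454) (nat_lit 76) (nat_lit 65110134369) (nat_lit 76) (nat_lit 35780938049) (nat_lit 13) (nat_lit 4) (nat_lit 14) (nat_lit 5) (nat_lit 14) (nat_lit 4)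 (nat_lit 536) (nat_lit 417) (nat_lit 247)) (XT.lf (nat_lit 0) (nat_lit 29927356078) (nat_lit 152) (nat_lit 457368087202) (nat_lit 0) (nat_lit 1994455632) (nat_lit 11) (nat_lit 5) (nat_lit 13) (nat_lit 4) (nat_lit 11) (nat_lit 4) (nat_lit 537) (nat_lit 417) (nat_lit 246)))) (XT.nd (nat_lit 156) (nat_lit 76) (nat_lit 0) (XT.nd (nat_lit 78) (nat_lit 0) (nat_lit 0) (XT.lf (nat_lit 0) (nat_lit 100520982369) (nat_lit 152) (nat_lit 337120653239) (nat_lit 0) (nat_lit 72587765236) (nat_lit 11) (nat_lit 5) (nat_lit 13) (nat_lit 4) (nat_lit 11) (nat_lit 4) (nat_lit 538) (nat_lit 417) (nat_lit 245)) (XT.lf (nat_lit 0) (nat_lit 174642730684) (nat_lit 152) (nat_lit 210864013215) (nat_lit 0) (nat_lit 146709211945) (nat_lit 11) (nat_lit 5) (nat_lit 13) (nat_lit 4) (nat_lit 11) (nat_lit 4) (nat_lit 539) (nat_lit 417) (nat_lit 244))) (XT.nd (nat_lit 78) (nat_lit 76) (nat_lit 0) (XT.lf (nat_lit 0) (nat_lit 252469081376)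 (nat_lit 152) (nat_lit 78297556080) (nat_lit 0) (nat_lit 224535275393) (nat_lit 11) (nat_lit 5) (nat_lit 13) (nat_lit 4) (nat_lit 11) (nat_lit 4) (nat_lit 540) (nat_lit 417) (nat_lit 243)) (XT.lf (nat_lit 0) (nat_lit 62907794887) (nat_lit 76) (nat_lit 272259707371) (nat_lit 76) (nat_lit 244325627822) (nat_lit 10) (nat_lit 4) (nat_lit 11) (nat_lit 5) (nat_lit 11) (nat_lit 4) (nat_lit 541) (nat_lit 417) (nat_lit 242))))))) (XT.nd (nat_lit 53352) (nat_lit 0) (nat_lit 7980) (XT.nd (nat_lit 546) (nat_lit 0) (nat_lit 0) (XT.nd (nat_lit 234) (nat_lit 152) (nat_lit 0) (XT.nd (nat_lit 78) (nat_lit 0) (nat_lit 0) (XT.lf (nat_lit 0) (nat_lit 213888902736) (nat_lit 76) (nat_lit 209436557366) (nat_lit 76) (nat_lit 181502217278) (nat_lit 10) (nat_lit 4) (nat_lit 11) (nat_lit 5) (nat_lit 11) (nat_lit 4) (nat_lit 542) (nat_lit 417) (nat_lit 241)) (XT.nd (nat_lit 78) (nat_lit 0) (nat_lit 0) (XT.lf (nat_lit 0)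 (nat_lit 372416375488) (nat_lit 76) (nat_lit 143473615513) (nat_lit 76) (nat_lit 115539027292) (nat_lit 10) (nat_lit 4) (nat_lit 11) (nat_lit 5) (nat_lit 11) (nat_lit 4) (nat_lit 543) (nat_lit 417) (nat_lit 240)) (XT.lf (nat_lit 0) (nat_lit 538867659507) (nat_lit 76) (nat_lit 74213827187) (nat_lit 76) (nat_lit 46279002650) (nat_lit 10) (nat_lit 4) (nat_lit 11) (nat_lit 5) (nat_lit 11) (nat_lit 4) (nat_lit 544) (nat_lit 417) (nat_lit 239)))) (XT.nd (nat_lit 156) (nat_lit 0) (nat_lit 0) (XT.nd (nat_lit 78) (nat_lit 0) (nat_lit 0) (XT.lf (nat_lit 0) (nat_lit 25348952511) (nat_lit 76) (nat_lit 643243640) (nat_lit 152) (nat_lit 662655967194) (nat_lit 8) (nat_lit 5) (nat_lit 9) (nat_lit 5) (nat_lit 10) (nat_lit 4) (nat_lit 545) (nat_lit 417) (nat_lit 238)) (XT.lf (nat_lit 0) (nat_lit 103590545481) (nat_lit 152) (nat_lit 538622766337) (nat_lit 0) (nat_lit 76985532198) (nat_lit 8) (nat_lit 5) (nat_lit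 10) (nat_lit 4) (nat_lit 8) (nat_lit 4) (nat_lit 546) (nat_lit 417) (nat_lit 237))) (XT.nd (nat_lit 78) (nat_lit 0) (nat_lit 0) (XT.lf (nat_lit 0) (nat_lit 185078194713) (nat_lit 152) (nat_lit 407725407877) (nat_lit 0) (nat_lit 158472987012) (nat_lit 8) (nat_lit 5) (nat_lit 10) (nat_lit 4) (nat_lit 8) (nat_lit 4) (nat_lit 547) (nat_lit 417) (nat_lit 236)) (XT.lf (nat_lit 0) (nat_lit 270639119224) (nat_lit 152) (nat_lit 270285432241) (nat_lit 0) (nat_lit 244033726363) (nat_lit 8) (nat_lit 5) (nat_lit 10) (nat_lit 4) (nat_lit 8) (nat_lit 4) (nat_lit 548) (nat_lit 417) (nat_lit 235))))) (XT.nd (nat_lit 52494) (nat_lit 0) (nat_lit 11476) (XT.nd (nat_lit 52338) (nat_lit 0) (nat_lit 11400) (XT.nd (nat_lit 52260) (nat_lit 0) (nat_lit 11400) (XT.lf (nat_lit 0) (nat_lit 360477035503) (nat_lit 152) (nat_lit 125975601393) (nat_lit 0) (nat_lit 333871466299) (nat_lit 8) (nat_lit 5) (nat_lit 10) (nat_lit 4)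 (nat_lit 8) (nat_lit 4) (nat_lit 549) (nat_lit 417) (nat_lit 234)) (XT.lf (nat_lit 0) (nat_lit 1213078359) (nat_lit 0) (nat_lit 1213078359) (nat_lit 684) (nat_lit 2689831106) (nat_lit 158) (nat_lit 5) (nat_lit 158) (nat_lit 3) (nat_lit 167) (nat_lit 3) (nat_lit 418) (nat_lit 418) (nat_lit 364))) (XT.nd (nat_lit 78) (nat_lit 0) (nat_lit 0) (XT.lf (nat_lit 0) (nat_lit 5668709476) (nat_lit 684) (nat_lit 2752008318) (nat_lit 760) (nat_lit 2032193492) (nat_lit 158) (nat_lit 5) (nat_lit 167) (nat_lit 3) (nat_lit 168) (nat_lit 5) (nat_lit 419) (nat_lit 418) (nat_lit 363)) (XT.lf (nat_lit 76) (nat_lit 2573429733) (nat_lit 0) (nat_lit 3990381885) (nat_lit 760) (nat_lit 4119194770) (nat_lit 159) (nat_lit 5) (nat_lit 158) (nat_lit 5) (nat_lit 168) (nat_lit 5) (nat_lit 420) (nat_lit 418) (nat_lit 362)))) (XT.nd (nat_lit 156) (nat_lit 0) (nat_lit 0) (XT.nd (nat_lit 78) (nat_lit 0) (nat_lit 0) (XT.lf (nat_lit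 0) (nat_lit 7521209215) (nat_lit 684) (nat_lit 2698254194) (nat_lit 760) (nat_lit 704272485) (nat_lit 159) (nat_lit 5) (nat_lit 168) (nat_lit 5) (nat_lit 169) (nat_lit 5) (nat_lit 421) (nat_lit 418) (nat_lit 361)) (XT.lf (nat_lit 76) (nat_lit 2989550162) (nat_lit 0) (nat_lit 5610772450) (nat_lit 760) (nat_lit 2572493315) (nat_lit 160) (nat_lit 5) (nat_lit 159) (nat_lit 5) (nat_lit 169) (nat_lit 5) (nat_lit 422) (nat_lit 418) (nat_lit 360))) (XT.nd (nat_lit 78) (nat_lit 0) (nat_lit 76) (XT.lf (nat_lit 76) (nat_lit 9031462405) (nat_lit 0) (nat_lit 710827219) (nat_lit 760) (nat_lit 1691621487) (nat_lit 160) (nat_lit 5) (nat_lit 159) (nat_lit 5) (nat_lit 169) (nat_lit 5) (nat_lit 423) (nat_lit 418) (nat_lit 359)) (XT.lf (nat_lit 76) (nat_lit 3691565745) (nat_lit 0) (nat_lit 7341798802) (nat_lit 760) (nat_lit 670101789) (nat_lit 161) (nat_lit 5) (nat_lit 160) (nat_lit 5) (nat_lit 170) (nat_lit 5)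 (nat_lit 424) (nat_lit 418) (nat_lit 358)))))) (XT.nd (nat_lit 624) (nat_lit 1824) (nat_lit 0) (XT.nd (nat_lit 312) (nat_lit 988) (nat_lit 0) (XT.nd (nat_lit 156) (nat_lit 0) (nat_lit 76) (XT.nd (nat_lit 78) (nat_lit 0) (nat_lit 76) (XT.lf (nat_lit 0) (nat_lit 408486590) (nat_lit 760) (nat_lit 1854882370) (nat_lit 836) (nat_lit 9721877629) (nat_lit 150) (nat_lit 5) (nat_lit 160) (nat_lit 5) (nat_lit 161) (nat_lit 5) (nat_lit 425) (nat_lit 418) (nat_lit 357)) (XT.lf (nat_lit 0) (nat_lit 1609197500) (nat_lit 760) (nat_lit 7601966386) (nat_lit 836) (nat_lit 3064872036) (nat_lit 151) (nat_lit 5) (nat_lit 161) (nat_lit 5) (nat_lit 162) (nat_lit 5) (nat_lit 426) (nat_lit 418) (nat_lit 356))) (XT.nd (nat_lit 78) (nat_lit 0) (nat_lit 76) (XT.lf (nat_lit 0) (nat_lit 2907761386) (nat_lit 760) (nat_lit 1049130290) (nat_lit 836) (nat_lit 8622586910) (nat_lit 151) (nat_lit 5) (nat_lit 161) (nat_lit 5) (nat_lit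 162) (nat_lit 5) (nat_lit 427) (nat_lit 418) (nat_lit 355)) (XT.lf (nat_lit 0) (nat_lit 4361162252) (nat_lit 760) (nat_lit 6921890193) (nat_lit 76) (nat_lit 1610550012) (nat_lit 152) (nat_lit 5) (nat_lit 162) (nat_lit 5) (nat_lit 153) (nat_lit 5) (nat_lit 428) (nat_lit 418) (nat_lit 354)))) (XT.nd (nat_lit 156) (nat_lit 380) (nat_lit 0) (XT.nd (nat_lit 78) (nat_lit 0) (nat_lit 0) (XT.lf (nat_lit 0) (nat_lit 69043429) (nat_lit 760) (nat_lit 5873579740) (nat_lit 836) (nat_lit 7278044148) (nat_lit 142) (nat_lit 5) (nat_lit 152) (nat_lit 5) (nat_lit 153) (nat_lit 5) (nat_lit 429) (nat_lit 418) (nat_lit 353)) (XT.lf (nat_lit 0) (nat_lit 7624762888) (nat_lit 760) (nat_lit 67977077) (nat_lit 836) (nat_lit 5866870407) (nat_lit 142) (nat_lit 5) (nat_lit 152) (nat_lit 5) (nat_lit 153) (nat_lit 5) (nat_lit 430) (nat_lit 418) (nat_lit 352))) (XT.nd (nat_lit 78) (nat_lit 0) (nat_lit 0) (XT.lf (nat_lit 0)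 (nat_lit 1573788597) (nat_lit 380) (nat_lit 8048969553) (nat_lit 456) (nat_lit 4288126548) (nat_lit 137) (nat_lit 5) (nat_lit 142) (nat_lit 5) (nat_lit 143) (nat_lit 5) (nat_lit 431) (nat_lit 418) (nat_lit 351)) (XT.lf (nat_lit 0) (nat_lit 9637919118) (nat_lit 380) (nat_lit 2087539987) (nat_lit 456) (nat_lit 2550458256) (nat_lit 137) (nat_lit 5) (nat_lit 142) (nat_lit 5) (nat_lit 143) (nat_lit 5) (nat_lit 432) (nat_lit 418) (nat_lit 350))))) (XT.nd (nat_lit 312) (nat_lit 988) (nat_lit 0) (XT.nd (nat_lit 156) (nat_lit 380) (nat_lit 0) (XT.nd (nat_lit 78) (nat_lit 76) (nat_lit 0) (XT.lf (nat_lit 0) (nat_lit 3467013320) (nat_lit 380) (nat_lit 10561343020) (nat_lit 456) (nat_lit 626095790) (nat_lit 132) (nat_lit 5) (nat_lit 137) (nat_lit 5) (nat_lit 138) (nat_lit 5) (nat_lit 433) (nat_lit 418) (nat_lit 349)) (XT.lf (nat_lit 0) (nat_lit 1440087501) (nat_lit 456) (nat_lit 2992232409) (nat_lit 76) (nat_lit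 10613996598) (nat_lit 131) (nat_lit 5) (nat_lit 137) (nat_lit 5) (nat_lit 132) (nat_lit 5) (nat_lit 434) (nat_lit 418) (nat_lit 348))) (XT.nd (nat_lit 78) (nat_lit 0) (nat_lit 0) (XT.lf (nat_lit 0) (nat_lit 3688723043) (nat_lit 456) (nat_lit 9723936404) (nat_lit 76) (nat_lit 2039595316) (nat_lit 126) (nat_lit 5) (nat_lit 132) (nat_lit 5) (nat_lit 127) (nat_lit 5) (nat_lit 435) (nat_lit 418) (nat_lit 347)) (XT.lf (nat_lit 0) (nat_lit 6151954239) (nat_lit 456) (nat_lit 985412991) (nat_lit 76) (nat_lit 8736017417) (nat_lit 126) (nat_lit 5) (nat_lit 132) (nat_lit 5) (nat_lit 127) (nat_lit 5) (nat_lit 436) (nat_lit 418) (nat_lit 346)))) (XT.nd (nat_lit 156) (nat_lit 380) (nat_lit 0) (XT.nd (nat_lit 78) (nat_lit 304) (nat_lit 0) (XT.lf (nat_lit 0) (nat_lit 8436490000) (nat_lit 304) (nat_lit 412619251) (nat_lit 380) (nat_lit 7460926430) (nat_lit 122) (nat_lit 5) (nat_lit 126) (nat_lit 5) (nat_lit 127)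 (nat_lit 5) (nat_lit 437) (nat_lit 418) (nat_lit 345)) (XT.lf (nat_lit 0) (nat_lit 1516312191) (nat_lit 304) (nat_lit 10288881438) (nat_lit 380) (nat_lit 4957124697) (nat_lit 118) (nat_lit 5) (nat_lit 122) (nat_lit 5) (nat_lit 123) (nat_lit 5) (nat_lit 438) (nat_lit 418) (nat_lit 344))) (XT.nd (nat_lit 78) (nat_lit 380) (nat_lit 0) (XT.lf (nat_lit 0) (nat_lit 11618255799) (nat_lit 304) (nat_lit 3411058537) (nat_lit 380) (nat_lit 2201891673) (nat_lit 118) (nat_lit 5) (nat_lit 122) (nat_lit 5) (nat_lit 123) (nat_lit 5) (nat_lit 439) (nat_lit 418) (nat_lit 343)) (XT.lf (nat_lit 0) (nat_lit 782696515) (nat_lit 380) (nat_lit 13165726596) (nat_lit 76) (nat_lit 3768892086) (nat_lit 113) (nat_lit 5) (nat_lit 118) (nat_lit 5) (nat_lit 114) (nat_lit 5) (nat_lit 440) (nat_lit 418) (nat_lit 342))))))))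
noncomputable def xc135 : XT := (XT.nd (nat_lit 2418) (nat_lit 2204) (nat_lit 0) (XT.nd (nat_lit 1170) (nat_lit 1672) (nat_lit 0) (XT.nd (nat_lit 546) (nat_lit 1140) (nat_lit 0) (XT.nd (nat_lit 234) (nat_lit 532) (nat_lit 0) (XT.nd (nat_lit 78) (nat_lit 532) (nat_lit 0) (XT.lf (nat_lit 0) (nat_lit 3976402693) (nat_lit 380) (nat_lit 2921089983) (nat_lit 76) (nat_lit 11321740179) (nat_lit 113) (nat_lit 5) (nat_lit 118) (nat_lit 5) (nat_lit 114) (nat_lit 5) (nat_lit 441) (nat_lit 418) (nat_lit 341)) (XT.nd (nat_lit 78) (nat_lit 228) (nat_lit 0) (XT.lf (nat_lit 0) (nat_lit 7447941630) (nat_lit 380) (nat_lit 10679239744) (nat_lit 76) (nat_lit 613159716) (nat_lit 109) (nat_lit 5) (nat_lit 114) (nat_lit 5) (nat_lit 110) (nat_lit 5) (nat_lit 442) (nat_lit 418) (nat_lit 340)) (XT.lf (nat_lit 0) (nat_lit 280835644) (nat_lit 228) (nat_lit 10962620477) (nat_lit 304) (nat_lit 8036530655) (nat_lit 106) (nat_lit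 5) (nat_lit 109) (nat_lit 5) (nat_lit 110) (nat_lit 5) (nat_lit 443) (nat_lit 418) (nat_lit 339)))) (XT.nd (nat_lit 156) (nat_lit 304) (nat_lit 0) (XT.nd (nat_lit 78) (nat_lit 228) (nat_lit 0) (XT.lf (nat_lit 0) (nat_lit 12136992842) (nat_lit 228) (nat_lit 3255742492) (nat_lit 304) (nat_lit 4445681838) (nat_lit 106) (nat_lit 5) (nat_lit 109) (nat_lit 5) (nat_lit 110) (nat_lit 5) (nat_lit 444) (nat_lit 418) (nat_lit 338)) (XT.lf (nat_lit 0) (nat_lit 4197711130) (nat_lit 228) (nat_lit 15676664183) (nat_lit 304) (nat_lit 544150719) (nat_lit 103) (nat_lit 5) (nat_lit 106) (nat_lit 5) (nat_lit 107) (nat_lit 5) (nat_lit 445) (nat_lit 418) (nat_lit 337))) (XT.nd (nat_lit 78) (nat_lit 228) (nat_lit 0) (XT.lf (nat_lit 0) (nat_lit 3608709103) (nat_lit 304) (nat_lit 4195404161) (nat_lit 76) (nat_lit 13212257851) (nat_lit 102) (nat_lit 5) (nat_lit 106) (nat_lit 5) (nat_lit 103) (nat_lit 5) (nat_lit 446)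 (nat_lit 418) (nat_lit 336)) (XT.lf (nat_lit 0) (nat_lit 8080684664) (nat_lit 304) (nat_lit 12968424511) (nat_lit 76) (nat_lit 588066807) (nat_lit 99) (nat_lit 5) (nat_lit 103) (nat_lit 5) (nat_lit 100) (nat_lit 5) (nat_lit 447) (nat_lit 418) (nat_lit 335))))) (XT.nd (nat_lit 312) (nat_lit 684) (nat_lit 0) (XT.nd (nat_lit 156) (nat_lit 228) (nat_lit 0) (XT.nd (nat_lit 78) (nat_lit 228) (nat_lit 0) (XT.lf (nat_lit 0) (nat_lit 12961485535) (nat_lit 304) (nat_lit 114518538) (nat_lit 76) (nat_lit 9203757161) (nat_lit 99) (nat_lit 5) (nat_lit 103) (nat_lit 5) (nat_lit 100) (nat_lit 5) (nat_lit 448) (nat_lit 418) (nat_lit 334)) (XT.lf (nat_lit 0) (nat_lit 13803186331) (nat_lit 228) (nat_lit 4484431564) (nat_lit 304) (nat_lit 4656794681) (nat_lit 96) (nat_lit 5) (nat_lit 99) (nat_lit 5) (nat_lit 100) (nat_lit 5) (nat_lit 449) (nat_lit 418) (nat_lit 333))) (XT.nd (nat_lit 78) (nat_lit 0) (nat_lit 0)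 (XT.lf (nat_lit 0) (nat_lit 366790773) (nat_lit 228) (nat_lit 18799780522) (nat_lit 76) (nat_lit 4468708844) (nat_lit 93) (nat_lit 5) (nat_lit 96) (nat_lit 5) (nat_lit 94) (nat_lit 5) (nat_lit 450) (nat_lit 418) (nat_lit 332)) (XT.lf (nat_lit 0) (nat_lit 5702082197) (nat_lit 228) (nat_lit 4697984709) (nat_lit 76) (nat_lit 13945957060) (nat_lit 93) (nat_lit 5) (nat_lit 96) (nat_lit 5) (nat_lit 94) (nat_lit 5) (nat_lit 451) (nat_lit 418) (nat_lit 331)))) (XT.nd (nat_lit 156) (nat_lit 304) (nat_lit 0) (XT.nd (nat_lit 78) (nat_lit 152) (nat_lit 0) (XT.lf (nat_lit 0) (nat_lit 10422421925) (nat_lit 228) (nat_lit 1031259755) (nat_lit 304) (nat_lit 13631147283) (nat_lit 90) (nat_lit 5) (nat_lit 93) (nat_lit 5) (nat_lit 94) (nat_lit 5) (nat_lit 452) (nat_lit 418) (nat_lit 330)) (XT.lf (nat_lit 0) (nat_lit 461047463) (nat_lit 152) (nat_lit 17244397346) (nat_lit 228) (nat_lit 8144501311) (nat_lit 88) (nat_lit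 5) (nat_lit 90) (nat_lit 5) (nat_lit 91) (nat_lit 5) (nat_lit 453) (nat_lit 418) (nat_lit 329))) (XT.nd (nat_lit 78) (nat_lit 304) (nat_lit 0) (XT.lf (nat_lit 0) (nat_lit 16812307767) (nat_lit 152) (nat_lit 7709774910) (nat_lit 228) (nat_lit 2118623174) (nat_lit 88) (nat_lit 5) (nat_lit 90) (nat_lit 5) (nat_lit 91) (nat_lit 5) (nat_lit 454) (nat_lit 418) (nat_lit 328)) (XT.lf (nat_lit 0) (nat_lit 4203819527) (nat_lit 304) (nat_lit 20864292791) (nat_lit 76) (nat_lit 2393108310) (nat_lit 84) (nat_lit 5) (nat_lit 88) (nat_lit 5) (nat_lit 85) (nat_lit 5) (nat_lit 455) (nat_lit 418) (nat_lit 327)))))) (XT.nd (nat_lit 624) (nat_lit 760) (nat_lit 0) (XT.nd (nat_lit 312) (nat_lit 532) (nat_lit 0) (XT.nd (nat_lit 156) (nat_lit 228) (nat_lit 0) (XT.nd (nat_lit 78) (nat_lit 152) (nat_lit 0) (XT.lf (nat_lit 0) (nat_lit 11054668981) (nat_lit 304) (nat_lit 4313128221) (nat_lit 76) (nat_lit 12939054054) (nat_lit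 84) (nat_lit 5) (nat_lit 88) (nat_lit 5) (nat_lit 85) (nat_lit 5) (nat_lit 456) (nat_lit 418) (nat_lit 326)) (XT.lf (nat_lit 0) (nat_lit 13478338529) (nat_lit 152) (nat_lit 4968649541) (nat_lit 228) (nat_lit 10737829846) (nat_lit 82) (nat_lit 5) (nat_lit 84) (nat_lit 5) (nat_lit 85) (nat_lit 5) (nat_lit 457) (nat_lit 418) (nat_lit 325))) (XT.nd (nat_lit 78) (nat_lit 76) (nat_lit 0) (XT.lf (nat_lit 0) (nat_lit 2162401063) (nat_lit 152) (nat_lit 24236072056) (nat_lit 228) (nat_lit 3698733108) (nat_lit 80) (nat_lit 5) (nat_lit 82) (nat_lit 5) (nat_lit 83) (nat_lit 5) (nat_lit 458) (nat_lit 418) (nat_lit 324)) (XT.lf (nat_lit 0) (nat_lit 3914664362) (nat_lit 228) (nat_lit 9734225703) (nat_lit 76) (nat_lit 17386416103) (nat_lit 79) (nat_lit 5) (nat_lit 82) (nat_lit 5) (nat_lit 80) (nat_lit 5) (nat_lit 459) (nat_lit 418) (nat_lit 323)))) (XT.nd (nat_lit 156) (nat_lit 380) (nat_lit 0) (XT.nd (nat_lit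 78) (nat_lit 0) (nat_lit 0) (XT.lf (nat_lit 0) (nat_lit 9605203487) (nat_lit 152) (nat_lit 2318440624) (nat_lit 228) (nat_lit 20086675247) (nat_lit 77) (nat_lit 5) (nat_lit 79) (nat_lit 5) (nat_lit 80) (nat_lit 5) (nat_lit 460) (nat_lit 418) (nat_lit 322)) (XT.lf (nat_lit 0) (nat_lit 20639550822) (nat_lit 228) (nat_lit 2946631694) (nat_lit 76) (nat_lit 9432577466) (nat_lit 77) (nat_lit 5) (nat_lit 80) (nat_lit 5) (nat_lit 78) (nat_lit 5) (nat_lit 461) (nat_lit 418) (nat_lit 321))) (XT.nd (nat_lit 78) (nat_lit 228) (nat_lit 0) (XT.lf (nat_lit 0) (nat_lit 18005834909) (nat_lit 152) (nat_lit 12094426642) (nat_lit 228) (nat_lit 3961911293) (nat_lit 75) (nat_lit 5) (nat_lit 77) (nat_lit 5) (nat_lit 78) (nat_lit 5) (nat_lit 462) (nat_lit 418) (nat_lit 320)) (XT.lf (nat_lit 0) (nat_lit 4842015389) (nat_lit 228) (nat_lit 30131436067) (nat_lit 76) (nat_lit 174407157) (nat_lit 72) (nat_lit 5) (nat_lit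 75) (nat_lit 5) (nat_lit 73) (nat_lit 5) (nat_lit 463) (nat_lit 418) (nat_lit 319))))) (XT.nd (nat_lit 312) (nat_lit 456) (nat_lit 0) (XT.nd (nat_lit 156) (nat_lit 152) (nat_lit 0) (XT.nd (nat_lit 78) (nat_lit 152) (nat_lit 0) (XT.lf (nat_lit 0) (nat_lit 14417677234) (nat_lit 228) (nat_lit 8859039823) (nat_lit 76) (nat_lit 12984630445) (nat_lit 72) (nat_lit 5) (nat_lit 75) (nat_lit 5) (nat_lit 73) (nat_lit 5) (nat_lit 464) (nat_lit 418) (nat_lit 318)) (XT.lf (nat_lit 0) (nat_lit 13905474736) (nat_lit 152) (nat_lit 10774261487) (nat_lit 228) (nat_lit 12740394438) (nat_lit 70) (nat_lit 5) (nat_lit 72) (nat_lit 5) (nat_lit 73) (nat_lit 5) (nat_lit 465) (nat_lit 418) (nat_lit 317))) (XT.nd (nat_lit 78) (nat_lit 152) (nat_lit 0) (XT.lf (nat_lit 0) (nat_lit 35634730407) (nat_lit 228) (nat_lit 569424021) (nat_lit 76) (nat_lit 2423707440) (nat_lit 70) (nat_lit 5) (nat_lit 73) (nat_lit 5) (nat_lit 71)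 (nat_lit 4) (nat_lit 466) (nat_lit 418) (nat_lit 316)) (XT.lf (nat_lit 0) (nat_lit 7562612092) (nat_lit 152) (nat_lit 15888761539) (nat_lit 76) (nat_lit 16411308936) (nat_lit 68) (nat_lit 5) (nat_lit 70) (nat_lit 5) (nat_lit 69) (nat_lit 5) (nat_lit 467) (nat_lit 418) (nat_lit 315)))) (XT.nd (nat_lit 156) (nat_lit 304) (nat_lit 0) (XT.nd (nat_lit 78) (nat_lit 0) (nat_lit 0) (XT.lf (nat_lit 0) (nat_lit 8822697343) (nat_lit 152) (nat_lit 9861490139) (nat_lit 228) (nat_lit 22465672189) (nat_lit 66) (nat_lit 5) (nat_lit 68) (nat_lit 5) (nat_lit 69) (nat_lit 5) (nat_lit 468) (nat_lit 418) (nat_lit 314)) (XT.lf (nat_lit 0) (nat_lit 30695313572) (nat_lit 228) (nat_lit 7255792486) (nat_lit 76) (nat_lit 4533616389) (nat_lit 66) (nat_lit 5) (nat_lit 69) (nat_lit 5) (nat_lit 67) (nat_lit 4) (nat_lit 469) (nat_lit 418) (nat_lit 313))) (XT.nd (nat_lit 78) (nat_lit 228) (nat_lit 0) (XT.lf (nat_lit 0) (nat_lit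 19516934973) (nat_lit 76) (nat_lit 24248017272) (nat_lit 152) (nat_lit 98478698) (nat_lit 65) (nat_lit 5) (nat_lit 66) (nat_lit 5) (nat_lit 67) (nat_lit 4) (nat_lit 470) (nat_lit 418) (nat_lit 312)) (XT.lf (nat_lit 0) (nat_lit 2446191258) (nat_lit 152) (nat_lit 9495763585) (nat_lit 228) (nat_lit 33351879680) (nat_lit 62) (nat_lit 5) (nat_lit 64) (nat_lit 5) (nat_lit 65) (nat_lit 5) (nat_lit 471) (nat_lit 418) (nat_lit 311))))))) (XT.nd (nat_lit 1248) (nat_lit 1064) (nat_lit 0) (XT.nd (nat_lit 624) (nat_lit 532) (nat_lit 0) (XT.nd (nat_lit 312) (nat_lit 304) (nat_lit 0) (XT.nd (nat_lit 156) (nat_lit 228) (nat_lit 0) (XT.nd (nat_lit 78) (nat_lit 76) (nat_lit 0) (XT.lf (nat_lit 0) (nat_lit 25085434074) (nat_lit 228) (nat_lit 15468635866) (nat_lit 76) (nat_lit 6216391287) (nat_lit 62) (nat_lit 5) (nat_lit 65) (nat_lit 5) (nat_lit 63) (nat_lit 4) (nat_lit 472) (nat_lit 418) (nat_lit 310)) (XT.lf (nat_lit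 0) (nat_lit 13542524441) (nat_lit 76) (nat_lit 25702734284) (nat_lit 152) (nat_lit 9057702291) (nat_lit 61) (nat_lit 5) (nat_lit 62) (nat_lit 5) (nat_lit 63) (nat_lit 4) (nat_lit 473) (nat_lit 418) (nat_lit 309))) (XT.nd (nat_lit 78) (nat_lit 152) (nat_lit 0) (XT.lf (nat_lit 0) (nat_lit 4324886861) (nat_lit 152) (nat_lit 5442193501) (nat_lit 76) (nat_lit 40128808470) (nat_lit 60) (nat_lit 5) (nat_lit 62) (nat_lit 5) (nat_lit 61) (nat_lit 5) (nat_lit 474) (nat_lit 418) (nat_lit 308)) (XT.lf (nat_lit 0) (nat_lit 18588539576) (nat_lit 228) (nat_lit 25646731444) (nat_lit 76) (nat_lit 7299951337) (nat_lit 58) (nat_lit 5) (nat_lit 61) (nat_lit 5) (nat_lit 59) (nat_lit 4) (nat_lit 475) (nat_lit 418) (nat_lit 307)))) (XT.nd (nat_lit 156) (nat_lit 228) (nat_lit 0) (XT.nd (nat_lit 78) (nat_lit 0) (nat_lit 0) (XT.lf (nat_lit 0) (nat_lit 5730570084) (nat_lit 76) (nat_lit 28170584054) (nat_lit 152) (nat_lit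 19338579725) (nat_lit 57) (nat_lit 5) (nat_lit 58) (nat_lit 5) (nat_lit 59) (nat_lit 4) (nat_lit 476) (nat_lit 418) (nat_lit 306)) (XT.lf (nat_lit 0) (nat_lit 39553405417) (nat_lit 76) (nat_lit 10852991658) (nat_lit 152) (nat_lit 4601724241) (nat_lit 57) (nat_lit 5) (nat_lit 58) (nat_lit 5) (nat_lit 59) (nat_lit 4) (nat_lit 477) (nat_lit 418) (nat_lit 305))) (XT.nd (nat_lit 78) (nat_lit 0) (nat_lit 0) (XT.lf (nat_lit 0) (nat_lit 10929430770) (nat_lit 228) (nat_lit 38348958719) (nat_lit 76) (nat_lit 7557780393) (nat_lit 54) (nat_lit 5) (nat_lit 57) (nat_lit 5) (nat_lit 55) (nat_lit 4) (nat_lit 478) (nat_lit 418) (nat_lit 304)) (XT.lf (nat_lit 0) (nat_lit 27519368149) (nat_lit 228) (nat_lit 4350741558) (nat_lit 76) (nat_lit 26859895847) (nat_lit 54) (nat_lit 5) (nat_lit 57) (nat_lit 5) (nat_lit 55) (nat_lit 4) (nat_lit 479) (nat_lit 418) (nat_lit 303))))) (XT.nd (nat_lit 312) (nat_lit 228) (nat_lit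 0) (XT.nd (nat_lit 156) (nat_lit 76) (nat_lit 0) (XT.nd (nat_lit 78) (nat_lit 152) (nat_lit 0) (XT.lf (nat_lit 0) (nat_lit 32370739867) (nat_lit 76) (nat_lit 13066728149) (nat_lit 152) (nat_lit 15256131921) (nat_lit 53) (nat_lit 5) (nat_lit 54) (nat_lit 5) (nat_lit 55) (nat_lit 4) (nat_lit 480) (nat_lit 418) (nat_lit 302)) (XT.lf (nat_lit 0) (nat_lit 1758056741) (nat_lit 152) (nat_lit 54287590344) (nat_lit 76) (nat_lit 6693067109) (nat_lit 51) (nat_lit 5) (nat_lit 53) (nat_lit 5) (nat_lit 52) (nat_lit 4) (nat_lit 481) (nat_lit 418) (nat_lit 301))) (XT.nd (nat_lit 78) (nat_lit 76) (nat_lit 0) (XT.lf (nat_lit 0) (nat_lit 19805298140) (nat_lit 152) (nat_lit 17299922284) (nat_lit 76) (nat_lit 27733606424) (nat_lit 51) (nat_lit 5) (nat_lit 53) (nat_lit 5) (nat_lit 52) (nat_lit 4) (nat_lit 482) (nat_lit 418) (nat_lit 300)) (XT.lf (nat_lit 0) (nat_lit 22236688340) (nat_lit 76) (nat_lit 16859024649)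 (nat_lit 152) (nat_lit 27931191750) (nat_lit 50) (nat_lit 5) (nat_lit 51) (nat_lit 5) (nat_lit 52) (nat_lit 4) (nat_lit 483) (nat_lit 418) (nat_lit 299)))) (XT.nd (nat_lit 156) (nat_lit 76) (nat_lit 0) (XT.nd (nat_lit 78) (nat_lit 152) (nat_lit 0) (XT.lf (nat_lit 0) (nat_lit 59710784020) (nat_lit 152) (nat_lit 5044666087) (nat_lit 0) (nat_lit 4550929807) (nat_lit 50) (nat_lit 5) (nat_lit 52) (nat_lit 4) (nat_lit 50) (nat_lit 4) (nat_lit 484) (nat_lit 418) (nat_lit 298)) (XT.lf (nat_lit 0) (nat_lit 10219199417) (nat_lit 152) (nat_lit 34218045188) (nat_lit 76) (nat_lit 27211471076) (nat_lit 48) (nat_lit 5) (nat_lit 50) (nat_lit 5) (nat_lit 49) (nat_lit 4) (nat_lit 485) (nat_lit 418) (nat_lit 297))) (XT.nd (nat_lit 78) (nat_lit 0) (nat_lit 0) (XT.lf (nat_lit 0) (nat_lit 8192922688) (nat_lit 76) (nat_lit 22718061190) (nat_lit 152) (nat_lit 43178883041) (nat_lit 47) (nat_lit 5) (nat_lit 48) (nat_lit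 5) (nat_lit 49) (nat_lit 4) (nat_lit 486) (nat_lit 418) (nat_lit 296)) (XT.lf (nat_lit 0) (nat_lit 53221714177) (nat_lit 152) (nat_lit 22734184085) (nat_lit 0) (nat_lit 667959759) (nat_lit 47) (nat_lit 5) (nat_lit 49) (nat_lit 4) (nat_lit 47) (nat_lit 4) (nat_lit 487) (nat_lit 418) (nat_lit 295)))))) (XT.nd (nat_lit 624) (nat_lit 532) (nat_lit 0) (XT.nd (nat_lit 312) (nat_lit 228) (nat_lit 0) (XT.nd (nat_lit 156) (nat_lit 152) (nat_lit 0) (XT.nd (nat_lit 78) (nat_lit 76) (nat_lit 0) (XT.lf (nat_lit 0) (nat_lit 22937343183) (nat_lit 76) (nat_lit 54435464955) (nat_lit 76) (nat_lit 1875499313) (nat_lit 46) (nat_lit 4) (nat_lit 47) (nat_lit 5) (nat_lit 47) (nat_lit 4) (nat_lit 488) (nat_lit 418) (nat_lit 294)) (XT.lf (nat_lit 0) (nat_lit 20449688367) (nat_lit 152) (nat_lit 10644019940) (nat_lit 76) (nat_lit 50874809478) (nat_lit 45) (nat_lit 5) (nat_lit 47) (nat_lit 5) (nat_lit 46) (nat_lit 4) (nat_lit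 489) (nat_lit 418) (nat_lit 293))) (XT.nd (nat_lit 78) (nat_lit 76) (nat_lit 0) (XT.lf (nat_lit 0) (nat_lit 38497109899) (nat_lit 76) (nat_lit 5926609494) (nat_lit 152) (nat_lit 40369701407) (nat_lit 44) (nat_lit 5) (nat_lit 45) (nat_lit 5) (nat_lit 46) (nat_lit 4) (nat_lit 490) (nat_lit 418) (nat_lit 292)) (XT.lf (nat_lit 0) (nat_lit 2459412261) (nat_lit 76) (nat_lit 67673282036) (nat_lit 76) (nat_lit 17600062658) (nat_lit 43) (nat_lit 4) (nat_lit 44) (nat_lit 5) (nat_lit 44) (nat_lit 4) (nat_lit 491) (nat_lit 418) (nat_lit 291)))) (XT.nd (nat_lit 156) (nat_lit 76) (nat_lit 0) (XT.nd (nat_lit 78) (nat_lit 76) (nat_lit 0) (XT.lf (nat_lit 0) (nat_lit 6994812966) (nat_lit 152) (nat_lit 35738719454) (nat_lit 76) (nat_lit 48036170661) (nat_lit 42) (nat_lit 5) (nat_lit 44) (nat_lit 5) (nat_lit 43) (nat_lit 4) (nat_lit 492) (nat_lit 418) (nat_lit 290)) (XT.lf (nat_lit 0) (nat_lit 16502199410) (nat_lit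 76) (nat_lit 15978249544) (nat_lit 152) (nat_lit 61450996664) (nat_lit 41) (nat_lit 5) (nat_lit 42) (nat_lit 5) (nat_lit 43) (nat_lit 4) (nat_lit 493) (nat_lit 418) (nat_lit 289))) (XT.nd (nat_lit 78) (nat_lit 76) (nat_lit 0) (XT.lf (nat_lit 0) (nat_lit 60039550361) (nat_lit 152) (nat_lit 24834248940) (nat_lit 0) (nat_lit 12337516886) (nat_lit 41) (nat_lit 5) (nat_lit 43) (nat_lit 4) (nat_lit 41) (nat_lit 4) (nat_lit 494) (nat_lit 418) (nat_lit 288)) (XT.lf (nat_lit 0) (nat_lit 31114808797) (nat_lit 76) (nat_lit 58604633540) (nat_lit 76) (nat_lit 10898596255) (nat_lit 40) (nat_lit 4) (nat_lit 41) (nat_lit 5) (nat_lit 41) (nat_lit 4) (nat_lit 495) (nat_lit 418) (nat_lit 287))))) (XT.nd (nat_lit 312) (nat_lit 304) (nat_lit 0) (XT.nd (nat_lit 156) (nat_lit 76) (nat_lit 0) (XT.nd (nat_lit 78) (nat_lit 76) (nat_lit 0) (XT.lf (nat_lit 0) (nat_lit 16576692882) (nat_lit 152) (nat_lit 13727630028) (nat_lit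 76) (nat_lit 73856617343) (nat_lit 39) (nat_lit 5) (nat_lit 41) (nat_lit 5) (nat_lit 40) (nat_lit 4) (nat_lit 496) (nat_lit 418) (nat_lit 286)) (XT.lf (nat_lit 0) (nat_lit 45780440833) (nat_lit 152) (nat_lit 61716535635) (nat_lit 0) (nat_lit 339029393) (nat_lit 38) (nat_lit 5) (nat_lit 40) (nat_lit 4) (nat_lit 38) (nat_lit 4) (nat_lit 497) (nat_lit 418) (nat_lit 285))) (XT.nd (nat_lit 78) (nat_lit 76) (nat_lit 0) (XT.lf (nat_lit 0) (nat_lit 77172821596) (nat_lit 152) (nat_lit 2757464739) (nat_lit 0) (nat_lit 31728116211) (nat_lit 38) (nat_lit 5) (nat_lit 40) (nat_lit 4) (nat_lit 38) (nat_lit 4) (nat_lit 498) (nat_lit 418) (nat_lit 284)) (XT.lf (nat_lit 0) (nat_lit 61096280701) (nat_lit 76) (nat_lit 49988003873) (nat_lit 76) (nat_lit 4540161397) (nat_lit 37) (nat_lit 4) (nat_lit 38) (nat_lit 5) (nat_lit 38) (nat_lit 4) (nat_lit 499) (nat_lit 418) (nat_lit 283)))) (XT.nd (nat_lit 156) (nat_lit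 152) (nat_lit 0) (XT.nd (nat_lit 78) (nat_lit 0) (nat_lit 0) (XT.lf (nat_lit 0) (nat_lit 8287712249) (nat_lit 76) (nat_lit 17926210887) (nat_lit 152) (nat_lit 93545245149) (nat_lit 35) (nat_lit 5) (nat_lit 36) (nat_lit 5) (nat_lit 37) (nat_lit 4) (nat_lit 500) (nat_lit 418) (nat_lit 282)) (XT.lf (nat_lit 0) (nat_lit 59533050350) (nat_lit 152) (nat_lit 48261023614) (nat_lit 0) (nat_lit 16243835479) (nat_lit 35) (nat_lit 5) (nat_lit 37) (nat_lit 4) (nat_lit 35) (nat_lit 4) (nat_lit 501) (nat_lit 418) (nat_lit 281))) (XT.nd (nat_lit 78) (nat_lit 76) (nat_lit 0) (XT.lf (nat_lit 0) (nat_lit 18396522680) (nat_lit 76) (nat_lit 76698507980) (nat_lit 76) (nat_lit 33406712217) (nat_lit 34) (nat_lit 4) (nat_lit 35) (nat_lit 5) (nat_lit 35) (nat_lit 4) (nat_lit 502) (nat_lit 418) (nat_lit 280)) (XT.lf (nat_lit 0) (nat_lit 96993533) (nat_lit 152) (nat_lit 43095417011) (nat_lit 76) (nat_lit 89955619334) (nat_lit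 33) (nat_lit 5) (nat_lit 35) (nat_lit 5) (nat_lit 34) (nat_lit 4) (nat_lit 503) (nat_lit 418) (nat_lit 279))))))))
noncomputable def xc136 : XT := (XT.nd (nat_lit 2418) (nat_lit 456) (nat_lit 0) (XT.nd (nat_lit 1170) (nat_lit 684) (nat_lit 0) (XT.nd (nat_lit 546) (nat_lit 380) (nat_lit 0) (XT.nd (nat_lit 234) (nat_lit 228) (nat_lit 0) (XT.nd (nat_lit 78) (nat_lit 76) (nat_lit 0) (XT.lf (nat_lit 0) (nat_lit 27592408777) (nat_lit 76) (nat_lit 6987592919) (nat_lit 152) (nat_lit 103397906942) (nat_lit 32) (nat_lit 5) (nat_lit 33) (nat_lit 5) (nat_lit 34) (nat_lit 4) (nat_lit 504) (nat_lit 418) (nat_lit 278)) (XT.nd (nat_lit 78) (nat_lit 76) (nat_lit 0) (XT.lf (nat_lit 0) (nat_lit 72009406519) (nat_lit 152) (nat_lit 40206331432) (nat_lit 0) (nat_lit 30772431117) (nat_lit 32) (nat_lit 5) (nat_lit 34) (nat_lit 4) (nat_lit 32) (nat_lit 4) (nat_lit 505) (nat_lit 418) (nat_lit 277)) (XT.lf (nat_lit 0)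 (nat_lit 34462691501) (nat_lit 76) (nat_lit 77496403981) (nat_lit 76) (nat_lit 36257406382) (nat_lit 31) (nat_lit 4) (nat_lit 32) (nat_lit 5) (nat_lit 32) (nat_lit 4) (nat_lit 506) (nat_lit 418) (nat_lit 276)))) (XT.nd (nat_lit 156) (nat_lit 76) (nat_lit 0) (XT.nd (nat_lit 78) (nat_lit 76) (nat_lit 0) (XT.lf (nat_lit 0) (nat_lit 881899174) (nat_lit 152) (nat_lit 39433030193) (nat_lit 76) (nat_lit 113356751662) (nat_lit 30) (nat_lit 5) (nat_lit 32) (nat_lit 5) (nat_lit 31) (nat_lit 4) (nat_lit 507) (nat_lit 418) (nat_lit 275)) (XT.lf (nat_lit 0) (nat_lit 39258712252) (nat_lit 76) (nat_lit 10297476) (nat_lit 152) (nat_lit 120070423957) (nat_lit 29) (nat_lit 5) (nat_lit 30) (nat_lit 5) (nat_lit 31) (nat_lit 4) (nat_lit 508) (nat_lit 418) (nat_lit 274))) (XT.nd (nat_lit 78) (nat_lit 76) (nat_lit 0) (XT.lf (nat_lit 0) (nat_lit 80911205521) (nat_lit 152) (nat_lit 42681856996) (nat_lit 0) (nat_lit 41630725005)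 (nat_lit 29) (nat_lit 5) (nat_lit 31) (nat_lit 4) (nat_lit 29) (nat_lit 4) (nat_lit 509) (nat_lit 418) (nat_lit 273)) (XT.lf (nat_lit 0) (nat_lit 39855528863) (nat_lit 76) (nat_lit 85398972826) (nat_lit 76) (nat_lit 46116907866) (nat_lit 28) (nat_lit 4) (nat_lit 29) (nat_lit 5) (nat_lit 29) (nat_lit 4) (nat_lit 510) (nat_lit 418) (nat_lit 272))))) (XT.nd (nat_lit 312) (nat_lit 152) (nat_lit 0) (XT.nd (nat_lit 156) (nat_lit 76) (nat_lit 0) (XT.nd (nat_lit 78) (nat_lit 152) (nat_lit 0) (XT.lf (nat_lit 0) (nat_lit 127994833846) (nat_lit 76) (nat_lit 44539589888) (nat_lit 76) (nat_lit 5256015934) (nat_lit 28) (nat_lit 4) (nat_lit 29) (nat_lit 5) (nat_lit 29) (nat_lit 4) (nat_lit 511) (nat_lit 418) (nat_lit 271)) (XT.lf (nat_lit 0) (nat_lit 36587363676) (nat_lit 76) (nat_lit 423550843) (nat_lit 152) (nat_lit 147461719191) (nat_lit 26) (nat_lit 5) (nat_lit 27) (nat_lit 5) (nat_lit 28) (nat_lit 4) (nat_lit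 512) (nat_lit 418) (nat_lit 270))) (XT.nd (nat_lit 78) (nat_lit 76) (nat_lit 0) (XT.lf (nat_lit 0) (nat_lit 82785029023) (nat_lit 152) (nat_lit 63251647325) (nat_lit 0) (nat_lit 45369429220) (nat_lit 26) (nat_lit 5) (nat_lit 28) (nat_lit 4) (nat_lit 26) (nat_lit 4) (nat_lit 513) (nat_lit 418) (nat_lit 269)) (XT.lf (nat_lit 0) (nat_lit 26446934205) (nat_lit 76) (nat_lit 104817660413) (nat_lit 76) (nat_lit 67400819157) (nat_lit 25) (nat_lit 4) (nat_lit 26) (nat_lit 5) (nat_lit 26) (nat_lit 4) (nat_lit 514) (nat_lit 418) (nat_lit 268)))) (XT.nd (nat_lit 156) (nat_lit 0) (nat_lit 0) (XT.nd (nat_lit 78) (nat_lit 152) (nat_lit 0) (XT.lf (nat_lit 0) (nat_lit 122820254004) (nat_lit 76) (nat_lit 60416024989) (nat_lit 76) (nat_lit 22998001397) (nat_lit 25) (nat_lit 4) (nat_lit 26) (nat_lit 5) (nat_lit 26) (nat_lit 4) (nat_lit 515) (nat_lit 418) (nat_lit 267)) (XT.lf (nat_lit 0) (nat_lit 9768500271) (nat_lit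 76) (nat_lit 13249865532) (nat_lit 152) (nat_lit 191137304231) (nat_lit 23) (nat_lit 5) (nat_lit 24) (nat_lit 5) (nat_lit 25) (nat_lit 4) (nat_lit 516) (nat_lit 418) (nat_lit 266))) (XT.nd (nat_lit 78) (nat_lit 0) (nat_lit 0) (XT.lf (nat_lit 0) (nat_lit 72561875694) (nat_lit 152) (nat_lit 112868873278) (nat_lit 0) (nat_lit 36923568988) (nat_lit 23) (nat_lit 5) (nat_lit 25) (nat_lit 4) (nat_lit 23) (nat_lit 4) (nat_lit 517) (nat_lit 418) (nat_lit 265)) (XT.lf (nat_lit 0) (nat_lit 124796957302) (nat_lit 152) (nat_lit 16997543305) (nat_lit 0) (nat_lit 89157677885) (nat_lit 23) (nat_lit 5) (nat_lit 25) (nat_lit 4) (nat_lit 23) (nat_lit 4) (nat_lit 518) (nat_lit 418) (nat_lit 264)))))) (XT.nd (nat_lit 624) (nat_lit 228) (nat_lit 0) (XT.nd (nat_lit 312) (nat_lit 228) (nat_lit 0) (XT.nd (nat_lit 156) (nat_lit 152) (nat_lit 0) (XT.nd (nat_lit 78) (nat_lit 0) (nat_lit 0) (XT.lf (nat_lit 0) (nat_lit 86428194749)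 (nat_lit 76) (nat_lit 94562303923) (nat_lit 76) (nat_lit 58922098114) (nat_lit 22) (nat_lit 4) (nat_lit 23) (nat_lit 5) (nat_lit 23) (nat_lit 4) (nat_lit 519) (nat_lit 418) (nat_lit 263)) (XT.lf (nat_lit 0) (nat_lit 195610022726) (nat_lit 76) (nat_lit 44668920044) (nat_lit 76) (nat_lit 9027831958) (nat_lit 22) (nat_lit 4) (nat_lit 23) (nat_lit 5) (nat_lit 23) (nat_lit 4) (nat_lit 520) (nat_lit 418) (nat_lit 262))) (XT.nd (nat_lit 78) (nat_lit 0) (nat_lit 0) (XT.lf (nat_lit 0) (nat_lit 42928542503) (nat_lit 152) (nat_lit 207176659669) (nat_lit 0) (nat_lit 8983848836) (nat_lit 20) (nat_lit 5) (nat_lit 22) (nat_lit 4) (nat_lit 20) (nat_lit 4) (nat_lit 521) (nat_lit 418) (nat_lit 261)) (XT.lf (nat_lit 0) (nat_lit 98833358085) (nat_lit 152) (nat_lit 105549080061) (nat_lit 0) (nat_lit 64887902273) (nat_lit 20) (nat_lit 5) (nat_lit 22) (nat_lit 4) (nat_lit 20) (nat_lit 4) (nat_lit 522) (nat_lit 418)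 (nat_lit 260)))) (XT.nd (nat_lit 156) (nat_lit 152) (nat_lit 0) (XT.nd (nat_lit 78) (nat_lit 0) (nat_lit 0) (XT.lf (nat_lit 0) (nat_lit 1193165058) (nat_lit 76) (nat_lit 156356450433) (nat_lit 76) (nat_lit 122410268769) (nat_lit 19) (nat_lit 4) (nat_lit 20) (nat_lit 5) (nat_lit 20) (nat_lit 4) (nat_lit 523) (nat_lit 418) (nat_lit 259)) (XT.lf (nat_lit 0) (nat_lit 116932125023) (nat_lit 76) (nat_lit 104054698183) (nat_lit 76) (nat_lit 70107825232) (nat_lit 19) (nat_lit 4) (nat_lit 20) (nat_lit 5) (nat_lit 20) (nat_lit 4) (nat_lit 524) (nat_lit 418) (nat_lit 258))) (XT.nd (nat_lit 78) (nat_lit 152) (nat_lit 0) (XT.lf (nat_lit 0) (nat_lit 238453439524) (nat_lit 76) (nat_lit 49140178158) (nat_lit 76) (nat_lit 15192646837) (nat_lit 19) (nat_lit 4) (nat_lit 20) (nat_lit 5) (nat_lit 20) (nat_lit 4) (nat_lit 525) (nat_lit 418) (nat_lit 257)) (XT.lf (nat_lit 0) (nat_lit 42075627972) (nat_lit 152) (nat_lit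 263161302991) (nat_lit 0) (nat_lit 9744048602) (nat_lit 17) (nat_lit 5) (nat_lit 19) (nat_lit 4) (nat_lit 17) (nat_lit 4) (nat_lit 526) (nat_lit 418) (nat_lit 256))))) (XT.nd (nat_lit 312) (nat_lit 152) (nat_lit 0) (XT.nd (nat_lit 156) (nat_lit 76) (nat_lit 0) (XT.nd (nat_lit 78) (nat_lit 0) (nat_lit 0) (XT.lf (nat_lit 0) (nat_lit 103607490047) (nat_lit 152) (nat_lit 152794608080) (nat_lit 0) (nat_lit 71275341953) (nat_lit 17) (nat_lit 5) (nat_lit 19) (nat_lit 4) (nat_lit 17) (nat_lit 4) (nat_lit 527) (nat_lit 418) (nat_lit 255)) (XT.lf (nat_lit 0) (nat_lit 168213851028) (nat_lit 152) (nat_lit 36913816023) (nat_lit 0) (nat_lit 135881161292) (nat_lit 17) (nat_lit 5) (nat_lit 19) (nat_lit 4) (nat_lit 17) (nat_lit 4) (nat_lit 528) (nat_lit 418) (nat_lit 254))) (XT.nd (nat_lit 78) (nat_lit 0) (nat_lit 0) (XT.lf (nat_lit 0) (nat_lit 87559428354) (nat_lit 76) (nat_lit 149856155291) (nat_lit 76) (nat_lit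 117522949705) (nat_lit 16) (nat_lit 4) (nat_lit 17) (nat_lit 5) (nat_lit 17) (nat_lit 4) (nat_lit 529) (nat_lit 418) (nat_lit 253)) (XT.lf (nat_lit 0) (nat_lit 219533928574) (nat_lit 76) (nat_lit 91166666161) (nat_lit 76) (nat_lit 58832969290) (nat_lit 16) (nat_lit 4) (nat_lit 17) (nat_lit 5) (nat_lit 17) (nat_lit 4) (nat_lit 530) (nat_lit 418) (nat_lit 252)))) (XT.nd (nat_lit 156) (nat_lit 0) (nat_lit 0) (XT.nd (nat_lit 78) (nat_lit 76) (nat_lit 0) (XT.lf (nat_lit 0) (nat_lit 2700265664) (nat_lit 152) (nat_lit 26798620149) (nat_lit 76) (nat_lit 355357376203) (nat_lit 15) (nat_lit 5) (nat_lit 17) (nat_lit 5) (nat_lit 16) (nat_lit 4) (nat_lit 531) (nat_lit 418) (nat_lit 251)) (XT.lf (nat_lit 0) (nat_lit 67562830061) (nat_lit 152) (nat_lit 296454586004) (nat_lit 0) (nat_lit 36767963041) (nat_lit 14) (nat_lit 5) (nat_lit 16) (nat_lit 4) (nat_lit 14) (nat_lit 4) (nat_lit 532) (nat_lit 418) (nat_lit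 250))) (XT.nd (nat_lit 78) (nat_lit 0) (nat_lit 0) (XT.lf (nat_lit 0) (nat_lit 136611591779) (nat_lit 152) (nat_lit 175035886247) (nat_lit 0) (nat_lit 105816320577) (nat_lit 14) (nat_lit 5) (nat_lit 16) (nat_lit 4) (nat_lit 14) (nat_lit 4) (nat_lit 533) (nat_lit 418) (nat_lit 249)) (XT.lf (nat_lit 0) (nat_lit 209111070711) (nat_lit 152) (nat_lit 47549739842) (nat_lit 0) (nat_lit 178315414575) (nat_lit 14) (nat_lit 5) (nat_lit 16) (nat_lit 4) (nat_lit 14) (nat_lit 4) (nat_lit 534) (nat_lit 418) (nat_lit 248))))))) (XT.nd (nat_lit 53430) (nat_lit 0) (nat_lit 9348) (XT.nd (nat_lit 546) (nat_lit 228) (nat_lit 0) (XT.nd (nat_lit 234) (nat_lit 152) (nat_lit 0) (XT.nd (nat_lit 78) (nat_lit 0) (nat_lit 0) (XT.lf (nat_lit 0) (nat_lit 89161103800) (nat_lit 76) (nat_lit 197464835569) (nat_lit 76) (nat_lit 166668812828) (nat_lit 13) (nat_lit 4) (nat_lit 14) (nat_lit 5) (nat_lit 14) (nat_lit 4) (nat_lit 535)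 (nat_lit 418) (nat_lit 247)) (XT.nd (nat_lit 78) (nat_lit 0) (nat_lit 0) (XT.lf (nat_lit 0) (nat_lit 234355040578) (nat_lit 76) (nat_lit 134465176820) (nat_lit 76) (nat_lit 103668804932) (nat_lit 13) (nat_lit 4) (nat_lit 14) (nat_lit 5) (nat_lit 14) (nat_lit 4) (nat_lit 536) (nat_lit 418) (nat_lit 246)) (XT.lf (nat_lit 0) (nat_lit 386805561202) (nat_lit 76) (nat_lit 68317112971) (nat_lit 76) (nat_lit 37520408561) (nat_lit 13) (nat_lit 4) (nat_lit 14) (nat_lit 5) (nat_lit 14) (nat_lit 4) (nat_lit 537) (nat_lit 418) (nat_lit 245)))) (XT.nd (nat_lit 156) (nat_lit 0) (nat_lit 0) (XT.nd (nat_lit 78) (nat_lit 0) (nat_lit 0) (XT.lf (nat_lit 0) (nat_lit 31471681564) (nat_lit 152) (nat_lit 480139128937) (nat_lit 0) (nat_lit 2141185281) (nat_lit 11) (nat_lit 5) (nat_lit 13) (nat_lit 4) (nat_lit 11) (nat_lit 4) (nat_lit 538) (nat_lit 418) (nat_lit 244)) (XT.lf (nat_lit 0) (nat_lit 105592705470) (nat_lit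 152) (nat_lit 353883959592) (nat_lit 0) (nat_lit 76261921943) (nat_lit 11) (nat_lit 5) (nat_lit 13) (nat_lit 4) (nat_lit 11) (nat_lit 4) (nat_lit 539) (nat_lit 418) (nat_lit 243))) (XT.nd (nat_lit 78) (nat_lit 0) (nat_lit 0) (XT.lf (nat_lit 0) (nat_lit 183418366249) (nat_lit 152) (nat_lit 221318903104) (nat_lit 0) (nat_lit 154087309157) (nat_lit 11) (nat_lit 5) (nat_lit 13) (nat_lit 4) (nat_lit 11) (nat_lit 4) (nat_lit 540) (nat_lit 418) (nat_lit 242)) (XT.lf (nat_lit 0) (nat_lit 265133963094) (nat_lit 152) (nat_lit 82128328388) (nat_lit 0) (nat_lit 235802645462) (nat_lit 11) (nat_lit 5) (nat_lit 13) (nat_lit 4) (nat_lit 11) (nat_lit 4) (nat_lit 541) (nat_lit 418) (nat_lit 241))))) (XT.nd (nat_lit 312) (nat_lit 152) (nat_lit 0) (XT.nd (nat_lit 156) (nat_lit 0) (nat_lit 0) (XT.nd (nat_lit 78) (nat_lit 0) (nat_lit 0) (XT.lf (nat_lit 0) (nat_lit 66135933587) (nat_lit 76) (nat_lit 285830690630) (nat_lit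 76) (nat_lit 256499124866) (nat_lit 10) (nat_lit 4) (nat_lit 11) (nat_lit 5) (nat_lit 11) (nat_lit 4) (nat_lit 542) (nat_lit 418) (nat_lit 240)) (XT.lf (nat_lit 0) (nat_lit 224662156402) (nat_lit 76) (nat_lit 219868383226) (nat_lit 76) (nat_lit 190536581145) (nat_lit 10) (nat_lit 4) (nat_lit 11) (nat_lit 5) (nat_lit 11) (nat_lit 4) (nat_lit 543) (nat_lit 418) (nat_lit 239))) (XT.nd (nat_lit 78) (nat_lit 0) (nat_lit 0) (XT.lf (nat_lit 0) (nat_lit 391112250005) (nat_lit 76) (nat_lit 150609199138) (nat_lit 76) (nat_lit 121277171993) (nat_lit 10) (nat_lit 4) (nat_lit 11) (nat_lit 5) (nat_lit 11) (nat_lit 4) (nat_lit 544) (nat_lit 418) (nat_lit 238)) (XT.lf (nat_lit 0) (nat_lit 565882524141) (nat_lit 76) (nat_lit 77888235546) (nat_lit 76) (nat_lit 48555994055) (nat_lit 10) (nat_lit 4) (nat_lit 11) (nat_lit 5) (nat_lit 11) (nat_lit 4) (nat_lit 545) (nat_lit 418) (nat_lit 237)))) (XT.nd (nat_lit 156)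 (nat_lit 0) (nat_lit 0) (XT.nd (nat_lit 78) (nat_lit 0) (nat_lit 0) (XT.lf (nat_lit 0) (nat_lit 26687892825) (nat_lit 76) (nat_lit 639101542) (nat_lit 152) (nat_lit 695751817602) (nat_lit 8) (nat_lit 5) (nat_lit 9) (nat_lit 5) (nat_lit 10) (nat_lit 4) (nat_lit 546) (nat_lit 418) (nat_lit 236)) (XT.lf (nat_lit 0) (nat_lit 108804125345) (nat_lit 152) (nat_lit 565484680444) (nat_lit 0) (nat_lit 80868277680) (nat_lit 8) (nat_lit 5) (nat_lit 10) (nat_lit 4) (nat_lit 8) (nat_lit 4) (nat_lit 547) (nat_lit 418) (nat_lit 235))) (XT.nd (nat_lit 78) (nat_lit 0) (nat_lit 0) (XT.lf (nat_lit 0) (nat_lit 194364535486) (nat_lit 152) (nat_lit 428045750452) (nat_lit 0) (nat_lit 166428511479) (nat_lit 8) (nat_lit 5) (nat_lit 10) (nat_lit 4) (nat_lit 8) (nat_lit 4) (nat_lit 548) (nat_lit 418) (nat_lit 234)) (XT.lf (nat_lit 0) (nat_lit 284201961889) (nat_lit 152) (nat_lit 283736915454) (nat_lit 0) (nat_lit 256265769935)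 (nat_lit 8) (nat_lit 5) (nat_lit 10) (nat_lit 4) (nat_lit 8) (nat_lit 4) (nat_lit 549) (nat_lit 418) (nat_lit 233)))))) (XT.nd (nat_lit 624) (nat_lit 1444) (nat_lit 0) (XT.nd (nat_lit 312) (nat_lit 608) (nat_lit 0) (XT.nd (nat_lit 156) (nat_lit 0) (nat_lit 0) (XT.nd (nat_lit 78) (nat_lit 0) (nat_lit 0) (XT.lf (nat_lit 0) (nat_lit 1599717456) (nat_lit 0) (nat_lit 1599717456) (nat_lit 684) (nat_lit 2139646147) (nat_lit 158) (nat_lit 5) (nat_lit 158) (nat_lit 3) (nat_lit 167) (nat_lit 3) (nat_lit 419) (nat_lit 419) (nat_lit 362)) (XT.lf (nat_lit 0) (nat_lit 7184298884) (nat_lit 684) (nat_lit 2196692777) (nat_lit 760) (nat_lit 1532752467) (nat_lit 158) (nat_lit 5) (nat_lit 167) (nat_lit 3) (nat_lit 168) (nat_lit 5) (nat_lit 420) (nat_lit 419) (nat_lit 361))) (XT.nd (nat_lit 78) (nat_lit 0) (nat_lit 76) (XT.lf (nat_lit 76) (nat_lit 3383841114) (nat_lit 0) (nat_lit 4692284893) (nat_lit 760) (nat_lit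 3081629248) (nat_lit 159) (nat_lit 5) (nat_lit 158) (nat_lit 5) (nat_lit 168) (nat_lit 5) (nat_lit 421) (nat_lit 419) (nat_lit 360)) (XT.lf (nat_lit 0) (nat_lit 9017536520) (nat_lit 684) (nat_lit 2119847887) (nat_lit 760) (nat_lit 276338975) (nat_lit 159) (nat_lit 5) (nat_lit 168) (nat_lit 5) (nat_lit 169) (nat_lit 5) (nat_lit 422) (nat_lit 419) (nat_lit 359)))) (XT.nd (nat_lit 156) (nat_lit 684) (nat_lit 0) (XT.nd (nat_lit 78) (nat_lit 0) (nat_lit 0) (XT.lf (nat_lit 76) (nat_lit 3840841542) (nat_lit 0) (nat_lit 6267375287) (nat_lit 760) (nat_lit 1569168881) (nat_lit 160) (nat_lit 5) (nat_lit 159) (nat_lit 5) (nat_lit 169) (nat_lit 5) (nat_lit 423) (nat_lit 419) (nat_lit 358)) (XT.lf (nat_lit 76) (nat_lit 10151429689) (nat_lit 0) (nat_lit 1104524975) (nat_lit 760) (nat_lit 698155800) (nat_lit 160) (nat_lit 5) (nat_lit 159) (nat_lit 5) (nat_lit 169) (nat_lit 5) (nat_lit 424) (nat_lit 419) (nat_lit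 357))) (XT.nd (nat_lit 78) (nat_lit 0) (nat_lit 0) (XT.lf (nat_lit 0) (nat_lit 318676924) (nat_lit 760) (nat_lit 7654519773) (nat_lit 836) (nat_lit 4265851026) (nat_lit 150) (nat_lit 5) (nat_lit 160) (nat_lit 5) (nat_lit 161) (nat_lit 5) (nat_lit 425) (nat_lit 419) (nat_lit 356)) (XT.lf (nat_lit 0) (nat_lit 1381067100) (nat_lit 760) (nat_lit 1236206896) (nat_lit 836) (nat_lit 9919481406) (nat_lit 150) (nat_lit 5) (nat_lit 160) (nat_lit 5) (nat_lit 161) (nat_lit 5) (nat_lit 426) (nat_lit 419) (nat_lit 355))))) (XT.nd (nat_lit 312) (nat_lit 836) (nat_lit 0) (XT.nd (nat_lit 156) (nat_lit 684) (nat_lit 0) (XT.nd (nat_lit 78) (nat_lit 0) (nat_lit 0) (XT.lf (nat_lit 0) (nat_lit 2604000445) (nat_lit 760) (nat_lit 7232693233) (nat_lit 836) (nat_lit 3007288117) (nat_lit 151) (nat_lit 5) (nat_lit 161) (nat_lit 5) (nat_lit 162) (nat_lit 5) (nat_lit 427) (nat_lit 419) (nat_lit 354)) (XT.lf (nat_lit 0) (nat_lit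 3923952380) (nat_lit 760) (nat_lit 387899689) (nat_lit 836) (nat_lit 8852928140) (nat_lit 151) (nat_lit 5) (nat_lit 161) (nat_lit 5) (nat_lit 162) (nat_lit 5) (nat_lit 428) (nat_lit 419) (nat_lit 353))) (XT.nd (nat_lit 78) (nat_lit 760) (nat_lit 0) (XT.lf (nat_lit 0) (nat_lit 5417362930) (nat_lit 760) (nat_lit 6521511361) (nat_lit 76) (nat_lit 1557375292) (nat_lit 152) (nat_lit 5) (nat_lit 162) (nat_lit 5) (nat_lit 153) (nat_lit 5) (nat_lit 429) (nat_lit 419) (nat_lit 352)) (XT.lf (nat_lit 0) (nat_lit 806929050) (nat_lit 760) (nat_lit 6242522858) (nat_lit 836) (nat_lit 6791644022) (nat_lit 142) (nat_lit 5) (nat_lit 152) (nat_lit 5) (nat_lit 153) (nat_lit 5) (nat_lit 430) (nat_lit 419) (nat_lit 351)))) (XT.nd (nat_lit 156) (nat_lit 456) (nat_lit 0) (XT.nd (nat_lit 78) (nat_lit 380) (nat_lit 0) (XT.lf (nat_lit 0) (nat_lit 8705461460) (nat_lit 760) (nat_lit 143056055) (nat_lit 836) (nat_lit 5350402181)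 (nat_lit 142) (nat_lit 5) (nat_lit 152) (nat_lit 5) (nat_lit 153) (nat_lit 5) (nat_lit 431) (nat_lit 419) (nat_lit 350)) (XT.lf (nat_lit 0) (nat_lit 2379805378) (nat_lit 380) (nat_lit 8468800036) (nat_lit 456) (nat_lit 3720479322) (nat_lit 137) (nat_lit 5) (nat_lit 142) (nat_lit 5) (nat_lit 143) (nat_lit 5) (nat_lit 432) (nat_lit 419) (nat_lit 349))) (XT.nd (nat_lit 78) (nat_lit 456) (nat_lit 0) (XT.lf (nat_lit 0) (nat_lit 10812507789) (nat_lit 380) (nat_lit 2208471277) (nat_lit 456) (nat_lit 1933168261) (nat_lit 137) (nat_lit 5) (nat_lit 142) (nat_lit 5) (nat_lit 143) (nat_lit 5) (nat_lit 433) (nat_lit 419) (nat_lit 348)) (XT.lf (nat_lit 0) (nat_lit 61406487) (nat_lit 456) (nat_lit 10996614860) (nat_lit 76) (nat_lit 4294684351) (nat_lit 131) (nat_lit 5) (nat_lit 137) (nat_lit 5) (nat_lit 132) (nat_lit 5) (nat_lit 434) (nat_lit 419) (nat_lit 347))))))))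
noncomputable def xc137 : XT := (XT.nd (nat_lit 2418) (nat_lit 2432) (nat_lit 0) (XT.nd (nat_lit 1170) (nat_lit 1824) (nat_lit 0) (XT.nd (nat_lit 546) (nat_lit 1292) (nat_lit 0) (XT.nd (nat_lit 234) (nat_lit 988) (nat_lit 0) (XT.nd (nat_lit 78) (nat_lit 380) (nat_lit 0) (XT.lf (nat_lit 0) (nat_lit 2176631061) (nat_lit 456) (nat_lit 2437146862) (nat_lit 76) (nat_lit 11151537999) (nat_lit 131) (nat_lit 5) (nat_lit 137) (nat_lit 5) (nat_lit 132) (nat_lit 5) (nat_lit 435) (nat_lit 419) (nat_lit 346)) (XT.nd (nat_lit 78) (nat_lit 0) (nat_lit 0) (XT.lf (nat_lit 0) (nat_lit 4517653077) (nat_lit 456) (nat_lit 9485305562) (nat_lit 76) (nat_lit 2189598977) (nat_lit 126) (nat_lit 5) (nat_lit 132) (nat_lit 5) (nat_lit 127) (nat_lit 5) (nat_lit 436) (nat_lit 419) (nat_lit 345)) (XT.lf (nat_lit 0) (nat_lit 7073355648) (nat_lit 456) (nat_lit 344371581) (nat_lit 76) (nat_lit 9218555330) (nat_lit 126) (nat_lit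 5) (nat_lit 132) (nat_lit 5) (nat_lit 127) (nat_lit 5) (nat_lit 437) (nat_lit 419) (nat_lit 344)))) (XT.nd (nat_lit 156) (nat_lit 380) (nat_lit 0) (XT.nd (nat_lit 78) (nat_lit 304) (nat_lit 0) (XT.lf (nat_lit 0) (nat_lit 9537492494) (nat_lit 304) (nat_lit 349251041) (nat_lit 380) (nat_lit 7208957718) (nat_lit 122) (nat_lit 5) (nat_lit 126) (nat_lit 5) (nat_lit 127) (nat_lit 5) (nat_lit 438) (nat_lit 419) (nat_lit 343)) (XT.lf (nat_lit 0) (nat_lit 2288415985) (nat_lit 304) (nat_lit 10685994320) (nat_lit 380) (nat_lit 4597002495) (nat_lit 118) (nat_lit 5) (nat_lit 122) (nat_lit 5) (nat_lit 123) (nat_lit 5) (nat_lit 439) (nat_lit 419) (nat_lit 342))) (XT.nd (nat_lit 78) (nat_lit 380) (nat_lit 0) (XT.lf (nat_lit 0) (nat_lit 12862300193) (nat_lit 304) (nat_lit 3469867474) (nat_lit 380) (nat_lit 1732959174) (nat_lit 118) (nat_lit 5) (nat_lit 122) (nat_lit 5) (nat_lit 123) (nat_lit 5) (nat_lit 440)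 (nat_lit 419) (nat_lit 341)) (XT.lf (nat_lit 0) (nat_lit 1368082152) (nat_lit 380) (nat_lit 13127974728) (nat_lit 76) (nat_lit 4079747963) (nat_lit 113) (nat_lit 5) (nat_lit 118) (nat_lit 5) (nat_lit 114) (nat_lit 5) (nat_lit 441) (nat_lit 419) (nat_lit 340))))) (XT.nd (nat_lit 312) (nat_lit 760) (nat_lit 0) (XT.nd (nat_lit 156) (nat_lit 228) (nat_lit 0) (XT.nd (nat_lit 78) (nat_lit 304) (nat_lit 0) (XT.lf (nat_lit 0) (nat_lit 4695461696) (nat_lit 380) (nat_lit 2404250960) (nat_lit 76) (nat_lit 12004409352) (nat_lit 113) (nat_lit 5) (nat_lit 118) (nat_lit 5) (nat_lit 114) (nat_lit 5) (nat_lit 442) (nat_lit 419) (nat_lit 339)) (XT.lf (nat_lit 0) (nat_lit 8328275106) (nat_lit 380) (nat_lit 10537948075) (nat_lit 76) (nat_lit 785680483) (nat_lit 109) (nat_lit 5) (nat_lit 114) (nat_lit 5) (nat_lit 110) (nat_lit 5) (nat_lit 443) (nat_lit 419) (nat_lit 338))) (XT.nd (nat_lit 78) (nat_lit 0) (nat_lit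 0) (XT.lf (nat_lit 0) (nat_lit 959239895) (nat_lit 228) (nat_lit 11340510540) (nat_lit 304) (nat_lit 7919474689) (nat_lit 106) (nat_lit 5) (nat_lit 109) (nat_lit 5) (nat_lit 110) (nat_lit 5) (nat_lit 444) (nat_lit 419) (nat_lit 337)) (XT.lf (nat_lit 0) (nat_lit 13376568644) (nat_lit 228) (nat_lit 3256395367) (nat_lit 304) (nat_lit 4173792122) (nat_lit 106) (nat_lit 5) (nat_lit 109) (nat_lit 5) (nat_lit 110) (nat_lit 5) (nat_lit 445) (nat_lit 419) (nat_lit 336)))) (XT.nd (nat_lit 156) (nat_lit 456) (nat_lit 0) (XT.nd (nat_lit 78) (nat_lit 76) (nat_lit 0) (XT.lf (nat_lit 0) (nat_lit 5050828588) (nat_lit 228) (nat_lit 16277901744) (nat_lit 304) (nat_lit 87640378) (nat_lit 103) (nat_lit 5) (nat_lit 106) (nat_lit 5) (nat_lit 107) (nat_lit 5) (nat_lit 446) (nat_lit 419) (nat_lit 335)) (XT.lf (nat_lit 0) (nat_lit 4235083495) (nat_lit 304) (nat_lit 3777782623) (nat_lit 76) (nat_lit 14031981426) (nat_lit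 102) (nat_lit 5) (nat_lit 106) (nat_lit 5) (nat_lit 103) (nat_lit 5) (nat_lit 447) (nat_lit 419) (nat_lit 334))) (XT.nd (nat_lit 78) (nat_lit 228) (nat_lit 0) (XT.lf (nat_lit 0) (nat_lit 8921916073) (nat_lit 304) (nat_lit 12980669201) (nat_lit 76) (nat_lit 794546620) (nat_lit 99) (nat_lit 5) (nat_lit 103) (nat_lit 5) (nat_lit 100) (nat_lit 5) (nat_lit 448) (nat_lit 419) (nat_lit 333)) (XT.lf (nat_lit 0) (nat_lit 501695332) (nat_lit 228) (nat_lit 13532075612) (nat_lit 304) (nat_lit 9338726816) (nat_lit 96) (nat_lit 5) (nat_lit 99) (nat_lit 5) (nat_lit 100) (nat_lit 5) (nat_lit 449) (nat_lit 419) (nat_lit 332)))))) (XT.nd (nat_lit 624) (nat_lit 912) (nat_lit 0) (XT.nd (nat_lit 312) (nat_lit 456) (nat_lit 0) (XT.nd (nat_lit 156) (nat_lit 228) (nat_lit 0) (XT.nd (nat_lit 78) (nat_lit 228) (nat_lit 0) (XT.lf (nat_lit 0) (nat_lit 15089455766) (nat_lit 228) (nat_lit 4518400701) (nat_lit 304) (nat_lit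 4463444827) (nat_lit 96) (nat_lit 5) (nat_lit 99) (nat_lit 5) (nat_lit 100) (nat_lit 5) (nat_lit 450) (nat_lit 419) (nat_lit 331)) (XT.lf (nat_lit 0) (nat_lit 790487302) (nat_lit 228) (nat_lit 19122754265) (nat_lit 76) (nat_lit 4883499330) (nat_lit 93) (nat_lit 5) (nat_lit 96) (nat_lit 5) (nat_lit 94) (nat_lit 5) (nat_lit 451) (nat_lit 419) (nat_lit 330))) (XT.nd (nat_lit 78) (nat_lit 228) (nat_lit 0) (XT.lf (nat_lit 0) (nat_lit 6373240584) (nat_lit 228) (nat_lit 4345250342) (nat_lit 76) (nat_lit 14825497812) (nat_lit 93) (nat_lit 5) (nat_lit 96) (nat_lit 5) (nat_lit 94) (nat_lit 5) (nat_lit 452) (nat_lit 419) (nat_lit 329)) (XT.lf (nat_lit 0) (nat_lit 11521698663) (nat_lit 228) (nat_lit 881364470) (nat_lit 304) (nat_lit 13917140301) (nat_lit 90) (nat_lit 5) (nat_lit 93) (nat_lit 5) (nat_lit 94) (nat_lit 5) (nat_lit 453) (nat_lit 419) (nat_lit 328)))) (XT.nd (nat_lit 156) (nat_lit 304) (nat_lit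 0) (XT.nd (nat_lit 78) (nat_lit 0) (nat_lit 0) (XT.lf (nat_lit 0) (nat_lit 1068398461) (nat_lit 152) (nat_lit 17893196078) (nat_lit 228) (nat_lit 8162274433) (nat_lit 88) (nat_lit 5) (nat_lit 90) (nat_lit 5) (nat_lit 91) (nat_lit 5) (nat_lit 454) (nat_lit 419) (nat_lit 327)) (XT.lf (nat_lit 0) (nat_lit 18209398036) (nat_lit 152) (nat_lit 7892005431) (nat_lit 228) (nat_lit 1853647720) (nat_lit 88) (nat_lit 5) (nat_lit 90) (nat_lit 5) (nat_lit 91) (nat_lit 5) (nat_lit 455) (nat_lit 419) (nat_lit 326))) (XT.nd (nat_lit 78) (nat_lit 0) (nat_lit 0) (XT.lf (nat_lit 0) (nat_lit 4767935506) (nat_lit 304) (nat_lit 21333996789) (nat_lit 76) (nat_lit 2714626698) (nat_lit 84) (nat_lit 5) (nat_lit 88) (nat_lit 5) (nat_lit 85) (nat_lit 5) (nat_lit 456) (nat_lit 419) (nat_lit 325)) (XT.lf (nat_lit 0) (nat_lit 11944473861) (nat_lit 304) (nat_lit 3982584021) (nat_lit 76) (nat_lit 13778257207) (nat_lit 84) (nat_lit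 5) (nat_lit 88) (nat_lit 5) (nat_lit 85) (nat_lit 5) (nat_lit 457) (nat_lit 419) (nat_lit 324))))) (XT.nd (nat_lit 312) (nat_lit 380) (nat_lit 0) (XT.nd (nat_lit 156) (nat_lit 228) (nat_lit 0) (XT.nd (nat_lit 78) (nat_lit 152) (nat_lit 0) (XT.lf (nat_lit 0) (nat_lit 14689646379) (nat_lit 152) (nat_lit 5009101684) (nat_lit 228) (nat_lit 10928816260) (nat_lit 82) (nat_lit 5) (nat_lit 84) (nat_lit 5) (nat_lit 85) (nat_lit 5) (nat_lit 458) (nat_lit 419) (nat_lit 323)) (XT.lf (nat_lit 0) (nat_lit 2812278111) (nat_lit 152) (nat_lit 25231393910) (nat_lit 228) (nat_lit 3542107938) (nat_lit 80) (nat_lit 5) (nat_lit 82) (nat_lit 5) (nat_lit 83) (nat_lit 5) (nat_lit 459) (nat_lit 419) (nat_lit 322))) (XT.nd (nat_lit 78) (nat_lit 152) (nat_lit 0) (XT.lf (nat_lit 0) (nat_lit 4425283023) (nat_lit 228) (nat_lit 9694545714) (nat_lit 76) (nat_lit 18451477770) (nat_lit 79) (nat_lit 5) (nat_lit 82) (nat_lit 5)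 (nat_lit 80) (nat_lit 5) (nat_lit 460) (nat_lit 419) (nat_lit 321)) (XT.lf (nat_lit 0) (nat_lit 10603364754) (nat_lit 152) (nat_lit 2224438348) (nat_lit 228) (nat_lit 20767613673) (nat_lit 77) (nat_lit 5) (nat_lit 79) (nat_lit 5) (nat_lit 80) (nat_lit 5) (nat_lit 461) (nat_lit 419) (nat_lit 320)))) (XT.nd (nat_lit 156) (nat_lit 228) (nat_lit 0) (XT.nd (nat_lit 78) (nat_lit 152) (nat_lit 0) (XT.lf (nat_lit 0) (nat_lit 21967961022) (nat_lit 228) (nat_lit 2589161244) (nat_lit 76) (nat_lit 10097735310) (nat_lit 77) (nat_lit 5) (nat_lit 80) (nat_lit 5) (nat_lit 78) (nat_lit 5) (nat_lit 462) (nat_lit 419) (nat_lit 319)) (XT.lf (nat_lit 0) (nat_lit 19402786721) (nat_lit 152) (nat_lit 12492558981) (nat_lit 228) (nat_lit 3855414352) (nat_lit 75) (nat_lit 5) (nat_lit 77) (nat_lit 5) (nat_lit 78) (nat_lit 5) (nat_lit 463) (nat_lit 419) (nat_lit 318))) (XT.nd (nat_lit 78) (nat_lit 0) (nat_lit 0) (XT.lf (nat_lit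 0) (nat_lit 5375972445) (nat_lit 228) (nat_lit 31128578340) (nat_lit 76) (nat_lit 386091726) (nat_lit 72) (nat_lit 5) (nat_lit 75) (nat_lit 5) (nat_lit 73) (nat_lit 5) (nat_lit 464) (nat_lit 419) (nat_lit 317)) (XT.lf (nat_lit 0) (nat_lit 15416519465) (nat_lit 228) (nat_lit 8816820833) (nat_lit 76) (nat_lit 13827161217) (nat_lit 72) (nat_lit 5) (nat_lit 75) (nat_lit 5) (nat_lit 73) (nat_lit 5) (nat_lit 465) (nat_lit 419) (nat_lit 316))))))) (XT.nd (nat_lit 1170) (nat_lit 1064) (nat_lit 0) (XT.nd (nat_lit 546) (nat_lit 608) (nat_lit 0) (XT.nd (nat_lit 234) (nat_lit 456) (nat_lit 0) (XT.nd (nat_lit 78) (nat_lit 152) (nat_lit 0) (XT.lf (nat_lit 0) (nat_lit 15078094115) (nat_lit 152) (nat_lit 11107803878) (nat_lit 228) (nat_lit 13091615744) (nat_lit 70) (nat_lit 5) (nat_lit 72) (nat_lit 5) (nat_lit 73) (nat_lit 5) (nat_lit 466) (nat_lit 419) (nat_lit 315)) (XT.nd (nat_lit 78) (nat_lit 152) (nat_lit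 0) (XT.lf (nat_lit 0) (nat_lit 37678731926) (nat_lit 228) (nat_lit 133356355) (nat_lit 76) (nat_lit 2734039422) (nat_lit 70) (nat_lit 5) (nat_lit 73) (nat_lit 5) (nat_lit 71) (nat_lit 4) (nat_lit 467) (nat_lit 419) (nat_lit 314)) (XT.lf (nat_lit 0) (nat_lit 8201879245) (nat_lit 152) (nat_lit 16217506251) (nat_lit 76) (nat_lit 17423361664) (nat_lit 68) (nat_lit 5) (nat_lit 70) (nat_lit 5) (nat_lit 69) (nat_lit 5) (nat_lit 468) (nat_lit 419) (nat_lit 313)))) (XT.nd (nat_lit 156) (nat_lit 304) (nat_lit 0) (XT.nd (nat_lit 78) (nat_lit 0) (nat_lit 0) (XT.lf (nat_lit 0) (nat_lit 9722014391) (nat_lit 152) (nat_lit 10152237447) (nat_lit 228) (nat_lit 23320295965) (nat_lit 66) (nat_lit 5) (nat_lit 68) (nat_lit 5) (nat_lit 69) (nat_lit 5) (nat_lit 469) (nat_lit 419) (nat_lit 312)) (XT.lf (nat_lit 0) (nat_lit 32476759134) (nat_lit 228) (nat_lit 7173031503) (nat_lit 76) (nat_lit 4946822413) (nat_lit 66)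 (nat_lit 5) (nat_lit 69) (nat_lit 5) (nat_lit 67) (nat_lit 4) (nat_lit 470) (nat_lit 419) (nat_lit 311))) (XT.nd (nat_lit 78) (nat_lit 152) (nat_lit 0) (XT.lf (nat_lit 0) (nat_lit 145658401) (nat_lit 152) (nat_lit 25115705949) (nat_lit 76) (nat_lit 20783020831) (nat_lit 64) (nat_lit 5) (nat_lit 66) (nat_lit 5) (nat_lit 65) (nat_lit 5) (nat_lit 471) (nat_lit 419) (nat_lit 310)) (XT.lf (nat_lit 0) (nat_lit 3007799616) (nat_lit 152) (nat_lit 9772160707) (nat_lit 228) (nat_lit 34766510584) (nat_lit 62) (nat_lit 5) (nat_lit 64) (nat_lit 5) (nat_lit 65) (nat_lit 5) (nat_lit 472) (nat_lit 419) (nat_lit 309))))) (XT.nd (nat_lit 312) (nat_lit 304) (nat_lit 0) (XT.nd (nat_lit 156) (nat_lit 228) (nat_lit 0) (XT.nd (nat_lit 78) (nat_lit 76) (nat_lit 0) (XT.lf (nat_lit 0) (nat_lit 26572091662) (nat_lit 228) (nat_lit 15815156519) (nat_lit 76) (nat_lit 6710107332) (nat_lit 62) (nat_lit 5) (nat_lit 65) (nat_lit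 5) (nat_lit 63) (nat_lit 4) (nat_lit 473) (nat_lit 419) (nat_lit 308)) (XT.lf (nat_lit 0) (nat_lit 14639676140) (nat_lit 76) (nat_lit 26795723186) (nat_lit 152) (nat_lit 9271306828) (nat_lit 61) (nat_lit 5) (nat_lit 62) (nat_lit 5) (nat_lit 63) (nat_lit 4) (nat_lit 474) (nat_lit 419) (nat_lit 307))) (XT.nd (nat_lit 78) (nat_lit 152) (nat_lit 0) (XT.lf (nat_lit 0) (nat_lit 4761723685) (nat_lit 152) (nat_lit 5306976938) (nat_lit 76) (nat_lit 42310944836) (nat_lit 60) (nat_lit 5) (nat_lit 62) (nat_lit 5) (nat_lit 61) (nat_lit 5) (nat_lit 475) (nat_lit 419) (nat_lit 306)) (XT.lf (nat_lit 0) (nat_lit 19737190742) (nat_lit 228) (nat_lit 26520365685) (nat_lit 76) (nat_lit 7843458037) (nat_lit 58) (nat_lit 5) (nat_lit 61) (nat_lit 5) (nat_lit 59) (nat_lit 4) (nat_lit 476) (nat_lit 419) (nat_lit 305)))) (XT.nd (nat_lit 156) (nat_lit 228) (nat_lit 0) (XT.nd (nat_lit 78) (nat_lit 0) (nat_lit 0) (XT.lf (nat_lit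 0) (nat_lit 6419208946) (nat_lit 76) (nat_lit 29392065909) (nat_lit 152) (nat_lit 20079685122) (nat_lit 57) (nat_lit 5) (nat_lit 58) (nat_lit 5) (nat_lit 59) (nat_lit 4) (nat_lit 477) (nat_lit 419) (nat_lit 304)) (XT.lf (nat_lit 0) (nat_lit 41914037934) (nat_lit 76) (nat_lit 11217500910) (nat_lit 152) (nat_lit 4616740367) (nat_lit 57) (nat_lit 5) (nat_lit 58) (nat_lit 5) (nat_lit 59) (nat_lit 4) (nat_lit 478) (nat_lit 419) (nat_lit 303))) (XT.nd (nat_lit 78) (nat_lit 0) (nat_lit 0) (XT.lf (nat_lit 0) (nat_lit 11682963110) (nat_lit 228) (nat_lit 39875421970) (nat_lit 76) (nat_lit 8109233839) (nat_lit 54) (nat_lit 5) (nat_lit 57) (nat_lit 5) (nat_lit 55) (nat_lit 4) (nat_lit 479) (nat_lit 419) (nat_lit 302)) (XT.lf (nat_lit 0) (nat_lit 29092537321) (nat_lit 228) (nat_lit 4195912269) (nat_lit 76) (nat_lit 28368190092) (nat_lit 54) (nat_lit 5) (nat_lit 57) (nat_lit 5) (nat_lit 55) (nat_lit 4) (nat_lit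 480) (nat_lit 419) (nat_lit 301)))))) (XT.nd (nat_lit 624) (nat_lit 532) (nat_lit 0) (XT.nd (nat_lit 312) (nat_lit 228) (nat_lit 0) (XT.nd (nat_lit 156) (nat_lit 76) (nat_lit 0) (XT.nd (nat_lit 78) (nat_lit 152) (nat_lit 0) (XT.lf (nat_lit 0) (nat_lit 34355637319) (nat_lit 76) (nat_lit 13547234263) (nat_lit 152) (nat_lit 15815726024) (nat_lit 53) (nat_lit 5) (nat_lit 54) (nat_lit 5) (nat_lit 55) (nat_lit 4) (nat_lit 481) (nat_lit 419) (nat_lit 300)) (XT.lf (nat_lit 0) (nat_lit 2041741889) (nat_lit 152) (nat_lit 56628168396) (nat_lit 76) (nat_lit 7195945224) (nat_lit 51) (nat_lit 5) (nat_lit 53) (nat_lit 5) (nat_lit 52) (nat_lit 4) (nat_lit 482) (nat_lit 419) (nat_lit 299))) (XT.nd (nat_lit 78) (nat_lit 76) (nat_lit 0) (XT.lf (nat_lit 0) (nat_lit 20982022390) (nat_lit 152) (nat_lit 17808917003) (nat_lit 76) (nat_lit 29280500802) (nat_lit 51) (nat_lit 5) (nat_lit 53) (nat_lit 5) (nat_lit 52) (nat_lit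 4) (nat_lit 483) (nat_lit 419) (nat_lit 298)) (XT.lf (nat_lit 0) (nat_lit 23698782194) (nat_lit 76) (nat_lit 17534765303) (nat_lit 152) (nat_lit 29135545247) (nat_lit 50) (nat_lit 5) (nat_lit 51) (nat_lit 5) (nat_lit 52) (nat_lit 4) (nat_lit 484) (nat_lit 419) (nat_lit 297)))) (XT.nd (nat_lit 156) (nat_lit 76) (nat_lit 0) (XT.nd (nat_lit 78) (nat_lit 152) (nat_lit 0) (XT.lf (nat_lit 0) (nat_lit 62873141777) (nat_lit 152) (nat_lit 4957084112) (nat_lit 0) (nat_lit 4932627532) (nat_lit 50) (nat_lit 5) (nat_lit 52) (nat_lit 4) (nat_lit 50) (nat_lit 4) (nat_lit 485) (nat_lit 419) (nat_lit 296)) (XT.lf (nat_lit 0) (nat_lit 10906628320) (nat_lit 152) (nat_lit 35588774063) (nat_lit 76) (nat_lit 28726921499) (nat_lit 48) (nat_lit 5) (nat_lit 50) (nat_lit 5) (nat_lit 49) (nat_lit 4) (nat_lit 486) (nat_lit 419) (nat_lit 295))) (XT.nd (nat_lit 78) (nat_lit 0) (nat_lit 0) (XT.lf (nat_lit 0) (nat_lit 8937255539)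 (nat_lit 76) (nat_lit 23692568580) (nat_lit 152) (nat_lit 45155867654) (nat_lit 47) (nat_lit 5) (nat_lit 48) (nat_lit 5) (nat_lit 49) (nat_lit 4) (nat_lit 487) (nat_lit 419) (nat_lit 294)) (XT.lf (nat_lit 0) (nat_lit 56050238825) (nat_lit 152) (nat_lit 23546288175) (nat_lit 0) (nat_lit 850148224) (nat_lit 47) (nat_lit 5) (nat_lit 49) (nat_lit 4) (nat_lit 47) (nat_lit 4) (nat_lit 488) (nat_lit 419) (nat_lit 293))))) (XT.nd (nat_lit 312) (nat_lit 228) (nat_lit 0) (XT.nd (nat_lit 156) (nat_lit 152) (nat_lit 0) (XT.nd (nat_lit 78) (nat_lit 76) (nat_lit 0) (XT.lf (nat_lit 0) (nat_lit 24403579891) (nat_lit 76) (nat_lit 57002320564) (nat_lit 76) (nat_lit 1796596200) (nat_lit 46) (nat_lit 4) (nat_lit 47) (nat_lit 5) (nat_lit 47) (nat_lit 4) (nat_lit 489) (nat_lit 419) (nat_lit 292)) (XT.lf (nat_lit 0) (nat_lit 21631364502) (nat_lit 152) (nat_lit 10866792624) (nat_lit 76) (nat_lit 53560823722) (nat_lit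 45) (nat_lit 5) (nat_lit 47) (nat_lit 5) (nat_lit 46) (nat_lit 4) (nat_lit 490) (nat_lit 419) (nat_lit 291))) (XT.nd (nat_lit 78) (nat_lit 76) (nat_lit 0) (XT.lf (nat_lit 0) (nat_lit 40726402928) (nat_lit 76) (nat_lit 6074866716) (nat_lit 152) (nat_lit 42224000895) (nat_lit 44) (nat_lit 5) (nat_lit 45) (nat_lit 5) (nat_lit 46) (nat_lit 4) (nat_lit 491) (nat_lit 419) (nat_lit 290)) (XT.lf (nat_lit 0) (nat_lit 2887330725) (nat_lit 76) (nat_lit 70907879491) (nat_lit 76) (nat_lit 18316387586) (nat_lit 43) (nat_lit 4) (nat_lit 44) (nat_lit 5) (nat_lit 44) (nat_lit 4) (nat_lit 492) (nat_lit 419) (nat_lit 289)))) (XT.nd (nat_lit 156) (nat_lit 76) (nat_lit 0) (XT.nd (nat_lit 78) (nat_lit 76) (nat_lit 0) (XT.lf (nat_lit 0) (nat_lit 7495448357) (nat_lit 152) (nat_lit 37230236974) (nat_lit 76) (nat_lit 50574955500) (nat_lit 42) (nat_lit 5) (nat_lit 44) (nat_lit 5) (nat_lit 43) (nat_lit 4) (nat_lit 493)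 (nat_lit 419) (nat_lit 288)) (XT.lf (nat_lit 0) (nat_lit 17617963020) (nat_lit 76) (nat_lit 16634755579) (nat_lit 152) (nat_lit 64367884401) (nat_lit 41) (nat_lit 5) (nat_lit 42) (nat_lit 5) (nat_lit 43) (nat_lit 4) (nat_lit 494) (nat_lit 419) (nat_lit 287))) (XT.nd (nat_lit 78) (nat_lit 76) (nat_lit 0) (XT.lf (nat_lit 0) (nat_lit 63184833175) (nat_lit 152) (nat_lit 25794204077) (nat_lit 0) (nat_lit 13085677061) (nat_lit 41) (nat_lit 5) (nat_lit 43) (nat_lit 4) (nat_lit 41) (nat_lit 4) (nat_lit 495) (nat_lit 419) (nat_lit 286)) (XT.lf (nat_lit 0) (nat_lit 32947762074) (nat_lit 76) (nat_lit 61398461683) (nat_lit 76) (nat_lit 11295673996) (nat_lit 40) (nat_lit 4) (nat_lit 41) (nat_lit 5) (nat_lit 41) (nat_lit 4) (nat_lit 496) (nat_lit 419) (nat_lit 285))))))))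
noncomputable def xc138 : XT := (XT.nd (nat_lit 2418) (nat_lit 684) (nat_lit 0) (XT.nd (nat_lit 1170) (nat_lit 836) (nat_lit 0) (XT.nd (nat_lit 546) (nat_lit 456) (nat_lit 0) (XT.nd (nat_lit 234) (nat_lit 304) (nat_lit 0) (XT.nd (nat_lit 78) (nat_lit 76) (nat_lit 0) (XT.lf (nat_lit 0) (nat_lit 17541832176) (nat_lit 152) (nat_lit 14145490368) (nat_lit 76) (nat_lit 77674847401) (nat_lit 39) (nat_lit 5) (nat_lit 41) (nat_lit 5) (nat_lit 40) (nat_lit 4) (nat_lit 497) (nat_lit 419) (nat_lit 284)) (XT.nd (nat_lit 78) (nat_lit 0) (nat_lit 0) (XT.lf (nat_lit 0) (nat_lit 48205435167) (nat_lit 152) (nat_lit 64533506907) (nat_lit 0) (nat_lit 482063476) (nat_lit 38) (nat_lit 5) (nat_lit 40) (nat_lit 4) (nat_lit 38) (nat_lit 4) (nat_lit 498) (nat_lit 419) (nat_lit 283)) (XT.lf (nat_lit 0) (nat_lit 81160960096) (nat_lit 152) (nat_lit 2639285110) (nat_lit 0) (nat_lit 33434600701) (nat_lit 38) (nat_lit 5) (nat_lit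 40) (nat_lit 4) (nat_lit 38) (nat_lit 4) (nat_lit 499) (nat_lit 419) (nat_lit 282)))) (XT.nd (nat_lit 156) (nat_lit 76) (nat_lit 0) (XT.nd (nat_lit 78) (nat_lit 152) (nat_lit 0) (XT.lf (nat_lit 0) (nat_lit 64403017718) (nat_lit 76) (nat_lit 52362745185) (nat_lit 76) (nat_lit 4633540356) (nat_lit 37) (nat_lit 4) (nat_lit 38) (nat_lit 5) (nat_lit 38) (nat_lit 4) (nat_lit 500) (nat_lit 419) (nat_lit 281)) (XT.lf (nat_lit 0) (nat_lit 8954167243) (nat_lit 76) (nat_lit 18697580077) (nat_lit 152) (nat_lit 98089021340) (nat_lit 35) (nat_lit 5) (nat_lit 36) (nat_lit 5) (nat_lit 37) (nat_lit 4) (nat_lit 501) (nat_lit 419) (nat_lit 280))) (XT.nd (nat_lit 78) (nat_lit 76) (nat_lit 0) (XT.lf (nat_lit 0) (nat_lit 62632634975) (nat_lit 152) (nat_lit 50429811237) (nat_lit 0) (nat_lit 17171210539) (nat_lit 35) (nat_lit 5) (nat_lit 37) (nat_lit 4) (nat_lit 35) (nat_lit 4) (nat_lit 502) (nat_lit 419) (nat_lit 279))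 (XT.lf (nat_lit 0) (nat_lit 19556672637) (nat_lit 76) (nat_lit 80413939882) (nat_lit 76) (nat_lit 34950174501) (nat_lit 34) (nat_lit 4) (nat_lit 35) (nat_lit 5) (nat_lit 35) (nat_lit 4) (nat_lit 503) (nat_lit 419) (nat_lit 278))))) (XT.nd (nat_lit 312) (nat_lit 228) (nat_lit 0) (XT.nd (nat_lit 156) (nat_lit 76) (nat_lit 0) (XT.nd (nat_lit 78) (nat_lit 76) (nat_lit 0) (XT.lf (nat_lit 0) (nat_lit 218807580) (nat_lit 152) (nat_lit 45017439313) (nat_lit 76) (nat_lit 94563334914) (nat_lit 33) (nat_lit 5) (nat_lit 35) (nat_lit 5) (nat_lit 34) (nat_lit 4) (nat_lit 504) (nat_lit 419) (nat_lit 277)) (XT.lf (nat_lit 0) (nat_lit 29201023756) (nat_lit 76) (nat_lit 7222947909) (nat_lit 152) (nat_lit 108447082628) (nat_lit 32) (nat_lit 5) (nat_lit 33) (nat_lit 5) (nat_lit 34) (nat_lit 4) (nat_lit 505) (nat_lit 419) (nat_lit 276))) (XT.nd (nat_lit 78) (nat_lit 76) (nat_lit 0) (XT.lf (nat_lit 0) (nat_lit 75721067444)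 (nat_lit 152) (nat_lit 41994777458) (nat_lit 0) (nat_lit 32416171867) (nat_lit 32) (nat_lit 5) (nat_lit 34) (nat_lit 4) (nat_lit 32) (nat_lit 4) (nat_lit 506) (nat_lit 419) (nat_lit 275)) (XT.lf (nat_lit 0) (nat_lit 36404118064) (nat_lit 76) (nat_lit 81262236151) (nat_lit 76) (nat_lit 37955506382) (nat_lit 31) (nat_lit 4) (nat_lit 32) (nat_lit 5) (nat_lit 32) (nat_lit 4) (nat_lit 507) (nat_lit 419) (nat_lit 274)))) (XT.nd (nat_lit 156) (nat_lit 76) (nat_lit 0) (XT.nd (nat_lit 78) (nat_lit 76) (nat_lit 0) (XT.lf (nat_lit 0) (nat_lit 1031800754) (nat_lit 152) (nat_lit 41193285071) (nat_lit 76) (nat_lit 119124887869) (nat_lit 30) (nat_lit 5) (nat_lit 32) (nat_lit 5) (nat_lit 31) (nat_lit 4) (nat_lit 508) (nat_lit 419) (nat_lit 273)) (XT.lf (nat_lit 0) (nat_lit 41337930162) (nat_lit 152) (nat_lit 125873023194) (nat_lit 0) (nat_lit 90177511) (nat_lit 29) (nat_lit 5) (nat_lit 31) (nat_lit 4) (nat_lit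 29) (nat_lit 4) (nat_lit 509) (nat_lit 419) (nat_lit 272))) (XT.nd (nat_lit 78) (nat_lit 76) (nat_lit 0) (XT.lf (nat_lit 0) (nat_lit 85057374138) (nat_lit 152) (nat_lit 44614458893) (nat_lit 0) (nat_lit 43808112493) (nat_lit 29) (nat_lit 5) (nat_lit 31) (nat_lit 4) (nat_lit 29) (nat_lit 4) (nat_lit 510) (nat_lit 419) (nat_lit 271)) (XT.lf (nat_lit 0) (nat_lit 42046546404) (nat_lit 76) (nat_lit 89569592936) (nat_lit 76) (nat_lit 48318894153) (nat_lit 28) (nat_lit 4) (nat_lit 29) (nat_lit 5) (nat_lit 29) (nat_lit 4) (nat_lit 511) (nat_lit 419) (nat_lit 270)))))) (XT.nd (nat_lit 624) (nat_lit 456) (nat_lit 0) (XT.nd (nat_lit 312) (nat_lit 152) (nat_lit 0) (XT.nd (nat_lit 156) (nat_lit 76) (nat_lit 0) (XT.nd (nat_lit 78) (nat_lit 152) (nat_lit 0) (XT.lf (nat_lit 0) (nat_lit 134583376583) (nat_lit 76) (nat_lit 46671970781) (nat_lit 76) (nat_lit 5419903296) (nat_lit 28) (nat_lit 4) (nat_lit 29) (nat_lit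 5) (nat_lit 29) (nat_lit 4) (nat_lit 512) (nat_lit 419) (nat_lit 269)) (XT.lf (nat_lit 0) (nat_lit 38605603327) (nat_lit 76) (nat_lit 349993910) (nat_lit 152) (nat_lit 154735960522) (nat_lit 26) (nat_lit 5) (nat_lit 27) (nat_lit 5) (nat_lit 28) (nat_lit 4) (nat_lit 513) (nat_lit 419) (nat_lit 268))) (XT.nd (nat_lit 78) (nat_lit 76) (nat_lit 0) (XT.lf (nat_lit 0) (nat_lit 87015343390) (nat_lit 152) (nat_lit 66231277279) (nat_lit 0) (nat_lit 47725236281) (nat_lit 26) (nat_lit 5) (nat_lit 28) (nat_lit 4) (nat_lit 26) (nat_lit 4) (nat_lit 514) (nat_lit 419) (nat_lit 267)) (XT.lf (nat_lit 0) (nat_lit 27949282482) (nat_lit 76) (nat_lit 109968078782) (nat_lit 76) (nat_lit 70676845639) (nat_lit 25) (nat_lit 4) (nat_lit 26) (nat_lit 5) (nat_lit 26) (nat_lit 4) (nat_lit 515) (nat_lit 419) (nat_lit 266)))) (XT.nd (nat_lit 156) (nat_lit 0) (nat_lit 0) (XT.nd (nat_lit 78) (nat_lit 152) (nat_lit 0) (XT.lf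 (nat_lit 0) (nat_lit 129132696768) (nat_lit 76) (nat_lit 63350669428) (nat_lit 76) (nat_lit 24058363871) (nat_lit 25) (nat_lit 4) (nat_lit 26) (nat_lit 5) (nat_lit 26) (nat_lit 4) (nat_lit 516) (nat_lit 419) (nat_lit 265)) (XT.lf (nat_lit 0) (nat_lit 10428410525) (nat_lit 76) (nat_lit 13826095537) (nat_lit 152) (nat_lit 200604685758) (nat_lit 23) (nat_lit 5) (nat_lit 24) (nat_lit 5) (nat_lit 25) (nat_lit 4) (nat_lit 517) (nat_lit 419) (nat_lit 264))) (XT.nd (nat_lit 78) (nat_lit 0) (nat_lit 0) (XT.lf (nat_lit 0) (nat_lit 76272415936) (nat_lit 152) (nat_lit 118346221567) (nat_lit 0) (nat_lit 38849273445) (nat_lit 23) (nat_lit 5) (nat_lit 25) (nat_lit 4) (nat_lit 23) (nat_lit 4) (nat_lit 518) (nat_lit 419) (nat_lit 263)) (XT.lf (nat_lit 0) (nat_lit 131115325603) (nat_lit 152) (nat_lit 17689234398) (nat_lit 0) (nat_lit 93691300835) (nat_lit 23) (nat_lit 5) (nat_lit 25) (nat_lit 4) (nat_lit 23) (nat_lit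 4) (nat_lit 519) (nat_lit 419) (nat_lit 262))))) (XT.nd (nat_lit 312) (nat_lit 228) (nat_lit 0) (XT.nd (nat_lit 156) (nat_lit 152) (nat_lit 0) (XT.nd (nat_lit 78) (nat_lit 0) (nat_lit 0) (XT.lf (nat_lit 0) (nat_lit 90905239170) (nat_lit 76) (nat_lit 99211995696) (nat_lit 76) (nat_lit 61787130663) (nat_lit 22) (nat_lit 4) (nat_lit 23) (nat_lit 5) (nat_lit 23) (nat_lit 4) (nat_lit 520) (nat_lit 419) (nat_lit 261)) (XT.lf (nat_lit 0) (nat_lit 205538747371) (nat_lit 76) (nat_lit 46827677072) (nat_lit 76) (nat_lit 9402011788) (nat_lit 22) (nat_lit 4) (nat_lit 23) (nat_lit 5) (nat_lit 23) (nat_lit 4) (nat_lit 521) (nat_lit 419) (nat_lit 260))) (XT.nd (nat_lit 78) (nat_lit 0) (nat_lit 0) (XT.lf (nat_lit 0) (nat_lit 45149633238) (nat_lit 152) (nat_lit 217384720041) (nat_lit 0) (nat_lit 9505416639) (nat_lit 20) (nat_lit 5) (nat_lit 22) (nat_lit 4) (nat_lit 20) (nat_lit 4) (nat_lit 522) (nat_lit 419) (nat_lit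 259)) (XT.lf (nat_lit 0) (nat_lit 103846134188) (nat_lit 152) (nat_lit 110682941101) (nat_lit 0) (nat_lit 68201226302) (nat_lit 20) (nat_lit 5) (nat_lit 22) (nat_lit 4) (nat_lit 20) (nat_lit 4) (nat_lit 523) (nat_lit 419) (nat_lit 258)))) (XT.nd (nat_lit 156) (nat_lit 152) (nat_lit 0) (XT.nd (nat_lit 78) (nat_lit 0) (nat_lit 0) (XT.lf (nat_lit 0) (nat_lit 1394100259) (nat_lit 76) (nat_lit 164102923831) (nat_lit 76) (nat_lit 128457357575) (nat_lit 19) (nat_lit 4) (nat_lit 20) (nat_lit 5) (nat_lit 20) (nat_lit 4) (nat_lit 524) (nat_lit 419) (nat_lit 257)) (XT.lf (nat_lit 0) (nat_lit 122913280748) (nat_lit 76) (nat_lit 109189481546) (nat_lit 76) (nat_lit 73543288272) (nat_lit 19) (nat_lit 4) (nat_lit 20) (nat_lit 5) (nat_lit 20) (nat_lit 4) (nat_lit 525) (nat_lit 419) (nat_lit 256))) (XT.nd (nat_lit 78) (nat_lit 152) (nat_lit 0) (XT.lf (nat_lit 0) (nat_lit 250504253856) (nat_lit 76) (nat_lit 51532471307)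 (nat_lit 76) (nat_lit 15885680873) (nat_lit 19) (nat_lit 4) (nat_lit 20) (nat_lit 5) (nat_lit 20) (nat_lit 4) (nat_lit 526) (nat_lit 419) (nat_lit 255)) (XT.lf (nat_lit 0) (nat_lit 44243818731) (nat_lit 152) (nat_lit 276189036134) (nat_lit 0) (nat_lit 10293952866) (nat_lit 17) (nat_lit 5) (nat_lit 19) (nat_lit 4) (nat_lit 17) (nat_lit 4) (nat_lit 527) (nat_lit 419) (nat_lit 254))))))) (XT.nd (nat_lit 1170) (nat_lit 228) (nat_lit 0) (XT.nd (nat_lit 546) (nat_lit 228) (nat_lit 0) (XT.nd (nat_lit 234) (nat_lit 152) (nat_lit 0) (XT.nd (nat_lit 78) (nat_lit 76) (nat_lit 0) (XT.lf (nat_lit 0) (nat_lit 108849206797) (nat_lit 152) (nat_lit 160310212764) (nat_lit 0) (nat_lit 74898825083) (nat_lit 17) (nat_lit 5) (nat_lit 19) (nat_lit 4) (nat_lit 17) (nat_lit 4) (nat_lit 528) (nat_lit 419) (nat_lit 253)) (XT.nd (nat_lit 78) (nat_lit 76) (nat_lit 0) (XT.lf (nat_lit 0) (nat_lit 176682964768) (nat_lit 152)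 (nat_lit 38641291853) (nat_lit 0) (nat_lit 142732091768) (nat_lit 17) (nat_lit 5) (nat_lit 19) (nat_lit 4) (nat_lit 17) (nat_lit 4) (nat_lit 529) (nat_lit 419) (nat_lit 252)) (XT.lf (nat_lit 0) (nat_lit 92053708050) (nat_lit 76) (nat_lit 157290109903) (nat_lit 76) (nat_lit 123338769012) (nat_lit 16) (nat_lit 4) (nat_lit 17) (nat_lit 5) (nat_lit 17) (nat_lit 4) (nat_lit 530) (nat_lit 419) (nat_lit 251)))) (XT.nd (nat_lit 156) (nat_lit 76) (nat_lit 0) (XT.nd (nat_lit 78) (nat_lit 76) (nat_lit 0) (XT.lf (nat_lit 0) (nat_lit 230621394792) (nat_lit 76) (nat_lit 95668948847) (nat_lit 76) (nat_lit 61717162347) (nat_lit 16) (nat_lit 4) (nat_lit 17) (nat_lit 5) (nat_lit 17) (nat_lit 4) (nat_lit 531) (nat_lit 419) (nat_lit 250)) (XT.lf (nat_lit 0) (nat_lit 2888247020) (nat_lit 152) (nat_lit 28031304499) (nat_lit 76) (nat_lit 373176874937) (nat_lit 15) (nat_lit 5) (nat_lit 17) (nat_lit 5) (nat_lit 16) (nat_lit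 4) (nat_lit 532) (nat_lit 419) (nat_lit 249))) (XT.nd (nat_lit 78) (nat_lit 0) (nat_lit 0) (XT.lf (nat_lit 0) (nat_lit 70993898855) (nat_lit 152) (nat_lit 311170027621) (nat_lit 0) (nat_lit 38658074976) (nat_lit 14) (nat_lit 5) (nat_lit 16) (nat_lit 4) (nat_lit 14) (nat_lit 4) (nat_lit 533) (nat_lit 419) (nat_lit 248)) (XT.lf (nat_lit 0) (nat_lit 143492578312) (nat_lit 152) (nat_lit 183685501814) (nat_lit 0) (nat_lit 111156387828) (nat_lit 14) (nat_lit 5) (nat_lit 16) (nat_lit 4) (nat_lit 14) (nat_lit 4) (nat_lit 534) (nat_lit 419) (nat_lit 247))))) (XT.nd (nat_lit 312) (nat_lit 152) (nat_lit 0) (XT.nd (nat_lit 156) (nat_lit 0) (nat_lit 0) (XT.nd (nat_lit 78) (nat_lit 76) (nat_lit 0) (XT.lf (nat_lit 0) (nat_lit 219614630860) (nat_lit 152) (nat_lit 49829913742) (nat_lit 0) (nat_lit 187278091230) (nat_lit 14) (nat_lit 5) (nat_lit 16) (nat_lit 4) (nat_lit 14) (nat_lit 4) (nat_lit 535) (nat_lit 419)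 (nat_lit 246)) (XT.lf (nat_lit 0) (nat_lit 93714902515) (nat_lit 76) (nat_lit 207289549231) (nat_lit 76) (nat_lit 174952677080) (nat_lit 13) (nat_lit 4) (nat_lit 14) (nat_lit 5) (nat_lit 14) (nat_lit 4) (nat_lit 536) (nat_lit 419) (nat_lit 245))) (XT.nd (nat_lit 78) (nat_lit 0) (nat_lit 0) (XT.lf (nat_lit 0) (nat_lit 246163976917) (nat_lit 76) (nat_lit 141142218407) (nat_lit 76) (nat_lit 108805029569) (nat_lit 13) (nat_lit 4) (nat_lit 14) (nat_lit 5) (nat_lit 14) (nat_lit 4) (nat_lit 537) (nat_lit 419) (nat_lit 244)) (XT.lf (nat_lit 0) (nat_lit 406232681462) (nat_lit 76) (nat_lit 71688952187) (nat_lit 76) (nat_lit 39351461742) (nat_lit 13) (nat_lit 4) (nat_lit 14) (nat_lit 5) (nat_lit 14) (nat_lit 4) (nat_lit 538) (nat_lit 419) (nat_lit 243)))) (XT.nd (nat_lit 156) (nat_lit 0) (nat_lit 0) (XT.nd (nat_lit 78) (nat_lit 0) (nat_lit 0) (XT.lf (nat_lit 0) (nat_lit 33088764674) (nat_lit 152) (nat_lit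 504057774613) (nat_lit 0) (nat_lit 2290881160) (nat_lit 11) (nat_lit 5) (nat_lit 13) (nat_lit 4) (nat_lit 11) (nat_lit 4) (nat_lit 539) (nat_lit 419) (nat_lit 242)) (XT.lf (nat_lit 0) (nat_lit 110913768393) (nat_lit 152) (nat_lit 371494052075) (nat_lit 0) (nat_lit 80115624340) (nat_lit 11) (nat_lit 5) (nat_lit 13) (nat_lit 4) (nat_lit 11) (nat_lit 4) (nat_lit 540) (nat_lit 419) (nat_lit 241))) (XT.nd (nat_lit 78) (nat_lit 0) (nat_lit 0) (XT.lf (nat_lit 0) (nat_lit 192628739466) (nat_lit 152) (nat_lit 232304747787) (nat_lit 0) (nat_lit 161830347281) (nat_lit 11) (nat_lit 5) (nat_lit 13) (nat_lit 4) (nat_lit 11) (nat_lit 4) (nat_lit 541) (nat_lit 419) (nat_lit 240)) (XT.lf (nat_lit 0) (nat_lit 278428237348) (nat_lit 152) (nat_lit 86158458643) (nat_lit 0) (nat_lit 247629608846) (nat_lit 11) (nat_lit 5) (nat_lit 13) (nat_lit 4) (nat_lit 11) (nat_lit 4) (nat_lit 542) (nat_lit 419) (nat_lit 239))))))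 (XT.nd (nat_lit 52962) (nat_lit 0) (nat_lit 10716) (XT.nd (nat_lit 312) (nat_lit 152) (nat_lit 0) (XT.nd (nat_lit 156) (nat_lit 0) (nat_lit 0) (XT.nd (nat_lit 78) (nat_lit 0) (nat_lit 0) (XT.lf (nat_lit 0) (nat_lit 69517786009) (nat_lit 76) (nat_lit 300084128011) (nat_lit 76) (nat_lit 269285274446) (nat_lit 10) (nat_lit 4) (nat_lit 11) (nat_lit 5) (nat_lit 11) (nat_lit 4) (nat_lit 543) (nat_lit 419) (nat_lit 238)) (XT.lf (nat_lit 0) (nat_lit 235966745882) (nat_lit 76) (nat_lit 230825519386) (nat_lit 76) (nat_lit 200026451475) (nat_lit 10) (nat_lit 4) (nat_lit 11) (nat_lit 5) (nat_lit 11) (nat_lit 4) (nat_lit 544) (nat_lit 419) (nat_lit 237))) (XT.nd (nat_lit 78) (nat_lit 0) (nat_lit 0) (XT.lf (nat_lit 0) (nat_lit 410735940276) (nat_lit 76) (nat_lit 158105103855) (nat_lit 76) (nat_lit 127305831805) (nat_lit 10) (nat_lit 4) (nat_lit 11) (nat_lit 5) (nat_lit 11) (nat_lit 4) (nat_lit 545) (nat_lit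 419) (nat_lit 236)) (XT.lf (nat_lit 0) (nat_lit 594241486321) (nat_lit 76) (nat_lit 81749737571) (nat_lit 76) (nat_lit 50950271103) (nat_lit 10) (nat_lit 4) (nat_lit 11) (nat_lit 5) (nat_lit 11) (nat_lit 4) (nat_lit 546) (nat_lit 419) (nat_lit 235)))) (XT.nd (nat_lit 156) (nat_lit 0) (nat_lit 0) (XT.nd (nat_lit 78) (nat_lit 0) (nat_lit 0) (XT.lf (nat_lit 0) (nat_lit 28087133441) (nat_lit 76) (nat_lit 638127568) (nat_lit 152) (nat_lit 730505895601) (nat_lit 8) (nat_lit 5) (nat_lit 9) (nat_lit 5) (nat_lit 10) (nat_lit 4) (nat_lit 547) (nat_lit 419) (nat_lit 234)) (XT.lf (nat_lit 0) (nat_lit 114275218315) (nat_lit 152) (nat_lit 593696126068) (nat_lit 0) (nat_lit 84942048818) (nat_lit 8) (nat_lit 5) (nat_lit 10) (nat_lit 4) (nat_lit 8) (nat_lit 4) (nat_lit 548) (nat_lit 419) (nat_lit 233))) (XT.nd (nat_lit 52416) (nat_lit 0) (nat_lit 11400) (XT.lf (nat_lit 0) (nat_lit 204112178168) (nat_lit 152)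 (nat_lit 449388239500) (nat_lit 0) (nat_lit 174778848723) (nat_lit 8) (nat_lit 5) (nat_lit 10) (nat_lit 4) (nat_lit 8) (nat_lit 4) (nat_lit 549) (nat_lit 419) (nat_lit 232)) (XT.lf (nat_lit 0) (nat_lit 1975381496) (nat_lit 0) (nat_lit 1975381496) (nat_lit 684) (nat_lit 1625606673) (nat_lit 158) (nat_lit 5) (nat_lit 158) (nat_lit 3) (nat_lit 167) (nat_lit 3) (nat_lit 420) (nat_lit 420) (nat_lit 360))))) (XT.nd (nat_lit 312) (nat_lit 684) (nat_lit 0) (XT.nd (nat_lit 156) (nat_lit 0) (nat_lit 0) (XT.nd (nat_lit 78) (nat_lit 0) (nat_lit 0) (XT.lf (nat_lit 0) (nat_lit 8661113769) (nat_lit 684) (nat_lit 1678032217) (nat_lit 760) (nat_lit 1064219388) (nat_lit 158) (nat_lit 5) (nat_lit 167) (nat_lit 3) (nat_lit 168) (nat_lit 5) (nat_lit 421) (nat_lit 420) (nat_lit 359)) (XT.lf (nat_lit 76) (nat_lit 4171391349) (nat_lit 0) (nat_lit 5382576157) (nat_lit 760) (nat_lit 2107796642) (nat_lit 159) (nat_lit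 5) (nat_lit 158) (nat_lit 5) (nat_lit 168) (nat_lit 5) (nat_lit 422) (nat_lit 420) (nat_lit 358))) (XT.nd (nat_lit 78) (nat_lit 0) (nat_lit 76) (XT.lf (nat_lit 76) (nat_lit 10352395753) (nat_lit 0) (nat_lit 134228324) (nat_lit 760) (nat_lit 1446706261) (nat_lit 159) (nat_lit 5) (nat_lit 158) (nat_lit 5) (nat_lit 168) (nat_lit 5) (nat_lit 423) (nat_lit 420) (nat_lit 357)) (XT.lf (nat_lit 76) (nat_lit 4669449489) (nat_lit 0) (nat_lit 6921845380) (nat_lit 760) (nat_lit 620916125) (nat_lit 160) (nat_lit 5) (nat_lit 159) (nat_lit 5) (nat_lit 169) (nat_lit 5) (nat_lit 424) (nat_lit 420) (nat_lit 356)))) (XT.nd (nat_lit 156) (nat_lit 0) (nat_lit 76) (XT.nd (nat_lit 78) (nat_lit 0) (nat_lit 76) (XT.lf (nat_lit 0) (nat_lit 236922861) (nat_lit 760) (nat_lit 1243674367) (nat_lit 836) (nat_lit 11024319118) (nat_lit 149) (nat_lit 5) (nat_lit 159) (nat_lit 5) (nat_lit 160) (nat_lit 5) (nat_lit 425) (nat_lit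 420) (nat_lit 355)) (XT.lf (nat_lit 0) (nat_lit 1241426180) (nat_lit 760) (nat_lit 7359703293) (nat_lit 836) (nat_lit 4204391096) (nat_lit 150) (nat_lit 5) (nat_lit 160) (nat_lit 5) (nat_lit 161) (nat_lit 5) (nat_lit 426) (nat_lit 420) (nat_lit 354))) (XT.nd (nat_lit 78) (nat_lit 0) (nat_lit 76) (XT.lf (nat_lit 0) (nat_lit 2313754179) (nat_lit 760) (nat_lit 652738699) (nat_lit 836) (nat_lit 10153786447) (nat_lit 150) (nat_lit 5) (nat_lit 160) (nat_lit 5) (nat_lit 161) (nat_lit 5) (nat_lit 427) (nat_lit 420) (nat_lit 353)) (XT.lf (nat_lit 0) (nat_lit 3563536585) (nat_lit 760) (nat_lit 6914625879) (nat_lit 836) (nat_lit 2966425746) (nat_lit 151) (nat_lit 5) (nat_lit 161) (nat_lit 5) (nat_lit 162) (nat_lit 5) (nat_lit 428) (nat_lit 420) (nat_lit 352))))))))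
noncomputable def xc139 : XT := (XT.nd (nat_lit 2418) (nat_lit 2812) (nat_lit 0) (XT.nd (nat_lit 1170) (nat_lit 2356) (nat_lit 0) (XT.nd (nat_lit 546) (nat_lit 1368) (nat_lit 0) (XT.nd (nat_lit 234) (nat_lit 836) (nat_lit 0) (XT.nd (nat_lit 78) (nat_lit 684) (nat_lit 0) (XT.lf (nat_lit 76) (nat_lit 247977405) (nat_lit 0) (nat_lit 4665888138) (nat_lit 836) (nat_lit 8869348024) (nat_lit 152) (nat_lit 5) (nat_lit 151) (nat_lit 5) (nat_lit 162) (nat_lit 5) (nat_lit 429) (nat_lit 420) (nat_lit 351)) (XT.nd (nat_lit 78) (nat_lit 760) (nat_lit 0) (XT.lf (nat_lit 0) (nat_lit 6448451092) (nat_lit 760) (nat_lit 6170513602) (nat_lit 76) (nat_lit 1513972201) (nat_lit 152) (nat_lit 5) (nat_lit 162) (nat_lit 5) (nat_lit 153) (nat_lit 5) (nat_lit 430) (nat_lit 420) (nat_lit 350)) (XT.lf (nat_lit 0) (nat_lit 1513428292) (nat_lit 760) (nat_lit 6622915785) (nat_lit 836) (nat_lit 6359976941) (nat_lit 142) (nat_lit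 5) (nat_lit 152) (nat_lit 5) (nat_lit 153) (nat_lit 5) (nat_lit 431) (nat_lit 420) (nat_lit 349)))) (XT.nd (nat_lit 156) (nat_lit 456) (nat_lit 0) (XT.nd (nat_lit 78) (nat_lit 380) (nat_lit 0) (XT.lf (nat_lit 0) (nat_lit 9775165761) (nat_lit 760) (nat_lit 215224843) (nat_lit 836) (nat_lit 4883399164) (nat_lit 142) (nat_lit 5) (nat_lit 152) (nat_lit 5) (nat_lit 153) (nat_lit 5) (nat_lit 432) (nat_lit 420) (nat_lit 348)) (XT.lf (nat_lit 0) (nat_lit 3158502994) (nat_lit 380) (nat_lit 8908006030) (nat_lit 456) (nat_lit 3197157661) (nat_lit 137) (nat_lit 5) (nat_lit 142) (nat_lit 5) (nat_lit 143) (nat_lit 5) (nat_lit 433) (nat_lit 420) (nat_lit 347))) (XT.nd (nat_lit 78) (nat_lit 456) (nat_lit 0) (XT.lf (nat_lit 0) (nat_lit 11981425890) (nat_lit 380) (nat_lit 2333910071) (nat_lit 456) (nat_lit 1354259410) (nat_lit 137) (nat_lit 5) (nat_lit 142) (nat_lit 5) (nat_lit 143) (nat_lit 5) (nat_lit 434) (nat_lit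 420) (nat_lit 346)) (XT.lf (nat_lit 0) (nat_lit 697371272) (nat_lit 456) (nat_lit 10875305444) (nat_lit 76) (nat_lit 4515934351) (nat_lit 131) (nat_lit 5) (nat_lit 137) (nat_lit 5) (nat_lit 132) (nat_lit 5) (nat_lit 435) (nat_lit 420) (nat_lit 345))))) (XT.nd (nat_lit 312) (nat_lit 684) (nat_lit 0) (XT.nd (nat_lit 156) (nat_lit 304) (nat_lit 0) (XT.nd (nat_lit 78) (nat_lit 380) (nat_lit 0) (XT.lf (nat_lit 0) (nat_lit 2888219244) (nat_lit 456) (nat_lit 1919823101) (nat_lit 76) (nat_lit 11715320406) (nat_lit 131) (nat_lit 5) (nat_lit 137) (nat_lit 5) (nat_lit 132) (nat_lit 5) (nat_lit 436) (nat_lit 420) (nat_lit 344)) (XT.lf (nat_lit 0) (nat_lit 5328110680) (nat_lit 456) (nat_lit 9302130783) (nat_lit 76) (nat_lit 2342638013) (nat_lit 126) (nat_lit 5) (nat_lit 132) (nat_lit 5) (nat_lit 127) (nat_lit 5) (nat_lit 437) (nat_lit 420) (nat_lit 343))) (XT.nd (nat_lit 78) (nat_lit 0) (nat_lit 0) (XT.lf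 (nat_lit 0) (nat_lit 273290220) (nat_lit 304) (nat_lit 7714738083) (nat_lit 380) (nat_lit 9451944548) (nat_lit 122) (nat_lit 5) (nat_lit 126) (nat_lit 5) (nat_lit 127) (nat_lit 5) (nat_lit 438) (nat_lit 420) (nat_lit 342)) (XT.lf (nat_lit 0) (nat_lit 10630401581) (nat_lit 304) (nat_lit 290523867) (nat_lit 380) (nat_lit 7002498543) (nat_lit 122) (nat_lit 5) (nat_lit 126) (nat_lit 5) (nat_lit 127) (nat_lit 5) (nat_lit 439) (nat_lit 420) (nat_lit 341)))) (XT.nd (nat_lit 156) (nat_lit 380) (nat_lit 0) (XT.nd (nat_lit 78) (nat_lit 0) (nat_lit 0) (XT.lf (nat_lit 0) (nat_lit 3034390693) (nat_lit 304) (nat_lit 11113871187) (nat_lit 380) (nat_lit 4275398256) (nat_lit 118) (nat_lit 5) (nat_lit 122) (nat_lit 5) (nat_lit 123) (nat_lit 5) (nat_lit 440) (nat_lit 420) (nat_lit 340)) (XT.lf (nat_lit 0) (nat_lit 14106895116) (nat_lit 304) (nat_lit 3542005754) (nat_lit 380) (nat_lit 1294412500) (nat_lit 118) (nat_lit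 5) (nat_lit 122) (nat_lit 5) (nat_lit 123) (nat_lit 5) (nat_lit 441) (nat_lit 420) (nat_lit 339))) (XT.nd (nat_lit 78) (nat_lit 0) (nat_lit 0) (XT.lf (nat_lit 0) (nat_lit 1931951849) (nat_lit 380) (nat_lit 13153046302) (nat_lit 76) (nat_lit 4394765994) (nat_lit 113) (nat_lit 5) (nat_lit 118) (nat_lit 5) (nat_lit 114) (nat_lit 5) (nat_lit 442) (nat_lit 420) (nat_lit 338)) (XT.lf (nat_lit 0) (nat_lit 5402106770) (nat_lit 380) (nat_lit 1923199544) (nat_lit 76) (nat_lit 12710373280) (nat_lit 113) (nat_lit 5) (nat_lit 118) (nat_lit 5) (nat_lit 114) (nat_lit 5) (nat_lit 443) (nat_lit 420) (nat_lit 337)))))) (XT.nd (nat_lit 624) (nat_lit 1064) (nat_lit 0) (XT.nd (nat_lit 312) (nat_lit 456) (nat_lit 0) (XT.nd (nat_lit 156) (nat_lit 304) (nat_lit 0) (XT.nd (nat_lit 78) (nat_lit 228) (nat_lit 0) (XT.lf (nat_lit 0) (nat_lit 9205402144) (nat_lit 380) (nat_lit 10452370506) (nat_lit 76) (nat_lit 953638231)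 (nat_lit 109) (nat_lit 5) (nat_lit 114) (nat_lit 5) (nat_lit 110) (nat_lit 5) (nat_lit 444) (nat_lit 420) (nat_lit 336)) (XT.lf (nat_lit 0) (nat_lit 1609798233) (nat_lit 228) (nat_lit 11753122496) (nat_lit 304) (nat_lit 7844806702) (nat_lit 106) (nat_lit 5) (nat_lit 109) (nat_lit 5) (nat_lit 110) (nat_lit 5) (nat_lit 445) (nat_lit 420) (nat_lit 335))) (XT.nd (nat_lit 78) (nat_lit 304) (nat_lit 0) (XT.lf (nat_lit 0) (nat_lit 14619298356) (nat_lit 228) (nat_lit 3272154592) (nat_lit 304) (nat_lit 3934251516) (nat_lit 106) (nat_lit 5) (nat_lit 109) (nat_lit 5) (nat_lit 110) (nat_lit 5) (nat_lit 446) (nat_lit 420) (nat_lit 334)) (XT.lf (nat_lit 0) (nat_lit 335626644) (nat_lit 304) (nat_lit 16584866552) (nat_lit 76) (nat_lit 5545489670) (nat_lit 102) (nat_lit 5) (nat_lit 106) (nat_lit 5) (nat_lit 103) (nat_lit 5) (nat_lit 447) (nat_lit 420) (nat_lit 333)))) (XT.nd (nat_lit 156) (nat_lit 228) (nat_lit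 0) (XT.nd (nat_lit 78) (nat_lit 228) (nat_lit 0) (XT.lf (nat_lit 0) (nat_lit 4851317432) (nat_lit 304) (nat_lit 3397608946) (nat_lit 76) (nat_lit 14877898577) (nat_lit 102) (nat_lit 5) (nat_lit 106) (nat_lit 5) (nat_lit 103) (nat_lit 5) (nat_lit 448) (nat_lit 420) (nat_lit 332)) (XT.lf (nat_lit 0) (nat_lit 9764562604) (nat_lit 304) (nat_lit 13052671790) (nat_lit 76) (nat_lit 994887531) (nat_lit 99) (nat_lit 5) (nat_lit 103) (nat_lit 5) (nat_lit 100) (nat_lit 5) (nat_lit 449) (nat_lit 420) (nat_lit 331))) (XT.nd (nat_lit 78) (nat_lit 0) (nat_lit 0) (XT.lf (nat_lit 0) (nat_lit 1094504021) (nat_lit 228) (nat_lit 14027486591) (nat_lit 304) (nat_lit 9399768312) (nat_lit 96) (nat_lit 5) (nat_lit 99) (nat_lit 5) (nat_lit 100) (nat_lit 5) (nat_lit 450) (nat_lit 420) (nat_lit 330)) (XT.lf (nat_lit 0) (nat_lit 16384618003) (nat_lit 228) (nat_lit 4571756163) (nat_lit 304) (nat_lit 4300050549) (nat_lit 96)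 (nat_lit 5) (nat_lit 99) (nat_lit 5) (nat_lit 100) (nat_lit 5) (nat_lit 451) (nat_lit 420) (nat_lit 329))))) (XT.nd (nat_lit 312) (nat_lit 456) (nat_lit 0) (XT.nd (nat_lit 156) (nat_lit 380) (nat_lit 0) (XT.nd (nat_lit 78) (nat_lit 0) (nat_lit 0) (XT.lf (nat_lit 0) (nat_lit 1197682407) (nat_lit 228) (nat_lit 19519240927) (nat_lit 76) (nat_lit 5301238962) (nat_lit 93) (nat_lit 5) (nat_lit 96) (nat_lit 5) (nat_lit 94) (nat_lit 5) (nat_lit 452) (nat_lit 420) (nat_lit 328)) (XT.lf (nat_lit 0) (nat_lit 7042065222) (nat_lit 228) (nat_lit 4029511858) (nat_lit 76) (nat_lit 15732072385) (nat_lit 93) (nat_lit 5) (nat_lit 96) (nat_lit 5) (nat_lit 94) (nat_lit 5) (nat_lit 453) (nat_lit 420) (nat_lit 327))) (XT.nd (nat_lit 78) (nat_lit 152) (nat_lit 0) (XT.lf (nat_lit 0) (nat_lit 12622187806) (nat_lit 228) (nat_lit 742704102) (nat_lit 304) (nat_lit 14254208793) (nat_lit 90) (nat_lit 5) (nat_lit 93) (nat_lit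 5) (nat_lit 94) (nat_lit 5) (nat_lit 454) (nat_lit 420) (nat_lit 326)) (XT.lf (nat_lit 0) (nat_lit 1651794460) (nat_lit 152) (nat_lit 18594276621) (nat_lit 228) (nat_lit 8217143762) (nat_lit 88) (nat_lit 5) (nat_lit 90) (nat_lit 5) (nat_lit 91) (nat_lit 5) (nat_lit 455) (nat_lit 420) (nat_lit 325)))) (XT.nd (nat_lit 156) (nat_lit 152) (nat_lit 0) (XT.nd (nat_lit 78) (nat_lit 304) (nat_lit 0) (XT.lf (nat_lit 0) (nat_lit 19624607058) (nat_lit 152) (nat_lit 8102244502) (nat_lit 228) (nat_lit 1609906875) (nat_lit 88) (nat_lit 5) (nat_lit 90) (nat_lit 5) (nat_lit 91) (nat_lit 5) (nat_lit 456) (nat_lit 420) (nat_lit 324)) (XT.lf (nat_lit 0) (nat_lit 5327352692) (nat_lit 304) (nat_lit 21880505571) (nat_lit 76) (nat_lit 3033453700) (nat_lit 84) (nat_lit 5) (nat_lit 88) (nat_lit 5) (nat_lit 85) (nat_lit 5) (nat_lit 457) (nat_lit 420) (nat_lit 323))) (XT.nd (nat_lit 78) (nat_lit 152) (nat_lit 0) (XT.lf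 (nat_lit 0) (nat_lit 12847431279) (nat_lit 304) (nat_lit 3686293167) (nat_lit 76) (nat_lit 14641546893) (nat_lit 84) (nat_lit 5) (nat_lit 88) (nat_lit 5) (nat_lit 85) (nat_lit 5) (nat_lit 458) (nat_lit 420) (nat_lit 322)) (XT.lf (nat_lit 0) (nat_lit 15911558107) (nat_lit 152) (nat_lit 5070912474) (nat_lit 228) (nat_lit 11161510971) (nat_lit 82) (nat_lit 5) (nat_lit 84) (nat_lit 5) (nat_lit 85) (nat_lit 5) (nat_lit 459) (nat_lit 420) (nat_lit 321))))))) (XT.nd (nat_lit 1248) (nat_lit 1216) (nat_lit 0) (XT.nd (nat_lit 624) (nat_lit 684) (nat_lit 0) (XT.nd (nat_lit 312) (nat_lit 532) (nat_lit 0) (XT.nd (nat_lit 156) (nat_lit 152) (nat_lit 0) (XT.nd (nat_lit 78) (nat_lit 76) (nat_lit 0) (XT.lf (nat_lit 0) (nat_lit 3444281581) (nat_lit 152) (nat_lit 26296608277) (nat_lit 228) (nat_lit 3409406690) (nat_lit 80) (nat_lit 5) (nat_lit 82) (nat_lit 5) (nat_lit 83) (nat_lit 5) (nat_lit 460) (nat_lit 420)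 (nat_lit 320)) (XT.lf (nat_lit 0) (nat_lit 4932157553) (nat_lit 228) (nat_lit 9701820596) (nat_lit 76) (nat_lit 19551594391) (nat_lit 79) (nat_lit 5) (nat_lit 82) (nat_lit 5) (nat_lit 80) (nat_lit 5) (nat_lit 461) (nat_lit 420) (nat_lit 319))) (XT.nd (nat_lit 78) (nat_lit 0) (nat_lit 0) (XT.lf (nat_lit 0) (nat_lit 11603284550) (nat_lit 152) (nat_lit 2145252730) (nat_lit 228) (nat_lit 21512665254) (nat_lit 77) (nat_lit 5) (nat_lit 79) (nat_lit 5) (nat_lit 80) (nat_lit 5) (nat_lit 462) (nat_lit 420) (nat_lit 318)) (XT.lf (nat_lit 0) (nat_lit 23335232233) (nat_lit 228) (nat_lit 2260748979) (nat_lit 76) (nat_lit 10778158556) (nat_lit 77) (nat_lit 5) (nat_lit 80) (nat_lit 5) (nat_lit 78) (nat_lit 5) (nat_lit 463) (nat_lit 420) (nat_lit 317)))) (XT.nd (nat_lit 156) (nat_lit 152) (nat_lit 0) (XT.nd (nat_lit 78) (nat_lit 228) (nat_lit 0) (XT.lf (nat_lit 0) (nat_lit 20823411378) (nat_lit 152) (nat_lit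 12929804623) (nat_lit 228) (nat_lit 3771910687) (nat_lit 75) (nat_lit 5) (nat_lit 77) (nat_lit 5) (nat_lit 78) (nat_lit 5) (nat_lit 464) (nat_lit 420) (nat_lit 316)) (XT.lf (nat_lit 0) (nat_lit 5909493323) (nat_lit 228) (nat_lit 32222939656) (nat_lit 76) (nat_lit 589490836) (nat_lit 72) (nat_lit 5) (nat_lit 75) (nat_lit 5) (nat_lit 73) (nat_lit 5) (nat_lit 465) (nat_lit 420) (nat_lit 315))) (XT.nd (nat_lit 78) (nat_lit 152) (nat_lit 0) (XT.lf (nat_lit 0) (nat_lit 16439461872) (nat_lit 228) (nat_lit 8817597493) (nat_lit 76) (nat_lit 14693847395) (nat_lit 72) (nat_lit 5) (nat_lit 75) (nat_lit 5) (nat_lit 73) (nat_lit 5) (nat_lit 466) (nat_lit 420) (nat_lit 314)) (XT.lf (nat_lit 0) (nat_lit 16264965390) (nat_lit 152) (nat_lit 11477098214) (nat_lit 228) (nat_lit 13486968943) (nat_lit 70) (nat_lit 5) (nat_lit 72) (nat_lit 5) (nat_lit 73) (nat_lit 5) (nat_lit 467) (nat_lit 420) (nat_lit 313))))) (XT.nd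 (nat_lit 312) (nat_lit 380) (nat_lit 0) (XT.nd (nat_lit 156) (nat_lit 152) (nat_lit 0) (XT.nd (nat_lit 78) (nat_lit 76) (nat_lit 0) (XT.lf (nat_lit 0) (nat_lit 290628189) (nat_lit 76) (nat_lit 39514459938) (nat_lit 152) (nat_lit 2756212275) (nat_lit 69) (nat_lit 5) (nat_lit 70) (nat_lit 5) (nat_lit 71) (nat_lit 4) (nat_lit 468) (nat_lit 420) (nat_lit 312)) (XT.lf (nat_lit 0) (nat_lit 8848831755) (nat_lit 152) (nat_lit 16605983954) (nat_lit 76) (nat_lit 18468214357) (nat_lit 68) (nat_lit 5) (nat_lit 70) (nat_lit 5) (nat_lit 69) (nat_lit 5) (nat_lit 469) (nat_lit 420) (nat_lit 311))) (XT.nd (nat_lit 78) (nat_lit 0) (nat_lit 0) (XT.lf (nat_lit 0) (nat_lit 10623699856) (nat_lit 152) (nat_lit 10476332587) (nat_lit 228) (nat_lit 24242628375) (nat_lit 66) (nat_lit 5) (nat_lit 68) (nat_lit 5) (nat_lit 69) (nat_lit 5) (nat_lit 470) (nat_lit 420) (nat_lit 310)) (XT.lf (nat_lit 0) (nat_lit 34324343017)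 (nat_lit 228) (nat_lit 7127555544) (nat_lit 76) (nat_lit 5363347392) (nat_lit 66) (nat_lit 5) (nat_lit 69) (nat_lit 5) (nat_lit 67) (nat_lit 4) (nat_lit 471) (nat_lit 420) (nat_lit 309)))) (XT.nd (nat_lit 156) (nat_lit 76) (nat_lit 0) (XT.nd (nat_lit 78) (nat_lit 152) (nat_lit 0) (XT.lf (nat_lit 0) (nat_lit 375845181) (nat_lit 152) (nat_lit 25966502208) (nat_lit 76) (nat_lit 21993102376) (nat_lit 64) (nat_lit 5) (nat_lit 66) (nat_lit 5) (nat_lit 65) (nat_lit 5) (nat_lit 472) (nat_lit 420) (nat_lit 308)) (XT.lf (nat_lit 0) (nat_lit 3556646554) (nat_lit 152) (nat_lit 10080822206) (nat_lit 228) (nat_lit 36275391142) (nat_lit 62) (nat_lit 5) (nat_lit 64) (nat_lit 5) (nat_lit 65) (nat_lit 5) (nat_lit 473) (nat_lit 420) (nat_lit 307))) (XT.nd (nat_lit 78) (nat_lit 76) (nat_lit 0) (XT.lf (nat_lit 0) (nat_lit 28111477092) (nat_lit 228) (nat_lit 16218693356) (nat_lit 76) (nat_lit 7211505198) (nat_lit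 62) (nat_lit 5) (nat_lit 65) (nat_lit 5) (nat_lit 63) (nat_lit 4) (nat_lit 474) (nat_lit 420) (nat_lit 306)) (XT.lf (nat_lit 0) (nat_lit 15752635436) (nat_lit 76) (nat_lit 27961225615) (nat_lit 152) (nat_lit 9517837632) (nat_lit 61) (nat_lit 5) (nat_lit 62) (nat_lit 5) (nat_lit 63) (nat_lit 4) (nat_lit 475) (nat_lit 420) (nat_lit 305)))))) (XT.nd (nat_lit 624) (nat_lit 456) (nat_lit 0) (XT.nd (nat_lit 312) (nat_lit 456) (nat_lit 0) (XT.nd (nat_lit 156) (nat_lit 76) (nat_lit 0) (XT.nd (nat_lit 78) (nat_lit 152) (nat_lit 0) (XT.lf (nat_lit 0) (nat_lit 5199893752) (nat_lit 152) (nat_lit 5202868880) (nat_lit 76) (nat_lit 44585853476) (nat_lit 60) (nat_lit 5) (nat_lit 62) (nat_lit 5) (nat_lit 61) (nat_lit 5) (nat_lit 476) (nat_lit 420) (nat_lit 304)) (XT.lf (nat_lit 0) (nat_lit 20922893081) (nat_lit 228) (nat_lit 27475678907) (nat_lit 76) (nat_lit 8397543985) (nat_lit 58) (nat_lit 5) (nat_lit 61)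 (nat_lit 5) (nat_lit 59) (nat_lit 4) (nat_lit 477) (nat_lit 420) (nat_lit 303))) (XT.nd (nat_lit 78) (nat_lit 0) (nat_lit 0) (XT.lf (nat_lit 0) (nat_lit 7104895342) (nat_lit 76) (nat_lit 30692011746) (nat_lit 152) (nat_lit 20878840724) (nat_lit 57) (nat_lit 5) (nat_lit 58) (nat_lit 5) (nat_lit 59) (nat_lit 4) (nat_lit 478) (nat_lit 420) (nat_lit 302)) (XT.lf (nat_lit 0) (nat_lit 44357097877) (nat_lit 76) (nat_lit 11616797424) (nat_lit 152) (nat_lit 4652502477) (nat_lit 57) (nat_lit 5) (nat_lit 58) (nat_lit 5) (nat_lit 59) (nat_lit 4) (nat_lit 479) (nat_lit 420) (nat_lit 301)))) (XT.nd (nat_lit 156) (nat_lit 228) (nat_lit 0) (XT.nd (nat_lit 78) (nat_lit 0) (nat_lit 0) (XT.lf (nat_lit 0) (nat_lit 12454921517) (nat_lit 228) (nat_lit 41514558433) (nat_lit 76) (nat_lit 8672123581) (nat_lit 54) (nat_lit 5) (nat_lit 57) (nat_lit 5) (nat_lit 55) (nat_lit 4) (nat_lit 480) (nat_lit 420) (nat_lit 300))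 (XT.lf (nat_lit 0) (nat_lit 30726031093) (nat_lit 228) (nat_lit 4067960610) (nat_lit 76) (nat_lit 29936531074) (nat_lit 54) (nat_lit 5) (nat_lit 57) (nat_lit 5) (nat_lit 55) (nat_lit 4) (nat_lit 481) (nat_lit 420) (nat_lit 299))) (XT.nd (nat_lit 78) (nat_lit 152) (nat_lit 0) (XT.lf (nat_lit 0) (nat_lit 36405718920) (nat_lit 76) (nat_lit 14067833806) (nat_lit 152) (nat_lit 16422192602) (nat_lit 53) (nat_lit 5) (nat_lit 54) (nat_lit 5) (nat_lit 55) (nat_lit 4) (nat_lit 482) (nat_lit 420) (nat_lit 298)) (XT.lf (nat_lit 0) (nat_lit 2321409310) (nat_lit 152) (nat_lit 59120527868) (nat_lit 76) (nat_lit 7708327300) (nat_lit 51) (nat_lit 5) (nat_lit 53) (nat_lit 5) (nat_lit 52) (nat_lit 4) (nat_lit 483) (nat_lit 420) (nat_lit 297))))) (XT.nd (nat_lit 312) (nat_lit 228) (nat_lit 0) (XT.nd (nat_lit 156) (nat_lit 152) (nat_lit 0) (XT.nd (nat_lit 78) (nat_lit 76) (nat_lit 0) (XT.lf (nat_lit 0) (nat_lit 22200247631)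 (nat_lit 152) (nat_lit 18376459094) (nat_lit 76) (nat_lit 30889844714) (nat_lit 51) (nat_lit 5) (nat_lit 53) (nat_lit 5) (nat_lit 52) (nat_lit 4) (nat_lit 484) (nat_lit 420) (nat_lit 296)) (XT.lf (nat_lit 0) (nat_lit 25201416938) (nat_lit 76) (nat_lit 18259838644) (nat_lit 152) (nat_lit 30417985919) (nat_lit 50) (nat_lit 5) (nat_lit 51) (nat_lit 5) (nat_lit 52) (nat_lit 4) (nat_lit 485) (nat_lit 420) (nat_lit 295))) (XT.nd (nat_lit 78) (nat_lit 152) (nat_lit 0) (XT.lf (nat_lit 0) (nat_lit 66177178509) (nat_lit 152) (nat_lit 4896715842) (nat_lit 0) (nat_lit 5319078622) (nat_lit 50) (nat_lit 5) (nat_lit 52) (nat_lit 4) (nat_lit 50) (nat_lit 4) (nat_lit 486) (nat_lit 420) (nat_lit 294)) (XT.lf (nat_lit 0) (nat_lit 11612022259) (nat_lit 152) (nat_lit 37059665479) (nat_lit 76) (nat_lit 30303745459) (nat_lit 48) (nat_lit 5) (nat_lit 50) (nat_lit 5) (nat_lit 49) (nat_lit 4) (nat_lit 487) (nat_lit 420)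 (nat_lit 293)))) (XT.nd (nat_lit 156) (nat_lit 152) (nat_lit 0) (XT.nd (nat_lit 78) (nat_lit 0) (nat_lit 0) (XT.lf (nat_lit 0) (nat_lit 9687689034) (nat_lit 76) (nat_lit 24730806379) (nat_lit 152) (nat_lit 47248618370) (nat_lit 47) (nat_lit 5) (nat_lit 48) (nat_lit 5) (nat_lit 49) (nat_lit 4) (nat_lit 488) (nat_lit 420) (nat_lit 292)) (XT.lf (nat_lit 0) (nat_lit 59004622820) (nat_lit 152) (nat_lit 24429176176) (nat_lit 0) (nat_lit 1027612984) (nat_lit 47) (nat_lit 5) (nat_lit 49) (nat_lit 4) (nat_lit 47) (nat_lit 4) (nat_lit 489) (nat_lit 420) (nat_lit 291))) (XT.nd (nat_lit 78) (nat_lit 76) (nat_lit 0) (XT.lf (nat_lit 0) (nat_lit 25913436480) (nat_lit 76) (nat_lit 59711921728) (nat_lit 76) (nat_lit 1729801902) (nat_lit 46) (nat_lit 4) (nat_lit 47) (nat_lit 5) (nat_lit 47) (nat_lit 4) (nat_lit 490) (nat_lit 420) (nat_lit 290)) (XT.lf (nat_lit 0) (nat_lit 22857324306) (nat_lit 152) (nat_lit 11129471654)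 (nat_lit 76) (nat_lit 56367911411) (nat_lit 45) (nat_lit 5) (nat_lit 47) (nat_lit 5) (nat_lit 46) (nat_lit 4) (nat_lit 491) (nat_lit 420) (nat_lit 289))))))))
noncomputable def xc140 : XT := (XT.nd (nat_lit 2418) (nat_lit 1064) (nat_lit 0) (XT.nd (nat_lit 1170) (nat_lit 760) (nat_lit 0) (XT.nd (nat_lit 546) (nat_lit 532) (nat_lit 0) (XT.nd (nat_lit 234) (nat_lit 228) (nat_lit 0) (XT.nd (nat_lit 78) (nat_lit 152) (nat_lit 0) (XT.lf (nat_lit 0) (nat_lit 43038856891) (nat_lit 76) (nat_lit 6244303247) (nat_lit 152) (nat_lit 44186279777) (nat_lit 44) (nat_lit 5) (nat_lit 45) (nat_lit 5) (nat_lit 46) (nat_lit 4) (nat_lit 492) (nat_lit 420) (nat_lit 288)) (XT.nd (nat_lit 78) (nat_lit 76) (nat_lit 0) (XT.lf (nat_lit 0) (nat_lit 3308293952) (nat_lit 76) (nat_lit 74318065623) (nat_lit 76) (nat_lit 19083746009) (nat_lit 43) (nat_lit 4) (nat_lit 44) (nat_lit 5) (nat_lit 44) (nat_lit 4) (nat_lit 493) (nat_lit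 420) (nat_lit 287)) (XT.lf (nat_lit 0) (nat_lit 8007086755) (nat_lit 152) (nat_lit 38823795577) (nat_lit 76) (nat_lit 53227944823) (nat_lit 42) (nat_lit 5) (nat_lit 44) (nat_lit 5) (nat_lit 43) (nat_lit 4) (nat_lit 494) (nat_lit 420) (nat_lit 286)))) (XT.nd (nat_lit 156) (nat_lit 152) (nat_lit 0) (XT.nd (nat_lit 78) (nat_lit 0) (nat_lit 0) (XT.lf (nat_lit 0) (nat_lit 18762492589) (nat_lit 76) (nat_lit 17337326516) (nat_lit 152) (nat_lit 67445088511) (nat_lit 41) (nat_lit 5) (nat_lit 42) (nat_lit 5) (nat_lit 43) (nat_lit 4) (nat_lit 495) (nat_lit 420) (nat_lit 285)) (XT.lf (nat_lit 0) (nat_lit 66474056961) (nat_lit 152) (nat_lit 26828352095) (nat_lit 0) (nat_lit 13859039672) (nat_lit 41) (nat_lit 5) (nat_lit 43) (nat_lit 4) (nat_lit 41) (nat_lit 4) (nat_lit 496) (nat_lit 420) (nat_lit 284))) (XT.nd (nat_lit 78) (nat_lit 76) (nat_lit 0) (XT.lf (nat_lit 0) (nat_lit 34846590393) (nat_lit 76) (nat_lit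 64344662742) (nat_lit 76) (nat_lit 11726351508) (nat_lit 40) (nat_lit 4) (nat_lit 41) (nat_lit 5) (nat_lit 41) (nat_lit 4) (nat_lit 497) (nat_lit 420) (nat_lit 283)) (XT.lf (nat_lit 0) (nat_lit 18542556120) (nat_lit 152) (nat_lit 14609208276) (nat_lit 76) (nat_lit 81672330534) (nat_lit 39) (nat_lit 5) (nat_lit 41) (nat_lit 5) (nat_lit 40) (nat_lit 4) (nat_lit 498) (nat_lit 420) (nat_lit 282))))) (XT.nd (nat_lit 312) (nat_lit 228) (nat_lit 0) (XT.nd (nat_lit 156) (nat_lit 228) (nat_lit 0) (XT.nd (nat_lit 78) (nat_lit 0) (nat_lit 0) (XT.lf (nat_lit 0) (nat_lit 50739037802) (nat_lit 152) (nat_lit 67516322379) (nat_lit 0) (nat_lit 620527298) (nat_lit 38) (nat_lit 5) (nat_lit 40) (nat_lit 4) (nat_lit 38) (nat_lit 4) (nat_lit 499) (nat_lit 420) (nat_lit 281)) (XT.lf (nat_lit 0) (nat_lit 85336466079) (nat_lit 152) (nat_lit 2539001867) (nat_lit 0) (nat_lit 35215245639) (nat_lit 38) (nat_lit 5) (nat_lit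 40) (nat_lit 4) (nat_lit 38) (nat_lit 4) (nat_lit 500) (nat_lit 420) (nat_lit 280))) (XT.nd (nat_lit 78) (nat_lit 152) (nat_lit 0) (XT.lf (nat_lit 0) (nat_lit 67851670175) (nat_lit 76) (nat_lit 54867813164) (nat_lit 76) (nat_lit 4744011832) (nat_lit 37) (nat_lit 4) (nat_lit 38) (nat_lit 5) (nat_lit 38) (nat_lit 4) (nat_lit 501) (nat_lit 420) (nat_lit 279)) (XT.lf (nat_lit 0) (nat_lit 9630509966) (nat_lit 76) (nat_lit 19519133590) (nat_lit 152) (nat_lit 102872396609) (nat_lit 35) (nat_lit 5) (nat_lit 36) (nat_lit 5) (nat_lit 37) (nat_lit 4) (nat_lit 502) (nat_lit 420) (nat_lit 278)))) (XT.nd (nat_lit 156) (nat_lit 152) (nat_lit 0) (XT.nd (nat_lit 78) (nat_lit 76) (nat_lit 0) (XT.lf (nat_lit 0) (nat_lit 65875769769) (nat_lit 152) (nat_lit 52729747551) (nat_lit 0) (nat_lit 18134245702) (nat_lit 35) (nat_lit 5) (nat_lit 37) (nat_lit 4) (nat_lit 35) (nat_lit 4) (nat_lit 503) (nat_lit 420) (nat_lit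 277)) (XT.lf (nat_lit 0) (nat_lit 20752487060) (nat_lit 76) (nat_lit 84326252752) (nat_lit 76) (nat_lit 36582605379) (nat_lit 34) (nat_lit 4) (nat_lit 35) (nat_lit 5) (nat_lit 35) (nat_lit 4) (nat_lit 504) (nat_lit 420) (nat_lit 276))) (XT.nd (nat_lit 78) (nat_lit 76) (nat_lit 0) (XT.lf (nat_lit 0) (nat_lit 335838090) (nat_lit 152) (nat_lit 47057201484) (nat_lit 76) (nat_lit 99391215595) (nat_lit 33) (nat_lit 5) (nat_lit 35) (nat_lit 5) (nat_lit 34) (nat_lit 4) (nat_lit 505) (nat_lit 420) (nat_lit 275)) (XT.lf (nat_lit 0) (nat_lit 30868779742) (nat_lit 76) (nat_lit 7480671581) (nat_lit 152) (nat_lit 113759940468) (nat_lit 32) (nat_lit 5) (nat_lit 33) (nat_lit 5) (nat_lit 34) (nat_lit 4) (nat_lit 506) (nat_lit 420) (nat_lit 274)))))) (XT.nd (nat_lit 624) (nat_lit 304) (nat_lit 0) (XT.nd (nat_lit 312) (nat_lit 228) (nat_lit 0) (XT.nd (nat_lit 156) (nat_lit 152) (nat_lit 0) (XT.nd (nat_lit 78) (nat_lit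 76) (nat_lit 0) (XT.lf (nat_lit 0) (nat_lit 79607973967) (nat_lit 152) (nat_lit 43893273206) (nat_lit 0) (nat_lit 34132326669) (nat_lit 32) (nat_lit 5) (nat_lit 34) (nat_lit 4) (nat_lit 32) (nat_lit 4) (nat_lit 507) (nat_lit 420) (nat_lit 273)) (XT.lf (nat_lit 0) (nat_lit 38422321235) (nat_lit 76) (nat_lit 85226492602) (nat_lit 76) (nat_lit 39749181638) (nat_lit 31) (nat_lit 4) (nat_lit 32) (nat_lit 5) (nat_lit 32) (nat_lit 4) (nat_lit 508) (nat_lit 420) (nat_lit 272))) (XT.nd (nat_lit 78) (nat_lit 76) (nat_lit 0) (XT.lf (nat_lit 0) (nat_lit 1179360516) (nat_lit 152) (nat_lit 43061206349) (nat_lit 76) (nat_lit 125172106071) (nat_lit 30) (nat_lit 5) (nat_lit 32) (nat_lit 5) (nat_lit 31) (nat_lit 4) (nat_lit 509) (nat_lit 420) (nat_lit 271)) (XT.lf (nat_lit 0) (nat_lit 43500644138) (nat_lit 152) (nat_lit 131974778209) (nat_lit 0) (nat_lit 185973279) (nat_lit 29) (nat_lit 5) (nat_lit 31) (nat_lit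 4) (nat_lit 29) (nat_lit 4) (nat_lit 510) (nat_lit 420) (nat_lit 270)))) (XT.nd (nat_lit 156) (nat_lit 152) (nat_lit 0) (XT.nd (nat_lit 78) (nat_lit 76) (nat_lit 0) (XT.lf (nat_lit 0) (nat_lit 89401497576) (nat_lit 152) (nat_lit 46662423605) (nat_lit 0) (nat_lit 46085458015) (nat_lit 29) (nat_lit 5) (nat_lit 31) (nat_lit 4) (nat_lit 29) (nat_lit 4) (nat_lit 511) (nat_lit 420) (nat_lit 269)) (XT.lf (nat_lit 0) (nat_lit 44328684244) (nat_lit 76) (nat_lit 93957978677) (nat_lit 76) (nat_lit 50640635590) (nat_lit 28) (nat_lit 4) (nat_lit 29) (nat_lit 5) (nat_lit 29) (nat_lit 4) (nat_lit 512) (nat_lit 420) (nat_lit 268))) (XT.nd (nat_lit 78) (nat_lit 152) (nat_lit 0) (XT.lf (nat_lit 0) (nat_lit 141483793527) (nat_lit 76) (nat_lit 48919765600) (nat_lit 76) (nat_lit 5601181060) (nat_lit 28) (nat_lit 4) (nat_lit 29) (nat_lit 5) (nat_lit 29) (nat_lit 4) (nat_lit 513) (nat_lit 420) (nat_lit 267)) (XT.lf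 (nat_lit 0) (nat_lit 40707195481) (nat_lit 76) (nat_lit 281566644) (nat_lit 152) (nat_lit 162383103557) (nat_lit 26) (nat_lit 5) (nat_lit 27) (nat_lit 5) (nat_lit 28) (nat_lit 4) (nat_lit 514) (nat_lit 420) (nat_lit 266))))) (XT.nd (nat_lit 312) (nat_lit 76) (nat_lit 0) (XT.nd (nat_lit 156) (nat_lit 152) (nat_lit 0) (XT.nd (nat_lit 78) (nat_lit 76) (nat_lit 0) (XT.lf (nat_lit 0) (nat_lit 91448707309) (nat_lit 152) (nat_lit 69376897912) (nat_lit 0) (nat_lit 50190714060) (nat_lit 26) (nat_lit 5) (nat_lit 28) (nat_lit 4) (nat_lit 26) (nat_lit 4) (nat_lit 515) (nat_lit 420) (nat_lit 265)) (XT.lf (nat_lit 0) (nat_lit 29510013333) (nat_lit 76) (nat_lit 115384428616) (nat_lit 76) (nat_lit 74125414020) (nat_lit 25) (nat_lit 4) (nat_lit 26) (nat_lit 5) (nat_lit 26) (nat_lit 4) (nat_lit 516) (nat_lit 420) (nat_lit 264))) (XT.nd (nat_lit 78) (nat_lit 152) (nat_lit 0) (XT.lf (nat_lit 0) (nat_lit 135744823728)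 (nat_lit 76) (nat_lit 66440056132) (nat_lit 76) (nat_lit 25180068825) (nat_lit 25) (nat_lit 4) (nat_lit 26) (nat_lit 5) (nat_lit 26) (nat_lit 4) (nat_lit 517) (nat_lit 420) (nat_lit 263)) (XT.lf (nat_lit 0) (nat_lit 11105373219) (nat_lit 76) (nat_lit 14439156984) (nat_lit 152) (nat_lit 210553755707) (nat_lit 23) (nat_lit 5) (nat_lit 24) (nat_lit 5) (nat_lit 25) (nat_lit 4) (nat_lit 518) (nat_lit 420) (nat_lit 262)))) (XT.nd (nat_lit 156) (nat_lit 76) (nat_lit 0) (XT.nd (nat_lit 78) (nat_lit 0) (nat_lit 0) (XT.lf (nat_lit 0) (nat_lit 80160818100) (nat_lit 152) (nat_lit 124112879243) (nat_lit 0) (nat_lit 40863869551) (nat_lit 23) (nat_lit 5) (nat_lit 25) (nat_lit 4) (nat_lit 23) (nat_lit 4) (nat_lit 519) (nat_lit 420) (nat_lit 261)) (XT.lf (nat_lit 0) (nat_lit 137742312232) (nat_lit 152) (nat_lit 18430216687) (nat_lit 0) (nat_lit 98444563432) (nat_lit 23) (nat_lit 5) (nat_lit 25) (nat_lit 4) (nat_lit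 23) (nat_lit 4) (nat_lit 520) (nat_lit 420) (nat_lit 260))) (XT.nd (nat_lit 78) (nat_lit 0) (nat_lit 0) (XT.lf (nat_lit 0) (nat_lit 95591666374) (nat_lit 76) (nat_lit 104101463124) (nat_lit 76) (nat_lit 64802952179) (nat_lit 22) (nat_lit 4) (nat_lit 23) (nat_lit 5) (nat_lit 23) (nat_lit 4) (nat_lit 521) (nat_lit 420) (nat_lit 259)) (XT.lf (nat_lit 0) (nat_lit 215950127831) (nat_lit 76) (nat_lit 49101315824) (nat_lit 76) (nat_lit 9802079028) (nat_lit 22) (nat_lit 4) (nat_lit 23) (nat_lit 5) (nat_lit 23) (nat_lit 4) (nat_lit 522) (nat_lit 420) (nat_lit 258))))))) (XT.nd (nat_lit 1170) (nat_lit 380) (nat_lit 0) (XT.nd (nat_lit 546) (nat_lit 304) (nat_lit 0) (XT.nd (nat_lit 234) (nat_lit 152) (nat_lit 0) (XT.nd (nat_lit 78) (nat_lit 76) (nat_lit 0) (XT.lf (nat_lit 0) (nat_lit 47474836994) (nat_lit 152) (nat_lit 228117200841) (nat_lit 0) (nat_lit 10046334057) (nat_lit 20) (nat_lit 5) (nat_lit 22)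 (nat_lit 4) (nat_lit 20) (nat_lit 4) (nat_lit 523) (nat_lit 420) (nat_lit 257)) (XT.nd (nat_lit 78) (nat_lit 76) (nat_lit 0) (XT.lf (nat_lit 0) (nat_lit 109102938131) (nat_lit 152) (nat_lit 116086845105) (nat_lit 0) (nat_lit 71673808175) (nat_lit 20) (nat_lit 5) (nat_lit 22) (nat_lit 4) (nat_lit 20) (nat_lit 4) (nat_lit 524) (nat_lit 420) (nat_lit 256)) (XT.lf (nat_lit 0) (nat_lit 1591947628) (nat_lit 76) (nat_lit 172243354264) (nat_lit 76) (nat_lit 134813627148) (nat_lit 19) (nat_lit 4) (nat_lit 20) (nat_lit 5) (nat_lit 20) (nat_lit 4) (nat_lit 525) (nat_lit 420) (nat_lit 255)))) (XT.nd (nat_lit 156) (nat_lit 152) (nat_lit 0) (XT.nd (nat_lit 78) (nat_lit 0) (nat_lit 0) (XT.lf (nat_lit 0) (nat_lit 129180985124) (nat_lit 76) (nat_lit 114587321568) (nat_lit 76) (nat_lit 77157025728) (nat_lit 19) (nat_lit 4) (nat_lit 20) (nat_lit 5) (nat_lit 20) (nat_lit 4) (nat_lit 526) (nat_lit 420) (nat_lit 254))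 (XT.lf (nat_lit 0) (nat_lit 263145695443) (nat_lit 76) (nat_lit 54050395772) (nat_lit 76) (nat_lit 16619558290) (nat_lit 19) (nat_lit 4) (nat_lit 20) (nat_lit 5) (nat_lit 20) (nat_lit 4) (nat_lit 527) (nat_lit 420) (nat_lit 253))) (XT.nd (nat_lit 78) (nat_lit 0) (nat_lit 0) (XT.lf (nat_lit 0) (nat_lit 46514430856) (nat_lit 152) (nat_lit 289880272970) (nat_lit 0) (nat_lit 10865522921) (nat_lit 17) (nat_lit 5) (nat_lit 19) (nat_lit 4) (nat_lit 17) (nat_lit 4) (nat_lit 528) (nat_lit 420) (nat_lit 252)) (XT.lf (nat_lit 0) (nat_lit 114347306364) (nat_lit 152) (nat_lit 168213137716) (nat_lit 0) (nat_lit 78697930539) (nat_lit 17) (nat_lit 5) (nat_lit 19) (nat_lit 4) (nat_lit 17) (nat_lit 4) (nat_lit 529) (nat_lit 420) (nat_lit 251))))) (XT.nd (nat_lit 312) (nat_lit 152) (nat_lit 0) (XT.nd (nat_lit 156) (nat_lit 76) (nat_lit 0) (XT.nd (nat_lit 78) (nat_lit 76) (nat_lit 0) (XT.lf (nat_lit 0) (nat_lit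 185570102746) (nat_lit 152) (nat_lit 40466131982) (nat_lit 0) (nat_lit 149920281311) (nat_lit 17) (nat_lit 5) (nat_lit 19) (nat_lit 4) (nat_lit 17) (nat_lit 4) (nat_lit 530) (nat_lit 420) (nat_lit 250)) (XT.lf (nat_lit 0) (nat_lit 96761888489) (nat_lit 76) (nat_lit 165101233853) (nat_lit 76) (nat_lit 129450988027) (nat_lit 16) (nat_lit 4) (nat_lit 17) (nat_lit 5) (nat_lit 17) (nat_lit 4) (nat_lit 531) (nat_lit 420) (nat_lit 249))) (XT.nd (nat_lit 78) (nat_lit 76) (nat_lit 0) (XT.lf (nat_lit 0) (nat_lit 242252935995) (nat_lit 76) (nat_lit 100401556723) (nat_lit 76) (nat_lit 64750906716) (nat_lit 16) (nat_lit 4) (nat_lit 17) (nat_lit 5) (nat_lit 17) (nat_lit 4) (nat_lit 532) (nat_lit 420) (nat_lit 248)) (XT.lf (nat_lit 0) (nat_lit 3080702974) (nat_lit 152) (nat_lit 29335593845) (nat_lit 76) (nat_lit 391882548548) (nat_lit 15) (nat_lit 5) (nat_lit 17) (nat_lit 5) (nat_lit 16) (nat_lit 4) (nat_lit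 533) (nat_lit 420) (nat_lit 247)))) (XT.nd (nat_lit 156) (nat_lit 76) (nat_lit 0) (XT.nd (nat_lit 78) (nat_lit 0) (nat_lit 0) (XT.lf (nat_lit 0) (nat_lit 74591600411) (nat_lit 152) (nat_lit 326631215911) (nat_lit 0) (nat_lit 40637884652) (nat_lit 14) (nat_lit 5) (nat_lit 16) (nat_lit 4) (nat_lit 14) (nat_lit 4) (nat_lit 534) (nat_lit 420) (nat_lit 246)) (XT.lf (nat_lit 0) (nat_lit 150712927811) (nat_lit 152) (nat_lit 192777097770) (nat_lit 0) (nat_lit 116758879531) (nat_lit 14) (nat_lit 5) (nat_lit 16) (nat_lit 4) (nat_lit 14) (nat_lit 4) (nat_lit 535) (nat_lit 420) (nat_lit 245))) (XT.nd (nat_lit 78) (nat_lit 76) (nat_lit 0) (XT.lf (nat_lit 0) (nat_lit 230638905816) (nat_lit 152) (nat_lit 52233143587) (nat_lit 0) (nat_lit 196684540849) (nat_lit 14) (nat_lit 5) (nat_lit 16) (nat_lit 4) (nat_lit 14) (nat_lit 4) (nat_lit 536) (nat_lit 420) (nat_lit 244)) (XT.lf (nat_lit 0) (nat_lit 98487489840)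 (nat_lit 76) (nat_lit 217610010260) (nat_lit 76) (nat_lit 183655343687) (nat_lit 13) (nat_lit 4) (nat_lit 14) (nat_lit 5) (nat_lit 14) (nat_lit 4) (nat_lit 537) (nat_lit 420) (nat_lit 243)))))) (XT.nd (nat_lit 624) (nat_lit 152) (nat_lit 0) (XT.nd (nat_lit 312) (nat_lit 76) (nat_lit 0) (XT.nd (nat_lit 156) (nat_lit 152) (nat_lit 0) (XT.nd (nat_lit 78) (nat_lit 0) (nat_lit 0) (XT.lf (nat_lit 0) (nat_lit 258554882619) (nat_lit 76) (nat_lit 148157408916) (nat_lit 76) (nat_lit 114202455098) (nat_lit 13) (nat_lit 4) (nat_lit 14) (nat_lit 5) (nat_lit 14) (nat_lit 4) (nat_lit 538) (nat_lit 420) (nat_lit 242)) (XT.lf (nat_lit 0) (nat_lit 426623083970) (nat_lit 76) (nat_lit 75233475595) (nat_lit 76) (nat_lit 41278248211) (nat_lit 13) (nat_lit 4) (nat_lit 14) (nat_lit 5) (nat_lit 14) (nat_lit 4) (nat_lit 539) (nat_lit 420) (nat_lit 241))) (XT.nd (nat_lit 78) (nat_lit 0) (nat_lit 0) (XT.lf (nat_lit 0) (nat_lit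 34782657811) (nat_lit 152) (nat_lit 529180562871) (nat_lit 0) (nat_lit 2444097885) (nat_lit 11) (nat_lit 5) (nat_lit 13) (nat_lit 4) (nat_lit 11) (nat_lit 4) (nat_lit 540) (nat_lit 420) (nat_lit 240)) (XT.lf (nat_lit 0) (nat_lit 116497032911) (nat_lit 152) (nat_lit 389992468514) (nat_lit 0) (nat_lit 84158236668) (nat_lit 11) (nat_lit 5) (nat_lit 13) (nat_lit 4) (nat_lit 11) (nat_lit 4) (nat_lit 541) (nat_lit 420) (nat_lit 239)))) (XT.nd (nat_lit 156) (nat_lit 76) (nat_lit 0) (XT.nd (nat_lit 78) (nat_lit 0) (nat_lit 0) (XT.lf (nat_lit 0) (nat_lit 202295963200) (nat_lit 152) (nat_lit 243847331686) (nat_lit 0) (nat_lit 169956941893) (nat_lit 11) (nat_lit 5) (nat_lit 13) (nat_lit 4) (nat_lit 11) (nat_lit 4) (nat_lit 542) (nat_lit 420) (nat_lit 238)) (XT.lf (nat_lit 0) (nat_lit 292383731844) (nat_lit 152) (nat_lit 90397187775) (nat_lit 0) (nat_lit 260044496192) (nat_lit 11) (nat_lit 5) (nat_lit 13)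 (nat_lit 4) (nat_lit 11) (nat_lit 4) (nat_lit 543) (nat_lit 420) (nat_lit 237))) (XT.nd (nat_lit 78) (nat_lit 0) (nat_lit 0) (XT.lf (nat_lit 0) (nat_lit 73061753081) (nat_lit 76) (nat_lit 315053779172) (nat_lit 76) (nat_lit 282714339380) (nat_lit 10) (nat_lit 4) (nat_lit 11) (nat_lit 5) (nat_lit 11) (nat_lit 4) (nat_lit 544) (nat_lit 420) (nat_lit 236)) (XT.lf (nat_lit 0) (nat_lit 247829919148) (nat_lit 76) (nat_lit 242333885604) (nat_lit 76) (nat_lit 209994251394) (nat_lit 10) (nat_lit 4) (nat_lit 11) (nat_lit 5) (nat_lit 11) (nat_lit 4) (nat_lit 545) (nat_lit 420) (nat_lit 235))))) (XT.nd (nat_lit 52728) (nat_lit 0) (nat_lit 11400) (XT.nd (nat_lit 156) (nat_lit 152) (nat_lit 0) (XT.nd (nat_lit 78) (nat_lit 0) (nat_lit 0) (XT.lf (nat_lit 0) (nat_lit 431334485835) (nat_lit 76) (nat_lit 165979016427) (nat_lit 76) (nat_lit 133639197057) (nat_lit 10) (nat_lit 4) (nat_lit 11) (nat_lit 5) (nat_lit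 11) (nat_lit 4) (nat_lit 546) (nat_lit 420) (nat_lit 234)) (XT.lf (nat_lit 0) (nat_lit 624012368775) (nat_lit 76) (nat_lit 85807374335) (nat_lit 76) (nat_lit 53467378622) (nat_lit 10) (nat_lit 4) (nat_lit 11) (nat_lit 5) (nat_lit 11) (nat_lit 4) (nat_lit 547) (nat_lit 420) (nat_lit 233))) (XT.nd (nat_lit 78) (nat_lit 0) (nat_lit 0) (XT.lf (nat_lit 0) (nat_lit 29550307324) (nat_lit 76) (nat_lit 640166325) (nat_lit 152) (nat_lit 767000793210) (nat_lit 8) (nat_lit 5) (nat_lit 9) (nat_lit 5) (nat_lit 10) (nat_lit 4) (nat_lit 548) (nat_lit 420) (nat_lit 232)) (XT.lf (nat_lit 0) (nat_lit 120016994381) (nat_lit 152) (nat_lit 623323981443) (nat_lit 0) (nat_lit 89216686183) (nat_lit 8) (nat_lit 5) (nat_lit 10) (nat_lit 4) (nat_lit 8) (nat_lit 4) (nat_lit 549) (nat_lit 420) (nat_lit 231)))) (XT.nd (nat_lit 156) (nat_lit 0) (nat_lit 0) (XT.nd (nat_lit 78) (nat_lit 0) (nat_lit 0) (XT.lf (nat_lit 0) (nat_lit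 2342339384) (nat_lit 0) (nat_lit 2342339384) (nat_lit 684) (nat_lit 1143601944) (nat_lit 158) (nat_lit 5) (nat_lit 158) (nat_lit 3) (nat_lit 167) (nat_lit 3) (nat_lit 421) (nat_lit 421) (nat_lit 358)) (XT.lf (nat_lit 0) (nat_lit 10107865548) (nat_lit 684) (nat_lit 1191870155) (nat_lit 760) (nat_lit 622944460) (nat_lit 158) (nat_lit 5) (nat_lit 167) (nat_lit 3) (nat_lit 168) (nat_lit 5) (nat_lit 422) (nat_lit 421) (nat_lit 357))) (XT.nd (nat_lit 78) (nat_lit 0) (nat_lit 0) (XT.lf (nat_lit 76) (nat_lit 4940830014) (nat_lit 0) (nat_lit 6065017455) (nat_lit 760) (nat_lit 1190135164) (nat_lit 159) (nat_lit 5) (nat_lit 158) (nat_lit 5) (nat_lit 168) (nat_lit 5) (nat_lit 423) (nat_lit 421) (nat_lit 356)) (XT.lf (nat_lit 76) (nat_lit 11404176586) (nat_lit 0) (nat_lit 534570683) (nat_lit 760) (nat_lit 544706994) (nat_lit 159) (nat_lit 5) (nat_lit 158) (nat_lit 5) (nat_lit 168) (nat_lit 5) (nat_lit 424)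 (nat_lit 421) (nat_lit 355))))))))
noncomputable def xc141 : XT := (XT.nd (nat_lit 2418) (nat_lit 3040) (nat_lit 0) (XT.nd (nat_lit 1170) (nat_lit 2432) (nat_lit 0) (XT.nd (nat_lit 546) (nat_lit 2052) (nat_lit 0) (XT.nd (nat_lit 234) (nat_lit 0) (nat_lit 76) (XT.nd (nat_lit 78) (nat_lit 0) (nat_lit 0) (XT.lf (nat_lit 0) (nat_lit 270356197) (nat_lit 760) (nat_lit 7302391798) (nat_lit 836) (nat_lit 5205371162) (nat_lit 149) (nat_lit 5) (nat_lit 159) (nat_lit 5) (nat_lit 160) (nat_lit 5) (nat_lit 425) (nat_lit 421) (nat_lit 354)) (XT.nd (nat_lit 78) (nat_lit 0) (nat_lit 76) (XT.lf (nat_lit 0) (nat_lit 1107294027) (nat_lit 760) (nat_lit 727449677) (nat_lit 836) (nat_lit 11252360046) (nat_lit 149) (nat_lit 5) (nat_lit 159) (nat_lit 5) (nat_lit 160) (nat_lit 5) (nat_lit 426) (nat_lit 421) (nat_lit 353)) (XT.lf (nat_lit 0) (nat_lit 2126005797) (nat_lit 760) (nat_lit 7113137465) (nat_lit 836) (nat_lit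 4165402052) (nat_lit 150) (nat_lit 5) (nat_lit 160) (nat_lit 5) (nat_lit 161) (nat_lit 5) (nat_lit 427) (nat_lit 421) (nat_lit 352)))) (XT.nd (nat_lit 156) (nat_lit 0) (nat_lit 76) (XT.nd (nat_lit 78) (nat_lit 0) (nat_lit 76) (XT.lf (nat_lit 0) (nat_lit 3212783133) (nat_lit 760) (nat_lit 100088975) (nat_lit 836) (nat_lit 10424134246) (nat_lit 150) (nat_lit 5) (nat_lit 160) (nat_lit 5) (nat_lit 161) (nat_lit 5) (nat_lit 428) (nat_lit 421) (nat_lit 351)) (XT.lf (nat_lit 0) (nat_lit 4493945721) (nat_lit 760) (nat_lit 6643847408) (nat_lit 836) (nat_lit 2941298710) (nat_lit 151) (nat_lit 5) (nat_lit 161) (nat_lit 5) (nat_lit 162) (nat_lit 5) (nat_lit 429) (nat_lit 421) (nat_lit 350))) (XT.nd (nat_lit 78) (nat_lit 0) (nat_lit 76) (XT.lf (nat_lit 76) (nat_lit 866942334) (nat_lit 0) (nat_lit 5018498402) (nat_lit 836) (nat_lit 8550530684) (nat_lit 152) (nat_lit 5) (nat_lit 151) (nat_lit 5) (nat_lit 162)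 (nat_lit 5) (nat_lit 430) (nat_lit 421) (nat_lit 349)) (XT.lf (nat_lit 0) (nat_lit 7460415610) (nat_lit 760) (nat_lit 5864913816) (nat_lit 76) (nat_lit 1479673663) (nat_lit 152) (nat_lit 5) (nat_lit 162) (nat_lit 5) (nat_lit 153) (nat_lit 5) (nat_lit 431) (nat_lit 421) (nat_lit 348))))) (XT.nd (nat_lit 312) (nat_lit 1140) (nat_lit 0) (XT.nd (nat_lit 156) (nat_lit 380) (nat_lit 0) (XT.nd (nat_lit 78) (nat_lit 0) (nat_lit 0) (XT.lf (nat_lit 0) (nat_lit 2193319923) (nat_lit 760) (nat_lit 7015981561) (nat_lit 836) (nat_lit 5978429954) (nat_lit 142) (nat_lit 5) (nat_lit 152) (nat_lit 5) (nat_lit 153) (nat_lit 5) (nat_lit 432) (nat_lit 421) (nat_lit 347)) (XT.lf (nat_lit 0) (nat_lit 10839371874) (nat_lit 760) (nat_lit 284957501) (nat_lit 836) (nat_lit 4461334995) (nat_lit 142) (nat_lit 5) (nat_lit 152) (nat_lit 5) (nat_lit 153) (nat_lit 5) (nat_lit 433) (nat_lit 421) (nat_lit 346))) (XT.nd (nat_lit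 78) (nat_lit 0) (nat_lit 0) (XT.lf (nat_lit 0) (nat_lit 3914802155) (nat_lit 380) (nat_lit 9367706550) (nat_lit 456) (nat_lit 2713618151) (nat_lit 137) (nat_lit 5) (nat_lit 142) (nat_lit 5) (nat_lit 143) (nat_lit 5) (nat_lit 434) (nat_lit 421) (nat_lit 345)) (XT.lf (nat_lit 0) (nat_lit 13150377196) (nat_lit 380) (nat_lit 2464224830) (nat_lit 456) (nat_lit 809212958) (nat_lit 137) (nat_lit 5) (nat_lit 142) (nat_lit 5) (nat_lit 143) (nat_lit 5) (nat_lit 435) (nat_lit 421) (nat_lit 344)))) (XT.nd (nat_lit 156) (nat_lit 684) (nat_lit 0) (XT.nd (nat_lit 78) (nat_lit 0) (nat_lit 0) (XT.lf (nat_lit 0) (nat_lit 1306293769) (nat_lit 456) (nat_lit 10810326808) (nat_lit 76) (nat_lit 4747641075) (nat_lit 131) (nat_lit 5) (nat_lit 137) (nat_lit 5) (nat_lit 132) (nat_lit 5) (nat_lit 436) (nat_lit 421) (nat_lit 343)) (XT.lf (nat_lit 0) (nat_lit 3579348237) (nat_lit 456) (nat_lit 1436058153) (nat_lit 76) (nat_lit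 12306715004) (nat_lit 131) (nat_lit 5) (nat_lit 137) (nat_lit 5) (nat_lit 132) (nat_lit 5) (nat_lit 437) (nat_lit 421) (nat_lit 342))) (XT.nd (nat_lit 78) (nat_lit 304) (nat_lit 0) (XT.lf (nat_lit 0) (nat_lit 6124742925) (nat_lit 456) (nat_lit 9170919811) (nat_lit 76) (nat_lit 2499279291) (nat_lit 126) (nat_lit 5) (nat_lit 132) (nat_lit 5) (nat_lit 127) (nat_lit 5) (nat_lit 438) (nat_lit 421) (nat_lit 341)) (XT.lf (nat_lit 0) (nat_lit 873654218) (nat_lit 304) (nat_lit 8027913343) (nat_lit 380) (nat_lit 9384630289) (nat_lit 122) (nat_lit 5) (nat_lit 126) (nat_lit 5) (nat_lit 127) (nat_lit 5) (nat_lit 439) (nat_lit 421) (nat_lit 340)))))) (XT.nd (nat_lit 624) (nat_lit 1216) (nat_lit 0) (XT.nd (nat_lit 312) (nat_lit 532) (nat_lit 0) (XT.nd (nat_lit 156) (nat_lit 380) (nat_lit 0) (XT.nd (nat_lit 78) (nat_lit 304) (nat_lit 0) (XT.lf (nat_lit 0) (nat_lit 11720683076) (nat_lit 304) (nat_lit 235943733)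 (nat_lit 380) (nat_lit 6838422055) (nat_lit 122) (nat_lit 5) (nat_lit 126) (nat_lit 5) (nat_lit 127) (nat_lit 5) (nat_lit 440) (nat_lit 421) (nat_lit 339)) (XT.lf (nat_lit 0) (nat_lit 3758948240) (nat_lit 304) (nat_lit 11573036086) (nat_lit 380) (nat_lit 3988982805) (nat_lit 118) (nat_lit 5) (nat_lit 122) (nat_lit 5) (nat_lit 123) (nat_lit 5) (nat_lit 441) (nat_lit 421) (nat_lit 338))) (XT.nd (nat_lit 78) (nat_lit 380) (nat_lit 0) (XT.lf (nat_lit 0) (nat_lit 15357799884) (nat_lit 304) (nat_lit 3627173984) (nat_lit 380) (nat_lit 882766111) (nat_lit 118) (nat_lit 5) (nat_lit 122) (nat_lit 5) (nat_lit 123) (nat_lit 5) (nat_lit 442) (nat_lit 421) (nat_lit 337)) (XT.lf (nat_lit 0) (nat_lit 2477951336) (nat_lit 380) (nat_lit 13238066269) (nat_lit 76) (nat_lit 4715212351) (nat_lit 113) (nat_lit 5) (nat_lit 118) (nat_lit 5) (nat_lit 114) (nat_lit 5) (nat_lit 443) (nat_lit 421) (nat_lit 336)))) (XT.nd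 (nat_lit 156) (nat_lit 228) (nat_lit 0) (XT.nd (nat_lit 78) (nat_lit 304) (nat_lit 0) (XT.lf (nat_lit 0) (nat_lit 6100213913) (nat_lit 380) (nat_lit 1473995380) (nat_lit 76) (nat_lit 13441804379) (nat_lit 113) (nat_lit 5) (nat_lit 118) (nat_lit 5) (nat_lit 114) (nat_lit 5) (nat_lit 444) (nat_lit 421) (nat_lit 335)) (XT.lf (nat_lit 0) (nat_lit 10083552780) (nat_lit 380) (nat_lit 10419456177) (nat_lit 76) (nat_lit 1118031003) (nat_lit 109) (nat_lit 5) (nat_lit 114) (nat_lit 5) (nat_lit 110) (nat_lit 5) (nat_lit 445) (nat_lit 421) (nat_lit 334))) (XT.nd (nat_lit 78) (nat_lit 0) (nat_lit 0) (XT.lf (nat_lit 0) (nat_lit 2236860792) (nat_lit 228) (nat_lit 12200720961) (nat_lit 304) (nat_lit 7810161121) (nat_lit 106) (nat_lit 5) (nat_lit 109) (nat_lit 5) (nat_lit 110) (nat_lit 5) (nat_lit 446) (nat_lit 421) (nat_lit 333)) (XT.lf (nat_lit 0) (nat_lit 15870808652) (nat_lit 228) (nat_lit 3302374074) (nat_lit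 304) (nat_lit 3724406077) (nat_lit 106) (nat_lit 5) (nat_lit 109) (nat_lit 5) (nat_lit 110) (nat_lit 5) (nat_lit 447) (nat_lit 421) (nat_lit 332))))) (XT.nd (nat_lit 312) (nat_lit 456) (nat_lit 0) (XT.nd (nat_lit 156) (nat_lit 456) (nat_lit 0) (XT.nd (nat_lit 78) (nat_lit 0) (nat_lit 0) (XT.lf (nat_lit 0) (nat_lit 737626797) (nat_lit 304) (nat_lit 16872145301) (nat_lit 76) (nat_lit 5960209943) (nat_lit 102) (nat_lit 5) (nat_lit 106) (nat_lit 5) (nat_lit 103) (nat_lit 5) (nat_lit 448) (nat_lit 421) (nat_lit 331)) (XT.lf (nat_lit 0) (nat_lit 5460758371) (nat_lit 304) (nat_lit 3051332652) (nat_lit 76) (nat_lit 15752694258) (nat_lit 102) (nat_lit 5) (nat_lit 106) (nat_lit 5) (nat_lit 103) (nat_lit 5) (nat_lit 449) (nat_lit 421) (nat_lit 330))) (XT.nd (nat_lit 78) (nat_lit 228) (nat_lit 0) (XT.lf (nat_lit 0) (nat_lit 10612473932) (nat_lit 304) (nat_lit 13181921370) (nat_lit 76) (nat_lit 1190313160)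 (nat_lit 99) (nat_lit 5) (nat_lit 103) (nat_lit 5) (nat_lit 100) (nat_lit 5) (nat_lit 450) (nat_lit 421) (nat_lit 329)) (XT.lf (nat_lit 0) (nat_lit 1664171554) (nat_lit 228) (nat_lit 14564513709) (nat_lit 304) (nat_lit 9501598137) (nat_lit 96) (nat_lit 5) (nat_lit 99) (nat_lit 5) (nat_lit 100) (nat_lit 5) (nat_lit 451) (nat_lit 421) (nat_lit 328)))) (XT.nd (nat_lit 156) (nat_lit 228) (nat_lit 0) (XT.nd (nat_lit 78) (nat_lit 228) (nat_lit 0) (XT.lf (nat_lit 0) (nat_lit 17694270172) (nat_lit 228) (nat_lit 4643822817) (nat_lit 304) (nat_lit 4164425848) (nat_lit 96) (nat_lit 5) (nat_lit 99) (nat_lit 5) (nat_lit 100) (nat_lit 5) (nat_lit 452) (nat_lit 421) (nat_lit 327)) (XT.lf (nat_lit 0) (nat_lit 1591054727) (nat_lit 228) (nat_lit 19987582973) (nat_lit 76) (nat_lit 5723729179) (nat_lit 93) (nat_lit 5) (nat_lit 96) (nat_lit 5) (nat_lit 94) (nat_lit 5) (nat_lit 453) (nat_lit 421) (nat_lit 326))) (XT.nd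 (nat_lit 78) (nat_lit 228) (nat_lit 0) (XT.lf (nat_lit 0) (nat_lit 7711776292) (nat_lit 228) (nat_lit 3747539832) (nat_lit 76) (nat_lit 16668607688) (nat_lit 93) (nat_lit 5) (nat_lit 96) (nat_lit 5) (nat_lit 94) (nat_lit 5) (nat_lit 454) (nat_lit 421) (nat_lit 325)) (XT.lf (nat_lit 0) (nat_lit 13728947273) (nat_lit 228) (nat_lit 614099088) (nat_lit 304) (nat_lit 14641487467) (nat_lit 90) (nat_lit 5) (nat_lit 93) (nat_lit 5) (nat_lit 94) (nat_lit 5) (nat_lit 455) (nat_lit 421) (nat_lit 324))))))) (XT.nd (nat_lit 1170) (nat_lit 1368) (nat_lit 0) (XT.nd (nat_lit 546) (nat_lit 836) (nat_lit 0) (XT.nd (nat_lit 234) (nat_lit 380) (nat_lit 0) (XT.nd (nat_lit 78) (nat_lit 304) (nat_lit 0) (XT.lf (nat_lit 0) (nat_lit 2215088108) (nat_lit 152) (nat_lit 19348408356) (nat_lit 228) (nat_lit 8307597873) (nat_lit 88) (nat_lit 5) (nat_lit 90) (nat_lit 5) (nat_lit 91) (nat_lit 5) (nat_lit 456) (nat_lit 421) (nat_lit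 323)) (XT.nd (nat_lit 78) (nat_lit 304) (nat_lit 0) (XT.lf (nat_lit 0) (nat_lit 21063650672) (nat_lit 152) (nat_lit 8340135684) (nat_lit 228) (nat_lit 1385256431) (nat_lit 88) (nat_lit 5) (nat_lit 90) (nat_lit 5) (nat_lit 91) (nat_lit 5) (nat_lit 457) (nat_lit 421) (nat_lit 322)) (XT.lf (nat_lit 0) (nat_lit 5884895303) (nat_lit 304) (nat_lit 22502702225) (nat_lit 76) (nat_lit 3351199552) (nat_lit 84) (nat_lit 5) (nat_lit 88) (nat_lit 5) (nat_lit 85) (nat_lit 5) (nat_lit 458) (nat_lit 421) (nat_lit 321)))) (XT.nd (nat_lit 156) (nat_lit 228) (nat_lit 0) (XT.nd (nat_lit 78) (nat_lit 152) (nat_lit 0) (XT.lf (nat_lit 0) (nat_lit 13767112344) (nat_lit 304) (nat_lit 3421247231) (nat_lit 76) (nat_lit 15531789159) (nat_lit 84) (nat_lit 5) (nat_lit 88) (nat_lit 5) (nat_lit 85) (nat_lit 5) (nat_lit 459) (nat_lit 421) (nat_lit 320)) (XT.lf (nat_lit 0) (nat_lit 17149248855) (nat_lit 152) (nat_lit 5153352162)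 (nat_lit 228) (nat_lit 11435009555) (nat_lit 82) (nat_lit 5) (nat_lit 84) (nat_lit 5) (nat_lit 85) (nat_lit 5) (nat_lit 460) (nat_lit 421) (nat_lit 319))) (XT.nd (nat_lit 78) (nat_lit 76) (nat_lit 0) (XT.lf (nat_lit 0) (nat_lit 4062200480) (nat_lit 152) (nat_lit 27433338620) (nat_lit 228) (nat_lit 3298873265) (nat_lit 80) (nat_lit 5) (nat_lit 82) (nat_lit 5) (nat_lit 83) (nat_lit 5) (nat_lit 461) (nat_lit 421) (nat_lit 318)) (XT.lf (nat_lit 0) (nat_lit 5437822463) (nat_lit 228) (nat_lit 9753848222) (nat_lit 76) (nat_lit 20690210603) (nat_lit 79) (nat_lit 5) (nat_lit 82) (nat_lit 5) (nat_lit 80) (nat_lit 5) (nat_lit 462) (nat_lit 421) (nat_lit 317))))) (XT.nd (nat_lit 312) (nat_lit 304) (nat_lit 0) (XT.nd (nat_lit 156) (nat_lit 380) (nat_lit 0) (XT.nd (nat_lit 78) (nat_lit 0) (nat_lit 0) (XT.lf (nat_lit 0) (nat_lit 12609527288) (nat_lit 152) (nat_lit 2079810119) (nat_lit 228) (nat_lit 22322240373)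 (nat_lit 77) (nat_lit 5) (nat_lit 79) (nat_lit 5) (nat_lit 80) (nat_lit 5) (nat_lit 463) (nat_lit 421) (nat_lit 316)) (XT.lf (nat_lit 0) (nat_lit 24745869727) (nat_lit 228) (nat_lit 1958484545) (nat_lit 76) (nat_lit 11476283247) (nat_lit 77) (nat_lit 5) (nat_lit 80) (nat_lit 5) (nat_lit 78) (nat_lit 5) (nat_lit 464) (nat_lit 421) (nat_lit 315))) (XT.nd (nat_lit 78) (nat_lit 228) (nat_lit 0) (XT.lf (nat_lit 0) (nat_lit 22273185413) (nat_lit 152) (nat_lit 13406333579) (nat_lit 228) (nat_lit 3709917213) (nat_lit 75) (nat_lit 5) (nat_lit 77) (nat_lit 5) (nat_lit 78) (nat_lit 5) (nat_lit 465) (nat_lit 421) (nat_lit 314)) (XT.lf (nat_lit 0) (nat_lit 6445078879) (nat_lit 228) (nat_lit 33414977704) (nat_lit 76) (nat_lit 785944537) (nat_lit 72) (nat_lit 5) (nat_lit 75) (nat_lit 5) (nat_lit 73) (nat_lit 5) (nat_lit 466) (nat_lit 421) (nat_lit 313)))) (XT.nd (nat_lit 156) (nat_lit 152) (nat_lit 0) (XT.nd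 (nat_lit 78) (nat_lit 152) (nat_lit 0) (XT.lf (nat_lit 0) (nat_lit 17490112004) (nat_lit 228) (nat_lit 8859326000) (nat_lit 76) (nat_lit 15587567535) (nat_lit 72) (nat_lit 5) (nat_lit 75) (nat_lit 5) (nat_lit 73) (nat_lit 5) (nat_lit 467) (nat_lit 421) (nat_lit 312)) (XT.lf (nat_lit 0) (nat_lit 17470927102) (nat_lit 152) (nat_lit 11882158695) (nat_lit 228) (nat_lit 13926190326) (nat_lit 70) (nat_lit 5) (nat_lit 72) (nat_lit 5) (nat_lit 73) (nat_lit 5) (nat_lit 468) (nat_lit 421) (nat_lit 311))) (XT.nd (nat_lit 78) (nat_lit 76) (nat_lit 0) (XT.lf (nat_lit 0) (nat_lit 699973381) (nat_lit 76) (nat_lit 41317299365) (nat_lit 152) (nat_lit 2660984640) (nat_lit 69) (nat_lit 5) (nat_lit 70) (nat_lit 5) (nat_lit 71) (nat_lit 4) (nat_lit 469) (nat_lit 421) (nat_lit 310)) (XT.lf (nat_lit 0) (nat_lit 9506111028) (nat_lit 152) (nat_lit 17053156068) (nat_lit 76) (nat_lit 19549162136) (nat_lit 68) (nat_lit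 5) (nat_lit 70) (nat_lit 5) (nat_lit 69) (nat_lit 5) (nat_lit 470) (nat_lit 421) (nat_lit 309)))))) (XT.nd (nat_lit 624) (nat_lit 608) (nat_lit 0) (XT.nd (nat_lit 312) (nat_lit 304) (nat_lit 0) (XT.nd (nat_lit 156) (nat_lit 304) (nat_lit 0) (XT.nd (nat_lit 78) (nat_lit 0) (nat_lit 0) (XT.lf (nat_lit 0) (nat_lit 11531832463) (nat_lit 152) (nat_lit 10833694129) (nat_lit 228) (nat_lit 25233732684) (nat_lit 66) (nat_lit 5) (nat_lit 68) (nat_lit 5) (nat_lit 69) (nat_lit 5) (nat_lit 471) (nat_lit 421) (nat_lit 308)) (XT.lf (nat_lit 0) (nat_lit 36243504318) (nat_lit 228) (nat_lit 7117377735) (nat_lit 76) (nat_lit 5784969509) (nat_lit 66) (nat_lit 5) (nat_lit 69) (nat_lit 5) (nat_lit 67) (nat_lit 4) (nat_lit 472) (nat_lit 421) (nat_lit 307))) (XT.nd (nat_lit 78) (nat_lit 152) (nat_lit 0) (XT.lf (nat_lit 0) (nat_lit 596817812) (nat_lit 152) (nat_lit 26897490322) (nat_lit 76) (nat_lit 23247796501) (nat_lit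 64) (nat_lit 5) (nat_lit 66) (nat_lit 5) (nat_lit 65) (nat_lit 5) (nat_lit 473) (nat_lit 421) (nat_lit 306)) (XT.lf (nat_lit 0) (nat_lit 4095891088) (nat_lit 152) (nat_lit 10421646502) (nat_lit 228) (nat_lit 37881047347) (nat_lit 62) (nat_lit 5) (nat_lit 64) (nat_lit 5) (nat_lit 65) (nat_lit 5) (nat_lit 474) (nat_lit 421) (nat_lit 305)))) (XT.nd (nat_lit 156) (nat_lit 228) (nat_lit 0) (XT.nd (nat_lit 78) (nat_lit 76) (nat_lit 0) (XT.lf (nat_lit 0) (nat_lit 29708235388) (nat_lit 228) (nat_lit 16678407172) (nat_lit 76) (nat_lit 7722549845) (nat_lit 62) (nat_lit 5) (nat_lit 65) (nat_lit 5) (nat_lit 63) (nat_lit 4) (nat_lit 475) (nat_lit 421) (nat_lit 304)) (XT.lf (nat_lit 0) (nat_lit 16885823207) (nat_lit 76) (nat_lit 29201206415) (nat_lit 152) (nat_lit 9796872790) (nat_lit 61) (nat_lit 5) (nat_lit 62) (nat_lit 5) (nat_lit 63) (nat_lit 4) (nat_lit 476) (nat_lit 421) (nat_lit 303))) (XT.nd (nat_lit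 78) (nat_lit 152) (nat_lit 0) (XT.lf (nat_lit 0) (nat_lit 5641370419) (nat_lit 152) (nat_lit 5127904020) (nat_lit 76) (nat_lit 46959691637) (nat_lit 60) (nat_lit 5) (nat_lit 62) (nat_lit 5) (nat_lit 61) (nat_lit 5) (nat_lit 477) (nat_lit 421) (nat_lit 302)) (XT.lf (nat_lit 0) (nat_lit 22149394017) (nat_lit 228) (nat_lit 28513222433) (nat_lit 76) (nat_lit 8964281090) (nat_lit 58) (nat_lit 5) (nat_lit 61) (nat_lit 5) (nat_lit 59) (nat_lit 4) (nat_lit 478) (nat_lit 421) (nat_lit 301))))) (XT.nd (nat_lit 312) (nat_lit 304) (nat_lit 0) (XT.nd (nat_lit 156) (nat_lit 228) (nat_lit 0) (XT.nd (nat_lit 78) (nat_lit 0) (nat_lit 0) (XT.lf (nat_lit 0) (nat_lit 7790957296) (nat_lit 76) (nat_lit 32072728018) (nat_lit 152) (nat_lit 21736997134) (nat_lit 57) (nat_lit 5) (nat_lit 58) (nat_lit 5) (nat_lit 59) (nat_lit 4) (nat_lit 479) (nat_lit 421) (nat_lit 300)) (XT.lf (nat_lit 0) (nat_lit 46890016758) (nat_lit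 76) (nat_lit 12051080804) (nat_lit 152) (nat_lit 4708188909) (nat_lit 57) (nat_lit 5) (nat_lit 58) (nat_lit 5) (nat_lit 59) (nat_lit 4) (nat_lit 480) (nat_lit 421) (nat_lit 299))) (XT.nd (nat_lit 78) (nat_lit 0) (nat_lit 0) (XT.lf (nat_lit 0) (nat_lit 13248017028) (nat_lit 228) (nat_lit 43268622286) (nat_lit 76) (nat_lit 9248521643) (nat_lit 54) (nat_lit 5) (nat_lit 57) (nat_lit 5) (nat_lit 55) (nat_lit 4) (nat_lit 481) (nat_lit 421) (nat_lit 298)) (XT.lf (nat_lit 0) (nat_lit 32424570204) (nat_lit 228) (nat_lit 3965011909) (nat_lit 76) (nat_lit 31569349897) (nat_lit 54) (nat_lit 5) (nat_lit 57) (nat_lit 5) (nat_lit 55) (nat_lit 4) (nat_lit 482) (nat_lit 421) (nat_lit 297)))) (XT.nd (nat_lit 156) (nat_lit 76) (nat_lit 0) (XT.nd (nat_lit 78) (nat_lit 152) (nat_lit 0) (XT.lf (nat_lit 0) (nat_lit 38527410521) (nat_lit 76) (nat_lit 14629037586) (nat_lit 152) (nat_lit 17076118811) (nat_lit 53) (nat_lit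 5) (nat_lit 54) (nat_lit 5) (nat_lit 55) (nat_lit 4) (nat_lit 483) (nat_lit 421) (nat_lit 296)) (XT.lf (nat_lit 0) (nat_lit 2598550368) (nat_lit 152) (nat_lit 61769026871) (nat_lit 76) (nat_lit 8232142591) (nat_lit 51) (nat_lit 5) (nat_lit 53) (nat_lit 5) (nat_lit 52) (nat_lit 4) (nat_lit 484) (nat_lit 421) (nat_lit 295))) (XT.nd (nat_lit 78) (nat_lit 76) (nat_lit 0) (XT.lf (nat_lit 0) (nat_lit 23463660576) (nat_lit 152) (nat_lit 19002398820) (nat_lit 76) (nat_lit 32566145450) (nat_lit 51) (nat_lit 5) (nat_lit 53) (nat_lit 5) (nat_lit 52) (nat_lit 4) (nat_lit 485) (nat_lit 421) (nat_lit 294)) (XT.lf (nat_lit 0) (nat_lit 26749647091) (nat_lit 76) (nat_lit 19035266020) (nat_lit 152) (nat_lit 31780756789) (nat_lit 50) (nat_lit 5) (nat_lit 51) (nat_lit 5) (nat_lit 52) (nat_lit 4) (nat_lit 486) (nat_lit 421) (nat_lit 293))))))))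
noncomputable def xc142 : XT := (XT.nd (nat_lit 2418) (nat_lit 1140) (nat_lit 0) (XT.nd (nat_lit 1170) (nat_lit 988) (nat_lit 0) (XT.nd (nat_lit 546) (nat_lit 456) (nat_lit 0) (XT.nd (nat_lit 234) (nat_lit 228) (nat_lit 0) (XT.nd (nat_lit 78) (nat_lit 228) (nat_lit 0) (XT.lf (nat_lit 0) (nat_lit 69631506499) (nat_lit 152) (nat_lit 4861984763) (nat_lit 0) (nat_lit 5711853155) (nat_lit 50) (nat_lit 5) (nat_lit 52) (nat_lit 4) (nat_lit 50) (nat_lit 4) (nat_lit 487) (nat_lit 421) (nat_lit 292)) (XT.nd (nat_lit 78) (nat_lit 76) (nat_lit 0) (XT.lf (nat_lit 0) (nat_lit 12337804799) (nat_lit 152) (nat_lit 38632787268) (nat_lit 76) (nat_lit 31946350316) (nat_lit 48) (nat_lit 5) (nat_lit 50) (nat_lit 5) (nat_lit 49) (nat_lit 4) (nat_lit 488) (nat_lit 421) (nat_lit 291)) (XT.lf (nat_lit 0) (nat_lit 10447421076) (nat_lit 76) (nat_lit 25834566081) (nat_lit 152) (nat_lit 49461350726) (nat_lit 47) (nat_lit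 5) (nat_lit 48) (nat_lit 5) (nat_lit 49) (nat_lit 4) (nat_lit 489) (nat_lit 421) (nat_lit 290)))) (XT.nd (nat_lit 156) (nat_lit 152) (nat_lit 0) (XT.nd (nat_lit 78) (nat_lit 76) (nat_lit 0) (XT.lf (nat_lit 0) (nat_lit 62092606390) (nat_lit 152) (nat_lit 25383581554) (nat_lit 0) (nat_lit 1201403926) (nat_lit 47) (nat_lit 5) (nat_lit 49) (nat_lit 4) (nat_lit 47) (nat_lit 4) (nat_lit 490) (nat_lit 421) (nat_lit 289)) (XT.lf (nat_lit 0) (nat_lit 27471854422) (nat_lit 76) (nat_lit 62570066690) (nat_lit 76) (nat_lit 1674229314) (nat_lit 46) (nat_lit 4) (nat_lit 47) (nat_lit 5) (nat_lit 47) (nat_lit 4) (nat_lit 491) (nat_lit 421) (nat_lit 288))) (XT.nd (nat_lit 78) (nat_lit 76) (nat_lit 0) (XT.lf (nat_lit 0) (nat_lit 24131157940) (nat_lit 152) (nat_lit 11431377798) (nat_lit 76) (nat_lit 59303355964) (nat_lit 45) (nat_lit 5) (nat_lit 47) (nat_lit 5) (nat_lit 46) (nat_lit 4) (nat_lit 492) (nat_lit 421)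 (nat_lit 287)) (XT.lf (nat_lit 0) (nat_lit 45441261248) (nat_lit 76) (nat_lit 6434698178) (nat_lit 152) (nat_lit 46260517881) (nat_lit 44) (nat_lit 5) (nat_lit 45) (nat_lit 5) (nat_lit 46) (nat_lit 4) (nat_lit 493) (nat_lit 421) (nat_lit 286))))) (XT.nd (nat_lit 312) (nat_lit 228) (nat_lit 0) (XT.nd (nat_lit 156) (nat_lit 76) (nat_lit 0) (XT.nd (nat_lit 78) (nat_lit 76) (nat_lit 0) (XT.lf (nat_lit 0) (nat_lit 3724590001) (nat_lit 76) (nat_lit 77911331406) (nat_lit 76) (nat_lit 19903274845) (nat_lit 43) (nat_lit 4) (nat_lit 44) (nat_lit 5) (nat_lit 44) (nat_lit 4) (nat_lit 494) (nat_lit 421) (nat_lit 285)) (XT.lf (nat_lit 0) (nat_lit 8531582571) (nat_lit 152) (nat_lit 40521943863) (nat_lit 76) (nat_lit 56002032811) (nat_lit 42) (nat_lit 5) (nat_lit 44) (nat_lit 5) (nat_lit 43) (nat_lit 4) (nat_lit 495) (nat_lit 421) (nat_lit 284))) (XT.nd (nat_lit 78) (nat_lit 0) (nat_lit 0) (XT.lf (nat_lit 0)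 (nat_lit 19939738687) (nat_lit 76) (nat_lit 18087034709) (nat_lit 152) (nat_lit 70689279345) (nat_lit 41) (nat_lit 5) (nat_lit 42) (nat_lit 5) (nat_lit 43) (nat_lit 4) (nat_lit 496) (nat_lit 421) (nat_lit 283)) (XT.lf (nat_lit 0) (nat_lit 69915657430) (nat_lit 152) (nat_lit 27937967264) (nat_lit 0) (nat_lit 14659999600) (nat_lit 41) (nat_lit 5) (nat_lit 43) (nat_lit 4) (nat_lit 41) (nat_lit 4) (nat_lit 497) (nat_lit 421) (nat_lit 282)))) (XT.nd (nat_lit 156) (nat_lit 76) (nat_lit 0) (XT.nd (nat_lit 78) (nat_lit 76) (nat_lit 0) (XT.lf (nat_lit 0) (nat_lit 36816983600) (nat_lit 76) (nat_lit 67449676354) (nat_lit 76) (nat_lit 12191030818) (nat_lit 40) (nat_lit 4) (nat_lit 41) (nat_lit 5) (nat_lit 41) (nat_lit 4) (nat_lit 498) (nat_lit 421) (nat_lit 281)) (XT.lf (nat_lit 0) (nat_lit 19581822099) (nat_lit 152) (nat_lit 15118755665) (nat_lit 76) (nat_lit 85859113285) (nat_lit 39) (nat_lit 5) (nat_lit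 41) (nat_lit 5) (nat_lit 40) (nat_lit 4) (nat_lit 499) (nat_lit 421) (nat_lit 280))) (XT.nd (nat_lit 78) (nat_lit 0) (nat_lit 0) (XT.lf (nat_lit 0) (nat_lit 53387854433) (nat_lit 152) (nat_lit 70670950404) (nat_lit 0) (nat_lit 755282141) (nat_lit 38) (nat_lit 5) (nat_lit 40) (nat_lit 4) (nat_lit 38) (nat_lit 4) (nat_lit 500) (nat_lit 421) (nat_lit 279)) (XT.lf (nat_lit 0) (nat_lit 89709827232) (nat_lit 152) (nat_lit 2455296633) (nat_lit 0) (nat_lit 37074796948) (nat_lit 38) (nat_lit 5) (nat_lit 40) (nat_lit 4) (nat_lit 38) (nat_lit 4) (nat_lit 501) (nat_lit 421) (nat_lit 278)))))) (XT.nd (nat_lit 624) (nat_lit 456) (nat_lit 0) (XT.nd (nat_lit 312) (nat_lit 228) (nat_lit 0) (XT.nd (nat_lit 156) (nat_lit 76) (nat_lit 0) (XT.nd (nat_lit 78) (nat_lit 152) (nat_lit 0) (XT.lf (nat_lit 0) (nat_lit 71451511344) (nat_lit 76) (nat_lit 57508646652) (nat_lit 76) (nat_lit 4871275423) (nat_lit 37) (nat_lit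 4) (nat_lit 38) (nat_lit 5) (nat_lit 38) (nat_lit 4) (nat_lit 502) (nat_lit 421) (nat_lit 277)) (XT.lf (nat_lit 0) (nat_lit 10319413568) (nat_lit 76) (nat_lit 20392300709) (nat_lit 152) (nat_lit 107906197123) (nat_lit 35) (nat_lit 5) (nat_lit 36) (nat_lit 5) (nat_lit 37) (nat_lit 4) (nat_lit 503) (nat_lit 421) (nat_lit 276))) (XT.nd (nat_lit 78) (nat_lit 76) (nat_lit 0) (XT.lf (nat_lit 0) (nat_lit 69270694807) (nat_lit 152) (nat_lit 55165278695) (nat_lit 0) (nat_lit 19135719562) (nat_lit 35) (nat_lit 5) (nat_lit 37) (nat_lit 4) (nat_lit 35) (nat_lit 4) (nat_lit 504) (nat_lit 421) (nat_lit 275)) (XT.lf (nat_lit 0) (nat_lit 21987826417) (nat_lit 76) (nat_lit 88444257794) (nat_lit 76) (nat_lit 38307356648) (nat_lit 34) (nat_lit 4) (nat_lit 35) (nat_lit 5) (nat_lit 35) (nat_lit 4) (nat_lit 505) (nat_lit 421) (nat_lit 274)))) (XT.nd (nat_lit 156) (nat_lit 76) (nat_lit 0) (XT.nd (nat_lit 78) (nat_lit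 76) (nat_lit 0) (XT.lf (nat_lit 0) (nat_lit 448856871) (nat_lit 152) (nat_lit 49218578751) (nat_lit 76) (nat_lit 104451219854) (nat_lit 33) (nat_lit 5) (nat_lit 35) (nat_lit 5) (nat_lit 34) (nat_lit 4) (nat_lit 506) (nat_lit 421) (nat_lit 273)) (XT.lf (nat_lit 0) (nat_lit 32600613103) (nat_lit 76) (nat_lit 7760896794) (nat_lit 152) (nat_lit 119348621128) (nat_lit 32) (nat_lit 5) (nat_lit 33) (nat_lit 5) (nat_lit 34) (nat_lit 4) (nat_lit 507) (nat_lit 421) (nat_lit 272))) (XT.nd (nat_lit 78) (nat_lit 76) (nat_lit 0) (XT.lf (nat_lit 0) (nat_lit 83679849446) (nat_lit 152) (nat_lit 45905403420) (nat_lit 0) (nat_lit 35925424824) (nat_lit 32) (nat_lit 5) (nat_lit 34) (nat_lit 4) (nat_lit 32) (nat_lit 4) (nat_lit 508) (nat_lit 421) (nat_lit 271)) (XT.lf (nat_lit 0) (nat_lit 40523026656) (nat_lit 76) (nat_lit 89398152511) (nat_lit 76) (nat_lit 41642218894) (nat_lit 31) (nat_lit 4) (nat_lit 32) (nat_lit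 5) (nat_lit 32) (nat_lit 4) (nat_lit 509) (nat_lit 421) (nat_lit 270))))) (XT.nd (nat_lit 312) (nat_lit 228) (nat_lit 0) (XT.nd (nat_lit 156) (nat_lit 76) (nat_lit 0) (XT.nd (nat_lit 78) (nat_lit 76) (nat_lit 0) (XT.lf (nat_lit 0) (nat_lit 1325375911) (nat_lit 152) (nat_lit 45040350134) (nat_lit 76) (nat_lit 131513227300) (nat_lit 30) (nat_lit 5) (nat_lit 32) (nat_lit 5) (nat_lit 31) (nat_lit 4) (nat_lit 510) (nat_lit 421) (nat_lit 269)) (XT.lf (nat_lit 0) (nat_lit 45762585612) (nat_lit 152) (nat_lit 138399461659) (nat_lit 0) (nat_lit 278071845) (nat_lit 29) (nat_lit 5) (nat_lit 31) (nat_lit 4) (nat_lit 29) (nat_lit 4) (nat_lit 511) (nat_lit 421) (nat_lit 268))) (XT.nd (nat_lit 78) (nat_lit 76) (nat_lit 0) (XT.lf (nat_lit 0) (nat_lit 93954343186) (nat_lit 152) (nat_lit 48829777680) (nat_lit 0) (nat_lit 48468587965) (nat_lit 29) (nat_lit 5) (nat_lit 31) (nat_lit 4) (nat_lit 29) (nat_lit 4) (nat_lit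 512) (nat_lit 421) (nat_lit 267)) (XT.lf (nat_lit 0) (nat_lit 46708211898) (nat_lit 76) (nat_lit 98574159782) (nat_lit 76) (nat_lit 53087222225) (nat_lit 28) (nat_lit 4) (nat_lit 29) (nat_lit 5) (nat_lit 29) (nat_lit 4) (nat_lit 513) (nat_lit 421) (nat_lit 266)))) (XT.nd (nat_lit 156) (nat_lit 76) (nat_lit 0) (XT.nd (nat_lit 78) (nat_lit 152) (nat_lit 0) (XT.lf (nat_lit 0) (nat_lit 148713310291) (nat_lit 76) (nat_lit 51287927377) (nat_lit 76) (nat_lit 5799863785) (nat_lit 28) (nat_lit 4) (nat_lit 29) (nat_lit 5) (nat_lit 29) (nat_lit 4) (nat_lit 514) (nat_lit 421) (nat_lit 265)) (XT.lf (nat_lit 0) (nat_lit 42897940278) (nat_lit 76) (nat_lit 217706689) (nat_lit 152) (nat_lit 170420939014) (nat_lit 26) (nat_lit 5) (nat_lit 27) (nat_lit 5) (nat_lit 28) (nat_lit 4) (nat_lit 515) (nat_lit 421) (nat_lit 264))) (XT.nd (nat_lit 78) (nat_lit 76) (nat_lit 0) (XT.lf (nat_lit 0) (nat_lit 96096060360) (nat_lit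 152) (nat_lit 72695227405) (nat_lit 0) (nat_lit 52772100977) (nat_lit 26) (nat_lit 5) (nat_lit 28) (nat_lit 4) (nat_lit 26) (nat_lit 4) (nat_lit 516) (nat_lit 421) (nat_lit 263)) (XT.lf (nat_lit 0) (nat_lit 31133601735) (nat_lit 76) (nat_lit 121079224554) (nat_lit 76) (nat_lit 77754338779) (nat_lit 25) (nat_lit 4) (nat_lit 26) (nat_lit 5) (nat_lit 26) (nat_lit 4) (nat_lit 517) (nat_lit 421) (nat_lit 262))))))) (XT.nd (nat_lit 1170) (nat_lit 456) (nat_lit 0) (XT.nd (nat_lit 546) (nat_lit 304) (nat_lit 0) (XT.nd (nat_lit 234) (nat_lit 228) (nat_lit 0) (XT.nd (nat_lit 78) (nat_lit 152) (nat_lit 0) (XT.lf (nat_lit 0) (nat_lit 142673100852) (nat_lit 76) (nat_lit 69691177517) (nat_lit 76) (nat_lit 26365409465) (nat_lit 25) (nat_lit 4) (nat_lit 26) (nat_lit 5) (nat_lit 26) (nat_lit 4) (nat_lit 518) (nat_lit 421) (nat_lit 261)) (XT.nd (nat_lit 78) (nat_lit 0) (nat_lit 0) (XT.lf (nat_lit 0) (nat_lit 11801723212)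 (nat_lit 76) (nat_lit 15090145826) (nat_lit 152) (nat_lit 221007825044) (nat_lit 23) (nat_lit 5) (nat_lit 24) (nat_lit 5) (nat_lit 25) (nat_lit 4) (nat_lit 519) (nat_lit 421) (nat_lit 260)) (XT.lf (nat_lit 0) (nat_lit 84236687909) (nat_lit 152) (nat_lit 130181876129) (nat_lit 0) (nat_lit 42972489272) (nat_lit 23) (nat_lit 5) (nat_lit 25) (nat_lit 4) (nat_lit 23) (nat_lit 4) (nat_lit 520) (nat_lit 421) (nat_lit 259)))) (XT.nd (nat_lit 156) (nat_lit 152) (nat_lit 0) (XT.nd (nat_lit 78) (nat_lit 76) (nat_lit 0) (XT.lf (nat_lit 0) (nat_lit 144694026801) (nat_lit 152) (nat_lit 19221587449) (nat_lit 0) (nat_lit 103429102312) (nat_lit 23) (nat_lit 5) (nat_lit 25) (nat_lit 4) (nat_lit 23) (nat_lit 4) (nat_lit 521) (nat_lit 421) (nat_lit 258)) (XT.lf (nat_lit 0) (nat_lit 100499290733) (nat_lit 76) (nat_lit 109242017136) (nat_lit 76) (nat_lit 67976401360) (nat_lit 22) (nat_lit 4) (nat_lit 23) (nat_lit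 5) (nat_lit 23) (nat_lit 4) (nat_lit 522) (nat_lit 421) (nat_lit 257))) (XT.nd (nat_lit 78) (nat_lit 152) (nat_lit 0) (XT.lf (nat_lit 0) (nat_lit 226869578069) (nat_lit 76) (nat_lit 51494934812) (nat_lit 76) (nat_lit 10228660666) (nat_lit 22) (nat_lit 4) (nat_lit 23) (nat_lit 5) (nat_lit 23) (nat_lit 4) (nat_lit 523) (nat_lit 421) (nat_lit 256)) (XT.lf (nat_lit 0) (nat_lit 49910004780) (nat_lit 152) (nat_lit 239399019882) (nat_lit 0) (nat_lit 10608194148) (nat_lit 20) (nat_lit 5) (nat_lit 22) (nat_lit 4) (nat_lit 20) (nat_lit 4) (nat_lit 524) (nat_lit 421) (nat_lit 255))))) (XT.nd (nat_lit 312) (nat_lit 228) (nat_lit 0) (XT.nd (nat_lit 156) (nat_lit 0) (nat_lit 0) (XT.nd (nat_lit 78) (nat_lit 76) (nat_lit 0) (XT.lf (nat_lit 0) (nat_lit 114616585929) (nat_lit 152) (nat_lit 121773053075) (nat_lit 0) (nat_lit 75314206573) (nat_lit 20) (nat_lit 5) (nat_lit 22) (nat_lit 4) (nat_lit 20) (nat_lit 4)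 (nat_lit 525) (nat_lit 421) (nat_lit 254)) (XT.lf (nat_lit 0) (nat_lit 1787773903) (nat_lit 76) (nat_lit 180796822877) (nat_lit 76) (nat_lit 141493901879) (nat_lit 19) (nat_lit 4) (nat_lit 20) (nat_lit 5) (nat_lit 20) (nat_lit 4) (nat_lit 526) (nat_lit 421) (nat_lit 253))) (XT.nd (nat_lit 78) (nat_lit 0) (nat_lit 0) (XT.lf (nat_lit 0) (nat_lit 135750728565) (nat_lit 76) (nat_lit 120260783741) (nat_lit 76) (nat_lit 80957346893) (nat_lit 19) (nat_lit 4) (nat_lit 20) (nat_lit 5) (nat_lit 20) (nat_lit 4) (nat_lit 527) (nat_lit 421) (nat_lit 252)) (XT.lf (nat_lit 0) (nat_lit 276408403249) (nat_lit 76) (nat_lit 56699673746) (nat_lit 76) (nat_lit 17395745613) (nat_lit 19) (nat_lit 4) (nat_lit 20) (nat_lit 5) (nat_lit 20) (nat_lit 4) (nat_lit 528) (nat_lit 421) (nat_lit 251)))) (XT.nd (nat_lit 156) (nat_lit 76) (nat_lit 0) (XT.nd (nat_lit 78) (nat_lit 0) (nat_lit 0) (XT.lf (nat_lit 0) (nat_lit 48893142139)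 (nat_lit 152) (nat_lit 304267062154) (nat_lit 0) (nat_lit 11460384021) (nat_lit 17) (nat_lit 5) (nat_lit 19) (nat_lit 4) (nat_lit 17) (nat_lit 4) (nat_lit 529) (nat_lit 421) (nat_lit 250)) (XT.lf (nat_lit 0) (nat_lit 120115138102) (nat_lit 152) (nat_lit 176521676064) (nat_lit 0) (nat_lit 82681955594) (nat_lit 17) (nat_lit 5) (nat_lit 19) (nat_lit 4) (nat_lit 17) (nat_lit 4) (nat_lit 530) (nat_lit 421) (nat_lit 249))) (XT.nd (nat_lit 78) (nat_lit 76) (nat_lit 0) (XT.lf (nat_lit 0) (nat_lit 194896671140) (nat_lit 152) (nat_lit 42392182831) (nat_lit 0) (nat_lit 157463084450) (nat_lit 17) (nat_lit 5) (nat_lit 19) (nat_lit 4) (nat_lit 17) (nat_lit 4) (nat_lit 531) (nat_lit 421) (nat_lit 248)) (XT.lf (nat_lit 0) (nat_lit 101695670022) (nat_lit 76) (nat_lit 173307876911) (nat_lit 76) (nat_lit 135873905287) (nat_lit 16) (nat_lit 4) (nat_lit 17) (nat_lit 5) (nat_lit 17) (nat_lit 4) (nat_lit 532) (nat_lit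 421) (nat_lit 247)))))) (XT.nd (nat_lit 624) (nat_lit 228) (nat_lit 0) (XT.nd (nat_lit 312) (nat_lit 76) (nat_lit 0) (XT.nd (nat_lit 156) (nat_lit 76) (nat_lit 0) (XT.nd (nat_lit 78) (nat_lit 76) (nat_lit 0) (XT.lf (nat_lit 0) (nat_lit 254456713375) (nat_lit 76) (nat_lit 105375521574) (nat_lit 76) (nat_lit 67941183345) (nat_lit 16) (nat_lit 4) (nat_lit 17) (nat_lit 5) (nat_lit 17) (nat_lit 4) (nat_lit 533) (nat_lit 421) (nat_lit 246)) (XT.lf (nat_lit 0) (nat_lit 3278315087) (nat_lit 152) (nat_lit 30714141447) (nat_lit 76) (nat_lit 411519152042) (nat_lit 15) (nat_lit 5) (nat_lit 17) (nat_lit 5) (nat_lit 16) (nat_lit 4) (nat_lit 534) (nat_lit 421) (nat_lit 245))) (XT.nd (nat_lit 78) (nat_lit 0) (nat_lit 0) (XT.lf (nat_lit 0) (nat_lit 78364723844) (nat_lit 152) (nat_lit 342874510864) (nat_lit 0) (nat_lit 42712323942) (nat_lit 14) (nat_lit 5) (nat_lit 16) (nat_lit 4) (nat_lit 14) (nat_lit 4) (nat_lit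 535) (nat_lit 421) (nat_lit 244)) (XT.lf (nat_lit 0) (nat_lit 158290044119) (nat_lit 152) (nat_lit 202331889951) (nat_lit 0) (nat_lit 122637342610) (nat_lit 14) (nat_lit 5) (nat_lit 16) (nat_lit 4) (nat_lit 14) (nat_lit 4) (nat_lit 536) (nat_lit 421) (nat_lit 243)))) (XT.nd (nat_lit 156) (nat_lit 0) (nat_lit 0) (XT.nd (nat_lit 78) (nat_lit 76) (nat_lit 0) (XT.lf (nat_lit 0) (nat_lit 242210346266) (nat_lit 152) (nat_lit 54764741046) (nat_lit 0) (nat_lit 206557357513) (nat_lit 14) (nat_lit 5) (nat_lit 16) (nat_lit 4) (nat_lit 14) (nat_lit 4) (nat_lit 537) (nat_lit 421) (nat_lit 242)) (XT.lf (nat_lit 0) (nat_lit 103490632768) (nat_lit 76) (nat_lit 228450586571) (nat_lit 76) (nat_lit 192797324252) (nat_lit 13) (nat_lit 4) (nat_lit 14) (nat_lit 5) (nat_lit 14) (nat_lit 4) (nat_lit 538) (nat_lit 421) (nat_lit 241))) (XT.nd (nat_lit 78) (nat_lit 0) (nat_lit 0) (XT.lf (nat_lit 0) (nat_lit 271557644308)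 (nat_lit 76) (nat_lit 155527256312) (nat_lit 76) (nat_lit 119873733454) (nat_lit 13) (nat_lit 4) (nat_lit 14) (nat_lit 5) (nat_lit 14) (nat_lit 4) (nat_lit 539) (nat_lit 421) (nat_lit 240)) (XT.lf (nat_lit 0) (nat_lit 448025683461) (nat_lit 76) (nat_lit 78958936946) (nat_lit 76) (nat_lit 43305165956) (nat_lit 13) (nat_lit 4) (nat_lit 14) (nat_lit 5) (nat_lit 14) (nat_lit 4) (nat_lit 540) (nat_lit 421) (nat_lit 239))))) (XT.nd (nat_lit 312) (nat_lit 76) (nat_lit 0) (XT.nd (nat_lit 156) (nat_lit 0) (nat_lit 0) (XT.nd (nat_lit 78) (nat_lit 0) (nat_lit 0) (XT.lf (nat_lit 0) (nat_lit 36557577462) (nat_lit 152) (nat_lit 555566937525) (nat_lit 0) (nat_lit 2601380027) (nat_lit 11) (nat_lit 5) (nat_lit 13) (nat_lit 4) (nat_lit 11) (nat_lit 4) (nat_lit 541) (nat_lit 421) (nat_lit 238)) (XT.lf (nat_lit 0) (nat_lit 122355967186) (nat_lit 152) (nat_lit 409422898140) (nat_lit 0) (nat_lit 88399555405) (nat_lit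 11) (nat_lit 5) (nat_lit 13) (nat_lit 4) (nat_lit 11) (nat_lit 4) (nat_lit 542) (nat_lit 421) (nat_lit 237))) (XT.nd (nat_lit 78) (nat_lit 0) (nat_lit 0) (XT.lf (nat_lit 0) (nat_lit 212443221007) (nat_lit 152) (nat_lit 255973799413) (nat_lit 0) (nat_lit 178486605086) (nat_lit 11) (nat_lit 5) (nat_lit 13) (nat_lit 4) (nat_lit 11) (nat_lit 4) (nat_lit 543) (nat_lit 421) (nat_lit 236)) (XT.lf (nat_lit 0) (nat_lit 307033832386) (nat_lit 152) (nat_lit 94854286348) (nat_lit 0) (nat_lit 273077022047) (nat_lit 11) (nat_lit 5) (nat_lit 13) (nat_lit 4) (nat_lit 11) (nat_lit 4) (nat_lit 544) (nat_lit 421) (nat_lit 235)))) (XT.nd (nat_lit 156) (nat_lit 0) (nat_lit 0) (XT.nd (nat_lit 78) (nat_lit 0) (nat_lit 0) (XT.lf (nat_lit 0) (nat_lit 76776589280) (nat_lit 76) (nat_lit 330775125510) (nat_lit 76) (nat_lit 296818130011) (nat_lit 10) (nat_lit 4) (nat_lit 11) (nat_lit 5) (nat_lit 11) (nat_lit 4) (nat_lit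 545) (nat_lit 421) (nat_lit 234)) (XT.lf (nat_lit 0) (nat_lit 260280223244) (nat_lit 76) (nat_lit 254420729769) (nat_lit 76) (nat_lit 220463557927) (nat_lit 10) (nat_lit 4) (nat_lit 11) (nat_lit 5) (nat_lit 11) (nat_lit 4) (nat_lit 546) (nat_lit 421) (nat_lit 233))) (XT.nd (nat_lit 78) (nat_lit 0) (nat_lit 0) (XT.lf (nat_lit 0) (nat_lit 452957217877) (nat_lit 76) (nat_lit 174249538568) (nat_lit 76) (nat_lit 140292198780) (nat_lit 10) (nat_lit 4) (nat_lit 11) (nat_lit 5) (nat_lit 11) (nat_lit 4) (nat_lit 547) (nat_lit 421) (nat_lit 232)) (XT.lf (nat_lit 0) (nat_lit 655266327929) (nat_lit 76) (nat_lit 90070668118) (nat_lit 76) (nat_lit 56113168382) (nat_lit 10) (nat_lit 4) (nat_lit 11) (nat_lit 5) (nat_lit 11) (nat_lit 4) (nat_lit 548) (nat_lit 421) (nat_lit 231))))))))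
noncomputable def xc143 : XT := (XT.nd (nat_lit 54912) (nat_lit 0) (nat_lit 3496) (XT.nd (nat_lit 53664) (nat_lit 0) (nat_lit 6916) (XT.nd (nat_lit 53040) (nat_lit 0) (nat_lit 9804) (XT.nd (nat_lit 52728) (nat_lit 0) (nat_lit 10640) (XT.nd (nat_lit 52572) (nat_lit 0) (nat_lit 11400) (XT.lf (nat_lit 0) (nat_lit 31081171635) (nat_lit 76) (nat_lit 645083829) (nat_lit 152) (nat_lit 805323261740) (nat_lit 8) (nat_lit 5) (nat_lit 9) (nat_lit 5) (nat_lit 10) (nat_lit 4) (nat_lit 549) (nat_lit 421) (nat_lit 230)) (XT.nd (nat_lit 78) (nat_lit 0) (nat_lit 0) (XT.lf (nat_lit 0) (nat_lit 2702711513) (nat_lit 0) (nat_lit 2702711513) (nat_lit 684) (nat_lit 689865885) (nat_lit 158) (nat_lit 5) (nat_lit 158) (nat_lit 3) (nat_lit 167) (nat_lit 3) (nat_lit 422) (nat_lit 422) (nat_lit 356)) (XT.lf (nat_lit 0) (nat_lit 11532711062) (nat_lit 684) (nat_lit 734399106) (nat_lit 760) (nat_lit 205578396) (nat_lit 158)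 (nat_lit 5) (nat_lit 167) (nat_lit 3) (nat_lit 168) (nat_lit 5) (nat_lit 423) (nat_lit 422) (nat_lit 355)))) (XT.nd (nat_lit 156) (nat_lit 0) (nat_lit 76) (XT.nd (nat_lit 78) (nat_lit 760) (nat_lit 0) (XT.lf (nat_lit 76) (nat_lit 5696596320) (nat_lit 0) (nat_lit 6743154939) (nat_lit 760) (nat_lit 321704227) (nat_lit 159) (nat_lit 5) (nat_lit 158) (nat_lit 5) (nat_lit 168) (nat_lit 5) (nat_lit 424) (nat_lit 422) (nat_lit 354)) (XT.lf (nat_lit 0) (nat_lit 301828044) (nat_lit 760) (nat_lit 611394437) (nat_lit 836) (nat_lit 12151945582) (nat_lit 148) (nat_lit 5) (nat_lit 158) (nat_lit 5) (nat_lit 159) (nat_lit 5) (nat_lit 425) (nat_lit 422) (nat_lit 353))) (XT.nd (nat_lit 78) (nat_lit 0) (nat_lit 0) (XT.lf (nat_lit 0) (nat_lit 1101516886) (nat_lit 760) (nat_lit 7116646237) (nat_lit 836) (nat_lit 5157853979) (nat_lit 149) (nat_lit 5) (nat_lit 159) (nat_lit 5) (nat_lit 160) (nat_lit 5) (nat_lit 426)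 (nat_lit 422) (nat_lit 352)) (XT.lf (nat_lit 0) (nat_lit 1941366233) (nat_lit 760) (nat_lit 239188684) (nat_lit 836) (nat_lit 11521848771) (nat_lit 149) (nat_lit 5) (nat_lit 159) (nat_lit 5) (nat_lit 160) (nat_lit 5) (nat_lit 427) (nat_lit 422) (nat_lit 351))))) (XT.nd (nat_lit 312) (nat_lit 988) (nat_lit 0) (XT.nd (nat_lit 156) (nat_lit 0) (nat_lit 76) (XT.nd (nat_lit 78) (nat_lit 0) (nat_lit 0) (XT.lf (nat_lit 0) (nat_lit 2978345368) (nat_lit 760) (nat_lit 6911378473) (nat_lit 836) (nat_lit 4147632609) (nat_lit 150) (nat_lit 5) (nat_lit 160) (nat_lit 5) (nat_lit 161) (nat_lit 5) (nat_lit 428) (nat_lit 422) (nat_lit 350)) (XT.lf (nat_lit 76) (nat_lit 439857000) (nat_lit 0) (nat_lit 3650946292) (nat_lit 836) (nat_lit 10297075601) (nat_lit 151) (nat_lit 5) (nat_lit 150) (nat_lit 5) (nat_lit 161) (nat_lit 5) (nat_lit 429) (nat_lit 422) (nat_lit 349))) (XT.nd (nat_lit 78) (nat_lit 0) (nat_lit 0)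 (XT.lf (nat_lit 0) (nat_lit 5400939884) (nat_lit 760) (nat_lit 6416847248) (nat_lit 836) (nat_lit 2931040903) (nat_lit 151) (nat_lit 5) (nat_lit 161) (nat_lit 5) (nat_lit 162) (nat_lit 5) (nat_lit 430) (nat_lit 422) (nat_lit 348)) (XT.lf (nat_lit 76) (nat_lit 1460462747) (nat_lit 0) (nat_lit 5377646322) (nat_lit 836) (nat_lit 8286642486) (nat_lit 152) (nat_lit 5) (nat_lit 151) (nat_lit 5) (nat_lit 162) (nat_lit 5) (nat_lit 431) (nat_lit 422) (nat_lit 347)))) (XT.nd (nat_lit 156) (nat_lit 380) (nat_lit 0) (XT.nd (nat_lit 78) (nat_lit 760) (nat_lit 0) (XT.lf (nat_lit 0) (nat_lit 8458871278) (nat_lit 760) (nat_lit 5601129606) (nat_lit 76) (nat_lit 1453886691) (nat_lit 152) (nat_lit 5) (nat_lit 162) (nat_lit 5) (nat_lit 153) (nat_lit 5) (nat_lit 432) (nat_lit 422) (nat_lit 346)) (XT.lf (nat_lit 0) (nat_lit 2851031467) (nat_lit 760) (nat_lit 7422943892) (nat_lit 836) (nat_lit 5642842758) (nat_lit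 142) (nat_lit 5) (nat_lit 152) (nat_lit 5) (nat_lit 153) (nat_lit 5) (nat_lit 433) (nat_lit 422) (nat_lit 345))) (XT.nd (nat_lit 78) (nat_lit 380) (nat_lit 0) (XT.lf (nat_lit 0) (nat_lit 11903288609) (nat_lit 760) (nat_lit 352694188) (nat_lit 836) (nat_lit 4080107751) (nat_lit 142) (nat_lit 5) (nat_lit 152) (nat_lit 5) (nat_lit 153) (nat_lit 5) (nat_lit 434) (nat_lit 422) (nat_lit 344)) (XT.lf (nat_lit 0) (nat_lit 4653285130) (nat_lit 380) (nat_lit 9849062598) (nat_lit 456) (nat_lit 2265718655) (nat_lit 137) (nat_lit 5) (nat_lit 142) (nat_lit 5) (nat_lit 143) (nat_lit 5) (nat_lit 435) (nat_lit 422) (nat_lit 343)))))) (XT.nd (nat_lit 624) (nat_lit 1444) (nat_lit 0) (XT.nd (nat_lit 312) (nat_lit 608) (nat_lit 0) (XT.nd (nat_lit 156) (nat_lit 380) (nat_lit 0) (XT.nd (nat_lit 78) (nat_lit 456) (nat_lit 0) (XT.lf (nat_lit 0) (nat_lit 14324794024) (nat_lit 380) (nat_lit 2599789139) (nat_lit 456) (nat_lit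 293882746) (nat_lit 137) (nat_lit 5) (nat_lit 142) (nat_lit 5) (nat_lit 143) (nat_lit 5) (nat_lit 436) (nat_lit 422) (nat_lit 342)) (XT.lf (nat_lit 0) (nat_lit 1892292297) (nat_lit 456) (nat_lit 10798694478) (nat_lit 76) (nat_lit 4990383679) (nat_lit 131) (nat_lit 5) (nat_lit 137) (nat_lit 5) (nat_lit 132) (nat_lit 5) (nat_lit 437) (nat_lit 422) (nat_lit 341))) (XT.nd (nat_lit 78) (nat_lit 380) (nat_lit 0) (XT.lf (nat_lit 0) (nat_lit 4254205020) (nat_lit 456) (nat_lit 982005185) (nat_lit 76) (nat_lit 12927156040) (nat_lit 131) (nat_lit 5) (nat_lit 137) (nat_lit 5) (nat_lit 132) (nat_lit 5) (nat_lit 438) (nat_lit 422) (nat_lit 340)) (XT.lf (nat_lit 0) (nat_lit 6911911329) (nat_lit 456) (nat_lit 9088588239) (nat_lit 76) (nat_lit 2660079425) (nat_lit 126) (nat_lit 5) (nat_lit 132) (nat_lit 5) (nat_lit 127) (nat_lit 5) (nat_lit 439) (nat_lit 422) (nat_lit 339)))) (XT.nd (nat_lit 156) (nat_lit 304)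 (nat_lit 0) (XT.nd (nat_lit 78) (nat_lit 0) (nat_lit 0) (XT.lf (nat_lit 0) (nat_lit 1449490659) (nat_lit 304) (nat_lit 8363493461) (nat_lit 380) (nat_lit 9364146170) (nat_lit 122) (nat_lit 5) (nat_lit 126) (nat_lit 5) (nat_lit 127) (nat_lit 5) (nat_lit 440) (nat_lit 422) (nat_lit 338)) (XT.lf (nat_lit 0) (nat_lit 12813530306) (nat_lit 304) (nat_lit 185059443) (nat_lit 380) (nat_lit 6713947316) (nat_lit 122) (nat_lit 5) (nat_lit 126) (nat_lit 5) (nat_lit 127) (nat_lit 5) (nat_lit 441) (nat_lit 422) (nat_lit 337))) (XT.nd (nat_lit 78) (nat_lit 0) (nat_lit 0) (XT.lf (nat_lit 0) (nat_lit 4466476616) (nat_lit 304) (nat_lit 12064133550) (nat_lit 380) (nat_lit 3734749075) (nat_lit 118) (nat_lit 5) (nat_lit 122) (nat_lit 5) (nat_lit 123) (nat_lit 5) (nat_lit 442) (nat_lit 422) (nat_lit 336)) (XT.lf (nat_lit 0) (nat_lit 16620528891) (nat_lit 304) (nat_lit 3725147597) (nat_lit 380) (nat_lit 494825493)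 (nat_lit 118) (nat_lit 5) (nat_lit 122) (nat_lit 5) (nat_lit 123) (nat_lit 5) (nat_lit 443) (nat_lit 422) (nat_lit 335))))) (XT.nd (nat_lit 312) (nat_lit 532) (nat_lit 0) (XT.nd (nat_lit 156) (nat_lit 532) (nat_lit 0) (XT.nd (nat_lit 78) (nat_lit 0) (nat_lit 0) (XT.lf (nat_lit 0) (nat_lit 3009469669) (nat_lit 380) (nat_lit 13380575163) (nat_lit 76) (nat_lit 5042318145) (nat_lit 113) (nat_lit 5) (nat_lit 118) (nat_lit 5) (nat_lit 114) (nat_lit 5) (nat_lit 444) (nat_lit 422) (nat_lit 334)) (XT.lf (nat_lit 0) (nat_lit 6793434863) (nat_lit 380) (nat_lit 1053033798) (nat_lit 76) (nat_lit 14200890005) (nat_lit 113) (nat_lit 5) (nat_lit 118) (nat_lit 5) (nat_lit 114) (nat_lit 5) (nat_lit 445) (nat_lit 422) (nat_lit 333))) (XT.nd (nat_lit 78) (nat_lit 228) (nat_lit 0) (XT.lf (nat_lit 0) (nat_lit 10966760377) (nat_lit 380) (nat_lit 10436544311) (nat_lit 76) (nat_lit 1279792745) (nat_lit 109) (nat_lit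 5) (nat_lit 114) (nat_lit 5) (nat_lit 110) (nat_lit 5) (nat_lit 446) (nat_lit 422) (nat_lit 332)) (XT.lf (nat_lit 0) (nat_lit 2844461335) (nat_lit 228) (nat_lit 12683720582) (nat_lit 304) (nat_lit 7813471068) (nat_lit 106) (nat_lit 5) (nat_lit 109) (nat_lit 5) (nat_lit 110) (nat_lit 5) (nat_lit 447) (nat_lit 422) (nat_lit 331)))) (XT.nd (nat_lit 156) (nat_lit 228) (nat_lit 0) (XT.nd (nat_lit 78) (nat_lit 304) (nat_lit 0) (XT.lf (nat_lit 0) (nat_lit 17136499088) (nat_lit 228) (nat_lit 3346505704) (nat_lit 304) (nat_lit 3541866277) (nat_lit 106) (nat_lit 5) (nat_lit 109) (nat_lit 5) (nat_lit 110) (nat_lit 5) (nat_lit 448) (nat_lit 422) (nat_lit 330)) (XT.lf (nat_lit 0) (nat_lit 1123912963) (nat_lit 304) (nat_lit 17224174716) (nat_lit 76) (nat_lit 6382887823) (nat_lit 102) (nat_lit 5) (nat_lit 106) (nat_lit 5) (nat_lit 103) (nat_lit 5) (nat_lit 449) (nat_lit 422) (nat_lit 329))) (XT.nd (nat_lit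 78) (nat_lit 228) (nat_lit 0) (XT.lf (nat_lit 0) (nat_lit 6066562791) (nat_lit 304) (nat_lit 2735729904) (nat_lit 76) (nat_lit 16659059811) (nat_lit 102) (nat_lit 5) (nat_lit 106) (nat_lit 5) (nat_lit 103) (nat_lit 5) (nat_lit 450) (nat_lit 422) (nat_lit 328)) (XT.lf (nat_lit 0) (nat_lit 11469340893) (nat_lit 304) (nat_lit 13366292713) (nat_lit 76) (nat_lit 1381966008) (nat_lit 99) (nat_lit 5) (nat_lit 103) (nat_lit 5) (nat_lit 100) (nat_lit 5) (nat_lit 451) (nat_lit 422) (nat_lit 327))))))) (XT.nd (nat_lit 1248) (nat_lit 1368) (nat_lit 0) (XT.nd (nat_lit 624) (nat_lit 912) (nat_lit 0) (XT.nd (nat_lit 312) (nat_lit 684) (nat_lit 0) (XT.nd (nat_lit 156) (nat_lit 228) (nat_lit 0) (XT.nd (nat_lit 78) (nat_lit 0) (nat_lit 0) (XT.lf (nat_lit 0) (nat_lit 2214448007) (nat_lit 228) (nat_lit 15143671628) (nat_lit 304) (nat_lit 9642747351) (nat_lit 96) (nat_lit 5) (nat_lit 99) (nat_lit 5) (nat_lit 100)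 (nat_lit 5) (nat_lit 452) (nat_lit 422) (nat_lit 326)) (XT.lf (nat_lit 0) (nat_lit 19023810229) (nat_lit 228) (nat_lit 4734044657) (nat_lit 304) (nat_lit 4054617908) (nat_lit 96) (nat_lit 5) (nat_lit 99) (nat_lit 5) (nat_lit 100) (nat_lit 5) (nat_lit 453) (nat_lit 422) (nat_lit 325))) (XT.nd (nat_lit 78) (nat_lit 0) (nat_lit 0) (XT.lf (nat_lit 0) (nat_lit 1973091091) (nat_lit 228) (nat_lit 20526535818) (nat_lit 76) (nat_lit 6152707717) (nat_lit 93) (nat_lit 5) (nat_lit 96) (nat_lit 5) (nat_lit 94) (nat_lit 5) (nat_lit 454) (nat_lit 422) (nat_lit 324)) (XT.lf (nat_lit 0) (nat_lit 8385444752) (nat_lit 228) (nat_lit 3496415581) (nat_lit 76) (nat_lit 17638030529) (nat_lit 93) (nat_lit 5) (nat_lit 96) (nat_lit 5) (nat_lit 94) (nat_lit 5) (nat_lit 455) (nat_lit 422) (nat_lit 323)))) (XT.nd (nat_lit 156) (nat_lit 304) (nat_lit 0) (XT.nd (nat_lit 78) (nat_lit 152) (nat_lit 0) (XT.lf (nat_lit 0) (nat_lit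 14846823279) (nat_lit 228) (nat_lit 494472778) (nat_lit 304) (nat_lit 15078385634) (nat_lit 90) (nat_lit 5) (nat_lit 93) (nat_lit 5) (nat_lit 94) (nat_lit 5) (nat_lit 456) (nat_lit 422) (nat_lit 322)) (XT.lf (nat_lit 0) (nat_lit 2761855143) (nat_lit 152) (nat_lit 20156570637) (nat_lit 228) (nat_lit 8432362731) (nat_lit 88) (nat_lit 5) (nat_lit 90) (nat_lit 5) (nat_lit 91) (nat_lit 5) (nat_lit 457) (nat_lit 422) (nat_lit 321))) (XT.nd (nat_lit 78) (nat_lit 304) (nat_lit 0) (XT.lf (nat_lit 0) (nat_lit 22532083329) (nat_lit 152) (nat_lit 8605468052) (nat_lit 228) (nat_lit 1177743028) (nat_lit 88) (nat_lit 5) (nat_lit 90) (nat_lit 5) (nat_lit 91) (nat_lit 5) (nat_lit 458) (nat_lit 422) (nat_lit 320)) (XT.lf (nat_lit 0) (nat_lit 6443244355) (nat_lit 304) (nat_lit 23199874866) (nat_lit 76) (nat_lit 3669392787) (nat_lit 84) (nat_lit 5) (nat_lit 88) (nat_lit 5) (nat_lit 85) (nat_lit 5) (nat_lit 459)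 (nat_lit 422) (nat_lit 319))))) (XT.nd (nat_lit 312) (nat_lit 532) (nat_lit 0) (XT.nd (nat_lit 156) (nat_lit 228) (nat_lit 0) (XT.nd (nat_lit 78) (nat_lit 152) (nat_lit 0) (XT.lf (nat_lit 0) (nat_lit 14706995853) (nat_lit 304) (nat_lit 3184726287) (nat_lit 76) (nat_lit 16451838863) (nat_lit 84) (nat_lit 5) (nat_lit 88) (nat_lit 5) (nat_lit 85) (nat_lit 5) (nat_lit 460) (nat_lit 422) (nat_lit 318)) (XT.lf (nat_lit 0) (nat_lit 18407720679) (nat_lit 152) (nat_lit 5255821643) (nat_lit 228) (nat_lit 11748640338) (nat_lit 82) (nat_lit 5) (nat_lit 84) (nat_lit 5) (nat_lit 85) (nat_lit 5) (nat_lit 461) (nat_lit 422) (nat_lit 317))) (XT.nd (nat_lit 78) (nat_lit 76) (nat_lit 0) (XT.lf (nat_lit 0) (nat_lit 4669577914) (nat_lit 152) (nat_lit 28643463537) (nat_lit 228) (nat_lit 3208938234) (nat_lit 80) (nat_lit 5) (nat_lit 82) (nat_lit 5) (nat_lit 83) (nat_lit 5) (nat_lit 462) (nat_lit 422) (nat_lit 316))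 (XT.lf (nat_lit 0) (nat_lit 5944685951) (nat_lit 228) (nat_lit 9848739360) (nat_lit 76) (nat_lit 21870785979) (nat_lit 79) (nat_lit 5) (nat_lit 82) (nat_lit 5) (nat_lit 80) (nat_lit 5) (nat_lit 463) (nat_lit 422) (nat_lit 315)))) (XT.nd (nat_lit 156) (nat_lit 380) (nat_lit 0) (XT.nd (nat_lit 78) (nat_lit 0) (nat_lit 0) (XT.lf (nat_lit 0) (nat_lit 13626469421) (nat_lit 152) (nat_lit 2027151875) (nat_lit 228) (nat_lit 23197029813) (nat_lit 77) (nat_lit 5) (nat_lit 79) (nat_lit 5) (nat_lit 80) (nat_lit 5) (nat_lit 464) (nat_lit 422) (nat_lit 314)) (XT.lf (nat_lit 0) (nat_lit 26204365827) (nat_lit 228) (nat_lit 1679717721) (nat_lit 76) (nat_lit 12194511706) (nat_lit 77) (nat_lit 5) (nat_lit 80) (nat_lit 5) (nat_lit 78) (nat_lit 5) (nat_lit 465) (nat_lit 422) (nat_lit 313))) (XT.nd (nat_lit 78) (nat_lit 228) (nat_lit 0) (XT.lf (nat_lit 0) (nat_lit 23757460072) (nat_lit 152) (nat_lit 13922490370) (nat_lit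 228) (nat_lit 3668121456) (nat_lit 75) (nat_lit 5) (nat_lit 77) (nat_lit 5) (nat_lit 78) (nat_lit 5) (nat_lit 466) (nat_lit 422) (nat_lit 312)) (XT.lf (nat_lit 0) (nat_lit 6985120478) (nat_lit 228) (nat_lit 34705582430) (nat_lit 76) (nat_lit 976696784) (nat_lit 72) (nat_lit 5) (nat_lit 75) (nat_lit 5) (nat_lit 73) (nat_lit 5) (nat_lit 467) (nat_lit 422) (nat_lit 311)))))) (XT.nd (nat_lit 624) (nat_lit 608) (nat_lit 0) (XT.nd (nat_lit 312) (nat_lit 456) (nat_lit 0) (XT.nd (nat_lit 156) (nat_lit 152) (nat_lit 0) (XT.nd (nat_lit 78) (nat_lit 152) (nat_lit 0) (XT.lf (nat_lit 0) (nat_lit 18572034418) (nat_lit 228) (nat_lit 8940250244) (nat_lit 76) (nat_lit 16511188788) (nat_lit 72) (nat_lit 5) (nat_lit 75) (nat_lit 5) (nat_lit 73) (nat_lit 5) (nat_lit 468) (nat_lit 422) (nat_lit 310)) (XT.lf (nat_lit 0) (nat_lit 18700676125) (nat_lit 152) (nat_lit 12323165107) (nat_lit 228) (nat_lit 14409232664) (nat_lit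 70) (nat_lit 5) (nat_lit 72) (nat_lit 5) (nat_lit 73) (nat_lit 5) (nat_lit 469) (nat_lit 422) (nat_lit 309))) (XT.nd (nat_lit 78) (nat_lit 76) (nat_lit 0) (XT.lf (nat_lit 0) (nat_lit 1093079789) (nat_lit 76) (nat_lit 43226353840) (nat_lit 152) (nat_lit 2582661311) (nat_lit 69) (nat_lit 5) (nat_lit 70) (nat_lit 5) (nat_lit 71) (nat_lit 4) (nat_lit 470) (nat_lit 422) (nat_lit 308)) (XT.lf (nat_lit 0) (nat_lit 10176280693) (nat_lit 152) (nat_lit 17558306313) (nat_lit 76) (nat_lit 20669511001) (nat_lit 68) (nat_lit 5) (nat_lit 70) (nat_lit 5) (nat_lit 69) (nat_lit 5) (nat_lit 471) (nat_lit 422) (nat_lit 307)))) (XT.nd (nat_lit 156) (nat_lit 304) (nat_lit 0) (XT.nd (nat_lit 78) (nat_lit 0) (nat_lit 0) (XT.lf (nat_lit 0) (nat_lit 12450326685) (nat_lit 152) (nat_lit 11224399165) (nat_lit 228) (nat_lit 26294941214) (nat_lit 66) (nat_lit 5) (nat_lit 68) (nat_lit 5) (nat_lit 69) (nat_lit 5) (nat_lit 472)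 (nat_lit 422) (nat_lit 306)) (XT.lf (nat_lit 0) (nat_lit 38239755861) (nat_lit 228) (nat_lit 7140769899) (nat_lit 76) (nat_lit 6213405964) (nat_lit 66) (nat_lit 5) (nat_lit 69) (nat_lit 5) (nat_lit 67) (nat_lit 4) (nat_lit 473) (nat_lit 422) (nat_lit 305))) (XT.nd (nat_lit 78) (nat_lit 152) (nat_lit 0) (XT.lf (nat_lit 0) (nat_lit 810042259) (nat_lit 152) (nat_lit 27909179354) (nat_lit 76) (nat_lit 24550811275) (nat_lit 64) (nat_lit 5) (nat_lit 66) (nat_lit 5) (nat_lit 65) (nat_lit 5) (nat_lit 474) (nat_lit 422) (nat_lit 304)) (XT.lf (nat_lit 0) (nat_lit 4628497167) (nat_lit 152) (nat_lit 10794686366) (nat_lit 228) (nat_lit 39586334769) (nat_lit 62) (nat_lit 5) (nat_lit 64) (nat_lit 5) (nat_lit 65) (nat_lit 5) (nat_lit 475) (nat_lit 422) (nat_lit 303))))) (XT.nd (nat_lit 312) (nat_lit 304) (nat_lit 0) (XT.nd (nat_lit 156) (nat_lit 228) (nat_lit 0) (XT.nd (nat_lit 78) (nat_lit 76) (nat_lit 0) (XT.lf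 (nat_lit 0) (nat_lit 31367057083) (nat_lit 228) (nat_lit 17193759865) (nat_lit 76) (nat_lit 8245157507) (nat_lit 62) (nat_lit 5) (nat_lit 65) (nat_lit 5) (nat_lit 63) (nat_lit 4) (nat_lit 476) (nat_lit 422) (nat_lit 302)) (XT.lf (nat_lit 0) (nat_lit 18043543845) (nat_lit 76) (nat_lit 30517883080) (nat_lit 152) (nat_lit 10108161578) (nat_lit 61) (nat_lit 5) (nat_lit 62) (nat_lit 5) (nat_lit 63) (nat_lit 4) (nat_lit 477) (nat_lit 422) (nat_lit 301))) (XT.nd (nat_lit 78) (nat_lit 152) (nat_lit 0) (XT.lf (nat_lit 0) (nat_lit 6088048446) (nat_lit 152) (nat_lit 5080346111) (nat_lit 76) (nat_lit 49438783236) (nat_lit 60) (nat_lit 5) (nat_lit 62) (nat_lit 5) (nat_lit 61) (nat_lit 5) (nat_lit 478) (nat_lit 422) (nat_lit 300)) (XT.lf (nat_lit 0) (nat_lit 23420452182) (nat_lit 228) (nat_lit 29633903582) (nat_lit 76) (nat_lit 9545701408) (nat_lit 58) (nat_lit 5) (nat_lit 61) (nat_lit 5) (nat_lit 59) (nat_lit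 4) (nat_lit 479) (nat_lit 422) (nat_lit 299)))) (XT.nd (nat_lit 156) (nat_lit 228) (nat_lit 0) (XT.nd (nat_lit 78) (nat_lit 0) (nat_lit 0) (XT.lf (nat_lit 0) (nat_lit 8480566101) (nat_lit 76) (nat_lit 33536786808) (nat_lit 152) (nat_lit 22655333951) (nat_lit 57) (nat_lit 5) (nat_lit 58) (nat_lit 5) (nat_lit 59) (nat_lit 4) (nat_lit 480) (nat_lit 422) (nat_lit 298)) (XT.lf (nat_lit 0) (nat_lit 49520289920) (nat_lit 76) (nat_lit 12520703787) (nat_lit 152) (nat_lit 4783109745) (nat_lit 57) (nat_lit 5) (nat_lit 58) (nat_lit 5) (nat_lit 59) (nat_lit 4) (nat_lit 481) (nat_lit 422) (nat_lit 297))) (XT.nd (nat_lit 78) (nat_lit 0) (nat_lit 0) (XT.lf (nat_lit 0) (nat_lit 14064929838) (nat_lit 228) (nat_lit 45140294608) (nat_lit 76) (nat_lit 9840464172) (nat_lit 54) (nat_lit 5) (nat_lit 57) (nat_lit 5) (nat_lit 55) (nat_lit 4) (nat_lit 482) (nat_lit 422) (nat_lit 296)) (XT.lf (nat_lit 0) (nat_lit 34192952961)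 (nat_lit 228) (nat_lit 3885396988) (nat_lit 76) (nat_lit 33271166389) (nat_lit 54) (nat_lit 5) (nat_lit 57) (nat_lit 5) (nat_lit 55) (nat_lit 4) (nat_lit 483) (nat_lit 422) (nat_lit 295))))))))
noncomputable def xc144 : XT := (XT.nd (nat_lit 2418) (nat_lit 1292) (nat_lit 0) (XT.nd (nat_lit 1170) (nat_lit 988) (nat_lit 0) (XT.nd (nat_lit 546) (nat_lit 456) (nat_lit 0) (XT.nd (nat_lit 234) (nat_lit 304) (nat_lit 0) (XT.nd (nat_lit 78) (nat_lit 152) (nat_lit 0) (XT.lf (nat_lit 0) (nat_lit 40727164862) (nat_lit 76) (nat_lit 15231520840) (nat_lit 152) (nat_lit 17778284459) (nat_lit 53) (nat_lit 5) (nat_lit 54) (nat_lit 5) (nat_lit 55) (nat_lit 4) (nat_lit 484) (nat_lit 422) (nat_lit 294)) (XT.nd (nat_lit 78) (nat_lit 0) (nat_lit 0) (XT.lf (nat_lit 0) (nat_lit 2874573661) (nat_lit 152) (nat_lit 64578541806) (nat_lit 76) (nat_lit 8769281625) (nat_lit 51) (nat_lit 5) (nat_lit 53) (nat_lit 5) (nat_lit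 52) (nat_lit 4) (nat_lit 485) (nat_lit 422) (nat_lit 293)) (XT.lf (nat_lit 0) (nat_lit 24775982437) (nat_lit 152) (nat_lit 19686865039) (nat_lit 76) (nat_lit 34314006918) (nat_lit 51) (nat_lit 5) (nat_lit 53) (nat_lit 5) (nat_lit 52) (nat_lit 4) (nat_lit 486) (nat_lit 422) (nat_lit 292)))) (XT.nd (nat_lit 156) (nat_lit 228) (nat_lit 0) (XT.nd (nat_lit 78) (nat_lit 0) (nat_lit 0) (XT.lf (nat_lit 0) (nat_lit 28348498430) (nat_lit 76) (nat_lit 19862254212) (nat_lit 152) (nat_lit 33226367485) (nat_lit 50) (nat_lit 5) (nat_lit 51) (nat_lit 5) (nat_lit 52) (nat_lit 4) (nat_lit 487) (nat_lit 422) (nat_lit 291)) (XT.lf (nat_lit 0) (nat_lit 73245026553) (nat_lit 152) (nat_lit 4851508608) (nat_lit 0) (nat_lit 6112475837) (nat_lit 50) (nat_lit 5) (nat_lit 52) (nat_lit 4) (nat_lit 50) (nat_lit 4) (nat_lit 488) (nat_lit 422) (nat_lit 290))) (XT.nd (nat_lit 78) (nat_lit 76) (nat_lit 0) (XT.lf (nat_lit 0) (nat_lit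 13086378873) (nat_lit 152) (nat_lit 40310584014) (nat_lit 76) (nat_lit 33659239336) (nat_lit 48) (nat_lit 5) (nat_lit 50) (nat_lit 5) (nat_lit 49) (nat_lit 4) (nat_lit 489) (nat_lit 422) (nat_lit 289)) (XT.lf (nat_lit 0) (nat_lit 11219540511) (nat_lit 76) (nat_lit 27005858451) (nat_lit 152) (nat_lit 51798637252) (nat_lit 47) (nat_lit 5) (nat_lit 48) (nat_lit 5) (nat_lit 49) (nat_lit 4) (nat_lit 490) (nat_lit 422) (nat_lit 288))))) (XT.nd (nat_lit 312) (nat_lit 228) (nat_lit 0) (XT.nd (nat_lit 156) (nat_lit 152) (nat_lit 0) (XT.nd (nat_lit 78) (nat_lit 76) (nat_lit 0) (XT.lf (nat_lit 0) (nat_lit 65322182224) (nat_lit 152) (nat_lit 26410535297) (nat_lit 0) (nat_lit 1372503867) (nat_lit 47) (nat_lit 5) (nat_lit 49) (nat_lit 4) (nat_lit 47) (nat_lit 4) (nat_lit 491) (nat_lit 422) (nat_lit 287)) (XT.lf (nat_lit 0) (nat_lit 29083765617) (nat_lit 76) (nat_lit 65582968097) (nat_lit 76) (nat_lit 1629085739)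 (nat_lit 46) (nat_lit 4) (nat_lit 47) (nat_lit 5) (nat_lit 47) (nat_lit 4) (nat_lit 492) (nat_lit 422) (nat_lit 286))) (XT.nd (nat_lit 78) (nat_lit 76) (nat_lit 0) (XT.lf (nat_lit 0) (nat_lit 25456507146) (nat_lit 152) (nat_lit 11772046517) (nat_lit 76) (nat_lit 62374690640) (nat_lit 45) (nat_lit 5) (nat_lit 47) (nat_lit 5) (nat_lit 46) (nat_lit 4) (nat_lit 493) (nat_lit 422) (nat_lit 285)) (XT.lf (nat_lit 0) (nat_lit 47940500286) (nat_lit 76) (nat_lit 6645938546) (nat_lit 152) (nat_lit 48451025966) (nat_lit 44) (nat_lit 5) (nat_lit 45) (nat_lit 5) (nat_lit 46) (nat_lit 4) (nat_lit 494) (nat_lit 422) (nat_lit 284)))) (XT.nd (nat_lit 156) (nat_lit 76) (nat_lit 0) (XT.nd (nat_lit 78) (nat_lit 76) (nat_lit 0) (XT.lf (nat_lit 0) (nat_lit 4138376283) (nat_lit 76) (nat_lit 81695662149) (nat_lit 76) (nat_lit 20776299391) (nat_lit 43) (nat_lit 4) (nat_lit 44) (nat_lit 5) (nat_lit 44) (nat_lit 4) (nat_lit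 495) (nat_lit 422) (nat_lit 283)) (XT.lf (nat_lit 0) (nat_lit 9070761680) (nat_lit 152) (nat_lit 42327595259) (nat_lit 76) (nat_lit 58904348280) (nat_lit 42) (nat_lit 5) (nat_lit 44) (nat_lit 5) (nat_lit 43) (nat_lit 4) (nat_lit 496) (nat_lit 422) (nat_lit 282))) (XT.nd (nat_lit 78) (nat_lit 0) (nat_lit 0) (XT.lf (nat_lit 0) (nat_lit 21153615842) (nat_lit 76) (nat_lit 18885120565) (nat_lit 152) (nat_lit 74107585859) (nat_lit 41) (nat_lit 5) (nat_lit 42) (nat_lit 5) (nat_lit 43) (nat_lit 4) (nat_lit 497) (nat_lit 422) (nat_lit 281)) (XT.lf (nat_lit 0) (nat_lit 73518376920) (nat_lit 152) (nat_lit 29124613985) (nat_lit 0) (nat_lit 15490965969) (nat_lit 41) (nat_lit 5) (nat_lit 43) (nat_lit 4) (nat_lit 41) (nat_lit 4) (nat_lit 498) (nat_lit 422) (nat_lit 280)))))) (XT.nd (nat_lit 624) (nat_lit 456) (nat_lit 0) (XT.nd (nat_lit 312) (nat_lit 304) (nat_lit 0) (XT.nd (nat_lit 156) (nat_lit 76) (nat_lit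 0) (XT.nd (nat_lit 78) (nat_lit 76) (nat_lit 0) (XT.lf (nat_lit 0) (nat_lit 38864693267) (nat_lit 76) (nat_lit 70720373755) (nat_lit 76) (nat_lit 12690252867) (nat_lit 40) (nat_lit 4) (nat_lit 41) (nat_lit 5) (nat_lit 41) (nat_lit 4) (nat_lit 499) (nat_lit 422) (nat_lit 279)) (XT.lf (nat_lit 0) (nat_lit 20662625832) (nat_lit 152) (nat_lit 15674318823) (nat_lit 76) (nat_lit 90245643756) (nat_lit 39) (nat_lit 5) (nat_lit 41) (nat_lit 5) (nat_lit 40) (nat_lit 4) (nat_lit 500) (nat_lit 422) (nat_lit 278))) (XT.nd (nat_lit 78) (nat_lit 0) (nat_lit 0) (XT.lf (nat_lit 0) (nat_lit 56158711772) (nat_lit 152) (nat_lit 74003873803) (nat_lit 0) (nat_lit 887131036) (nat_lit 38) (nat_lit 5) (nat_lit 40) (nat_lit 4) (nat_lit 38) (nat_lit 4) (nat_lit 501) (nat_lit 422) (nat_lit 277)) (XT.lf (nat_lit 0) (nat_lit 94291951562) (nat_lit 152) (nat_lit 2386990873) (nat_lit 0) (nat_lit 39018141355) (nat_lit 38) (nat_lit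 5) (nat_lit 40) (nat_lit 4) (nat_lit 38) (nat_lit 4) (nat_lit 502) (nat_lit 422) (nat_lit 276)))) (XT.nd (nat_lit 156) (nat_lit 76) (nat_lit 0) (XT.nd (nat_lit 78) (nat_lit 152) (nat_lit 0) (XT.lf (nat_lit 0) (nat_lit 75212075719) (nat_lit 76) (nat_lit 60291056608) (nat_lit 76) (nat_lit 5015123095) (nat_lit 37) (nat_lit 4) (nat_lit 38) (nat_lit 5) (nat_lit 38) (nat_lit 4) (nat_lit 503) (nat_lit 422) (nat_lit 275)) (XT.lf (nat_lit 0) (nat_lit 11023482300) (nat_lit 76) (nat_lit 21318682582) (nat_lit 152) (nat_lit 113201897621) (nat_lit 35) (nat_lit 5) (nat_lit 36) (nat_lit 5) (nat_lit 37) (nat_lit 4) (nat_lit 504) (nat_lit 422) (nat_lit 274))) (XT.nd (nat_lit 78) (nat_lit 76) (nat_lit 0) (XT.lf (nat_lit 0) (nat_lit 72825963378) (nat_lit 152) (nat_lit 57741269402) (nat_lit 0) (nat_lit 20178457081) (nat_lit 35) (nat_lit 5) (nat_lit 37) (nat_lit 4) (nat_lit 35) (nat_lit 4) (nat_lit 505) (nat_lit 422)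 (nat_lit 273)) (XT.lf (nat_lit 0) (nat_lit 23266551075) (nat_lit 76) (nat_lit 92777302796) (nat_lit 76) (nat_lit 40128049650) (nat_lit 34) (nat_lit 4) (nat_lit 35) (nat_lit 5) (nat_lit 35) (nat_lit 4) (nat_lit 506) (nat_lit 422) (nat_lit 272))))) (XT.nd (nat_lit 312) (nat_lit 228) (nat_lit 0) (XT.nd (nat_lit 156) (nat_lit 76) (nat_lit 0) (XT.nd (nat_lit 78) (nat_lit 76) (nat_lit 0) (XT.lf (nat_lit 0) (nat_lit 558580328) (nat_lit 152) (nat_lit 51505827139) (nat_lit 76) (nat_lit 109755815747) (nat_lit 33) (nat_lit 5) (nat_lit 35) (nat_lit 5) (nat_lit 34) (nat_lit 4) (nat_lit 507) (nat_lit 422) (nat_lit 271)) (XT.lf (nat_lit 0) (nat_lit 34401523010) (nat_lit 76) (nat_lit 8063854680) (nat_lit 152) (nat_lit 125225969314) (nat_lit 32) (nat_lit 5) (nat_lit 33) (nat_lit 5) (nat_lit 34) (nat_lit 4) (nat_lit 508) (nat_lit 422) (nat_lit 270))) (XT.nd (nat_lit 78) (nat_lit 76) (nat_lit 0) (XT.lf (nat_lit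 0) (nat_lit 87946814055) (nat_lit 152) (nat_lit 48035110375) (nat_lit 0) (nat_lit 37800137627) (nat_lit 32) (nat_lit 5) (nat_lit 34) (nat_lit 4) (nat_lit 32) (nat_lit 4) (nat_lit 509) (nat_lit 422) (nat_lit 269)) (XT.lf (nat_lit 0) (nat_lit 42712070831) (nat_lit 76) (nat_lit 93786731591) (nat_lit 76) (nat_lit 43638686460) (nat_lit 31) (nat_lit 4) (nat_lit 32) (nat_lit 5) (nat_lit 32) (nat_lit 4) (nat_lit 510) (nat_lit 422) (nat_lit 268)))) (XT.nd (nat_lit 156) (nat_lit 76) (nat_lit 0) (XT.nd (nat_lit 78) (nat_lit 76) (nat_lit 0) (XT.lf (nat_lit 0) (nat_lit 1470599237) (nat_lit 152) (nat_lit 47134620220) (nat_lit 76) (nat_lit 138163733042) (nat_lit 30) (nat_lit 5) (nat_lit 32) (nat_lit 5) (nat_lit 31) (nat_lit 4) (nat_lit 511) (nat_lit 422) (nat_lit 267)) (XT.lf (nat_lit 0) (nat_lit 48129544160) (nat_lit 152) (nat_lit 145161561309) (nat_lit 0) (nat_lit 367077389) (nat_lit 29) (nat_lit 5) (nat_lit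 31) (nat_lit 4) (nat_lit 29) (nat_lit 4) (nat_lit 512) (nat_lit 422) (nat_lit 266))) (XT.nd (nat_lit 78) (nat_lit 76) (nat_lit 0) (XT.lf (nat_lit 0) (nat_lit 98727135838) (nat_lit 152) (nat_lit 51120910914) (nat_lit 0) (nat_lit 50963543032) (nat_lit 29) (nat_lit 5) (nat_lit 31) (nat_lit 4) (nat_lit 29) (nat_lit 4) (nat_lit 513) (nat_lit 422) (nat_lit 265)) (XT.lf (nat_lit 0) (nat_lit 49191553052) (nat_lit 76) (nat_lit 103428747292) (nat_lit 76) (nat_lit 55664082072) (nat_lit 28) (nat_lit 4) (nat_lit 29) (nat_lit 5) (nat_lit 29) (nat_lit 4) (nat_lit 514) (nat_lit 422) (nat_lit 264))))))) (XT.nd (nat_lit 1170) (nat_lit 608) (nat_lit 0) (XT.nd (nat_lit 546) (nat_lit 304) (nat_lit 0) (XT.nd (nat_lit 234) (nat_lit 228) (nat_lit 0) (XT.nd (nat_lit 78) (nat_lit 152) (nat_lit 0) (XT.lf (nat_lit 0) (nat_lit 156289862052) (nat_lit 76) (nat_lit 53781732813) (nat_lit 76) (nat_lit 6016046246) (nat_lit 28)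 (nat_lit 4) (nat_lit 29) (nat_lit 5) (nat_lit 29) (nat_lit 4) (nat_lit 515) (nat_lit 422) (nat_lit 263)) (XT.nd (nat_lit 78) (nat_lit 0) (nat_lit 0) (XT.lf (nat_lit 0) (nat_lit 45183776089) (nat_lit 76) (nat_lit 157899699) (nat_lit 152) (nat_lit 178868226582) (nat_lit 26) (nat_lit 5) (nat_lit 27) (nat_lit 5) (nat_lit 28) (nat_lit 4) (nat_lit 516) (nat_lit 422) (nat_lit 262)) (XT.lf (nat_lit 0) (nat_lit 100968815928) (nat_lit 152) (nat_lit 76193466868) (nat_lit 0) (nat_lit 55475877196) (nat_lit 26) (nat_lit 5) (nat_lit 28) (nat_lit 4) (nat_lit 26) (nat_lit 4) (nat_lit 517) (nat_lit 422) (nat_lit 261)))) (XT.nd (nat_lit 156) (nat_lit 152) (nat_lit 0) (XT.nd (nat_lit 78) (nat_lit 0) (nat_lit 0) (XT.lf (nat_lit 0) (nat_lit 32824601762) (nat_lit 76) (nat_lit 127065679666) (nat_lit 76) (nat_lit 81571900669) (nat_lit 25) (nat_lit 4) (nat_lit 26) (nat_lit 5) (nat_lit 26) (nat_lit 4) (nat_lit 518) (nat_lit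 422) (nat_lit 260)) (XT.lf (nat_lit 0) (nat_lit 149934679648) (nat_lit 76) (nat_lit 73111444854) (nat_lit 76) (nat_lit 27616865606) (nat_lit 25) (nat_lit 4) (nat_lit 26) (nat_lit 5) (nat_lit 26) (nat_lit 4) (nat_lit 519) (nat_lit 422) (nat_lit 259))) (XT.nd (nat_lit 78) (nat_lit 0) (nat_lit 0) (XT.lf (nat_lit 0) (nat_lit 12519774299) (nat_lit 76) (nat_lit 15780282135) (nat_lit 152) (nat_lit 231991442193) (nat_lit 23) (nat_lit 5) (nat_lit 24) (nat_lit 5) (nat_lit 25) (nat_lit 4) (nat_lit 520) (nat_lit 422) (nat_lit 258)) (XT.lf (nat_lit 0) (nat_lit 88510045120) (nat_lit 152) (nat_lit 136567027009) (nat_lit 0) (nat_lit 45180457268) (nat_lit 23) (nat_lit 5) (nat_lit 25) (nat_lit 4) (nat_lit 23) (nat_lit 4) (nat_lit 521) (nat_lit 422) (nat_lit 257))))) (XT.nd (nat_lit 312) (nat_lit 76) (nat_lit 0) (XT.nd (nat_lit 156) (nat_lit 152) (nat_lit 0) (XT.nd (nat_lit 78) (nat_lit 76) (nat_lit 0) (XT.lf (nat_lit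 0) (nat_lit 151987321299) (nat_lit 152) (nat_lit 20064625939) (nat_lit 0) (nat_lit 108657075077) (nat_lit 23) (nat_lit 5) (nat_lit 25) (nat_lit 4) (nat_lit 23) (nat_lit 4) (nat_lit 522) (nat_lit 422) (nat_lit 256)) (XT.lf (nat_lit 0) (nat_lit 105640392267) (nat_lit 76) (nat_lit 114645597227) (nat_lit 76) (nat_lit 71314723987) (nat_lit 22) (nat_lit 4) (nat_lit 23) (nat_lit 5) (nat_lit 23) (nat_lit 4) (nat_lit 523) (nat_lit 422) (nat_lit 255))) (XT.nd (nat_lit 78) (nat_lit 152) (nat_lit 0) (XT.lf (nat_lit 0) (nat_lit 238323663637) (nat_lit 76) (nat_lit 54013947489) (nat_lit 76) (nat_lit 10682477089) (nat_lit 22) (nat_lit 4) (nat_lit 23) (nat_lit 5) (nat_lit 23) (nat_lit 4) (nat_lit 524) (nat_lit 422) (nat_lit 254)) (XT.lf (nat_lit 0) (nat_lit 52461220154) (nat_lit 152) (nat_lit 251256462033) (nat_lit 0) (nat_lit 11192611464) (nat_lit 20) (nat_lit 5) (nat_lit 22) (nat_lit 4) (nat_lit 20) (nat_lit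 4) (nat_lit 525) (nat_lit 422) (nat_lit 253)))) (XT.nd (nat_lit 156) (nat_lit 0) (nat_lit 0) (XT.nd (nat_lit 78) (nat_lit 76) (nat_lit 0) (XT.lf (nat_lit 0) (nat_lit 120400477258) (nat_lit 152) (nat_lit 127754554449) (nat_lit 0) (nat_lit 79131352719) (nat_lit 20) (nat_lit 5) (nat_lit 22) (nat_lit 4) (nat_lit 20) (nat_lit 4) (nat_lit 526) (nat_lit 422) (nat_lit 252)) (XT.lf (nat_lit 0) (nat_lit 1982585632) (nat_lit 76) (nat_lit 189783422206) (nat_lit 76) (nat_lit 148513806381) (nat_lit 19) (nat_lit 4) (nat_lit 20) (nat_lit 5) (nat_lit 20) (nat_lit 4) (nat_lit 527) (nat_lit 422) (nat_lit 251))) (XT.nd (nat_lit 78) (nat_lit 0) (nat_lit 0) (XT.lf (nat_lit 0) (nat_lit 142638667883) (nat_lit 76) (nat_lit 126223116438) (nat_lit 76) (nat_lit 84953032722) (nat_lit 19) (nat_lit 4) (nat_lit 20) (nat_lit 5) (nat_lit 20) (nat_lit 4) (nat_lit 528) (nat_lit 422) (nat_lit 250)) (XT.lf (nat_lit 0) (nat_lit 290324445210)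 (nat_lit 76) (nat_lit 59486365538) (nat_lit 76) (nat_lit 18215836212) (nat_lit 19) (nat_lit 4) (nat_lit 20) (nat_lit 5) (nat_lit 20) (nat_lit 4) (nat_lit 529) (nat_lit 422) (nat_lit 249)))))) (XT.nd (nat_lit 624) (nat_lit 228) (nat_lit 0) (XT.nd (nat_lit 312) (nat_lit 152) (nat_lit 0) (XT.nd (nat_lit 156) (nat_lit 76) (nat_lit 0) (XT.nd (nat_lit 78) (nat_lit 0) (nat_lit 0) (XT.lf (nat_lit 0) (nat_lit 51385862502) (nat_lit 152) (nat_lit 319383159512) (nat_lit 0) (nat_lit 12080192296) (nat_lit 17) (nat_lit 5) (nat_lit 19) (nat_lit 4) (nat_lit 17) (nat_lit 4) (nat_lit 530) (nat_lit 422) (nat_lit 248)) (XT.lf (nat_lit 0) (nat_lit 126166669537) (nat_lit 152) (nat_lit 185255135344) (nat_lit 0) (nat_lit 86860614396) (nat_lit 17) (nat_lit 5) (nat_lit 19) (nat_lit 4) (nat_lit 17) (nat_lit 4) (nat_lit 531) (nat_lit 422) (nat_lit 247))) (XT.nd (nat_lit 78) (nat_lit 76) (nat_lit 0) (XT.lf (nat_lit 0) (nat_lit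 204685099487) (nat_lit 152) (nat_lit 44423578141) (nat_lit 0) (nat_lit 165378677742) (nat_lit 17) (nat_lit 5) (nat_lit 19) (nat_lit 4) (nat_lit 17) (nat_lit 4) (nat_lit 532) (nat_lit 422) (nat_lit 246)) (XT.lf (nat_lit 0) (nat_lit 106867244551) (nat_lit 76) (nat_lit 181929353628) (nat_lit 76) (nat_lit 142622582735) (nat_lit 16) (nat_lit 4) (nat_lit 17) (nat_lit 5) (nat_lit 17) (nat_lit 4) (nat_lit 533) (nat_lit 422) (nat_lit 245)))) (XT.nd (nat_lit 156) (nat_lit 76) (nat_lit 0) (XT.nd (nat_lit 78) (nat_lit 76) (nat_lit 0) (XT.lf (nat_lit 0) (nat_lit 267262207165) (nat_lit 76) (nat_lit 110602471816) (nat_lit 76) (nat_lit 71295368402) (nat_lit 16) (nat_lit 4) (nat_lit 17) (nat_lit 5) (nat_lit 17) (nat_lit 4) (nat_lit 534) (nat_lit 422) (nat_lit 244)) (XT.lf (nat_lit 0) (nat_lit 3481756432) (nat_lit 152) (nat_lit 32169819412) (nat_lit 76) (nat_lit 432133636689) (nat_lit 15) (nat_lit 5) (nat_lit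 17) (nat_lit 5) (nat_lit 16) (nat_lit 4) (nat_lit 535) (nat_lit 422) (nat_lit 243))) (XT.nd (nat_lit 78) (nat_lit 0) (nat_lit 0) (XT.lf (nat_lit 0) (nat_lit 82322455196) (nat_lit 152) (nat_lit 359938176686) (nat_lit 0) (nat_lit 44886529761) (nat_lit 14) (nat_lit 5) (nat_lit 16) (nat_lit 4) (nat_lit 14) (nat_lit 4) (nat_lit 536) (nat_lit 422) (nat_lit 242)) (XT.lf (nat_lit 0) (nat_lit 166242160762) (nat_lit 152) (nat_lit 212372237096) (nat_lit 0) (nat_lit 128805961761) (nat_lit 14) (nat_lit 5) (nat_lit 16) (nat_lit 4) (nat_lit 14) (nat_lit 4) (nat_lit 537) (nat_lit 422) (nat_lit 241))))) (XT.nd (nat_lit 312) (nat_lit 152) (nat_lit 0) (XT.nd (nat_lit 156) (nat_lit 0) (nat_lit 0) (XT.nd (nat_lit 78) (nat_lit 76) (nat_lit 0) (XT.lf (nat_lit 0) (nat_lit 254356686853) (nat_lit 152) (nat_lit 57430361571) (nat_lit 0) (nat_lit 216920227313) (nat_lit 14) (nat_lit 5) (nat_lit 16) (nat_lit 4) (nat_lit 14)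 (nat_lit 4) (nat_lit 538) (nat_lit 422) (nat_lit 240)) (XT.lf (nat_lit 0) (nat_lit 108736609699) (nat_lit 76) (nat_lit 239836903472) (nat_lit 76) (nat_lit 202400195800) (nat_lit 13) (nat_lit 4) (nat_lit 14) (nat_lit 5) (nat_lit 14) (nat_lit 4) (nat_lit 539) (nat_lit 422) (nat_lit 239))) (XT.nd (nat_lit 78) (nat_lit 0) (nat_lit 0) (XT.lf (nat_lit 0) (nat_lit 285203569659) (nat_lit 76) (nat_lit 163269131101) (nat_lit 76) (nat_lit 125832187112) (nat_lit 13) (nat_lit 4) (nat_lit 14) (nat_lit 5) (nat_lit 14) (nat_lit 4) (nat_lit 540) (nat_lit 422) (nat_lit 238)) (XT.lf (nat_lit 0) (nat_lit 470491770621) (nat_lit 76) (nat_lit 82874038054) (nat_lit 76) (nat_lit 45436869002) (nat_lit 13) (nat_lit 4) (nat_lit 14) (nat_lit 5) (nat_lit 14) (nat_lit 4) (nat_lit 541) (nat_lit 422) (nat_lit 237)))) (XT.nd (nat_lit 156) (nat_lit 0) (nat_lit 0) (XT.nd (nat_lit 78) (nat_lit 0) (nat_lit 0) (XT.lf (nat_lit 0) (nat_lit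 38417915983) (nat_lit 152) (nat_lit 583279385544) (nat_lit 0) (nat_lit 2763265127) (nat_lit 11) (nat_lit 5) (nat_lit 13) (nat_lit 4) (nat_lit 11) (nat_lit 4) (nat_lit 542) (nat_lit 422) (nat_lit 236)) (XT.lf (nat_lit 0) (nat_lit 128504679495) (nat_lit 152) (nat_lit 429831282231) (nat_lit 0) (nat_lit 92849834221) (nat_lit 11) (nat_lit 5) (nat_lit 13) (nat_lit 4) (nat_lit 11) (nat_lit 4) (nat_lit 543) (nat_lit 422) (nat_lit 235))) (XT.nd (nat_lit 78) (nat_lit 0) (nat_lit 0) (XT.lf (nat_lit 0) (nat_lit 223094823914) (nat_lit 152) (nat_lit 268712717178) (nat_lit 0) (nat_lit 187439793480) (nat_lit 11) (nat_lit 5) (nat_lit 13) (nat_lit 4) (nat_lit 11) (nat_lit 4) (nat_lit 544) (nat_lit 422) (nat_lit 234)) (XT.lf (nat_lit 0) (nat_lit 322413563869) (nat_lit 152) (nat_lit 99540074755) (nat_lit 0) (nat_lit 286758357092) (nat_lit 11) (nat_lit 5) (nat_lit 13) (nat_lit 4) (nat_lit 11) (nat_lit 4) (nat_lit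 545) (nat_lit 422) (nat_lit 233))))))))
noncomputable def xc145 : XT := (XT.nd (nat_lit 54990) (nat_lit 0) (nat_lit 3648) (XT.nd (nat_lit 53742) (nat_lit 0) (nat_lit 7296) (XT.nd (nat_lit 53118) (nat_lit 0) (nat_lit 10488) (XT.nd (nat_lit 234) (nat_lit 0) (nat_lit 0) (XT.nd (nat_lit 78) (nat_lit 0) (nat_lit 0) (XT.lf (nat_lit 0) (nat_lit 80671426494) (nat_lit 76) (nat_lit 347285453105) (nat_lit 76) (nat_lit 311630078382) (nat_lit 10) (nat_lit 4) (nat_lit 11) (nat_lit 5) (nat_lit 11) (nat_lit 4) (nat_lit 546) (nat_lit 422) (nat_lit 232)) (XT.nd (nat_lit 78) (nat_lit 0) (nat_lit 0) (XT.lf (nat_lit 0) (nat_lit 273347575121) (nat_lit 76) (nat_lit 267114691324) (nat_lit 76) (nat_lit 231459156652) (nat_lit 10) (nat_lit 4) (nat_lit 11) (nat_lit 5) (nat_lit 11) (nat_lit 4) (nat_lit 547) (nat_lit 422) (nat_lit 231)) (XT.lf (nat_lit 0) (nat_lit 475655879452) (nat_lit 76) (nat_lit 182936229845) (nat_lit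 76) (nat_lit 147280542842) (nat_lit 10) (nat_lit 4) (nat_lit 11) (nat_lit 5) (nat_lit 11) (nat_lit 4) (nat_lit 548) (nat_lit 422) (nat_lit 230)))) (XT.nd (nat_lit 52728) (nat_lit 0) (nat_lit 10488) (XT.nd (nat_lit 52650) (nat_lit 0) (nat_lit 11248) (XT.lf (nat_lit 0) (nat_lit 688078025926) (nat_lit 76) (nat_lit 94549643760) (nat_lit 76) (nat_lit 58893811680) (nat_lit 10) (nat_lit 4) (nat_lit 11) (nat_lit 5) (nat_lit 11) (nat_lit 4) (nat_lit 549) (nat_lit 422) (nat_lit 229)) (XT.lf (nat_lit 0) (nat_lit 3058486689) (nat_lit 0) (nat_lit 3058486689) (nat_lit 684) (nat_lit 260943164) (nat_lit 158) (nat_lit 5) (nat_lit 158) (nat_lit 3) (nat_lit 167) (nat_lit 3) (nat_lit 423) (nat_lit 423) (nat_lit 354))) (XT.nd (nat_lit 78) (nat_lit 760) (nat_lit 0) (XT.lf (nat_lit 0) (nat_lit 12749125486) (nat_lit 0) (nat_lit 197271371) (nat_lit 684) (nat_lit 107934855) (nat_lit 158) (nat_lit 5) (nat_lit 158) (nat_lit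 3) (nat_lit 167) (nat_lit 3) (nat_lit 424) (nat_lit 423) (nat_lit 353)) (XT.lf (nat_lit 0) (nat_lit 487750182) (nat_lit 760) (nat_lit 6924335427) (nat_lit 836) (nat_lit 5946844063) (nat_lit 148) (nat_lit 5) (nat_lit 158) (nat_lit 5) (nat_lit 159) (nat_lit 5) (nat_lit 425) (nat_lit 423) (nat_lit 352))))) (XT.nd (nat_lit 312) (nat_lit 0) (nat_lit 152) (XT.nd (nat_lit 156) (nat_lit 0) (nat_lit 76) (XT.nd (nat_lit 78) (nat_lit 0) (nat_lit 76) (XT.lf (nat_lit 0) (nat_lit 1092851111) (nat_lit 760) (nat_lit 176732866) (nat_lit 836) (nat_lit 12409926031) (nat_lit 148) (nat_lit 5) (nat_lit 158) (nat_lit 5) (nat_lit 159) (nat_lit 5) (nat_lit 426) (nat_lit 423) (nat_lit 351)) (XT.lf (nat_lit 0) (nat_lit 1898218925) (nat_lit 760) (nat_lit 6972827619) (nat_lit 836) (nat_lit 5136575937) (nat_lit 149) (nat_lit 5) (nat_lit 159) (nat_lit 5) (nat_lit 160) (nat_lit 5) (nat_lit 427) (nat_lit 423) (nat_lit 350)))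 (XT.nd (nat_lit 78) (nat_lit 0) (nat_lit 76) (XT.lf (nat_lit 76) (nat_lit 232139834) (nat_lit 0) (nat_lit 2516229725) (nat_lit 836) (nat_lit 11603548832) (nat_lit 150) (nat_lit 5) (nat_lit 149) (nat_lit 5) (nat_lit 160) (nat_lit 5) (nat_lit 428) (nat_lit 423) (nat_lit 349)) (XT.lf (nat_lit 0) (nat_lit 3803942257) (nat_lit 760) (nat_lit 6751354774) (nat_lit 836) (nat_lit 4149989708) (nat_lit 150) (nat_lit 5) (nat_lit 160) (nat_lit 5) (nat_lit 161) (nat_lit 5) (nat_lit 429) (nat_lit 423) (nat_lit 348)))) (XT.nd (nat_lit 156) (nat_lit 0) (nat_lit 76) (XT.nd (nat_lit 78) (nat_lit 0) (nat_lit 76) (XT.lf (nat_lit 76) (nat_lit 959287752) (nat_lit 0) (nat_lit 3988278885) (nat_lit 836) (nat_lit 10126996420) (nat_lit 151) (nat_lit 5) (nat_lit 150) (nat_lit 5) (nat_lit 161) (nat_lit 5) (nat_lit 430) (nat_lit 423) (nat_lit 347)) (XT.lf (nat_lit 0) (nat_lit 6289850258) (nat_lit 760) (nat_lit 6230485502) (nat_lit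 836) (nat_lit 2934896584) (nat_lit 151) (nat_lit 5) (nat_lit 161) (nat_lit 5) (nat_lit 162) (nat_lit 5) (nat_lit 431) (nat_lit 423) (nat_lit 346))) (XT.nd (nat_lit 78) (nat_lit 0) (nat_lit 76) (XT.lf (nat_lit 76) (nat_lit 2032509282) (nat_lit 0) (nat_lit 5744690090) (nat_lit 836) (nat_lit 8073841066) (nat_lit 152) (nat_lit 5) (nat_lit 151) (nat_lit 5) (nat_lit 162) (nat_lit 5) (nat_lit 432) (nat_lit 423) (nat_lit 345)) (XT.lf (nat_lit 0) (nat_lit 9449102722) (nat_lit 760) (nat_lit 5375943546) (nat_lit 76) (nat_lit 1436086100) (nat_lit 152) (nat_lit 5) (nat_lit 162) (nat_lit 5) (nat_lit 153) (nat_lit 5) (nat_lit 433) (nat_lit 423) (nat_lit 344)))))) (XT.nd (nat_lit 624) (nat_lit 1216) (nat_lit 0) (XT.nd (nat_lit 312) (nat_lit 1064) (nat_lit 0) (XT.nd (nat_lit 156) (nat_lit 456) (nat_lit 0) (XT.nd (nat_lit 78) (nat_lit 0) (nat_lit 0) (XT.lf (nat_lit 0) (nat_lit 3490676508) (nat_lit 760) (nat_lit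 7845032812) (nat_lit 836) (nat_lit 5349466808) (nat_lit 142) (nat_lit 5) (nat_lit 152) (nat_lit 5) (nat_lit 153) (nat_lit 5) (nat_lit 434) (nat_lit 423) (nat_lit 343)) (XT.lf (nat_lit 0) (nat_lit 12971875389) (nat_lit 760) (nat_lit 418844827) (nat_lit 836) (nat_lit 3736000673) (nat_lit 142) (nat_lit 5) (nat_lit 152) (nat_lit 5) (nat_lit 153) (nat_lit 5) (nat_lit 435) (nat_lit 423) (nat_lit 342))) (XT.nd (nat_lit 78) (nat_lit 76) (nat_lit 0) (XT.lf (nat_lit 0) (nat_lit 5378233167) (nat_lit 380) (nat_lit 10353280553) (nat_lit 456) (nat_lit 1849679960) (nat_lit 137) (nat_lit 5) (nat_lit 142) (nat_lit 5) (nat_lit 143) (nat_lit 5) (nat_lit 436) (nat_lit 423) (nat_lit 341)) (XT.lf (nat_lit 0) (nat_lit 189283250) (nat_lit 456) (nat_lit 2548494338) (nat_lit 76) (nat_lit 15317386567) (nat_lit 136) (nat_lit 5) (nat_lit 142) (nat_lit 5) (nat_lit 137) (nat_lit 5) (nat_lit 437) (nat_lit 423) (nat_lit 340))))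 (XT.nd (nat_lit 156) (nat_lit 684) (nat_lit 0) (XT.nd (nat_lit 78) (nat_lit 0) (nat_lit 0) (XT.lf (nat_lit 0) (nat_lit 2459182503) (nat_lit 456) (nat_lit 10837814082) (nat_lit 76) (nat_lit 5244765040) (nat_lit 131) (nat_lit 5) (nat_lit 137) (nat_lit 5) (nat_lit 132) (nat_lit 5) (nat_lit 438) (nat_lit 423) (nat_lit 339)) (XT.lf (nat_lit 0) (nat_lit 4916701549) (nat_lit 456) (nat_lit 554138663) (nat_lit 76) (nat_lit 13578144486) (nat_lit 131) (nat_lit 5) (nat_lit 137) (nat_lit 5) (nat_lit 132) (nat_lit 5) (nat_lit 439) (nat_lit 423) (nat_lit 338))) (XT.nd (nat_lit 78) (nat_lit 304) (nat_lit 0) (XT.lf (nat_lit 0) (nat_lit 7693725723) (nat_lit 456) (nat_lit 9052425759) (nat_lit 76) (nat_lit 2825587858) (nat_lit 126) (nat_lit 5) (nat_lit 132) (nat_lit 5) (nat_lit 127) (nat_lit 5) (nat_lit 440) (nat_lit 423) (nat_lit 337)) (XT.lf (nat_lit 0) (nat_lit 2004644312) (nat_lit 304) (nat_lit 8721971490) (nat_lit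 380) (nat_lit 9388166962) (nat_lit 122) (nat_lit 5) (nat_lit 126) (nat_lit 5) (nat_lit 127) (nat_lit 5) (nat_lit 441) (nat_lit 423) (nat_lit 336))))) (XT.nd (nat_lit 312) (nat_lit 532) (nat_lit 0) (XT.nd (nat_lit 156) (nat_lit 380) (nat_lit 0) (XT.nd (nat_lit 78) (nat_lit 304) (nat_lit 0) (XT.lf (nat_lit 0) (nat_lit 13913901222) (nat_lit 304) (nat_lit 137458469) (nat_lit 380) (nat_lit 6626609905) (nat_lit 122) (nat_lit 5) (nat_lit 126) (nat_lit 5) (nat_lit 127) (nat_lit 5) (nat_lit 442) (nat_lit 423) (nat_lit 335)) (XT.lf (nat_lit 0) (nat_lit 5161075697) (nat_lit 304) (nat_lit 12587925860) (nat_lit 380) (nat_lit 3509982791) (nat_lit 118) (nat_lit 5) (nat_lit 122) (nat_lit 5) (nat_lit 123) (nat_lit 5) (nat_lit 443) (nat_lit 423) (nat_lit 334))) (XT.nd (nat_lit 78) (nat_lit 380) (nat_lit 0) (XT.lf (nat_lit 0) (nat_lit 17900388907) (nat_lit 304) (nat_lit 3835772245) (nat_lit 380) (nat_lit 127658447)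 (nat_lit 118) (nat_lit 5) (nat_lit 122) (nat_lit 5) (nat_lit 123) (nat_lit 5) (nat_lit 444) (nat_lit 423) (nat_lit 333)) (XT.lf (nat_lit 0) (nat_lit 3529667204) (nat_lit 380) (nat_lit 13578497872) (nat_lit 76) (nat_lit 5377286820) (nat_lit 113) (nat_lit 5) (nat_lit 118) (nat_lit 5) (nat_lit 114) (nat_lit 5) (nat_lit 445) (nat_lit 423) (nat_lit 332)))) (XT.nd (nat_lit 156) (nat_lit 228) (nat_lit 0) (XT.nd (nat_lit 78) (nat_lit 304) (nat_lit 0) (XT.lf (nat_lit 0) (nat_lit 7485224750) (nat_lit 380) (nat_lit 657013060) (nat_lit 76) (nat_lit 14989841903) (nat_lit 113) (nat_lit 5) (nat_lit 118) (nat_lit 5) (nat_lit 114) (nat_lit 5) (nat_lit 446) (nat_lit 423) (nat_lit 331)) (XT.lf (nat_lit 0) (nat_lit 11858889742) (nat_lit 380) (nat_lit 10501333272) (nat_lit 76) (nat_lit 1439800696) (nat_lit 109) (nat_lit 5) (nat_lit 114) (nat_lit 5) (nat_lit 110) (nat_lit 5) (nat_lit 447) (nat_lit 423) (nat_lit 330)))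 (XT.nd (nat_lit 78) (nat_lit 0) (nat_lit 0) (XT.lf (nat_lit 0) (nat_lit 3436351071) (nat_lit 228) (nat_lit 13202680827) (nat_lit 304) (nat_lit 7852944522) (nat_lit 106) (nat_lit 5) (nat_lit 109) (nat_lit 5) (nat_lit 110) (nat_lit 5) (nat_lit 448) (nat_lit 423) (nat_lit 329)) (XT.lf (nat_lit 0) (nat_lit 18421578013) (nat_lit 228) (nat_lit 3404092148) (nat_lit 304) (nat_lit 3384483306) (nat_lit 106) (nat_lit 5) (nat_lit 109) (nat_lit 5) (nat_lit 110) (nat_lit 5) (nat_lit 449) (nat_lit 423) (nat_lit 328))))))) (XT.nd (nat_lit 1170) (nat_lit 1596) (nat_lit 0) (XT.nd (nat_lit 546) (nat_lit 1064) (nat_lit 0) (XT.nd (nat_lit 234) (nat_lit 456) (nat_lit 0) (XT.nd (nat_lit 78) (nat_lit 228) (nat_lit 0) (XT.lf (nat_lit 0) (nat_lit 1497029088) (nat_lit 304) (nat_lit 17639507851) (nat_lit 76) (nat_lit 6815109206) (nat_lit 102) (nat_lit 5) (nat_lit 106) (nat_lit 5) (nat_lit 103) (nat_lit 5) (nat_lit 450)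 (nat_lit 423) (nat_lit 327)) (XT.nd (nat_lit 78) (nat_lit 228) (nat_lit 0) (XT.lf (nat_lit 0) (nat_lit 6671719956) (nat_lit 304) (nat_lit 2447872970) (nat_lit 76) (nat_lit 17599705175) (nat_lit 102) (nat_lit 5) (nat_lit 106) (nat_lit 5) (nat_lit 103) (nat_lit 5) (nat_lit 451) (nat_lit 423) (nat_lit 326)) (XT.lf (nat_lit 0) (nat_lit 12338720196) (nat_lit 304) (nat_lit 13604018028) (nat_lit 76) (nat_lit 1570916635) (nat_lit 99) (nat_lit 5) (nat_lit 103) (nat_lit 5) (nat_lit 100) (nat_lit 5) (nat_lit 452) (nat_lit 423) (nat_lit 325)))) (XT.nd (nat_lit 156) (nat_lit 228) (nat_lit 0) (XT.nd (nat_lit 78) (nat_lit 0) (nat_lit 0) (XT.lf (nat_lit 0) (nat_lit 2748814739) (nat_lit 228) (nat_lit 15765646351) (nat_lit 304) (nat_lit 9821999735) (nat_lit 96) (nat_lit 5) (nat_lit 99) (nat_lit 5) (nat_lit 100) (nat_lit 5) (nat_lit 453) (nat_lit 423) (nat_lit 324)) (XT.lf (nat_lit 0) (nat_lit 20378471532) (nat_lit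 228) (nat_lit 4841976549) (nat_lit 304) (nat_lit 3968886915) (nat_lit 96) (nat_lit 5) (nat_lit 99) (nat_lit 5) (nat_lit 100) (nat_lit 5) (nat_lit 454) (nat_lit 423) (nat_lit 323))) (XT.nd (nat_lit 78) (nat_lit 0) (nat_lit 0) (XT.lf (nat_lit 0) (nat_lit 2346107212) (nat_lit 228) (nat_lit 21135242378) (nat_lit 76) (nat_lit 6589859729) (nat_lit 93) (nat_lit 5) (nat_lit 96) (nat_lit 5) (nat_lit 94) (nat_lit 5) (nat_lit 455) (nat_lit 423) (nat_lit 322)) (XT.lf (nat_lit 0) (nat_lit 9066013720) (nat_lit 228) (nat_lit 3273502807) (nat_lit 76) (nat_lit 18643281223) (nat_lit 93) (nat_lit 5) (nat_lit 96) (nat_lit 5) (nat_lit 94) (nat_lit 5) (nat_lit 456) (nat_lit 423) (nat_lit 321))))) (XT.nd (nat_lit 312) (nat_lit 380) (nat_lit 0) (XT.nd (nat_lit 156) (nat_lit 304) (nat_lit 0) (XT.nd (nat_lit 78) (nat_lit 152) (nat_lit 0) (XT.lf (nat_lit 0) (nat_lit 15980482938) (nat_lit 228) (nat_lit 382841529) (nat_lit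 304) (nat_lit 15564571396) (nat_lit 90) (nat_lit 5) (nat_lit 93) (nat_lit 5) (nat_lit 94) (nat_lit 5) (nat_lit 457) (nat_lit 423) (nat_lit 320)) (XT.lf (nat_lit 0) (nat_lit 3295424208) (nat_lit 152) (nat_lit 21019947344) (nat_lit 228) (nat_lit 8590384463) (nat_lit 88) (nat_lit 5) (nat_lit 90) (nat_lit 5) (nat_lit 91) (nat_lit 5) (nat_lit 458) (nat_lit 423) (nat_lit 319))) (XT.nd (nat_lit 78) (nat_lit 304) (nat_lit 0) (XT.lf (nat_lit 0) (nat_lit 24035331598) (nat_lit 152) (nat_lit 8898168288) (nat_lit 228) (nat_lit 985585984) (nat_lit 88) (nat_lit 5) (nat_lit 90) (nat_lit 5) (nat_lit 91) (nat_lit 5) (nat_lit 459) (nat_lit 423) (nat_lit 318)) (XT.lf (nat_lit 0) (nat_lit 7004956946) (nat_lit 304) (nat_lit 23971694033) (nat_lit 76) (nat_lit 3989491232) (nat_lit 84) (nat_lit 5) (nat_lit 88) (nat_lit 5) (nat_lit 85) (nat_lit 5) (nat_lit 460) (nat_lit 423) (nat_lit 317)))) (XT.nd (nat_lit 156) (nat_lit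 228) (nat_lit 0) (XT.nd (nat_lit 78) (nat_lit 152) (nat_lit 0) (XT.lf (nat_lit 0) (nat_lit 15670488858) (nat_lit 304) (nat_lit 2974272529) (nat_lit 76) (nat_lit 17404553478) (nat_lit 84) (nat_lit 5) (nat_lit 88) (nat_lit 5) (nat_lit 85) (nat_lit 5) (nat_lit 461) (nat_lit 423) (nat_lit 316)) (XT.lf (nat_lit 0) (nat_lit 19691834042) (nat_lit 152) (nat_lit 5377843449) (nat_lit 228) (nat_lit 12101950182) (nat_lit 82) (nat_lit 5) (nat_lit 84) (nat_lit 5) (nat_lit 85) (nat_lit 5) (nat_lit 462) (nat_lit 423) (nat_lit 315))) (XT.nd (nat_lit 78) (nat_lit 76) (nat_lit 0) (XT.lf (nat_lit 0) (nat_lit 5269739268) (nat_lit 152) (nat_lit 29929113345) (nat_lit 228) (nat_lit 3138202658) (nat_lit 80) (nat_lit 5) (nat_lit 82) (nat_lit 5) (nat_lit 83) (nat_lit 5) (nat_lit 463) (nat_lit 423) (nat_lit 314)) (XT.lf (nat_lit 0) (nat_lit 6455047111) (nat_lit 228) (nat_lit 9984893993) (nat_lit 76) (nat_lit 23096810398)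 (nat_lit 79) (nat_lit 5) (nat_lit 82) (nat_lit 5) (nat_lit 80) (nat_lit 5) (nat_lit 464) (nat_lit 423) (nat_lit 313)))))) (XT.nd (nat_lit 624) (nat_lit 760) (nat_lit 0) (XT.nd (nat_lit 312) (nat_lit 304) (nat_lit 0) (XT.nd (nat_lit 156) (nat_lit 380) (nat_lit 0) (XT.nd (nat_lit 78) (nat_lit 0) (nat_lit 0) (XT.lf (nat_lit 0) (nat_lit 14658328738) (nat_lit 152) (nat_lit 1986424434) (nat_lit 228) (nat_lit 24137994611) (nat_lit 77) (nat_lit 5) (nat_lit 79) (nat_lit 5) (nat_lit 80) (nat_lit 5) (nat_lit 465) (nat_lit 423) (nat_lit 312)) (XT.lf (nat_lit 0) (nat_lit 27715221410) (nat_lit 228) (nat_lit 1422033720) (nat_lit 76) (nat_lit 12935225316) (nat_lit 77) (nat_lit 5) (nat_lit 80) (nat_lit 5) (nat_lit 78) (nat_lit 5) (nat_lit 466) (nat_lit 423) (nat_lit 311))) (XT.nd (nat_lit 78) (nat_lit 228) (nat_lit 0) (XT.lf (nat_lit 0) (nat_lit 25281492158) (nat_lit 152) (nat_lit 14478787326) (nat_lit 228) (nat_lit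 3645367331) (nat_lit 75) (nat_lit 5) (nat_lit 77) (nat_lit 5) (nat_lit 78) (nat_lit 5) (nat_lit 467) (nat_lit 423) (nat_lit 310)) (XT.lf (nat_lit 0) (nat_lit 7531916325) (nat_lit 228) (nat_lit 36096059593) (nat_lit 76) (nat_lit 1162905791) (nat_lit 72) (nat_lit 5) (nat_lit 75) (nat_lit 5) (nat_lit 73) (nat_lit 5) (nat_lit 468) (nat_lit 423) (nat_lit 309)))) (XT.nd (nat_lit 156) (nat_lit 152) (nat_lit 0) (XT.nd (nat_lit 78) (nat_lit 152) (nat_lit 0) (XT.lf (nat_lit 0) (nat_lit 19688769304) (nat_lit 228) (nat_lit 9058879939) (nat_lit 76) (nat_lit 17467580768) (nat_lit 72) (nat_lit 5) (nat_lit 75) (nat_lit 5) (nat_lit 73) (nat_lit 5) (nat_lit 469) (nat_lit 423) (nat_lit 308)) (XT.lf (nat_lit 0) (nat_lit 19958796251) (nat_lit 152) (nat_lit 12800455768) (nat_lit 228) (nat_lit 14936254679) (nat_lit 70) (nat_lit 5) (nat_lit 72) (nat_lit 5) (nat_lit 73) (nat_lit 5) (nat_lit 470) (nat_lit 423) (nat_lit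 307))) (XT.nd (nat_lit 78) (nat_lit 76) (nat_lit 0) (XT.lf (nat_lit 0) (nat_lit 1472548054) (nat_lit 76) (nat_lit 45245439792) (nat_lit 152) (nat_lit 2520073233) (nat_lit 69) (nat_lit 5) (nat_lit 70) (nat_lit 5) (nat_lit 71) (nat_lit 4) (nat_lit 471) (nat_lit 423) (nat_lit 306)) (XT.lf (nat_lit 0) (nat_lit 10861842223) (nat_lit 152) (nat_lit 18121022029) (nat_lit 76) (nat_lit 21832592680) (nat_lit 68) (nat_lit 5) (nat_lit 70) (nat_lit 5) (nat_lit 69) (nat_lit 5) (nat_lit 472) (nat_lit 423) (nat_lit 305))))) (XT.nd (nat_lit 312) (nat_lit 304) (nat_lit 0) (XT.nd (nat_lit 156) (nat_lit 304) (nat_lit 0) (XT.nd (nat_lit 78) (nat_lit 0) (nat_lit 0) (XT.lf (nat_lit 0) (nat_lit 13382958754) (nat_lit 152) (nat_lit 11648676112) (nat_lit 228) (nat_lit 27427848725) (nat_lit 66) (nat_lit 5) (nat_lit 68) (nat_lit 5) (nat_lit 69) (nat_lit 5) (nat_lit 473) (nat_lit 423) (nat_lit 304)) (XT.lf (nat_lit 0) (nat_lit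 40318706310) (nat_lit 228) (nat_lit 7196242205) (nat_lit 76) (nat_lit 6650323862) (nat_lit 66) (nat_lit 5) (nat_lit 69) (nat_lit 5) (nat_lit 67) (nat_lit 4) (nat_lit 474) (nat_lit 423) (nat_lit 303))) (XT.nd (nat_lit 78) (nat_lit 152) (nat_lit 0) (XT.lf (nat_lit 0) (nat_lit 1016878664) (nat_lit 152) (nat_lit 29002429266) (nat_lit 76) (nat_lit 25905902813) (nat_lit 64) (nat_lit 5) (nat_lit 66) (nat_lit 5) (nat_lit 65) (nat_lit 5) (nat_lit 475) (nat_lit 423) (nat_lit 302)) (XT.lf (nat_lit 0) (nat_lit 5157256742) (nat_lit 152) (nat_lit 11200141807) (nat_lit 228) (nat_lit 41394436137) (nat_lit 62) (nat_lit 5) (nat_lit 64) (nat_lit 5) (nat_lit 65) (nat_lit 5) (nat_lit 476) (nat_lit 423) (nat_lit 301)))) (XT.nd (nat_lit 156) (nat_lit 228) (nat_lit 0) (XT.nd (nat_lit 78) (nat_lit 76) (nat_lit 0) (XT.lf (nat_lit 0) (nat_lit 33092697850) (nat_lit 228) (nat_lit 17764497594) (nat_lit 76) (nat_lit 8781206920)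 (nat_lit 62) (nat_lit 5) (nat_lit 65) (nat_lit 5) (nat_lit 63) (nat_lit 4) (nat_lit 477) (nat_lit 423) (nat_lit 300)) (XT.lf (nat_lit 0) (nat_lit 19230010814) (nat_lit 76) (nat_lit 31913724031) (nat_lit 152) (nat_lit 10451615143) (nat_lit 61) (nat_lit 5) (nat_lit 62) (nat_lit 5) (nat_lit 63) (nat_lit 4) (nat_lit 478) (nat_lit 423) (nat_lit 299))) (XT.nd (nat_lit 78) (nat_lit 152) (nat_lit 0) (XT.lf (nat_lit 0) (nat_lit 6541756542) (nat_lit 152) (nat_lit 5058668985) (nat_lit 76) (nat_lit 52029640327) (nat_lit 60) (nat_lit 5) (nat_lit 62) (nat_lit 5) (nat_lit 61) (nat_lit 5) (nat_lit 479) (nat_lit 423) (nat_lit 298)) (XT.lf (nat_lit 0) (nat_lit 24739854351) (nat_lit 228) (nat_lit 30838972936) (nat_lit 76) (nat_lit 10143808486) (nat_lit 58) (nat_lit 5) (nat_lit 61) (nat_lit 5) (nat_lit 59) (nat_lit 4) (nat_lit 480) (nat_lit 423) (nat_lit 297))))))))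
noncomputable def xc146 : XT := (XT.nd (nat_lit 2418) (nat_lit 1368) (nat_lit 0) (XT.nd (nat_lit 1170) (nat_lit 988) (nat_lit 0) (XT.nd (nat_lit 546) (nat_lit 532) (nat_lit 0) (XT.nd (nat_lit 234) (nat_lit 228) (nat_lit 0) (XT.nd (nat_lit 78) (nat_lit 228) (nat_lit 0) (XT.lf (nat_lit 0) (nat_lit 9176758525) (nat_lit 76) (nat_lit 35087025141) (nat_lit 152) (nat_lit 23635254354) (nat_lit 57) (nat_lit 5) (nat_lit 58) (nat_lit 5) (nat_lit 59) (nat_lit 4) (nat_lit 481) (nat_lit 423) (nat_lit 296)) (XT.nd (nat_lit 78) (nat_lit 228) (nat_lit 0) (XT.lf (nat_lit 0) (nat_lit 52255508339) (nat_lit 76) (nat_lit 13026166588) (nat_lit 152) (nat_lit 4876697333) (nat_lit 57) (nat_lit 5) (nat_lit 58) (nat_lit 5) (nat_lit 59) (nat_lit 4) (nat_lit 482) (nat_lit 423) (nat_lit 295)) (XT.lf (nat_lit 0) (nat_lit 14908323231) (nat_lit 228) (nat_lit 47132675513) (nat_lit 76) (nat_lit 10449962616) (nat_lit 54) (nat_lit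 5) (nat_lit 57) (nat_lit 5) (nat_lit 55) (nat_lit 4) (nat_lit 483) (nat_lit 423) (nat_lit 294)))) (XT.nd (nat_lit 156) (nat_lit 152) (nat_lit 0) (XT.nd (nat_lit 78) (nat_lit 76) (nat_lit 0) (XT.lf (nat_lit 0) (nat_lit 36036073848) (nat_lit 228) (nat_lit 3827634623) (nat_lit 76) (nat_lit 35046605885) (nat_lit 54) (nat_lit 5) (nat_lit 57) (nat_lit 5) (nat_lit 55) (nat_lit 4) (nat_lit 484) (nat_lit 423) (nat_lit 293)) (XT.lf (nat_lit 0) (nat_lit 43011490284) (nat_lit 76) (nat_lit 15876118536) (nat_lit 152) (nat_lit 18529656468) (nat_lit 53) (nat_lit 5) (nat_lit 54) (nat_lit 5) (nat_lit 55) (nat_lit 4) (nat_lit 485) (nat_lit 423) (nat_lit 292))) (XT.nd (nat_lit 78) (nat_lit 0) (nat_lit 0) (XT.lf (nat_lit 0) (nat_lit 3150815518) (nat_lit 152) (nat_lit 67554465352) (nat_lit 76) (nat_lit 9321606845) (nat_lit 51) (nat_lit 5) (nat_lit 53) (nat_lit 5) (nat_lit 52) (nat_lit 4) (nat_lit 486) (nat_lit 423)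 (nat_lit 291)) (XT.lf (nat_lit 0) (nat_lit 26140984582) (nat_lit 152) (nat_lit 20430252533) (nat_lit 76) (nat_lit 36138146444) (nat_lit 51) (nat_lit 5) (nat_lit 53) (nat_lit 5) (nat_lit 52) (nat_lit 4) (nat_lit 487) (nat_lit 423) (nat_lit 290))))) (XT.nd (nat_lit 312) (nat_lit 228) (nat_lit 0) (XT.nd (nat_lit 156) (nat_lit 228) (nat_lit 0) (XT.nd (nat_lit 78) (nat_lit 0) (nat_lit 0) (XT.lf (nat_lit 0) (nat_lit 30002992726) (nat_lit 76) (nat_lit 20742192222) (nat_lit 152) (nat_lit 34757593211) (nat_lit 50) (nat_lit 5) (nat_lit 51) (nat_lit 5) (nat_lit 52) (nat_lit 4) (nat_lit 488) (nat_lit 423) (nat_lit 289)) (XT.lf (nat_lit 0) (nat_lit 77026955640) (nat_lit 152) (nat_lit 4864083682) (nat_lit 0) (nat_lit 6522435251) (nat_lit 50) (nat_lit 5) (nat_lit 52) (nat_lit 4) (nat_lit 50) (nat_lit 4) (nat_lit 489) (nat_lit 423) (nat_lit 288))) (XT.nd (nat_lit 78) (nat_lit 76) (nat_lit 0) (XT.lf (nat_lit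 0) (nat_lit 13860138936) (nat_lit 152) (nat_lit 42095870478) (nat_lit 76) (nat_lit 35447028064) (nat_lit 48) (nat_lit 5) (nat_lit 50) (nat_lit 5) (nat_lit 49) (nat_lit 4) (nat_lit 490) (nat_lit 423) (nat_lit 287)) (XT.lf (nat_lit 0) (nat_lit 12007046680) (nat_lit 76) (nat_lit 28246912432) (nat_lit 152) (nat_lit 54265411737) (nat_lit 47) (nat_lit 5) (nat_lit 48) (nat_lit 5) (nat_lit 49) (nat_lit 4) (nat_lit 491) (nat_lit 423) (nat_lit 286)))) (XT.nd (nat_lit 156) (nat_lit 152) (nat_lit 0) (XT.nd (nat_lit 78) (nat_lit 76) (nat_lit 0) (XT.lf (nat_lit 0) (nat_lit 68701620599) (nat_lit 152) (nat_lit 27511356544) (nat_lit 0) (nat_lit 1541836312) (nat_lit 47) (nat_lit 5) (nat_lit 49) (nat_lit 4) (nat_lit 47) (nat_lit 4) (nat_lit 492) (nat_lit 423) (nat_lit 285)) (XT.lf (nat_lit 0) (nat_lit 30754115779) (nat_lit 76) (nat_lit 68757262146) (nat_lit 76) (nat_lit 1593664706) (nat_lit 46) (nat_lit 4) (nat_lit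 47) (nat_lit 5) (nat_lit 47) (nat_lit 4) (nat_lit 493) (nat_lit 423) (nat_lit 284))) (XT.nd (nat_lit 78) (nat_lit 76) (nat_lit 0) (XT.lf (nat_lit 0) (nat_lit 26837079723) (nat_lit 152) (nat_lit 12151215581) (nat_lit 76) (nat_lit 65589721659) (nat_lit 45) (nat_lit 5) (nat_lit 47) (nat_lit 5) (nat_lit 46) (nat_lit 4) (nat_lit 494) (nat_lit 423) (nat_lit 283)) (XT.lf (nat_lit 0) (nat_lit 50543580606) (nat_lit 76) (nat_lit 6878013668) (nat_lit 152) (nat_lit 50762450000) (nat_lit 44) (nat_lit 5) (nat_lit 45) (nat_lit 5) (nat_lit 46) (nat_lit 4) (nat_lit 495) (nat_lit 423) (nat_lit 282)))))) (XT.nd (nat_lit 624) (nat_lit 532) (nat_lit 0) (XT.nd (nat_lit 312) (nat_lit 228) (nat_lit 0) (XT.nd (nat_lit 156) (nat_lit 76) (nat_lit 0) (XT.nd (nat_lit 78) (nat_lit 76) (nat_lit 0) (XT.lf (nat_lit 0) (nat_lit 4551695806) (nat_lit 76) (nat_lit 85679551083) (nat_lit 76) (nat_lit 21704330509) (nat_lit 43) (nat_lit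 4) (nat_lit 44) (nat_lit 5) (nat_lit 44) (nat_lit 4) (nat_lit 496) (nat_lit 423) (nat_lit 281)) (XT.lf (nat_lit 0) (nat_lit 9626431265) (nat_lit 152) (nat_lit 44244024184) (nat_lit 76) (nat_lit 61942276650) (nat_lit 42) (nat_lit 5) (nat_lit 44) (nat_lit 5) (nat_lit 43) (nat_lit 4) (nat_lit 497) (nat_lit 423) (nat_lit 280))) (XT.nd (nat_lit 78) (nat_lit 0) (nat_lit 0) (XT.lf (nat_lit 0) (nat_lit 22408022458) (nat_lit 76) (nat_lit 19732990307) (nat_lit 152) (nat_lit 77707606918) (nat_lit 41) (nat_lit 5) (nat_lit 42) (nat_lit 5) (nat_lit 43) (nat_lit 4) (nat_lit 498) (nat_lit 423) (nat_lit 279)) (XT.lf (nat_lit 0) (nat_lit 77291290431) (nat_lit 152) (nat_lit 30390140246) (nat_lit 0) (nat_lit 16354372670) (nat_lit 41) (nat_lit 5) (nat_lit 43) (nat_lit 4) (nat_lit 41) (nat_lit 4) (nat_lit 499) (nat_lit 423) (nat_lit 278)))) (XT.nd (nat_lit 156) (nat_lit 76) (nat_lit 0) (XT.nd (nat_lit 78) (nat_lit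 76) (nat_lit 0) (XT.lf (nat_lit 0) (nat_lit 40995556490) (nat_lit 76) (nat_lit 74164069162) (nat_lit 76) (nat_lit 13224693408) (nat_lit 40) (nat_lit 4) (nat_lit 41) (nat_lit 5) (nat_lit 41) (nat_lit 4) (nat_lit 500) (nat_lit 423) (nat_lit 277)) (XT.lf (nat_lit 0) (nat_lit 21788013476) (nat_lit 152) (nat_lit 16276289072) (nat_lit 76) (nat_lit 94842801053) (nat_lit 39) (nat_lit 5) (nat_lit 41) (nat_lit 5) (nat_lit 40) (nat_lit 4) (nat_lit 501) (nat_lit 423) (nat_lit 276))) (XT.nd (nat_lit 78) (nat_lit 0) (nat_lit 0) (XT.lf (nat_lit 0) (nat_lit 59058678760) (nat_lit 152) (nat_lit 77522095502) (nat_lit 0) (nat_lit 1016825264) (nat_lit 38) (nat_lit 5) (nat_lit 40) (nat_lit 4) (nat_lit 38) (nat_lit 4) (nat_lit 502) (nat_lit 423) (nat_lit 275)) (XT.lf (nat_lit 0) (nat_lit 99094198092) (nat_lit 152) (nat_lit 2333033758) (nat_lit 0) (nat_lit 41050322400) (nat_lit 38) (nat_lit 5) (nat_lit 40) (nat_lit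 4) (nat_lit 38) (nat_lit 4) (nat_lit 503) (nat_lit 423) (nat_lit 274))))) (XT.nd (nat_lit 312) (nat_lit 228) (nat_lit 0) (XT.nd (nat_lit 156) (nat_lit 76) (nat_lit 0) (XT.nd (nat_lit 78) (nat_lit 152) (nat_lit 0) (XT.lf (nat_lit 0) (nat_lit 79143190896) (nat_lit 76) (nat_lit 63221235401) (nat_lit 76) (nat_lit 5175433808) (nat_lit 37) (nat_lit 4) (nat_lit 38) (nat_lit 5) (nat_lit 38) (nat_lit 4) (nat_lit 504) (nat_lit 423) (nat_lit 273)) (XT.lf (nat_lit 0) (nat_lit 11745266895) (nat_lit 76) (nat_lit 22300051485) (nat_lit 152) (nat_lit 118771643878) (nat_lit 35) (nat_lit 5) (nat_lit 36) (nat_lit 5) (nat_lit 37) (nat_lit 4) (nat_lit 505) (nat_lit 423) (nat_lit 272))) (XT.nd (nat_lit 78) (nat_lit 76) (nat_lit 0) (XT.lf (nat_lit 0) (nat_lit 76550466836) (nat_lit 152) (nat_lit 60463005682) (nat_lit 0) (nat_lit 21265340517) (nat_lit 35) (nat_lit 5) (nat_lit 37) (nat_lit 4) (nat_lit 35) (nat_lit 4) (nat_lit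 506) (nat_lit 423) (nat_lit 271)) (XT.lf (nat_lit 0) (nat_lit 24592539252) (nat_lit 76) (nat_lit 97335290033) (nat_lit 76) (nat_lit 42048579271) (nat_lit 34) (nat_lit 4) (nat_lit 35) (nat_lit 5) (nat_lit 35) (nat_lit 4) (nat_lit 507) (nat_lit 423) (nat_lit 270)))) (XT.nd (nat_lit 156) (nat_lit 76) (nat_lit 0) (XT.nd (nat_lit 78) (nat_lit 76) (nat_lit 0) (XT.lf (nat_lit 0) (nat_lit 665675434) (nat_lit 152) (nat_lit 53923585116) (nat_lit 76) (nat_lit 115318014609) (nat_lit 33) (nat_lit 5) (nat_lit 35) (nat_lit 5) (nat_lit 34) (nat_lit 4) (nat_lit 508) (nat_lit 423) (nat_lit 269)) (XT.lf (nat_lit 0) (nat_lit 36276591679) (nat_lit 76) (nat_lit 8389871039) (nat_lit 152) (nat_lit 131405559961) (nat_lit 32) (nat_lit 5) (nat_lit 33) (nat_lit 5) (nat_lit 34) (nat_lit 4) (nat_lit 509) (nat_lit 423) (nat_lit 268))) (XT.nd (nat_lit 78) (nat_lit 76) (nat_lit 0) (XT.lf (nat_lit 0) (nat_lit 92419412932) (nat_lit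 152) (nat_lit 50286695175) (nat_lit 0) (nat_lit 39761293317) (nat_lit 32) (nat_lit 5) (nat_lit 34) (nat_lit 4) (nat_lit 32) (nat_lit 4) (nat_lit 510) (nat_lit 423) (nat_lit 267)) (XT.lf (nat_lit 0) (nat_lit 44995422982) (nat_lit 76) (nat_lit 98402300782) (nat_lit 76) (nat_lit 45742939713) (nat_lit 31) (nat_lit 4) (nat_lit 32) (nat_lit 5) (nat_lit 32) (nat_lit 4) (nat_lit 511) (nat_lit 423) (nat_lit 266))))))) (XT.nd (nat_lit 1170) (nat_lit 532) (nat_lit 0) (XT.nd (nat_lit 546) (nat_lit 456) (nat_lit 0) (XT.nd (nat_lit 234) (nat_lit 228) (nat_lit 0) (XT.nd (nat_lit 78) (nat_lit 76) (nat_lit 0) (XT.lf (nat_lit 0) (nat_lit 1615743285) (nat_lit 152) (nat_lit 49348269670) (nat_lit 76) (nat_lit 145139805751) (nat_lit 30) (nat_lit 5) (nat_lit 32) (nat_lit 5) (nat_lit 31) (nat_lit 4) (nat_lit 512) (nat_lit 423) (nat_lit 265)) (XT.nd (nat_lit 78) (nat_lit 0) (nat_lit 0) (XT.lf (nat_lit 0) (nat_lit 50607521838)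 (nat_lit 152) (nat_lit 152276443517) (nat_lit 0) (nat_lit 453550943) (nat_lit 29) (nat_lit 5) (nat_lit 31) (nat_lit 4) (nat_lit 29) (nat_lit 4) (nat_lit 513) (nat_lit 423) (nat_lit 264)) (XT.lf (nat_lit 0) (nat_lit 103731588315) (nat_lit 152) (nat_lit 53540579452) (nat_lit 0) (nat_lit 53576596074) (nat_lit 29) (nat_lit 5) (nat_lit 31) (nat_lit 4) (nat_lit 29) (nat_lit 4) (nat_lit 514) (nat_lit 423) (nat_lit 263)))) (XT.nd (nat_lit 156) (nat_lit 152) (nat_lit 0) (XT.nd (nat_lit 78) (nat_lit 0) (nat_lit 0) (XT.lf (nat_lit 0) (nat_lit 51785308083) (nat_lit 76) (nat_lit 108532955197) (nat_lit 76) (nat_lit 58376990244) (nat_lit 28) (nat_lit 4) (nat_lit 29) (nat_lit 5) (nat_lit 29) (nat_lit 4) (nat_lit 515) (nat_lit 423) (nat_lit 262)) (XT.lf (nat_lit 0) (nat_lit 164232143134) (nat_lit 76) (nat_lit 56406791397) (nat_lit 76) (nat_lit 6249900052) (nat_lit 28) (nat_lit 4) (nat_lit 29) (nat_lit 5) (nat_lit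 29) (nat_lit 4) (nat_lit 516) (nat_lit 423) (nat_lit 261))) (XT.nd (nat_lit 78) (nat_lit 0) (nat_lit 0) (XT.lf (nat_lit 0) (nat_lit 47570800536) (nat_lit 76) (nat_lit 101674662) (nat_lit 152) (nat_lit 187744735976) (nat_lit 26) (nat_lit 5) (nat_lit 27) (nat_lit 5) (nat_lit 28) (nat_lit 4) (nat_lit 517) (nat_lit 423) (nat_lit 260)) (XT.lf (nat_lit 0) (nat_lit 106078891691) (nat_lit 152) (nat_lit 79879310818) (nat_lit 0) (nat_lit 58308783228) (nat_lit 26) (nat_lit 5) (nat_lit 28) (nat_lit 4) (nat_lit 26) (nat_lit 4) (nat_lit 518) (nat_lit 423) (nat_lit 259))))) (XT.nd (nat_lit 312) (nat_lit 228) (nat_lit 0) (XT.nd (nat_lit 156) (nat_lit 152) (nat_lit 0) (XT.nd (nat_lit 78) (nat_lit 0) (nat_lit 0) (XT.lf (nat_lit 0) (nat_lit 34587663996) (nat_lit 76) (nat_lit 133357733612) (nat_lit 76) (nat_lit 85586863005) (nat_lit 25) (nat_lit 4) (nat_lit 26) (nat_lit 5) (nat_lit 26) (nat_lit 4) (nat_lit 519)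 (nat_lit 423) (nat_lit 258)) (XT.lf (nat_lit 0) (nat_lit 157547444246) (nat_lit 76) (nat_lit 76708702776) (nat_lit 76) (nat_lit 28937106317) (nat_lit 25) (nat_lit 4) (nat_lit 26) (nat_lit 5) (nat_lit 26) (nat_lit 4) (nat_lit 520) (nat_lit 423) (nat_lit 257))) (XT.nd (nat_lit 78) (nat_lit 0) (nat_lit 0) (XT.lf (nat_lit 0) (nat_lit 13261830975) (nat_lit 76) (nat_lit 16510909864) (nat_lit 152) (nat_lit 243530448223) (nat_lit 23) (nat_lit 5) (nat_lit 24) (nat_lit 5) (nat_lit 25) (nat_lit 4) (nat_lit 521) (nat_lit 423) (nat_lit 256)) (XT.lf (nat_lit 0) (nat_lit 92991350384) (nat_lit 152) (nat_lit 143282958471) (nat_lit 0) (nat_lit 47493306463) (nat_lit 23) (nat_lit 5) (nat_lit 25) (nat_lit 4) (nat_lit 23) (nat_lit 4) (nat_lit 522) (nat_lit 423) (nat_lit 255)))) (XT.nd (nat_lit 156) (nat_lit 152) (nat_lit 0) (XT.nd (nat_lit 78) (nat_lit 76) (nat_lit 0) (XT.lf (nat_lit 0) (nat_lit 159639833085) (nat_lit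 152) (nat_lit 20960790676) (nat_lit 0) (nat_lit 114141192004) (nat_lit 23) (nat_lit 5) (nat_lit 25) (nat_lit 4) (nat_lit 23) (nat_lit 4) (nat_lit 523) (nat_lit 423) (nat_lit 254)) (XT.lf (nat_lit 0) (nat_lit 111027751560) (nat_lit 76) (nat_lit 120324797029) (nat_lit 76) (nat_lit 74825587224) (nat_lit 22) (nat_lit 4) (nat_lit 23) (nat_lit 5) (nat_lit 23) (nat_lit 4) (nat_lit 524) (nat_lit 423) (nat_lit 253))) (XT.nd (nat_lit 78) (nat_lit 152) (nat_lit 0) (XT.lf (nat_lit 0) (nat_lit 250340170324) (nat_lit 76) (nat_lit 56664092426) (nat_lit 76) (nat_lit 11164340980) (nat_lit 22) (nat_lit 4) (nat_lit 23) (nat_lit 5) (nat_lit 23) (nat_lit 4) (nat_lit 525) (nat_lit 423) (nat_lit 252)) (XT.lf (nat_lit 0) (nat_lit 55134816432) (nat_lit 152) (nat_lit 263717236296) (nat_lit 0) (nat_lit 11801228531) (nat_lit 20) (nat_lit 5) (nat_lit 22) (nat_lit 4) (nat_lit 20) (nat_lit 4) (nat_lit 526) (nat_lit 423) (nat_lit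 251)))))) (XT.nd (nat_lit 624) (nat_lit 228) (nat_lit 0) (XT.nd (nat_lit 312) (nat_lit 228) (nat_lit 0) (XT.nd (nat_lit 156) (nat_lit 0) (nat_lit 0) (XT.nd (nat_lit 78) (nat_lit 76) (nat_lit 0) (XT.lf (nat_lit 0) (nat_lit 126468629950) (nat_lit 152) (nat_lit 134045092802) (nat_lit 0) (nat_lit 83134574158) (nat_lit 20) (nat_lit 5) (nat_lit 22) (nat_lit 4) (nat_lit 20) (nat_lit 4) (nat_lit 527) (nat_lit 423) (nat_lit 250)) (XT.lf (nat_lit 0) (nat_lit 2177336712) (nat_lit 76) (nat_lit 199224301421) (nat_lit 76) (nat_lit 155889800019) (nat_lit 19) (nat_lit 4) (nat_lit 20) (nat_lit 5) (nat_lit 20) (nat_lit 4) (nat_lit 528) (nat_lit 423) (nat_lit 249))) (XT.nd (nat_lit 78) (nat_lit 0) (nat_lit 0) (XT.lf (nat_lit 0) (nat_lit 149861669657) (nat_lit 76) (nat_lit 132488279978) (nat_lit 76) (nat_lit 89153354186) (nat_lit 19) (nat_lit 4) (nat_lit 20) (nat_lit 5) (nat_lit 20) (nat_lit 4) (nat_lit 529) (nat_lit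 423) (nat_lit 248)) (XT.lf (nat_lit 0) (nat_lit 304927399261) (nat_lit 76) (nat_lit 62416881642) (nat_lit 76) (nat_lit 19081551668) (nat_lit 19) (nat_lit 4) (nat_lit 20) (nat_lit 5) (nat_lit 20) (nat_lit 4) (nat_lit 530) (nat_lit 423) (nat_lit 247)))) (XT.nd (nat_lit 156) (nat_lit 76) (nat_lit 0) (XT.nd (nat_lit 78) (nat_lit 0) (nat_lit 0) (XT.lf (nat_lit 0) (nat_lit 53998750418) (nat_lit 152) (nat_lit 335264103656) (nat_lit 0) (nat_lit 12726640981) (nat_lit 17) (nat_lit 5) (nat_lit 19) (nat_lit 4) (nat_lit 17) (nat_lit 4) (nat_lit 531) (nat_lit 423) (nat_lit 246)) (XT.lf (nat_lit 0) (nat_lit 132516521862) (nat_lit 152) (nat_lit 194433878938) (nat_lit 0) (nat_lit 91244063277) (nat_lit 17) (nat_lit 5) (nat_lit 19) (nat_lit 4) (nat_lit 17) (nat_lit 4) (nat_lit 532) (nat_lit 423) (nat_lit 245))) (XT.nd (nat_lit 78) (nat_lit 76) (nat_lit 0) (XT.lf (nat_lit 0) (nat_lit 214958896222) (nat_lit 152)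 (nat_lit 46564744502) (nat_lit 0) (nat_lit 173686105117) (nat_lit 17) (nat_lit 5) (nat_lit 19) (nat_lit 4) (nat_lit 17) (nat_lit 4) (nat_lit 533) (nat_lit 423) (nat_lit 244)) (XT.lf (nat_lit 0) (nat_lit 112289328800) (nat_lit 76) (nat_lit 190985987178) (nat_lit 76) (nat_lit 149712879386) (nat_lit 16) (nat_lit 4) (nat_lit 17) (nat_lit 5) (nat_lit 17) (nat_lit 4) (nat_lit 534) (nat_lit 423) (nat_lit 243))))) (XT.nd (nat_lit 312) (nat_lit 76) (nat_lit 0) (XT.nd (nat_lit 156) (nat_lit 76) (nat_lit 0) (XT.nd (nat_lit 78) (nat_lit 76) (nat_lit 0) (XT.lf (nat_lit 0) (nat_lit 280700290877) (nat_lit 76) (nat_lit 116094658139) (nat_lit 76) (nat_lit 74821248741) (nat_lit 16) (nat_lit 4) (nat_lit 17) (nat_lit 5) (nat_lit 17) (nat_lit 4) (nat_lit 535) (nat_lit 423) (nat_lit 242)) (XT.lf (nat_lit 0) (nat_lit 3691695130) (nat_lit 152) (nat_lit 33705721624) (nat_lit 76) (nat_lit 453775263689) (nat_lit 15) (nat_lit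 5) (nat_lit 17) (nat_lit 5) (nat_lit 16) (nat_lit 4) (nat_lit 536) (nat_lit 423) (nat_lit 241))) (XT.nd (nat_lit 78) (nat_lit 0) (nat_lit 0) (XT.lf (nat_lit 0) (nat_lit 86474401229) (nat_lit 152) (nat_lit 377862468993) (nat_lit 0) (nat_lit 47165858173) (nat_lit 14) (nat_lit 5) (nat_lit 16) (nat_lit 4) (nat_lit 14) (nat_lit 4) (nat_lit 537) (nat_lit 423) (nat_lit 240)) (XT.lf (nat_lit 0) (nat_lit 174588386204) (nat_lit 152) (nat_lit 222921690353) (nat_lit 0) (nat_lit 135279595015) (nat_lit 14) (nat_lit 5) (nat_lit 16) (nat_lit 4) (nat_lit 14) (nat_lit 4) (nat_lit 538) (nat_lit 423) (nat_lit 239)))) (XT.nd (nat_lit 156) (nat_lit 0) (nat_lit 0) (XT.nd (nat_lit 78) (nat_lit 76) (nat_lit 0) (XT.lf (nat_lit 0) (nat_lit 267107013961) (nat_lit 152) (nat_lit 60236014319) (nat_lit 0) (nat_lit 227797986456) (nat_lit 14) (nat_lit 5) (nat_lit 16) (nat_lit 4) (nat_lit 14) (nat_lit 4) (nat_lit 539) (nat_lit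 423) (nat_lit 238)) (XT.lf (nat_lit 0) (nat_lit 114238243170) (nat_lit 76) (nat_lit 251795902906) (nat_lit 76) (nat_lit 212486650338) (nat_lit 13) (nat_lit 4) (nat_lit 14) (nat_lit 5) (nat_lit 14) (nat_lit 4) (nat_lit 540) (nat_lit 423) (nat_lit 237))) (XT.nd (nat_lit 78) (nat_lit 0) (nat_lit 0) (XT.lf (nat_lit 0) (nat_lit 299525465272) (nat_lit 76) (nat_lit 171401305999) (nat_lit 76) (nat_lit 132091839085) (nat_lit 13) (nat_lit 4) (nat_lit 14) (nat_lit 5) (nat_lit 14) (nat_lit 4) (nat_lit 541) (nat_lit 423) (nat_lit 236)) (XT.lf (nat_lit 0) (nat_lit 494075137371) (nat_lit 76) (nat_lit 86987947903) (nat_lit 76) (nat_lit 47678276849) (nat_lit 13) (nat_lit 4) (nat_lit 14) (nat_lit 5) (nat_lit 14) (nat_lit 4) (nat_lit 542) (nat_lit 423) (nat_lit 235))))))))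
noncomputable def xc147 : XT := (XT.nd (nat_lit 55068) (nat_lit 0) (nat_lit 3952) (XT.nd (nat_lit 53820) (nat_lit 0) (nat_lit 7828) (XT.nd (nat_lit 53196) (nat_lit 0) (nat_lit 10412) (XT.nd (nat_lit 234) (nat_lit 76) (nat_lit 0) (XT.nd (nat_lit 78) (nat_lit 0) (nat_lit 0) (XT.lf (nat_lit 0) (nat_lit 40368253638) (nat_lit 152) (nat_lit 612383582615) (nat_lit 0) (nat_lit 2930286522) (nat_lit 11) (nat_lit 5) (nat_lit 13) (nat_lit 4) (nat_lit 11) (nat_lit 4) (nat_lit 543) (nat_lit 423) (nat_lit 234)) (XT.nd (nat_lit 78) (nat_lit 0) (nat_lit 0) (XT.lf (nat_lit 0) (nat_lit 134957953333) (nat_lit 152) (nat_lit 451265920432) (nat_lit 0) (nat_lit 97519809874) (nat_lit 11) (nat_lit 5) (nat_lit 13) (nat_lit 4) (nat_lit 11) (nat_lit 4) (nat_lit 544) (nat_lit 423) (nat_lit 233)) (XT.lf (nat_lit 0) (nat_lit 234276269741) (nat_lit 152) (nat_lit 282094137884) (nat_lit 0) (nat_lit 196837958336) (nat_lit 11) (nat_lit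 5) (nat_lit 13) (nat_lit 4) (nat_lit 11) (nat_lit 4) (nat_lit 545) (nat_lit 423) (nat_lit 232)))) (XT.nd (nat_lit 156) (nat_lit 0) (nat_lit 0) (XT.nd (nat_lit 78) (nat_lit 76) (nat_lit 0) (XT.lf (nat_lit 0) (nat_lit 338559675045) (nat_lit 152) (nat_lit 104465445014) (nat_lit 0) (nat_lit 301121203692) (nat_lit 11) (nat_lit 5) (nat_lit 13) (nat_lit 4) (nat_lit 11) (nat_lit 4) (nat_lit 546) (nat_lit 423) (nat_lit 231)) (XT.lf (nat_lit 0) (nat_lit 84755798500) (nat_lit 76) (nat_lit 364623940109) (nat_lit 76) (nat_lit 327185316424) (nat_lit 10) (nat_lit 4) (nat_lit 11) (nat_lit 5) (nat_lit 11) (nat_lit 4) (nat_lit 547) (nat_lit 423) (nat_lit 230))) (XT.nd (nat_lit 78) (nat_lit 0) (nat_lit 0) (XT.lf (nat_lit 0) (nat_lit 287063335478) (nat_lit 76) (nat_lit 280445868127) (nat_lit 76) (nat_lit 243007099364) (nat_lit 10) (nat_lit 4) (nat_lit 11) (nat_lit 5) (nat_lit 11) (nat_lit 4) (nat_lit 548) (nat_lit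 423) (nat_lit 229)) (XT.lf (nat_lit 0) (nat_lit 499484751140) (nat_lit 76) (nat_lit 192059652991) (nat_lit 76) (nat_lit 154620746059) (nat_lit 10) (nat_lit 4) (nat_lit 11) (nat_lit 5) (nat_lit 11) (nat_lit 4) (nat_lit 549) (nat_lit 423) (nat_lit 228))))) (XT.nd (nat_lit 312) (nat_lit 0) (nat_lit 152) (XT.nd (nat_lit 156) (nat_lit 0) (nat_lit 76) (XT.nd (nat_lit 78) (nat_lit 0) (nat_lit 0) (XT.lf (nat_lit 0) (nat_lit 141657816) (nat_lit 836) (nat_lit 3267480785) (nat_lit 836) (nat_lit 3267480785) (nat_lit 147) (nat_lit 3) (nat_lit 158) (nat_lit 3) (nat_lit 158) (nat_lit 5) (nat_lit 424) (nat_lit 424) (nat_lit 352)) (XT.lf (nat_lit 76) (nat_lit 91159225) (nat_lit 0) (nat_lit 575566865) (nat_lit 836) (nat_lit 13001469285) (nat_lit 148) (nat_lit 5) (nat_lit 147) (nat_lit 3) (nat_lit 158) (nat_lit 5) (nat_lit 425) (nat_lit 424) (nat_lit 351))) (XT.nd (nat_lit 78) (nat_lit 0) (nat_lit 0) (XT.lf (nat_lit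 0) (nat_lit 1251120229) (nat_lit 760) (nat_lit 6827474776) (nat_lit 836) (nat_lit 5911217857) (nat_lit 148) (nat_lit 5) (nat_lit 158) (nat_lit 5) (nat_lit 159) (nat_lit 5) (nat_lit 426) (nat_lit 424) (nat_lit 350)) (XT.lf (nat_lit 76) (nat_lit 244225736) (nat_lit 0) (nat_lit 1610873872) (nat_lit 836) (nat_lit 12472896873) (nat_lit 149) (nat_lit 5) (nat_lit 148) (nat_lit 5) (nat_lit 159) (nat_lit 5) (nat_lit 427) (nat_lit 424) (nat_lit 349)))) (XT.nd (nat_lit 156) (nat_lit 0) (nat_lit 76) (XT.nd (nat_lit 78) (nat_lit 0) (nat_lit 0) (XT.lf (nat_lit 0) (nat_lit 2665806692) (nat_lit 760) (nat_lit 6868270877) (nat_lit 836) (nat_lit 5140188643) (nat_lit 149) (nat_lit 5) (nat_lit 159) (nat_lit 5) (nat_lit 160) (nat_lit 5) (nat_lit 428) (nat_lit 424) (nat_lit 348)) (XT.lf (nat_lit 76) (nat_lit 689635302) (nat_lit 0) (nat_lit 2843758896) (nat_lit 836) (nat_lit 11503641185) (nat_lit 150) (nat_lit 5) (nat_lit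 149) (nat_lit 5) (nat_lit 160) (nat_lit 5) (nat_lit 429) (nat_lit 424) (nat_lit 347))) (XT.nd (nat_lit 78) (nat_lit 0) (nat_lit 0) (XT.lf (nat_lit 0) (nat_lit 4607907733) (nat_lit 760) (nat_lit 6630335100) (nat_lit 836) (nat_lit 4171525899) (nat_lit 150) (nat_lit 5) (nat_lit 160) (nat_lit 5) (nat_lit 161) (nat_lit 5) (nat_lit 430) (nat_lit 424) (nat_lit 346)) (XT.lf (nat_lit 76) (nat_lit 1458442981) (nat_lit 0) (nat_lit 4328087640) (nat_lit 836) (nat_lit 10012091854) (nat_lit 151) (nat_lit 5) (nat_lit 150) (nat_lit 5) (nat_lit 161) (nat_lit 5) (nat_lit 431) (nat_lit 424) (nat_lit 345)))))) (XT.nd (nat_lit 624) (nat_lit 1368) (nat_lit 0) (XT.nd (nat_lit 312) (nat_lit 836) (nat_lit 0) (XT.nd (nat_lit 156) (nat_lit 684) (nat_lit 0) (XT.nd (nat_lit 78) (nat_lit 0) (nat_lit 0) (XT.lf (nat_lit 0) (nat_lit 7165670100) (nat_lit 760) (nat_lit 6081960698) (nat_lit 836) (nat_lit 2952211604) (nat_lit 151)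 (nat_lit 5) (nat_lit 161) (nat_lit 5) (nat_lit 162) (nat_lit 5) (nat_lit 432) (nat_lit 424) (nat_lit 344)) (XT.lf (nat_lit 76) (nat_lit 2586763678) (nat_lit 0) (nat_lit 6120959925) (nat_lit 836) (nat_lit 7908704508) (nat_lit 152) (nat_lit 5) (nat_lit 151) (nat_lit 5) (nat_lit 162) (nat_lit 5) (nat_lit 433) (nat_lit 424) (nat_lit 343))) (XT.nd (nat_lit 78) (nat_lit 760) (nat_lit 0) (XT.lf (nat_lit 0) (nat_lit 10436104688) (nat_lit 760) (nat_lit 5186470845) (nat_lit 76) (nat_lit 1425808840) (nat_lit 152) (nat_lit 5) (nat_lit 162) (nat_lit 5) (nat_lit 153) (nat_lit 5) (nat_lit 434) (nat_lit 424) (nat_lit 342)) (XT.lf (nat_lit 0) (nat_lit 4116088762) (nat_lit 760) (nat_lit 8283490100) (nat_lit 836) (nat_lit 5094928276) (nat_lit 142) (nat_lit 5) (nat_lit 152) (nat_lit 5) (nat_lit 153) (nat_lit 5) (nat_lit 435) (nat_lit 424) (nat_lit 341)))) (XT.nd (nat_lit 156) (nat_lit 456) (nat_lit 0) (XT.nd (nat_lit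 78) (nat_lit 380) (nat_lit 0) (XT.lf (nat_lit 0) (nat_lit 14049877186) (nat_lit 760) (nat_lit 483792447) (nat_lit 836) (nat_lit 3425646543) (nat_lit 142) (nat_lit 5) (nat_lit 152) (nat_lit 5) (nat_lit 153) (nat_lit 5) (nat_lit 436) (nat_lit 424) (nat_lit 340)) (XT.lf (nat_lit 0) (nat_lit 6093660725) (nat_lit 380) (nat_lit 10881615624) (nat_lit 456) (nat_lit 1462050916) (nat_lit 137) (nat_lit 5) (nat_lit 142) (nat_lit 5) (nat_lit 143) (nat_lit 5) (nat_lit 437) (nat_lit 424) (nat_lit 339))) (XT.nd (nat_lit 78) (nat_lit 380) (nat_lit 0) (XT.lf (nat_lit 0) (nat_lit 641363056) (nat_lit 456) (nat_lit 2235970399) (nat_lit 76) (nat_lit 16058397580) (nat_lit 136) (nat_lit 5) (nat_lit 142) (nat_lit 5) (nat_lit 137) (nat_lit 5) (nat_lit 438) (nat_lit 424) (nat_lit 338)) (XT.lf (nat_lit 0) (nat_lit 3010509512) (nat_lit 456) (nat_lit 10925450709) (nat_lit 76) (nat_lit 5511413430) (nat_lit 131) (nat_lit 5)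 (nat_lit 137) (nat_lit 5) (nat_lit 132) (nat_lit 5) (nat_lit 439) (nat_lit 424) (nat_lit 337))))) (XT.nd (nat_lit 312) (nat_lit 684) (nat_lit 0) (XT.nd (nat_lit 156) (nat_lit 304) (nat_lit 0) (XT.nd (nat_lit 78) (nat_lit 380) (nat_lit 0) (XT.lf (nat_lit 0) (nat_lit 5570506039) (nat_lit 456) (nat_lit 149222666) (nat_lit 76) (nat_lit 14261251842) (nat_lit 131) (nat_lit 5) (nat_lit 137) (nat_lit 5) (nat_lit 132) (nat_lit 5) (nat_lit 440) (nat_lit 424) (nat_lit 336)) (XT.lf (nat_lit 0) (nat_lit 8474075345) (nat_lit 456) (nat_lit 9060065738) (nat_lit 76) (nat_lit 2996349756) (nat_lit 126) (nat_lit 5) (nat_lit 132) (nat_lit 5) (nat_lit 127) (nat_lit 5) (nat_lit 441) (nat_lit 424) (nat_lit 335))) (XT.nd (nat_lit 78) (nat_lit 0) (nat_lit 0) (XT.lf (nat_lit 0) (nat_lit 2542680719) (nat_lit 304) (nat_lit 9103923448) (nat_lit 380) (nat_lit 9454685047) (nat_lit 122) (nat_lit 5) (nat_lit 126) (nat_lit 5)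 (nat_lit 127) (nat_lit 5) (nat_lit 442) (nat_lit 424) (nat_lit 334)) (XT.lf (nat_lit 0) (nat_lit 15026552655) (nat_lit 304) (nat_lit 92763187) (nat_lit 380) (nat_lit 6574235387) (nat_lit 122) (nat_lit 5) (nat_lit 126) (nat_lit 5) (nat_lit 127) (nat_lit 5) (nat_lit 443) (nat_lit 424) (nat_lit 333)))) (XT.nd (nat_lit 156) (nat_lit 304) (nat_lit 0) (XT.nd (nat_lit 78) (nat_lit 76) (nat_lit 0) (XT.lf (nat_lit 0) (nat_lit 5846590027) (nat_lit 304) (nat_lit 13145290980) (nat_lit 380) (nat_lit 3312235911) (nat_lit 118) (nat_lit 5) (nat_lit 122) (nat_lit 5) (nat_lit 123) (nat_lit 5) (nat_lit 444) (nat_lit 424) (nat_lit 332)) (XT.lf (nat_lit 0) (nat_lit 214343854) (nat_lit 380) (nat_lit 3740985869) (nat_lit 76) (nat_lit 18984539762) (nat_lit 117) (nat_lit 5) (nat_lit 122) (nat_lit 5) (nat_lit 118) (nat_lit 5) (nat_lit 445) (nat_lit 424) (nat_lit 331))) (XT.nd (nat_lit 78) (nat_lit 0) (nat_lit 0) (XT.lf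 (nat_lit 0) (nat_lit 4041501177) (nat_lit 380) (nat_lit 13830115691) (nat_lit 76) (nat_lit 5721301064) (nat_lit 113) (nat_lit 5) (nat_lit 118) (nat_lit 5) (nat_lit 114) (nat_lit 5) (nat_lit 446) (nat_lit 424) (nat_lit 330)) (XT.lf (nat_lit 0) (nat_lit 8178867523) (nat_lit 380) (nat_lit 282904594) (nat_lit 76) (nat_lit 15810905334) (nat_lit 113) (nat_lit 5) (nat_lit 118) (nat_lit 5) (nat_lit 114) (nat_lit 5) (nat_lit 447) (nat_lit 424) (nat_lit 329))))))) (XT.nd (nat_lit 1170) (nat_lit 1672) (nat_lit 0) (XT.nd (nat_lit 546) (nat_lit 912) (nat_lit 0) (XT.nd (nat_lit 234) (nat_lit 760) (nat_lit 0) (XT.nd (nat_lit 78) (nat_lit 228) (nat_lit 0) (XT.lf (nat_lit 0) (nat_lit 12763663113) (nat_lit 380) (nat_lit 10611852766) (nat_lit 76) (nat_lit 1598882172) (nat_lit 109) (nat_lit 5) (nat_lit 114) (nat_lit 5) (nat_lit 110) (nat_lit 5) (nat_lit 448) (nat_lit 424) (nat_lit 328)) (XT.nd (nat_lit 78) (nat_lit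 0) (nat_lit 0) (XT.lf (nat_lit 0) (nat_lit 4016029549) (nat_lit 228) (nat_lit 13758301686) (nat_lit 304) (nat_lit 7927042905) (nat_lit 106) (nat_lit 5) (nat_lit 109) (nat_lit 5) (nat_lit 110) (nat_lit 5) (nat_lit 449) (nat_lit 424) (nat_lit 327)) (XT.lf (nat_lit 0) (nat_lit 19731095890) (nat_lit 228) (nat_lit 3474760391) (nat_lit 304) (nat_lit 3250327621) (nat_lit 106) (nat_lit 5) (nat_lit 109) (nat_lit 5) (nat_lit 110) (nat_lit 5) (nat_lit 450) (nat_lit 424) (nat_lit 326)))) (XT.nd (nat_lit 156) (nat_lit 456) (nat_lit 0) (XT.nd (nat_lit 78) (nat_lit 0) (nat_lit 0) (XT.lf (nat_lit 0) (nat_lit 1859336758) (nat_lit 304) (nat_lit 18117060930) (nat_lit 76) (nat_lit 7258428831) (nat_lit 102) (nat_lit 5) (nat_lit 106) (nat_lit 5) (nat_lit 103) (nat_lit 5) (nat_lit 451) (nat_lit 424) (nat_lit 325)) (XT.lf (nat_lit 0) (nat_lit 7279073778) (nat_lit 304) (nat_lit 2185102510) (nat_lit 76) (nat_lit 18577370590)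 (nat_lit 102) (nat_lit 5) (nat_lit 106) (nat_lit 5) (nat_lit 103) (nat_lit 5) (nat_lit 452) (nat_lit 424) (nat_lit 324))) (XT.nd (nat_lit 78) (nat_lit 228) (nat_lit 0) (XT.lf (nat_lit 0) (nat_lit 13224057346) (nat_lit 304) (nat_lit 13893661723) (nat_lit 76) (nat_lit 1758172061) (nat_lit 99) (nat_lit 5) (nat_lit 103) (nat_lit 5) (nat_lit 100) (nat_lit 5) (nat_lit 453) (nat_lit 424) (nat_lit 323)) (XT.lf (nat_lit 0) (nat_lit 3270513373) (nat_lit 228) (nat_lit 16431290249) (nat_lit 304) (nat_lit 10038374114) (nat_lit 96) (nat_lit 5) (nat_lit 99) (nat_lit 5) (nat_lit 100) (nat_lit 5) (nat_lit 454) (nat_lit 424) (nat_lit 322))))) (XT.nd (nat_lit 312) (nat_lit 456) (nat_lit 0) (XT.nd (nat_lit 156) (nat_lit 228) (nat_lit 0) (XT.nd (nat_lit 78) (nat_lit 228) (nat_lit 0) (XT.lf (nat_lit 0) (nat_lit 21763355010) (nat_lit 228) (nat_lit 4967276881) (nat_lit 304) (nat_lit 3905687825) (nat_lit 96) (nat_lit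 5) (nat_lit 99) (nat_lit 5) (nat_lit 100) (nat_lit 5) (nat_lit 455) (nat_lit 424) (nat_lit 321)) (XT.lf (nat_lit 0) (nat_lit 2712266602) (nat_lit 228) (nat_lit 21813210637) (nat_lit 76) (nat_lit 7036828113) (nat_lit 93) (nat_lit 5) (nat_lit 96) (nat_lit 5) (nat_lit 94) (nat_lit 5) (nat_lit 456) (nat_lit 424) (nat_lit 320))) (XT.nd (nat_lit 78) (nat_lit 228) (nat_lit 0) (XT.lf (nat_lit 0) (nat_lit 9756318243) (nat_lit 228) (nat_lit 3076421890) (nat_lit 76) (nat_lit 19687326616) (nat_lit 93) (nat_lit 5) (nat_lit 96) (nat_lit 5) (nat_lit 94) (nat_lit 5) (nat_lit 457) (nat_lit 424) (nat_lit 319)) (XT.lf (nat_lit 0) (nat_lit 17134444496) (nat_lit 228) (nat_lit 278305702) (nat_lit 304) (nat_lit 16099957772) (nat_lit 90) (nat_lit 5) (nat_lit 93) (nat_lit 5) (nat_lit 94) (nat_lit 5) (nat_lit 458) (nat_lit 424) (nat_lit 318)))) (XT.nd (nat_lit 156) (nat_lit 304) (nat_lit 0) (XT.nd (nat_lit 78) (nat_lit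 0) (nat_lit 0) (XT.lf (nat_lit 0) (nat_lit 3818904088) (nat_lit 152) (nat_lit 21939922648) (nat_lit 228) (nat_lit 8780813977) (nat_lit 88) (nat_lit 5) (nat_lit 90) (nat_lit 5) (nat_lit 91) (nat_lit 5) (nat_lit 459) (nat_lit 424) (nat_lit 317)) (XT.lf (nat_lit 0) (nat_lit 25578725483) (nat_lit 152) (nat_lit 9218293785) (nat_lit 228) (nat_lit 807160798) (nat_lit 88) (nat_lit 5) (nat_lit 90) (nat_lit 5) (nat_lit 91) (nat_lit 5) (nat_lit 460) (nat_lit 424) (nat_lit 316))) (XT.nd (nat_lit 78) (nat_lit 0) (nat_lit 0) (XT.lf (nat_lit 0) (nat_lit 7572484043) (nat_lit 304) (nat_lit 24818192951) (nat_lit 76) (nat_lit 4312892148) (nat_lit 84) (nat_lit 5) (nat_lit 88) (nat_lit 5) (nat_lit 85) (nat_lit 5) (nat_lit 461) (nat_lit 424) (nat_lit 315)) (XT.lf (nat_lit 0) (nat_lit 16660945920) (nat_lit 304) (nat_lit 2787666361) (nat_lit 76) (nat_lit 18392806251) (nat_lit 84) (nat_lit 5) (nat_lit 88) (nat_lit 5)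 (nat_lit 85) (nat_lit 5) (nat_lit 462) (nat_lit 424) (nat_lit 314)))))) (XT.nd (nat_lit 624) (nat_lit 760) (nat_lit 0) (XT.nd (nat_lit 312) (nat_lit 380) (nat_lit 0) (XT.nd (nat_lit 156) (nat_lit 228) (nat_lit 0) (XT.nd (nat_lit 78) (nat_lit 152) (nat_lit 0) (XT.lf (nat_lit 0) (nat_lit 21006337155) (nat_lit 152) (nat_lit 5519053737) (nat_lit 228) (nat_lit 12494691979) (nat_lit 82) (nat_lit 5) (nat_lit 84) (nat_lit 5) (nat_lit 85) (nat_lit 5) (nat_lit 463) (nat_lit 424) (nat_lit 313)) (XT.lf (nat_lit 0) (nat_lit 5865818031) (nat_lit 152) (nat_lit 31292667997) (nat_lit 228) (nat_lit 3085423459) (nat_lit 80) (nat_lit 5) (nat_lit 82) (nat_lit 5) (nat_lit 83) (nat_lit 5) (nat_lit 464) (nat_lit 424) (nat_lit 312))) (XT.nd (nat_lit 78) (nat_lit 152) (nat_lit 0) (XT.lf (nat_lit 0) (nat_lit 6971111813) (nat_lit 228) (nat_lit 10160980113) (nat_lit 76) (nat_lit 24371818828) (nat_lit 79) (nat_lit 5) (nat_lit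 82) (nat_lit 5) (nat_lit 80) (nat_lit 5) (nat_lit 465) (nat_lit 424) (nat_lit 311)) (XT.lf (nat_lit 0) (nat_lit 15709191519) (nat_lit 152) (nat_lit 1956870341) (nat_lit 228) (nat_lit 25146357659) (nat_lit 77) (nat_lit 5) (nat_lit 79) (nat_lit 5) (nat_lit 80) (nat_lit 5) (nat_lit 466) (nat_lit 424) (nat_lit 310)))) (XT.nd (nat_lit 156) (nat_lit 228) (nat_lit 0) (XT.nd (nat_lit 78) (nat_lit 152) (nat_lit 0) (XT.lf (nat_lit 0) (nat_lit 29282966419) (nat_lit 228) (nat_lit 1183230747) (nat_lit 76) (nat_lit 13700796582) (nat_lit 77) (nat_lit 5) (nat_lit 80) (nat_lit 5) (nat_lit 78) (nat_lit 5) (nat_lit 467) (nat_lit 424) (nat_lit 309)) (XT.lf (nat_lit 0) (nat_lit 26850472964) (nat_lit 152) (nat_lit 15075898972) (nat_lit 228) (nat_lit 3640642322) (nat_lit 75) (nat_lit 5) (nat_lit 77) (nat_lit 5) (nat_lit 78) (nat_lit 5) (nat_lit 468) (nat_lit 424) (nat_lit 308))) (XT.nd (nat_lit 78) (nat_lit 0) (nat_lit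 0) (XT.lf (nat_lit 0) (nat_lit 8087686584) (nat_lit 228) (nat_lit 37588117033) (nat_lit 76) (nat_lit 1345653500) (nat_lit 72) (nat_lit 5) (nat_lit 75) (nat_lit 5) (nat_lit 73) (nat_lit 5) (nat_lit 469) (nat_lit 424) (nat_lit 307)) (XT.lf (nat_lit 0) (nat_lit 20843850096) (nat_lit 228) (nat_lit 9213971041) (nat_lit 76) (nat_lit 18459628778) (nat_lit 72) (nat_lit 5) (nat_lit 75) (nat_lit 5) (nat_lit 73) (nat_lit 5) (nat_lit 470) (nat_lit 424) (nat_lit 306))))) (XT.nd (nat_lit 312) (nat_lit 304) (nat_lit 0) (XT.nd (nat_lit 156) (nat_lit 228) (nat_lit 0) (XT.nd (nat_lit 78) (nat_lit 76) (nat_lit 0) (XT.lf (nat_lit 0) (nat_lit 21249784880) (nat_lit 152) (nat_lit 13314521554) (nat_lit 228) (nat_lit 15507611978) (nat_lit 70) (nat_lit 5) (nat_lit 72) (nat_lit 5) (nat_lit 73) (nat_lit 5) (nat_lit 471) (nat_lit 424) (nat_lit 305)) (XT.lf (nat_lit 0) (nat_lit 1840791580) (nat_lit 76) (nat_lit 47378703400)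 (nat_lit 152) (nat_lit 2472180166) (nat_lit 69) (nat_lit 5) (nat_lit 70) (nat_lit 5) (nat_lit 71) (nat_lit 4) (nat_lit 472) (nat_lit 424) (nat_lit 304))) (XT.nd (nat_lit 78) (nat_lit 152) (nat_lit 0) (XT.lf (nat_lit 0) (nat_lit 11565249522) (nat_lit 152) (nat_lit 18741177802) (nat_lit 76) (nat_lit 23041778895) (nat_lit 68) (nat_lit 5) (nat_lit 70) (nat_lit 5) (nat_lit 69) (nat_lit 5) (nat_lit 473) (nat_lit 424) (nat_lit 303)) (XT.lf (nat_lit 0) (nat_lit 14333390805) (nat_lit 152) (nat_lit 12106898569) (nat_lit 228) (nat_lit 28634307328) (nat_lit 66) (nat_lit 5) (nat_lit 68) (nat_lit 5) (nat_lit 69) (nat_lit 5) (nat_lit 474) (nat_lit 424) (nat_lit 302)))) (XT.nd (nat_lit 156) (nat_lit 152) (nat_lit 0) (XT.nd (nat_lit 78) (nat_lit 152) (nat_lit 0) (XT.lf (nat_lit 0) (nat_lit 42486081675) (nat_lit 228) (nat_lit 7282524893) (nat_lit 76) (nat_lit 7097350350) (nat_lit 66) (nat_lit 5) (nat_lit 69) (nat_lit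 5) (nat_lit 67) (nat_lit 4) (nat_lit 475) (nat_lit 424) (nat_lit 301)) (XT.lf (nat_lit 0) (nat_lit 1218592703) (nat_lit 152) (nat_lit 30178438207) (nat_lit 76) (nat_lit 27316890447) (nat_lit 64) (nat_lit 5) (nat_lit 66) (nat_lit 5) (nat_lit 65) (nat_lit 5) (nat_lit 476) (nat_lit 424) (nat_lit 300))) (XT.nd (nat_lit 78) (nat_lit 0) (nat_lit 0) (XT.lf (nat_lit 0) (nat_lit 5684810931) (nat_lit 152) (nat_lit 11638353998) (nat_lit 228) (nat_lit 43308860556) (nat_lit 62) (nat_lit 5) (nat_lit 64) (nat_lit 5) (nat_lit 65) (nat_lit 5) (nat_lit 477) (nat_lit 424) (nat_lit 299)) (XT.lf (nat_lit 0) (nat_lit 34889997517) (nat_lit 228) (nat_lit 18390636067) (nat_lit 76) (nat_lit 9332549839) (nat_lit 62) (nat_lit 5) (nat_lit 65) (nat_lit 5) (nat_lit 63) (nat_lit 4) (nat_lit 478) (nat_lit 424) (nat_lit 298))))))))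
noncomputable def xc148 : XT := (XT.nd (nat_lit 2418) (nat_lit 1444) (nat_lit 0) (XT.nd (nat_lit 1170) (nat_lit 1064) (nat_lit 0) (XT.nd (nat_lit 546) (nat_lit 532) (nat_lit 0) (XT.nd (nat_lit 234) (nat_lit 304) (nat_lit 0) (XT.nd (nat_lit 78) (nat_lit 228) (nat_lit 0) (XT.lf (nat_lit 0) (nat_lit 20449370561) (nat_lit 76) (nat_lit 33391448144) (nat_lit 152) (nat_lit 10827298383) (nat_lit 61) (nat_lit 5) (nat_lit 62) (nat_lit 5) (nat_lit 63) (nat_lit 4) (nat_lit 479) (nat_lit 424) (nat_lit 297)) (XT.nd (nat_lit 78) (nat_lit 152) (nat_lit 0) (XT.lf (nat_lit 0) (nat_lit 7004269017) (nat_lit 152) (nat_lit 5061539459) (nat_lit 76) (nat_lit 54738984411) (nat_lit 60) (nat_lit 5) (nat_lit 62) (nat_lit 5) (nat_lit 61) (nat_lit 5) (nat_lit 480) (nat_lit 424) (nat_lit 296)) (XT.lf (nat_lit 0) (nat_lit 26111431703) (nat_lit 228) (nat_lit 32130013805) (nat_lit 76) (nat_lit 10760588033) (nat_lit 58) (nat_lit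 5) (nat_lit 61) (nat_lit 5) (nat_lit 59) (nat_lit 4) (nat_lit 481) (nat_lit 424) (nat_lit 295)))) (XT.nd (nat_lit 156) (nat_lit 228) (nat_lit 0) (XT.nd (nat_lit 78) (nat_lit 0) (nat_lit 0) (XT.lf (nat_lit 0) (nat_lit 9882457329) (nat_lit 76) (nat_lit 36726545552) (nat_lit 152) (nat_lit 24678380976) (nat_lit 57) (nat_lit 5) (nat_lit 58) (nat_lit 5) (nat_lit 59) (nat_lit 4) (nat_lit 482) (nat_lit 424) (nat_lit 294)) (XT.lf (nat_lit 0) (nat_lit 55103389354) (nat_lit 76) (nat_lit 13568112207) (nat_lit 152) (nat_lit 4988497823) (nat_lit 57) (nat_lit 5) (nat_lit 58) (nat_lit 5) (nat_lit 59) (nat_lit 4) (nat_lit 483) (nat_lit 424) (nat_lit 293))) (XT.nd (nat_lit 78) (nat_lit 0) (nat_lit 0) (XT.lf (nat_lit 0) (nat_lit 15780856763) (nat_lit 228) (nat_lit 49249278608) (nat_lit 76) (nat_lit 11079014248) (nat_lit 54) (nat_lit 5) (nat_lit 57) (nat_lit 5) (nat_lit 55) (nat_lit 4) (nat_lit 484) (nat_lit 424)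 (nat_lit 292)) (XT.lf (nat_lit 0) (nat_lit 37958941703) (nat_lit 228) (nat_lit 3790415706) (nat_lit 76) (nat_lit 36900415704) (nat_lit 54) (nat_lit 5) (nat_lit 57) (nat_lit 5) (nat_lit 55) (nat_lit 4) (nat_lit 485) (nat_lit 424) (nat_lit 291))))) (XT.nd (nat_lit 312) (nat_lit 228) (nat_lit 0) (XT.nd (nat_lit 156) (nat_lit 76) (nat_lit 0) (XT.nd (nat_lit 78) (nat_lit 152) (nat_lit 0) (XT.lf (nat_lit 0) (nat_lit 45386978339) (nat_lit 76) (nat_lit 16563821655) (nat_lit 152) (nat_lit 19331384448) (nat_lit 53) (nat_lit 5) (nat_lit 54) (nat_lit 5) (nat_lit 55) (nat_lit 4) (nat_lit 486) (nat_lit 424) (nat_lit 290)) (XT.lf (nat_lit 0) (nat_lit 3428549649) (nat_lit 152) (nat_lit 70702706946) (nat_lit 76) (nat_lit 9890962597) (nat_lit 51) (nat_lit 5) (nat_lit 53) (nat_lit 5) (nat_lit 52) (nat_lit 4) (nat_lit 487) (nat_lit 424) (nat_lit 289))) (XT.nd (nat_lit 78) (nat_lit 76) (nat_lit 0) (XT.lf (nat_lit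 0) (nat_lit 27562503674) (nat_lit 152) (nat_lit 21233211185) (nat_lit 76) (nat_lit 38043411298) (nat_lit 51) (nat_lit 5) (nat_lit 53) (nat_lit 5) (nat_lit 52) (nat_lit 4) (nat_lit 488) (nat_lit 424) (nat_lit 288)) (XT.lf (nat_lit 0) (nat_lit 31718171273) (nat_lit 76) (nat_lit 21676649042) (nat_lit 152) (nat_lit 36377475006) (nat_lit 50) (nat_lit 5) (nat_lit 51) (nat_lit 5) (nat_lit 52) (nat_lit 4) (nat_lit 489) (nat_lit 424) (nat_lit 287)))) (XT.nd (nat_lit 156) (nat_lit 76) (nat_lit 0) (XT.nd (nat_lit 78) (nat_lit 152) (nat_lit 0) (XT.lf (nat_lit 0) (nat_lit 80986854677) (nat_lit 152) (nat_lit 4898670762) (nat_lit 0) (nat_lit 6943192500) (nat_lit 50) (nat_lit 5) (nat_lit 52) (nat_lit 4) (nat_lit 50) (nat_lit 4) (nat_lit 490) (nat_lit 424) (nat_lit 286)) (XT.lf (nat_lit 0) (nat_lit 14661482499) (nat_lit 152) (nat_lit 43991827053) (nat_lit 76) (nat_lit 37314460430) (nat_lit 48) (nat_lit 5) (nat_lit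 50) (nat_lit 5) (nat_lit 49) (nat_lit 4) (nat_lit 491) (nat_lit 424) (nat_lit 285))) (XT.nd (nat_lit 78) (nat_lit 0) (nat_lit 0) (XT.lf (nat_lit 0) (nat_lit 12812867625) (nat_lit 76) (nat_lit 29560175113) (nat_lit 152) (nat_lit 56866974951) (nat_lit 47) (nat_lit 5) (nat_lit 48) (nat_lit 5) (nat_lit 49) (nat_lit 4) (nat_lit 492) (nat_lit 424) (nat_lit 284)) (XT.lf (nat_lit 0) (nat_lit 72239494613) (nat_lit 152) (nat_lit 28687644989) (nat_lit 0) (nat_lit 1710272573) (nat_lit 47) (nat_lit 5) (nat_lit 49) (nat_lit 4) (nat_lit 47) (nat_lit 4) (nat_lit 493) (nat_lit 424) (nat_lit 283)))))) (XT.nd (nat_lit 624) (nat_lit 532) (nat_lit 0) (XT.nd (nat_lit 312) (nat_lit 228) (nat_lit 0) (XT.nd (nat_lit 156) (nat_lit 152) (nat_lit 0) (XT.nd (nat_lit 78) (nat_lit 76) (nat_lit 0) (XT.lf (nat_lit 0) (nat_lit 32487886766) (nat_lit 76) (nat_lit 72100019262) (nat_lit 76) (nat_lit 1567338580) (nat_lit 46) (nat_lit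 4) (nat_lit 47) (nat_lit 5) (nat_lit 47) (nat_lit 4) (nat_lit 494) (nat_lit 424) (nat_lit 282)) (XT.lf (nat_lit 0) (nat_lit 28276663614) (nat_lit 152) (nat_lit 12568814218) (nat_lit 76) (nat_lit 68956551495) (nat_lit 45) (nat_lit 5) (nat_lit 47) (nat_lit 5) (nat_lit 46) (nat_lit 4) (nat_lit 495) (nat_lit 424) (nat_lit 281))) (XT.nd (nat_lit 78) (nat_lit 76) (nat_lit 0) (XT.lf (nat_lit 0) (nat_lit 53257657873) (nat_lit 76) (nat_lit 7131010219) (nat_lit 152) (nat_lit 53199776795) (nat_lit 44) (nat_lit 5) (nat_lit 45) (nat_lit 5) (nat_lit 46) (nat_lit 4) (nat_lit 496) (nat_lit 424) (nat_lit 280)) (XT.lf (nat_lit 0) (nat_lit 4966492124) (nat_lit 76) (nat_lit 89872014647) (nat_lit 76) (nat_lit 22689062815) (nat_lit 43) (nat_lit 4) (nat_lit 44) (nat_lit 5) (nat_lit 44) (nat_lit 4) (nat_lit 497) (nat_lit 424) (nat_lit 279)))) (XT.nd (nat_lit 156) (nat_lit 76) (nat_lit 0) (XT.nd (nat_lit 78) (nat_lit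 76) (nat_lit 0) (XT.lf (nat_lit 0) (nat_lit 10200389111) (nat_lit 152) (nat_lit 46274864090) (nat_lit 76) (nat_lit 65123482053) (nat_lit 42) (nat_lit 5) (nat_lit 44) (nat_lit 5) (nat_lit 43) (nat_lit 4) (nat_lit 498) (nat_lit 424) (nat_lit 278)) (XT.lf (nat_lit 0) (nat_lit 23706859703) (nat_lit 76) (nat_lit 20632214620) (nat_lit 152) (nat_lit 81497424240) (nat_lit 41) (nat_lit 5) (nat_lit 42) (nat_lit 5) (nat_lit 43) (nat_lit 4) (nat_lit 499) (nat_lit 424) (nat_lit 277))) (XT.nd (nat_lit 78) (nat_lit 76) (nat_lit 0) (XT.lf (nat_lit 0) (nat_lit 81243831972) (nat_lit 152) (nat_lit 31736672712) (nat_lit 0) (nat_lit 17252688494) (nat_lit 41) (nat_lit 5) (nat_lit 43) (nat_lit 4) (nat_lit 41) (nat_lit 4) (nat_lit 500) (nat_lit 424) (nat_lit 276)) (XT.lf (nat_lit 0) (nat_lit 43215518949) (nat_lit 76) (nat_lit 77788532682) (nat_lit 76) (nat_lit 13795159732) (nat_lit 40) (nat_lit 4) (nat_lit 41) (nat_lit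 5) (nat_lit 41) (nat_lit 4) (nat_lit 501) (nat_lit 424) (nat_lit 275))))) (XT.nd (nat_lit 312) (nat_lit 304) (nat_lit 0) (XT.nd (nat_lit 156) (nat_lit 76) (nat_lit 0) (XT.nd (nat_lit 78) (nat_lit 76) (nat_lit 0) (XT.lf (nat_lit 0) (nat_lit 22961093380) (nat_lit 152) (nat_lit 16925254825) (nat_lit 76) (nat_lit 99661925330) (nat_lit 39) (nat_lit 5) (nat_lit 41) (nat_lit 5) (nat_lit 40) (nat_lit 4) (nat_lit 502) (nat_lit 424) (nat_lit 274)) (XT.lf (nat_lit 0) (nat_lit 62095087890) (nat_lit 152) (nat_lit 81233146316) (nat_lit 0) (nat_lit 1145070315) (nat_lit 38) (nat_lit 5) (nat_lit 40) (nat_lit 4) (nat_lit 38) (nat_lit 4) (nat_lit 503) (nat_lit 424) (nat_lit 273))) (XT.nd (nat_lit 78) (nat_lit 76) (nat_lit 0) (XT.lf (nat_lit 0) (nat_lit 104128408180) (nat_lit 152) (nat_lit 2292491197) (nat_lit 0) (nat_lit 43176556413) (nat_lit 38) (nat_lit 5) (nat_lit 40) (nat_lit 4) (nat_lit 38) (nat_lit 4) (nat_lit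 504) (nat_lit 424) (nat_lit 272)) (XT.lf (nat_lit 0) (nat_lit 83255009298) (nat_lit 76) (nat_lit 66305767432) (nat_lit 76) (nat_lit 5352168816) (nat_lit 37) (nat_lit 4) (nat_lit 38) (nat_lit 5) (nat_lit 38) (nat_lit 4) (nat_lit 505) (nat_lit 424) (nat_lit 271)))) (XT.nd (nat_lit 156) (nat_lit 152) (nat_lit 0) (XT.nd (nat_lit 78) (nat_lit 0) (nat_lit 0) (XT.lf (nat_lit 0) (nat_lit 12487278974) (nat_lit 76) (nat_lit 23338350906) (nat_lit 152) (nat_lit 124628277206) (nat_lit 35) (nat_lit 5) (nat_lit 36) (nat_lit 5) (nat_lit 37) (nat_lit 4) (nat_lit 506) (nat_lit 424) (nat_lit 270)) (XT.lf (nat_lit 0) (nat_lit 80453459828) (nat_lit 152) (nat_lit 63336199330) (nat_lit 0) (nat_lit 22399320089) (nat_lit 35) (nat_lit 5) (nat_lit 37) (nat_lit 4) (nat_lit 35) (nat_lit 4) (nat_lit 507) (nat_lit 424) (nat_lit 269))) (XT.nd (nat_lit 78) (nat_lit 76) (nat_lit 0) (XT.lf (nat_lit 0) (nat_lit 25969704195) (nat_lit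 76) (nat_lit 102128695893) (nat_lit 76) (nat_lit 44073119017) (nat_lit 34) (nat_lit 4) (nat_lit 35) (nat_lit 5) (nat_lit 35) (nat_lit 4) (nat_lit 508) (nat_lit 424) (nat_lit 268)) (XT.lf (nat_lit 0) (nat_lit 770765182) (nat_lit 152) (nat_lit 56476876953) (nat_lit 76) (nat_lit 121151405655) (nat_lit 33) (nat_lit 5) (nat_lit 35) (nat_lit 5) (nat_lit 34) (nat_lit 4) (nat_lit 509) (nat_lit 424) (nat_lit 267))))))) (XT.nd (nat_lit 1170) (nat_lit 684) (nat_lit 0) (XT.nd (nat_lit 546) (nat_lit 380) (nat_lit 0) (XT.nd (nat_lit 234) (nat_lit 228) (nat_lit 0) (XT.nd (nat_lit 78) (nat_lit 76) (nat_lit 0) (XT.lf (nat_lit 0) (nat_lit 38231004046) (nat_lit 76) (nat_lit 8739363344) (nat_lit 152) (nat_lit 137901726559) (nat_lit 32) (nat_lit 5) (nat_lit 33) (nat_lit 5) (nat_lit 34) (nat_lit 4) (nat_lit 510) (nat_lit 424) (nat_lit 266)) (XT.nd (nat_lit 78) (nat_lit 76) (nat_lit 0) (XT.lf (nat_lit 0) (nat_lit 97108644961)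 (nat_lit 152) (nat_lit 52664820666) (nat_lit 0) (nat_lit 41813892049) (nat_lit 32) (nat_lit 5) (nat_lit 34) (nat_lit 4) (nat_lit 32) (nat_lit 4) (nat_lit 511) (nat_lit 424) (nat_lit 265)) (XT.lf (nat_lit 0) (nat_lit 47379206475) (nat_lit 76) (nat_lit 103255506625) (nat_lit 76) (nat_lit 47959627679) (nat_lit 31) (nat_lit 4) (nat_lit 32) (nat_lit 5) (nat_lit 32) (nat_lit 4) (nat_lit 512) (nat_lit 424) (nat_lit 264)))) (XT.nd (nat_lit 156) (nat_lit 76) (nat_lit 0) (XT.nd (nat_lit 78) (nat_lit 76) (nat_lit 0) (XT.lf (nat_lit 0) (nat_lit 1761486536) (nat_lit 152) (nat_lit 51685903960) (nat_lit 76) (nat_lit 152458370692) (nat_lit 30) (nat_lit 5) (nat_lit 32) (nat_lit 5) (nat_lit 31) (nat_lit 4) (nat_lit 513) (nat_lit 424) (nat_lit 263)) (XT.lf (nat_lit 0) (nat_lit 53202750964) (nat_lit 152) (nat_lit 159760382828) (nat_lit 0) (nat_lit 538015052) (nat_lit 29) (nat_lit 5) (nat_lit 31) (nat_lit 4) (nat_lit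 29) (nat_lit 4) (nat_lit 514) (nat_lit 424) (nat_lit 262))) (XT.nd (nat_lit 78) (nat_lit 76) (nat_lit 0) (XT.lf (nat_lit 0) (nat_lit 108979932525) (nat_lit 152) (nat_lit 56093910459) (nat_lit 0) (nat_lit 56314270222) (nat_lit 29) (nat_lit 5) (nat_lit 31) (nat_lit 4) (nat_lit 29) (nat_lit 4) (nat_lit 515) (nat_lit 424) (nat_lit 261)) (XT.lf (nat_lit 0) (nat_lit 54496276325) (nat_lit 76) (nat_lit 113898623855) (nat_lit 76) (nat_lit 61232079274) (nat_lit 28) (nat_lit 4) (nat_lit 29) (nat_lit 5) (nat_lit 29) (nat_lit 4) (nat_lit 516) (nat_lit 424) (nat_lit 260))))) (XT.nd (nat_lit 312) (nat_lit 152) (nat_lit 0) (XT.nd (nat_lit 156) (nat_lit 76) (nat_lit 0) (XT.nd (nat_lit 78) (nat_lit 152) (nat_lit 0) (XT.lf (nat_lit 0) (nat_lit 172559657755) (nat_lit 76) (nat_lit 59169055631) (nat_lit 76) (nat_lit 6501670786) (nat_lit 28) (nat_lit 4) (nat_lit 29) (nat_lit 5) (nat_lit 29) (nat_lit 4) (nat_lit 517)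 (nat_lit 424) (nat_lit 259)) (XT.lf (nat_lit 0) (nat_lit 50065291259) (nat_lit 76) (nat_lit 48599645) (nat_lit 152) (nat_lit 197071290747) (nat_lit 26) (nat_lit 5) (nat_lit 27) (nat_lit 5) (nat_lit 28) (nat_lit 4) (nat_lit 518) (nat_lit 424) (nat_lit 258))) (XT.nd (nat_lit 78) (nat_lit 76) (nat_lit 0) (XT.lf (nat_lit 0) (nat_lit 111438741007) (nat_lit 152) (nat_lit 83760959448) (nat_lit 0) (nat_lit 61277838872) (nat_lit 26) (nat_lit 5) (nat_lit 28) (nat_lit 4) (nat_lit 26) (nat_lit 4) (nat_lit 519) (nat_lit 424) (nat_lit 257)) (XT.lf (nat_lit 0) (nat_lit 36427552544) (nat_lit 76) (nat_lit 139970082844) (nat_lit 76) (nat_lit 89808489422) (nat_lit 25) (nat_lit 4) (nat_lit 26) (nat_lit 5) (nat_lit 26) (nat_lit 4) (nat_lit 520) (nat_lit 424) (nat_lit 256)))) (XT.nd (nat_lit 156) (nat_lit 0) (nat_lit 0) (XT.nd (nat_lit 78) (nat_lit 152) (nat_lit 0) (XT.lf (nat_lit 0) (nat_lit 165530059646) (nat_lit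 76) (nat_lit 80491245107) (nat_lit 76) (nat_lit 30328993316) (nat_lit 25) (nat_lit 4) (nat_lit 26) (nat_lit 5) (nat_lit 26) (nat_lit 4) (nat_lit 521) (nat_lit 424) (nat_lit 255)) (XT.lf (nat_lit 0) (nat_lit 14030199586) (nat_lit 76) (nat_lit 17283497192) (nat_lit 152) (nat_lit 255652035415) (nat_lit 23) (nat_lit 5) (nat_lit 24) (nat_lit 5) (nat_lit 25) (nat_lit 4) (nat_lit 522) (nat_lit 424) (nat_lit 254))) (XT.nd (nat_lit 78) (nat_lit 0) (nat_lit 0) (XT.lf (nat_lit 0) (nat_lit 97691532876) (nat_lit 152) (nat_lit 150345138242) (nat_lit 0) (nat_lit 49916793857) (nat_lit 23) (nat_lit 5) (nat_lit 25) (nat_lit 4) (nat_lit 23) (nat_lit 4) (nat_lit 523) (nat_lit 424) (nat_lit 253)) (XT.lf (nat_lit 0) (nat_lit 167670029475) (nat_lit 152) (nat_lit 21911717683) (nat_lit 0) (nat_lit 119894748815) (nat_lit 23) (nat_lit 5) (nat_lit 25) (nat_lit 4) (nat_lit 23) (nat_lit 4) (nat_lit 524) (nat_lit 424) (nat_lit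 252)))))) (XT.nd (nat_lit 624) (nat_lit 228) (nat_lit 0) (XT.nd (nat_lit 312) (nat_lit 228) (nat_lit 0) (XT.nd (nat_lit 156) (nat_lit 152) (nat_lit 0) (XT.nd (nat_lit 78) (nat_lit 0) (nat_lit 0) (XT.lf (nat_lit 0) (nat_lit 116674685333) (nat_lit 76) (nat_lit 126292891701) (nat_lit 76) (nat_lit 78517095191) (nat_lit 22) (nat_lit 4) (nat_lit 23) (nat_lit 5) (nat_lit 23) (nat_lit 4) (nat_lit 525) (nat_lit 424) (nat_lit 251)) (XT.lf (nat_lit 0) (nat_lit 262948175216) (nat_lit 76) (nat_lit 59451444496) (nat_lit 76) (nat_lit 11675156701) (nat_lit 22) (nat_lit 4) (nat_lit 23) (nat_lit 5) (nat_lit 23) (nat_lit 4) (nat_lit 526) (nat_lit 424) (nat_lit 250))) (XT.nd (nat_lit 78) (nat_lit 0) (nat_lit 0) (XT.lf (nat_lit 0) (nat_lit 57937394232) (nat_lit 152) (nat_lit 276810536807) (nat_lit 0) (nat_lit 12435722151) (nat_lit 20) (nat_lit 5) (nat_lit 22) (nat_lit 4) (nat_lit 20) (nat_lit 4) (nat_lit 527) (nat_lit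 424) (nat_lit 249)) (XT.lf (nat_lit 0) (nat_lit 132835715713) (nat_lit 152) (nat_lit 140659193819) (nat_lit 0) (nat_lit 87333619241) (nat_lit 20) (nat_lit 5) (nat_lit 22) (nat_lit 4) (nat_lit 20) (nat_lit 4) (nat_lit 528) (nat_lit 424) (nat_lit 248)))) (XT.nd (nat_lit 156) (nat_lit 152) (nat_lit 0) (XT.nd (nat_lit 78) (nat_lit 0) (nat_lit 0) (XT.lf (nat_lit 0) (nat_lit 2372935339) (nat_lit 76) (nat_lit 209141714319) (nat_lit 76) (nat_lit 163639213665) (nat_lit 19) (nat_lit 4) (nat_lit 20) (nat_lit 5) (nat_lit 20) (nat_lit 4) (nat_lit 529) (nat_lit 424) (nat_lit 247)) (XT.lf (nat_lit 0) (nat_lit 157437354845) (nat_lit 76) (nat_lit 139070977622) (nat_lit 76) (nat_lit 93568092033) (nat_lit 19) (nat_lit 4) (nat_lit 20) (nat_lit 5) (nat_lit 20) (nat_lit 4) (nat_lit 530) (nat_lit 424) (nat_lit 246))) (XT.nd (nat_lit 78) (nat_lit 152) (nat_lit 0) (XT.lf (nat_lit 0) (nat_lit 320252437515) (nat_lit 76)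 (nat_lit 65497995862) (nat_lit 76) (nat_lit 19994743669) (nat_lit 19) (nat_lit 4) (nat_lit 20) (nat_lit 5) (nat_lit 20) (nat_lit 4) (nat_lit 531) (nat_lit 424) (nat_lit 245)) (XT.lf (nat_lit 0) (nat_lit 56738229698) (nat_lit 152) (nat_lit 351947296293) (nat_lit 0) (nat_lit 13401466517) (nat_lit 17) (nat_lit 5) (nat_lit 19) (nat_lit 4) (nat_lit 17) (nat_lit 4) (nat_lit 532) (nat_lit 424) (nat_lit 244))))) (XT.nd (nat_lit 312) (nat_lit 152) (nat_lit 0) (XT.nd (nat_lit 156) (nat_lit 76) (nat_lit 0) (XT.nd (nat_lit 78) (nat_lit 0) (nat_lit 0) (XT.lf (nat_lit 0) (nat_lit 139180006774) (nat_lit 152) (nat_lit 204079370460) (nat_lit 0) (nat_lit 95842926905) (nat_lit 17) (nat_lit 5) (nat_lit 19) (nat_lit 4) (nat_lit 17) (nat_lit 4) (nat_lit 533) (nat_lit 424) (nat_lit 243)) (XT.lf (nat_lit 0) (nat_lit 225742706575) (nat_lit 152) (nat_lit 48820407990) (nat_lit 0) (nat_lit 182405325100) (nat_lit 17) (nat_lit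 5) (nat_lit 19) (nat_lit 4) (nat_lit 17) (nat_lit 4) (nat_lit 534) (nat_lit 424) (nat_lit 242))) (XT.nd (nat_lit 78) (nat_lit 0) (nat_lit 0) (XT.lf (nat_lit 0) (nat_lit 117975198434) (nat_lit 76) (nat_lit 200499155807) (nat_lit 76) (nat_lit 157161487087) (nat_lit 16) (nat_lit 4) (nat_lit 17) (nat_lit 5) (nat_lit 17) (nat_lit 4) (nat_lit 535) (nat_lit 424) (nat_lit 241)) (XT.lf (nat_lit 0) (nat_lit 294803308462) (nat_lit 76) (nat_lit 121864980826) (nat_lit 76) (nat_lit 78527038541) (nat_lit 16) (nat_lit 4) (nat_lit 17) (nat_lit 5) (nat_lit 17) (nat_lit 4) (nat_lit 536) (nat_lit 424) (nat_lit 240)))) (XT.nd (nat_lit 156) (nat_lit 0) (nat_lit 0) (XT.nd (nat_lit 78) (nat_lit 76) (nat_lit 0) (XT.lf (nat_lit 0) (nat_lit 3908797689) (nat_lit 152) (nat_lit 35325167561) (nat_lit 76) (nat_lit 476495723168) (nat_lit 15) (nat_lit 5) (nat_lit 17) (nat_lit 5) (nat_lit 16) (nat_lit 4) (nat_lit 537) (nat_lit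 424) (nat_lit 239)) (XT.lf (nat_lit 0) (nat_lit 90830614056) (nat_lit 152) (nat_lit 396689727112) (nat_lit 0) (nat_lit 49555898859) (nat_lit 14) (nat_lit 5) (nat_lit 16) (nat_lit 4) (nat_lit 14) (nat_lit 4) (nat_lit 538) (nat_lit 424) (nat_lit 238))) (XT.nd (nat_lit 78) (nat_lit 0) (nat_lit 0) (XT.lf (nat_lit 0) (nat_lit 183348751004) (nat_lit 152) (nat_lit 234005045985) (nat_lit 0) (nat_lit 142073810744) (nat_lit 14) (nat_lit 5) (nat_lit 16) (nat_lit 4) (nat_lit 14) (nat_lit 4) (nat_lit 539) (nat_lit 424) (nat_lit 237)) (XT.lf (nat_lit 0) (nat_lit 280491836555) (nat_lit 152) (nat_lit 63188073238) (nat_lit 0) (nat_lit 239216681949) (nat_lit 14) (nat_lit 5) (nat_lit 16) (nat_lit 4) (nat_lit 14) (nat_lit 4) (nat_lit 540) (nat_lit 424) (nat_lit 236))))))))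
noncomputable def xc149 : XT := (XT.nd (nat_lit 55146) (nat_lit 0) (nat_lit 4104) (XT.nd (nat_lit 53898) (nat_lit 0) (nat_lit 8132) (XT.nd (nat_lit 546) (nat_lit 76) (nat_lit 0) (XT.nd (nat_lit 234) (nat_lit 152) (nat_lit 0) (XT.nd (nat_lit 78) (nat_lit 0) (nat_lit 0) (XT.lf (nat_lit 0) (nat_lit 120008933548) (nat_lit 76) (nat_lit 264355905997) (nat_lit 76) (nat_lit 223080547252) (nat_lit 13) (nat_lit 4) (nat_lit 14) (nat_lit 5) (nat_lit 14) (nat_lit 4) (nat_lit 541) (nat_lit 424) (nat_lit 235)) (XT.nd (nat_lit 78) (nat_lit 0) (nat_lit 0) (XT.lf (nat_lit 0) (nat_lit 314557717792) (nat_lit 76) (nat_lit 179942997915) (nat_lit 76) (nat_lit 138667444751) (nat_lit 13) (nat_lit 4) (nat_lit 14) (nat_lit 5) (nat_lit 14) (nat_lit 4) (nat_lit 542) (nat_lit 424) (nat_lit 234)) (XT.lf (nat_lit 0) (nat_lit 518832207817) (nat_lit 76) (nat_lit 91310323027) (nat_lit 76) (nat_lit 50034584703) (nat_lit 13) (nat_lit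 4) (nat_lit 14) (nat_lit 5) (nat_lit 14) (nat_lit 4) (nat_lit 543) (nat_lit 424) (nat_lit 233)))) (XT.nd (nat_lit 156) (nat_lit 0) (nat_lit 0) (XT.nd (nat_lit 78) (nat_lit 0) (nat_lit 0) (XT.lf (nat_lit 0) (nat_lit 42413370952) (nat_lit 152) (nat_lit 642948546593) (nat_lit 0) (nat_lit 3102976031) (nat_lit 11) (nat_lit 5) (nat_lit 13) (nat_lit 4) (nat_lit 11) (nat_lit 4) (nat_lit 544) (nat_lit 424) (nat_lit 232)) (XT.lf (nat_lit 0) (nat_lit 141731283982) (nat_lit 152) (nat_lit 473777582975) (nat_lit 0) (nat_lit 102420729113) (nat_lit 11) (nat_lit 5) (nat_lit 13) (nat_lit 4) (nat_lit 11) (nat_lit 4) (nat_lit 545) (nat_lit 424) (nat_lit 231))) (XT.nd (nat_lit 78) (nat_lit 0) (nat_lit 0) (XT.lf (nat_lit 0) (nat_lit 246014305117) (nat_lit 152) (nat_lit 296149670037) (nat_lit 0) (nat_lit 206703597916) (nat_lit 11) (nat_lit 5) (nat_lit 13) (nat_lit 4) (nat_lit 11) (nat_lit 4) (nat_lit 546) (nat_lit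 424) (nat_lit 230)) (XT.lf (nat_lit 0) (nat_lit 355510727262) (nat_lit 152) (nat_lit 109641884177) (nat_lit 0) (nat_lit 316199874983) (nat_lit 11) (nat_lit 5) (nat_lit 13) (nat_lit 4) (nat_lit 11) (nat_lit 4) (nat_lit 547) (nat_lit 424) (nat_lit 229))))) (XT.nd (nat_lit 53040) (nat_lit 0) (nat_lit 10488) (XT.nd (nat_lit 52884) (nat_lit 0) (nat_lit 10412) (XT.nd (nat_lit 78) (nat_lit 0) (nat_lit 0) (XT.lf (nat_lit 0) (nat_lit 89039666140) (nat_lit 76) (nat_lit 382831748768) (nat_lit 76) (nat_lit 343520758320) (nat_lit 10) (nat_lit 4) (nat_lit 11) (nat_lit 5) (nat_lit 11) (nat_lit 4) (nat_lit 548) (nat_lit 424) (nat_lit 228)) (XT.lf (nat_lit 0) (nat_lit 301460385790) (nat_lit 76) (nat_lit 294445886918) (nat_lit 76) (nat_lit 255134764879) (nat_lit 10) (nat_lit 4) (nat_lit 11) (nat_lit 5) (nat_lit 11) (nat_lit 4) (nat_lit 549) (nat_lit 424) (nat_lit 227))) (XT.nd (nat_lit 78) (nat_lit 0) (nat_lit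 0) (XT.lf (nat_lit 0) (nat_lit 517791716) (nat_lit 836) (nat_lit 3237074503) (nat_lit 836) (nat_lit 3237074503) (nat_lit 147) (nat_lit 3) (nat_lit 158) (nat_lit 3) (nat_lit 158) (nat_lit 5) (nat_lit 425) (nat_lit 425) (nat_lit 350)) (XT.lf (nat_lit 76) (nat_lit 477026851) (nat_lit 0) (nat_lit 931943160) (nat_lit 836) (nat_lit 12907081023) (nat_lit 148) (nat_lit 5) (nat_lit 147) (nat_lit 3) (nat_lit 158) (nat_lit 5) (nat_lit 426) (nat_lit 425) (nat_lit 349)))) (XT.nd (nat_lit 156) (nat_lit 0) (nat_lit 76) (XT.nd (nat_lit 78) (nat_lit 0) (nat_lit 0) (XT.lf (nat_lit 0) (nat_lit 1983955187) (nat_lit 760) (nat_lit 6766964231) (nat_lit 836) (nat_lit 5904766587) (nat_lit 148) (nat_lit 5) (nat_lit 158) (nat_lit 5) (nat_lit 159) (nat_lit 5) (nat_lit 427) (nat_lit 425) (nat_lit 348)) (XT.lf (nat_lit 76) (nat_lit 651839302) (nat_lit 0) (nat_lit 1940549526) (nat_lit 836) (nat_lit 12419682144) (nat_lit 149)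 (nat_lit 5) (nat_lit 148) (nat_lit 5) (nat_lit 159) (nat_lit 5) (nat_lit 428) (nat_lit 425) (nat_lit 347))) (XT.nd (nat_lit 78) (nat_lit 0) (nat_lit 0) (XT.lf (nat_lit 0) (nat_lit 3409234733) (nat_lit 760) (nat_lit 6800620364) (nat_lit 836) (nat_lit 5167523616) (nat_lit 149) (nat_lit 5) (nat_lit 159) (nat_lit 5) (nat_lit 160) (nat_lit 5) (nat_lit 429) (nat_lit 425) (nat_lit 346)) (XT.lf (nat_lit 76) (nat_lit 1128551058) (nat_lit 0) (nat_lit 3168910726) (nat_lit 836) (nat_lit 11461966021) (nat_lit 150) (nat_lit 5) (nat_lit 149) (nat_lit 5) (nat_lit 160) (nat_lit 5) (nat_lit 430) (nat_lit 425) (nat_lit 345)))))) (XT.nd (nat_lit 624) (nat_lit 1520) (nat_lit 0) (XT.nd (nat_lit 312) (nat_lit 988) (nat_lit 0) (XT.nd (nat_lit 156) (nat_lit 0) (nat_lit 76) (XT.nd (nat_lit 78) (nat_lit 0) (nat_lit 0) (XT.lf (nat_lit 0) (nat_lit 5395009119) (nat_lit 760) (nat_lit 6545899553) (nat_lit 836) (nat_lit 4211428005)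 (nat_lit 150) (nat_lit 5) (nat_lit 160) (nat_lit 5) (nat_lit 161) (nat_lit 5) (nat_lit 431) (nat_lit 425) (nat_lit 344)) (XT.lf (nat_lit 76) (nat_lit 1940608524) (nat_lit 0) (nat_lit 4671834254) (nat_lit 836) (nat_lit 9949200404) (nat_lit 151) (nat_lit 5) (nat_lit 150) (nat_lit 5) (nat_lit 161) (nat_lit 5) (nat_lit 432) (nat_lit 425) (nat_lit 343))) (XT.nd (nat_lit 78) (nat_lit 0) (nat_lit 0) (XT.lf (nat_lit 0) (nat_lit 8033094040) (nat_lit 760) (nat_lit 5968780657) (nat_lit 836) (nat_lit 2982425531) (nat_lit 151) (nat_lit 5) (nat_lit 161) (nat_lit 5) (nat_lit 162) (nat_lit 5) (nat_lit 433) (nat_lit 425) (nat_lit 342)) (XT.lf (nat_lit 76) (nat_lit 3126649646) (nat_lit 0) (nat_lit 6507765590) (nat_lit 836) (nat_lit 7788195415) (nat_lit 152) (nat_lit 5) (nat_lit 151) (nat_lit 5) (nat_lit 162) (nat_lit 5) (nat_lit 434) (nat_lit 425) (nat_lit 341)))) (XT.nd (nat_lit 156) (nat_lit 380) (nat_lit 0)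 (XT.nd (nat_lit 78) (nat_lit 760) (nat_lit 0) (XT.lf (nat_lit 0) (nat_lit 11424619065) (nat_lit 760) (nat_lit 5030130098) (nat_lit 76) (nat_lit 1422648883) (nat_lit 152) (nat_lit 5) (nat_lit 162) (nat_lit 5) (nat_lit 153) (nat_lit 5) (nat_lit 435) (nat_lit 425) (nat_lit 340)) (XT.lf (nat_lit 0) (nat_lit 4730853226) (nat_lit 760) (nat_lit 8739574489) (nat_lit 836) (nat_lit 4876194534) (nat_lit 142) (nat_lit 5) (nat_lit 152) (nat_lit 5) (nat_lit 153) (nat_lit 5) (nat_lit 436) (nat_lit 425) (nat_lit 339))) (XT.nd (nat_lit 78) (nat_lit 380) (nat_lit 0) (XT.lf (nat_lit 0) (nat_lit 15141856785) (nat_lit 760) (nat_lit 547896244) (nat_lit 836) (nat_lit 3145995388) (nat_lit 142) (nat_lit 5) (nat_lit 152) (nat_lit 5) (nat_lit 153) (nat_lit 5) (nat_lit 437) (nat_lit 425) (nat_lit 338)) (XT.lf (nat_lit 0) (nat_lit 6803346845) (nat_lit 380) (nat_lit 11435375357) (nat_lit 456) (nat_lit 1099676781) (nat_lit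 137) (nat_lit 5) (nat_lit 142) (nat_lit 5) (nat_lit 143) (nat_lit 5) (nat_lit 438) (nat_lit 425) (nat_lit 337))))) (XT.nd (nat_lit 312) (nat_lit 684) (nat_lit 0) (XT.nd (nat_lit 156) (nat_lit 380) (nat_lit 0) (XT.nd (nat_lit 78) (nat_lit 380) (nat_lit 0) (XT.lf (nat_lit 0) (nat_lit 1074896645) (nat_lit 456) (nat_lit 1948722520) (nat_lit 76) (nat_lit 16838770234) (nat_lit 136) (nat_lit 5) (nat_lit 142) (nat_lit 5) (nat_lit 137) (nat_lit 5) (nat_lit 439) (nat_lit 425) (nat_lit 336)) (XT.lf (nat_lit 0) (nat_lit 3549577285) (nat_lit 456) (nat_lit 11059701406) (nat_lit 76) (nat_lit 5790984227) (nat_lit 131) (nat_lit 5) (nat_lit 137) (nat_lit 5) (nat_lit 132) (nat_lit 5) (nat_lit 440) (nat_lit 425) (nat_lit 335))) (XT.nd (nat_lit 78) (nat_lit 0) (nat_lit 0) (XT.lf (nat_lit 0) (nat_lit 243511851) (nat_lit 380) (nat_lit 5979361675) (nat_lit 456) (nat_lit 14738414128) (nat_lit 126) (nat_lit 5) (nat_lit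 131) (nat_lit 5) (nat_lit 132) (nat_lit 5) (nat_lit 441) (nat_lit 425) (nat_lit 334)) (XT.lf (nat_lit 0) (nat_lit 9256657421) (nat_lit 456) (nat_lit 9109457861) (nat_lit 76) (nat_lit 3172908745) (nat_lit 126) (nat_lit 5) (nat_lit 132) (nat_lit 5) (nat_lit 127) (nat_lit 5) (nat_lit 442) (nat_lit 425) (nat_lit 333)))) (XT.nd (nat_lit 156) (nat_lit 380) (nat_lit 0) (XT.nd (nat_lit 78) (nat_lit 0) (nat_lit 0) (XT.lf (nat_lit 0) (nat_lit 3066916061) (nat_lit 304) (nat_lit 9510007044) (nat_lit 380) (nat_lit 9561985953) (nat_lit 122) (nat_lit 5) (nat_lit 126) (nat_lit 5) (nat_lit 127) (nat_lit 5) (nat_lit 443) (nat_lit 425) (nat_lit 332)) (XT.lf (nat_lit 0) (nat_lit 16156072008) (nat_lit 304) (nat_lit 50627463) (nat_lit 380) (nat_lit 6554915398) (nat_lit 122) (nat_lit 5) (nat_lit 126) (nat_lit 5) (nat_lit 127) (nat_lit 5) (nat_lit 444) (nat_lit 425) (nat_lit 331))) (XT.nd (nat_lit 78) (nat_lit 76) (nat_lit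 0) (XT.lf (nat_lit 0) (nat_lit 6526638843) (nat_lit 304) (nat_lit 13737221132) (nat_lit 380) (nat_lit 3139302564) (nat_lit 118) (nat_lit 5) (nat_lit 122) (nat_lit 5) (nat_lit 123) (nat_lit 5) (nat_lit 445) (nat_lit 425) (nat_lit 330)) (XT.lf (nat_lit 0) (nat_lit 537165413) (nat_lit 380) (nat_lit 3548421923) (nat_lit 76) (nat_lit 19985633236) (nat_lit 117) (nat_lit 5) (nat_lit 122) (nat_lit 5) (nat_lit 118) (nat_lit 5) (nat_lit 446) (nat_lit 425) (nat_lit 329))))))) (XT.nd (nat_lit 1170) (nat_lit 1824) (nat_lit 0) (XT.nd (nat_lit 546) (nat_lit 1064) (nat_lit 0) (XT.nd (nat_lit 234) (nat_lit 532) (nat_lit 0) (XT.nd (nat_lit 78) (nat_lit 304) (nat_lit 0) (XT.lf (nat_lit 0) (nat_lit 4547749127) (nat_lit 380) (nat_lit 14134041363) (nat_lit 76) (nat_lit 6075529294) (nat_lit 113) (nat_lit 5) (nat_lit 118) (nat_lit 5) (nat_lit 114) (nat_lit 5) (nat_lit 447) (nat_lit 425) (nat_lit 328)) (XT.nd (nat_lit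 78) (nat_lit 0) (nat_lit 0) (XT.lf (nat_lit 0) (nat_lit 74457187) (nat_lit 304) (nat_lit 8804204666) (nat_lit 380) (nat_lit 16593073210) (nat_lit 109) (nat_lit 5) (nat_lit 113) (nat_lit 5) (nat_lit 114) (nat_lit 5) (nat_lit 448) (nat_lit 425) (nat_lit 327)) (XT.lf (nat_lit 0) (nat_lit 13684684259) (nat_lit 380) (nat_lit 10766438902) (nat_lit 76) (nat_lit 1757820786) (nat_lit 109) (nat_lit 5) (nat_lit 114) (nat_lit 5) (nat_lit 110) (nat_lit 5) (nat_lit 449) (nat_lit 425) (nat_lit 326)))) (XT.nd (nat_lit 156) (nat_lit 304) (nat_lit 0) (XT.nd (nat_lit 78) (nat_lit 0) (nat_lit 0) (XT.lf (nat_lit 0) (nat_lit 4586772909) (nat_lit 228) (nat_lit 14351420233) (nat_lit 304) (nat_lit 8034461860) (nat_lit 106) (nat_lit 5) (nat_lit 109) (nat_lit 5) (nat_lit 110) (nat_lit 5) (nat_lit 450) (nat_lit 425) (nat_lit 325)) (XT.lf (nat_lit 0) (nat_lit 21069976286) (nat_lit 228) (nat_lit 3558215994) (nat_lit 304)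 (nat_lit 3137669535) (nat_lit 106) (nat_lit 5) (nat_lit 109) (nat_lit 5) (nat_lit 110) (nat_lit 5) (nat_lit 451) (nat_lit 425) (nat_lit 324))) (XT.nd (nat_lit 78) (nat_lit 0) (nat_lit 0) (XT.lf (nat_lit 0) (nat_lit 2213034857) (nat_lit 304) (nat_lit 18656091017) (nat_lit 76) (nat_lit 7714378993) (nat_lit 102) (nat_lit 5) (nat_lit 106) (nat_lit 5) (nat_lit 103) (nat_lit 5) (nat_lit 452) (nat_lit 425) (nat_lit 323)) (XT.lf (nat_lit 0) (nat_lit 7891342953) (nat_lit 304) (nat_lit 1945002436) (nat_lit 76) (nat_lit 19594837901) (nat_lit 102) (nat_lit 5) (nat_lit 106) (nat_lit 5) (nat_lit 103) (nat_lit 5) (nat_lit 453) (nat_lit 425) (nat_lit 322))))) (XT.nd (nat_lit 312) (nat_lit 380) (nat_lit 0) (XT.nd (nat_lit 156) (nat_lit 228) (nat_lit 0) (XT.nd (nat_lit 78) (nat_lit 228) (nat_lit 0) (XT.lf (nat_lit 0) (nat_lit 14128707960) (nat_lit 304) (nat_lit 14234097909) (nat_lit 76) (nat_lit 1944683469) (nat_lit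 99) (nat_lit 5) (nat_lit 103) (nat_lit 5) (nat_lit 100) (nat_lit 5) (nat_lit 454) (nat_lit 425) (nat_lit 321)) (XT.lf (nat_lit 0) (nat_lit 3782572281) (nat_lit 228) (nat_lit 17141618099) (nat_lit 304) (nat_lit 10291108594) (nat_lit 96) (nat_lit 5) (nat_lit 99) (nat_lit 5) (nat_lit 100) (nat_lit 5) (nat_lit 455) (nat_lit 425) (nat_lit 320))) (XT.nd (nat_lit 78) (nat_lit 228) (nat_lit 0) (XT.lf (nat_lit 0) (nat_lit 23183459180) (nat_lit 228) (nat_lit 5109701046) (nat_lit 304) (nat_lit 3863653906) (nat_lit 96) (nat_lit 5) (nat_lit 99) (nat_lit 5) (nat_lit 100) (nat_lit 5) (nat_lit 456) (nat_lit 425) (nat_lit 319)) (XT.lf (nat_lit 0) (nat_lit 3073597872) (nat_lit 228) (nat_lit 22560293971) (nat_lit 76) (nat_lit 7495223168) (nat_lit 93) (nat_lit 5) (nat_lit 96) (nat_lit 5) (nat_lit 94) (nat_lit 5) (nat_lit 457) (nat_lit 425) (nat_lit 318)))) (XT.nd (nat_lit 156) (nat_lit 152) (nat_lit 0) (XT.nd (nat_lit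 78) (nat_lit 228) (nat_lit 0) (XT.lf (nat_lit 0) (nat_lit 10459103622) (nat_lit 228) (nat_lit 2903026606) (nat_lit 76) (nat_lit 20773172612) (nat_lit 93) (nat_lit 5) (nat_lit 96) (nat_lit 5) (nat_lit 94) (nat_lit 5) (nat_lit 458) (nat_lit 425) (nat_lit 317)) (XT.lf (nat_lit 0) (nat_lit 18313105416) (nat_lit 228) (nat_lit 180041483) (nat_lit 304) (nat_lit 16684690631) (nat_lit 90) (nat_lit 5) (nat_lit 93) (nat_lit 5) (nat_lit 94) (nat_lit 5) (nat_lit 459) (nat_lit 425) (nat_lit 316))) (XT.nd (nat_lit 78) (nat_lit 0) (nat_lit 0) (XT.lf (nat_lit 0) (nat_lit 4335208629) (nat_lit 152) (nat_lit 22918077907) (nat_lit 228) (nat_lit 9002993261) (nat_lit 88) (nat_lit 5) (nat_lit 90) (nat_lit 5) (nat_lit 91) (nat_lit 5) (nat_lit 460) (nat_lit 425) (nat_lit 315)) (XT.lf (nat_lit 0) (nat_lit 27167527792) (nat_lit 152) (nat_lit 9566026690) (nat_lit 228) (nat_lit 640984158) (nat_lit 88) (nat_lit 5) (nat_lit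 90) (nat_lit 5) (nat_lit 91) (nat_lit 5) (nat_lit 461) (nat_lit 425) (nat_lit 314)))))) (XT.nd (nat_lit 624) (nat_lit 836) (nat_lit 0) (XT.nd (nat_lit 312) (nat_lit 380) (nat_lit 0) (XT.nd (nat_lit 156) (nat_lit 304) (nat_lit 0) (XT.nd (nat_lit 78) (nat_lit 0) (nat_lit 0) (XT.lf (nat_lit 0) (nat_lit 8148186930) (nat_lit 304) (nat_lit 25739750413) (nat_lit 76) (nat_lit 4640941612) (nat_lit 84) (nat_lit 5) (nat_lit 88) (nat_lit 5) (nat_lit 85) (nat_lit 5) (nat_lit 462) (nat_lit 425) (nat_lit 313)) (XT.lf (nat_lit 0) (nat_lit 17681687202) (nat_lit 304) (nat_lit 2622904741) (nat_lit 76) (nat_lit 19419498808) (nat_lit 84) (nat_lit 5) (nat_lit 88) (nat_lit 5) (nat_lit 85) (nat_lit 5) (nat_lit 463) (nat_lit 425) (nat_lit 312))) (XT.nd (nat_lit 78) (nat_lit 152) (nat_lit 0) (XT.lf (nat_lit 0) (nat_lit 22355893387) (nat_lit 152) (nat_lit 5679195192) (nat_lit 228) (nat_lit 12926813687) (nat_lit 82) (nat_lit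 5) (nat_lit 84) (nat_lit 5) (nat_lit 85) (nat_lit 5) (nat_lit 464) (nat_lit 425) (nat_lit 311)) (XT.lf (nat_lit 0) (nat_lit 6460779499) (nat_lit 152) (nat_lit 32736756258) (nat_lit 228) (nat_lit 3049500226) (nat_lit 80) (nat_lit 5) (nat_lit 82) (nat_lit 5) (nat_lit 83) (nat_lit 5) (nat_lit 465) (nat_lit 425) (nat_lit 310)))) (XT.nd (nat_lit 156) (nat_lit 152) (nat_lit 0) (XT.nd (nat_lit 78) (nat_lit 152) (nat_lit 0) (XT.lf (nat_lit 0) (nat_lit 7495007400) (nat_lit 228) (nat_lit 10375914761) (nat_lit 76) (nat_lit 25699405606) (nat_lit 79) (nat_lit 5) (nat_lit 82) (nat_lit 5) (nat_lit 80) (nat_lit 5) (nat_lit 466) (nat_lit 425) (nat_lit 309)) (XT.lf (nat_lit 0) (nat_lit 16783037802) (nat_lit 152) (nat_lit 1937820149) (nat_lit 228) (nat_lit 26223596918) (nat_lit 77) (nat_lit 5) (nat_lit 79) (nat_lit 5) (nat_lit 80) (nat_lit 5) (nat_lit 467) (nat_lit 425) (nat_lit 308))) (XT.nd (nat_lit 78) (nat_lit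 152) (nat_lit 0) (XT.lf (nat_lit 0) (nat_lit 30912179536) (nat_lit 228) (nat_lit 961299622) (nat_lit 76) (nat_lit 14493600583) (nat_lit 77) (nat_lit 5) (nat_lit 80) (nat_lit 5) (nat_lit 78) (nat_lit 5) (nat_lit 468) (nat_lit 425) (nat_lit 307)) (XT.lf (nat_lit 0) (nat_lit 28469555521) (nat_lit 152) (nat_lit 15714657439) (nat_lit 228) (nat_lit 3653065933) (nat_lit 75) (nat_lit 5) (nat_lit 77) (nat_lit 5) (nat_lit 78) (nat_lit 5) (nat_lit 469) (nat_lit 425) (nat_lit 306))))) (XT.nd (nat_lit 312) (nat_lit 380) (nat_lit 0) (XT.nd (nat_lit 156) (nat_lit 228) (nat_lit 0) (XT.nd (nat_lit 78) (nat_lit 0) (nat_lit 0) (XT.lf (nat_lit 0) (nat_lit 8654587415) (nat_lit 228) (nat_lit 39183853460) (nat_lit 76) (nat_lit 1525954243) (nat_lit 72) (nat_lit 5) (nat_lit 75) (nat_lit 5) (nat_lit 73) (nat_lit 5) (nat_lit 470) (nat_lit 425) (nat_lit 305)) (XT.lf (nat_lit 0) (nat_lit 22040820221) (nat_lit 228) (nat_lit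 9404508236) (nat_lit 76) (nat_lit 19490246472) (nat_lit 72) (nat_lit 5) (nat_lit 75) (nat_lit 5) (nat_lit 73) (nat_lit 5) (nat_lit 471) (nat_lit 425) (nat_lit 304))) (XT.nd (nat_lit 78) (nat_lit 76) (nat_lit 0) (XT.lf (nat_lit 0) (nat_lit 22578078040) (nat_lit 152) (nat_lit 13866000918) (nat_lit 228) (nat_lit 16123849324) (nat_lit 70) (nat_lit 5) (nat_lit 72) (nat_lit 5) (nat_lit 73) (nat_lit 5) (nat_lit 472) (nat_lit 425) (nat_lit 303)) (XT.lf (nat_lit 0) (nat_lit 2200056668) (nat_lit 76) (nat_lit 49630624165) (nat_lit 152) (nat_lit 2438059714) (nat_lit 69) (nat_lit 5) (nat_lit 70) (nat_lit 5) (nat_lit 71) (nat_lit 4) (nat_lit 473) (nat_lit 425) (nat_lit 302)))) (XT.nd (nat_lit 156) (nat_lit 152) (nat_lit 0) (XT.nd (nat_lit 78) (nat_lit 152) (nat_lit 0) (XT.lf (nat_lit 0) (nat_lit 12288922600) (nat_lit 152) (nat_lit 19418921201) (nat_lit 76) (nat_lit 24300495123) (nat_lit 68) (nat_lit 5) (nat_lit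 70) (nat_lit 5) (nat_lit 69) (nat_lit 5) (nat_lit 474) (nat_lit 425) (nat_lit 301)) (XT.lf (nat_lit 0) (nat_lit 15305193329) (nat_lit 152) (nat_lit 12599580142) (nat_lit 228) (nat_lit 29916422847) (nat_lit 66) (nat_lit 5) (nat_lit 68) (nat_lit 5) (nat_lit 69) (nat_lit 5) (nat_lit 475) (nat_lit 425) (nat_lit 300))) (XT.nd (nat_lit 78) (nat_lit 152) (nat_lit 0) (XT.lf (nat_lit 0) (nat_lit 44747746348) (nat_lit 228) (nat_lit 7398551888) (nat_lit 76) (nat_lit 7556082081) (nat_lit 66) (nat_lit 5) (nat_lit 69) (nat_lit 5) (nat_lit 67) (nat_lit 4) (nat_lit 476) (nat_lit 425) (nat_lit 299)) (XT.lf (nat_lit 0) (nat_lit 1416365972) (nat_lit 152) (nat_lit 31438731979) (nat_lit 76) (nat_lit 28787671471) (nat_lit 64) (nat_lit 5) (nat_lit 66) (nat_lit 5) (nat_lit 65) (nat_lit 5) (nat_lit 477) (nat_lit 425) (nat_lit 298))))))))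
noncomputable def xc150 : XT := (XT.nd (nat_lit 2418) (nat_lit 1596) (nat_lit 0) (XT.nd (nat_lit 1170) (nat_lit 988) (nat_lit 0) (XT.nd (nat_lit 546) (nat_lit 684) (nat_lit 0) (XT.nd (nat_lit 234) (nat_lit 304) (nat_lit 0) (XT.nd (nat_lit 78) (nat_lit 76) (nat_lit 0) (XT.lf (nat_lit 0) (nat_lit 6213669485) (nat_lit 152) (nat_lit 12109800134) (nat_lit 228) (nat_lit 45333444276) (nat_lit 62) (nat_lit 5) (nat_lit 64) (nat_lit 5) (nat_lit 65) (nat_lit 5) (nat_lit 478) (nat_lit 425) (nat_lit 297)) (XT.nd (nat_lit 78) (nat_lit 76) (nat_lit 0) (XT.lf (nat_lit 0) (nat_lit 36763898548) (nat_lit 228) (nat_lit 19072447773) (nat_lit 76) (nat_lit 9901020935) (nat_lit 62) (nat_lit 5) (nat_lit 65) (nat_lit 5) (nat_lit 63) (nat_lit 4) (nat_lit 479) (nat_lit 425) (nat_lit 296)) (XT.lf (nat_lit 0) (nat_lit 21705724991) (nat_lit 76) (nat_lit 34954025459) (nat_lit 152) (nat_lit 11235422923) (nat_lit 61) (nat_lit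 5) (nat_lit 62) (nat_lit 5) (nat_lit 63) (nat_lit 4) (nat_lit 480) (nat_lit 425) (nat_lit 295)))) (XT.nd (nat_lit 156) (nat_lit 76) (nat_lit 0) (XT.nd (nat_lit 78) (nat_lit 152) (nat_lit 0) (XT.lf (nat_lit 0) (nat_lit 7477316615) (nat_lit 152) (nat_lit 5087801941) (nat_lit 76) (nat_lit 57573767707) (nat_lit 60) (nat_lit 5) (nat_lit 62) (nat_lit 5) (nat_lit 61) (nat_lit 5) (nat_lit 481) (nat_lit 425) (nat_lit 294)) (XT.lf (nat_lit 0) (nat_lit 27539075519) (nat_lit 228) (nat_lit 33508933744) (nat_lit 76) (nat_lit 11398018000) (nat_lit 58) (nat_lit 5) (nat_lit 61) (nat_lit 5) (nat_lit 59) (nat_lit 4) (nat_lit 482) (nat_lit 425) (nat_lit 293))) (XT.nd (nat_lit 78) (nat_lit 0) (nat_lit 0) (XT.lf (nat_lit 0) (nat_lit 10600490289) (nat_lit 76) (nat_lit 38458717868) (nat_lit 152) (nat_lit 25786553000) (nat_lit 57) (nat_lit 5) (nat_lit 58) (nat_lit 5) (nat_lit 59) (nat_lit 4) (nat_lit 483) (nat_lit 425)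 (nat_lit 292)) (XT.lf (nat_lit 0) (nat_lit 58071806530) (nat_lit 76) (nat_lit 14147322616) (nat_lit 152) (nat_lit 5118163643) (nat_lit 57) (nat_lit 5) (nat_lit 58) (nat_lit 5) (nat_lit 59) (nat_lit 4) (nat_lit 484) (nat_lit 425) (nat_lit 291))))) (XT.nd (nat_lit 312) (nat_lit 228) (nat_lit 0) (XT.nd (nat_lit 156) (nat_lit 228) (nat_lit 0) (XT.nd (nat_lit 78) (nat_lit 0) (nat_lit 0) (XT.lf (nat_lit 0) (nat_lit 16685198804) (nat_lit 228) (nat_lit 51494027636) (nat_lit 76) (nat_lit 11729612127) (nat_lit 54) (nat_lit 5) (nat_lit 57) (nat_lit 5) (nat_lit 55) (nat_lit 4) (nat_lit 485) (nat_lit 425) (nat_lit 290)) (XT.lf (nat_lit 0) (nat_lit 39966697553) (nat_lit 228) (nat_lit 3772588965) (nat_lit 76) (nat_lit 38837481410) (nat_lit 54) (nat_lit 5) (nat_lit 57) (nat_lit 5) (nat_lit 55) (nat_lit 4) (nat_lit 486) (nat_lit 425) (nat_lit 289))) (XT.nd (nat_lit 78) (nat_lit 152) (nat_lit 0) (XT.lf (nat_lit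 0) (nat_lit 47860330467) (nat_lit 76) (nat_lit 17295774364) (nat_lit 152) (nat_lit 20184797350) (nat_lit 53) (nat_lit 5) (nat_lit 54) (nat_lit 5) (nat_lit 55) (nat_lit 4) (nat_lit 487) (nat_lit 425) (nat_lit 288)) (XT.lf (nat_lit 0) (nat_lit 3708996048) (nat_lit 152) (nat_lit 74029695651) (nat_lit 76) (nat_lit 10479184567) (nat_lit 51) (nat_lit 5) (nat_lit 53) (nat_lit 5) (nat_lit 52) (nat_lit 4) (nat_lit 488) (nat_lit 425) (nat_lit 287)))) (XT.nd (nat_lit 156) (nat_lit 152) (nat_lit 0) (XT.nd (nat_lit 78) (nat_lit 76) (nat_lit 0) (XT.lf (nat_lit 0) (nat_lit 29044456397) (nat_lit 152) (nat_lit 22096636847) (nat_lit 76) (nat_lit 40034795045) (nat_lit 51) (nat_lit 5) (nat_lit 53) (nat_lit 5) (nat_lit 52) (nat_lit 4) (nat_lit 489) (nat_lit 425) (nat_lit 286)) (XT.lf (nat_lit 0) (nat_lit 33499117397) (nat_lit 76) (nat_lit 22667372388) (nat_lit 152) (nat_lit 38089321213) (nat_lit 50) (nat_lit 5) (nat_lit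 51) (nat_lit 5) (nat_lit 52) (nat_lit 4) (nat_lit 490) (nat_lit 425) (nat_lit 285))) (XT.nd (nat_lit 78) (nat_lit 152) (nat_lit 0) (XT.lf (nat_lit 0) (nat_lit 85134656599) (nat_lit 152) (nat_lit 4954382438) (nat_lit 0) (nat_lit 7376189300) (nat_lit 50) (nat_lit 5) (nat_lit 52) (nat_lit 4) (nat_lit 50) (nat_lit 4) (nat_lit 491) (nat_lit 425) (nat_lit 284)) (XT.lf (nat_lit 0) (nat_lit 15492821129) (nat_lit 152) (nat_lit 46001997137) (nat_lit 76) (nat_lit 39266424687) (nat_lit 48) (nat_lit 5) (nat_lit 50) (nat_lit 5) (nat_lit 49) (nat_lit 4) (nat_lit 492) (nat_lit 425) (nat_lit 283)))))) (XT.nd (nat_lit 624) (nat_lit 456) (nat_lit 0) (XT.nd (nat_lit 312) (nat_lit 304) (nat_lit 0) (XT.nd (nat_lit 156) (nat_lit 152) (nat_lit 0) (XT.nd (nat_lit 78) (nat_lit 0) (nat_lit 0) (XT.lf (nat_lit 0) (nat_lit 13639877094) (nat_lit 76) (nat_lit 30948312720) (nat_lit 152) (nat_lit 59609001818) (nat_lit 47) (nat_lit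 5) (nat_lit 48) (nat_lit 5) (nat_lit 49) (nat_lit 4) (nat_lit 493) (nat_lit 425) (nat_lit 282)) (XT.lf (nat_lit 0) (nat_lit 75944705610) (nat_lit 152) (nat_lit 29941274964) (nat_lit 0) (nat_lit 1878638306) (nat_lit 47) (nat_lit 5) (nat_lit 49) (nat_lit 4) (nat_lit 47) (nat_lit 4) (nat_lit 494) (nat_lit 425) (nat_lit 281))) (XT.nd (nat_lit 78) (nat_lit 76) (nat_lit 0) (XT.lf (nat_lit 0) (nat_lit 34290118019) (nat_lit 76) (nat_lit 75618756288) (nat_lit 76) (nat_lit 1549551893) (nat_lit 46) (nat_lit 4) (nat_lit 47) (nat_lit 5) (nat_lit 47) (nat_lit 4) (nat_lit 495) (nat_lit 425) (nat_lit 280)) (XT.lf (nat_lit 0) (nat_lit 29779140698) (nat_lit 152) (nat_lit 13024953666) (nat_lit 76) (nat_lit 72483602428) (nat_lit 45) (nat_lit 5) (nat_lit 47) (nat_lit 5) (nat_lit 46) (nat_lit 4) (nat_lit 496) (nat_lit 425) (nat_lit 279)))) (XT.nd (nat_lit 156) (nat_lit 152) (nat_lit 0) (XT.nd (nat_lit 78) (nat_lit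 76) (nat_lit 0) (XT.lf (nat_lit 0) (nat_lit 56090062977) (nat_lit 76) (nat_lit 7405108003) (nat_lit 152) (nat_lit 55768340959) (nat_lit 44) (nat_lit 5) (nat_lit 45) (nat_lit 5) (nat_lit 46) (nat_lit 4) (nat_lit 497) (nat_lit 425) (nat_lit 278)) (XT.lf (nat_lit 0) (nat_lit 5384623104) (nat_lit 76) (nat_lit 94282609492) (nat_lit 76) (nat_lit 23732373807) (nat_lit 43) (nat_lit 4) (nat_lit 44) (nat_lit 5) (nat_lit 44) (nat_lit 4) (nat_lit 498) (nat_lit 425) (nat_lit 277))) (XT.nd (nat_lit 78) (nat_lit 76) (nat_lit 0) (XT.lf (nat_lit 0) (nat_lit 10794432405) (nat_lit 152) (nat_lit 48424107246) (nat_lit 76) (nat_lit 68455929688) (nat_lit 42) (nat_lit 5) (nat_lit 44) (nat_lit 5) (nat_lit 43) (nat_lit 4) (nat_lit 499) (nat_lit 425) (nat_lit 276)) (XT.lf (nat_lit 0) (nat_lit 25054049510) (nat_lit 76) (nat_lit 21584528115) (nat_lit 152) (nat_lit 85485616973) (nat_lit 41) (nat_lit 5) (nat_lit 42) (nat_lit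 5) (nat_lit 43) (nat_lit 4) (nat_lit 500) (nat_lit 425) (nat_lit 275))))) (XT.nd (nat_lit 312) (nat_lit 228) (nat_lit 0) (XT.nd (nat_lit 156) (nat_lit 152) (nat_lit 0) (XT.nd (nat_lit 78) (nat_lit 76) (nat_lit 0) (XT.lf (nat_lit 0) (nat_lit 85385821322) (nat_lit 152) (nat_lit 33166613335) (nat_lit 0) (nat_lit 18188426946) (nat_lit 41) (nat_lit 5) (nat_lit 43) (nat_lit 4) (nat_lit 41) (nat_lit 4) (nat_lit 501) (nat_lit 425) (nat_lit 274)) (XT.lf (nat_lit 0) (nat_lit 45530657377) (nat_lit 76) (nat_lit 81602004725) (nat_lit 76) (nat_lit 14402588153) (nat_lit 40) (nat_lit 4) (nat_lit 41) (nat_lit 5) (nat_lit 41) (nat_lit 4) (nat_lit 502) (nat_lit 425) (nat_lit 273))) (XT.nd (nat_lit 78) (nat_lit 76) (nat_lit 0) (XT.lf (nat_lit 0) (nat_lit 24185047579) (nat_lit 152) (nat_lit 17621994936) (nat_lit 76) (nat_lit 104714848558) (nat_lit 39) (nat_lit 5) (nat_lit 41) (nat_lit 5) (nat_lit 40) (nat_lit 4)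 (nat_lit 503) (nat_lit 425) (nat_lit 272)) (XT.lf (nat_lit 0) (nat_lit 65275556744) (nat_lit 152) (nat_lit 85145094823) (nat_lit 0) (nat_lit 1272531348) (nat_lit 38) (nat_lit 5) (nat_lit 40) (nat_lit 4) (nat_lit 38) (nat_lit 4) (nat_lit 504) (nat_lit 425) (nat_lit 271)))) (XT.nd (nat_lit 156) (nat_lit 152) (nat_lit 0) (XT.nd (nat_lit 78) (nat_lit 76) (nat_lit 0) (XT.lf (nat_lit 0) (nat_lit 109406937598) (nat_lit 152) (nat_lit 2264535940) (nat_lit 0) (nat_lit 45402248536) (nat_lit 38) (nat_lit 5) (nat_lit 40) (nat_lit 4) (nat_lit 38) (nat_lit 4) (nat_lit 505) (nat_lit 425) (nat_lit 270)) (XT.lf (nat_lit 0) (nat_lit 87558039906) (nat_lit 76) (nat_lit 69551641074) (nat_lit 76) (nat_lit 5545367568) (nat_lit 37) (nat_lit 4) (nat_lit 38) (nat_lit 5) (nat_lit 38) (nat_lit 4) (nat_lit 506) (nat_lit 425) (nat_lit 269))) (XT.nd (nat_lit 78) (nat_lit 0) (nat_lit 0) (XT.lf (nat_lit 0) (nat_lit 13252004587)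 (nat_lit 76) (nat_lit 24435696430) (nat_lit 152) (nat_lit 130785361030) (nat_lit 35) (nat_lit 5) (nat_lit 36) (nat_lit 5) (nat_lit 37) (nat_lit 4) (nat_lit 507) (nat_lit 425) (nat_lit 268)) (XT.lf (nat_lit 0) (nat_lit 84544586016) (nat_lit 152) (nat_lit 66366994208) (nat_lit 0) (nat_lit 23583424457) (nat_lit 35) (nat_lit 5) (nat_lit 37) (nat_lit 4) (nat_lit 35) (nat_lit 4) (nat_lit 508) (nat_lit 425) (nat_lit 267))))))) (XT.nd (nat_lit 1170) (nat_lit 684) (nat_lit 0) (XT.nd (nat_lit 546) (nat_lit 456) (nat_lit 0) (XT.nd (nat_lit 234) (nat_lit 228) (nat_lit 0) (XT.nd (nat_lit 78) (nat_lit 152) (nat_lit 0) (XT.lf (nat_lit 0) (nat_lit 27402010702) (nat_lit 76) (nat_lit 107168592237) (nat_lit 76) (nat_lit 46206127152) (nat_lit 34) (nat_lit 4) (nat_lit 35) (nat_lit 5) (nat_lit 35) (nat_lit 4) (nat_lit 509) (nat_lit 425) (nat_lit 266)) (XT.nd (nat_lit 78) (nat_lit 76) (nat_lit 0) (XT.lf (nat_lit 0)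 (nat_lit 874433579) (nat_lit 152) (nat_lit 59171117700) (nat_lit 76) (nat_lit 127270191645) (nat_lit 33) (nat_lit 5) (nat_lit 35) (nat_lit 5) (nat_lit 34) (nat_lit 4) (nat_lit 510) (nat_lit 425) (nat_lit 265)) (XT.lf (nat_lit 0) (nat_lit 40270066976) (nat_lit 76) (nat_lit 9112838316) (nat_lit 152) (nat_lit 144729591663) (nat_lit 32) (nat_lit 5) (nat_lit 33) (nat_lit 5) (nat_lit 34) (nat_lit 4) (nat_lit 511) (nat_lit 425) (nat_lit 264)))) (XT.nd (nat_lit 156) (nat_lit 152) (nat_lit 0) (XT.nd (nat_lit 78) (nat_lit 76) (nat_lit 0) (XT.lf (nat_lit 0) (nat_lit 102025992295) (nat_lit 152) (nat_lit 55174515878) (nat_lit 0) (nat_lit 43963120953) (nat_lit 32) (nat_lit 5) (nat_lit 34) (nat_lit 4) (nat_lit 32) (nat_lit 4) (nat_lit 512) (nat_lit 425) (nat_lit 263)) (XT.lf (nat_lit 0) (nat_lit 49869719946) (nat_lit 76) (nat_lit 108357593343) (nat_lit 76) (nat_lit 50293700654) (nat_lit 31) (nat_lit 4) (nat_lit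 32) (nat_lit 5) (nat_lit 32) (nat_lit 4) (nat_lit 513) (nat_lit 425) (nat_lit 262))) (XT.nd (nat_lit 78) (nat_lit 76) (nat_lit 0) (XT.lf (nat_lit 0) (nat_lit 1908477949) (nat_lit 152) (nat_lit 54152485604) (nat_lit 76) (nat_lit 160137139254) (nat_lit 30) (nat_lit 5) (nat_lit 32) (nat_lit 5) (nat_lit 31) (nat_lit 4) (nat_lit 514) (nat_lit 425) (nat_lit 261)) (XT.lf (nat_lit 0) (nat_lit 55921712125) (nat_lit 152) (nat_lit 167630594383) (nat_lit 0) (nat_lit 620958038) (nat_lit 29) (nat_lit 5) (nat_lit 31) (nat_lit 4) (nat_lit 29) (nat_lit 4) (nat_lit 515) (nat_lit 425) (nat_lit 260))))) (XT.nd (nat_lit 312) (nat_lit 228) (nat_lit 0) (XT.nd (nat_lit 156) (nat_lit 152) (nat_lit 0) (XT.nd (nat_lit 78) (nat_lit 76) (nat_lit 0) (XT.lf (nat_lit 0) (nat_lit 114484951640) (nat_lit 152) (nat_lit 58786408280) (nat_lit 0) (nat_lit 59183357289) (nat_lit 29) (nat_lit 5) (nat_lit 31) (nat_lit 4) (nat_lit 29)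 (nat_lit 4) (nat_lit 516) (nat_lit 425) (nat_lit 259)) (XT.lf (nat_lit 0) (nat_lit 57331478202) (nat_lit 76) (nat_lit 119538245205) (nat_lit 76) (nat_lit 64235850601) (nat_lit 28) (nat_lit 4) (nat_lit 29) (nat_lit 5) (nat_lit 29) (nat_lit 4) (nat_lit 517) (nat_lit 425) (nat_lit 258))) (XT.nd (nat_lit 78) (nat_lit 152) (nat_lit 0) (XT.lf (nat_lit 0) (nat_lit 181292772130) (nat_lit 76) (nat_lit 62074832372) (nat_lit 76) (nat_lit 6771675624) (nat_lit 28) (nat_lit 4) (nat_lit 29) (nat_lit 5) (nat_lit 29) (nat_lit 4) (nat_lit 518) (nat_lit 425) (nat_lit 257)) (XT.lf (nat_lit 0) (nat_lit 52672031336) (nat_lit 152) (nat_lit 206868119711) (nat_lit 0) (nat_lit 1666955) (nat_lit 26) (nat_lit 5) (nat_lit 28) (nat_lit 4) (nat_lit 26) (nat_lit 4) (nat_lit 519) (nat_lit 425) (nat_lit 256)))) (XT.nd (nat_lit 156) (nat_lit 152) (nat_lit 0) (XT.nd (nat_lit 78) (nat_lit 76) (nat_lit 0) (XT.lf (nat_lit 0) (nat_lit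 117061385296) (nat_lit 152) (nat_lit 87847132671) (nat_lit 0) (nat_lit 64390362546) (nat_lit 26) (nat_lit 5) (nat_lit 28) (nat_lit 4) (nat_lit 26) (nat_lit 4) (nat_lit 520) (nat_lit 425) (nat_lit 255)) (XT.lf (nat_lit 0) (nat_lit 38349161779) (nat_lit 76) (nat_lit 146918212884) (nat_lit 76) (nat_lit 94246563116) (nat_lit 25) (nat_lit 4) (nat_lit 26) (nat_lit 5) (nat_lit 26) (nat_lit 4) (nat_lit 521) (nat_lit 425) (nat_lit 254))) (XT.nd (nat_lit 78) (nat_lit 152) (nat_lit 0) (XT.lf (nat_lit 0) (nat_lit 173902021303) (nat_lit 76) (nat_lit 84467832026) (nat_lit 76) (nat_lit 31795585098) (nat_lit 25) (nat_lit 4) (nat_lit 26) (nat_lit 5) (nat_lit 26) (nat_lit 4) (nat_lit 522) (nat_lit 425) (nat_lit 253)) (XT.lf (nat_lit 0) (nat_lit 14827198963) (nat_lit 76) (nat_lit 18099637434) (nat_lit 152) (nat_lit 268384809322) (nat_lit 23) (nat_lit 5) (nat_lit 24) (nat_lit 5) (nat_lit 25) (nat_lit 4) (nat_lit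 523) (nat_lit 425) (nat_lit 252)))))) (XT.nd (nat_lit 624) (nat_lit 380) (nat_lit 0) (XT.nd (nat_lit 312) (nat_lit 228) (nat_lit 0) (XT.nd (nat_lit 156) (nat_lit 76) (nat_lit 0) (XT.nd (nat_lit 78) (nat_lit 0) (nat_lit 0) (XT.lf (nat_lit 0) (nat_lit 102622018792) (nat_lit 152) (nat_lit 157769907034) (nat_lit 0) (nat_lit 52456916607) (nat_lit 23) (nat_lit 5) (nat_lit 25) (nat_lit 4) (nat_lit 23) (nat_lit 4) (nat_lit 524) (nat_lit 425) (nat_lit 251)) (XT.lf (nat_lit 0) (nat_lit 176097254066) (nat_lit 152) (nat_lit 22919219644) (nat_lit 0) (nat_lit 125931660595) (nat_lit 23) (nat_lit 5) (nat_lit 25) (nat_lit 4) (nat_lit 23) (nat_lit 4) (nat_lit 525) (nat_lit 425) (nat_lit 250))) (XT.nd (nat_lit 78) (nat_lit 0) (nat_lit 0) (XT.lf (nat_lit 0) (nat_lit 122595082815) (nat_lit 76) (nat_lit 132563867190) (nat_lit 76) (nat_lit 82397805829) (nat_lit 22) (nat_lit 4) (nat_lit 23) (nat_lit 5) (nat_lit 23)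 (nat_lit 4) (nat_lit 526) (nat_lit 425) (nat_lit 249)) (XT.lf (nat_lit 0) (nat_lit 276178120373) (nat_lit 76) (nat_lit 62382427105) (nat_lit 76) (nat_lit 12215920134) (nat_lit 22) (nat_lit 4) (nat_lit 23) (nat_lit 5) (nat_lit 23) (nat_lit 4) (nat_lit 527) (nat_lit 425) (nat_lit 248)))) (XT.nd (nat_lit 156) (nat_lit 76) (nat_lit 0) (XT.nd (nat_lit 78) (nat_lit 0) (nat_lit 0) (XT.lf (nat_lit 0) (nat_lit 60875839436) (nat_lit 152) (nat_lit 290567107816) (nat_lit 0) (nat_lit 13097809567) (nat_lit 20) (nat_lit 5) (nat_lit 22) (nat_lit 4) (nat_lit 20) (nat_lit 4) (nat_lit 528) (nat_lit 425) (nat_lit 247)) (XT.lf (nat_lit 0) (nat_lit 139517097205) (nat_lit 152) (nat_lit 147612195575) (nat_lit 0) (nat_lit 91738682402) (nat_lit 20) (nat_lit 5) (nat_lit 22) (nat_lit 4) (nat_lit 20) (nat_lit 4) (nat_lit 529) (nat_lit 425) (nat_lit 246))) (XT.nd (nat_lit 78) (nat_lit 0) (nat_lit 0) (XT.lf (nat_lit 0) (nat_lit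 2570250396) (nat_lit 76) (nat_lit 219559070173) (nat_lit 76) (nat_lit 171780288765) (nat_lit 19) (nat_lit 4) (nat_lit 20) (nat_lit 5) (nat_lit 20) (nat_lit 4) (nat_lit 530) (nat_lit 425) (nat_lit 245)) (XT.lf (nat_lit 0) (nat_lit 165384144769) (nat_lit 76) (nat_lit 145986688540) (nat_lit 76) (nat_lit 98207557985) (nat_lit 19) (nat_lit 4) (nat_lit 20) (nat_lit 5) (nat_lit 20) (nat_lit 4) (nat_lit 531) (nat_lit 425) (nat_lit 244))))) (XT.nd (nat_lit 312) (nat_lit 228) (nat_lit 0) (XT.nd (nat_lit 156) (nat_lit 0) (nat_lit 0) (XT.nd (nat_lit 78) (nat_lit 152) (nat_lit 0) (XT.lf (nat_lit 0) (nat_lit 336336413849) (nat_lit 76) (nat_lit 68736859499) (nat_lit 76) (nat_lit 20957396423) (nat_lit 19) (nat_lit 4) (nat_lit 20) (nat_lit 5) (nat_lit 20) (nat_lit 4) (nat_lit 532) (nat_lit 425) (nat_lit 243)) (XT.lf (nat_lit 0) (nat_lit 59611006725) (nat_lit 152) (nat_lit 369472087370) (nat_lit 0) (nat_lit 14106454570)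 (nat_lit 17) (nat_lit 5) (nat_lit 19) (nat_lit 4) (nat_lit 17) (nat_lit 4) (nat_lit 533) (nat_lit 425) (nat_lit 242))) (XT.nd (nat_lit 78) (nat_lit 0) (nat_lit 0) (XT.lf (nat_lit 0) (nat_lit 146173164771) (nat_lit 152) (nat_lit 214214221138) (nat_lit 0) (nat_lit 100668325372) (nat_lit 17) (nat_lit 5) (nat_lit 19) (nat_lit 4) (nat_lit 17) (nat_lit 4) (nat_lit 534) (nat_lit 425) (nat_lit 241)) (XT.lf (nat_lit 0) (nat_lit 237062373007) (nat_lit 152) (nat_lit 51195601870) (nat_lit 0) (nat_lit 191557260042) (nat_lit 17) (nat_lit 5) (nat_lit 19) (nat_lit 4) (nat_lit 17) (nat_lit 4) (nat_lit 535) (nat_lit 425) (nat_lit 240)))) (XT.nd (nat_lit 156) (nat_lit 152) (nat_lit 0) (XT.nd (nat_lit 78) (nat_lit 0) (nat_lit 0) (XT.lf (nat_lit 0) (nat_lit 123938723157) (nat_lit 76) (nat_lit 210491341959) (nat_lit 76) (nat_lit 164985968455) (nat_lit 16) (nat_lit 4) (nat_lit 17) (nat_lit 5) (nat_lit 17) (nat_lit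 4) (nat_lit 536) (nat_lit 425) (nat_lit 239)) (XT.lf (nat_lit 0) (nat_lit 309605154649) (nat_lit 76) (nat_lit 127927018784) (nat_lit 76) (nat_lit 82421397147) (nat_lit 16) (nat_lit 4) (nat_lit 17) (nat_lit 5) (nat_lit 17) (nat_lit 4) (nat_lit 537) (nat_lit 425) (nat_lit 238))) (XT.nd (nat_lit 78) (nat_lit 76) (nat_lit 0) (XT.lf (nat_lit 0) (nat_lit 4133732178) (nat_lit 152) (nat_lit 37031706987) (nat_lit 76) (nat_lit 500349258801) (nat_lit 15) (nat_lit 5) (nat_lit 17) (nat_lit 5) (nat_lit 16) (nat_lit 4) (nat_lit 538) (nat_lit 425) (nat_lit 237)) (XT.lf (nat_lit 0) (nat_lit 95401616655) (nat_lit 152) (nat_lit 416464471671) (nat_lit 0) (nat_lit 52062489972) (nat_lit 14) (nat_lit 5) (nat_lit 16) (nat_lit 4) (nat_lit 14) (nat_lit 4) (nat_lit 539) (nat_lit 425) (nat_lit 236))))))))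
noncomputable def xc151 : XT := (XT.nd (nat_lit 55224) (nat_lit 0) (nat_lit 4104) (XT.nd (nat_lit 53976) (nat_lit 0) (nat_lit 8208) (XT.nd (nat_lit 546) (nat_lit 76) (nat_lit 0) (XT.nd (nat_lit 234) (nat_lit 152) (nat_lit 0) (XT.nd (nat_lit 78) (nat_lit 76) (nat_lit 0) (XT.lf (nat_lit 0) (nat_lit 192544257027) (nat_lit 152) (nat_lit 245648401335) (nat_lit 0) (nat_lit 149204926205) (nat_lit 14) (nat_lit 5) (nat_lit 16) (nat_lit 4) (nat_lit 14) (nat_lit 4) (nat_lit 540) (nat_lit 425) (nat_lit 235)) (XT.nd (nat_lit 78) (nat_lit 76) (nat_lit 0) (XT.lf (nat_lit 0) (nat_lit 294543160261) (nat_lit 152) (nat_lit 66293289330) (nat_lit 0) (nat_lit 251203635021) (nat_lit 14) (nat_lit 5) (nat_lit 16) (nat_lit 4) (nat_lit 14) (nat_lit 4) (nat_lit 541) (nat_lit 425) (nat_lit 234)) (XT.lf (nat_lit 0) (nat_lit 126062693803) (nat_lit 76) (nat_lit 277546679026) (nat_lit 76) (nat_lit 234206968625) (nat_lit 13)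 (nat_lit 4) (nat_lit 14) (nat_lit 5) (nat_lit 14) (nat_lit 4) (nat_lit 542) (nat_lit 425) (nat_lit 233)))) (XT.nd (nat_lit 156) (nat_lit 152) (nat_lit 0) (XT.nd (nat_lit 78) (nat_lit 0) (nat_lit 0) (XT.lf (nat_lit 0) (nat_lit 330336378517) (nat_lit 76) (nat_lit 188914412314) (nat_lit 76) (nat_lit 145574525570) (nat_lit 13) (nat_lit 4) (nat_lit 14) (nat_lit 5) (nat_lit 14) (nat_lit 4) (nat_lit 543) (nat_lit 425) (nat_lit 232)) (XT.lf (nat_lit 0) (nat_lit 544822175194) (nat_lit 76) (nat_lit 95851329181) (nat_lit 76) (nat_lit 52511274492) (nat_lit 13) (nat_lit 4) (nat_lit 14) (nat_lit 5) (nat_lit 14) (nat_lit 4) (nat_lit 544) (nat_lit 425) (nat_lit 231))) (XT.nd (nat_lit 78) (nat_lit 0) (nat_lit 0) (XT.lf (nat_lit 0) (nat_lit 44558261388) (nat_lit 152) (nat_lit 675046799181) (nat_lit 0) (nat_lit 3281866495) (nat_lit 11) (nat_lit 5) (nat_lit 13) (nat_lit 4) (nat_lit 11) (nat_lit 4) (nat_lit 545)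 (nat_lit 425) (nat_lit 230)) (XT.lf (nat_lit 0) (nat_lit 148840916647) (nat_lit 152) (nat_lit 497419629036) (nat_lit 0) (nat_lit 107564376676) (nat_lit 11) (nat_lit 5) (nat_lit 13) (nat_lit 4) (nat_lit 11) (nat_lit 4) (nat_lit 546) (nat_lit 425) (nat_lit 229))))) (XT.nd (nat_lit 53118) (nat_lit 0) (nat_lit 10412) (XT.nd (nat_lit 156) (nat_lit 76) (nat_lit 0) (XT.nd (nat_lit 78) (nat_lit 0) (nat_lit 0) (XT.lf (nat_lit 0) (nat_lit 258336990339) (nat_lit 152) (nat_lit 310912550598) (nat_lit 0) (nat_lit 217060312199) (nat_lit 11) (nat_lit 5) (nat_lit 13) (nat_lit 4) (nat_lit 11) (nat_lit 4) (nat_lit 547) (nat_lit 425) (nat_lit 228)) (XT.lf (nat_lit 0) (nat_lit 373307187403) (nat_lit 152) (nat_lit 115081499395) (nat_lit 0) (nat_lit 332030377673) (nat_lit 11) (nat_lit 5) (nat_lit 13) (nat_lit 4) (nat_lit 11) (nat_lit 4) (nat_lit 548) (nat_lit 425) (nat_lit 227))) (XT.nd (nat_lit 52884) (nat_lit 0)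 (nat_lit 10412) (XT.lf (nat_lit 0) (nat_lit 93533443293) (nat_lit 76) (nat_lit 401952122287) (nat_lit 76) (nat_lit 360675187233) (nat_lit 10) (nat_lit 4) (nat_lit 11) (nat_lit 5) (nat_lit 11) (nat_lit 4) (nat_lit 549) (nat_lit 425) (nat_lit 226)) (XT.lf (nat_lit 0) (nat_lit 878421447) (nat_lit 836) (nat_lit 3223163764) (nat_lit 836) (nat_lit 3223163764) (nat_lit 147) (nat_lit 3) (nat_lit 158) (nat_lit 3) (nat_lit 158) (nat_lit 5) (nat_lit 426) (nat_lit 426) (nat_lit 348)))) (XT.nd (nat_lit 156) (nat_lit 0) (nat_lit 76) (XT.nd (nat_lit 78) (nat_lit 0) (nat_lit 76) (XT.lf (nat_lit 76) (nat_lit 846737300) (nat_lit 0) (nat_lit 1275681317) (nat_lit 836) (nat_lit 12877186342) (nat_lit 148) (nat_lit 5) (nat_lit 147) (nat_lit 3) (nat_lit 158) (nat_lit 5) (nat_lit 427) (nat_lit 426) (nat_lit 347)) (XT.lf (nat_lit 0) (nat_lit 2691115710) (nat_lit 760) (nat_lit 6740791551) (nat_lit 836) (nat_lit 5926070982)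 (nat_lit 148) (nat_lit 5) (nat_lit 158) (nat_lit 5) (nat_lit 159) (nat_lit 5) (nat_lit 428) (nat_lit 426) (nat_lit 346))) (XT.nd (nat_lit 78) (nat_lit 0) (nat_lit 76) (XT.lf (nat_lit 76) (nat_lit 1043072790) (nat_lit 0) (nat_lit 2263547035) (nat_lit 836) (nat_lit 12426734667) (nat_lit 149) (nat_lit 5) (nat_lit 148) (nat_lit 5) (nat_lit 159) (nat_lit 5) (nat_lit 429) (nat_lit 426) (nat_lit 345)) (XT.lf (nat_lit 0) (nat_lit 4133109355) (nat_lit 760) (nat_lit 6767804165) (nat_lit 836) (nat_lit 5217578292) (nat_lit 149) (nat_lit 5) (nat_lit 159) (nat_lit 5) (nat_lit 160) (nat_lit 5) (nat_lit 430) (nat_lit 426) (nat_lit 344)))))) (XT.nd (nat_lit 624) (nat_lit 1824) (nat_lit 0) (XT.nd (nat_lit 312) (nat_lit 532) (nat_lit 0) (XT.nd (nat_lit 156) (nat_lit 0) (nat_lit 76) (XT.nd (nat_lit 78) (nat_lit 0) (nat_lit 76) (XT.lf (nat_lit 76) (nat_lit 1551812164) (nat_lit 0) (nat_lit 3493309901) (nat_lit 836)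 (nat_lit 11475556636) (nat_lit 150) (nat_lit 5) (nat_lit 149) (nat_lit 5) (nat_lit 160) (nat_lit 5) (nat_lit 431) (nat_lit 426) (nat_lit 343)) (XT.lf (nat_lit 0) (nat_lit 6169708326) (nat_lit 760) (nat_lit 6495913532) (nat_lit 836) (nat_lit 4269006943) (nat_lit 150) (nat_lit 5) (nat_lit 160) (nat_lit 5) (nat_lit 161) (nat_lit 5) (nat_lit 432) (nat_lit 426) (nat_lit 342))) (XT.nd (nat_lit 78) (nat_lit 0) (nat_lit 76) (XT.lf (nat_lit 76) (nat_lit 2408834772) (nat_lit 0) (nat_lit 5020929125) (nat_lit 836) (nat_lit 9935552903) (nat_lit 151) (nat_lit 5) (nat_lit 150) (nat_lit 5) (nat_lit 161) (nat_lit 5) (nat_lit 433) (nat_lit 426) (nat_lit 341)) (XT.lf (nat_lit 0) (nat_lit 8896554125) (nat_lit 760) (nat_lit 5888736174) (nat_lit 836) (nat_lit 3025064583) (nat_lit 151) (nat_lit 5) (nat_lit 161) (nat_lit 5) (nat_lit 162) (nat_lit 5) (nat_lit 434) (nat_lit 426) (nat_lit 340)))) (XT.nd (nat_lit 156) (nat_lit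 684) (nat_lit 0) (XT.nd (nat_lit 78) (nat_lit 0) (nat_lit 76) (XT.lf (nat_lit 76) (nat_lit 3655361071) (nat_lit 0) (nat_lit 6906403456) (nat_lit 836) (nat_lit 7709628480) (nat_lit 152) (nat_lit 5) (nat_lit 151) (nat_lit 5) (nat_lit 162) (nat_lit 5) (nat_lit 435) (nat_lit 426) (nat_lit 339)) (XT.lf (nat_lit 0) (nat_lit 12419168968) (nat_lit 760) (nat_lit 4904616840) (nat_lit 76) (nat_lit 1426252620) (nat_lit 152) (nat_lit 5) (nat_lit 162) (nat_lit 5) (nat_lit 153) (nat_lit 5) (nat_lit 436) (nat_lit 426) (nat_lit 338))) (XT.nd (nat_lit 78) (nat_lit 0) (nat_lit 0) (XT.lf (nat_lit 0) (nat_lit 5338334686) (nat_lit 760) (nat_lit 9214566714) (nat_lit 836) (nat_lit 4690543801) (nat_lit 142) (nat_lit 5) (nat_lit 152) (nat_lit 5) (nat_lit 153) (nat_lit 5) (nat_lit 437) (nat_lit 426) (nat_lit 337)) (XT.lf (nat_lit 0) (nat_lit 16252224670) (nat_lit 760) (nat_lit 611494390) (nat_lit 836) (nat_lit 2894285197)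 (nat_lit 142) (nat_lit 5) (nat_lit 152) (nat_lit 5) (nat_lit 153) (nat_lit 5) (nat_lit 438) (nat_lit 426) (nat_lit 336))))) (XT.nd (nat_lit 312) (nat_lit 608) (nat_lit 0) (XT.nd (nat_lit 156) (nat_lit 760) (nat_lit 0) (XT.nd (nat_lit 78) (nat_lit 76) (nat_lit 0) (XT.lf (nat_lit 0) (nat_lit 7510863924) (nat_lit 380) (nat_lit 12015923219) (nat_lit 456) (nat_lit 759670432) (nat_lit 137) (nat_lit 5) (nat_lit 142) (nat_lit 5) (nat_lit 143) (nat_lit 5) (nat_lit 439) (nat_lit 426) (nat_lit 335)) (XT.lf (nat_lit 0) (nat_lit 1492782463) (nat_lit 456) (nat_lit 1684211799) (nat_lit 76) (nat_lit 17660257748) (nat_lit 136) (nat_lit 5) (nat_lit 142) (nat_lit 5) (nat_lit 137) (nat_lit 5) (nat_lit 440) (nat_lit 426) (nat_lit 334))) (XT.nd (nat_lit 78) (nat_lit 380) (nat_lit 0) (XT.lf (nat_lit 0) (nat_lit 4079475467) (nat_lit 456) (nat_lit 11238970523) (nat_lit 76) (nat_lit 6084161669) (nat_lit 131) (nat_lit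 5) (nat_lit 137) (nat_lit 5) (nat_lit 132) (nat_lit 5) (nat_lit 441) (nat_lit 426) (nat_lit 333)) (XT.lf (nat_lit 0) (nat_lit 623375721) (nat_lit 380) (nat_lit 6252019572) (nat_lit 456) (nat_lit 15116842660) (nat_lit 126) (nat_lit 5) (nat_lit 131) (nat_lit 5) (nat_lit 132) (nat_lit 5) (nat_lit 442) (nat_lit 426) (nat_lit 332)))) (XT.nd (nat_lit 156) (nat_lit 304) (nat_lit 0) (XT.nd (nat_lit 78) (nat_lit 304) (nat_lit 0) (XT.lf (nat_lit 0) (nat_lit 10045003498) (nat_lit 456) (nat_lit 9198843530) (nat_lit 76) (nat_lit 3355809513) (nat_lit 126) (nat_lit 5) (nat_lit 132) (nat_lit 5) (nat_lit 127) (nat_lit 5) (nat_lit 443) (nat_lit 426) (nat_lit 331)) (XT.lf (nat_lit 0) (nat_lit 3580444455) (nat_lit 304) (nat_lit 9940960841) (nat_lit 380) (nat_lit 9708626434) (nat_lit 122) (nat_lit 5) (nat_lit 126) (nat_lit 5) (nat_lit 127) (nat_lit 5) (nat_lit 444) (nat_lit 426) (nat_lit 330))) (XT.nd (nat_lit 78)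 (nat_lit 304) (nat_lit 0) (XT.lf (nat_lit 0) (nat_lit 17306906648) (nat_lit 304) (nat_lit 10733546) (nat_lit 380) (nat_lit 6566986104) (nat_lit 122) (nat_lit 5) (nat_lit 126) (nat_lit 5) (nat_lit 127) (nat_lit 5) (nat_lit 445) (nat_lit 426) (nat_lit 329)) (XT.lf (nat_lit 0) (nat_lit 7204643633) (nat_lit 304) (nat_lit 14364821965) (nat_lit 380) (nat_lit 2989197268) (nat_lit 118) (nat_lit 5) (nat_lit 122) (nat_lit 5) (nat_lit 123) (nat_lit 5) (nat_lit 446) (nat_lit 426) (nat_lit 328))))))) (XT.nd (nat_lit 1248) (nat_lit 1824) (nat_lit 0) (XT.nd (nat_lit 624) (nat_lit 1064) (nat_lit 0) (XT.nd (nat_lit 312) (nat_lit 532) (nat_lit 0) (XT.nd (nat_lit 156) (nat_lit 304) (nat_lit 0) (XT.nd (nat_lit 78) (nat_lit 304) (nat_lit 0) (XT.lf (nat_lit 0) (nat_lit 847111543) (nat_lit 380) (nat_lit 3381522621) (nat_lit 76) (nat_lit 21031959330) (nat_lit 117) (nat_lit 5) (nat_lit 122) (nat_lit 5) (nat_lit 118)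 (nat_lit 5) (nat_lit 447) (nat_lit 426) (nat_lit 327)) (XT.lf (nat_lit 0) (nat_lit 5051030363) (nat_lit 380) (nat_lit 14489196844) (nat_lit 76) (nat_lit 6441131770) (nat_lit 113) (nat_lit 5) (nat_lit 118) (nat_lit 5) (nat_lit 114) (nat_lit 5) (nat_lit 448) (nat_lit 426) (nat_lit 326))) (XT.nd (nat_lit 78) (nat_lit 0) (nat_lit 0) (XT.lf (nat_lit 0) (nat_lit 424056528) (nat_lit 304) (nat_lit 9166694500) (nat_lit 380) (nat_lit 17141132406) (nat_lit 109) (nat_lit 5) (nat_lit 113) (nat_lit 5) (nat_lit 114) (nat_lit 5) (nat_lit 449) (nat_lit 426) (nat_lit 325)) (XT.lf (nat_lit 0) (nat_lit 14625460867) (nat_lit 380) (nat_lit 10963711865) (nat_lit 76) (nat_lit 1917362169) (nat_lit 109) (nat_lit 5) (nat_lit 114) (nat_lit 5) (nat_lit 110) (nat_lit 5) (nat_lit 450) (nat_lit 426) (nat_lit 324)))) (XT.nd (nat_lit 156) (nat_lit 304) (nat_lit 0) (XT.nd (nat_lit 78) (nat_lit 0) (nat_lit 0) (XT.lf (nat_lit 0)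 (nat_lit 5151659746) (nat_lit 228) (nat_lit 14983007990) (nat_lit 304) (nat_lit 8174114032) (nat_lit 106) (nat_lit 5) (nat_lit 109) (nat_lit 5) (nat_lit 110) (nat_lit 5) (nat_lit 451) (nat_lit 426) (nat_lit 323)) (XT.lf (nat_lit 0) (nat_lit 22443044808) (nat_lit 228) (nat_lit 3654237980) (nat_lit 304) (nat_lit 3044961658) (nat_lit 106) (nat_lit 5) (nat_lit 109) (nat_lit 5) (nat_lit 110) (nat_lit 5) (nat_lit 452) (nat_lit 426) (nat_lit 322))) (XT.nd (nat_lit 78) (nat_lit 0) (nat_lit 0) (XT.lf (nat_lit 0) (nat_lit 2560177539) (nat_lit 304) (nat_lit 19256176330) (nat_lit 76) (nat_lit 8184477734) (nat_lit 102) (nat_lit 5) (nat_lit 106) (nat_lit 5) (nat_lit 103) (nat_lit 5) (nat_lit 453) (nat_lit 426) (nat_lit 321)) (XT.lf (nat_lit 0) (nat_lit 8511139567) (nat_lit 304) (nat_lit 1725377093) (nat_lit 76) (nat_lit 20654941503) (nat_lit 102) (nat_lit 5) (nat_lit 106) (nat_lit 5) (nat_lit 103) (nat_lit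 5) (nat_lit 454) (nat_lit 426) (nat_lit 320))))) (XT.nd (nat_lit 312) (nat_lit 380) (nat_lit 0) (XT.nd (nat_lit 156) (nat_lit 228) (nat_lit 0) (XT.nd (nat_lit 78) (nat_lit 228) (nat_lit 0) (XT.lf (nat_lit 0) (nat_lit 15055957641) (nat_lit 304) (nat_lit 14624490424) (nat_lit 76) (nat_lit 2131353294) (nat_lit 99) (nat_lit 5) (nat_lit 103) (nat_lit 5) (nat_lit 100) (nat_lit 5) (nat_lit 455) (nat_lit 426) (nat_lit 319)) (XT.lf (nat_lit 0) (nat_lit 4287830818) (nat_lit 228) (nat_lit 17897804072) (nat_lit 304) (nat_lit 10579646586) (nat_lit 96) (nat_lit 5) (nat_lit 99) (nat_lit 5) (nat_lit 100) (nat_lit 5) (nat_lit 456) (nat_lit 426) (nat_lit 318))) (XT.nd (nat_lit 78) (nat_lit 228) (nat_lit 0) (XT.lf (nat_lit 0) (nat_lit 24643708256) (nat_lit 228) (nat_lit 5269095688) (nat_lit 304) (nat_lit 3841581899) (nat_lit 96) (nat_lit 5) (nat_lit 99) (nat_lit 5) (nat_lit 100) (nat_lit 5) (nat_lit 457) (nat_lit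 426) (nat_lit 317)) (XT.lf (nat_lit 0) (nat_lit 3432010591) (nat_lit 228) (nat_lit 23376674024) (nat_lit 76) (nat_lit 7966631626) (nat_lit 93) (nat_lit 5) (nat_lit 96) (nat_lit 5) (nat_lit 94) (nat_lit 5) (nat_lit 458) (nat_lit 426) (nat_lit 316)))) (XT.nd (nat_lit 156) (nat_lit 152) (nat_lit 0) (XT.nd (nat_lit 78) (nat_lit 228) (nat_lit 0) (XT.lf (nat_lit 0) (nat_lit 11177042446) (nat_lit 228) (nat_lit 2751383036) (nat_lit 76) (nat_lit 21903876290) (nat_lit 93) (nat_lit 5) (nat_lit 96) (nat_lit 5) (nat_lit 94) (nat_lit 5) (nat_lit 459) (nat_lit 426) (nat_lit 315)) (XT.lf (nat_lit 0) (nat_lit 19520768573) (nat_lit 228) (nat_lit 87293440) (nat_lit 304) (nat_lit 17319138288) (nat_lit 90) (nat_lit 5) (nat_lit 93) (nat_lit 5) (nat_lit 94) (nat_lit 5) (nat_lit 460) (nat_lit 426) (nat_lit 314))) (XT.nd (nat_lit 78) (nat_lit 0) (nat_lit 0) (XT.lf (nat_lit 0) (nat_lit 4847079571) (nat_lit 152) (nat_lit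 23956189627) (nat_lit 228) (nat_lit 9256443228) (nat_lit 88) (nat_lit 5) (nat_lit 90) (nat_lit 5) (nat_lit 91) (nat_lit 5) (nat_lit 461) (nat_lit 426) (nat_lit 313)) (XT.lf (nat_lit 0) (nat_lit 28806961811) (nat_lit 152) (nat_lit 9941668809) (nat_lit 228) (nat_lit 485700322) (nat_lit 88) (nat_lit 5) (nat_lit 90) (nat_lit 5) (nat_lit 91) (nat_lit 5) (nat_lit 462) (nat_lit 426) (nat_lit 312)))))) (XT.nd (nat_lit 624) (nat_lit 836) (nat_lit 0) (XT.nd (nat_lit 312) (nat_lit 380) (nat_lit 0) (XT.nd (nat_lit 156) (nat_lit 304) (nat_lit 0) (XT.nd (nat_lit 78) (nat_lit 0) (nat_lit 0) (XT.lf (nat_lit 0) (nat_lit 8734352454) (nat_lit 304) (nat_lit 26737076089) (nat_lit 76) (nat_lit 4974943211) (nat_lit 84) (nat_lit 5) (nat_lit 88) (nat_lit 5) (nat_lit 85) (nat_lit 5) (nat_lit 463) (nat_lit 426) (nat_lit 311)) (XT.lf (nat_lit 0) (nat_lit 18736015540) (nat_lit 304) (nat_lit 2478181554) (nat_lit 76) (nat_lit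 20487573290) (nat_lit 84) (nat_lit 5) (nat_lit 88) (nat_lit 5) (nat_lit 85) (nat_lit 5) (nat_lit 464) (nat_lit 426) (nat_lit 310))) (XT.nd (nat_lit 78) (nat_lit 152) (nat_lit 0) (XT.lf (nat_lit 0) (nat_lit 23745106990) (nat_lit 152) (nat_lit 5858110750) (nat_lit 228) (nat_lit 13398448802) (nat_lit 82) (nat_lit 5) (nat_lit 84) (nat_lit 5) (nat_lit 85) (nat_lit 5) (nat_lit 465) (nat_lit 426) (nat_lit 309)) (XT.lf (nat_lit 0) (nat_lit 7057442570) (nat_lit 152) (nat_lit 34264256077) (nat_lit 228) (nat_lit 3029463305) (nat_lit 80) (nat_lit 5) (nat_lit 82) (nat_lit 5) (nat_lit 83) (nat_lit 5) (nat_lit 466) (nat_lit 426) (nat_lit 308)))) (XT.nd (nat_lit 156) (nat_lit 152) (nat_lit 0) (XT.nd (nat_lit 78) (nat_lit 152) (nat_lit 0) (XT.lf (nat_lit 0) (nat_lit 8028796316) (nat_lit 228) (nat_lit 10628847135) (nat_lit 76) (nat_lit 27083238323) (nat_lit 79) (nat_lit 5) (nat_lit 82) (nat_lit 5) (nat_lit 80)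 (nat_lit 5) (nat_lit 467) (nat_lit 426) (nat_lit 307)) (XT.lf (nat_lit 0) (nat_lit 17883764937) (nat_lit 152) (nat_lit 1928685116) (nat_lit 228) (nat_lit 27371440144) (nat_lit 77) (nat_lit 5) (nat_lit 79) (nat_lit 5) (nat_lit 80) (nat_lit 5) (nat_lit 468) (nat_lit 426) (nat_lit 306))) (XT.nd (nat_lit 78) (nat_lit 152) (nat_lit 0) (XT.lf (nat_lit 0) (nat_lit 32607507149) (nat_lit 228) (nat_lit 754405273) (nat_lit 76) (nat_lit 15316025893) (nat_lit 77) (nat_lit 5) (nat_lit 80) (nat_lit 5) (nat_lit 78) (nat_lit 5) (nat_lit 469) (nat_lit 426) (nat_lit 305)) (XT.lf (nat_lit 0) (nat_lit 30143880380) (nat_lit 152) (nat_lit 16396048831) (nat_lit 228) (nat_lit 3681879316) (nat_lit 75) (nat_lit 5) (nat_lit 77) (nat_lit 5) (nat_lit 78) (nat_lit 5) (nat_lit 470) (nat_lit 426) (nat_lit 304))))) (XT.nd (nat_lit 312) (nat_lit 380) (nat_lit 0) (XT.nd (nat_lit 156) (nat_lit 228) (nat_lit 0) (XT.nd (nat_lit 78)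 (nat_lit 0) (nat_lit 0) (XT.lf (nat_lit 0) (nat_lit 9234724043) (nat_lit 228) (nat_lit 40885749603) (nat_lit 76) (nat_lit 1704762674) (nat_lit 72) (nat_lit 5) (nat_lit 75) (nat_lit 5) (nat_lit 73) (nat_lit 5) (nat_lit 471) (nat_lit 426) (nat_lit 303)) (XT.lf (nat_lit 0) (nat_lit 23283249096) (nat_lit 228) (nat_lit 9629689334) (nat_lit 76) (nat_lit 20562388051) (nat_lit 72) (nat_lit 5) (nat_lit 75) (nat_lit 5) (nat_lit 73) (nat_lit 5) (nat_lit 472) (nat_lit 426) (nat_lit 302))) (XT.nd (nat_lit 78) (nat_lit 76) (nat_lit 0) (XT.lf (nat_lit 0) (nat_lit 23948073928) (nat_lit 152) (nat_lit 14455675827) (nat_lit 228) (nat_lit 16785694170) (nat_lit 70) (nat_lit 5) (nat_lit 72) (nat_lit 5) (nat_lit 73) (nat_lit 5) (nat_lit 473) (nat_lit 426) (nat_lit 301)) (XT.lf (nat_lit 0) (nat_lit 2552440915) (nat_lit 76) (nat_lit 52006019859) (nat_lit 152) (nat_lit 2416897431) (nat_lit 69) (nat_lit 5) (nat_lit 70)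 (nat_lit 5) (nat_lit 71) (nat_lit 4) (nat_lit 474) (nat_lit 426) (nat_lit 300)))) (XT.nd (nat_lit 156) (nat_lit 152) (nat_lit 0) (XT.nd (nat_lit 78) (nat_lit 152) (nat_lit 0) (XT.lf (nat_lit 0) (nat_lit 13035260432) (nat_lit 152) (nat_lit 20154660467) (nat_lit 76) (nat_lit 25612233969) (nat_lit 68) (nat_lit 5) (nat_lit 70) (nat_lit 5) (nat_lit 69) (nat_lit 5) (nat_lit 475) (nat_lit 426) (nat_lit 299)) (XT.lf (nat_lit 0) (nat_lit 16301866131) (nat_lit 152) (nat_lit 13127370166) (nat_lit 228) (nat_lit 31276552517) (nat_lit 66) (nat_lit 5) (nat_lit 68) (nat_lit 5) (nat_lit 69) (nat_lit 5) (nat_lit 476) (nat_lit 426) (nat_lit 298))) (XT.nd (nat_lit 78) (nat_lit 152) (nat_lit 0) (XT.lf (nat_lit 0) (nat_lit 47109723769) (nat_lit 228) (nat_lit 7543446149) (nat_lit 76) (nat_lit 8028094088) (nat_lit 66) (nat_lit 5) (nat_lit 69) (nat_lit 5) (nat_lit 67) (nat_lit 4) (nat_lit 477) (nat_lit 426) (nat_lit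 297)) (XT.lf (nat_lit 0) (nat_lit 1611305481) (nat_lit 152) (nat_lit 32785155528) (nat_lit 76) (nat_lit 30322235546) (nat_lit 64) (nat_lit 5) (nat_lit 66) (nat_lit 5) (nat_lit 65) (nat_lit 5) (nat_lit 478) (nat_lit 426) (nat_lit 296))))))))
noncomputable def xc152 : XT := (XT.nd (nat_lit 2418) (nat_lit 1596) (nat_lit 0) (XT.nd (nat_lit 1170) (nat_lit 988) (nat_lit 0) (XT.nd (nat_lit 546) (nat_lit 684) (nat_lit 0) (XT.nd (nat_lit 234) (nat_lit 304) (nat_lit 0) (XT.nd (nat_lit 78) (nat_lit 76) (nat_lit 0) (XT.lf (nat_lit 0) (nat_lit 6746228702) (nat_lit 152) (nat_lit 12615089175) (nat_lit 228) (nat_lit 47472352944) (nat_lit 62) (nat_lit 5) (nat_lit 64) (nat_lit 5) (nat_lit 65) (nat_lit 5) (nat_lit 479) (nat_lit 426) (nat_lit 295)) (XT.nd (nat_lit 78) (nat_lit 76) (nat_lit 0) (XT.lf (nat_lit 0) (nat_lit 38719464139) (nat_lit 228) (nat_lit 19810451026) (nat_lit 76) (nat_lit 10488447133) (nat_lit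 62) (nat_lit 5) (nat_lit 65) (nat_lit 5) (nat_lit 63) (nat_lit 4) (nat_lit 480) (nat_lit 426) (nat_lit 294)) (XT.lf (nat_lit 0) (nat_lit 23003152649) (nat_lit 76) (nat_lit 36604679030) (nat_lit 152) (nat_lit 11676341117) (nat_lit 61) (nat_lit 5) (nat_lit 62) (nat_lit 5) (nat_lit 63) (nat_lit 4) (nat_lit 481) (nat_lit 426) (nat_lit 293)))) (XT.nd (nat_lit 156) (nat_lit 76) (nat_lit 0) (XT.nd (nat_lit 78) (nat_lit 152) (nat_lit 0) (XT.lf (nat_lit 0) (nat_lit 7962596639) (nat_lit 152) (nat_lit 5136464609) (nat_lit 76) (nat_lit 60541194482) (nat_lit 60) (nat_lit 5) (nat_lit 62) (nat_lit 5) (nat_lit 61) (nat_lit 5) (nat_lit 482) (nat_lit 426) (nat_lit 292)) (XT.lf (nat_lit 0) (nat_lit 29026752407) (nat_lit 228) (nat_lit 34977957982) (nat_lit 76) (nat_lit 12058078143) (nat_lit 58) (nat_lit 5) (nat_lit 61) (nat_lit 5) (nat_lit 59) (nat_lit 4) (nat_lit 483) (nat_lit 426) (nat_lit 291))) (XT.nd (nat_lit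 78) (nat_lit 0) (nat_lit 0) (XT.lf (nat_lit 0) (nat_lit 11333607859) (nat_lit 76) (nat_lit 40287182140) (nat_lit 152) (nat_lit 26961824392) (nat_lit 57) (nat_lit 5) (nat_lit 58) (nat_lit 5) (nat_lit 59) (nat_lit 4) (nat_lit 484) (nat_lit 426) (nat_lit 290)) (XT.lf (nat_lit 0) (nat_lit 61168818814) (nat_lit 76) (nat_lit 14764715774) (nat_lit 152) (nat_lit 5265446817) (nat_lit 57) (nat_lit 5) (nat_lit 58) (nat_lit 5) (nat_lit 59) (nat_lit 4) (nat_lit 485) (nat_lit 426) (nat_lit 289))))) (XT.nd (nat_lit 312) (nat_lit 228) (nat_lit 0) (XT.nd (nat_lit 156) (nat_lit 228) (nat_lit 0) (XT.nd (nat_lit 78) (nat_lit 0) (nat_lit 0) (XT.lf (nat_lit 0) (nat_lit 17624038519) (nat_lit 228) (nat_lit 53871255183) (nat_lit 76) (nat_lit 12403754563) (nat_lit 54) (nat_lit 5) (nat_lit 57) (nat_lit 5) (nat_lit 55) (nat_lit 4) (nat_lit 486) (nat_lit 426) (nat_lit 288)) (XT.lf (nat_lit 0) (nat_lit 42064632216) (nat_lit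 228) (nat_lit 3773148094) (nat_lit 76) (nat_lit 40862842937) (nat_lit 54) (nat_lit 5) (nat_lit 57) (nat_lit 5) (nat_lit 55) (nat_lit 4) (nat_lit 487) (nat_lit 426) (nat_lit 287))) (XT.nd (nat_lit 78) (nat_lit 152) (nat_lit 0) (XT.lf (nat_lit 0) (nat_lit 50438383917) (nat_lit 76) (nat_lit 18073272040) (nat_lit 152) (nat_lit 21091401099) (nat_lit 53) (nat_lit 5) (nat_lit 54) (nat_lit 5) (nat_lit 55) (nat_lit 4) (nat_lit 488) (nat_lit 426) (nat_lit 286)) (XT.lf (nat_lit 0) (nat_lit 3993329221) (nat_lit 152) (nat_lit 77542385292) (nat_lit 76) (nat_lit 11088108730) (nat_lit 51) (nat_lit 5) (nat_lit 53) (nat_lit 5) (nat_lit 52) (nat_lit 4) (nat_lit 489) (nat_lit 426) (nat_lit 285)))) (XT.nd (nat_lit 156) (nat_lit 152) (nat_lit 0) (XT.nd (nat_lit 78) (nat_lit 76) (nat_lit 0) (XT.lf (nat_lit 0) (nat_lit 30590853856) (nat_lit 152) (nat_lit 23021663793) (nat_lit 76) (nat_lit 42117453782) (nat_lit 51) (nat_lit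 5) (nat_lit 53) (nat_lit 5) (nat_lit 52) (nat_lit 4) (nat_lit 490) (nat_lit 426) (nat_lit 284)) (XT.lf (nat_lit 0) (nat_lit 35350978084) (nat_lit 76) (nat_lit 23716288302) (nat_lit 152) (nat_lit 39896710137) (nat_lit 50) (nat_lit 5) (nat_lit 51) (nat_lit 5) (nat_lit 52) (nat_lit 4) (nat_lit 491) (nat_lit 426) (nat_lit 283))) (XT.nd (nat_lit 78) (nat_lit 152) (nat_lit 0) (XT.lf (nat_lit 0) (nat_lit 89480694816) (nat_lit 152) (nat_lit 5030471752) (nat_lit 0) (nat_lit 7822855613) (nat_lit 50) (nat_lit 5) (nat_lit 52) (nat_lit 4) (nat_lit 50) (nat_lit 4) (nat_lit 492) (nat_lit 426) (nat_lit 282)) (XT.lf (nat_lit 0) (nat_lit 16356590987) (nat_lit 152) (nat_lit 48130286319) (nat_lit 76) (nat_lit 41307969265) (nat_lit 48) (nat_lit 5) (nat_lit 50) (nat_lit 5) (nat_lit 49) (nat_lit 4) (nat_lit 493) (nat_lit 426) (nat_lit 281)))))) (XT.nd (nat_lit 624) (nat_lit 456) (nat_lit 0) (XT.nd (nat_lit 312) (nat_lit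 304) (nat_lit 0) (XT.nd (nat_lit 156) (nat_lit 152) (nat_lit 0) (XT.nd (nat_lit 78) (nat_lit 0) (nat_lit 0) (XT.lf (nat_lit 0) (nat_lit 14490910484) (nat_lit 76) (nat_lit 32414212576) (nat_lit 152) (nat_lit 62497549977) (nat_lit 47) (nat_lit 5) (nat_lit 48) (nat_lit 5) (nat_lit 49) (nat_lit 4) (nat_lit 494) (nat_lit 426) (nat_lit 280)) (XT.lf (nat_lit 0) (nat_lit 79826508933) (nat_lit 152) (nat_lit 31274391072) (nat_lit 0) (nat_lit 2047719523) (nat_lit 47) (nat_lit 5) (nat_lit 49) (nat_lit 4) (nat_lit 47) (nat_lit 4) (nat_lit 495) (nat_lit 426) (nat_lit 279))) (XT.nd (nat_lit 78) (nat_lit 76) (nat_lit 0) (XT.lf (nat_lit 0) (nat_lit 36165927244) (nat_lit 76) (nat_lit 79321450167) (nat_lit 76) (nat_lit 1539815324) (nat_lit 46) (nat_lit 4) (nat_lit 47) (nat_lit 5) (nat_lit 47) (nat_lit 4) (nat_lit 496) (nat_lit 426) (nat_lit 278)) (XT.lf (nat_lit 0) (nat_lit 31348500368) (nat_lit 152) (nat_lit 13519919025)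 (nat_lit 76) (nat_lit 76179640472) (nat_lit 45) (nat_lit 5) (nat_lit 47) (nat_lit 5) (nat_lit 46) (nat_lit 4) (nat_lit 497) (nat_lit 426) (nat_lit 277)))) (XT.nd (nat_lit 156) (nat_lit 152) (nat_lit 0) (XT.nd (nat_lit 78) (nat_lit 76) (nat_lit 0) (XT.lf (nat_lit 0) (nat_lit 59048327768) (nat_lit 76) (nat_lit 7700576348) (nat_lit 152) (nat_lit 58473833131) (nat_lit 44) (nat_lit 5) (nat_lit 45) (nat_lit 5) (nat_lit 46) (nat_lit 4) (nat_lit 498) (nat_lit 426) (nat_lit 276)) (XT.lf (nat_lit 0) (nat_lit 5807873646) (nat_lit 76) (nat_lit 98921451181) (nat_lit 76) (nat_lit 24836323882) (nat_lit 43) (nat_lit 4) (nat_lit 44) (nat_lit 5) (nat_lit 44) (nat_lit 4) (nat_lit 499) (nat_lit 426) (nat_lit 275))) (XT.nd (nat_lit 78) (nat_lit 76) (nat_lit 0) (XT.lf (nat_lit 0) (nat_lit 11410366124) (nat_lit 152) (nat_lit 50696106215) (nat_lit 76) (nat_lit 71947908515) (nat_lit 42) (nat_lit 5) (nat_lit 44) (nat_lit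 5) (nat_lit 43) (nat_lit 4) (nat_lit 500) (nat_lit 426) (nat_lit 274)) (XT.lf (nat_lit 0) (nat_lit 26453551824) (nat_lit 76) (nat_lit 22591829590) (nat_lit 152) (nat_lit 89681277885) (nat_lit 41) (nat_lit 5) (nat_lit 42) (nat_lit 5) (nat_lit 43) (nat_lit 4) (nat_lit 501) (nat_lit 426) (nat_lit 273))))) (XT.nd (nat_lit 312) (nat_lit 228) (nat_lit 0) (XT.nd (nat_lit 156) (nat_lit 152) (nat_lit 0) (XT.nd (nat_lit 78) (nat_lit 76) (nat_lit 0) (XT.lf (nat_lit 0) (nat_lit 89727491300) (nat_lit 152) (nat_lit 34682637414) (nat_lit 0) (nat_lit 19164155801) (nat_lit 41) (nat_lit 5) (nat_lit 43) (nat_lit 4) (nat_lit 41) (nat_lit 4) (nat_lit 502) (nat_lit 426) (nat_lit 272)) (XT.lf (nat_lit 0) (nat_lit 47947201566) (nat_lit 76) (nat_lit 85613211908) (nat_lit 76) (nat_lit 15048042217) (nat_lit 40) (nat_lit 4) (nat_lit 41) (nat_lit 5) (nat_lit 41) (nat_lit 4) (nat_lit 503) (nat_lit 426) (nat_lit 271))) (XT.nd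 (nat_lit 78) (nat_lit 76) (nat_lit 0) (XT.lf (nat_lit 0) (nat_lit 25463143068) (nat_lit 152) (nat_lit 18367473249) (nat_lit 76) (nat_lit 110013926099) (nat_lit 39) (nat_lit 5) (nat_lit 41) (nat_lit 5) (nat_lit 40) (nat_lit 4) (nat_lit 504) (nat_lit 426) (nat_lit 270)) (XT.lf (nat_lit 0) (nat_lit 68608009828) (nat_lit 152) (nat_lit 89266559262) (nat_lit 0) (nat_lit 1399838204) (nat_lit 38) (nat_lit 5) (nat_lit 40) (nat_lit 4) (nat_lit 38) (nat_lit 4) (nat_lit 505) (nat_lit 426) (nat_lit 269)))) (XT.nd (nat_lit 156) (nat_lit 152) (nat_lit 0) (XT.nd (nat_lit 78) (nat_lit 76) (nat_lit 0) (XT.lf (nat_lit 0) (nat_lit 114942689475) (nat_lit 152) (nat_lit 2248438639) (nat_lit 0) (nat_lit 47733008856) (nat_lit 38) (nat_lit 5) (nat_lit 40) (nat_lit 4) (nat_lit 38) (nat_lit 4) (nat_lit 506) (nat_lit 426) (nat_lit 268)) (XT.lf (nat_lit 0) (nat_lit 92063180126) (nat_lit 76) (nat_lit 72966261921) (nat_lit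 76) (nat_lit 5755144165) (nat_lit 37) (nat_lit 4) (nat_lit 38) (nat_lit 5) (nat_lit 38) (nat_lit 4) (nat_lit 507) (nat_lit 426) (nat_lit 267))) (XT.nd (nat_lit 78) (nat_lit 0) (nat_lit 0) (XT.lf (nat_lit 0) (nat_lit 14041916983) (nat_lit 76) (nat_lit 25594377378) (nat_lit 152) (nat_lit 137257209547) (nat_lit 35) (nat_lit 5) (nat_lit 36) (nat_lit 5) (nat_lit 37) (nat_lit 4) (nat_lit 508) (nat_lit 426) (nat_lit 266)) (XT.lf (nat_lit 0) (nat_lit 88833904385) (nat_lit 152) (nat_lit 69561974223) (nat_lit 0) (nat_lit 24820771067) (nat_lit 35) (nat_lit 5) (nat_lit 37) (nat_lit 4) (nat_lit 35) (nat_lit 4) (nat_lit 509) (nat_lit 426) (nat_lit 265))))))) (XT.nd (nat_lit 1170) (nat_lit 684) (nat_lit 0) (XT.nd (nat_lit 546) (nat_lit 456) (nat_lit 0) (XT.nd (nat_lit 234) (nat_lit 228) (nat_lit 0) (XT.nd (nat_lit 78) (nat_lit 152) (nat_lit 0) (XT.lf (nat_lit 0) (nat_lit 28893491098) (nat_lit 76) (nat_lit 112466669513)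 (nat_lit 76) (nat_lit 48452353859) (nat_lit 34) (nat_lit 4) (nat_lit 35) (nat_lit 5) (nat_lit 35) (nat_lit 4) (nat_lit 510) (nat_lit 426) (nat_lit 264)) (XT.nd (nat_lit 78) (nat_lit 76) (nat_lit 0) (XT.lf (nat_lit 0) (nat_lit 977230212) (nat_lit 152) (nat_lit 62012119752) (nat_lit 76) (nat_lit 133689225677) (nat_lit 33) (nat_lit 5) (nat_lit 35) (nat_lit 5) (nat_lit 34) (nat_lit 4) (nat_lit 511) (nat_lit 426) (nat_lit 263)) (XT.lf (nat_lit 0) (nat_lit 42399228128) (nat_lit 76) (nat_lit 9510890033) (nat_lit 152) (nat_lit 151905099614) (nat_lit 32) (nat_lit 5) (nat_lit 33) (nat_lit 5) (nat_lit 34) (nat_lit 4) (nat_lit 512) (nat_lit 426) (nat_lit 262)))) (XT.nd (nat_lit 156) (nat_lit 152) (nat_lit 0) (XT.nd (nat_lit 78) (nat_lit 76) (nat_lit 0) (XT.lf (nat_lit 0) (nat_lit 107183450718) (nat_lit 152) (nat_lit 57821181970) (nat_lit 0) (nat_lit 46214369337) (nat_lit 32) (nat_lit 5) (nat_lit 34) (nat_lit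 4) (nat_lit 32) (nat_lit 4) (nat_lit 513) (nat_lit 426) (nat_lit 261)) (XT.lf (nat_lit 0) (nat_lit 52473458231) (nat_lit 76) (nat_lit 113720426649) (nat_lit 76) (nat_lit 52750418877) (nat_lit 31) (nat_lit 4) (nat_lit 32) (nat_lit 5) (nat_lit 32) (nat_lit 4) (nat_lit 514) (nat_lit 426) (nat_lit 260))) (XT.nd (nat_lit 78) (nat_lit 76) (nat_lit 0) (XT.lf (nat_lit 0) (nat_lit 2057341380) (nat_lit 152) (nat_lit 56753340220) (nat_lit 76) (nat_lit 168194653837) (nat_lit 30) (nat_lit 5) (nat_lit 32) (nat_lit 5) (nat_lit 31) (nat_lit 4) (nat_lit 515) (nat_lit 426) (nat_lit 259)) (XT.lf (nat_lit 0) (nat_lit 58771152483) (nat_lit 152) (nat_lit 175905269148) (nat_lit 0) (nat_lit 702837897) (nat_lit 29) (nat_lit 5) (nat_lit 31) (nat_lit 4) (nat_lit 29) (nat_lit 4) (nat_lit 516) (nat_lit 426) (nat_lit 258))))) (XT.nd (nat_lit 312) (nat_lit 228) (nat_lit 0) (XT.nd (nat_lit 156) (nat_lit 152) (nat_lit 0) (XT.nd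 (nat_lit 78) (nat_lit 76) (nat_lit 0) (XT.lf (nat_lit 0) (nat_lit 120260013271) (nat_lit 152) (nat_lit 61623962072) (nat_lit 0) (nat_lit 62190936541) (nat_lit 29) (nat_lit 5) (nat_lit 31) (nat_lit 4) (nat_lit 29) (nat_lit 4) (nat_lit 517) (nat_lit 426) (nat_lit 257)) (XT.lf (nat_lit 0) (nat_lit 60298177338) (nat_lit 76) (nat_lit 125464989807) (nat_lit 76) (nat_lit 67395187225) (nat_lit 28) (nat_lit 4) (nat_lit 29) (nat_lit 5) (nat_lit 29) (nat_lit 4) (nat_lit 518) (nat_lit 426) (nat_lit 256))) (XT.nd (nat_lit 78) (nat_lit 152) (nat_lit 0) (XT.lf (nat_lit 0) (nat_lit 190452768094) (nat_lit 76) (nat_lit 65130795269) (nat_lit 76) (nat_lit 7060301399) (nat_lit 28) (nat_lit 4) (nat_lit 29) (nat_lit 5) (nat_lit 29) (nat_lit 4) (nat_lit 519) (nat_lit 426) (nat_lit 255)) (XT.lf (nat_lit 0) (nat_lit 55353925511) (nat_lit 152) (nat_lit 217114502126) (nat_lit 0) (nat_lit 48066237) (nat_lit 26) (nat_lit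 5) (nat_lit 28) (nat_lit 4) (nat_lit 26) (nat_lit 4) (nat_lit 520) (nat_lit 426) (nat_lit 254)))) (XT.nd (nat_lit 156) (nat_lit 152) (nat_lit 0) (XT.nd (nat_lit 78) (nat_lit 76) (nat_lit 0) (XT.lf (nat_lit 0) (nat_lit 122960447521) (nat_lit 152) (nat_lit 92147085905) (nat_lit 0) (nat_lit 67653991086) (nat_lit 26) (nat_lit 5) (nat_lit 28) (nat_lit 4) (nat_lit 26) (nat_lit 4) (nat_lit 521) (nat_lit 426) (nat_lit 253)) (XT.lf (nat_lit 0) (nat_lit 40357532891) (nat_lit 76) (nat_lit 154218432732) (nat_lit 76) (nat_lit 98911407573) (nat_lit 25) (nat_lit 4) (nat_lit 26) (nat_lit 5) (nat_lit 26) (nat_lit 4) (nat_lit 522) (nat_lit 426) (nat_lit 252))) (XT.nd (nat_lit 78) (nat_lit 152) (nat_lit 0) (XT.lf (nat_lit 0) (nat_lit 182683706199) (nat_lit 76) (nat_lit 88647708584) (nat_lit 76) (nat_lit 33340141783) (nat_lit 25) (nat_lit 4) (nat_lit 26) (nat_lit 5) (nat_lit 26) (nat_lit 4) (nat_lit 523) (nat_lit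 426) (nat_lit 251)) (XT.lf (nat_lit 0) (nat_lit 15655170611) (nat_lit 76) (nat_lit 18961050491) (nat_lit 152) (nat_lit 281758854447) (nat_lit 23) (nat_lit 5) (nat_lit 24) (nat_lit 5) (nat_lit 25) (nat_lit 4) (nat_lit 524) (nat_lit 426) (nat_lit 250)))))) (XT.nd (nat_lit 624) (nat_lit 380) (nat_lit 0) (XT.nd (nat_lit 312) (nat_lit 228) (nat_lit 0) (XT.nd (nat_lit 156) (nat_lit 76) (nat_lit 0) (XT.nd (nat_lit 78) (nat_lit 0) (nat_lit 0) (XT.lf (nat_lit 0) (nat_lit 107794760795) (nat_lit 152) (nat_lit 165574512934) (nat_lit 0) (nat_lit 55119928475) (nat_lit 23) (nat_lit 5) (nat_lit 25) (nat_lit 4) (nat_lit 23) (nat_lit 4) (nat_lit 525) (nat_lit 426) (nat_lit 249)) (XT.lf (nat_lit 0) (nat_lit 184941774924) (nat_lit 152) (nat_lit 23985285910) (nat_lit 0) (nat_lit 132266496995) (nat_lit 23) (nat_lit 5) (nat_lit 25) (nat_lit 4) (nat_lit 23) (nat_lit 4) (nat_lit 526) (nat_lit 426) (nat_lit 248))) (XT.nd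 (nat_lit 78) (nat_lit 0) (nat_lit 0) (XT.lf (nat_lit 0) (nat_lit 128803443047) (nat_lit 76) (nat_lit 139152451391) (nat_lit 76) (nat_lit 86476749071) (nat_lit 22) (nat_lit 4) (nat_lit 23) (nat_lit 5) (nat_lit 23) (nat_lit 4) (nat_lit 527) (nat_lit 426) (nat_lit 247)) (XT.lf (nat_lit 0) (nat_lit 290061889335) (nat_lit 76) (nat_lit 65463825453) (nat_lit 76) (nat_lit 12787718951) (nat_lit 22) (nat_lit 4) (nat_lit 23) (nat_lit 5) (nat_lit 23) (nat_lit 4) (nat_lit 528) (nat_lit 426) (nat_lit 246)))) (XT.nd (nat_lit 156) (nat_lit 76) (nat_lit 0) (XT.nd (nat_lit 78) (nat_lit 0) (nat_lit 0) (XT.lf (nat_lit 0) (nat_lit 63957341604) (nat_lit 152) (nat_lit 305019312793) (nat_lit 0) (nat_lit 13789254521) (nat_lit 20) (nat_lit 5) (nat_lit 22) (nat_lit 4) (nat_lit 20) (nat_lit 4) (nat_lit 529) (nat_lit 426) (nat_lit 245)) (XT.lf (nat_lit 0) (nat_lit 146528866538) (nat_lit 152) (nat_lit 154920281150) (nat_lit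 0) (nat_lit 96360430308) (nat_lit 20) (nat_lit 5) (nat_lit 22) (nat_lit 4) (nat_lit 20) (nat_lit 4) (nat_lit 530) (nat_lit 426) (nat_lit 244))) (XT.nd (nat_lit 78) (nat_lit 0) (nat_lit 0) (XT.lf (nat_lit 0) (nat_lit 2770117375) (nat_lit 76) (nat_lit 230500987526) (nat_lit 76) (nat_lit 180332218775) (nat_lit 19) (nat_lit 4) (nat_lit 20) (nat_lit 5) (nat_lit 20) (nat_lit 4) (nat_lit 531) (nat_lit 426) (nat_lit 243)) (XT.lf (nat_lit 0) (nat_lit 173721308634) (nat_lit 76) (nat_lit 153251702818) (nat_lit 76) (nat_lit 103082617380) (nat_lit 19) (nat_lit 4) (nat_lit 20) (nat_lit 5) (nat_lit 20) (nat_lit 4) (nat_lit 532) (nat_lit 426) (nat_lit 242))))) (XT.nd (nat_lit 312) (nat_lit 228) (nat_lit 0) (XT.nd (nat_lit 156) (nat_lit 0) (nat_lit 0) (XT.nd (nat_lit 78) (nat_lit 152) (nat_lit 0) (XT.lf (nat_lit 0) (nat_lit 353217955139) (nat_lit 76) (nat_lit 72141016619) (nat_lit 76) (nat_lit 21971629574) (nat_lit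 19) (nat_lit 4) (nat_lit 20) (nat_lit 5) (nat_lit 20) (nat_lit 4) (nat_lit 533) (nat_lit 426) (nat_lit 241)) (XT.lf (nat_lit 0) (nat_lit 62624088165) (nat_lit 152) (nat_lit 387879865219) (nat_lit 0) (nat_lit 14843445986) (nat_lit 17) (nat_lit 5) (nat_lit 19) (nat_lit 4) (nat_lit 17) (nat_lit 4) (nat_lit 534) (nat_lit 426) (nat_lit 240))) (XT.nd (nat_lit 78) (nat_lit 0) (nat_lit 0) (XT.lf (nat_lit 0) (nat_lit 153512805013) (nat_lit 152) (nat_lit 224862240271) (nat_lit 0) (nat_lit 105731902295) (nat_lit 17) (nat_lit 5) (nat_lit 19) (nat_lit 4) (nat_lit 17) (nat_lit 4) (nat_lit 535) (nat_lit 426) (nat_lit 239)) (XT.lf (nat_lit 0) (nat_lit 248944998328) (nat_lit 152) (nat_lit 53695675369) (nat_lit 0) (nat_lit 201163847477) (nat_lit 17) (nat_lit 5) (nat_lit 19) (nat_lit 4) (nat_lit 17) (nat_lit 4) (nat_lit 536) (nat_lit 426) (nat_lit 238)))) (XT.nd (nat_lit 156) (nat_lit 152) (nat_lit 0) (XT.nd (nat_lit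 78) (nat_lit 0) (nat_lit 0) (XT.lf (nat_lit 0) (nat_lit 130194402899) (nat_lit 76) (nat_lit 220986184216) (nat_lit 76) (nat_lit 173204797048) (nat_lit 16) (nat_lit 4) (nat_lit 17) (nat_lit 5) (nat_lit 17) (nat_lit 4) (nat_lit 537) (nat_lit 426) (nat_lit 237)) (XT.lf (nat_lit 0) (nat_lit 325141358652) (nat_lit 76) (nat_lit 134295060350) (nat_lit 76) (nat_lit 86513448119) (nat_lit 16) (nat_lit 4) (nat_lit 17) (nat_lit 5) (nat_lit 17) (nat_lit 4) (nat_lit 538) (nat_lit 426) (nat_lit 236))) (XT.nd (nat_lit 78) (nat_lit 76) (nat_lit 0) (XT.lf (nat_lit 0) (nat_lit 4367171263) (nat_lit 152) (nat_lit 38829125487) (nat_lit 76) (nat_lit 525392798361) (nat_lit 15) (nat_lit 5) (nat_lit 17) (nat_lit 5) (nat_lit 16) (nat_lit 4) (nat_lit 539) (nat_lit 426) (nat_lit 235)) (XT.lf (nat_lit 0) (nat_lit 100198429366) (nat_lit 152) (nat_lit 437233507685) (nat_lit 0) (nat_lit 54691733445) (nat_lit 14) (nat_lit 5)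 (nat_lit 16) (nat_lit 4) (nat_lit 14) (nat_lit 4) (nat_lit 540) (nat_lit 426) (nat_lit 234))))))))
noncomputable def xc153 : XT := (XT.nd (nat_lit 55380) (nat_lit 0) (nat_lit 3876) (XT.nd (nat_lit 54132) (nat_lit 0) (nat_lit 7752) (XT.nd (nat_lit 546) (nat_lit 0) (nat_lit 0) (XT.nd (nat_lit 234) (nat_lit 152) (nat_lit 0) (XT.nd (nat_lit 78) (nat_lit 76) (nat_lit 0) (XT.lf (nat_lit 0) (nat_lit 202196928810) (nat_lit 152) (nat_lit 257879214192) (nat_lit 0) (nat_lit 156690047730) (nat_lit 14) (nat_lit 5) (nat_lit 16) (nat_lit 4) (nat_lit 14) (nat_lit 4) (nat_lit 541) (nat_lit 426) (nat_lit 233)) (XT.nd (nat_lit 78) (nat_lit 76) (nat_lit 0) (XT.lf (nat_lit 0) (nat_lit 309294564876) (nat_lit 152) (nat_lit 69558804072) (nat_lit 0) (nat_lit 263787507452) (nat_lit 14) (nat_lit 5) (nat_lit 16) (nat_lit 4) (nat_lit 14) (nat_lit 4) (nat_lit 542) (nat_lit 426) (nat_lit 232)) (XT.lf (nat_lit 0) (nat_lit 132414185479)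 (nat_lit 76) (nat_lit 291399502980) (nat_lit 76) (nat_lit 245892277611) (nat_lit 13) (nat_lit 4) (nat_lit 14) (nat_lit 5) (nat_lit 14) (nat_lit 4) (nat_lit 543) (nat_lit 426) (nat_lit 231)))) (XT.nd (nat_lit 156) (nat_lit 152) (nat_lit 0) (XT.nd (nat_lit 78) (nat_lit 0) (nat_lit 0) (XT.lf (nat_lit 0) (nat_lit 346899251716) (nat_lit 76) (nat_lit 198336790076) (nat_lit 76) (nat_lit 152829404758) (nat_lit 13) (nat_lit 4) (nat_lit 14) (nat_lit 5) (nat_lit 14) (nat_lit 4) (nat_lit 544) (nat_lit 426) (nat_lit 230)) (XT.lf (nat_lit 0) (nat_lit 572107145166) (nat_lit 76) (nat_lit 100621664351) (nat_lit 76) (nat_lit 55114126702) (nat_lit 13) (nat_lit 4) (nat_lit 14) (nat_lit 5) (nat_lit 14) (nat_lit 4) (nat_lit 545) (nat_lit 426) (nat_lit 229))) (XT.nd (nat_lit 78) (nat_lit 0) (nat_lit 0) (XT.lf (nat_lit 0) (nat_lit 46808144424) (nat_lit 152) (nat_lit 708754536200) (nat_lit 0) (nat_lit 3467494208) (nat_lit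 11) (nat_lit 5) (nat_lit 13) (nat_lit 4) (nat_lit 11) (nat_lit 4) (nat_lit 546) (nat_lit 426) (nat_lit 228)) (XT.lf (nat_lit 0) (nat_lit 156303886257) (nat_lit 152) (nat_lit 522248131497) (nat_lit 0) (nat_lit 112963104450) (nat_lit 11) (nat_lit 5) (nat_lit 13) (nat_lit 4) (nat_lit 11) (nat_lit 4) (nat_lit 547) (nat_lit 426) (nat_lit 227))))) (XT.nd (nat_lit 53274) (nat_lit 0) (nat_lit 10412) (XT.nd (nat_lit 53118) (nat_lit 0) (nat_lit 10336) (XT.nd (nat_lit 53040) (nat_lit 0) (nat_lit 10336) (XT.lf (nat_lit 0) (nat_lit 271273767264) (nat_lit 152) (nat_lit 326417721946) (nat_lit 0) (nat_lit 227932860134) (nat_lit 11) (nat_lit 5) (nat_lit 13) (nat_lit 4) (nat_lit 11) (nat_lit 4) (nat_lit 548) (nat_lit 426) (nat_lit 226)) (XT.lf (nat_lit 0) (nat_lit 1225961698) (nat_lit 836) (nat_lit 3224898402) (nat_lit 836) (nat_lit 3224898402) (nat_lit 147) (nat_lit 3) (nat_lit 158) (nat_lit 3) (nat_lit 158)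 (nat_lit 5) (nat_lit 427) (nat_lit 427) (nat_lit 346))) (XT.nd (nat_lit 78) (nat_lit 0) (nat_lit 76) (XT.lf (nat_lit 76) (nat_lit 1202778570) (nat_lit 0) (nat_lit 1608981028) (nat_lit 836) (nat_lit 12908575154) (nat_lit 148) (nat_lit 5) (nat_lit 147) (nat_lit 3) (nat_lit 158) (nat_lit 5) (nat_lit 428) (nat_lit 427) (nat_lit 345)) (XT.lf (nat_lit 0) (nat_lit 3377111644) (nat_lit 760) (nat_lit 6747199934) (nat_lit 836) (nat_lit 5973908377) (nat_lit 148) (nat_lit 5) (nat_lit 158) (nat_lit 5) (nat_lit 159) (nat_lit 5) (nat_lit 429) (nat_lit 427) (nat_lit 344)))) (XT.nd (nat_lit 156) (nat_lit 0) (nat_lit 76) (XT.nd (nat_lit 78) (nat_lit 0) (nat_lit 76) (XT.lf (nat_lit 76) (nat_lit 1420524863) (nat_lit 0) (nat_lit 2581685867) (nat_lit 836) (nat_lit 12491217355) (nat_lit 149) (nat_lit 5) (nat_lit 148) (nat_lit 5) (nat_lit 159) (nat_lit 5) (nat_lit 430) (nat_lit 427) (nat_lit 343)) (XT.lf (nat_lit 0)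 (nat_lit 4841726623) (nat_lit 760) (nat_lit 6768010956) (nat_lit 836) (nat_lit 5289503461) (nat_lit 149) (nat_lit 5) (nat_lit 159) (nat_lit 5) (nat_lit 160) (nat_lit 5) (nat_lit 431) (nat_lit 427) (nat_lit 342))) (XT.nd (nat_lit 78) (nat_lit 0) (nat_lit 76) (XT.lf (nat_lit 76) (nat_lit 1962131618) (nat_lit 0) (nat_lit 3818500238) (nat_lit 836) (nat_lit 11541844504) (nat_lit 150) (nat_lit 5) (nat_lit 149) (nat_lit 5) (nat_lit 160) (nat_lit 5) (nat_lit 432) (nat_lit 427) (nat_lit 341)) (XT.lf (nat_lit 0) (nat_lit 6936197145) (nat_lit 760) (nat_lit 6478504221) (nat_lit 836) (nat_lit 4343688617) (nat_lit 150) (nat_lit 5) (nat_lit 160) (nat_lit 5) (nat_lit 161) (nat_lit 5) (nat_lit 433) (nat_lit 427) (nat_lit 340)))))) (XT.nd (nat_lit 624) (nat_lit 1748) (nat_lit 0) (XT.nd (nat_lit 312) (nat_lit 1064) (nat_lit 0) (XT.nd (nat_lit 156) (nat_lit 0) (nat_lit 76) (XT.nd (nat_lit 78) (nat_lit 0) (nat_lit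 76) (XT.lf (nat_lit 76) (nat_lit 2865962063) (nat_lit 0) (nat_lit 5376740350) (nat_lit 836) (nat_lit 9968740960) (nat_lit 151) (nat_lit 5) (nat_lit 150) (nat_lit 5) (nat_lit 161) (nat_lit 5) (nat_lit 434) (nat_lit 427) (nat_lit 339)) (XT.lf (nat_lit 0) (nat_lit 9760252926) (nat_lit 760) (nat_lit 5839877277) (nat_lit 836) (nat_lit 3079735296) (nat_lit 151) (nat_lit 5) (nat_lit 161) (nat_lit 5) (nat_lit 162) (nat_lit 5) (nat_lit 435) (nat_lit 427) (nat_lit 338))) (XT.nd (nat_lit 78) (nat_lit 0) (nat_lit 76) (XT.lf (nat_lit 76) (nat_lit 4175887803) (nat_lit 0) (nat_lit 7318163163) (nat_lit 836) (nat_lit 7670641236) (nat_lit 152) (nat_lit 5) (nat_lit 151) (nat_lit 5) (nat_lit 162) (nat_lit 5) (nat_lit 436) (nat_lit 427) (nat_lit 337)) (XT.lf (nat_lit 0) (nat_lit 13424090184) (nat_lit 760) (nat_lit 4807879643) (nat_lit 76) (nat_lit 1436314723) (nat_lit 152) (nat_lit 5) (nat_lit 162) (nat_lit 5) (nat_lit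 153) (nat_lit 5) (nat_lit 437) (nat_lit 427) (nat_lit 336)))) (XT.nd (nat_lit 156) (nat_lit 456) (nat_lit 0) (XT.nd (nat_lit 78) (nat_lit 0) (nat_lit 0) (XT.lf (nat_lit 0) (nat_lit 5941703846) (nat_lit 760) (nat_lit 9709774415) (nat_lit 836) (nat_lit 4535537695) (nat_lit 142) (nat_lit 5) (nat_lit 152) (nat_lit 5) (nat_lit 153) (nat_lit 5) (nat_lit 438) (nat_lit 427) (nat_lit 335)) (XT.lf (nat_lit 0) (nat_lit 17385266785) (nat_lit 760) (nat_lit 674906600) (nat_lit 836) (nat_lit 2668015365) (nat_lit 142) (nat_lit 5) (nat_lit 152) (nat_lit 5) (nat_lit 153) (nat_lit 5) (nat_lit 439) (nat_lit 427) (nat_lit 334))) (XT.nd (nat_lit 78) (nat_lit 76) (nat_lit 0) (XT.lf (nat_lit 0) (nat_lit 8219604159) (nat_lit 380) (nat_lit 12624682277) (nat_lit 456) (nat_lit 439386210) (nat_lit 137) (nat_lit 5) (nat_lit 142) (nat_lit 5) (nat_lit 143) (nat_lit 5) (nat_lit 440) (nat_lit 427) (nat_lit 333)) (XT.lf (nat_lit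 0) (nat_lit 1897708194) (nat_lit 456) (nat_lit 1440125929) (nat_lit 76) (nat_lit 18524720978) (nat_lit 136) (nat_lit 5) (nat_lit 142) (nat_lit 5) (nat_lit 137) (nat_lit 5) (nat_lit 441) (nat_lit 427) (nat_lit 332))))) (XT.nd (nat_lit 312) (nat_lit 684) (nat_lit 0) (XT.nd (nat_lit 156) (nat_lit 304) (nat_lit 0) (XT.nd (nat_lit 78) (nat_lit 380) (nat_lit 0) (XT.lf (nat_lit 0) (nat_lit 4603103951) (nat_lit 456) (nat_lit 11461947663) (nat_lit 76) (nat_lit 6391660666) (nat_lit 131) (nat_lit 5) (nat_lit 137) (nat_lit 5) (nat_lit 132) (nat_lit 5) (nat_lit 442) (nat_lit 427) (nat_lit 331)) (XT.lf (nat_lit 0) (nat_lit 988048612) (nat_lit 380) (nat_lit 6540756436) (nat_lit 456) (nat_lit 15547521824) (nat_lit 126) (nat_lit 5) (nat_lit 131) (nat_lit 5) (nat_lit 132) (nat_lit 5) (nat_lit 443) (nat_lit 427) (nat_lit 330))) (XT.nd (nat_lit 78) (nat_lit 304) (nat_lit 0) (XT.lf (nat_lit 0) (nat_lit 10842503745)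 (nat_lit 456) (nat_lit 9326733803) (nat_lit 76) (nat_lit 3545600288) (nat_lit 126) (nat_lit 5) (nat_lit 132) (nat_lit 5) (nat_lit 127) (nat_lit 5) (nat_lit 444) (nat_lit 427) (nat_lit 329)) (XT.lf (nat_lit 0) (nat_lit 4086162906) (nat_lit 304) (nat_lit 10397603845) (nat_lit 380) (nat_lit 9893414837) (nat_lit 122) (nat_lit 5) (nat_lit 126) (nat_lit 5) (nat_lit 127) (nat_lit 5) (nat_lit 445) (nat_lit 427) (nat_lit 328)))) (XT.nd (nat_lit 156) (nat_lit 380) (nat_lit 0) (XT.nd (nat_lit 78) (nat_lit 304) (nat_lit 0) (XT.lf (nat_lit 0) (nat_lit 18456605316) (nat_lit 380) (nat_lit 6582222892) (nat_lit 76) (nat_lit 26339850) (nat_lit 122) (nat_lit 5) (nat_lit 127) (nat_lit 5) (nat_lit 123) (nat_lit 5) (nat_lit 446) (nat_lit 427) (nat_lit 327)) (XT.lf (nat_lit 0) (nat_lit 7883853454) (nat_lit 304) (nat_lit 15029312293) (nat_lit 380) (nat_lit 2860135204) (nat_lit 118) (nat_lit 5) (nat_lit 122) (nat_lit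 5) (nat_lit 123) (nat_lit 5) (nat_lit 447) (nat_lit 427) (nat_lit 326))) (XT.nd (nat_lit 78) (nat_lit 304) (nat_lit 0) (XT.lf (nat_lit 0) (nat_lit 1146236155) (nat_lit 380) (nat_lit 3238290001) (nat_lit 76) (nat_lit 22126227983) (nat_lit 117) (nat_lit 5) (nat_lit 122) (nat_lit 5) (nat_lit 118) (nat_lit 5) (nat_lit 448) (nat_lit 427) (nat_lit 325)) (XT.lf (nat_lit 0) (nat_lit 5553825672) (nat_lit 380) (nat_lit 14894793568) (nat_lit 76) (nat_lit 6819266373) (nat_lit 113) (nat_lit 5) (nat_lit 118) (nat_lit 5) (nat_lit 114) (nat_lit 5) (nat_lit 449) (nat_lit 427) (nat_lit 324))))))) (XT.nd (nat_lit 1170) (nat_lit 1672) (nat_lit 0) (XT.nd (nat_lit 546) (nat_lit 1140) (nat_lit 0) (XT.nd (nat_lit 234) (nat_lit 532) (nat_lit 0) (XT.nd (nat_lit 78) (nat_lit 228) (nat_lit 0) (XT.lf (nat_lit 0) (nat_lit 758979518) (nat_lit 304) (nat_lit 9554534531) (nat_lit 380) (nat_lit 17742774545) (nat_lit 109) (nat_lit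 5) (nat_lit 113) (nat_lit 5) (nat_lit 114) (nat_lit 5) (nat_lit 450) (nat_lit 427) (nat_lit 323)) (XT.nd (nat_lit 78) (nat_lit 228) (nat_lit 0) (XT.lf (nat_lit 0) (nat_lit 15589425426) (nat_lit 380) (nat_lit 11202555977) (nat_lit 76) (nat_lit 2078219252) (nat_lit 109) (nat_lit 5) (nat_lit 114) (nat_lit 5) (nat_lit 110) (nat_lit 5) (nat_lit 451) (nat_lit 427) (nat_lit 322)) (XT.lf (nat_lit 0) (nat_lit 5713594835) (nat_lit 228) (nat_lit 15654169044) (nat_lit 304) (nat_lit 8345113682) (nat_lit 106) (nat_lit 5) (nat_lit 109) (nat_lit 5) (nat_lit 110) (nat_lit 5) (nat_lit 452) (nat_lit 427) (nat_lit 321)))) (XT.nd (nat_lit 156) (nat_lit 228) (nat_lit 0) (XT.nd (nat_lit 78) (nat_lit 304) (nat_lit 0) (XT.lf (nat_lit 0) (nat_lit 23855056193) (nat_lit 228) (nat_lit 3762674312) (nat_lit 304) (nat_lit 2970823025) (nat_lit 106) (nat_lit 5) (nat_lit 109) (nat_lit 5) (nat_lit 110) (nat_lit 5) (nat_lit 453)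 (nat_lit 427) (nat_lit 320)) (XT.lf (nat_lit 0) (nat_lit 2902690670) (nat_lit 304) (nat_lit 19917198989) (nat_lit 76) (nat_lit 8670236580) (nat_lit 102) (nat_lit 5) (nat_lit 106) (nat_lit 5) (nat_lit 103) (nat_lit 5) (nat_lit 454) (nat_lit 427) (nat_lit 319))) (XT.nd (nat_lit 78) (nat_lit 228) (nat_lit 0) (XT.lf (nat_lit 0) (nat_lit 9140986311) (nat_lit 304) (nat_lit 1524230560) (nat_lit 76) (nat_lit 21760579015) (nat_lit 102) (nat_lit 5) (nat_lit 106) (nat_lit 5) (nat_lit 103) (nat_lit 5) (nat_lit 455) (nat_lit 427) (nat_lit 318)) (XT.lf (nat_lit 0) (nat_lit 16009040587) (nat_lit 304) (nat_lit 15064275145) (nat_lit 76) (nat_lit 2319041731) (nat_lit 99) (nat_lit 5) (nat_lit 103) (nat_lit 5) (nat_lit 100) (nat_lit 5) (nat_lit 456) (nat_lit 427) (nat_lit 317))))) (XT.nd (nat_lit 312) (nat_lit 684) (nat_lit 0) (XT.nd (nat_lit 156) (nat_lit 228) (nat_lit 0) (XT.nd (nat_lit 78) (nat_lit 0) (nat_lit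 0) (XT.lf (nat_lit 0) (nat_lit 4788961518) (nat_lit 228) (nat_lit 18701179598) (nat_lit 304) (nat_lit 10903624437) (nat_lit 96) (nat_lit 5) (nat_lit 99) (nat_lit 5) (nat_lit 100) (nat_lit 5) (nat_lit 457) (nat_lit 427) (nat_lit 316)) (XT.lf (nat_lit 0) (nat_lit 26148978582) (nat_lit 228) (nat_lit 5445393636) (nat_lit 304) (nat_lit 3838418633) (nat_lit 96) (nat_lit 5) (nat_lit 99) (nat_lit 5) (nat_lit 100) (nat_lit 5) (nat_lit 458) (nat_lit 427) (nat_lit 315))) (XT.nd (nat_lit 78) (nat_lit 0) (nat_lit 0) (XT.lf (nat_lit 0) (nat_lit 3789309828) (nat_lit 228) (nat_lit 24262845915) (nat_lit 76) (nat_lit 8452625158) (nat_lit 93) (nat_lit 5) (nat_lit 96) (nat_lit 5) (nat_lit 94) (nat_lit 5) (nat_lit 459) (nat_lit 427) (nat_lit 314)) (XT.lf (nat_lit 0) (nat_lit 11912750481) (nat_lit 228) (nat_lit 2619750463) (nat_lit 76) (nat_lit 23082557677) (nat_lit 93) (nat_lit 5) (nat_lit 96) (nat_lit 5) (nat_lit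 94) (nat_lit 5) (nat_lit 460) (nat_lit 427) (nat_lit 313)))) (XT.nd (nat_lit 156) (nat_lit 304) (nat_lit 0) (XT.nd (nat_lit 78) (nat_lit 152) (nat_lit 0) (XT.lf (nat_lit 0) (nat_lit 20761044391) (nat_lit 304) (nat_lit 18003260245) (nat_lit 76) (nat_lit 612007) (nat_lit 90) (nat_lit 5) (nat_lit 94) (nat_lit 5) (nat_lit 91) (nat_lit 5) (nat_lit 461) (nat_lit 427) (nat_lit 312)) (XT.lf (nat_lit 0) (nat_lit 5357107482) (nat_lit 152) (nat_lit 25056228427) (nat_lit 228) (nat_lit 9540852968) (nat_lit 88) (nat_lit 5) (nat_lit 90) (nat_lit 5) (nat_lit 91) (nat_lit 5) (nat_lit 462) (nat_lit 427) (nat_lit 311))) (XT.nd (nat_lit 78) (nat_lit 304) (nat_lit 0) (XT.lf (nat_lit 0) (nat_lit 30502237456) (nat_lit 152) (nat_lit 10345637315) (nat_lit 228) (nat_lit 340068746) (nat_lit 88) (nat_lit 5) (nat_lit 90) (nat_lit 5) (nat_lit 91) (nat_lit 5) (nat_lit 463) (nat_lit 427) (nat_lit 310)) (XT.lf (nat_lit 0) (nat_lit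 9333207198) (nat_lit 304) (nat_lit 27811198060) (nat_lit 76) (nat_lit 5316166125) (nat_lit 84) (nat_lit 5) (nat_lit 88) (nat_lit 5) (nat_lit 85) (nat_lit 5) (nat_lit 464) (nat_lit 427) (nat_lit 309)))))) (XT.nd (nat_lit 624) (nat_lit 760) (nat_lit 0) (XT.nd (nat_lit 312) (nat_lit 532) (nat_lit 0) (XT.nd (nat_lit 156) (nat_lit 228) (nat_lit 0) (XT.nd (nat_lit 78) (nat_lit 152) (nat_lit 0) (XT.lf (nat_lit 0) (nat_lit 19827232624) (nat_lit 304) (nat_lit 2351869839) (nat_lit 76) (nat_lit 21600024100) (nat_lit 84) (nat_lit 5) (nat_lit 88) (nat_lit 5) (nat_lit 85) (nat_lit 5) (nat_lit 465) (nat_lit 427) (nat_lit 308)) (XT.lf (nat_lit 0) (nat_lit 25178547313) (nat_lit 152) (nat_lit 6055738100) (nat_lit 228) (nat_lit 13909908140) (nat_lit 82) (nat_lit 5) (nat_lit 84) (nat_lit 5) (nat_lit 85) (nat_lit 5) (nat_lit 466) (nat_lit 427) (nat_lit 307))) (XT.nd (nat_lit 78) (nat_lit 76) (nat_lit 0) (XT.lf (nat_lit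 0) (nat_lit 7658499820) (nat_lit 152) (nat_lit 35878296097) (nat_lit 228) (nat_lit 3024463063) (nat_lit 80) (nat_lit 5) (nat_lit 82) (nat_lit 5) (nat_lit 83) (nat_lit 5) (nat_lit 467) (nat_lit 427) (nat_lit 306)) (XT.lf (nat_lit 0) (nat_lit 8574488781) (nat_lit 228) (nat_lit 10919143584) (nat_lit 76) (nat_lit 28527071384) (nat_lit 79) (nat_lit 5) (nat_lit 82) (nat_lit 5) (nat_lit 80) (nat_lit 5) (nat_lit 468) (nat_lit 427) (nat_lit 305)))) (XT.nd (nat_lit 156) (nat_lit 380) (nat_lit 0) (XT.nd (nat_lit 78) (nat_lit 0) (nat_lit 0) (XT.lf (nat_lit 0) (nat_lit 19015209642) (nat_lit 152) (nat_lit 1928950628) (nat_lit 228) (nat_lit 28591861021) (nat_lit 77) (nat_lit 5) (nat_lit 79) (nat_lit 5) (nat_lit 80) (nat_lit 5) (nat_lit 469) (nat_lit 427) (nat_lit 304)) (XT.lf (nat_lit 0) (nat_lit 34373681723) (nat_lit 228) (nat_lit 560869908) (nat_lit 76) (nat_lit 16170485039) (nat_lit 77) (nat_lit 5) (nat_lit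 80) (nat_lit 5) (nat_lit 78) (nat_lit 5) (nat_lit 470) (nat_lit 427) (nat_lit 303))) (XT.nd (nat_lit 78) (nat_lit 228) (nat_lit 0) (XT.lf (nat_lit 0) (nat_lit 31878600098) (nat_lit 152) (nat_lit 17121210474) (nat_lit 228) (nat_lit 3726435945) (nat_lit 75) (nat_lit 5) (nat_lit 77) (nat_lit 5) (nat_lit 78) (nat_lit 5) (nat_lit 471) (nat_lit 427) (nat_lit 302)) (XT.lf (nat_lit 0) (nat_lit 9830162973) (nat_lit 228) (nat_lit 42696661546) (nat_lit 76) (nat_lit 1882981051) (nat_lit 72) (nat_lit 5) (nat_lit 75) (nat_lit 5) (nat_lit 73) (nat_lit 5) (nat_lit 472) (nat_lit 427) (nat_lit 301))))) (XT.nd (nat_lit 312) (nat_lit 456) (nat_lit 0) (XT.nd (nat_lit 156) (nat_lit 152) (nat_lit 0) (XT.nd (nat_lit 78) (nat_lit 152) (nat_lit 0) (XT.lf (nat_lit 0) (nat_lit 24574747482) (nat_lit 228) (nat_lit 9888911384) (nat_lit 76) (nat_lit 21679060067) (nat_lit 72) (nat_lit 5) (nat_lit 75) (nat_lit 5) (nat_lit 73)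 (nat_lit 5) (nat_lit 473) (nat_lit 427) (nat_lit 300)) (XT.lf (nat_lit 0) (nat_lit 25364155164) (nat_lit 152) (nat_lit 15084468564) (nat_lit 228) (nat_lit 17494051331) (nat_lit 70) (nat_lit 5) (nat_lit 72) (nat_lit 5) (nat_lit 73) (nat_lit 5) (nat_lit 474) (nat_lit 427) (nat_lit 299))) (XT.nd (nat_lit 78) (nat_lit 76) (nat_lit 0) (XT.lf (nat_lit 0) (nat_lit 2899910048) (nat_lit 76) (nat_lit 54510052812) (nat_lit 152) (nat_lit 2407977886) (nat_lit 69) (nat_lit 5) (nat_lit 70) (nat_lit 5) (nat_lit 71) (nat_lit 4) (nat_lit 475) (nat_lit 427) (nat_lit 298)) (XT.lf (nat_lit 0) (nat_lit 13806653116) (nat_lit 152) (nat_lit 20949053994) (nat_lit 76) (nat_lit 26980568197) (nat_lit 68) (nat_lit 5) (nat_lit 70) (nat_lit 5) (nat_lit 69) (nat_lit 5) (nat_lit 476) (nat_lit 427) (nat_lit 297)))) (XT.nd (nat_lit 156) (nat_lit 304) (nat_lit 0) (XT.nd (nat_lit 78) (nat_lit 0) (nat_lit 0) (XT.lf (nat_lit 0) (nat_lit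 17326857974) (nat_lit 152) (nat_lit 13691050253) (nat_lit 228) (nat_lit 32717303978) (nat_lit 66) (nat_lit 5) (nat_lit 68) (nat_lit 5) (nat_lit 69) (nat_lit 5) (nat_lit 477) (nat_lit 427) (nat_lit 296)) (XT.lf (nat_lit 0) (nat_lit 49578216855) (nat_lit 228) (nat_lit 7716506590) (nat_lit 76) (nat_lit 8514948137) (nat_lit 66) (nat_lit 5) (nat_lit 69) (nat_lit 5) (nat_lit 67) (nat_lit 4) (nat_lit 478) (nat_lit 427) (nat_lit 295))) (XT.nd (nat_lit 78) (nat_lit 152) (nat_lit 0) (XT.lf (nat_lit 0) (nat_lit 1804452351) (nat_lit 152) (nat_lit 34219866320) (nat_lit 76) (nat_lit 31924678843) (nat_lit 64) (nat_lit 5) (nat_lit 66) (nat_lit 5) (nat_lit 65) (nat_lit 5) (nat_lit 479) (nat_lit 427) (nat_lit 294)) (XT.lf (nat_lit 0) (nat_lit 7284787977) (nat_lit 152) (nat_lit 13154958405) (nat_lit 228) (nat_lit 49730085290) (nat_lit 62) (nat_lit 5) (nat_lit 64) (nat_lit 5) (nat_lit 65) (nat_lit 5) (nat_lit 480)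 (nat_lit 427) (nat_lit 293))))))))
noncomputable def xc154 : XT := (XT.nd (nat_lit 2418) (nat_lit 1520) (nat_lit 0) (XT.nd (nat_lit 1170) (nat_lit 988) (nat_lit 0) (XT.nd (nat_lit 546) (nat_lit 532) (nat_lit 0) (XT.nd (nat_lit 234) (nat_lit 456) (nat_lit 0) (XT.nd (nat_lit 78) (nat_lit 152) (nat_lit 0) (XT.lf (nat_lit 0) (nat_lit 40761895997) (nat_lit 228) (nat_lit 20605400665) (nat_lit 76) (nat_lit 11096656474) (nat_lit 62) (nat_lit 5) (nat_lit 65) (nat_lit 5) (nat_lit 63) (nat_lit 4) (nat_lit 481) (nat_lit 427) (nat_lit 292)) (XT.nd (nat_lit 78) (nat_lit 76) (nat_lit 0) (XT.lf (nat_lit 0) (nat_lit 24345728792) (nat_lit 76) (nat_lit 38346887854) (nat_lit 152) (nat_lit 12150540983) (nat_lit 61) (nat_lit 5) (nat_lit 62) (nat_lit 5) (nat_lit 63) (nat_lit 4) (nat_lit 482) (nat_lit 427) (nat_lit 291)) (XT.lf (nat_lit 0) (nat_lit 8461782428) (nat_lit 152) (nat_lit 5206686997) (nat_lit 76) (nat_lit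 63648742542) (nat_lit 60) (nat_lit 5) (nat_lit 62) (nat_lit 5) (nat_lit 61) (nat_lit 5) (nat_lit 483) (nat_lit 427) (nat_lit 290)))) (XT.nd (nat_lit 156) (nat_lit 228) (nat_lit 0) (XT.nd (nat_lit 78) (nat_lit 76) (nat_lit 0) (XT.lf (nat_lit 0) (nat_lit 30578519153) (nat_lit 228) (nat_lit 36539624634) (nat_lit 76) (nat_lit 12742759140) (nat_lit 58) (nat_lit 5) (nat_lit 61) (nat_lit 5) (nat_lit 59) (nat_lit 4) (nat_lit 484) (nat_lit 427) (nat_lit 289)) (XT.lf (nat_lit 0) (nat_lit 12084499641) (nat_lit 76) (nat_lit 42215852702) (nat_lit 152) (nat_lit 28206463223) (nat_lit 57) (nat_lit 5) (nat_lit 58) (nat_lit 5) (nat_lit 59) (nat_lit 4) (nat_lit 485) (nat_lit 427) (nat_lit 288))) (XT.nd (nat_lit 78) (nat_lit 228) (nat_lit 0) (XT.lf (nat_lit 0) (nat_lit 64402699172) (nat_lit 76) (nat_lit 15421343425) (nat_lit 152) (nat_lit 5430193074) (nat_lit 57) (nat_lit 5) (nat_lit 58) (nat_lit 5) (nat_lit 59)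 (nat_lit 4) (nat_lit 486) (nat_lit 427) (nat_lit 287)) (XT.lf (nat_lit 0) (nat_lit 18600097385) (nat_lit 228) (nat_lit 56385703353) (nat_lit 76) (nat_lit 13103454155) (nat_lit 54) (nat_lit 5) (nat_lit 57) (nat_lit 5) (nat_lit 55) (nat_lit 4) (nat_lit 487) (nat_lit 427) (nat_lit 286))))) (XT.nd (nat_lit 312) (nat_lit 304) (nat_lit 0) (XT.nd (nat_lit 156) (nat_lit 152) (nat_lit 0) (XT.nd (nat_lit 78) (nat_lit 76) (nat_lit 0) (XT.lf (nat_lit 0) (nat_lit 44258203769) (nat_lit 228) (nat_lit 3791220176) (nat_lit 76) (nat_lit 42981710668) (nat_lit 54) (nat_lit 5) (nat_lit 57) (nat_lit 5) (nat_lit 55) (nat_lit 4) (nat_lit 488) (nat_lit 427) (nat_lit 285)) (XT.lf (nat_lit 0) (nat_lit 53128137060) (nat_lit 76) (nat_lit 18897760093) (nat_lit 152) (nat_lit 22052877169) (nat_lit 53) (nat_lit 5) (nat_lit 54) (nat_lit 5) (nat_lit 55) (nat_lit 4) (nat_lit 489) (nat_lit 427) (nat_lit 284))) (XT.nd (nat_lit 78)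 (nat_lit 0) (nat_lit 0) (XT.lf (nat_lit 0) (nat_lit 4282685815) (nat_lit 152) (nat_lit 81248261799) (nat_lit 76) (nat_lit 11719579867) (nat_lit 51) (nat_lit 5) (nat_lit 53) (nat_lit 5) (nat_lit 52) (nat_lit 4) (nat_lit 490) (nat_lit 427) (nat_lit 283)) (XT.lf (nat_lit 0) (nat_lit 32205815722) (nat_lit 152) (nat_lit 24009658642) (nat_lit 76) (nat_lit 44296722376) (nat_lit 51) (nat_lit 5) (nat_lit 53) (nat_lit 5) (nat_lit 52) (nat_lit 4) (nat_lit 491) (nat_lit 427) (nat_lit 282)))) (XT.nd (nat_lit 156) (nat_lit 228) (nat_lit 0) (XT.nd (nat_lit 78) (nat_lit 0) (nat_lit 0) (XT.lf (nat_lit 0) (nat_lit 37278984872) (nat_lit 76) (nat_lit 24825501625) (nat_lit 152) (nat_lit 41803493819) (nat_lit 50) (nat_lit 5) (nat_lit 51) (nat_lit 5) (nat_lit 52) (nat_lit 4) (nat_lit 492) (nat_lit 427) (nat_lit 281)) (XT.lf (nat_lit 0) (nat_lit 94035732175) (nat_lit 152) (nat_lit 5126322045) (nat_lit 0) (nat_lit 8284616850)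 (nat_lit 50) (nat_lit 5) (nat_lit 52) (nat_lit 4) (nat_lit 50) (nat_lit 4) (nat_lit 493) (nat_lit 427) (nat_lit 280))) (XT.nd (nat_lit 78) (nat_lit 76) (nat_lit 0) (XT.lf (nat_lit 0) (nat_lit 17255262988) (nat_lit 152) (nat_lit 50380963288) (nat_lit 76) (nat_lit 43444318606) (nat_lit 48) (nat_lit 5) (nat_lit 50) (nat_lit 5) (nat_lit 49) (nat_lit 4) (nat_lit 494) (nat_lit 427) (nat_lit 279)) (XT.lf (nat_lit 0) (nat_lit 15368779849) (nat_lit 76) (nat_lit 33960985989) (nat_lit 152) (nat_lit 65539069715) (nat_lit 47) (nat_lit 5) (nat_lit 48) (nat_lit 5) (nat_lit 49) (nat_lit 4) (nat_lit 495) (nat_lit 427) (nat_lit 278)))))) (XT.nd (nat_lit 624) (nat_lit 532) (nat_lit 0) (XT.nd (nat_lit 312) (nat_lit 228) (nat_lit 0) (XT.nd (nat_lit 156) (nat_lit 152) (nat_lit 0) (XT.nd (nat_lit 78) (nat_lit 76) (nat_lit 0) (XT.lf (nat_lit 0) (nat_lit 83894540086) (nat_lit 152) (nat_lit 32689405283) (nat_lit 0) (nat_lit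 2218268131) (nat_lit 47) (nat_lit 5) (nat_lit 49) (nat_lit 4) (nat_lit 47) (nat_lit 4) (nat_lit 496) (nat_lit 427) (nat_lit 277)) (XT.lf (nat_lit 0) (nat_lit 38120530476) (nat_lit 76) (nat_lit 83216553121) (nat_lit 76) (nat_lit 1537700273) (nat_lit 46) (nat_lit 4) (nat_lit 47) (nat_lit 5) (nat_lit 47) (nat_lit 4) (nat_lit 497) (nat_lit 427) (nat_lit 276))) (XT.nd (nat_lit 78) (nat_lit 76) (nat_lit 0) (XT.lf (nat_lit 0) (nat_lit 32988852945) (nat_lit 152) (nat_lit 14054162301) (nat_lit 76) (nat_lit 80053799748) (nat_lit 45) (nat_lit 5) (nat_lit 47) (nat_lit 5) (nat_lit 46) (nat_lit 4) (nat_lit 498) (nat_lit 427) (nat_lit 275)) (XT.lf (nat_lit 0) (nat_lit 62140210498) (nat_lit 76) (nat_lit 8017771103) (nat_lit 152) (nat_lit 61322309481) (nat_lit 44) (nat_lit 5) (nat_lit 45) (nat_lit 5) (nat_lit 46) (nat_lit 4) (nat_lit 499) (nat_lit 427) (nat_lit 274)))) (XT.nd (nat_lit 156) (nat_lit 76) (nat_lit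 0) (XT.nd (nat_lit 78) (nat_lit 76) (nat_lit 0) (XT.lf (nat_lit 0) (nat_lit 6237967453) (nat_lit 76) (nat_lit 103799234592) (nat_lit 76) (nat_lit 26003157204) (nat_lit 43) (nat_lit 4) (nat_lit 44) (nat_lit 5) (nat_lit 44) (nat_lit 4) (nat_lit 500) (nat_lit 427) (nat_lit 273)) (XT.lf (nat_lit 0) (nat_lit 12050011051) (nat_lit 152) (nat_lit 53095576928) (nat_lit 76) (nat_lit 75608054365) (nat_lit 42) (nat_lit 5) (nat_lit 44) (nat_lit 5) (nat_lit 43) (nat_lit 4) (nat_lit 501) (nat_lit 427) (nat_lit 272))) (XT.nd (nat_lit 78) (nat_lit 0) (nat_lit 0) (XT.lf (nat_lit 0) (nat_lit 27909381196) (nat_lit 76) (nat_lit 23656183038) (nat_lit 152) (nat_lit 94094031180) (nat_lit 41) (nat_lit 5) (nat_lit 42) (nat_lit 5) (nat_lit 43) (nat_lit 4) (nat_lit 502) (nat_lit 427) (nat_lit 271)) (XT.lf (nat_lit 0) (nat_lit 94279515672) (nat_lit 152) (nat_lit 36287693015) (nat_lit 0) (nat_lit 20182506456) (nat_lit 41)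 (nat_lit 5) (nat_lit 43) (nat_lit 4) (nat_lit 41) (nat_lit 4) (nat_lit 503) (nat_lit 427) (nat_lit 270))))) (XT.nd (nat_lit 312) (nat_lit 304) (nat_lit 0) (XT.nd (nat_lit 156) (nat_lit 76) (nat_lit 0) (XT.nd (nat_lit 78) (nat_lit 76) (nat_lit 0) (XT.lf (nat_lit 0) (nat_lit 50471556038) (nat_lit 76) (nat_lit 89831384473) (nat_lit 76) (nat_lit 15732711590) (nat_lit 40) (nat_lit 4) (nat_lit 41) (nat_lit 5) (nat_lit 41) (nat_lit 4) (nat_lit 504) (nat_lit 427) (nat_lit 269)) (XT.lf (nat_lit 0) (nat_lit 26798742952) (nat_lit 152) (nat_lit 19162834273) (nat_lit 76) (nat_lit 115572069218) (nat_lit 39) (nat_lit 5) (nat_lit 41) (nat_lit 5) (nat_lit 40) (nat_lit 4) (nat_lit 505) (nat_lit 427) (nat_lit 268))) (XT.nd (nat_lit 78) (nat_lit 0) (nat_lit 0) (XT.lf (nat_lit 0) (nat_lit 72100700793) (nat_lit 152) (nat_lit 93606721419) (nat_lit 0) (nat_lit 1527590012) (nat_lit 38) (nat_lit 5) (nat_lit 40) (nat_lit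 4) (nat_lit 38) (nat_lit 4) (nat_lit 506) (nat_lit 427) (nat_lit 267)) (XT.lf (nat_lit 0) (nat_lit 120749148209) (nat_lit 152) (nat_lit 2243559803) (nat_lit 0) (nat_lit 50174668726) (nat_lit 38) (nat_lit 5) (nat_lit 40) (nat_lit 4) (nat_lit 38) (nat_lit 4) (nat_lit 507) (nat_lit 427) (nat_lit 266)))) (XT.nd (nat_lit 156) (nat_lit 76) (nat_lit 0) (XT.nd (nat_lit 78) (nat_lit 152) (nat_lit 0) (XT.lf (nat_lit 0) (nat_lit 96781747953) (nat_lit 76) (nat_lit 76557467348) (nat_lit 76) (nat_lit 5981684338) (nat_lit 37) (nat_lit 4) (nat_lit 38) (nat_lit 5) (nat_lit 38) (nat_lit 4) (nat_lit 508) (nat_lit 427) (nat_lit 265)) (XT.lf (nat_lit 0) (nat_lit 14859488720) (nat_lit 76) (nat_lit 26816859173) (nat_lit 152) (nat_lit 144058918520) (nat_lit 35) (nat_lit 5) (nat_lit 36) (nat_lit 5) (nat_lit 37) (nat_lit 4) (nat_lit 509) (nat_lit 427) (nat_lit 264))) (XT.nd (nat_lit 78) (nat_lit 76) (nat_lit 0) (XT.lf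 (nat_lit 0) (nat_lit 93331916219) (nat_lit 152) (nat_lit 72928172984) (nat_lit 0) (nat_lit 26114576411) (nat_lit 35) (nat_lit 5) (nat_lit 37) (nat_lit 4) (nat_lit 35) (nat_lit 4) (nat_lit 510) (nat_lit 427) (nat_lit 263)) (XT.lf (nat_lit 0) (nat_lit 30448260765) (nat_lit 76) (nat_lit 118035261641) (nat_lit 76) (nat_lit 50816849419) (nat_lit 34) (nat_lit 4) (nat_lit 35) (nat_lit 5) (nat_lit 35) (nat_lit 4) (nat_lit 511) (nat_lit 427) (nat_lit 262))))))) (XT.nd (nat_lit 1170) (nat_lit 684) (nat_lit 0) (XT.nd (nat_lit 546) (nat_lit 456) (nat_lit 0) (XT.nd (nat_lit 234) (nat_lit 228) (nat_lit 0) (XT.nd (nat_lit 78) (nat_lit 76) (nat_lit 0) (XT.lf (nat_lit 0) (nat_lit 1079674449) (nat_lit 152) (nat_lit 65006100948) (nat_lit 76) (nat_lit 140424049274) (nat_lit 33) (nat_lit 5) (nat_lit 35) (nat_lit 5) (nat_lit 34) (nat_lit 4) (nat_lit 512) (nat_lit 427) (nat_lit 261)) (XT.nd (nat_lit 78) (nat_lit 0)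 (nat_lit 0) (XT.lf (nat_lit 0) (nat_lit 44624094572) (nat_lit 76) (nat_lit 9934198526) (nat_lit 152) (nat_lit 159445051527) (nat_lit 32) (nat_lit 5) (nat_lit 33) (nat_lit 5) (nat_lit 34) (nat_lit 4) (nat_lit 513) (nat_lit 427) (nat_lit 260)) (XT.lf (nat_lit 0) (nat_lit 112593560948) (nat_lit 152) (nat_lit 60610599615) (nat_lit 0) (nat_lit 48573244118) (nat_lit 32) (nat_lit 5) (nat_lit 34) (nat_lit 4) (nat_lit 32) (nat_lit 4) (nat_lit 514) (nat_lit 427) (nat_lit 259)))) (XT.nd (nat_lit 156) (nat_lit 76) (nat_lit 0) (XT.nd (nat_lit 78) (nat_lit 76) (nat_lit 0) (XT.lf (nat_lit 0) (nat_lit 55197133217) (nat_lit 76) (nat_lit 119356519309) (nat_lit 76) (nat_lit 55335362215) (nat_lit 31) (nat_lit 4) (nat_lit 32) (nat_lit 5) (nat_lit 32) (nat_lit 4) (nat_lit 515) (nat_lit 427) (nat_lit 258)) (XT.lf (nat_lit 0) (nat_lit 2208679681) (nat_lit 152) (nat_lit 59494163999) (nat_lit 76) (nat_lit 176650334484)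 (nat_lit 30) (nat_lit 5) (nat_lit 32) (nat_lit 5) (nat_lit 31) (nat_lit 4) (nat_lit 516) (nat_lit 427) (nat_lit 257))) (XT.nd (nat_lit 78) (nat_lit 0) (nat_lit 0) (XT.lf (nat_lit 0) (nat_lit 61758104439) (nat_lit 152) (nat_lit 184603612013) (nat_lit 0) (nat_lit 784085876) (nat_lit 29) (nat_lit 5) (nat_lit 31) (nat_lit 4) (nat_lit 29) (nat_lit 4) (nat_lit 517) (nat_lit 427) (nat_lit 256)) (XT.lf (nat_lit 0) (nat_lit 126319103775) (nat_lit 152) (nat_lit 64612854848) (nat_lit 0) (nat_lit 65344393924) (nat_lit 29) (nat_lit 5) (nat_lit 31) (nat_lit 4) (nat_lit 29) (nat_lit 4) (nat_lit 518) (nat_lit 427) (nat_lit 255))))) (XT.nd (nat_lit 312) (nat_lit 228) (nat_lit 0) (XT.nd (nat_lit 156) (nat_lit 152) (nat_lit 0) (XT.nd (nat_lit 78) (nat_lit 0) (nat_lit 0) (XT.lf (nat_lit 0) (nat_lit 63403902736) (nat_lit 76) (nat_lit 131692735753) (nat_lit 76) (nat_lit 70717367533) (nat_lit 28) (nat_lit 4) (nat_lit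 29) (nat_lit 5) (nat_lit 29) (nat_lit 4) (nat_lit 519) (nat_lit 427) (nat_lit 254)) (XT.lf (nat_lit 0) (nat_lit 200061898433) (nat_lit 76) (nat_lit 68343998323) (nat_lit 76) (nat_lit 7368003085) (nat_lit 28) (nat_lit 4) (nat_lit 29) (nat_lit 5) (nat_lit 29) (nat_lit 4) (nat_lit 520) (nat_lit 427) (nat_lit 253))) (XT.nd (nat_lit 78) (nat_lit 0) (nat_lit 0) (XT.lf (nat_lit 0) (nat_lit 58165424607) (nat_lit 152) (nat_lit 227882223994) (nat_lit 0) (nat_lit 92479466) (nat_lit 26) (nat_lit 5) (nat_lit 28) (nat_lit 4) (nat_lit 26) (nat_lit 4) (nat_lit 521) (nat_lit 427) (nat_lit 252)) (XT.lf (nat_lit 0) (nat_lit 129150186869) (nat_lit 152) (nat_lit 96670627592) (nat_lit 0) (nat_lit 71076700086) (nat_lit 26) (nat_lit 5) (nat_lit 28) (nat_lit 4) (nat_lit 26) (nat_lit 4) (nat_lit 522) (nat_lit 427) (nat_lit 251)))) (XT.nd (nat_lit 156) (nat_lit 152) (nat_lit 0) (XT.nd (nat_lit 78) (nat_lit 0) (nat_lit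 0) (XT.lf (nat_lit 0) (nat_lit 42457870327) (nat_lit 76) (nat_lit 161887911469) (nat_lit 76) (nat_lit 103813908837) (nat_lit 25) (nat_lit 4) (nat_lit 26) (nat_lit 5) (nat_lit 26) (nat_lit 4) (nat_lit 523) (nat_lit 427) (nat_lit 250)) (XT.lf (nat_lit 0) (nat_lit 191896425596) (nat_lit 76) (nat_lit 93040624585) (nat_lit 76) (nat_lit 34966130667) (nat_lit 25) (nat_lit 4) (nat_lit 26) (nat_lit 5) (nat_lit 26) (nat_lit 4) (nat_lit 524) (nat_lit 427) (nat_lit 249))) (XT.nd (nat_lit 78) (nat_lit 0) (nat_lit 0) (XT.lf (nat_lit 0) (nat_lit 16516488506) (nat_lit 76) (nat_lit 19869584817) (nat_lit 152) (nat_lit 295805803662) (nat_lit 23) (nat_lit 5) (nat_lit 24) (nat_lit 5) (nat_lit 25) (nat_lit 4) (nat_lit 525) (nat_lit 427) (nat_lit 248)) (XT.lf (nat_lit 0) (nat_lit 113222268507) (nat_lit 152) (nat_lit 173777148376) (nat_lit 0) (nat_lit 57912356680) (nat_lit 23) (nat_lit 5) (nat_lit 25) (nat_lit 4) (nat_lit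 23) (nat_lit 4) (nat_lit 526) (nat_lit 427) (nat_lit 247)))))) (XT.nd (nat_lit 624) (nat_lit 380) (nat_lit 0) (XT.nd (nat_lit 312) (nat_lit 76) (nat_lit 0) (XT.nd (nat_lit 156) (nat_lit 152) (nat_lit 0) (XT.nd (nat_lit 78) (nat_lit 76) (nat_lit 0) (XT.lf (nat_lit 0) (nat_lit 194224834787) (nat_lit 152) (nat_lit 25112083343) (nat_lit 0) (nat_lit 138914518778) (nat_lit 23) (nat_lit 5) (nat_lit 25) (nat_lit 4) (nat_lit 23) (nat_lit 4) (nat_lit 527) (nat_lit 427) (nat_lit 246)) (XT.lf (nat_lit 0) (nat_lit 135314913242) (nat_lit 76) (nat_lit 146074147287) (nat_lit 76) (nat_lit 90763446344) (nat_lit 22) (nat_lit 4) (nat_lit 23) (nat_lit 5) (nat_lit 23) (nat_lit 4) (nat_lit 528) (nat_lit 427) (nat_lit 245))) (XT.nd (nat_lit 78) (nat_lit 152) (nat_lit 0) (XT.lf (nat_lit 0) (nat_lit 304632886699) (nat_lit 76) (nat_lit 68702800846) (nat_lit 76) (nat_lit 13391733298) (nat_lit 22) (nat_lit 4) (nat_lit 23)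 (nat_lit 5) (nat_lit 23) (nat_lit 4) (nat_lit 529) (nat_lit 427) (nat_lit 244)) (XT.lf (nat_lit 0) (nat_lit 67189412944) (nat_lit 152) (nat_lit 320201207762) (nat_lit 0) (nat_lit 14511873234) (nat_lit 20) (nat_lit 5) (nat_lit 22) (nat_lit 4) (nat_lit 20) (nat_lit 4) (nat_lit 530) (nat_lit 427) (nat_lit 243)))) (XT.nd (nat_lit 156) (nat_lit 0) (nat_lit 0) (XT.nd (nat_lit 78) (nat_lit 76) (nat_lit 0) (XT.lf (nat_lit 0) (nat_lit 153887885350) (nat_lit 152) (nat_lit 162600513616) (nat_lit 0) (nat_lit 101210028954) (nat_lit 20) (nat_lit 5) (nat_lit 22) (nat_lit 4) (nat_lit 20) (nat_lit 4) (nat_lit 531) (nat_lit 427) (nat_lit 242)) (XT.lf (nat_lit 0) (nat_lit 2973343841) (nat_lit 76) (nat_lit 241993351047) (nat_lit 76) (nat_lit 189315193044) (nat_lit 19) (nat_lit 4) (nat_lit 20) (nat_lit 5) (nat_lit 20) (nat_lit 4) (nat_lit 532) (nat_lit 427) (nat_lit 241))) (XT.nd (nat_lit 78) (nat_lit 0) (nat_lit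 0) (XT.lf (nat_lit 0) (nat_lit 182469012730) (nat_lit 76) (nat_lit 160883158573) (nat_lit 76) (nat_lit 108204713325) (nat_lit 19) (nat_lit 4) (nat_lit 20) (nat_lit 5) (nat_lit 20) (nat_lit 4) (nat_lit 533) (nat_lit 427) (nat_lit 240)) (XT.lf (nat_lit 0) (nat_lit 370937556386) (nat_lit 76) (nat_lit 75718420415) (nat_lit 76) (nat_lit 23039701602) (nat_lit 19) (nat_lit 4) (nat_lit 20) (nat_lit 5) (nat_lit 20) (nat_lit 4) (nat_lit 534) (nat_lit 427) (nat_lit 239))))) (XT.nd (nat_lit 312) (nat_lit 152) (nat_lit 0) (XT.nd (nat_lit 156) (nat_lit 76) (nat_lit 0) (XT.nd (nat_lit 78) (nat_lit 0) (nat_lit 0) (XT.lf (nat_lit 0) (nat_lit 65784799244) (nat_lit 152) (nat_lit 407214151886) (nat_lit 0) (nat_lit 15614342718) (nat_lit 17) (nat_lit 5) (nat_lit 19) (nat_lit 4) (nat_lit 17) (nat_lit 4) (nat_lit 535) (nat_lit 427) (nat_lit 238)) (XT.lf (nat_lit 0) (nat_lit 161216546855) (nat_lit 152) (nat_lit 236048488862)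 (nat_lit 0) (nat_lit 111045854012) (nat_lit 17) (nat_lit 5) (nat_lit 19) (nat_lit 4) (nat_lit 17) (nat_lit 4) (nat_lit 536) (nat_lit 427) (nat_lit 237))) (XT.nd (nat_lit 78) (nat_lit 76) (nat_lit 0) (XT.lf (nat_lit 0) (nat_lit 261419011664) (nat_lit 152) (nat_lit 56326303497) (nat_lit 0) (nat_lit 211248093758) (nat_lit 17) (nat_lit 5) (nat_lit 19) (nat_lit 4) (nat_lit 17) (nat_lit 4) (nat_lit 537) (nat_lit 427) (nat_lit 236)) (XT.lf (nat_lit 0) (nat_lit 136757405206) (nat_lit 76) (nat_lit 232008532119) (nat_lit 76) (nat_lit 181837399867) (nat_lit 16) (nat_lit 4) (nat_lit 17) (nat_lit 5) (nat_lit 17) (nat_lit 4) (nat_lit 538) (nat_lit 427) (nat_lit 235)))) (XT.nd (nat_lit 156) (nat_lit 76) (nat_lit 0) (XT.nd (nat_lit 78) (nat_lit 76) (nat_lit 0) (XT.lf (nat_lit 0) (nat_lit 341449171501) (nat_lit 76) (nat_lit 140984135932) (nat_lit 76) (nat_lit 90812799541) (nat_lit 16) (nat_lit 4) (nat_lit 17)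 (nat_lit 5) (nat_lit 17) (nat_lit 4) (nat_lit 539) (nat_lit 427) (nat_lit 234)) (XT.lf (nat_lit 0) (nat_lit 4609795110) (nat_lit 152) (nat_lit 40721450832) (nat_lit 76) (nat_lit 551686090543) (nat_lit 15) (nat_lit 5) (nat_lit 17) (nat_lit 5) (nat_lit 16) (nat_lit 4) (nat_lit 540) (nat_lit 427) (nat_lit 233))) (XT.nd (nat_lit 78) (nat_lit 0) (nat_lit 0) (XT.lf (nat_lit 0) (nat_lit 105232597436) (nat_lit 152) (nat_lit 459046033345) (nat_lit 0) (nat_lit 57450010798) (nat_lit 14) (nat_lit 5) (nat_lit 16) (nat_lit 4) (nat_lit 14) (nat_lit 4) (nat_lit 541) (nat_lit 427) (nat_lit 232)) (XT.lf (nat_lit 0) (nat_lit 212329867252) (nat_lit 152) (nat_lit 270726365641) (nat_lit 0) (nat_lit 164547112669) (nat_lit 14) (nat_lit 5) (nat_lit 16) (nat_lit 4) (nat_lit 14) (nat_lit 4) (nat_lit 542) (nat_lit 427) (nat_lit 231))))))))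
noncomputable def xc155 : XT := (XT.nd (nat_lit 55458) (nat_lit 0) (nat_lit 3724) (XT.nd (nat_lit 54210) (nat_lit 0) (nat_lit 7448) (XT.nd (nat_lit 53586) (nat_lit 0) (nat_lit 10336) (XT.nd (nat_lit 234) (nat_lit 152) (nat_lit 0) (XT.nd (nat_lit 78) (nat_lit 76) (nat_lit 0) (XT.lf (nat_lit 0) (nat_lit 324781285502) (nat_lit 152) (nat_lit 72992164028) (nat_lit 0) (nat_lit 276998370970) (nat_lit 14) (nat_lit 5) (nat_lit 16) (nat_lit 4) (nat_lit 14) (nat_lit 4) (nat_lit 543) (nat_lit 427) (nat_lit 230)) (XT.nd (nat_lit 78) (nat_lit 0) (nat_lit 0) (XT.lf (nat_lit 0) (nat_lit 139078755965) (nat_lit 76) (nat_lit 305947246840) (nat_lit 76) (nat_lit 258164179976) (nat_lit 13) (nat_lit 4) (nat_lit 14) (nat_lit 5) (nat_lit 14) (nat_lit 4) (nat_lit 544) (nat_lit 427) (nat_lit 229)) (XT.lf (nat_lit 0) (nat_lit 364285986885) (nat_lit 76) (nat_lit 208232456923) (nat_lit 76) (nat_lit 160449244981) (nat_lit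 13) (nat_lit 4) (nat_lit 14) (nat_lit 5) (nat_lit 14) (nat_lit 4) (nat_lit 545) (nat_lit 427) (nat_lit 228)))) (XT.nd (nat_lit 156) (nat_lit 0) (nat_lit 0) (XT.nd (nat_lit 78) (nat_lit 152) (nat_lit 0) (XT.lf (nat_lit 0) (nat_lit 600752285837) (nat_lit 76) (nat_lit 105632583134) (nat_lit 76) (nat_lit 57849233023) (nat_lit 13) (nat_lit 4) (nat_lit 14) (nat_lit 5) (nat_lit 14) (nat_lit 4) (nat_lit 546) (nat_lit 427) (nat_lit 227)) (XT.lf (nat_lit 0) (nat_lit 49168479053) (nat_lit 152) (nat_lit 744151806828) (nat_lit 0) (nat_lit 3660401243) (nat_lit 11) (nat_lit 5) (nat_lit 13) (nat_lit 4) (nat_lit 11) (nat_lit 4) (nat_lit 547) (nat_lit 427) (nat_lit 226))) (XT.nd (nat_lit 53118) (nat_lit 0) (nat_lit 10336) (XT.lf (nat_lit 0) (nat_lit 164138059053) (nat_lit 152) (nat_lit 548322008375) (nat_lit 0) (nat_lit 118629861887) (nat_lit 11) (nat_lit 5) (nat_lit 13) (nat_lit 4) (nat_lit 11) (nat_lit 4) (nat_lit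 548) (nat_lit 427) (nat_lit 225)) (XT.lf (nat_lit 0) (nat_lit 1562651328) (nat_lit 836) (nat_lit 3241541463) (nat_lit 836) (nat_lit 3241541463) (nat_lit 147) (nat_lit 3) (nat_lit 158) (nat_lit 3) (nat_lit 158) (nat_lit 5) (nat_lit 428) (nat_lit 428) (nat_lit 344))))) (XT.nd (nat_lit 312) (nat_lit 0) (nat_lit 152) (XT.nd (nat_lit 156) (nat_lit 0) (nat_lit 76) (XT.nd (nat_lit 78) (nat_lit 0) (nat_lit 76) (XT.lf (nat_lit 76) (nat_lit 1547456641) (nat_lit 0) (nat_lit 1933888714) (nat_lit 836) (nat_lit 12998475109) (nat_lit 148) (nat_lit 5) (nat_lit 147) (nat_lit 3) (nat_lit 158) (nat_lit 5) (nat_lit 429) (nat_lit 428) (nat_lit 343)) (XT.lf (nat_lit 0) (nat_lit 4046139696) (nat_lit 760) (nat_lit 6784667691) (nat_lit 836) (nat_lit 6047237671) (nat_lit 148) (nat_lit 5) (nat_lit 158) (nat_lit 5) (nat_lit 159) (nat_lit 5) (nat_lit 430) (nat_lit 428) (nat_lit 342))) (XT.nd (nat_lit 78) (nat_lit 0) (nat_lit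 76) (XT.lf (nat_lit 76) (nat_lit 1786606374) (nat_lit 0) (nat_lit 2896676265) (nat_lit 836) (nat_lit 12610695188) (nat_lit 149) (nat_lit 5) (nat_lit 148) (nat_lit 5) (nat_lit 159) (nat_lit 5) (nat_lit 431) (nat_lit 428) (nat_lit 341)) (XT.lf (nat_lit 0) (nat_lit 5539107105) (nat_lit 760) (nat_lit 6799669175) (nat_lit 836) (nat_lit 5382592017) (nat_lit 149) (nat_lit 5) (nat_lit 159) (nat_lit 5) (nat_lit 160) (nat_lit 5) (nat_lit 432) (nat_lit 428) (nat_lit 340)))) (XT.nd (nat_lit 156) (nat_lit 0) (nat_lit 76) (XT.nd (nat_lit 78) (nat_lit 0) (nat_lit 76) (XT.lf (nat_lit 76) (nat_lit 2362033070) (nat_lit 0) (nat_lit 4145955718) (nat_lit 836) (nat_lit 11658628371) (nat_lit 150) (nat_lit 5) (nat_lit 149) (nat_lit 5) (nat_lit 160) (nat_lit 5) (nat_lit 433) (nat_lit 428) (nat_lit 339)) (XT.lf (nat_lit 0) (nat_lit 7698429590) (nat_lit 760) (nat_lit 6492039420) (nat_lit 836) (nat_lit 4435005771) (nat_lit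 150) (nat_lit 5) (nat_lit 160) (nat_lit 5) (nat_lit 161) (nat_lit 5) (nat_lit 434) (nat_lit 428) (nat_lit 338))) (XT.nd (nat_lit 78) (nat_lit 0) (nat_lit 76) (XT.lf (nat_lit 76) (nat_lit 3314643888) (nat_lit 0) (nat_lit 5740602102) (nat_lit 836) (nat_lit 10046688585) (nat_lit 151) (nat_lit 5) (nat_lit 150) (nat_lit 5) (nat_lit 161) (nat_lit 5) (nat_lit 435) (nat_lit 428) (nat_lit 337)) (XT.lf (nat_lit 0) (nat_lit 10628194004) (nat_lit 760) (nat_lit 5820491816) (nat_lit 836) (nat_lit 3146118871) (nat_lit 151) (nat_lit 5) (nat_lit 161) (nat_lit 5) (nat_lit 162) (nat_lit 5) (nat_lit 436) (nat_lit 428) (nat_lit 336)))))) (XT.nd (nat_lit 624) (nat_lit 1292) (nat_lit 0) (XT.nd (nat_lit 312) (nat_lit 1216) (nat_lit 0) (XT.nd (nat_lit 156) (nat_lit 684) (nat_lit 0) (XT.nd (nat_lit 78) (nat_lit 0) (nat_lit 76) (XT.lf (nat_lit 76) (nat_lit 4691039271) (nat_lit 0) (nat_lit 7744333937) (nat_lit 836) (nat_lit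 7669167703) (nat_lit 152) (nat_lit 5) (nat_lit 151) (nat_lit 5) (nat_lit 162) (nat_lit 5) (nat_lit 437) (nat_lit 428) (nat_lit 335)) (XT.lf (nat_lit 0) (nat_lit 14443560241) (nat_lit 760) (nat_lit 4738098534) (nat_lit 76) (nat_lit 1452574425) (nat_lit 152) (nat_lit 5) (nat_lit 162) (nat_lit 5) (nat_lit 153) (nat_lit 5) (nat_lit 438) (nat_lit 428) (nat_lit 334))) (XT.nd (nat_lit 78) (nat_lit 0) (nat_lit 0) (XT.lf (nat_lit 0) (nat_lit 6543961306) (nat_lit 760) (nat_lit 10226536936) (nat_lit 836) (nat_lit 4408996398) (nat_lit 142) (nat_lit 5) (nat_lit 152) (nat_lit 5) (nat_lit 153) (nat_lit 5) (nat_lit 439) (nat_lit 428) (nat_lit 333)) (XT.lf (nat_lit 0) (nat_lit 18545170380) (nat_lit 760) (nat_lit 738436502) (nat_lit 836) (nat_lit 2464922626) (nat_lit 142) (nat_lit 5) (nat_lit 152) (nat_lit 5) (nat_lit 153) (nat_lit 5) (nat_lit 440) (nat_lit 428) (nat_lit 332)))) (XT.nd (nat_lit 156) (nat_lit 760)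 (nat_lit 0) (XT.nd (nat_lit 78) (nat_lit 76) (nat_lit 0) (XT.lf (nat_lit 0) (nat_lit 8932803904) (nat_lit 380) (nat_lit 13263138973) (nat_lit 456) (nat_lit 136396116) (nat_lit 137) (nat_lit 5) (nat_lit 142) (nat_lit 5) (nat_lit 143) (nat_lit 5) (nat_lit 441) (nat_lit 428) (nat_lit 331)) (XT.lf (nat_lit 0) (nat_lit 2292173294) (nat_lit 456) (nat_lit 1214357658) (nat_lit 76) (nat_lit 19434131940) (nat_lit 136) (nat_lit 5) (nat_lit 142) (nat_lit 5) (nat_lit 137) (nat_lit 5) (nat_lit 442) (nat_lit 428) (nat_lit 330))) (XT.nd (nat_lit 78) (nat_lit 380) (nat_lit 0) (XT.lf (nat_lit 0) (nat_lit 5123195393) (nat_lit 456) (nat_lit 11727588007) (nat_lit 76) (nat_lit 6714228654) (nat_lit 131) (nat_lit 5) (nat_lit 137) (nat_lit 5) (nat_lit 132) (nat_lit 5) (nat_lit 443) (nat_lit 428) (nat_lit 329)) (XT.lf (nat_lit 0) (nat_lit 1339949098) (nat_lit 380) (nat_lit 6846148802) (nat_lit 456) (nat_lit 16029965517)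 (nat_lit 126) (nat_lit 5) (nat_lit 131) (nat_lit 5) (nat_lit 132) (nat_lit 5) (nat_lit 444) (nat_lit 428) (nat_lit 328))))) (XT.nd (nat_lit 312) (nat_lit 684) (nat_lit 0) (XT.nd (nat_lit 156) (nat_lit 304) (nat_lit 0) (XT.nd (nat_lit 78) (nat_lit 304) (nat_lit 0) (XT.lf (nat_lit 0) (nat_lit 11652429452) (nat_lit 456) (nat_lit 9491889629) (nat_lit 76) (nat_lit 3742835222) (nat_lit 126) (nat_lit 5) (nat_lit 132) (nat_lit 5) (nat_lit 127) (nat_lit 5) (nat_lit 445) (nat_lit 428) (nat_lit 327)) (XT.lf (nat_lit 0) (nat_lit 4586794160) (nat_lit 304) (nat_lit 10880835476) (nat_lit 380) (nat_lit 10115393590) (nat_lit 122) (nat_lit 5) (nat_lit 126) (nat_lit 5) (nat_lit 127) (nat_lit 5) (nat_lit 446) (nat_lit 428) (nat_lit 326))) (XT.nd (nat_lit 78) (nat_lit 304) (nat_lit 0) (XT.lf (nat_lit 0) (nat_lit 19627289615) (nat_lit 380) (nat_lit 6617268929) (nat_lit 76) (nat_lit 61443107) (nat_lit 122) (nat_lit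 5) (nat_lit 127) (nat_lit 5) (nat_lit 123) (nat_lit 5) (nat_lit 447) (nat_lit 428) (nat_lit 325)) (XT.lf (nat_lit 0) (nat_lit 8567368249) (nat_lit 304) (nat_lit 15732024375) (nat_lit 380) (nat_lit 2750514366) (nat_lit 118) (nat_lit 5) (nat_lit 122) (nat_lit 5) (nat_lit 123) (nat_lit 5) (nat_lit 448) (nat_lit 428) (nat_lit 324)))) (XT.nd (nat_lit 156) (nat_lit 304) (nat_lit 0) (XT.nd (nat_lit 78) (nat_lit 304) (nat_lit 0) (XT.lf (nat_lit 0) (nat_lit 1436445045) (nat_lit 380) (nat_lit 3116931257) (nat_lit 76) (nat_lit 23271242952) (nat_lit 117) (nat_lit 5) (nat_lit 122) (nat_lit 5) (nat_lit 118) (nat_lit 5) (nat_lit 449) (nat_lit 428) (nat_lit 323)) (XT.lf (nat_lit 0) (nat_lit 6058495451) (nat_lit 380) (nat_lit 15350314999) (nat_lit 76) (nat_lit 7211094104) (nat_lit 113) (nat_lit 5) (nat_lit 118) (nat_lit 5) (nat_lit 114) (nat_lit 5) (nat_lit 450) (nat_lit 428) (nat_lit 322))) (XT.nd (nat_lit 78)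 (nat_lit 0) (nat_lit 0) (XT.lf (nat_lit 0) (nat_lit 1081481931) (nat_lit 304) (nat_lit 9968320492) (nat_lit 380) (nat_lit 18398244810) (nat_lit 109) (nat_lit 5) (nat_lit 113) (nat_lit 5) (nat_lit 114) (nat_lit 5) (nat_lit 451) (nat_lit 428) (nat_lit 321)) (XT.lf (nat_lit 0) (nat_lit 16579954760) (nat_lit 380) (nat_lit 11482101935) (nat_lit 76) (nat_lit 2241077131) (nat_lit 109) (nat_lit 5) (nat_lit 114) (nat_lit 5) (nat_lit 110) (nat_lit 5) (nat_lit 452) (nat_lit 428) (nat_lit 320))))))) (XT.nd (nat_lit 1248) (nat_lit 1520) (nat_lit 0) (XT.nd (nat_lit 624) (nat_lit 988) (nat_lit 0) (XT.nd (nat_lit 312) (nat_lit 684) (nat_lit 0) (XT.nd (nat_lit 156) (nat_lit 304) (nat_lit 0) (XT.nd (nat_lit 78) (nat_lit 0) (nat_lit 0) (XT.lf (nat_lit 0) (nat_lit 6275330905) (nat_lit 228) (nat_lit 16366138860) (nat_lit 304) (nat_lit 8546762971) (nat_lit 106) (nat_lit 5) (nat_lit 109) (nat_lit 5) (nat_lit 110) (nat_lit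 5) (nat_lit 453) (nat_lit 428) (nat_lit 319)) (XT.lf (nat_lit 0) (nat_lit 25310719791) (nat_lit 228) (nat_lit 3883437898) (nat_lit 304) (nat_lit 2914024752) (nat_lit 106) (nat_lit 5) (nat_lit 109) (nat_lit 5) (nat_lit 110) (nat_lit 5) (nat_lit 454) (nat_lit 428) (nat_lit 318))) (XT.nd (nat_lit 78) (nat_lit 0) (nat_lit 0) (XT.lf (nat_lit 0) (nat_lit 3242386884) (nat_lit 304) (nat_lit 20639329998) (nat_lit 76) (nat_lit 9173167872) (nat_lit 102) (nat_lit 5) (nat_lit 106) (nat_lit 5) (nat_lit 103) (nat_lit 5) (nat_lit 455) (nat_lit 428) (nat_lit 317)) (XT.lf (nat_lit 0) (nat_lit 9783332466) (nat_lit 304) (nat_lit 1339747858) (nat_lit 76) (nat_lit 22914721740) (nat_lit 102) (nat_lit 5) (nat_lit 106) (nat_lit 5) (nat_lit 103) (nat_lit 5) (nat_lit 456) (nat_lit 428) (nat_lit 316)))) (XT.nd (nat_lit 156) (nat_lit 228) (nat_lit 0) (XT.nd (nat_lit 78) (nat_lit 228) (nat_lit 0) (XT.lf (nat_lit 0) (nat_lit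 16991157073) (nat_lit 304) (nat_lit 15553144412) (nat_lit 76) (nat_lit 2508572750) (nat_lit 99) (nat_lit 5) (nat_lit 103) (nat_lit 5) (nat_lit 100) (nat_lit 5) (nat_lit 457) (nat_lit 428) (nat_lit 315)) (XT.lf (nat_lit 0) (nat_lit 5288490463) (nat_lit 228) (nat_lit 19553232068) (nat_lit 304) (nat_lit 11262860553) (nat_lit 96) (nat_lit 5) (nat_lit 99) (nat_lit 5) (nat_lit 100) (nat_lit 5) (nat_lit 458) (nat_lit 428) (nat_lit 314))) (XT.nd (nat_lit 78) (nat_lit 228) (nat_lit 0) (XT.lf (nat_lit 0) (nat_lit 27704123577) (nat_lit 228) (nat_lit 5638609499) (nat_lit 304) (nat_lit 3853248989) (nat_lit 96) (nat_lit 5) (nat_lit 99) (nat_lit 5) (nat_lit 100) (nat_lit 5) (nat_lit 459) (nat_lit 428) (nat_lit 313)) (XT.lf (nat_lit 0) (nat_lit 4147209522) (nat_lit 228) (nat_lit 25219605616) (nat_lit 76) (nat_lit 8954768389) (nat_lit 93) (nat_lit 5) (nat_lit 96) (nat_lit 5) (nat_lit 94) (nat_lit 5) (nat_lit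 460) (nat_lit 428) (nat_lit 312))))) (XT.nd (nat_lit 312) (nat_lit 608) (nat_lit 0) (XT.nd (nat_lit 156) (nat_lit 152) (nat_lit 0) (XT.nd (nat_lit 78) (nat_lit 228) (nat_lit 0) (XT.lf (nat_lit 0) (nat_lit 12668801531) (nat_lit 228) (nat_lit 2506564087) (nat_lit 76) (nat_lit 24312411249) (nat_lit 93) (nat_lit 5) (nat_lit 96) (nat_lit 5) (nat_lit 94) (nat_lit 5) (nat_lit 461) (nat_lit 428) (nat_lit 311)) (XT.lf (nat_lit 0) (nat_lit 21956929097) (nat_lit 304) (nat_lit 18656654977) (nat_lit 76) (nat_lit 81673436) (nat_lit 90) (nat_lit 5) (nat_lit 94) (nat_lit 5) (nat_lit 91) (nat_lit 5) (nat_lit 462) (nat_lit 428) (nat_lit 310))) (XT.nd (nat_lit 78) (nat_lit 0) (nat_lit 0) (XT.lf (nat_lit 0) (nat_lit 5867751003) (nat_lit 152) (nat_lit 26220358959) (nat_lit 228) (nat_lit 9856070290) (nat_lit 88) (nat_lit 5) (nat_lit 90) (nat_lit 5) (nat_lit 91) (nat_lit 5) (nat_lit 463) (nat_lit 428) (nat_lit 309))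 (XT.lf (nat_lit 0) (nat_lit 32258576135) (nat_lit 152) (nat_lit 10778461191) (nat_lit 228) (nat_lit 202952825) (nat_lit 88) (nat_lit 5) (nat_lit 90) (nat_lit 5) (nat_lit 91) (nat_lit 5) (nat_lit 464) (nat_lit 428) (nat_lit 308)))) (XT.nd (nat_lit 156) (nat_lit 304) (nat_lit 0) (XT.nd (nat_lit 78) (nat_lit 0) (nat_lit 0) (XT.lf (nat_lit 0) (nat_lit 9946930707) (nat_lit 304) (nat_lit 28963452446) (nat_lit 76) (nat_lit 5665852666) (nat_lit 84) (nat_lit 5) (nat_lit 88) (nat_lit 5) (nat_lit 85) (nat_lit 5) (nat_lit 465) (nat_lit 428) (nat_lit 307)) (XT.lf (nat_lit 0) (nat_lit 20958654397) (nat_lit 304) (nat_lit 2242505695) (nat_lit 76) (nat_lit 22759909338) (nat_lit 84) (nat_lit 5) (nat_lit 88) (nat_lit 5) (nat_lit 85) (nat_lit 5) (nat_lit 466) (nat_lit 428) (nat_lit 306))) (XT.nd (nat_lit 78) (nat_lit 152) (nat_lit 0) (XT.lf (nat_lit 0) (nat_lit 26660771707) (nat_lit 152) (nat_lit 6272104880) (nat_lit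 228) (nat_lit 14461672842) (nat_lit 82) (nat_lit 5) (nat_lit 84) (nat_lit 5) (nat_lit 85) (nat_lit 5) (nat_lit 467) (nat_lit 428) (nat_lit 305)) (XT.lf (nat_lit 0) (nat_lit 8266536032) (nat_lit 152) (nat_lit 37582258264) (nat_lit 228) (nat_lit 3033760222) (nat_lit 80) (nat_lit 5) (nat_lit 82) (nat_lit 5) (nat_lit 83) (nat_lit 5) (nat_lit 468) (nat_lit 428) (nat_lit 304)))))) (XT.nd (nat_lit 624) (nat_lit 684) (nat_lit 0) (XT.nd (nat_lit 312) (nat_lit 456) (nat_lit 0) (XT.nd (nat_lit 156) (nat_lit 152) (nat_lit 0) (XT.nd (nat_lit 78) (nat_lit 152) (nat_lit 0) (XT.lf (nat_lit 0) (nat_lit 9134054626) (nat_lit 228) (nat_lit 11246374316) (nat_lit 76) (nat_lit 30034759324) (nat_lit 79) (nat_lit 5) (nat_lit 82) (nat_lit 5) (nat_lit 80) (nat_lit 5) (nat_lit 469) (nat_lit 428) (nat_lit 303)) (XT.lf (nat_lit 0) (nat_lit 20181168725) (nat_lit 152) (nat_lit 1938170274) (nat_lit 228) (nat_lit 29887076631)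 (nat_lit 77) (nat_lit 5) (nat_lit 79) (nat_lit 5) (nat_lit 80) (nat_lit 5) (nat_lit 470) (nat_lit 428) (nat_lit 302))) (XT.nd (nat_lit 78) (nat_lit 152) (nat_lit 0) (XT.lf (nat_lit 0) (nat_lit 36215539702) (nat_lit 228) (nat_lit 379157731) (nat_lit 76) (nat_lit 17059424575) (nat_lit 77) (nat_lit 5) (nat_lit 80) (nat_lit 5) (nat_lit 78) (nat_lit 5) (nat_lit 471) (nat_lit 428) (nat_lit 301)) (XT.lf (nat_lit 0) (nat_lit 33678902619) (nat_lit 152) (nat_lit 17891429004) (nat_lit 228) (nat_lit 3786193265) (nat_lit 75) (nat_lit 5) (nat_lit 77) (nat_lit 5) (nat_lit 78) (nat_lit 5) (nat_lit 472) (nat_lit 428) (nat_lit 300)))) (XT.nd (nat_lit 156) (nat_lit 228) (nat_lit 0) (XT.nd (nat_lit 78) (nat_lit 0) (nat_lit 0) (XT.lf (nat_lit 0) (nat_lit 10442943438) (nat_lit 228) (nat_lit 44619816131) (nat_lit 76) (nat_lit 2061465926) (nat_lit 72) (nat_lit 5) (nat_lit 75) (nat_lit 5) (nat_lit 73) (nat_lit 5) (nat_lit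 473) (nat_lit 428) (nat_lit 299)) (XT.lf (nat_lit 0) (nat_lit 25918982300) (nat_lit 228) (nat_lit 10181758390) (nat_lit 76) (nat_lit 22843332901) (nat_lit 72) (nat_lit 5) (nat_lit 75) (nat_lit 5) (nat_lit 73) (nat_lit 5) (nat_lit 474) (nat_lit 428) (nat_lit 298))) (XT.nd (nat_lit 78) (nat_lit 76) (nat_lit 0) (XT.lf (nat_lit 0) (nat_lit 26830709896) (nat_lit 152) (nat_lit 15753439336) (nat_lit 228) (nat_lit 18249998752) (nat_lit 70) (nat_lit 5) (nat_lit 72) (nat_lit 5) (nat_lit 73) (nat_lit 5) (nat_lit 475) (nat_lit 428) (nat_lit 297)) (XT.lf (nat_lit 0) (nat_lit 3244313339) (nat_lit 76) (nat_lit 57148237502) (nat_lit 152) (nat_lit 2410676629) (nat_lit 69) (nat_lit 5) (nat_lit 70) (nat_lit 5) (nat_lit 71) (nat_lit 4) (nat_lit 476) (nat_lit 428) (nat_lit 296))))) (XT.nd (nat_lit 312) (nat_lit 304) (nat_lit 0) (XT.nd (nat_lit 156) (nat_lit 152) (nat_lit 0) (XT.nd (nat_lit 78) (nat_lit 152) (nat_lit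 0) (XT.lf (nat_lit 0) (nat_lit 14605493401) (nat_lit 152) (nat_lit 21803001482) (nat_lit 76) (nat_lit 28409163528) (nat_lit 68) (nat_lit 5) (nat_lit 70) (nat_lit 5) (nat_lit 69) (nat_lit 5) (nat_lit 477) (nat_lit 428) (nat_lit 295)) (XT.lf (nat_lit 0) (nat_lit 18383585033) (nat_lit 152) (nat_lit 14291531636) (nat_lit 228) (nat_lit 34241535467) (nat_lit 66) (nat_lit 5) (nat_lit 68) (nat_lit 5) (nat_lit 69) (nat_lit 5) (nat_lit 478) (nat_lit 428) (nat_lit 294))) (XT.nd (nat_lit 78) (nat_lit 152) (nat_lit 0) (XT.lf (nat_lit 0) (nat_lit 52159628284) (nat_lit 228) (nat_lit 7917196440) (nat_lit 76) (nat_lit 9018200619) (nat_lit 66) (nat_lit 5) (nat_lit 69) (nat_lit 5) (nat_lit 67) (nat_lit 4) (nat_lit 479) (nat_lit 428) (nat_lit 293)) (XT.lf (nat_lit 0) (nat_lit 1996789795) (nat_lit 152) (nat_lit 35745329491) (nat_lit 76) (nat_lit 33599218018) (nat_lit 64) (nat_lit 5) (nat_lit 66) (nat_lit 5) (nat_lit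 65) (nat_lit 5) (nat_lit 480) (nat_lit 428) (nat_lit 292)))) (XT.nd (nat_lit 156) (nat_lit 152) (nat_lit 0) (XT.nd (nat_lit 78) (nat_lit 0) (nat_lit 0) (XT.lf (nat_lit 0) (nat_lit 7831565099) (nat_lit 152) (nat_lit 13730270743) (nat_lit 228) (nat_lit 52111478169) (nat_lit 62) (nat_lit 5) (nat_lit 64) (nat_lit 5) (nat_lit 65) (nat_lit 5) (nat_lit 481) (nat_lit 428) (nat_lit 291)) (XT.lf (nat_lit 0) (nat_lit 42896551931) (nat_lit 228) (nat_lit 21458280301) (nat_lit 76) (nat_lit 11727486564) (nat_lit 62) (nat_lit 5) (nat_lit 65) (nat_lit 5) (nat_lit 63) (nat_lit 4) (nat_lit 482) (nat_lit 428) (nat_lit 290))) (XT.nd (nat_lit 78) (nat_lit 76) (nat_lit 0) (XT.lf (nat_lit 0) (nat_lit 25737544493) (nat_lit 76) (nat_lit 40184390862) (nat_lit 152) (nat_lit 12658642010) (nat_lit 61) (nat_lit 5) (nat_lit 62) (nat_lit 5) (nat_lit 63) (nat_lit 4) (nat_lit 483) (nat_lit 428) (nat_lit 289)) (XT.lf (nat_lit 0)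 (nat_lit 8976532282) (nat_lit 152) (nat_lit 5297768881) (nat_lit 76) (nat_lit 66904184962) (nat_lit 60) (nat_lit 5) (nat_lit 62) (nat_lit 5) (nat_lit 61) (nat_lit 5) (nat_lit 484) (nat_lit 428) (nat_lit 288))))))))
noncomputable def xc156 : XT := (XT.nd (nat_lit 2418) (nat_lit 1444) (nat_lit 0) (XT.nd (nat_lit 1170) (nat_lit 988) (nat_lit 0) (XT.nd (nat_lit 546) (nat_lit 456) (nat_lit 0) (XT.nd (nat_lit 234) (nat_lit 456) (nat_lit 0) (XT.nd (nat_lit 78) (nat_lit 76) (nat_lit 0) (XT.lf (nat_lit 0) (nat_lit 32198537289) (nat_lit 228) (nat_lit 38196781605) (nat_lit 76) (nat_lit 13454071329) (nat_lit 58) (nat_lit 5) (nat_lit 61) (nat_lit 5) (nat_lit 59) (nat_lit 4) (nat_lit 485) (nat_lit 428) (nat_lit 287)) (XT.nd (nat_lit 78) (nat_lit 0) (nat_lit 0) (XT.lf (nat_lit 0) (nat_lit 12855809782) (nat_lit 76) (nat_lit 44248923301) (nat_lit 152) (nat_lit 29522952018) (nat_lit 57) (nat_lit 5) (nat_lit 58)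 (nat_lit 5) (nat_lit 59) (nat_lit 4) (nat_lit 486) (nat_lit 428) (nat_lit 286)) (XT.lf (nat_lit 0) (nat_lit 67781962854) (nat_lit 76) (nat_lit 16118389609) (nat_lit 152) (nat_lit 5612336664) (nat_lit 57) (nat_lit 5) (nat_lit 58) (nat_lit 5) (nat_lit 59) (nat_lit 4) (nat_lit 487) (nat_lit 428) (nat_lit 285)))) (XT.nd (nat_lit 156) (nat_lit 228) (nat_lit 0) (XT.nd (nat_lit 78) (nat_lit 0) (nat_lit 0) (XT.lf (nat_lit 0) (nat_lit 19616140294) (nat_lit 228) (nat_lit 59042526308) (nat_lit 76) (nat_lit 13830746466) (nat_lit 54) (nat_lit 5) (nat_lit 57) (nat_lit 5) (nat_lit 55) (nat_lit 4) (nat_lit 488) (nat_lit 428) (nat_lit 284)) (XT.lf (nat_lit 0) (nat_lit 46553054948) (nat_lit 228) (nat_lit 3826055268) (nat_lit 76) (nat_lit 45199481538) (nat_lit 54) (nat_lit 5) (nat_lit 57) (nat_lit 5) (nat_lit 55) (nat_lit 4) (nat_lit 489) (nat_lit 428) (nat_lit 283))) (XT.nd (nat_lit 78) (nat_lit 152) (nat_lit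 0) (XT.lf (nat_lit 0) (nat_lit 55936774251) (nat_lit 76) (nat_lit 19770833541) (nat_lit 152) (nat_lit 23071082039) (nat_lit 53) (nat_lit 5) (nat_lit 54) (nat_lit 5) (nat_lit 55) (nat_lit 4) (nat_lit 490) (nat_lit 428) (nat_lit 282)) (XT.lf (nat_lit 0) (nat_lit 4578171699) (nat_lit 152) (nat_lit 85155352660) (nat_lit 76) (nat_lit 12375459722) (nat_lit 51) (nat_lit 5) (nat_lit 53) (nat_lit 5) (nat_lit 52) (nat_lit 4) (nat_lit 491) (nat_lit 428) (nat_lit 281))))) (XT.nd (nat_lit 312) (nat_lit 228) (nat_lit 0) (XT.nd (nat_lit 156) (nat_lit 152) (nat_lit 0) (XT.nd (nat_lit 78) (nat_lit 76) (nat_lit 0) (XT.lf (nat_lit 0) (nat_lit 33893584217) (nat_lit 152) (nat_lit 25062215641) (nat_lit 76) (nat_lit 46578130745) (nat_lit 51) (nat_lit 5) (nat_lit 53) (nat_lit 5) (nat_lit 52) (nat_lit 4) (nat_lit 492) (nat_lit 428) (nat_lit 280)) (XT.lf (nat_lit 0) (nat_lit 39288474146) (nat_lit 76) (nat_lit 25997297257)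 (nat_lit 152) (nat_lit 43813802910) (nat_lit 50) (nat_lit 5) (nat_lit 51) (nat_lit 5) (nat_lit 52) (nat_lit 4) (nat_lit 493) (nat_lit 428) (nat_lit 279))) (XT.nd (nat_lit 78) (nat_lit 152) (nat_lit 0) (XT.lf (nat_lit 0) (nat_lit 98810990546) (nat_lit 152) (nat_lit 5241437880) (nat_lit 0) (nat_lit 8762900715) (nat_lit 50) (nat_lit 5) (nat_lit 52) (nat_lit 4) (nat_lit 50) (nat_lit 4) (nat_lit 494) (nat_lit 428) (nat_lit 278)) (XT.lf (nat_lit 0) (nat_lit 18191352623) (nat_lit 152) (nat_lit 52758662385) (nat_lit 76) (nat_lit 45680889074) (nat_lit 48) (nat_lit 5) (nat_lit 50) (nat_lit 5) (nat_lit 49) (nat_lit 4) (nat_lit 495) (nat_lit 428) (nat_lit 277)))) (XT.nd (nat_lit 156) (nat_lit 152) (nat_lit 0) (XT.nd (nat_lit 78) (nat_lit 0) (nat_lit 0) (XT.lf (nat_lit 0) (nat_lit 16276288085) (nat_lit 76) (nat_lit 35591972054) (nat_lit 152) (nat_lit 68740415254) (nat_lit 47) (nat_lit 5) (nat_lit 48) (nat_lit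 5) (nat_lit 49) (nat_lit 4) (nat_lit 496) (nat_lit 428) (nat_lit 276)) (XT.lf (nat_lit 0) (nat_lit 88158841428) (nat_lit 152) (nat_lit 34188995417) (nat_lit 0) (nat_lit 2391007054) (nat_lit 47) (nat_lit 5) (nat_lit 49) (nat_lit 4) (nat_lit 47) (nat_lit 4) (nat_lit 497) (nat_lit 428) (nat_lit 275))) (XT.nd (nat_lit 78) (nat_lit 76) (nat_lit 0) (XT.lf (nat_lit 0) (nat_lit 40159261644) (nat_lit 76) (nat_lit 87313009298) (nat_lit 76) (nat_lit 1542833978) (nat_lit 46) (nat_lit 4) (nat_lit 47) (nat_lit 5) (nat_lit 47) (nat_lit 4) (nat_lit 498) (nat_lit 428) (nat_lit 274)) (XT.lf (nat_lit 0) (nat_lit 34704443039) (nat_lit 152) (nat_lit 14628296561) (nat_lit 76) (nat_lit 84115607426) (nat_lit 45) (nat_lit 5) (nat_lit 47) (nat_lit 5) (nat_lit 46) (nat_lit 4) (nat_lit 499) (nat_lit 428) (nat_lit 273)))))) (XT.nd (nat_lit 624) (nat_lit 456) (nat_lit 0) (XT.nd (nat_lit 312) (nat_lit 228) (nat_lit 0) (XT.nd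 (nat_lit 156) (nat_lit 152) (nat_lit 0) (XT.nd (nat_lit 78) (nat_lit 76) (nat_lit 0) (XT.lf (nat_lit 0) (nat_lit 65373721106) (nat_lit 76) (nat_lit 8357132163) (nat_lit 152) (nat_lit 64320202454) (nat_lit 44) (nat_lit 5) (nat_lit 45) (nat_lit 5) (nat_lit 46) (nat_lit 4) (nat_lit 500) (nat_lit 428) (nat_lit 272)) (XT.lf (nat_lit 0) (nat_lit 6676577956) (nat_lit 76) (nat_lit 108927256051) (nat_lit 76) (nat_lit 27235303390) (nat_lit 43) (nat_lit 4) (nat_lit 44) (nat_lit 5) (nat_lit 44) (nat_lit 4) (nat_lit 501) (nat_lit 428) (nat_lit 271))) (XT.nd (nat_lit 78) (nat_lit 76) (nat_lit 0) (XT.lf (nat_lit 0) (nat_lit 12715211486) (nat_lit 152) (nat_lit 55627603305) (nat_lit 76) (nat_lit 79445373568) (nat_lit 42) (nat_lit 5) (nat_lit 44) (nat_lit 5) (nat_lit 43) (nat_lit 4) (nat_lit 502) (nat_lit 428) (nat_lit 270)) (XT.lf (nat_lit 0) (nat_lit 29425622847) (nat_lit 76) (nat_lit 24779819371) (nat_lit 152)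 (nat_lit 98734051923) (nat_lit 41) (nat_lit 5) (nat_lit 42) (nat_lit 5) (nat_lit 43) (nat_lit 4) (nat_lit 503) (nat_lit 428) (nat_lit 269)))) (XT.nd (nat_lit 156) (nat_lit 152) (nat_lit 0) (XT.nd (nat_lit 78) (nat_lit 76) (nat_lit 0) (XT.lf (nat_lit 0) (nat_lit 99053037766) (nat_lit 152) (nat_lit 37985001684) (nat_lit 0) (nat_lit 21246183130) (nat_lit 41) (nat_lit 5) (nat_lit 43) (nat_lit 4) (nat_lit 41) (nat_lit 4) (nat_lit 504) (nat_lit 428) (nat_lit 268)) (XT.lf (nat_lit 0) (nat_lit 53110321500) (nat_lit 76) (nat_lit 94266275211) (nat_lit 76) (nat_lit 16457911580) (nat_lit 40) (nat_lit 4) (nat_lit 41) (nat_lit 5) (nat_lit 41) (nat_lit 4) (nat_lit 505) (nat_lit 428) (nat_lit 267))) (XT.nd (nat_lit 78) (nat_lit 76) (nat_lit 0) (XT.lf (nat_lit 0) (nat_lit 28195317497) (nat_lit 152) (nat_lit 20009399897) (nat_lit 76) (nat_lit 121402778633) (nat_lit 39) (nat_lit 5) (nat_lit 41) (nat_lit 5) (nat_lit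 40) (nat_lit 4) (nat_lit 506) (nat_lit 428) (nat_lit 266)) (XT.lf (nat_lit 0) (nat_lit 75762235129) (nat_lit 152) (nat_lit 98175342472) (nat_lit 0) (nat_lit 1656359443) (nat_lit 38) (nat_lit 5) (nat_lit 40) (nat_lit 4) (nat_lit 38) (nat_lit 4) (nat_lit 507) (nat_lit 428) (nat_lit 265))))) (XT.nd (nat_lit 312) (nat_lit 228) (nat_lit 0) (XT.nd (nat_lit 156) (nat_lit 152) (nat_lit 0) (XT.nd (nat_lit 78) (nat_lit 76) (nat_lit 0) (XT.lf (nat_lit 0) (nat_lit 126840414473) (nat_lit 152) (nat_lit 2249342538) (nat_lit 0) (nat_lit 52733297334) (nat_lit 38) (nat_lit 5) (nat_lit 40) (nat_lit 4) (nat_lit 38) (nat_lit 4) (nat_lit 508) (nat_lit 428) (nat_lit 264)) (XT.lf (nat_lit 0) (nat_lit 101725514553) (nat_lit 76) (nat_lit 80333542375) (nat_lit 76) (nat_lit 6225242900) (nat_lit 37) (nat_lit 4) (nat_lit 38) (nat_lit 5) (nat_lit 38) (nat_lit 4) (nat_lit 509) (nat_lit 428) (nat_lit 263))) (XT.nd (nat_lit 78)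 (nat_lit 0) (nat_lit 0) (XT.lf (nat_lit 0) (nat_lit 15707203191) (nat_lit 76) (nat_lit 28105786418) (nat_lit 152) (nat_lit 151206398228) (nat_lit 35) (nat_lit 5) (nat_lit 36) (nat_lit 5) (nat_lit 37) (nat_lit 4) (nat_lit 510) (nat_lit 428) (nat_lit 262)) (XT.lf (nat_lit 0) (nat_lit 98049592860) (nat_lit 152) (nat_lit 76473085080) (nat_lit 0) (nat_lit 27468166266) (nat_lit 35) (nat_lit 5) (nat_lit 37) (nat_lit 4) (nat_lit 35) (nat_lit 4) (nat_lit 511) (nat_lit 428) (nat_lit 261)))) (XT.nd (nat_lit 156) (nat_lit 76) (nat_lit 0) (XT.nd (nat_lit 78) (nat_lit 76) (nat_lit 0) (XT.lf (nat_lit 0) (nat_lit 32070533316) (nat_lit 76) (nat_lit 123887372707) (nat_lit 76) (nat_lit 53304973402) (nat_lit 34) (nat_lit 4) (nat_lit 35) (nat_lit 5) (nat_lit 35) (nat_lit 4) (nat_lit 512) (nat_lit 428) (nat_lit 260)) (XT.lf (nat_lit 0) (nat_lit 1182259282) (nat_lit 152) (nat_lit 68159694166) (nat_lit 76) (nat_lit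 147490931840) (nat_lit 33) (nat_lit 5) (nat_lit 35) (nat_lit 5) (nat_lit 34) (nat_lit 4) (nat_lit 513) (nat_lit 428) (nat_lit 259))) (XT.nd (nat_lit 78) (nat_lit 0) (nat_lit 0) (XT.lf (nat_lit 0) (nat_lit 46950451262) (nat_lit 76) (nat_lit 10383528853) (nat_lit 152) (nat_lit 167367142591) (nat_lit 32) (nat_lit 5) (nat_lit 33) (nat_lit 5) (nat_lit 34) (nat_lit 4) (nat_lit 514) (nat_lit 428) (nat_lit 258)) (XT.lf (nat_lit 0) (nat_lit 118269440986) (nat_lit 152) (nat_lit 63548937802) (nat_lit 0) (nat_lit 51045585520) (nat_lit 32) (nat_lit 5) (nat_lit 34) (nat_lit 4) (nat_lit 32) (nat_lit 4) (nat_lit 515) (nat_lit 428) (nat_lit 257))))))) (XT.nd (nat_lit 1170) (nat_lit 684) (nat_lit 0) (XT.nd (nat_lit 546) (nat_lit 304) (nat_lit 0) (XT.nd (nat_lit 234) (nat_lit 228) (nat_lit 0) (XT.nd (nat_lit 78) (nat_lit 152) (nat_lit 0) (XT.lf (nat_lit 0) (nat_lit 58047694708) (nat_lit 76) (nat_lit 125279058497)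 (nat_lit 76) (nat_lit 58054440887) (nat_lit 31) (nat_lit 4) (nat_lit 32) (nat_lit 5) (nat_lit 32) (nat_lit 4) (nat_lit 516) (nat_lit 428) (nat_lit 256)) (XT.nd (nat_lit 78) (nat_lit 76) (nat_lit 0) (XT.lf (nat_lit 0) (nat_lit 2363078502) (nat_lit 152) (nat_lit 62381032532) (nat_lit 76) (nat_lit 185524527358) (nat_lit 30) (nat_lit 5) (nat_lit 32) (nat_lit 5) (nat_lit 31) (nat_lit 4) (nat_lit 517) (nat_lit 428) (nat_lit 255)) (XT.lf (nat_lit 0) (nat_lit 64889904747) (nat_lit 152) (nat_lit 193745882779) (nat_lit 0) (nat_lit 865109747) (nat_lit 29) (nat_lit 5) (nat_lit 31) (nat_lit 4) (nat_lit 29) (nat_lit 4) (nat_lit 518) (nat_lit 428) (nat_lit 254)))) (XT.nd (nat_lit 156) (nat_lit 152) (nat_lit 0) (XT.nd (nat_lit 78) (nat_lit 76) (nat_lit 0) (XT.lf (nat_lit 0) (nat_lit 132676863807) (nat_lit 152) (nat_lit 67759773939) (nat_lit 0) (nat_lit 68651441789) (nat_lit 29) (nat_lit 5) (nat_lit 31) (nat_lit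 4) (nat_lit 29) (nat_lit 4) (nat_lit 519) (nat_lit 428) (nat_lit 253)) (XT.lf (nat_lit 0) (nat_lit 66656471144) (nat_lit 76) (nat_lit 138236099484) (nat_lit 76) (nat_lit 74210080306) (nat_lit 28) (nat_lit 4) (nat_lit 29) (nat_lit 5) (nat_lit 29) (nat_lit 4) (nat_lit 520) (nat_lit 428) (nat_lit 252))) (XT.nd (nat_lit 78) (nat_lit 152) (nat_lit 0) (XT.lf (nat_lit 0) (nat_lit 210143444089) (nat_lit 76) (nat_lit 71721890566) (nat_lit 76) (nat_lit 7695302664) (nat_lit 28) (nat_lit 4) (nat_lit 29) (nat_lit 5) (nat_lit 29) (nat_lit 4) (nat_lit 521) (nat_lit 428) (nat_lit 251)) (XT.lf (nat_lit 0) (nat_lit 61113426286) (nat_lit 152) (nat_lit 239196513662) (nat_lit 0) (nat_lit 135207672) (nat_lit 26) (nat_lit 5) (nat_lit 28) (nat_lit 4) (nat_lit 26) (nat_lit 4) (nat_lit 522) (nat_lit 428) (nat_lit 250))))) (XT.nd (nat_lit 312) (nat_lit 76) (nat_lit 0) (XT.nd (nat_lit 156) (nat_lit 152) (nat_lit 0) (XT.nd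 (nat_lit 78) (nat_lit 76) (nat_lit 0) (XT.lf (nat_lit 0) (nat_lit 135645534735) (nat_lit 152) (nat_lit 101428138465) (nat_lit 0) (nat_lit 74666824836) (nat_lit 26) (nat_lit 5) (nat_lit 28) (nat_lit 4) (nat_lit 26) (nat_lit 4) (nat_lit 523) (nat_lit 428) (nat_lit 249)) (XT.lf (nat_lit 0) (nat_lit 44655558212) (nat_lit 76) (nat_lit 169944717111) (nat_lit 76) (nat_lit 108965539322) (nat_lit 25) (nat_lit 4) (nat_lit 26) (nat_lit 5) (nat_lit 26) (nat_lit 4) (nat_lit 524) (nat_lit 428) (nat_lit 248))) (XT.nd (nat_lit 78) (nat_lit 152) (nat_lit 0) (XT.lf (nat_lit 0) (nat_lit 201562479609) (nat_lit 76) (nat_lit 97656855880) (nat_lit 76) (nat_lit 36677232480) (nat_lit 25) (nat_lit 4) (nat_lit 26) (nat_lit 5) (nat_lit 26) (nat_lit 4) (nat_lit 525) (nat_lit 428) (nat_lit 247)) (XT.lf (nat_lit 0) (nat_lit 17413568591) (nat_lit 76) (nat_lit 20827219887) (nat_lit 152) (nat_lit 310558911527) (nat_lit 23) (nat_lit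 5) (nat_lit 24) (nat_lit 5) (nat_lit 25) (nat_lit 4) (nat_lit 526) (nat_lit 428) (nat_lit 246)))) (XT.nd (nat_lit 156) (nat_lit 76) (nat_lit 0) (XT.nd (nat_lit 78) (nat_lit 0) (nat_lit 0) (XT.lf (nat_lit 0) (nat_lit 118917640138) (nat_lit 152) (nat_lit 182396989735) (nat_lit 0) (nat_lit 60841019213) (nat_lit 23) (nat_lit 5) (nat_lit 25) (nat_lit 4) (nat_lit 23) (nat_lit 4) (nat_lit 527) (nat_lit 428) (nat_lit 245)) (XT.lf (nat_lit 0) (nat_lit 203968703389) (nat_lit 152) (nat_lit 26301957930) (nat_lit 0) (nat_lit 145891715859) (nat_lit 23) (nat_lit 5) (nat_lit 25) (nat_lit 4) (nat_lit 23) (nat_lit 4) (nat_lit 528) (nat_lit 428) (nat_lit 244))) (XT.nd (nat_lit 78) (nat_lit 0) (nat_lit 0) (XT.lf (nat_lit 0) (nat_lit 142145328329) (nat_lit 76) (nat_lit 153345268100) (nat_lit 76) (nat_lit 95267931422) (nat_lit 22) (nat_lit 4) (nat_lit 23) (nat_lit 5) (nat_lit 23) (nat_lit 4) (nat_lit 529) (nat_lit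 428) (nat_lit 243)) (XT.lf (nat_lit 0) (nat_lit 319926120964) (nat_lit 76) (nat_lit 72106906077) (nat_lit 76) (nat_lit 14029236879) (nat_lit 22) (nat_lit 4) (nat_lit 23) (nat_lit 5) (nat_lit 23) (nat_lit 4) (nat_lit 530) (nat_lit 428) (nat_lit 242)))))) (XT.nd (nat_lit 624) (nat_lit 304) (nat_lit 0) (XT.nd (nat_lit 312) (nat_lit 152) (nat_lit 0) (XT.nd (nat_lit 156) (nat_lit 76) (nat_lit 0) (XT.nd (nat_lit 78) (nat_lit 0) (nat_lit 0) (XT.lf (nat_lit 0) (nat_lit 70579907863) (nat_lit 152) (nat_lit 336148619016) (nat_lit 0) (nat_lit 15267540353) (nat_lit 20) (nat_lit 5) (nat_lit 22) (nat_lit 4) (nat_lit 20) (nat_lit 4) (nat_lit 531) (nat_lit 428) (nat_lit 241)) (XT.lf (nat_lit 0) (nat_lit 161611826543) (nat_lit 152) (nat_lit 170670873455) (nat_lit 0) (nat_lit 106299171789) (nat_lit 20) (nat_lit 5) (nat_lit 22) (nat_lit 4) (nat_lit 20) (nat_lit 4) (nat_lit 532) (nat_lit 428) (nat_lit 240))) (XT.nd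 (nat_lit 78) (nat_lit 0) (nat_lit 0) (XT.lf (nat_lit 0) (nat_lit 3180714523) (nat_lit 76) (nat_lit 254063371564) (nat_lit 76) (nat_lit 198750443244) (nat_lit 19) (nat_lit 4) (nat_lit 20) (nat_lit 5) (nat_lit 20) (nat_lit 4) (nat_lit 533) (nat_lit 428) (nat_lit 239)) (XT.lf (nat_lit 0) (nat_lit 191648371452) (nat_lit 76) (nat_lit 168899081230) (nat_lit 76) (nat_lit 113585892371) (nat_lit 19) (nat_lit 4) (nat_lit 20) (nat_lit 5) (nat_lit 20) (nat_lit 4) (nat_lit 534) (nat_lit 428) (nat_lit 238)))) (XT.nd (nat_lit 156) (nat_lit 0) (nat_lit 0) (XT.nd (nat_lit 78) (nat_lit 152) (nat_lit 0) (XT.lf (nat_lit 0) (nat_lit 389537680001) (nat_lit 76) (nat_lit 79477450701) (nat_lit 76) (nat_lit 24164013710) (nat_lit 19) (nat_lit 4) (nat_lit 20) (nat_lit 5) (nat_lit 20) (nat_lit 4) (nat_lit 535) (nat_lit 428) (nat_lit 237)) (XT.lf (nat_lit 0) (nat_lit 69100802626) (nat_lit 152) (nat_lit 427520703840) (nat_lit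 0) (nat_lit 16421113761) (nat_lit 17) (nat_lit 5) (nat_lit 19) (nat_lit 4) (nat_lit 17) (nat_lit 4) (nat_lit 536) (nat_lit 428) (nat_lit 236))) (XT.nd (nat_lit 78) (nat_lit 0) (nat_lit 0) (XT.lf (nat_lit 0) (nat_lit 169302863169) (nat_lit 152) (nat_lit 247799336505) (nat_lit 0) (nat_lit 116622959958) (nat_lit 17) (nat_lit 5) (nat_lit 19) (nat_lit 4) (nat_lit 17) (nat_lit 4) (nat_lit 537) (nat_lit 428) (nat_lit 235)) (XT.lf (nat_lit 0) (nat_lit 274514237457) (nat_lit 152) (nat_lit 59093497910) (nat_lit 0) (nat_lit 221834130108) (nat_lit 17) (nat_lit 5) (nat_lit 19) (nat_lit 4) (nat_lit 17) (nat_lit 4) (nat_lit 538) (nat_lit 428) (nat_lit 234))))) (XT.nd (nat_lit 312) (nat_lit 76) (nat_lit 0) (XT.nd (nat_lit 156) (nat_lit 152) (nat_lit 0) (XT.nd (nat_lit 78) (nat_lit 0) (nat_lit 0) (XT.lf (nat_lit 0) (nat_lit 143643603959) (nat_lit 76) (nat_lit 243584504024) (nat_lit 76) (nat_lit 190904202256)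 (nat_lit 16) (nat_lit 4) (nat_lit 17) (nat_lit 5) (nat_lit 17) (nat_lit 4) (nat_lit 539) (nat_lit 428) (nat_lit 233)) (XT.lf (nat_lit 0) (nat_lit 358567657211) (nat_lit 76) (nat_lit 148010052538) (nat_lit 76) (nat_lit 95329565609) (nat_lit 16) (nat_lit 4) (nat_lit 17) (nat_lit 5) (nat_lit 17) (nat_lit 4) (nat_lit 540) (nat_lit 428) (nat_lit 232))) (XT.nd (nat_lit 78) (nat_lit 76) (nat_lit 0) (XT.lf (nat_lit 0) (nat_lit 4862294194) (nat_lit 152) (nat_lit 42712960172) (nat_lit 76) (nat_lit 579291848370) (nat_lit 15) (nat_lit 5) (nat_lit 17) (nat_lit 5) (nat_lit 16) (nat_lit 4) (nat_lit 541) (nat_lit 428) (nat_lit 231)) (XT.lf (nat_lit 0) (nat_lit 110516219690) (nat_lit 152) (nat_lit 481953754764) (nat_lit 0) (nat_lit 60343999483) (nat_lit 14) (nat_lit 5) (nat_lit 16) (nat_lit 4) (nat_lit 14) (nat_lit 4) (nat_lit 542) (nat_lit 428) (nat_lit 230)))) (XT.nd (nat_lit 156) (nat_lit 76) (nat_lit 0) (XT.nd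 (nat_lit 78) (nat_lit 0) (nat_lit 0) (XT.lf (nat_lit 0) (nat_lit 222967305741) (nat_lit 152) (nat_lit 284220226543) (nat_lit 0) (nat_lit 172794933202) (nat_lit 14) (nat_lit 5) (nat_lit 16) (nat_lit 4) (nat_lit 14) (nat_lit 4) (nat_lit 543) (nat_lit 428) (nat_lit 229)) (XT.lf (nat_lit 0) (nat_lit 341040297517) (nat_lit 152) (nat_lit 76601336630) (nat_lit 0) (nat_lit 290867779900) (nat_lit 14) (nat_lit 5) (nat_lit 16) (nat_lit 4) (nat_lit 14) (nat_lit 4) (nat_lit 544) (nat_lit 428) (nat_lit 228))) (XT.nd (nat_lit 78) (nat_lit 0) (nat_lit 0) (XT.lf (nat_lit 0) (nat_lit 146072477176) (nat_lit 76) (nat_lit 321224444747) (nat_lit 76) (nat_lit 271051788961) (nat_lit 13) (nat_lit 4) (nat_lit 14) (nat_lit 5) (nat_lit 14) (nat_lit 4) (nat_lit 545) (nat_lit 428) (nat_lit 227)) (XT.lf (nat_lit 0) (nat_lit 382538175193) (nat_lit 76) (nat_lit 218624875545) (nat_lit 76) (nat_lit 168452088169) (nat_lit 13) (nat_lit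 4) (nat_lit 14) (nat_lit 5) (nat_lit 14) (nat_lit 4) (nat_lit 546) (nat_lit 428) (nat_lit 226))))))))
noncomputable def xc157 : XT := (XT.nd (nat_lit 55536) (nat_lit 0) (nat_lit 3496) (XT.nd (nat_lit 54288) (nat_lit 0) (nat_lit 6916) (XT.nd (nat_lit 53664) (nat_lit 0) (nat_lit 9956) (XT.nd (nat_lit 53352) (nat_lit 0) (nat_lit 10336) (XT.nd (nat_lit 78) (nat_lit 152) (nat_lit 0) (XT.lf (nat_lit 0) (nat_lit 630825984856) (nat_lit 76) (nat_lit 110895922554) (nat_lit 76) (nat_lit 60723009854) (nat_lit 13) (nat_lit 4) (nat_lit 14) (nat_lit 5) (nat_lit 14) (nat_lit 4) (nat_lit 547) (nat_lit 428) (nat_lit 225)) (XT.nd (nat_lit 53196) (nat_lit 0) (nat_lit 10336) (XT.lf (nat_lit 0) (nat_lit 51644977752) (nat_lit 152) (nat_lit 781322702220) (nat_lit 0) (nat_lit 3861137699) (nat_lit 11) (nat_lit 5) (nat_lit 13) (nat_lit 4) (nat_lit 11) (nat_lit 4) (nat_lit 548) (nat_lit 428) (nat_lit 224)) (XT.lf (nat_lit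 0) (nat_lit 1890572144) (nat_lit 836) (nat_lit 3272460387) (nat_lit 836) (nat_lit 3272460387) (nat_lit 147) (nat_lit 3) (nat_lit 158) (nat_lit 3) (nat_lit 158) (nat_lit 5) (nat_lit 429) (nat_lit 429) (nat_lit 342)))) (XT.nd (nat_lit 156) (nat_lit 0) (nat_lit 76) (XT.nd (nat_lit 78) (nat_lit 0) (nat_lit 76) (XT.lf (nat_lit 76) (nat_lit 1882914864) (nat_lit 0) (nat_lit 2252314338) (nat_lit 836) (nat_lit 13144517865) (nat_lit 148) (nat_lit 5) (nat_lit 147) (nat_lit 3) (nat_lit 158) (nat_lit 5) (nat_lit 430) (nat_lit 429) (nat_lit 341)) (XT.lf (nat_lit 0) (nat_lit 4702117856) (nat_lit 760) (nat_lit 6851889973) (nat_lit 836) (nat_lit 6145185835) (nat_lit 148) (nat_lit 5) (nat_lit 158) (nat_lit 5) (nat_lit 159) (nat_lit 5) (nat_lit 431) (nat_lit 429) (nat_lit 340))) (XT.nd (nat_lit 78) (nat_lit 0) (nat_lit 76) (XT.lf (nat_lit 76) (nat_lit 2143560519) (nat_lit 0) (nat_lit 3210132396) (nat_lit 836) (nat_lit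 12783104747) (nat_lit 149) (nat_lit 5) (nat_lit 148) (nat_lit 5) (nat_lit 159) (nat_lit 5) (nat_lit 432) (nat_lit 429) (nat_lit 339)) (XT.lf (nat_lit 0) (nat_lit 6229027675) (nat_lit 760) (nat_lit 6861428300) (nat_lit 836) (nat_lit 5496268903) (nat_lit 149) (nat_lit 5) (nat_lit 159) (nat_lit 5) (nat_lit 160) (nat_lit 5) (nat_lit 433) (nat_lit 429) (nat_lit 338))))) (XT.nd (nat_lit 312) (nat_lit 532) (nat_lit 0) (XT.nd (nat_lit 156) (nat_lit 0) (nat_lit 76) (XT.nd (nat_lit 78) (nat_lit 0) (nat_lit 76) (XT.lf (nat_lit 76) (nat_lit 2753871569) (nat_lit 0) (nat_lit 4477090664) (nat_lit 836) (nat_lit 11824046540) (nat_lit 150) (nat_lit 5) (nat_lit 149) (nat_lit 5) (nat_lit 160) (nat_lit 5) (nat_lit 434) (nat_lit 429) (nat_lit 337)) (XT.lf (nat_lit 0) (nat_lit 8460151602) (nat_lit 760) (nat_lit 6535108501) (nat_lit 836) (nat_lit 4542590729) (nat_lit 150) (nat_lit 5) (nat_lit 160) (nat_lit 5) (nat_lit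 161) (nat_lit 5) (nat_lit 435) (nat_lit 429) (nat_lit 336))) (XT.nd (nat_lit 78) (nat_lit 0) (nat_lit 76) (XT.lf (nat_lit 76) (nat_lit 3757368119) (nat_lit 0) (nat_lit 6113822442) (nat_lit 836) (nat_lit 10167626712) (nat_lit 151) (nat_lit 5) (nat_lit 150) (nat_lit 5) (nat_lit 161) (nat_lit 5) (nat_lit 436) (nat_lit 429) (nat_lit 335)) (XT.lf (nat_lit 0) (nat_lit 11504209991) (nat_lit 760) (nat_lit 5829086181) (nat_lit 836) (nat_lit 3223966140) (nat_lit 151) (nat_lit 5) (nat_lit 161) (nat_lit 5) (nat_lit 162) (nat_lit 5) (nat_lit 437) (nat_lit 429) (nat_lit 334)))) (XT.nd (nat_lit 156) (nat_lit 684) (nat_lit 0) (XT.nd (nat_lit 78) (nat_lit 0) (nat_lit 76) (XT.lf (nat_lit 76) (nat_lit 5203466135) (nat_lit 0) (nat_lit 8186210603) (nat_lit 836) (nat_lit 7703414665) (nat_lit 152) (nat_lit 5) (nat_lit 151) (nat_lit 5) (nat_lit 162) (nat_lit 5) (nat_lit 438) (nat_lit 429) (nat_lit 333)) (XT.lf (nat_lit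 0) (nat_lit 15481625371) (nat_lit 760) (nat_lit 4693665508) (nat_lit 76) (nat_lit 1474812186) (nat_lit 152) (nat_lit 5) (nat_lit 162) (nat_lit 5) (nat_lit 153) (nat_lit 5) (nat_lit 439) (nat_lit 429) (nat_lit 332))) (XT.nd (nat_lit 78) (nat_lit 0) (nat_lit 0) (XT.lf (nat_lit 0) (nat_lit 7147959615) (nat_lit 760) (nat_lit 10766230042) (nat_lit 836) (nat_lit 4308976211) (nat_lit 142) (nat_lit 5) (nat_lit 152) (nat_lit 5) (nat_lit 153) (nat_lit 5) (nat_lit 440) (nat_lit 429) (nat_lit 331)) (XT.lf (nat_lit 0) (nat_lit 19736048178) (nat_lit 760) (nat_lit 802373812) (nat_lit 836) (nat_lit 2282959227) (nat_lit 142) (nat_lit 5) (nat_lit 152) (nat_lit 5) (nat_lit 153) (nat_lit 5) (nat_lit 441) (nat_lit 429) (nat_lit 330)))))) (XT.nd (nat_lit 624) (nat_lit 1216) (nat_lit 0) (XT.nd (nat_lit 312) (nat_lit 608) (nat_lit 0) (XT.nd (nat_lit 156) (nat_lit 760) (nat_lit 0) (XT.nd (nat_lit 78) (nat_lit 0) (nat_lit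 0) (XT.lf (nat_lit 0) (nat_lit 146681871) (nat_lit 456) (nat_lit 13783681016) (nat_lit 76) (nat_lit 9504400128) (nat_lit 136) (nat_lit 5) (nat_lit 142) (nat_lit 5) (nat_lit 137) (nat_lit 5) (nat_lit 442) (nat_lit 429) (nat_lit 329)) (XT.lf (nat_lit 0) (nat_lit 2678509569) (nat_lit 456) (nat_lit 1004985231) (nat_lit 76) (nat_lit 20390577688) (nat_lit 136) (nat_lit 5) (nat_lit 142) (nat_lit 5) (nat_lit 137) (nat_lit 5) (nat_lit 443) (nat_lit 429) (nat_lit 328))) (XT.nd (nat_lit 78) (nat_lit 380) (nat_lit 0) (XT.lf (nat_lit 0) (nat_lit 5642335884) (nat_lit 456) (nat_lit 12035094809) (nat_lit 76) (nat_lit 7052647529) (nat_lit 131) (nat_lit 5) (nat_lit 137) (nat_lit 5) (nat_lit 132) (nat_lit 5) (nat_lit 444) (nat_lit 429) (nat_lit 327)) (XT.lf (nat_lit 0) (nat_lit 1681321207) (nat_lit 380) (nat_lit 7168823175) (nat_lit 456) (nat_lit 16563951413) (nat_lit 126) (nat_lit 5) (nat_lit 131) (nat_lit 5)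 (nat_lit 132) (nat_lit 5) (nat_lit 445) (nat_lit 429) (nat_lit 326)))) (XT.nd (nat_lit 156) (nat_lit 304) (nat_lit 0) (XT.nd (nat_lit 78) (nat_lit 304) (nat_lit 0) (XT.lf (nat_lit 0) (nat_lit 12477953891) (nat_lit 456) (nat_lit 9693304187) (nat_lit 76) (nat_lit 3948076684) (nat_lit 126) (nat_lit 5) (nat_lit 132) (nat_lit 5) (nat_lit 127) (nat_lit 5) (nat_lit 446) (nat_lit 429) (nat_lit 325)) (XT.lf (nat_lit 0) (nat_lit 5084907663) (nat_lit 304) (nat_lit 11391635925) (nat_lit 380) (nat_lit 10373823597) (nat_lit 122) (nat_lit 5) (nat_lit 126) (nat_lit 5) (nat_lit 127) (nat_lit 5) (nat_lit 447) (nat_lit 429) (nat_lit 324))) (XT.nd (nat_lit 78) (nat_lit 304) (nat_lit 0) (XT.lf (nat_lit 0) (nat_lit 20833465011) (nat_lit 380) (nat_lit 6681406654) (nat_lit 76) (nat_lit 95160401) (nat_lit 122) (nat_lit 5) (nat_lit 127) (nat_lit 5) (nat_lit 123) (nat_lit 5) (nat_lit 448) (nat_lit 429) (nat_lit 323)) (XT.lf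 (nat_lit 0) (nat_lit 9258160356) (nat_lit 304) (nat_lit 16474404702) (nat_lit 380) (nat_lit 2658899406) (nat_lit 118) (nat_lit 5) (nat_lit 122) (nat_lit 5) (nat_lit 123) (nat_lit 5) (nat_lit 449) (nat_lit 429) (nat_lit 322))))) (XT.nd (nat_lit 312) (nat_lit 532) (nat_lit 0) (XT.nd (nat_lit 156) (nat_lit 304) (nat_lit 0) (XT.nd (nat_lit 78) (nat_lit 304) (nat_lit 0) (XT.lf (nat_lit 0) (nat_lit 1719511818) (nat_lit 380) (nat_lit 3015840637) (nat_lit 76) (nat_lit 24469910379) (nat_lit 117) (nat_lit 5) (nat_lit 122) (nat_lit 5) (nat_lit 118) (nat_lit 5) (nat_lit 450) (nat_lit 429) (nat_lit 321)) (XT.lf (nat_lit 0) (nat_lit 6567296409) (nat_lit 380) (nat_lit 15855501273) (nat_lit 76) (nat_lit 7617784330) (nat_lit 113) (nat_lit 5) (nat_lit 118) (nat_lit 5) (nat_lit 114) (nat_lit 5) (nat_lit 451) (nat_lit 429) (nat_lit 320))) (XT.nd (nat_lit 78) (nat_lit 0) (nat_lit 0) (XT.lf (nat_lit 0) (nat_lit 1393654384)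 (nat_lit 304) (nat_lit 10408740358) (nat_lit 380) (nat_lit 19108026925) (nat_lit 109) (nat_lit 5) (nat_lit 113) (nat_lit 5) (nat_lit 114) (nat_lit 5) (nat_lit 452) (nat_lit 429) (nat_lit 319)) (XT.lf (nat_lit 0) (nat_lit 17600388383) (nat_lit 380) (nat_lit 11801711030) (nat_lit 76) (nat_lit 2406597577) (nat_lit 109) (nat_lit 5) (nat_lit 114) (nat_lit 5) (nat_lit 110) (nat_lit 5) (nat_lit 453) (nat_lit 429) (nat_lit 318)))) (XT.nd (nat_lit 156) (nat_lit 304) (nat_lit 0) (XT.nd (nat_lit 78) (nat_lit 0) (nat_lit 0) (XT.lf (nat_lit 0) (nat_lit 6839488678) (nat_lit 228) (nat_lit 17120283775) (nat_lit 304) (nat_lit 8778539763) (nat_lit 106) (nat_lit 5) (nat_lit 109) (nat_lit 5) (nat_lit 110) (nat_lit 5) (nat_lit 454) (nat_lit 429) (nat_lit 317)) (XT.lf (nat_lit 0) (nat_lit 26814723616) (nat_lit 228) (nat_lit 4016503099) (nat_lit 304) (nat_lit 2873477079) (nat_lit 106) (nat_lit 5) (nat_lit 109) (nat_lit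 5) (nat_lit 110) (nat_lit 5) (nat_lit 455) (nat_lit 429) (nat_lit 316))) (XT.nd (nat_lit 78) (nat_lit 0) (nat_lit 0) (XT.lf (nat_lit 0) (nat_lit 3580979409) (nat_lit 304) (nat_lit 21423016280) (nat_lit 76) (nat_lit 9694791766) (nat_lit 102) (nat_lit 5) (nat_lit 106) (nat_lit 5) (nat_lit 103) (nat_lit 5) (nat_lit 456) (nat_lit 429) (nat_lit 315)) (XT.lf (nat_lit 0) (nat_lit 10440568785) (nat_lit 304) (nat_lit 1170277901) (nat_lit 76) (nat_lit 24120424970) (nat_lit 102) (nat_lit 5) (nat_lit 106) (nat_lit 5) (nat_lit 103) (nat_lit 5) (nat_lit 457) (nat_lit 429) (nat_lit 314))))))) (XT.nd (nat_lit 1170) (nat_lit 1520) (nat_lit 0) (XT.nd (nat_lit 546) (nat_lit 836) (nat_lit 0) (XT.nd (nat_lit 234) (nat_lit 608) (nat_lit 0) (XT.nd (nat_lit 78) (nat_lit 228) (nat_lit 0) (XT.lf (nat_lit 0) (nat_lit 18005489945) (nat_lit 304) (nat_lit 16091033387) (nat_lit 76) (nat_lit 2700739647) (nat_lit 99) (nat_lit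 5) (nat_lit 103) (nat_lit 5) (nat_lit 100) (nat_lit 5) (nat_lit 458) (nat_lit 429) (nat_lit 313)) (XT.nd (nat_lit 78) (nat_lit 0) (nat_lit 0) (XT.lf (nat_lit 0) (nat_lit 5788816002) (nat_lit 228) (nat_lit 20455604320) (nat_lit 304) (nat_lit 11657345889) (nat_lit 96) (nat_lit 5) (nat_lit 99) (nat_lit 5) (nat_lit 100) (nat_lit 5) (nat_lit 459) (nat_lit 429) (nat_lit 312)) (XT.lf (nat_lit 0) (nat_lit 29313997390) (nat_lit 228) (nat_lit 5848835830) (nat_lit 304) (nat_lit 3885285065) (nat_lit 96) (nat_lit 5) (nat_lit 99) (nat_lit 5) (nat_lit 100) (nat_lit 5) (nat_lit 460) (nat_lit 429) (nat_lit 311)))) (XT.nd (nat_lit 156) (nat_lit 380) (nat_lit 0) (XT.nd (nat_lit 78) (nat_lit 0) (nat_lit 0) (XT.lf (nat_lit 0) (nat_lit 4507344785) (nat_lit 228) (nat_lit 26248039326) (nat_lit 76) (nat_lit 9474626512) (nat_lit 93) (nat_lit 5) (nat_lit 96) (nat_lit 5) (nat_lit 94) (nat_lit 5) (nat_lit 461) (nat_lit 429)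 (nat_lit 310)) (XT.lf (nat_lit 0) (nat_lit 13447741404) (nat_lit 228) (nat_lit 2410419366) (nat_lit 76) (nat_lit 25596717244) (nat_lit 93) (nat_lit 5) (nat_lit 96) (nat_lit 5) (nat_lit 94) (nat_lit 5) (nat_lit 462) (nat_lit 429) (nat_lit 309))) (XT.nd (nat_lit 78) (nat_lit 152) (nat_lit 0) (XT.lf (nat_lit 0) (nat_lit 23197934269) (nat_lit 304) (nat_lit 19365661621) (nat_lit 76) (nat_lit 159254457) (nat_lit 90) (nat_lit 5) (nat_lit 94) (nat_lit 5) (nat_lit 91) (nat_lit 5) (nat_lit 463) (nat_lit 429) (nat_lit 308)) (XT.lf (nat_lit 0) (nat_lit 6381354559) (nat_lit 152) (nat_lit 27450940725) (nat_lit 228) (nat_lit 10202093463) (nat_lit 88) (nat_lit 5) (nat_lit 90) (nat_lit 5) (nat_lit 91) (nat_lit 5) (nat_lit 464) (nat_lit 429) (nat_lit 307))))) (XT.nd (nat_lit 312) (nat_lit 380) (nat_lit 0) (XT.nd (nat_lit 156) (nat_lit 152) (nat_lit 0) (XT.nd (nat_lit 78) (nat_lit 304) (nat_lit 0) (XT.lf (nat_lit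 0) (nat_lit 34081234472) (nat_lit 152) (nat_lit 11240778364) (nat_lit 228) (nat_lit 73309664) (nat_lit 88) (nat_lit 5) (nat_lit 90) (nat_lit 5) (nat_lit 91) (nat_lit 5) (nat_lit 465) (nat_lit 429) (nat_lit 306)) (XT.lf (nat_lit 0) (nat_lit 10577667854) (nat_lit 304) (nat_lit 30195474939) (nat_lit 76) (nat_lit 6025225331) (nat_lit 84) (nat_lit 5) (nat_lit 88) (nat_lit 5) (nat_lit 85) (nat_lit 5) (nat_lit 466) (nat_lit 429) (nat_lit 305))) (XT.nd (nat_lit 78) (nat_lit 152) (nat_lit 0) (XT.lf (nat_lit 0) (nat_lit 22133625794) (nat_lit 304) (nat_lit 2148773714) (nat_lit 76) (nat_lit 23970361978) (nat_lit 84) (nat_lit 5) (nat_lit 88) (nat_lit 5) (nat_lit 85) (nat_lit 5) (nat_lit 467) (nat_lit 429) (nat_lit 304)) (XT.lf (nat_lit 0) (nat_lit 28196347280) (nat_lit 152) (nat_lit 6507324524) (nat_lit 228) (nat_lit 15054388499) (nat_lit 82) (nat_lit 5) (nat_lit 84) (nat_lit 5) (nat_lit 85) (nat_lit 5) (nat_lit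 468) (nat_lit 429) (nat_lit 303)))) (XT.nd (nat_lit 156) (nat_lit 152) (nat_lit 0) (XT.nd (nat_lit 78) (nat_lit 76) (nat_lit 0) (XT.lf (nat_lit 0) (nat_lit 8884045347) (nat_lit 152) (nat_lit 39379781483) (nat_lit 228) (nat_lit 3056717173) (nat_lit 80) (nat_lit 5) (nat_lit 82) (nat_lit 5) (nat_lit 83) (nat_lit 5) (nat_lit 469) (nat_lit 429) (nat_lit 302)) (XT.lf (nat_lit 0) (nat_lit 9709434369) (nat_lit 228) (nat_lit 11610301697) (nat_lit 76) (nat_lit 31610269963) (nat_lit 79) (nat_lit 5) (nat_lit 82) (nat_lit 5) (nat_lit 80) (nat_lit 5) (nat_lit 470) (nat_lit 429) (nat_lit 301))) (XT.nd (nat_lit 78) (nat_lit 0) (nat_lit 0) (XT.lf (nat_lit 0) (nat_lit 21385418636) (nat_lit 152) (nat_lit 1955960524) (nat_lit 228) (nat_lit 31259546161) (nat_lit 77) (nat_lit 5) (nat_lit 79) (nat_lit 5) (nat_lit 80) (nat_lit 5) (nat_lit 471) (nat_lit 429) (nat_lit 300)) (XT.lf (nat_lit 0) (nat_lit 38138039038) (nat_lit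 228) (nat_lit 207861040) (nat_lit 76) (nat_lit 17985334838) (nat_lit 77) (nat_lit 5) (nat_lit 80) (nat_lit 5) (nat_lit 78) (nat_lit 5) (nat_lit 472) (nat_lit 429) (nat_lit 299)))))) (XT.nd (nat_lit 624) (nat_lit 684) (nat_lit 0) (XT.nd (nat_lit 312) (nat_lit 304) (nat_lit 0) (XT.nd (nat_lit 156) (nat_lit 152) (nat_lit 0) (XT.nd (nat_lit 78) (nat_lit 228) (nat_lit 0) (XT.lf (nat_lit 0) (nat_lit 35550033706) (nat_lit 152) (nat_lit 18708139236) (nat_lit 228) (nat_lit 3860705216) (nat_lit 75) (nat_lit 5) (nat_lit 77) (nat_lit 5) (nat_lit 78) (nat_lit 5) (nat_lit 473) (nat_lit 429) (nat_lit 298)) (XT.lf (nat_lit 0) (nat_lit 11075088175) (nat_lit 228) (nat_lit 46658808306) (nat_lit 76) (nat_lit 2241034299) (nat_lit 72) (nat_lit 5) (nat_lit 75) (nat_lit 5) (nat_lit 73) (nat_lit 5) (nat_lit 474) (nat_lit 429) (nat_lit 297))) (XT.nd (nat_lit 78) (nat_lit 152) (nat_lit 0) (XT.lf (nat_lit 0) (nat_lit 27319691001)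 (nat_lit 228) (nat_lit 10507990469) (nat_lit 76) (nat_lit 24058352001) (nat_lit 72) (nat_lit 5) (nat_lit 75) (nat_lit 5) (nat_lit 73) (nat_lit 5) (nat_lit 475) (nat_lit 429) (nat_lit 296)) (XT.lf (nat_lit 0) (nat_lit 28352151943) (nat_lit 152) (nat_lit 16463784630) (nat_lit 228) (nat_lit 19054784272) (nat_lit 70) (nat_lit 5) (nat_lit 72) (nat_lit 5) (nat_lit 73) (nat_lit 5) (nat_lit 476) (nat_lit 429) (nat_lit 295)))) (XT.nd (nat_lit 156) (nat_lit 152) (nat_lit 0) (XT.nd (nat_lit 78) (nat_lit 76) (nat_lit 0) (XT.lf (nat_lit 0) (nat_lit 3587397748) (nat_lit 76) (nat_lit 59926449422) (nat_lit 152) (nat_lit 2424452953) (nat_lit 69) (nat_lit 5) (nat_lit 70) (nat_lit 5) (nat_lit 71) (nat_lit 4) (nat_lit 477) (nat_lit 429) (nat_lit 294)) (XT.lf (nat_lit 0) (nat_lit 15434187690) (nat_lit 152) (nat_lit 22717636625) (nat_lit 76) (nat_lit 29901791247) (nat_lit 68) (nat_lit 5) (nat_lit 70) (nat_lit 5) (nat_lit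 69) (nat_lit 5) (nat_lit 478) (nat_lit 429) (nat_lit 293))) (XT.nd (nat_lit 78) (nat_lit 0) (nat_lit 0) (XT.lf (nat_lit 0) (nat_lit 19475448330) (nat_lit 152) (nat_lit 14929853225) (nat_lit 228) (nat_lit 35852357174) (nat_lit 66) (nat_lit 5) (nat_lit 68) (nat_lit 5) (nat_lit 69) (nat_lit 5) (nat_lit 479) (nat_lit 429) (nat_lit 292)) (XT.lf (nat_lit 0) (nat_lit 54860580752) (nat_lit 228) (nat_lit 8145132924) (nat_lit 76) (nat_lit 9539410038) (nat_lit 66) (nat_lit 5) (nat_lit 69) (nat_lit 5) (nat_lit 67) (nat_lit 4) (nat_lit 480) (nat_lit 429) (nat_lit 291))))) (XT.nd (nat_lit 312) (nat_lit 304) (nat_lit 0) (XT.nd (nat_lit 156) (nat_lit 76) (nat_lit 0) (XT.nd (nat_lit 78) (nat_lit 152) (nat_lit 0) (XT.lf (nat_lit 0) (nat_lit 2189250442) (nat_lit 152) (nat_lit 37364314655) (nat_lit 76) (nat_lit 35350204074) (nat_lit 64) (nat_lit 5) (nat_lit 66) (nat_lit 5) (nat_lit 65) (nat_lit 5) (nat_lit 481)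 (nat_lit 429) (nat_lit 290)) (XT.lf (nat_lit 0) (nat_lit 8388710450) (nat_lit 152) (nat_lit 14342012777) (nat_lit 228) (nat_lit 54621712953) (nat_lit 62) (nat_lit 5) (nat_lit 64) (nat_lit 5) (nat_lit 65) (nat_lit 5) (nat_lit 482) (nat_lit 429) (nat_lit 289))) (XT.nd (nat_lit 78) (nat_lit 76) (nat_lit 0) (XT.lf (nat_lit 0) (nat_lit 45128963323) (nat_lit 228) (nat_lit 22370295997) (nat_lit 76) (nat_lit 12382792652) (nat_lit 62) (nat_lit 5) (nat_lit 65) (nat_lit 5) (nat_lit 63) (nat_lit 4) (nat_lit 483) (nat_lit 429) (nat_lit 288)) (XT.lf (nat_lit 0) (nat_lit 27182724902) (nat_lit 76) (nat_lit 42121191916) (nat_lit 152) (nat_lit 13201391778) (nat_lit 61) (nat_lit 5) (nat_lit 62) (nat_lit 5) (nat_lit 63) (nat_lit 4) (nat_lit 484) (nat_lit 429) (nat_lit 287)))) (XT.nd (nat_lit 156) (nat_lit 76) (nat_lit 0) (XT.nd (nat_lit 78) (nat_lit 152) (nat_lit 0) (XT.lf (nat_lit 0) (nat_lit 9508497882) (nat_lit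 152) (nat_lit 5409140350) (nat_lit 76) (nat_lit 70315612163) (nat_lit 60) (nat_lit 5) (nat_lit 62) (nat_lit 5) (nat_lit 61) (nat_lit 5) (nat_lit 485) (nat_lit 429) (nat_lit 286)) (XT.lf (nat_lit 0) (nat_lit 33891087445) (nat_lit 228) (nat_lit 39952585075) (nat_lit 76) (nat_lit 14194053111) (nat_lit 58) (nat_lit 5) (nat_lit 61) (nat_lit 5) (nat_lit 59) (nat_lit 4) (nat_lit 486) (nat_lit 429) (nat_lit 285))) (XT.nd (nat_lit 78) (nat_lit 0) (nat_lit 0) (XT.lf (nat_lit 0) (nat_lit 13650151436) (nat_lit 76) (nat_lit 46390873288) (nat_lit 152) (nat_lit 30913989083) (nat_lit 57) (nat_lit 5) (nat_lit 58) (nat_lit 5) (nat_lit 59) (nat_lit 4) (nat_lit 487) (nat_lit 429) (nat_lit 284)) (XT.lf (nat_lit 0) (nat_lit 71315395440) (nat_lit 76) (nat_lit 16857169872) (nat_lit 152) (nat_lit 5811895844) (nat_lit 57) (nat_lit 5) (nat_lit 58) (nat_lit 5) (nat_lit 59) (nat_lit 4) (nat_lit 488) (nat_lit 429) (nat_lit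 283))))))))
noncomputable def xc158 : XT := (XT.nd (nat_lit 2418) (nat_lit 1216) (nat_lit 0) (XT.nd (nat_lit 1170) (nat_lit 988) (nat_lit 0) (XT.nd (nat_lit 546) (nat_lit 608) (nat_lit 0) (XT.nd (nat_lit 234) (nat_lit 228) (nat_lit 0) (XT.nd (nat_lit 78) (nat_lit 76) (nat_lit 0) (XT.lf (nat_lit 0) (nat_lit 20674986347) (nat_lit 228) (nat_lit 61847294607) (nat_lit 76) (nat_lit 14587698396) (nat_lit 54) (nat_lit 5) (nat_lit 57) (nat_lit 5) (nat_lit 55) (nat_lit 4) (nat_lit 489) (nat_lit 429) (nat_lit 282)) (XT.nd (nat_lit 78) (nat_lit 76) (nat_lit 0) (XT.lf (nat_lit 0) (nat_lit 48955030590) (nat_lit 228) (nat_lit 3877017063) (nat_lit 76) (nat_lit 47521755241) (nat_lit 54) (nat_lit 5) (nat_lit 57) (nat_lit 5) (nat_lit 55) (nat_lit 4) (nat_lit 490) (nat_lit 429) (nat_lit 281)) (XT.lf (nat_lit 0) (nat_lit 58871690367) (nat_lit 76) (nat_lit 20694237298) (nat_lit 152) (nat_lit 24148047489) (nat_lit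 53) (nat_lit 5) (nat_lit 54) (nat_lit 5) (nat_lit 55) (nat_lit 4) (nat_lit 491) (nat_lit 429) (nat_lit 280)))) (XT.nd (nat_lit 156) (nat_lit 76) (nat_lit 0) (XT.nd (nat_lit 78) (nat_lit 0) (nat_lit 0) (XT.lf (nat_lit 0) (nat_lit 4880868578) (nat_lit 152) (nat_lit 89272238452) (nat_lit 76) (nat_lit 13057634851) (nat_lit 51) (nat_lit 5) (nat_lit 53) (nat_lit 5) (nat_lit 52) (nat_lit 4) (nat_lit 492) (nat_lit 429) (nat_lit 279)) (XT.lf (nat_lit 0) (nat_lit 35658537993) (nat_lit 152) (nat_lit 26181153242) (nat_lit 76) (nat_lit 48967420275) (nat_lit 51) (nat_lit 5) (nat_lit 53) (nat_lit 5) (nat_lit 52) (nat_lit 4) (nat_lit 493) (nat_lit 429) (nat_lit 278))) (XT.nd (nat_lit 78) (nat_lit 0) (nat_lit 0) (XT.lf (nat_lit 0) (nat_lit 41384906952) (nat_lit 76) (nat_lit 27234142211) (nat_lit 152) (nat_lit 45932052601) (nat_lit 50) (nat_lit 5) (nat_lit 51) (nat_lit 5) (nat_lit 52) (nat_lit 4) (nat_lit 494)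 (nat_lit 429) (nat_lit 277)) (XT.lf (nat_lit 0) (nat_lit 103818181127) (nat_lit 152) (nat_lit 5375436969) (nat_lit 0) (nat_lit 9259143729) (nat_lit 50) (nat_lit 5) (nat_lit 52) (nat_lit 4) (nat_lit 50) (nat_lit 4) (nat_lit 495) (nat_lit 429) (nat_lit 276))))) (XT.nd (nat_lit 312) (nat_lit 304) (nat_lit 0) (XT.nd (nat_lit 156) (nat_lit 76) (nat_lit 0) (XT.nd (nat_lit 78) (nat_lit 76) (nat_lit 0) (XT.lf (nat_lit 0) (nat_lit 19167429539) (nat_lit 152) (nat_lit 55268387733) (nat_lit 76) (nat_lit 48023304991) (nat_lit 48) (nat_lit 5) (nat_lit 50) (nat_lit 5) (nat_lit 49) (nat_lit 4) (nat_lit 496) (nat_lit 429) (nat_lit 275)) (XT.lf (nat_lit 0) (nat_lit 17216242393) (nat_lit 76) (nat_lit 37310742326) (nat_lit 152) (nat_lit 72108857380) (nat_lit 47) (nat_lit 5) (nat_lit 48) (nat_lit 5) (nat_lit 49) (nat_lit 4) (nat_lit 497) (nat_lit 429) (nat_lit 274))) (XT.nd (nat_lit 78) (nat_lit 76) (nat_lit 0) (XT.lf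 (nat_lit 0) (nat_lit 92629889475) (nat_lit 152) (nat_lit 35776104934) (nat_lit 0) (nat_lit 2566634972) (nat_lit 47) (nat_lit 5) (nat_lit 49) (nat_lit 4) (nat_lit 47) (nat_lit 4) (nat_lit 498) (nat_lit 429) (nat_lit 273)) (XT.lf (nat_lit 0) (nat_lit 42287591750) (nat_lit 76) (nat_lit 91620272934) (nat_lit 76) (nat_lit 1554895126) (nat_lit 46) (nat_lit 4) (nat_lit 47) (nat_lit 5) (nat_lit 47) (nat_lit 4) (nat_lit 499) (nat_lit 429) (nat_lit 272)))) (XT.nd (nat_lit 156) (nat_lit 152) (nat_lit 0) (XT.nd (nat_lit 78) (nat_lit 76) (nat_lit 0) (XT.lf (nat_lit 0) (nat_lit 36499662874) (nat_lit 152) (nat_lit 15243091112) (nat_lit 76) (nat_lit 88375009285) (nat_lit 45) (nat_lit 5) (nat_lit 47) (nat_lit 5) (nat_lit 46) (nat_lit 4) (nat_lit 500) (nat_lit 429) (nat_lit 271)) (XT.lf (nat_lit 0) (nat_lit 68757146466) (nat_lit 76) (nat_lit 8719181520) (nat_lit 152) (nat_lit 67474332758) (nat_lit 44) (nat_lit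 5) (nat_lit 45) (nat_lit 5) (nat_lit 46) (nat_lit 4) (nat_lit 501) (nat_lit 429) (nat_lit 270))) (XT.nd (nat_lit 78) (nat_lit 76) (nat_lit 0) (XT.lf (nat_lit 0) (nat_lit 7125338492) (nat_lit 76) (nat_lit 114317437202) (nat_lit 76) (nat_lit 28535379965) (nat_lit 43) (nat_lit 4) (nat_lit 44) (nat_lit 5) (nat_lit 44) (nat_lit 4) (nat_lit 502) (nat_lit 429) (nat_lit 269)) (XT.lf (nat_lit 0) (nat_lit 13407842702) (nat_lit 152) (nat_lit 58297643363) (nat_lit 76) (nat_lit 83469267176) (nat_lit 42) (nat_lit 5) (nat_lit 44) (nat_lit 5) (nat_lit 43) (nat_lit 4) (nat_lit 503) (nat_lit 429) (nat_lit 268)))))) (XT.nd (nat_lit 624) (nat_lit 456) (nat_lit 0) (XT.nd (nat_lit 312) (nat_lit 304) (nat_lit 0) (XT.nd (nat_lit 156) (nat_lit 152) (nat_lit 0) (XT.nd (nat_lit 78) (nat_lit 0) (nat_lit 0) (XT.lf (nat_lit 0) (nat_lit 31006448289) (nat_lit 76) (nat_lit 25965138850) (nat_lit 152) (nat_lit 103612087112) (nat_lit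 41) (nat_lit 5) (nat_lit 42) (nat_lit 5) (nat_lit 43) (nat_lit 4) (nat_lit 504) (nat_lit 429) (nat_lit 267)) (XT.lf (nat_lit 0) (nat_lit 104059699913) (nat_lit 152) (nat_lit 39778060401) (nat_lit 0) (nat_lit 22357971970) (nat_lit 41) (nat_lit 5) (nat_lit 43) (nat_lit 4) (nat_lit 41) (nat_lit 4) (nat_lit 505) (nat_lit 429) (nat_lit 266))) (XT.nd (nat_lit 78) (nat_lit 76) (nat_lit 0) (XT.lf (nat_lit 0) (nat_lit 55870316178) (nat_lit 76) (nat_lit 98928179914) (nat_lit 76) (nat_lit 17225083268) (nat_lit 40) (nat_lit 4) (nat_lit 41) (nat_lit 5) (nat_lit 41) (nat_lit 4) (nat_lit 506) (nat_lit 429) (nat_lit 265)) (XT.lf (nat_lit 0) (nat_lit 29656455161) (nat_lit 152) (nat_lit 20908667090) (nat_lit 76) (nat_lit 127520179201) (nat_lit 39) (nat_lit 5) (nat_lit 41) (nat_lit 5) (nat_lit 40) (nat_lit 4) (nat_lit 507) (nat_lit 429) (nat_lit 264)))) (XT.nd (nat_lit 156) (nat_lit 228) (nat_lit 0) (XT.nd (nat_lit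 78) (nat_lit 0) (nat_lit 0) (XT.lf (nat_lit 0) (nat_lit 79601593412) (nat_lit 152) (nat_lit 102982780781) (nat_lit 0) (nat_lit 1786696626) (nat_lit 38) (nat_lit 5) (nat_lit 40) (nat_lit 4) (nat_lit 38) (nat_lit 4) (nat_lit 508) (nat_lit 429) (nat_lit 263)) (XT.lf (nat_lit 0) (nat_lit 133231241412) (nat_lit 152) (nat_lit 2265306032) (nat_lit 0) (nat_lit 55415218592) (nat_lit 38) (nat_lit 5) (nat_lit 40) (nat_lit 4) (nat_lit 38) (nat_lit 4) (nat_lit 509) (nat_lit 429) (nat_lit 262))) (XT.nd (nat_lit 78) (nat_lit 152) (nat_lit 0) (XT.lf (nat_lit 0) (nat_lit 106906737403) (nat_lit 76) (nat_lit 84303236873) (nat_lit 76) (nat_lit 6486141638) (nat_lit 37) (nat_lit 4) (nat_lit 38) (nat_lit 5) (nat_lit 38) (nat_lit 4) (nat_lit 510) (nat_lit 429) (nat_lit 261)) (XT.lf (nat_lit 0) (nat_lit 16587565650) (nat_lit 76) (nat_lit 29463986657) (nat_lit 152) (nat_lit 158716408645) (nat_lit 35) (nat_lit 5) (nat_lit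 36) (nat_lit 5) (nat_lit 37) (nat_lit 4) (nat_lit 511) (nat_lit 429) (nat_lit 260))))) (XT.nd (nat_lit 312) (nat_lit 228) (nat_lit 0) (XT.nd (nat_lit 156) (nat_lit 152) (nat_lit 0) (XT.nd (nat_lit 78) (nat_lit 76) (nat_lit 0) (XT.lf (nat_lit 0) (nat_lit 102998404321) (nat_lit 152) (nat_lit 80204678968) (nat_lit 0) (nat_lit 28884985948) (nat_lit 35) (nat_lit 5) (nat_lit 37) (nat_lit 4) (nat_lit 35) (nat_lit 4) (nat_lit 512) (nat_lit 429) (nat_lit 259)) (XT.lf (nat_lit 0) (nat_lit 33764635503) (nat_lit 76) (nat_lit 130036705500) (nat_lit 76) (nat_lit 55922404849) (nat_lit 34) (nat_lit 4) (nat_lit 35) (nat_lit 5) (nat_lit 35) (nat_lit 4) (nat_lit 513) (nat_lit 429) (nat_lit 258))) (XT.nd (nat_lit 78) (nat_lit 76) (nat_lit 0) (XT.lf (nat_lit 0) (nat_lit 1285454887) (nat_lit 152) (nat_lit 71479958395) (nat_lit 76) (nat_lit 154906911632) (nat_lit 33) (nat_lit 5) (nat_lit 35) (nat_lit 5) (nat_lit 34)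 (nat_lit 4) (nat_lit 514) (nat_lit 429) (nat_lit 257)) (XT.lf (nat_lit 0) (nat_lit 49384279458) (nat_lit 76) (nat_lit 10859730602) (nat_lit 152) (nat_lit 175690001750) (nat_lit 32) (nat_lit 5) (nat_lit 33) (nat_lit 5) (nat_lit 34) (nat_lit 4) (nat_lit 515) (nat_lit 429) (nat_lit 256)))) (XT.nd (nat_lit 156) (nat_lit 152) (nat_lit 0) (XT.nd (nat_lit 78) (nat_lit 76) (nat_lit 0) (XT.lf (nat_lit 0) (nat_lit 124224819603) (nat_lit 152) (nat_lit 66642764017) (nat_lit 0) (nat_lit 53637483115) (nat_lit 32) (nat_lit 5) (nat_lit 34) (nat_lit 4) (nat_lit 32) (nat_lit 4) (nat_lit 516) (nat_lit 429) (nat_lit 255)) (XT.lf (nat_lit 0) (nat_lit 61032351398) (nat_lit 76) (nat_lit 131501934980) (nat_lit 76) (nat_lit 60913907205) (nat_lit 31) (nat_lit 4) (nat_lit 32) (nat_lit 5) (nat_lit 32) (nat_lit 4) (nat_lit 517) (nat_lit 429) (nat_lit 254))) (XT.nd (nat_lit 78) (nat_lit 76) (nat_lit 0) (XT.lf (nat_lit 0)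 (nat_lit 2521109830) (nat_lit 152) (nat_lit 65420410991) (nat_lit 76) (nat_lit 194838555222) (nat_lit 30) (nat_lit 5) (nat_lit 32) (nat_lit 5) (nat_lit 31) (nat_lit 4) (nat_lit 518) (nat_lit 429) (nat_lit 253)) (XT.lf (nat_lit 0) (nat_lit 68174214121) (nat_lit 152) (nat_lit 203353440106) (nat_lit 0) (nat_lit 946296824) (nat_lit 29) (nat_lit 5) (nat_lit 31) (nat_lit 4) (nat_lit 29) (nat_lit 4) (nat_lit 519) (nat_lit 429) (nat_lit 252))))))) (XT.nd (nat_lit 1170) (nat_lit 456) (nat_lit 0) (XT.nd (nat_lit 546) (nat_lit 456) (nat_lit 0) (XT.nd (nat_lit 234) (nat_lit 228) (nat_lit 0) (XT.nd (nat_lit 78) (nat_lit 76) (nat_lit 0) (XT.lf (nat_lit 0) (nat_lit 139348625223) (nat_lit 152) (nat_lit 71071822815) (nat_lit 0) (nat_lit 72120139202) (nat_lit 29) (nat_lit 5) (nat_lit 31) (nat_lit 4) (nat_lit 29) (nat_lit 4) (nat_lit 520) (nat_lit 429) (nat_lit 251)) (XT.nd (nat_lit 78) (nat_lit 0) (nat_lit 0)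 (XT.lf (nat_lit 0) (nat_lit 70064009686) (nat_lit 76) (nat_lit 145110468579) (nat_lit 76) (nat_lit 77881440916) (nat_lit 28) (nat_lit 4) (nat_lit 29) (nat_lit 5) (nat_lit 29) (nat_lit 4) (nat_lit 521) (nat_lit 429) (nat_lit 250)) (XT.lf (nat_lit 0) (nat_lit 220721773422) (nat_lit 76) (nat_lit 75272331877) (nat_lit 76) (nat_lit 8042788364) (nat_lit 28) (nat_lit 4) (nat_lit 29) (nat_lit 5) (nat_lit 29) (nat_lit 4) (nat_lit 522) (nat_lit 429) (nat_lit 249)))) (XT.nd (nat_lit 156) (nat_lit 76) (nat_lit 0) (XT.nd (nat_lit 78) (nat_lit 0) (nat_lit 0) (XT.lf (nat_lit 0) (nat_lit 64205134288) (nat_lit 152) (nat_lit 251083938863) (nat_lit 0) (nat_lit 176529718) (nat_lit 26) (nat_lit 5) (nat_lit 28) (nat_lit 4) (nat_lit 26) (nat_lit 4) (nat_lit 523) (nat_lit 429) (nat_lit 248)) (XT.lf (nat_lit 0) (nat_lit 142462132127) (nat_lit 152) (nat_lit 106430592548) (nat_lit 0) (nat_lit 78433081947) (nat_lit 26)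 (nat_lit 5) (nat_lit 28) (nat_lit 4) (nat_lit 26) (nat_lit 4) (nat_lit 524) (nat_lit 429) (nat_lit 247))) (XT.nd (nat_lit 78) (nat_lit 0) (nat_lit 0) (XT.lf (nat_lit 0) (nat_lit 46956176821) (nat_lit 76) (nat_lit 178407857791) (nat_lit 76) (nat_lit 114378383221) (nat_lit 25) (nat_lit 4) (nat_lit 26) (nat_lit 5) (nat_lit 26) (nat_lit 4) (nat_lit 525) (nat_lit 429) (nat_lit 246)) (XT.lf (nat_lit 0) (nat_lit 211705213777) (nat_lit 76) (nat_lit 102507227078) (nat_lit 76) (nat_lit 38477348326) (nat_lit 25) (nat_lit 4) (nat_lit 26) (nat_lit 5) (nat_lit 26) (nat_lit 4) (nat_lit 526) (nat_lit 429) (nat_lit 245))))) (XT.nd (nat_lit 312) (nat_lit 228) (nat_lit 0) (XT.nd (nat_lit 156) (nat_lit 76) (nat_lit 0) (XT.nd (nat_lit 78) (nat_lit 0) (nat_lit 0) (XT.lf (nat_lit 0) (nat_lit 18348878004) (nat_lit 76) (nat_lit 21836069161) (nat_lit 152) (nat_lit 326053131644) (nat_lit 23) (nat_lit 5) (nat_lit 24) (nat_lit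 5) (nat_lit 25) (nat_lit 4) (nat_lit 527) (nat_lit 429) (nat_lit 244)) (XT.lf (nat_lit 0) (nat_lit 124894595347) (nat_lit 152) (nat_lit 191454239622) (nat_lit 0) (nat_lit 63913042689) (nat_lit 23) (nat_lit 5) (nat_lit 25) (nat_lit 4) (nat_lit 23) (nat_lit 4) (nat_lit 528) (nat_lit 429) (nat_lit 243))) (XT.nd (nat_lit 78) (nat_lit 76) (nat_lit 0) (XT.lf (nat_lit 0) (nat_lit 214196732085) (nat_lit 152) (nat_lit 27557437160) (nat_lit 0) (nat_lit 153214846905) (nat_lit 23) (nat_lit 5) (nat_lit 25) (nat_lit 4) (nat_lit 23) (nat_lit 4) (nat_lit 529) (nat_lit 429) (nat_lit 242)) (XT.lf (nat_lit 0) (nat_lit 149311251821) (nat_lit 76) (nat_lit 160982974541) (nat_lit 76) (nat_lit 100000772675) (nat_lit 22) (nat_lit 4) (nat_lit 23) (nat_lit 5) (nat_lit 23) (nat_lit 4) (nat_lit 530) (nat_lit 429) (nat_lit 241)))) (XT.nd (nat_lit 156) (nat_lit 76) (nat_lit 0) (XT.nd (nat_lit 78) (nat_lit 152) (nat_lit 0)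 (XT.lf (nat_lit 0) (nat_lit 335978290893) (nat_lit 76) (nat_lit 75684101892) (nat_lit 76) (nat_lit 14701598419) (nat_lit 22) (nat_lit 4) (nat_lit 23) (nat_lit 5) (nat_lit 23) (nat_lit 4) (nat_lit 531) (nat_lit 429) (nat_lit 240)) (XT.lf (nat_lit 0) (nat_lit 74137043185) (nat_lit 152) (nat_lit 352899225355) (nat_lit 0) (nat_lit 16058194883) (nat_lit 20) (nat_lit 5) (nat_lit 22) (nat_lit 4) (nat_lit 20) (nat_lit 4) (nat_lit 532) (nat_lit 429) (nat_lit 239))) (XT.nd (nat_lit 78) (nat_lit 76) (nat_lit 0) (XT.lf (nat_lit 0) (nat_lit 169719217803) (nat_lit 152) (nat_lit 179150298450) (nat_lit 0) (nat_lit 111640108962) (nat_lit 20) (nat_lit 5) (nat_lit 22) (nat_lit 4) (nat_lit 20) (nat_lit 4) (nat_lit 533) (nat_lit 429) (nat_lit 238)) (XT.lf (nat_lit 0) (nat_lit 3392996044) (nat_lit 76) (nat_lit 266739649408) (nat_lit 76) (nat_lit 208660292435) (nat_lit 19) (nat_lit 4) (nat_lit 20) (nat_lit 5) (nat_lit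 20) (nat_lit 4) (nat_lit 534) (nat_lit 429) (nat_lit 237)))))) (XT.nd (nat_lit 624) (nat_lit 152) (nat_lit 0) (XT.nd (nat_lit 312) (nat_lit 152) (nat_lit 0) (XT.nd (nat_lit 156) (nat_lit 152) (nat_lit 0) (XT.nd (nat_lit 78) (nat_lit 0) (nat_lit 0) (XT.lf (nat_lit 0) (nat_lit 201281500307) (nat_lit 76) (nat_lit 177318425069) (nat_lit 76) (nat_lit 119238831779) (nat_lit 19) (nat_lit 4) (nat_lit 20) (nat_lit 5) (nat_lit 20) (nat_lit 4) (nat_lit 535) (nat_lit 429) (nat_lit 236)) (XT.lf (nat_lit 0) (nat_lit 409062859508) (nat_lit 76) (nat_lit 83426932548) (nat_lit 76) (nat_lit 25347114194) (nat_lit 19) (nat_lit 4) (nat_lit 20) (nat_lit 5) (nat_lit 20) (nat_lit 4) (nat_lit 536) (nat_lit 429) (nat_lit 235))) (XT.nd (nat_lit 78) (nat_lit 0) (nat_lit 0) (XT.lf (nat_lit 0) (nat_lit 72580117967) (nat_lit 152) (nat_lit 448847618270) (nat_lit 0) (nat_lit 17265801111) (nat_lit 17) (nat_lit 5) (nat_lit 19)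 (nat_lit 4) (nat_lit 17) (nat_lit 4) (nat_lit 537) (nat_lit 429) (nat_lit 234)) (XT.lf (nat_lit 0) (nat_lit 177791125575) (nat_lit 152) (nat_lit 260142521652) (nat_lit 0) (nat_lit 122476614300) (nat_lit 17) (nat_lit 5) (nat_lit 19) (nat_lit 4) (nat_lit 17) (nat_lit 4) (nat_lit 538) (nat_lit 429) (nat_lit 233)))) (XT.nd (nat_lit 156) (nat_lit 76) (nat_lit 0) (XT.nd (nat_lit 78) (nat_lit 76) (nat_lit 0) (XT.lf (nat_lit 0) (nat_lit 288261967662) (nat_lit 152) (nat_lit 62003618826) (nat_lit 0) (nat_lit 232947271227) (nat_lit 17) (nat_lit 5) (nat_lit 19) (nat_lit 4) (nat_lit 17) (nat_lit 4) (nat_lit 539) (nat_lit 429) (nat_lit 232)) (XT.lf (nat_lit 0) (nat_lit 150869619523) (nat_lit 76) (nat_lit 255741548091) (nat_lit 76) (nat_lit 200426675313) (nat_lit 16) (nat_lit 4) (nat_lit 17) (nat_lit 5) (nat_lit 17) (nat_lit 4) (nat_lit 540) (nat_lit 429) (nat_lit 231))) (XT.nd (nat_lit 78) (nat_lit 76) (nat_lit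 0) (XT.lf (nat_lit 0) (nat_lit 376537788041) (nat_lit 76) (nat_lit 155389430275) (nat_lit 76) (nat_lit 100074389551) (nat_lit 16) (nat_lit 4) (nat_lit 17) (nat_lit 5) (nat_lit 17) (nat_lit 4) (nat_lit 541) (nat_lit 429) (nat_lit 230)) (XT.lf (nat_lit 0) (nat_lit 5125372013) (nat_lit 152) (nat_lit 44808188044) (nat_lit 76) (nat_lit 608275899564) (nat_lit 15) (nat_lit 5) (nat_lit 17) (nat_lit 5) (nat_lit 16) (nat_lit 4) (nat_lit 542) (nat_lit 429) (nat_lit 229))))) (XT.nd (nat_lit 312) (nat_lit 0) (nat_lit 0) (XT.nd (nat_lit 156) (nat_lit 76) (nat_lit 0) (XT.nd (nat_lit 78) (nat_lit 0) (nat_lit 0) (XT.lf (nat_lit 0) (nat_lit 116061978414) (nat_lit 152) (nat_lit 506011006903) (nat_lit 0) (nat_lit 63380689838) (nat_lit 14) (nat_lit 5) (nat_lit 16) (nat_lit 4) (nat_lit 14) (nat_lit 4) (nat_lit 543) (nat_lit 429) (nat_lit 228)) (XT.lf (nat_lit 0) (nat_lit 234134668875) (nat_lit 152) (nat_lit 298392727776)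 (nat_lit 0) (nat_lit 181453242130) (nat_lit 14) (nat_lit 5) (nat_lit 16) (nat_lit 4) (nat_lit 14) (nat_lit 4) (nat_lit 544) (nat_lit 429) (nat_lit 227))) (XT.nd (nat_lit 78) (nat_lit 76) (nat_lit 0) (XT.lf (nat_lit 0) (nat_lit 358110405580) (nat_lit 152) (nat_lit 80394727181) (nat_lit 0) (nat_lit 305428847245) (nat_lit 14) (nat_lit 5) (nat_lit 16) (nat_lit 4) (nat_lit 14) (nat_lit 4) (nat_lit 545) (nat_lit 429) (nat_lit 226)) (XT.lf (nat_lit 0) (nat_lit 153412185763) (nat_lit 76) (nat_lit 337267377248) (nat_lit 76) (nat_lit 284585693589) (nat_lit 13) (nat_lit 4) (nat_lit 14) (nat_lit 5) (nat_lit 14) (nat_lit 4) (nat_lit 546) (nat_lit 429) (nat_lit 225)))) (XT.nd (nat_lit 53352) (nat_lit 0) (nat_lit 10184) (XT.nd (nat_lit 78) (nat_lit 0) (nat_lit 0) (XT.lf (nat_lit 0) (nat_lit 401699450360) (nat_lit 76) (nat_lit 229538700526) (nat_lit 76) (nat_lit 176856897511) (nat_lit 13) (nat_lit 4) (nat_lit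 14) (nat_lit 5) (nat_lit 14) (nat_lit 4) (nat_lit 547) (nat_lit 429) (nat_lit 224)) (XT.lf (nat_lit 0) (nat_lit 662400014011) (nat_lit 76) (nat_lit 116424129351) (nat_lit 76) (nat_lit 63742212664) (nat_lit 13) (nat_lit 4) (nat_lit 14) (nat_lit 5) (nat_lit 14) (nat_lit 4) (nat_lit 548) (nat_lit 429) (nat_lit 223))) (XT.nd (nat_lit 78) (nat_lit 0) (nat_lit 0) (XT.lf (nat_lit 0) (nat_lit 2211666057) (nat_lit 836) (nat_lit 3317119098) (nat_lit 836) (nat_lit 3317119098) (nat_lit 147) (nat_lit 3) (nat_lit 158) (nat_lit 3) (nat_lit 158) (nat_lit 5) (nat_lit 430) (nat_lit 430) (nat_lit 340)) (XT.lf (nat_lit 76) (nat_lit 2211151664) (nat_lit 0) (nat_lit 2566046779) (nat_lit 836) (nat_lit 13344708837) (nat_lit 148) (nat_lit 5) (nat_lit 147) (nat_lit 3) (nat_lit 158) (nat_lit 5) (nat_lit 431) (nat_lit 430) (nat_lit 339))))))))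
noncomputable def xc159 : XT := (XT.nd (nat_lit 2418) (nat_lit 3192) (nat_lit 0) (XT.nd (nat_lit 1170) (nat_lit 2508) (nat_lit 0) (XT.nd (nat_lit 546) (nat_lit 1672) (nat_lit 0) (XT.nd (nat_lit 234) (nat_lit 0) (nat_lit 76) (XT.nd (nat_lit 78) (nat_lit 0) (nat_lit 0) (XT.lf (nat_lit 0) (nat_lit 5348716878) (nat_lit 760) (nat_lit 6947762384) (nat_lit 836) (nat_lit 6267035857) (nat_lit 148) (nat_lit 5) (nat_lit 158) (nat_lit 5) (nat_lit 159) (nat_lit 5) (nat_lit 432) (nat_lit 430) (nat_lit 338)) (XT.nd (nat_lit 78) (nat_lit 0) (nat_lit 76) (XT.lf (nat_lit 76) (nat_lit 2493481244) (nat_lit 0) (nat_lit 3523584428) (nat_lit 836) (nat_lit 13006726922) (nat_lit 149) (nat_lit 5) (nat_lit 148) (nat_lit 5) (nat_lit 159) (nat_lit 5) (nat_lit 433) (nat_lit 430) (nat_lit 337)) (XT.lf (nat_lit 0) (nat_lit 6915050683) (nat_lit 760) (nat_lit 6952142042) (nat_lit 836) (nat_lit 5630082154) (nat_lit 149) (nat_lit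 5) (nat_lit 159) (nat_lit 5) (nat_lit 160) (nat_lit 5) (nat_lit 434) (nat_lit 430) (nat_lit 336)))) (XT.nd (nat_lit 156) (nat_lit 0) (nat_lit 76) (XT.nd (nat_lit 78) (nat_lit 0) (nat_lit 76) (XT.lf (nat_lit 76) (nat_lit 3139852535) (nat_lit 0) (nat_lit 4813269151) (nat_lit 836) (nat_lit 12036552042) (nat_lit 150) (nat_lit 5) (nat_lit 149) (nat_lit 5) (nat_lit 160) (nat_lit 5) (nat_lit 435) (nat_lit 430) (nat_lit 335)) (XT.lf (nat_lit 0) (nat_lit 9224928373) (nat_lit 760) (nat_lit 6606505295) (nat_lit 836) (nat_lit 4666168945) (nat_lit 150) (nat_lit 5) (nat_lit 160) (nat_lit 5) (nat_lit 161) (nat_lit 5) (nat_lit 436) (nat_lit 430) (nat_lit 334))) (XT.nd (nat_lit 78) (nat_lit 0) (nat_lit 76) (XT.lf (nat_lit 76) (nat_lit 4196476469) (nat_lit 0) (nat_lit 6497690648) (nat_lit 836) (nat_lit 10330070359) (nat_lit 151) (nat_lit 5) (nat_lit 150) (nat_lit 5) (nat_lit 161) (nat_lit 5) (nat_lit 437) (nat_lit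 430) (nat_lit 333)) (XT.lf (nat_lit 0) (nat_lit 12391988551) (nat_lit 760) (nat_lit 5864367948) (nat_lit 836) (nat_lit 3313093086) (nat_lit 151) (nat_lit 5) (nat_lit 161) (nat_lit 5) (nat_lit 162) (nat_lit 5) (nat_lit 438) (nat_lit 430) (nat_lit 332))))) (XT.nd (nat_lit 312) (nat_lit 1216) (nat_lit 0) (XT.nd (nat_lit 156) (nat_lit 684) (nat_lit 0) (XT.nd (nat_lit 78) (nat_lit 0) (nat_lit 76) (XT.lf (nat_lit 76) (nat_lit 5715680168) (nat_lit 0) (nat_lit 8645099337) (nat_lit 836) (nat_lit 7771840343) (nat_lit 152) (nat_lit 5) (nat_lit 151) (nat_lit 5) (nat_lit 162) (nat_lit 5) (nat_lit 439) (nat_lit 430) (nat_lit 331)) (XT.lf (nat_lit 0) (nat_lit 16542225568) (nat_lit 760) (nat_lit 4673166968) (nat_lit 76) (nat_lit 1502846708) (nat_lit 152) (nat_lit 5) (nat_lit 162) (nat_lit 5) (nat_lit 153) (nat_lit 5) (nat_lit 440) (nat_lit 430) (nat_lit 330))) (XT.nd (nat_lit 78) (nat_lit 0) (nat_lit 0) (XT.lf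 (nat_lit 0) (nat_lit 7756423576) (nat_lit 760) (nat_lit 11330270577) (nat_lit 836) (nat_lit 4233749278) (nat_lit 142) (nat_lit 5) (nat_lit 152) (nat_lit 5) (nat_lit 153) (nat_lit 5) (nat_lit 441) (nat_lit 430) (nat_lit 329)) (XT.lf (nat_lit 0) (nat_lit 20961961044) (nat_lit 760) (nat_lit 866996344) (nat_lit 836) (nat_lit 2120273148) (nat_lit 142) (nat_lit 5) (nat_lit 152) (nat_lit 5) (nat_lit 153) (nat_lit 5) (nat_lit 442) (nat_lit 430) (nat_lit 328)))) (XT.nd (nat_lit 156) (nat_lit 760) (nat_lit 0) (XT.nd (nat_lit 78) (nat_lit 0) (nat_lit 0) (XT.lf (nat_lit 0) (nat_lit 412804165) (nat_lit 456) (nat_lit 14215636200) (nat_lit 76) (nat_lit 9965085993) (nat_lit 136) (nat_lit 5) (nat_lit 142) (nat_lit 5) (nat_lit 137) (nat_lit 5) (nat_lit 443) (nat_lit 430) (nat_lit 327)) (XT.lf (nat_lit 0) (nat_lit 3058899999) (nat_lit 456) (nat_lit 810254619) (nat_lit 76) (nat_lit 21396264532) (nat_lit 136) (nat_lit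 5) (nat_lit 142) (nat_lit 5) (nat_lit 137) (nat_lit 5) (nat_lit 444) (nat_lit 430) (nat_lit 326))) (XT.nd (nat_lit 78) (nat_lit 380) (nat_lit 0) (XT.lf (nat_lit 0) (nat_lit 6162983944) (nat_lit 456) (nat_lit 12383903882) (nat_lit 76) (nat_lit 7407735635) (nat_lit 131) (nat_lit 5) (nat_lit 137) (nat_lit 5) (nat_lit 132) (nat_lit 5) (nat_lit 445) (nat_lit 430) (nat_lit 325)) (XT.lf (nat_lit 0) (nat_lit 2014253166) (nat_lit 380) (nat_lit 7509456564) (nat_lit 456) (nat_lit 17149507369) (nat_lit 126) (nat_lit 5) (nat_lit 131) (nat_lit 5) (nat_lit 132) (nat_lit 5) (nat_lit 446) (nat_lit 430) (nat_lit 324)))))) (XT.nd (nat_lit 624) (nat_lit 1216) (nat_lit 0) (XT.nd (nat_lit 312) (nat_lit 684) (nat_lit 0) (XT.nd (nat_lit 156) (nat_lit 304) (nat_lit 0) (XT.nd (nat_lit 78) (nat_lit 304) (nat_lit 0) (XT.lf (nat_lit 0) (nat_lit 13322171736) (nat_lit 456) (nat_lit 9930187154) (nat_lit 76) (nat_lit 4161897480)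 (nat_lit 126) (nat_lit 5) (nat_lit 132) (nat_lit 5) (nat_lit 127) (nat_lit 5) (nat_lit 447) (nat_lit 430) (nat_lit 323)) (XT.lf (nat_lit 0) (nat_lit 5582938802) (nat_lit 304) (nat_lit 11931066860) (nat_lit 380) (nat_lit 10668170402) (nat_lit 122) (nat_lit 5) (nat_lit 126) (nat_lit 5) (nat_lit 127) (nat_lit 5) (nat_lit 448) (nat_lit 430) (nat_lit 322))) (XT.nd (nat_lit 78) (nat_lit 304) (nat_lit 0) (XT.lf (nat_lit 0) (nat_lit 22079048388) (nat_lit 380) (nat_lit 6773548894) (nat_lit 76) (nat_lit 127714465) (nat_lit 122) (nat_lit 5) (nat_lit 127) (nat_lit 5) (nat_lit 123) (nat_lit 5) (nat_lit 449) (nat_lit 430) (nat_lit 321)) (XT.lf (nat_lit 0) (nat_lit 9959094400) (nat_lit 304) (nat_lit 17258015285) (nat_lit 380) (nat_lit 2584007026) (nat_lit 118) (nat_lit 5) (nat_lit 122) (nat_lit 5) (nat_lit 123) (nat_lit 5) (nat_lit 450) (nat_lit 430) (nat_lit 320)))) (XT.nd (nat_lit 156) (nat_lit 304) (nat_lit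 0) (XT.nd (nat_lit 78) (nat_lit 304) (nat_lit 0) (XT.lf (nat_lit 0) (nat_lit 1997092415) (nat_lit 380) (nat_lit 2933583070) (nat_lit 76) (nat_lit 25725247422) (nat_lit 117) (nat_lit 5) (nat_lit 122) (nat_lit 5) (nat_lit 118) (nat_lit 5) (nat_lit 451) (nat_lit 430) (nat_lit 319)) (XT.lf (nat_lit 0) (nat_lit 7082397000) (nat_lit 380) (nat_lit 16410335768) (nat_lit 76) (nat_lit 8040519825) (nat_lit 113) (nat_lit 5) (nat_lit 118) (nat_lit 5) (nat_lit 114) (nat_lit 5) (nat_lit 452) (nat_lit 430) (nat_lit 318))) (XT.nd (nat_lit 78) (nat_lit 0) (nat_lit 0) (XT.lf (nat_lit 0) (nat_lit 1697439920) (nat_lit 304) (nat_lit 10876573150) (nat_lit 380) (nat_lit 19872834053) (nat_lit 109) (nat_lit 5) (nat_lit 113) (nat_lit 5) (nat_lit 114) (nat_lit 5) (nat_lit 453) (nat_lit 430) (nat_lit 317)) (XT.lf (nat_lit 0) (nat_lit 18654045793) (nat_lit 380) (nat_lit 12160961206) (nat_lit 76) (nat_lit 2575423229) (nat_lit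 109) (nat_lit 5) (nat_lit 114) (nat_lit 5) (nat_lit 110) (nat_lit 5) (nat_lit 454) (nat_lit 430) (nat_lit 316))))) (XT.nd (nat_lit 312) (nat_lit 684) (nat_lit 0) (XT.nd (nat_lit 156) (nat_lit 304) (nat_lit 0) (XT.nd (nat_lit 78) (nat_lit 0) (nat_lit 0) (XT.lf (nat_lit 0) (nat_lit 7408575336) (nat_lit 228) (nat_lit 17918101113) (nat_lit 304) (nat_lit 9040086836) (nat_lit 106) (nat_lit 5) (nat_lit 109) (nat_lit 5) (nat_lit 110) (nat_lit 5) (nat_lit 455) (nat_lit 430) (nat_lit 315)) (XT.lf (nat_lit 0) (nat_lit 28371757153) (nat_lit 228) (nat_lit 4161902682) (nat_lit 304) (nat_lit 2848217680) (nat_lit 106) (nat_lit 5) (nat_lit 109) (nat_lit 5) (nat_lit 110) (nat_lit 5) (nat_lit 456) (nat_lit 430) (nat_lit 314))) (XT.nd (nat_lit 78) (nat_lit 0) (nat_lit 0) (XT.lf (nat_lit 0) (nat_lit 3920094756) (nat_lit 304) (nat_lit 22268969617) (nat_lit 76) (nat_lit 10236642919) (nat_lit 102) (nat_lit 5) (nat_lit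 106) (nat_lit 5) (nat_lit 103) (nat_lit 5) (nat_lit 457) (nat_lit 430) (nat_lit 313)) (XT.lf (nat_lit 0) (nat_lit 11115041392) (nat_lit 304) (nat_lit 1014318008) (nat_lit 76) (nat_lit 25380838185) (nat_lit 102) (nat_lit 5) (nat_lit 106) (nat_lit 5) (nat_lit 103) (nat_lit 5) (nat_lit 458) (nat_lit 430) (nat_lit 312)))) (XT.nd (nat_lit 156) (nat_lit 228) (nat_lit 0) (XT.nd (nat_lit 78) (nat_lit 228) (nat_lit 0) (XT.lf (nat_lit 0) (nat_lit 19055220240) (nat_lit 304) (nat_lit 16678108189) (nat_lit 76) (nat_lit 2896310199) (nat_lit 99) (nat_lit 5) (nat_lit 103) (nat_lit 5) (nat_lit 100) (nat_lit 5) (nat_lit 459) (nat_lit 430) (nat_lit 311)) (XT.lf (nat_lit 0) (nat_lit 6292225978) (nat_lit 228) (nat_lit 21410094875) (nat_lit 304) (nat_lit 12087235685) (nat_lit 96) (nat_lit 5) (nat_lit 99) (nat_lit 5) (nat_lit 100) (nat_lit 5) (nat_lit 460) (nat_lit 430) (nat_lit 310))) (XT.nd (nat_lit 78) (nat_lit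 228) (nat_lit 0) (XT.lf (nat_lit 0) (nat_lit 30983477427) (nat_lit 228) (nat_lit 6076239849) (nat_lit 304) (nat_lit 3933856462) (nat_lit 96) (nat_lit 5) (nat_lit 99) (nat_lit 5) (nat_lit 100) (nat_lit 5) (nat_lit 461) (nat_lit 430) (nat_lit 309)) (XT.lf (nat_lit 0) (nat_lit 4871283259) (nat_lit 228) (nat_lit 27349514697) (nat_lit 76) (nat_lit 10013772535) (nat_lit 93) (nat_lit 5) (nat_lit 96) (nat_lit 5) (nat_lit 94) (nat_lit 5) (nat_lit 462) (nat_lit 430) (nat_lit 308))))))) (XT.nd (nat_lit 1248) (nat_lit 1368) (nat_lit 0) (XT.nd (nat_lit 624) (nat_lit 836) (nat_lit 0) (XT.nd (nat_lit 312) (nat_lit 532) (nat_lit 0) (XT.nd (nat_lit 156) (nat_lit 228) (nat_lit 0) (XT.nd (nat_lit 78) (nat_lit 228) (nat_lit 0) (XT.lf (nat_lit 0) (nat_lit 14252101079) (nat_lit 228) (nat_lit 2330057863) (nat_lit 76) (nat_lit 26938852817) (nat_lit 93) (nat_lit 5) (nat_lit 96) (nat_lit 5) (nat_lit 94) (nat_lit 5) (nat_lit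 463) (nat_lit 430) (nat_lit 307)) (XT.lf (nat_lit 0) (nat_lit 24487680160) (nat_lit 304) (nat_lit 20130927827) (nat_lit 76) (nat_lit 233881443) (nat_lit 90) (nat_lit 5) (nat_lit 94) (nat_lit 5) (nat_lit 91) (nat_lit 5) (nat_lit 464) (nat_lit 430) (nat_lit 306))) (XT.nd (nat_lit 78) (nat_lit 76) (nat_lit 0) (XT.lf (nat_lit 0) (nat_lit 6900164697) (nat_lit 152) (nat_lit 28750529774) (nat_lit 228) (nat_lit 10579064039) (nat_lit 88) (nat_lit 5) (nat_lit 90) (nat_lit 5) (nat_lit 91) (nat_lit 5) (nat_lit 465) (nat_lit 430) (nat_lit 305)) (XT.lf (nat_lit 0) (nat_lit 48224702) (nat_lit 228) (nat_lit 11684292073) (nat_lit 76) (nat_lit 35926485650) (nat_lit 87) (nat_lit 5) (nat_lit 90) (nat_lit 5) (nat_lit 88) (nat_lit 5) (nat_lit 466) (nat_lit 430) (nat_lit 304)))) (XT.nd (nat_lit 156) (nat_lit 304) (nat_lit 0) (XT.nd (nat_lit 78) (nat_lit 0) (nat_lit 0) (XT.lf (nat_lit 0) (nat_lit 11227540463) (nat_lit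 304) (nat_lit 31509194148) (nat_lit 76) (nat_lit 6395493429) (nat_lit 84) (nat_lit 5) (nat_lit 88) (nat_lit 5) (nat_lit 85) (nat_lit 5) (nat_lit 467) (nat_lit 430) (nat_lit 303)) (XT.lf (nat_lit 0) (nat_lit 23355534909) (nat_lit 304) (nat_lit 2069493792) (nat_lit 76) (nat_lit 25234600869) (nat_lit 84) (nat_lit 5) (nat_lit 88) (nat_lit 5) (nat_lit 85) (nat_lit 5) (nat_lit 468) (nat_lit 430) (nat_lit 302))) (XT.nd (nat_lit 78) (nat_lit 152) (nat_lit 0) (XT.lf (nat_lit 0) (nat_lit 29789871662) (nat_lit 152) (nat_lit 6761592700) (nat_lit 228) (nat_lit 15688860317) (nat_lit 82) (nat_lit 5) (nat_lit 84) (nat_lit 5) (nat_lit 85) (nat_lit 5) (nat_lit 469) (nat_lit 430) (nat_lit 301)) (XT.lf (nat_lit 0) (nat_lit 9513447173) (nat_lit 152) (nat_lit 41274766299) (nat_lit 228) (nat_lit 3092790166) (nat_lit 80) (nat_lit 5) (nat_lit 82) (nat_lit 5) (nat_lit 83) (nat_lit 5) (nat_lit 470) (nat_lit 430) (nat_lit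 300))))) (XT.nd (nat_lit 312) (nat_lit 456) (nat_lit 0) (XT.nd (nat_lit 156) (nat_lit 152) (nat_lit 0) (XT.nd (nat_lit 78) (nat_lit 152) (nat_lit 0) (XT.lf (nat_lit 0) (nat_lit 10302549635) (nat_lit 228) (nat_lit 12010869993) (nat_lit 76) (nat_lit 33257697450) (nat_lit 79) (nat_lit 5) (nat_lit 82) (nat_lit 5) (nat_lit 80) (nat_lit 5) (nat_lit 471) (nat_lit 430) (nat_lit 299)) (XT.lf (nat_lit 0) (nat_lit 22631733990) (nat_lit 152) (nat_lit 1981995953) (nat_lit 228) (nat_lit 32711970815) (nat_lit 77) (nat_lit 5) (nat_lit 79) (nat_lit 5) (nat_lit 80) (nat_lit 5) (nat_lit 472) (nat_lit 430) (nat_lit 298))) (XT.nd (nat_lit 78) (nat_lit 152) (nat_lit 0) (XT.lf (nat_lit 0) (nat_lit 40146276456) (nat_lit 228) (nat_lit 45687582) (nat_lit 76) (nat_lit 18950759433) (nat_lit 77) (nat_lit 5) (nat_lit 80) (nat_lit 5) (nat_lit 78) (nat_lit 5) (nat_lit 473) (nat_lit 430) (nat_lit 297)) (XT.lf (nat_lit 0) (nat_lit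 37497318571) (nat_lit 152) (nat_lit 19572923777) (nat_lit 228) (nat_lit 3949615568) (nat_lit 75) (nat_lit 5) (nat_lit 77) (nat_lit 5) (nat_lit 78) (nat_lit 5) (nat_lit 474) (nat_lit 430) (nat_lit 296)))) (XT.nd (nat_lit 156) (nat_lit 228) (nat_lit 0) (XT.nd (nat_lit 78) (nat_lit 0) (nat_lit 0) (XT.lf (nat_lit 0) (nat_lit 11728613617) (nat_lit 228) (nat_lit 48817600302) (nat_lit 76) (nat_lit 2422469304) (nat_lit 72) (nat_lit 5) (nat_lit 75) (nat_lit 5) (nat_lit 73) (nat_lit 5) (nat_lit 475) (nat_lit 430) (nat_lit 295)) (XT.lf (nat_lit 0) (nat_lit 28780695583) (nat_lit 228) (nat_lit 10867534355) (nat_lit 76) (nat_lit 25327348924) (nat_lit 72) (nat_lit 5) (nat_lit 75) (nat_lit 5) (nat_lit 73) (nat_lit 5) (nat_lit 476) (nat_lit 430) (nat_lit 294))) (XT.nd (nat_lit 78) (nat_lit 76) (nat_lit 0) (XT.lf (nat_lit 0) (nat_lit 29932940087) (nat_lit 152) (nat_lit 17216836290) (nat_lit 228) (nat_lit 19909823334)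 (nat_lit 70) (nat_lit 5) (nat_lit 72) (nat_lit 5) (nat_lit 73) (nat_lit 5) (nat_lit 477) (nat_lit 430) (nat_lit 293)) (XT.lf (nat_lit 0) (nat_lit 3930820917) (nat_lit 76) (nat_lit 62850935199) (nat_lit 152) (nat_lit 2448843395) (nat_lit 69) (nat_lit 5) (nat_lit 70) (nat_lit 5) (nat_lit 71) (nat_lit 4) (nat_lit 478) (nat_lit 430) (nat_lit 292)))))) (XT.nd (nat_lit 624) (nat_lit 684) (nat_lit 0) (XT.nd (nat_lit 312) (nat_lit 304) (nat_lit 0) (XT.nd (nat_lit 156) (nat_lit 152) (nat_lit 0) (XT.nd (nat_lit 78) (nat_lit 152) (nat_lit 0) (XT.lf (nat_lit 0) (nat_lit 16295166570) (nat_lit 152) (nat_lit 23694321240) (nat_lit 76) (nat_lit 31462340712) (nat_lit 68) (nat_lit 5) (nat_lit 70) (nat_lit 5) (nat_lit 69) (nat_lit 5) (nat_lit 479) (nat_lit 430) (nat_lit 291)) (XT.lf (nat_lit 0) (nat_lit 20605850266) (nat_lit 152) (nat_lit 15607180359) (nat_lit 228) (nat_lit 37553133704) (nat_lit 66) (nat_lit 5)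 (nat_lit 68) (nat_lit 5) (nat_lit 69) (nat_lit 5) (nat_lit 480) (nat_lit 430) (nat_lit 290))) (XT.nd (nat_lit 78) (nat_lit 152) (nat_lit 0) (XT.lf (nat_lit 0) (nat_lit 57687937276) (nat_lit 228) (nat_lit 8400078153) (nat_lit 76) (nat_lit 10080144157) (nat_lit 66) (nat_lit 5) (nat_lit 69) (nat_lit 5) (nat_lit 67) (nat_lit 4) (nat_lit 481) (nat_lit 430) (nat_lit 289)) (XT.lf (nat_lit 0) (nat_lit 2382723084) (nat_lit 152) (nat_lit 39079894279) (nat_lit 76) (nat_lit 37182136187) (nat_lit 64) (nat_lit 5) (nat_lit 66) (nat_lit 5) (nat_lit 65) (nat_lit 5) (nat_lit 482) (nat_lit 430) (nat_lit 288)))) (XT.nd (nat_lit 156) (nat_lit 152) (nat_lit 0) (XT.nd (nat_lit 78) (nat_lit 0) (nat_lit 0) (XT.lf (nat_lit 0) (nat_lit 8958320209) (nat_lit 152) (nat_lit 14991293459) (nat_lit 228) (nat_lit 57266323204) (nat_lit 62) (nat_lit 5) (nat_lit 64) (nat_lit 5) (nat_lit 65) (nat_lit 5) (nat_lit 483) (nat_lit 430)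 (nat_lit 287)) (XT.lf (nat_lit 0) (nat_lit 47464852574) (nat_lit 228) (nat_lit 23342871279) (nat_lit 76) (nat_lit 13064455423) (nat_lit 62) (nat_lit 5) (nat_lit 65) (nat_lit 5) (nat_lit 63) (nat_lit 4) (nat_lit 484) (nat_lit 430) (nat_lit 286))) (XT.nd (nat_lit 78) (nat_lit 76) (nat_lit 0) (XT.lf (nat_lit 0) (nat_lit 28685446802) (nat_lit 76) (nat_lit 44161565807) (nat_lit 152) (nat_lit 13779663332) (nat_lit 61) (nat_lit 5) (nat_lit 62) (nat_lit 5) (nat_lit 63) (nat_lit 4) (nat_lit 485) (nat_lit 430) (nat_lit 285)) (XT.lf (nat_lit 0) (nat_lit 10059332287) (nat_lit 152) (nat_lit 5540352946) (nat_lit 76) (nat_lit 73891454407) (nat_lit 60) (nat_lit 5) (nat_lit 62) (nat_lit 5) (nat_lit 61) (nat_lit 5) (nat_lit 486) (nat_lit 430) (nat_lit 284))))) (XT.nd (nat_lit 312) (nat_lit 228) (nat_lit 0) (XT.nd (nat_lit 156) (nat_lit 228) (nat_lit 0) (XT.nd (nat_lit 78) (nat_lit 76) (nat_lit 0) (XT.lf (nat_lit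 0) (nat_lit 35660583577) (nat_lit 228) (nat_lit 41810499490) (nat_lit 76) (nat_lit 14964779091) (nat_lit 58) (nat_lit 5) (nat_lit 61) (nat_lit 5) (nat_lit 59) (nat_lit 4) (nat_lit 487) (nat_lit 430) (nat_lit 283)) (XT.lf (nat_lit 0) (nat_lit 14470120382) (nat_lit 76) (nat_lit 48646474841) (nat_lit 152) (nat_lit 32382490772) (nat_lit 57) (nat_lit 5) (nat_lit 58) (nat_lit 5) (nat_lit 59) (nat_lit 4) (nat_lit 488) (nat_lit 430) (nat_lit 282))) (XT.nd (nat_lit 78) (nat_lit 228) (nat_lit 0) (XT.lf (nat_lit 0) (nat_lit 75012080806) (nat_lit 76) (nat_lit 17639131116) (nat_lit 152) (nat_lit 6028968955) (nat_lit 57) (nat_lit 5) (nat_lit 58) (nat_lit 5) (nat_lit 59) (nat_lit 4) (nat_lit 489) (nat_lit 430) (nat_lit 281)) (XT.lf (nat_lit 0) (nat_lit 21779519373) (nat_lit 228) (nat_lit 64806001273) (nat_lit 76) (nat_lit 15376416293) (nat_lit 54) (nat_lit 5) (nat_lit 57) (nat_lit 5) (nat_lit 55) (nat_lit 4)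 (nat_lit 490) (nat_lit 430) (nat_lit 280)))) (XT.nd (nat_lit 156) (nat_lit 152) (nat_lit 0) (XT.nd (nat_lit 78) (nat_lit 76) (nat_lit 0) (XT.lf (nat_lit 0) (nat_lit 51470195175) (nat_lit 228) (nat_lit 3943574522) (nat_lit 76) (nat_lit 49954350599) (nat_lit 54) (nat_lit 5) (nat_lit 57) (nat_lit 5) (nat_lit 55) (nat_lit 4) (nat_lit 491) (nat_lit 430) (nat_lit 279)) (XT.lf (nat_lit 0) (nat_lit 61940515161) (nat_lit 76) (nat_lit 21669867150) (nat_lit 152) (nat_lit 25285981698) (nat_lit 53) (nat_lit 5) (nat_lit 54) (nat_lit 5) (nat_lit 55) (nat_lit 4) (nat_lit 492) (nat_lit 430) (nat_lit 278))) (XT.nd (nat_lit 78) (nat_lit 0) (nat_lit 0) (XT.lf (nat_lit 0) (nat_lit 5191840165) (nat_lit 152) (nat_lit 93608066392) (nat_lit 76) (nat_lit 13768024206) (nat_lit 51) (nat_lit 5) (nat_lit 53) (nat_lit 5) (nat_lit 52) (nat_lit 4) (nat_lit 493) (nat_lit 430) (nat_lit 277)) (XT.lf (nat_lit 0) (nat_lit 37505205995)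 (nat_lit 152) (nat_lit 27368511873) (nat_lit 76) (nat_lit 51470560443) (nat_lit 51) (nat_lit 5) (nat_lit 53) (nat_lit 5) (nat_lit 52) (nat_lit 4) (nat_lit 494) (nat_lit 430) (nat_lit 276))))))))
noncomputable def xc160 : XT := (XT.nd (nat_lit 2418) (nat_lit 988) (nat_lit 0) (XT.nd (nat_lit 1170) (nat_lit 912) (nat_lit 0) (XT.nd (nat_lit 546) (nat_lit 532) (nat_lit 0) (XT.nd (nat_lit 234) (nat_lit 228) (nat_lit 0) (XT.nd (nat_lit 78) (nat_lit 152) (nat_lit 0) (XT.lf (nat_lit 0) (nat_lit 43573888443) (nat_lit 76) (nat_lit 28538688407) (nat_lit 152) (nat_lit 48162949604) (nat_lit 50) (nat_lit 5) (nat_lit 51) (nat_lit 5) (nat_lit 52) (nat_lit 4) (nat_lit 495) (nat_lit 430) (nat_lit 275)) (XT.nd (nat_lit 78) (nat_lit 152) (nat_lit 0) (XT.lf (nat_lit 0) (nat_lit 109069535584) (nat_lit 152) (nat_lit 5528043008) (nat_lit 0) (nat_lit 9774797495) (nat_lit 50) (nat_lit 5) (nat_lit 52) (nat_lit 4) (nat_lit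 50) (nat_lit 4) (nat_lit 496) (nat_lit 430) (nat_lit 274)) (XT.lf (nat_lit 0) (nat_lit 20186126898) (nat_lit 152) (nat_lit 57915518893) (nat_lit 76) (nat_lit 50477414879) (nat_lit 48) (nat_lit 5) (nat_lit 50) (nat_lit 5) (nat_lit 49) (nat_lit 4) (nat_lit 497) (nat_lit 430) (nat_lit 273)))) (XT.nd (nat_lit 156) (nat_lit 152) (nat_lit 0) (XT.nd (nat_lit 78) (nat_lit 0) (nat_lit 0) (XT.lf (nat_lit 0) (nat_lit 18191467124) (nat_lit 76) (nat_lit 39121106353) (nat_lit 152) (nat_lit 75652097404) (nat_lit 47) (nat_lit 5) (nat_lit 48) (nat_lit 5) (nat_lit 49) (nat_lit 4) (nat_lit 498) (nat_lit 430) (nat_lit 272)) (XT.lf (nat_lit 0) (nat_lit 97318622928) (nat_lit 152) (nat_lit 37453943964) (nat_lit 0) (nat_lit 2745830726) (nat_lit 47) (nat_lit 5) (nat_lit 49) (nat_lit 4) (nat_lit 47) (nat_lit 4) (nat_lit 499) (nat_lit 430) (nat_lit 271))) (XT.nd (nat_lit 78) (nat_lit 76) (nat_lit 0) (XT.lf (nat_lit 0)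 (nat_lit 44511147776) (nat_lit 76) (nat_lit 96148328006) (nat_lit 76) (nat_lit 1573609903) (nat_lit 46) (nat_lit 4) (nat_lit 47) (nat_lit 5) (nat_lit 47) (nat_lit 4) (nat_lit 500) (nat_lit 430) (nat_lit 270)) (XT.lf (nat_lit 0) (nat_lit 38379065685) (nat_lit 152) (nat_lit 15899467639) (nat_lit 76) (nat_lit 92842396019) (nat_lit 45) (nat_lit 5) (nat_lit 47) (nat_lit 5) (nat_lit 46) (nat_lit 4) (nat_lit 501) (nat_lit 430) (nat_lit 269))))) (XT.nd (nat_lit 312) (nat_lit 228) (nat_lit 0) (XT.nd (nat_lit 156) (nat_lit 152) (nat_lit 0) (XT.nd (nat_lit 78) (nat_lit 76) (nat_lit 0) (XT.lf (nat_lit 0) (nat_lit 72299075721) (nat_lit 76) (nat_lit 9104521774) (nat_lit 152) (nat_lit 70791922576) (nat_lit 44) (nat_lit 5) (nat_lit 45) (nat_lit 5) (nat_lit 46) (nat_lit 4) (nat_lit 502) (nat_lit 430) (nat_lit 268)) (XT.lf (nat_lit 0) (nat_lit 7585851800) (nat_lit 76) (nat_lit 119982350648) (nat_lit 76) (nat_lit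 29906195591) (nat_lit 43) (nat_lit 4) (nat_lit 44) (nat_lit 5) (nat_lit 44) (nat_lit 4) (nat_lit 503) (nat_lit 430) (nat_lit 267))) (XT.nd (nat_lit 78) (nat_lit 76) (nat_lit 0) (XT.lf (nat_lit 0) (nat_lit 14129818185) (nat_lit 152) (nat_lit 61111536771) (nat_lit 76) (nat_lit 87689555868) (nat_lit 42) (nat_lit 5) (nat_lit 44) (nat_lit 5) (nat_lit 43) (nat_lit 4) (nat_lit 504) (nat_lit 430) (nat_lit 266)) (XT.lf (nat_lit 0) (nat_lit 32656130613) (nat_lit 76) (nat_lit 27214714168) (nat_lit 152) (nat_lit 108739478400) (nat_lit 41) (nat_lit 5) (nat_lit 42) (nat_lit 5) (nat_lit 43) (nat_lit 4) (nat_lit 505) (nat_lit 430) (nat_lit 265)))) (XT.nd (nat_lit 156) (nat_lit 152) (nat_lit 0) (XT.nd (nat_lit 78) (nat_lit 76) (nat_lit 0) (XT.lf (nat_lit 0) (nat_lit 109311673806) (nat_lit 152) (nat_lit 41670644721) (nat_lit 0) (nat_lit 23520750100) (nat_lit 41) (nat_lit 5) (nat_lit 43) (nat_lit 4) (nat_lit 41)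 (nat_lit 4) (nat_lit 506) (nat_lit 430) (nat_lit 264)) (XT.lf (nat_lit 0) (nat_lit 58758597159) (nat_lit 76) (nat_lit 103827959379) (nat_lit 76) (nat_lit 18035794220) (nat_lit 40) (nat_lit 4) (nat_lit 41) (nat_lit 5) (nat_lit 41) (nat_lit 4) (nat_lit 507) (nat_lit 430) (nat_lit 263))) (XT.nd (nat_lit 78) (nat_lit 76) (nat_lit 0) (XT.lf (nat_lit 0) (nat_lit 31185873646) (nat_lit 152) (nat_lit 21862306520) (nat_lit 76) (nat_lit 133939055858) (nat_lit 39) (nat_lit 5) (nat_lit 41) (nat_lit 5) (nat_lit 40) (nat_lit 4) (nat_lit 508) (nat_lit 430) (nat_lit 262)) (XT.lf (nat_lit 0) (nat_lit 83628155193) (nat_lit 152) (nat_lit 108040011599) (nat_lit 0) (nat_lit 1919132783) (nat_lit 38) (nat_lit 5) (nat_lit 40) (nat_lit 4) (nat_lit 38) (nat_lit 4) (nat_lit 509) (nat_lit 430) (nat_lit 261)))))) (XT.nd (nat_lit 624) (nat_lit 456) (nat_lit 0) (XT.nd (nat_lit 312) (nat_lit 228) (nat_lit 0) (XT.nd (nat_lit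 156) (nat_lit 152) (nat_lit 0) (XT.nd (nat_lit 78) (nat_lit 76) (nat_lit 0) (XT.lf (nat_lit 0) (nat_lit 139937072160) (nat_lit 152) (nat_lit 2291039694) (nat_lit 0) (nat_lit 58227028403) (nat_lit 38) (nat_lit 5) (nat_lit 40) (nat_lit 4) (nat_lit 38) (nat_lit 4) (nat_lit 510) (nat_lit 430) (nat_lit 260)) (XT.lf (nat_lit 0) (nat_lit 112338194112) (nat_lit 76) (nat_lit 88475784094) (nat_lit 76) (nat_lit 6764767626) (nat_lit 37) (nat_lit 4) (nat_lit 38) (nat_lit 5) (nat_lit 38) (nat_lit 4) (nat_lit 511) (nat_lit 430) (nat_lit 259))) (XT.nd (nat_lit 78) (nat_lit 0) (nat_lit 0) (XT.lf (nat_lit 0) (nat_lit 17503113818) (nat_lit 76) (nat_lit 30894474804) (nat_lit 152) (nat_lit 166606596882) (nat_lit 35) (nat_lit 5) (nat_lit 36) (nat_lit 5) (nat_lit 37) (nat_lit 4) (nat_lit 512) (nat_lit 430) (nat_lit 258)) (XT.lf (nat_lit 0) (nat_lit 108190348862) (nat_lit 152) (nat_lit 84131411451) (nat_lit 0) (nat_lit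 30368610637) (nat_lit 35) (nat_lit 5) (nat_lit 37) (nat_lit 4) (nat_lit 35) (nat_lit 4) (nat_lit 513) (nat_lit 430) (nat_lit 257)))) (XT.nd (nat_lit 156) (nat_lit 76) (nat_lit 0) (XT.nd (nat_lit 78) (nat_lit 76) (nat_lit 0) (XT.lf (nat_lit 0) (nat_lit 35535021946) (nat_lit 76) (nat_lit 136497691938) (nat_lit 76) (nat_lit 58675153461) (nat_lit 34) (nat_lit 4) (nat_lit 35) (nat_lit 5) (nat_lit 35) (nat_lit 4) (nat_lit 514) (nat_lit 430) (nat_lit 256)) (XT.lf (nat_lit 0) (nat_lit 1389711886) (nat_lit 152) (nat_lit 74974391253) (nat_lit 76) (nat_lit 162689838347) (nat_lit 33) (nat_lit 5) (nat_lit 35) (nat_lit 5) (nat_lit 34) (nat_lit 4) (nat_lit 515) (nat_lit 430) (nat_lit 255))) (XT.nd (nat_lit 78) (nat_lit 0) (nat_lit 0) (XT.lf (nat_lit 0) (nat_lit 51931775185) (nat_lit 76) (nat_lit 11363737818) (nat_lit 152) (nat_lit 184433233836) (nat_lit 32) (nat_lit 5) (nat_lit 33) (nat_lit 5) (nat_lit 34)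 (nat_lit 4) (nat_lit 516) (nat_lit 430) (nat_lit 254)) (XT.lf (nat_lit 0) (nat_lit 130474071075) (nat_lit 152) (nat_lit 69899055801) (nat_lit 0) (nat_lit 56355292254) (nat_lit 32) (nat_lit 5) (nat_lit 34) (nat_lit 4) (nat_lit 32) (nat_lit 4) (nat_lit 517) (nat_lit 430) (nat_lit 253))))) (XT.nd (nat_lit 312) (nat_lit 228) (nat_lit 0) (XT.nd (nat_lit 156) (nat_lit 76) (nat_lit 0) (XT.nd (nat_lit 78) (nat_lit 76) (nat_lit 0) (XT.lf (nat_lit 0) (nat_lit 64158592055) (nat_lit 76) (nat_lit 138039774185) (nat_lit 76) (nat_lit 63920368347) (nat_lit 31) (nat_lit 4) (nat_lit 32) (nat_lit 5) (nat_lit 32) (nat_lit 4) (nat_lit 518) (nat_lit 430) (nat_lit 252)) (XT.lf (nat_lit 0) (nat_lit 2683335301) (nat_lit 152) (nat_lit 68619165630) (nat_lit 76) (nat_lit 204614770055) (nat_lit 30) (nat_lit 5) (nat_lit 32) (nat_lit 5) (nat_lit 31) (nat_lit 4) (nat_lit 519) (nat_lit 430) (nat_lit 251))) (XT.nd (nat_lit 78)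 (nat_lit 0) (nat_lit 0) (XT.lf (nat_lit 0) (nat_lit 71619037423) (nat_lit 152) (nat_lit 213448788472) (nat_lit 0) (nat_lit 1028016735) (nat_lit 29) (nat_lit 5) (nat_lit 31) (nat_lit 4) (nat_lit 29) (nat_lit 4) (nat_lit 520) (nat_lit 430) (nat_lit 250)) (XT.lf (nat_lit 0) (nat_lit 146350449433) (nat_lit 152) (nat_lit 74556534300) (nat_lit 0) (nat_lit 75758912895) (nat_lit 29) (nat_lit 5) (nat_lit 31) (nat_lit 4) (nat_lit 29) (nat_lit 4) (nat_lit 521) (nat_lit 430) (nat_lit 249)))) (XT.nd (nat_lit 156) (nat_lit 152) (nat_lit 0) (XT.nd (nat_lit 78) (nat_lit 0) (nat_lit 0) (XT.lf (nat_lit 0) (nat_lit 73634978864) (nat_lit 76) (nat_lit 152332036563) (nat_lit 76) (nat_lit 81740008740) (nat_lit 28) (nat_lit 4) (nat_lit 29) (nat_lit 5) (nat_lit 29) (nat_lit 4) (nat_lit 522) (nat_lit 430) (nat_lit 248)) (XT.lf (nat_lit 0) (nat_lit 231822403706) (nat_lit 76) (nat_lit 79003609951) (nat_lit 76) (nat_lit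 8411114237) (nat_lit 28) (nat_lit 4) (nat_lit 29) (nat_lit 5) (nat_lit 29) (nat_lit 4) (nat_lit 523) (nat_lit 430) (nat_lit 247))) (XT.nd (nat_lit 78) (nat_lit 0) (nat_lit 0) (XT.lf (nat_lit 0) (nat_lit 67448077341) (nat_lit 152) (nat_lit 263572466435) (nat_lit 0) (nat_lit 216704651) (nat_lit 26) (nat_lit 5) (nat_lit 28) (nat_lit 4) (nat_lit 26) (nat_lit 4) (nat_lit 524) (nat_lit 430) (nat_lit 246)) (XT.lf (nat_lit 0) (nat_lit 149616368579) (nat_lit 152) (nat_lit 111689579917) (nat_lit 0) (nat_lit 82384591708) (nat_lit 26) (nat_lit 5) (nat_lit 28) (nat_lit 4) (nat_lit 26) (nat_lit 4) (nat_lit 525) (nat_lit 430) (nat_lit 245))))))) (XT.nd (nat_lit 1170) (nat_lit 304) (nat_lit 0) (XT.nd (nat_lit 546) (nat_lit 380) (nat_lit 0) (XT.nd (nat_lit 234) (nat_lit 76) (nat_lit 0) (XT.nd (nat_lit 78) (nat_lit 152) (nat_lit 0) (XT.lf (nat_lit 0) (nat_lit 49365519174) (nat_lit 76) (nat_lit 187297325352) (nat_lit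 76) (nat_lit 120065163546) (nat_lit 25) (nat_lit 4) (nat_lit 26) (nat_lit 5) (nat_lit 26) (nat_lit 4) (nat_lit 526) (nat_lit 430) (nat_lit 244)) (XT.nd (nat_lit 78) (nat_lit 152) (nat_lit 0) (XT.lf (nat_lit 0) (nat_lit 222349077811) (nat_lit 76) (nat_lit 107603135737) (nat_lit 76) (nat_lit 40370607327) (nat_lit 25) (nat_lit 4) (nat_lit 26) (nat_lit 5) (nat_lit 26) (nat_lit 4) (nat_lit 527) (nat_lit 430) (nat_lit 243)) (XT.lf (nat_lit 0) (nat_lit 19324944112) (nat_lit 76) (nat_lit 22898383531) (nat_lit 152) (nat_lit 342325198240) (nat_lit 23) (nat_lit 5) (nat_lit 24) (nat_lit 5) (nat_lit 25) (nat_lit 4) (nat_lit 528) (nat_lit 430) (nat_lit 242)))) (XT.nd (nat_lit 156) (nat_lit 76) (nat_lit 0) (XT.nd (nat_lit 78) (nat_lit 0) (nat_lit 0) (XT.lf (nat_lit 0) (nat_lit 131167509426) (nat_lit 152) (nat_lit 200970171920) (nat_lit 0) (nat_lit 67135880779) (nat_lit 23) (nat_lit 5) (nat_lit 25) (nat_lit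 4) (nat_lit 23) (nat_lit 4) (nat_lit 529) (nat_lit 430) (nat_lit 241)) (XT.lf (nat_lit 0) (nat_lit 224933410890) (nat_lit 152) (nat_lit 28881233130) (nat_lit 0) (nat_lit 160901480637) (nat_lit 23) (nat_lit 5) (nat_lit 25) (nat_lit 4) (nat_lit 23) (nat_lit 4) (nat_lit 530) (nat_lit 430) (nat_lit 240))) (XT.nd (nat_lit 78) (nat_lit 0) (nat_lit 0) (XT.lf (nat_lit 0) (nat_lit 156830018109) (nat_lit 76) (nat_lit 169005314231) (nat_lit 76) (nat_lit 104973096734) (nat_lit 22) (nat_lit 4) (nat_lit 23) (nat_lit 5) (nat_lit 23) (nat_lit 4) (nat_lit 531) (nat_lit 430) (nat_lit 239)) (XT.lf (nat_lit 0) (nat_lit 352827875625) (nat_lit 76) (nat_lit 79442774570) (nat_lit 76) (nat_lit 15410283507) (nat_lit 22) (nat_lit 4) (nat_lit 23) (nat_lit 5) (nat_lit 23) (nat_lit 4) (nat_lit 532) (nat_lit 430) (nat_lit 238))))) (XT.nd (nat_lit 312) (nat_lit 152) (nat_lit 0) (XT.nd (nat_lit 156) (nat_lit 76) (nat_lit 0)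 (XT.nd (nat_lit 78) (nat_lit 0) (nat_lit 0) (XT.lf (nat_lit 0) (nat_lit 77869419089) (nat_lit 152) (nat_lit 370492645025) (nat_lit 0) (nat_lit 16885846135) (nat_lit 20) (nat_lit 5) (nat_lit 22) (nat_lit 4) (nat_lit 20) (nat_lit 4) (nat_lit 533) (nat_lit 430) (nat_lit 237)) (XT.lf (nat_lit 0) (nat_lit 178229487022) (nat_lit 152) (nat_lit 188058726137) (nat_lit 0) (nat_lit 117245677751) (nat_lit 20) (nat_lit 5) (nat_lit 22) (nat_lit 4) (nat_lit 20) (nat_lit 4) (nat_lit 534) (nat_lit 430) (nat_lit 236))) (XT.nd (nat_lit 78) (nat_lit 0) (nat_lit 0) (XT.lf (nat_lit 0) (nat_lit 3610941353) (nat_lit 76) (nat_lit 280052241190) (nat_lit 76) (nat_lit 219068206855) (nat_lit 19) (nat_lit 4) (nat_lit 20) (nat_lit 5) (nat_lit 20) (nat_lit 4) (nat_lit 535) (nat_lit 430) (nat_lit 235)) (XT.lf (nat_lit 0) (nat_lit 211391571042) (nat_lit 76) (nat_lit 186161117095) (nat_lit 76) (nat_lit 125176868414) (nat_lit 19)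 (nat_lit 4) (nat_lit 20) (nat_lit 5) (nat_lit 20) (nat_lit 4) (nat_lit 536) (nat_lit 430) (nat_lit 234)))) (XT.nd (nat_lit 156) (nat_lit 0) (nat_lit 0) (XT.nd (nat_lit 78) (nat_lit 152) (nat_lit 0) (XT.lf (nat_lit 0) (nat_lit 429559807931) (nat_lit 76) (nat_lit 87576156102) (nat_lit 76) (nat_lit 26591703282) (nat_lit 19) (nat_lit 4) (nat_lit 20) (nat_lit 5) (nat_lit 20) (nat_lit 4) (nat_lit 537) (nat_lit 430) (nat_lit 233)) (XT.lf (nat_lit 0) (nat_lit 76231142197) (nat_lit 152) (nat_lit 471245445204) (nat_lit 0) (nat_lit 18150525780) (nat_lit 17) (nat_lit 5) (nat_lit 19) (nat_lit 4) (nat_lit 17) (nat_lit 4) (nat_lit 538) (nat_lit 430) (nat_lit 232))) (XT.nd (nat_lit 78) (nat_lit 0) (nat_lit 0) (XT.lf (nat_lit 0) (nat_lit 186701651693) (nat_lit 152) (nat_lit 273107215373) (nat_lit 0) (nat_lit 128620858933) (nat_lit 17) (nat_lit 5) (nat_lit 19) (nat_lit 4) (nat_lit 17) (nat_lit 4) (nat_lit 539)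 (nat_lit 430) (nat_lit 231)) (XT.lf (nat_lit 0) (nat_lit 302695037321) (nat_lit 152) (nat_lit 65063387995) (nat_lit 0) (nat_lit 244614076615) (nat_lit 17) (nat_lit 5) (nat_lit 19) (nat_lit 4) (nat_lit 17) (nat_lit 4) (nat_lit 540) (nat_lit 430) (nat_lit 230)))))) (XT.nd (nat_lit 53898) (nat_lit 0) (nat_lit 10184) (XT.nd (nat_lit 312) (nat_lit 76) (nat_lit 0) (XT.nd (nat_lit 156) (nat_lit 152) (nat_lit 0) (XT.nd (nat_lit 78) (nat_lit 0) (nat_lit 0) (XT.lf (nat_lit 0) (nat_lit 158452860470) (nat_lit 76) (nat_lit 268508506553) (nat_lit 76) (nat_lit 210427385898) (nat_lit 16) (nat_lit 4) (nat_lit 17) (nat_lit 5) (nat_lit 17) (nat_lit 4) (nat_lit 541) (nat_lit 430) (nat_lit 229)) (XT.lf (nat_lit 0) (nat_lit 395402544081) (nat_lit 76) (nat_lit 163139740891) (nat_lit 76) (nat_lit 105058467905) (nat_lit 16) (nat_lit 4) (nat_lit 17) (nat_lit 5) (nat_lit 17) (nat_lit 4) (nat_lit 542) (nat_lit 430) (nat_lit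 228))) (XT.nd (nat_lit 78) (nat_lit 76) (nat_lit 0) (XT.lf (nat_lit 0) (nat_lit 5399747743) (nat_lit 152) (nat_lit 47011935190) (nat_lit 76) (nat_lit 638707344225) (nat_lit 15) (nat_lit 5) (nat_lit 17) (nat_lit 5) (nat_lit 16) (nat_lit 4) (nat_lit 543) (nat_lit 430) (nat_lit 227)) (XT.lf (nat_lit 0) (nat_lit 121883170522) (nat_lit 152) (nat_lit 531274880967) (nat_lit 0) (nat_lit 66567402681) (nat_lit 14) (nat_lit 5) (nat_lit 16) (nat_lit 4) (nat_lit 14) (nat_lit 4) (nat_lit 544) (nat_lit 430) (nat_lit 226)))) (XT.nd (nat_lit 156) (nat_lit 76) (nat_lit 0) (XT.nd (nat_lit 78) (nat_lit 0) (nat_lit 0) (XT.lf (nat_lit 0) (nat_lit 245858633926) (nat_lit 152) (nat_lit 313277434373) (nat_lit 0) (nat_lit 190542740761) (nat_lit 14) (nat_lit 5) (nat_lit 16) (nat_lit 4) (nat_lit 14) (nat_lit 4) (nat_lit 545) (nat_lit 430) (nat_lit 225)) (XT.lf (nat_lit 0) (nat_lit 376032336913) (nat_lit 152) (nat_lit 84381197072)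 (nat_lit 0) (nat_lit 320716324392) (nat_lit 14) (nat_lit 5) (nat_lit 16) (nat_lit 4) (nat_lit 14) (nat_lit 4) (nat_lit 546) (nat_lit 430) (nat_lit 224))) (XT.nd (nat_lit 78) (nat_lit 0) (nat_lit 0) (XT.lf (nat_lit 0) (nat_lit 161115524962) (nat_lit 76) (nat_lit 354114156780) (nat_lit 76) (nat_lit 298798030586) (nat_lit 13) (nat_lit 4) (nat_lit 14) (nat_lit 5) (nat_lit 14) (nat_lit 4) (nat_lit 547) (nat_lit 430) (nat_lit 223)) (XT.lf (nat_lit 0) (nat_lit 421815594223) (nat_lit 76) (nat_lit 240999836189) (nat_lit 76) (nat_lit 185683601737) (nat_lit 13) (nat_lit 4) (nat_lit 14) (nat_lit 5) (nat_lit 14) (nat_lit 4) (nat_lit 548) (nat_lit 430) (nat_lit 222))))) (XT.nd (nat_lit 312) (nat_lit 0) (nat_lit 152) (XT.nd (nat_lit 156) (nat_lit 0) (nat_lit 76) (XT.nd (nat_lit 78) (nat_lit 0) (nat_lit 0) (XT.lf (nat_lit 0) (nat_lit 2527750772) (nat_lit 836) (nat_lit 3375070919) (nat_lit 836) (nat_lit 3375070919)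 (nat_lit 147) (nat_lit 3) (nat_lit 158) (nat_lit 3) (nat_lit 158) (nat_lit 5) (nat_lit 431) (nat_lit 431) (nat_lit 338)) (XT.lf (nat_lit 76) (nat_lit 2534036737) (nat_lit 0) (nat_lit 2876767916) (nat_lit 836) (nat_lit 13597400134) (nat_lit 148) (nat_lit 5) (nat_lit 147) (nat_lit 3) (nat_lit 158) (nat_lit 5) (nat_lit 432) (nat_lit 431) (nat_lit 337))) (XT.nd (nat_lit 78) (nat_lit 0) (nat_lit 0) (XT.lf (nat_lit 0) (nat_lit 5989389120) (nat_lit 760) (nat_lit 7071366297) (nat_lit 836) (nat_lit 6412215977) (nat_lit 148) (nat_lit 5) (nat_lit 158) (nat_lit 5) (nat_lit 159) (nat_lit 5) (nat_lit 433) (nat_lit 431) (nat_lit 336)) (XT.lf (nat_lit 76) (nat_lit 2838330090) (nat_lit 0) (nat_lit 3838489647) (nat_lit 836) (nat_lit 13280162531) (nat_lit 149) (nat_lit 5) (nat_lit 148) (nat_lit 5) (nat_lit 159) (nat_lit 5) (nat_lit 434) (nat_lit 431) (nat_lit 335)))) (XT.nd (nat_lit 156) (nat_lit 0) (nat_lit 76)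 (XT.nd (nat_lit 78) (nat_lit 0) (nat_lit 0) (XT.lf (nat_lit 0) (nat_lit 7600550722) (nat_lit 760) (nat_lit 7070853296) (nat_lit 836) (nat_lit 5783694929) (nat_lit 149) (nat_lit 5) (nat_lit 159) (nat_lit 5) (nat_lit 160) (nat_lit 5) (nat_lit 435) (nat_lit 431) (nat_lit 334)) (XT.lf (nat_lit 76) (nat_lit 3522049141) (nat_lit 0) (nat_lit 5155813747) (nat_lit 836) (nat_lit 12294890461) (nat_lit 150) (nat_lit 5) (nat_lit 149) (nat_lit 5) (nat_lit 160) (nat_lit 5) (nat_lit 436) (nat_lit 431) (nat_lit 333))) (XT.nd (nat_lit 78) (nat_lit 0) (nat_lit 0) (XT.lf (nat_lit 0) (nat_lit 9996169523) (nat_lit 760) (nat_lit 6705212754) (nat_lit 836) (nat_lit 4805553292) (nat_lit 150) (nat_lit 5) (nat_lit 160) (nat_lit 5) (nat_lit 161) (nat_lit 5) (nat_lit 437) (nat_lit 431) (nat_lit 332)) (XT.lf (nat_lit 76) (nat_lit 4634182327) (nat_lit 0) (nat_lit 6893484100) (nat_lit 836) (nat_lit 10532798196) (nat_lit 151)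 (nat_lit 5) (nat_lit 150) (nat_lit 5) (nat_lit 161) (nat_lit 5) (nat_lit 438) (nat_lit 431) (nat_lit 331))))))))
noncomputable def xc161 : XT := (XT.nd (nat_lit 2418) (nat_lit 2812) (nat_lit 0) (XT.nd (nat_lit 1170) (nat_lit 2204) (nat_lit 0) (XT.nd (nat_lit 546) (nat_lit 1748) (nat_lit 0) (XT.nd (nat_lit 234) (nat_lit 1140) (nat_lit 0) (XT.nd (nat_lit 78) (nat_lit 0) (nat_lit 0) (XT.lf (nat_lit 0) (nat_lit 13295096424) (nat_lit 760) (nat_lit 5925230299) (nat_lit 836) (nat_lit 3413376891) (nat_lit 151) (nat_lit 5) (nat_lit 161) (nat_lit 5) (nat_lit 162) (nat_lit 5) (nat_lit 439) (nat_lit 431) (nat_lit 330)) (XT.nd (nat_lit 78) (nat_lit 0) (nat_lit 76) (XT.lf (nat_lit 76) (nat_lit 6230072545) (nat_lit 0) (nat_lit 9122323195) (nat_lit 836) (nat_lit 7873135258) (nat_lit 152) (nat_lit 5) (nat_lit 151) (nat_lit 5) (nat_lit 162) (nat_lit 5) (nat_lit 440) (nat_lit 431) (nat_lit 329)) (XT.lf (nat_lit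 0) (nat_lit 17629217960) (nat_lit 760) (nat_lit 4675367887) (nat_lit 76) (nat_lit 1536532275) (nat_lit 152) (nat_lit 5) (nat_lit 162) (nat_lit 5) (nat_lit 153) (nat_lit 5) (nat_lit 441) (nat_lit 431) (nat_lit 328)))) (XT.nd (nat_lit 156) (nat_lit 456) (nat_lit 0) (XT.nd (nat_lit 78) (nat_lit 0) (nat_lit 0) (XT.lf (nat_lit 0) (nat_lit 8371969000) (nat_lit 760) (nat_lit 11920121098) (nat_lit 836) (nat_lit 4181785275) (nat_lit 142) (nat_lit 5) (nat_lit 152) (nat_lit 5) (nat_lit 153) (nat_lit 5) (nat_lit 442) (nat_lit 431) (nat_lit 327)) (XT.lf (nat_lit 0) (nat_lit 22226939330) (nat_lit 760) (nat_lit 932571868) (nat_lit 836) (nat_lit 1975190169) (nat_lit 142) (nat_lit 5) (nat_lit 152) (nat_lit 5) (nat_lit 153) (nat_lit 5) (nat_lit 443) (nat_lit 431) (nat_lit 326))) (XT.nd (nat_lit 78) (nat_lit 0) (nat_lit 0) (XT.lf (nat_lit 0) (nat_lit 668172899) (nat_lit 456) (nat_lit 14693103845) (nat_lit 76) (nat_lit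 10450157397) (nat_lit 136) (nat_lit 5) (nat_lit 142) (nat_lit 5) (nat_lit 137) (nat_lit 5) (nat_lit 444) (nat_lit 431) (nat_lit 325)) (XT.lf (nat_lit 0) (nat_lit 3435395976) (nat_lit 456) (nat_lit 628563383) (nat_lit 76) (nat_lit 22453522620) (nat_lit 136) (nat_lit 5) (nat_lit 142) (nat_lit 5) (nat_lit 137) (nat_lit 5) (nat_lit 445) (nat_lit 431) (nat_lit 324))))) (XT.nd (nat_lit 312) (nat_lit 684) (nat_lit 0) (XT.nd (nat_lit 156) (nat_lit 304) (nat_lit 0) (XT.nd (nat_lit 78) (nat_lit 380) (nat_lit 0) (XT.lf (nat_lit 0) (nat_lit 6687488032) (nat_lit 456) (nat_lit 12773669899) (nat_lit 76) (nat_lit 7780349836) (nat_lit 131) (nat_lit 5) (nat_lit 137) (nat_lit 5) (nat_lit 132) (nat_lit 5) (nat_lit 446) (nat_lit 431) (nat_lit 323)) (XT.lf (nat_lit 0) (nat_lit 2340694530) (nat_lit 380) (nat_lit 7868777220) (nat_lit 456) (nat_lit 17786899641) (nat_lit 126) (nat_lit 5) (nat_lit 131) (nat_lit 5) (nat_lit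 132) (nat_lit 5) (nat_lit 447) (nat_lit 431) (nat_lit 322))) (XT.nd (nat_lit 78) (nat_lit 304) (nat_lit 0) (XT.lf (nat_lit 0) (nat_lit 14188117193) (nat_lit 456) (nat_lit 10201950713) (nat_lit 76) (nat_lit 4384883023) (nat_lit 126) (nat_lit 5) (nat_lit 132) (nat_lit 5) (nat_lit 127) (nat_lit 5) (nat_lit 448) (nat_lit 431) (nat_lit 321)) (XT.lf (nat_lit 0) (nat_lit 6083206608) (nat_lit 304) (nat_lit 12500272482) (nat_lit 380) (nat_lit 10998091962) (nat_lit 122) (nat_lit 5) (nat_lit 126) (nat_lit 5) (nat_lit 127) (nat_lit 5) (nat_lit 449) (nat_lit 431) (nat_lit 320)))) (XT.nd (nat_lit 156) (nat_lit 380) (nat_lit 0) (XT.nd (nat_lit 78) (nat_lit 304) (nat_lit 0) (XT.lf (nat_lit 0) (nat_lit 23367953303) (nat_lit 380) (nat_lit 6892790428) (nat_lit 76) (nat_lit 159312019) (nat_lit 122) (nat_lit 5) (nat_lit 127) (nat_lit 5) (nat_lit 123) (nat_lit 5) (nat_lit 450) (nat_lit 431) (nat_lit 319)) (XT.lf (nat_lit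 0) (nat_lit 10672945742) (nat_lit 304) (nat_lit 18084535412) (nat_lit 380) (nat_lit 2524692774) (nat_lit 118) (nat_lit 5) (nat_lit 122) (nat_lit 5) (nat_lit 123) (nat_lit 5) (nat_lit 451) (nat_lit 431) (nat_lit 318))) (XT.nd (nat_lit 78) (nat_lit 304) (nat_lit 0) (XT.lf (nat_lit 0) (nat_lit 2270738425) (nat_lit 380) (nat_lit 2868879367) (nat_lit 76) (nat_lit 27040390993) (nat_lit 117) (nat_lit 5) (nat_lit 122) (nat_lit 5) (nat_lit 118) (nat_lit 5) (nat_lit 452) (nat_lit 431) (nat_lit 317)) (XT.lf (nat_lit 0) (nat_lit 7605891697) (nat_lit 380) (nat_lit 17015033448) (nat_lit 76) (nat_lit 8480501623) (nat_lit 113) (nat_lit 5) (nat_lit 118) (nat_lit 5) (nat_lit 114) (nat_lit 5) (nat_lit 453) (nat_lit 431) (nat_lit 316)))))) (XT.nd (nat_lit 624) (nat_lit 912) (nat_lit 0) (XT.nd (nat_lit 312) (nat_lit 760) (nat_lit 0) (XT.nd (nat_lit 156) (nat_lit 228) (nat_lit 0) (XT.nd (nat_lit 78) (nat_lit 0) (nat_lit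 0) (XT.lf (nat_lit 0) (nat_lit 1994650072) (nat_lit 304) (nat_lit 11372688224) (nat_lit 380) (nat_lit 20693601182) (nat_lit 109) (nat_lit 5) (nat_lit 113) (nat_lit 5) (nat_lit 114) (nat_lit 5) (nat_lit 454) (nat_lit 431) (nat_lit 315)) (XT.lf (nat_lit 0) (nat_lit 19744242860) (nat_lit 380) (nat_lit 12559634776) (nat_lit 76) (nat_lit 2748181487) (nat_lit 109) (nat_lit 5) (nat_lit 114) (nat_lit 5) (nat_lit 110) (nat_lit 5) (nat_lit 455) (nat_lit 431) (nat_lit 314))) (XT.nd (nat_lit 78) (nat_lit 0) (nat_lit 0) (XT.lf (nat_lit 0) (nat_lit 7985001585) (nat_lit 228) (nat_lit 18761219910) (nat_lit 304) (nat_lit 9331202366) (nat_lit 106) (nat_lit 5) (nat_lit 109) (nat_lit 5) (nat_lit 110) (nat_lit 5) (nat_lit 456) (nat_lit 431) (nat_lit 313)) (XT.lf (nat_lit 0) (nat_lit 29986533089) (nat_lit 228) (nat_lit 4319725188) (nat_lit 304) (nat_lit 2837401124) (nat_lit 106) (nat_lit 5) (nat_lit 109) (nat_lit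 5) (nat_lit 110) (nat_lit 5) (nat_lit 457) (nat_lit 431) (nat_lit 312)))) (XT.nd (nat_lit 156) (nat_lit 456) (nat_lit 0) (XT.nd (nat_lit 78) (nat_lit 0) (nat_lit 0) (XT.lf (nat_lit 0) (nat_lit 4261284416) (nat_lit 304) (nat_lit 23178157348) (nat_lit 76) (nat_lit 10800276937) (nat_lit 102) (nat_lit 5) (nat_lit 106) (nat_lit 5) (nat_lit 103) (nat_lit 5) (nat_lit 458) (nat_lit 431) (nat_lit 311)) (XT.lf (nat_lit 0) (nat_lit 11809064816) (nat_lit 304) (nat_lit 870499861) (nat_lit 76) (nat_lit 26699215211) (nat_lit 102) (nat_lit 5) (nat_lit 106) (nat_lit 5) (nat_lit 103) (nat_lit 5) (nat_lit 459) (nat_lit 431) (nat_lit 310))) (XT.nd (nat_lit 78) (nat_lit 228) (nat_lit 0) (XT.lf (nat_lit 0) (nat_lit 20143542067) (nat_lit 304) (nat_lit 17314755670) (nat_lit 76) (nat_lit 3096031441) (nat_lit 99) (nat_lit 5) (nat_lit 103) (nat_lit 5) (nat_lit 100) (nat_lit 5) (nat_lit 460) (nat_lit 431) (nat_lit 309))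 (XT.lf (nat_lit 0) (nat_lit 6800913626) (nat_lit 228) (nat_lit 22418658883) (nat_lit 304) (nat_lit 12552842369) (nat_lit 96) (nat_lit 5) (nat_lit 99) (nat_lit 5) (nat_lit 100) (nat_lit 5) (nat_lit 461) (nat_lit 431) (nat_lit 308))))) (XT.nd (nat_lit 312) (nat_lit 456) (nat_lit 0) (XT.nd (nat_lit 156) (nat_lit 228) (nat_lit 0) (XT.nd (nat_lit 78) (nat_lit 228) (nat_lit 0) (XT.lf (nat_lit 0) (nat_lit 32717485916) (nat_lit 228) (nat_lit 6321060664) (nat_lit 304) (nat_lit 3998401571) (nat_lit 96) (nat_lit 5) (nat_lit 99) (nat_lit 5) (nat_lit 100) (nat_lit 5) (nat_lit 462) (nat_lit 431) (nat_lit 307)) (XT.lf (nat_lit 0) (nat_lit 5240535617) (nat_lit 228) (nat_lit 28525673792) (nat_lit 76) (nat_lit 10573794220) (nat_lit 93) (nat_lit 5) (nat_lit 96) (nat_lit 5) (nat_lit 94) (nat_lit 5) (nat_lit 463) (nat_lit 431) (nat_lit 306))) (XT.nd (nat_lit 78) (nat_lit 228) (nat_lit 0) (XT.lf (nat_lit 0) (nat_lit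 15084409176) (nat_lit 228) (nat_lit 2264354433) (nat_lit 76) (nat_lit 28342303133) (nat_lit 93) (nat_lit 5) (nat_lit 96) (nat_lit 5) (nat_lit 94) (nat_lit 5) (nat_lit 464) (nat_lit 431) (nat_lit 305)) (XT.lf (nat_lit 0) (nat_lit 25829841200) (nat_lit 304) (nat_lit 20953331928) (nat_lit 76) (nat_lit 306041967) (nat_lit 90) (nat_lit 5) (nat_lit 94) (nat_lit 5) (nat_lit 91) (nat_lit 5) (nat_lit 465) (nat_lit 431) (nat_lit 304)))) (XT.nd (nat_lit 156) (nat_lit 228) (nat_lit 0) (XT.nd (nat_lit 78) (nat_lit 76) (nat_lit 0) (XT.lf (nat_lit 0) (nat_lit 7426345185) (nat_lit 152) (nat_lit 30121881218) (nat_lit 228) (nat_lit 10987260691) (nat_lit 88) (nat_lit 5) (nat_lit 90) (nat_lit 5) (nat_lit 91) (nat_lit 5) (nat_lit 466) (nat_lit 431) (nat_lit 303)) (XT.lf (nat_lit 0) (nat_lit 161961258) (nat_lit 228) (nat_lit 12092272155) (nat_lit 76) (nat_lit 37782144267) (nat_lit 87) (nat_lit 5) (nat_lit 90) (nat_lit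 5) (nat_lit 88) (nat_lit 5) (nat_lit 467) (nat_lit 431) (nat_lit 302))) (XT.nd (nat_lit 78) (nat_lit 0) (nat_lit 0) (XT.lf (nat_lit 0) (nat_lit 11898658272) (nat_lit 304) (nat_lit 32906826609) (nat_lit 76) (nat_lit 6777859330) (nat_lit 84) (nat_lit 5) (nat_lit 88) (nat_lit 5) (nat_lit 85) (nat_lit 5) (nat_lit 468) (nat_lit 431) (nat_lit 301)) (XT.lf (nat_lit 0) (nat_lit 24627826689) (nat_lit 304) (nat_lit 2003609199) (nat_lit 76) (nat_lit 26555941607) (nat_lit 84) (nat_lit 5) (nat_lit 88) (nat_lit 5) (nat_lit 85) (nat_lit 5) (nat_lit 469) (nat_lit 431) (nat_lit 300))))))) (XT.nd (nat_lit 1170) (nat_lit 1140) (nat_lit 0) (XT.nd (nat_lit 546) (nat_lit 760) (nat_lit 0) (XT.nd (nat_lit 234) (nat_lit 532) (nat_lit 0) (XT.nd (nat_lit 78) (nat_lit 228) (nat_lit 0) (XT.lf (nat_lit 0) (nat_lit 31445992926) (nat_lit 152) (nat_lit 7035184307) (nat_lit 228) (nat_lit 16366049268) (nat_lit 82) (nat_lit 5)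 (nat_lit 84) (nat_lit 5) (nat_lit 85) (nat_lit 5) (nat_lit 470) (nat_lit 431) (nat_lit 299)) (XT.nd (nat_lit 78) (nat_lit 76) (nat_lit 0) (XT.lf (nat_lit 0) (nat_lit 10157100991) (nat_lit 152) (nat_lit 43271380570) (nat_lit 228) (nat_lit 3141522312) (nat_lit 80) (nat_lit 5) (nat_lit 82) (nat_lit 5) (nat_lit 83) (nat_lit 5) (nat_lit 471) (nat_lit 431) (nat_lit 298)) (XT.lf (nat_lit 0) (nat_lit 10915312988) (nat_lit 228) (nat_lit 12448196450) (nat_lit 76) (nat_lit 34981275283) (nat_lit 79) (nat_lit 5) (nat_lit 82) (nat_lit 5) (nat_lit 80) (nat_lit 5) (nat_lit 472) (nat_lit 431) (nat_lit 297)))) (XT.nd (nat_lit 156) (nat_lit 228) (nat_lit 0) (XT.nd (nat_lit 78) (nat_lit 152) (nat_lit 0) (XT.lf (nat_lit 0) (nat_lit 23923905199) (nat_lit 152) (nat_lit 2016004959) (nat_lit 228) (nat_lit 34247294840) (nat_lit 77) (nat_lit 5) (nat_lit 79) (nat_lit 5) (nat_lit 80) (nat_lit 5) (nat_lit 473) (nat_lit 431)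 (nat_lit 296)) (XT.lf (nat_lit 0) (nat_lit 112140135) (nat_lit 152) (nat_lit 42135115221) (nat_lit 228) (nat_lit 19847915214) (nat_lit 75) (nat_lit 5) (nat_lit 77) (nat_lit 5) (nat_lit 78) (nat_lit 5) (nat_lit 474) (nat_lit 431) (nat_lit 295))) (XT.nd (nat_lit 78) (nat_lit 228) (nat_lit 0) (XT.lf (nat_lit 0) (nat_lit 39526182849) (nat_lit 152) (nat_lit 20487513348) (nat_lit 228) (nat_lit 4052651984) (nat_lit 75) (nat_lit 5) (nat_lit 77) (nat_lit 5) (nat_lit 78) (nat_lit 5) (nat_lit 475) (nat_lit 431) (nat_lit 294)) (XT.lf (nat_lit 0) (nat_lit 12405539567) (nat_lit 228) (nat_lit 51100522567) (nat_lit 76) (nat_lit 2606525458) (nat_lit 72) (nat_lit 5) (nat_lit 75) (nat_lit 5) (nat_lit 73) (nat_lit 5) (nat_lit 476) (nat_lit 431) (nat_lit 293))))) (XT.nd (nat_lit 312) (nat_lit 456) (nat_lit 0) (XT.nd (nat_lit 156) (nat_lit 152) (nat_lit 0) (XT.nd (nat_lit 78) (nat_lit 152) (nat_lit 0) (XT.lf (nat_lit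 0) (nat_lit 30305916333) (nat_lit 228) (nat_lit 11260475121) (nat_lit 76) (nat_lit 26653652265) (nat_lit 72) (nat_lit 5) (nat_lit 75) (nat_lit 5) (nat_lit 73) (nat_lit 5) (nat_lit 477) (nat_lit 431) (nat_lit 292)) (XT.lf (nat_lit 0) (nat_lit 31577596657) (nat_lit 152) (nat_lit 18014061259) (nat_lit 228) (nat_lit 20816697583) (nat_lit 70) (nat_lit 5) (nat_lit 72) (nat_lit 5) (nat_lit 73) (nat_lit 5) (nat_lit 478) (nat_lit 431) (nat_lit 291))) (XT.nd (nat_lit 78) (nat_lit 76) (nat_lit 0) (XT.lf (nat_lit 0) (nat_lit 4276163125) (nat_lit 76) (nat_lit 65928323960) (nat_lit 152) (nat_lit 2483455900) (nat_lit 69) (nat_lit 5) (nat_lit 70) (nat_lit 5) (nat_lit 71) (nat_lit 4) (nat_lit 479) (nat_lit 431) (nat_lit 290)) (XT.lf (nat_lit 0) (nat_lit 17190894963) (nat_lit 152) (nat_lit 24734640733) (nat_lit 76) (nat_lit 33094831809) (nat_lit 68) (nat_lit 5) (nat_lit 70) (nat_lit 5) (nat_lit 69) (nat_lit 5)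 (nat_lit 480) (nat_lit 431) (nat_lit 289)))) (XT.nd (nat_lit 156) (nat_lit 304) (nat_lit 0) (XT.nd (nat_lit 78) (nat_lit 0) (nat_lit 0) (XT.lf (nat_lit 0) (nat_lit 21778210371) (nat_lit 152) (nat_lit 16324804206) (nat_lit 228) (nat_lit 39347487596) (nat_lit 66) (nat_lit 5) (nat_lit 68) (nat_lit 5) (nat_lit 69) (nat_lit 5) (nat_lit 481) (nat_lit 431) (nat_lit 288)) (XT.lf (nat_lit 0) (nat_lit 60648821656) (nat_lit 228) (nat_lit 8681931115) (nat_lit 76) (nat_lit 10641986845) (nat_lit 66) (nat_lit 5) (nat_lit 69) (nat_lit 5) (nat_lit 67) (nat_lit 4) (nat_lit 482) (nat_lit 431) (nat_lit 287))) (XT.nd (nat_lit 78) (nat_lit 152) (nat_lit 0) (XT.lf (nat_lit 0) (nat_lit 2578058894) (nat_lit 152) (nat_lit 40895443542) (nat_lit 76) (nat_lit 39099675568) (nat_lit 64) (nat_lit 5) (nat_lit 66) (nat_lit 5) (nat_lit 65) (nat_lit 5) (nat_lit 483) (nat_lit 431) (nat_lit 286)) (XT.lf (nat_lit 0) (nat_lit 9542448679)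 (nat_lit 152) (nat_lit 15679343431) (nat_lit 228) (nat_lit 60051203631) (nat_lit 62) (nat_lit 5) (nat_lit 64) (nat_lit 5) (nat_lit 65) (nat_lit 5) (nat_lit 484) (nat_lit 431) (nat_lit 285)))))) (XT.nd (nat_lit 624) (nat_lit 532) (nat_lit 0) (XT.nd (nat_lit 312) (nat_lit 304) (nat_lit 0) (XT.nd (nat_lit 156) (nat_lit 228) (nat_lit 0) (XT.nd (nat_lit 78) (nat_lit 76) (nat_lit 0) (XT.lf (nat_lit 0) (nat_lit 49910150608) (nat_lit 228) (nat_lit 24377643398) (nat_lit 76) (nat_lit 13774388523) (nat_lit 62) (nat_lit 5) (nat_lit 65) (nat_lit 5) (nat_lit 63) (nat_lit 4) (nat_lit 485) (nat_lit 431) (nat_lit 284)) (XT.lf (nat_lit 0) (nat_lit 30249955564) (nat_lit 76) (nat_lit 46310065226) (nat_lit 152) (nat_lit 14394453270) (nat_lit 61) (nat_lit 5) (nat_lit 62) (nat_lit 5) (nat_lit 63) (nat_lit 4) (nat_lit 486) (nat_lit 431) (nat_lit 283))) (XT.nd (nat_lit 78) (nat_lit 152) (nat_lit 0) (XT.lf (nat_lit 0)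 (nat_lit 10630697551) (nat_lit 152) (nat_lit 5691071798) (nat_lit 76) (nat_lit 77640504801) (nat_lit 60) (nat_lit 5) (nat_lit 62) (nat_lit 5) (nat_lit 61) (nat_lit 5) (nat_lit 487) (nat_lit 431) (nat_lit 282)) (XT.lf (nat_lit 0) (nat_lit 37511587142) (nat_lit 228) (nat_lit 43774298986) (nat_lit 76) (nat_lit 15768367999) (nat_lit 58) (nat_lit 5) (nat_lit 61) (nat_lit 5) (nat_lit 59) (nat_lit 4) (nat_lit 488) (nat_lit 431) (nat_lit 281)))) (XT.nd (nat_lit 156) (nat_lit 228) (nat_lit 0) (XT.nd (nat_lit 78) (nat_lit 0) (nat_lit 0) (XT.lf (nat_lit 0) (nat_lit 15318307920) (nat_lit 76) (nat_lit 51020801202) (nat_lit 152) (nat_lit 33931594661) (nat_lit 57) (nat_lit 5) (nat_lit 58) (nat_lit 5) (nat_lit 59) (nat_lit 4) (nat_lit 489) (nat_lit 431) (nat_lit 280)) (XT.lf (nat_lit 0) (nat_lit 78881429150) (nat_lit 76) (nat_lit 18465852072) (nat_lit 152) (nat_lit 6263731071) (nat_lit 57) (nat_lit 5) (nat_lit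 58) (nat_lit 5) (nat_lit 59) (nat_lit 4) (nat_lit 490) (nat_lit 431) (nat_lit 279))) (XT.nd (nat_lit 78) (nat_lit 0) (nat_lit 0) (XT.lf (nat_lit 0) (nat_lit 22932698252) (nat_lit 228) (nat_lit 67925069532) (nat_lit 76) (nat_lit 16199053866) (nat_lit 54) (nat_lit 5) (nat_lit 57) (nat_lit 5) (nat_lit 55) (nat_lit 4) (nat_lit 491) (nat_lit 431) (nat_lit 278)) (XT.lf (nat_lit 0) (nat_lit 54104850563) (nat_lit 228) (nat_lit 4025294387) (nat_lit 76) (nat_lit 52503322185) (nat_lit 54) (nat_lit 5) (nat_lit 57) (nat_lit 5) (nat_lit 55) (nat_lit 4) (nat_lit 492) (nat_lit 431) (nat_lit 277))))) (XT.nd (nat_lit 312) (nat_lit 228) (nat_lit 0) (XT.nd (nat_lit 156) (nat_lit 76) (nat_lit 0) (XT.nd (nat_lit 78) (nat_lit 152) (nat_lit 0) (XT.lf (nat_lit 0) (nat_lit 65151137541) (nat_lit 76) (nat_lit 22699771379) (nat_lit 152) (nat_lit 26487271110) (nat_lit 53) (nat_lit 5) (nat_lit 54) (nat_lit 5) (nat_lit 55)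 (nat_lit 4) (nat_lit 493) (nat_lit 431) (nat_lit 276)) (XT.lf (nat_lit 0) (nat_lit 5512137985) (nat_lit 152) (nat_lit 98172565872) (nat_lit 76) (nat_lit 14508586515) (nat_lit 51) (nat_lit 5) (nat_lit 53) (nat_lit 5) (nat_lit 52) (nat_lit 4) (nat_lit 494) (nat_lit 431) (nat_lit 275))) (XT.nd (nat_lit 78) (nat_lit 76) (nat_lit 0) (XT.lf (nat_lit 0) (nat_lit 39438281354) (nat_lit 152) (nat_lit 28626552858) (nat_lit 76) (nat_lit 54093765703) (nat_lit 51) (nat_lit 5) (nat_lit 53) (nat_lit 5) (nat_lit 52) (nat_lit 4) (nat_lit 495) (nat_lit 431) (nat_lit 274)) (XT.lf (nat_lit 0) (nat_lit 45861187076) (nat_lit 76) (nat_lit 29913776193) (nat_lit 152) (nat_lit 50511500143) (nat_lit 50) (nat_lit 5) (nat_lit 51) (nat_lit 5) (nat_lit 52) (nat_lit 4) (nat_lit 496) (nat_lit 431) (nat_lit 273)))) (XT.nd (nat_lit 156) (nat_lit 76) (nat_lit 0) (XT.nd (nat_lit 78) (nat_lit 152) (nat_lit 0) (XT.lf (nat_lit 0) (nat_lit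 114577838124) (nat_lit 152) (nat_lit 5699079345) (nat_lit 0) (nat_lit 10311334721) (nat_lit 50) (nat_lit 5) (nat_lit 52) (nat_lit 4) (nat_lit 50) (nat_lit 4) (nat_lit 497) (nat_lit 431) (nat_lit 272)) (XT.lf (nat_lit 0) (nat_lit 21250150595) (nat_lit 152) (nat_lit 60705817987) (nat_lit 76) (nat_lit 53049307970) (nat_lit 48) (nat_lit 5) (nat_lit 50) (nat_lit 5) (nat_lit 49) (nat_lit 4) (nat_lit 498) (nat_lit 431) (nat_lit 271))) (XT.nd (nat_lit 78) (nat_lit 0) (nat_lit 0) (XT.lf (nat_lit 0) (nat_lit 19204816091) (nat_lit 76) (nat_lit 41027118053) (nat_lit 152) (nat_lit 79378282460) (nat_lit 47) (nat_lit 5) (nat_lit 48) (nat_lit 5) (nat_lit 49) (nat_lit 4) (nat_lit 499) (nat_lit 431) (nat_lit 270)) (XT.lf (nat_lit 0) (nat_lit 102236471516) (nat_lit 152) (nat_lit 39225991533) (nat_lit 0) (nat_lit 2929257415) (nat_lit 47) (nat_lit 5) (nat_lit 49) (nat_lit 4) (nat_lit 47) (nat_lit 4) (nat_lit 500)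 (nat_lit 431) (nat_lit 269))))))))
noncomputable def xc162 : XT := (XT.nd (nat_lit 2418) (nat_lit 760) (nat_lit 0) (XT.nd (nat_lit 1170) (nat_lit 836) (nat_lit 0) (XT.nd (nat_lit 546) (nat_lit 532) (nat_lit 0) (XT.nd (nat_lit 234) (nat_lit 228) (nat_lit 0) (XT.nd (nat_lit 78) (nat_lit 152) (nat_lit 0) (XT.lf (nat_lit 0) (nat_lit 46835731414) (nat_lit 76) (nat_lit 100907709418) (nat_lit 76) (nat_lit 1598748467) (nat_lit 46) (nat_lit 4) (nat_lit 47) (nat_lit 5) (nat_lit 47) (nat_lit 4) (nat_lit 501) (nat_lit 431) (nat_lit 268)) (XT.nd (nat_lit 78) (nat_lit 76) (nat_lit 0) (XT.lf (nat_lit 0) (nat_lit 40347379212) (nat_lit 152) (nat_lit 16598497230) (nat_lit 76) (nat_lit 97528630350) (nat_lit 45) (nat_lit 5) (nat_lit 47) (nat_lit 5) (nat_lit 46) (nat_lit 4) (nat_lit 502) (nat_lit 431) (nat_lit 267)) (XT.lf (nat_lit 0) (nat_lit 76008425817) (nat_lit 76) (nat_lit 9513835098) (nat_lit 152) (nat_lit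 74280610024) (nat_lit 44) (nat_lit 5) (nat_lit 45) (nat_lit 5) (nat_lit 46) (nat_lit 4) (nat_lit 503) (nat_lit 431) (nat_lit 266)))) (XT.nd (nat_lit 156) (nat_lit 76) (nat_lit 0) (XT.nd (nat_lit 78) (nat_lit 76) (nat_lit 0) (XT.lf (nat_lit 0) (nat_lit 8059698933) (nat_lit 76) (nat_lit 125935247397) (nat_lit 76) (nat_lit 31350754011) (nat_lit 43) (nat_lit 4) (nat_lit 44) (nat_lit 5) (nat_lit 44) (nat_lit 4) (nat_lit 504) (nat_lit 431) (nat_lit 265)) (XT.lf (nat_lit 0) (nat_lit 14883096712) (nat_lit 152) (nat_lit 64075513827) (nat_lit 76) (nat_lit 92116505618) (nat_lit 42) (nat_lit 5) (nat_lit 44) (nat_lit 5) (nat_lit 43) (nat_lit 4) (nat_lit 505) (nat_lit 431) (nat_lit 264))) (XT.nd (nat_lit 78) (nat_lit 0) (nat_lit 0) (XT.lf (nat_lit 0) (nat_lit 34379059510) (nat_lit 76) (nat_lit 28531294208) (nat_lit 152) (nat_lit 114128186499) (nat_lit 41) (nat_lit 5) (nat_lit 42) (nat_lit 5) (nat_lit 43) (nat_lit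 4) (nat_lit 506) (nat_lit 431) (nat_lit 263)) (XT.lf (nat_lit 0) (nat_lit 114821691870) (nat_lit 152) (nat_lit 43666813057) (nat_lit 0) (nat_lit 24737494663) (nat_lit 41) (nat_lit 5) (nat_lit 43) (nat_lit 4) (nat_lit 41) (nat_lit 4) (nat_lit 507) (nat_lit 431) (nat_lit 262))))) (XT.nd (nat_lit 312) (nat_lit 304) (nat_lit 0) (XT.nd (nat_lit 156) (nat_lit 76) (nat_lit 0) (XT.nd (nat_lit 78) (nat_lit 76) (nat_lit 0) (XT.lf (nat_lit 0) (nat_lit 61782481822) (nat_lit 76) (nat_lit 108977062990) (nat_lit 76) (nat_lit 18891739748) (nat_lit 40) (nat_lit 4) (nat_lit 41) (nat_lit 5) (nat_lit 41) (nat_lit 4) (nat_lit 508) (nat_lit 431) (nat_lit 261)) (XT.lf (nat_lit 0) (nat_lit 32787431026) (nat_lit 152) (nat_lit 22872162051) (nat_lit 76) (nat_lit 140674890916) (nat_lit 39) (nat_lit 5) (nat_lit 41) (nat_lit 5) (nat_lit 40) (nat_lit 4) (nat_lit 509) (nat_lit 431) (nat_lit 260))) (XT.nd (nat_lit 78) (nat_lit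 0) (nat_lit 0) (XT.lf (nat_lit 0) (nat_lit 87851723597) (nat_lit 152) (nat_lit 113358648713) (nat_lit 0) (nat_lit 2054183595) (nat_lit 38) (nat_lit 5) (nat_lit 40) (nat_lit 4) (nat_lit 38) (nat_lit 4) (nat_lit 510) (nat_lit 431) (nat_lit 259)) (XT.lf (nat_lit 0) (nat_lit 146974078762) (nat_lit 152) (nat_lit 2326197902) (nat_lit 0) (nat_lit 61175612369) (nat_lit 38) (nat_lit 5) (nat_lit 40) (nat_lit 4) (nat_lit 38) (nat_lit 4) (nat_lit 511) (nat_lit 431) (nat_lit 258)))) (XT.nd (nat_lit 156) (nat_lit 76) (nat_lit 0) (XT.nd (nat_lit 78) (nat_lit 152) (nat_lit 0) (XT.lf (nat_lit 0) (nat_lit 118033217050) (nat_lit 76) (nat_lit 92860920580) (nat_lit 76) (nat_lit 7061571909) (nat_lit 37) (nat_lit 4) (nat_lit 38) (nat_lit 5) (nat_lit 38) (nat_lit 4) (nat_lit 512) (nat_lit 431) (nat_lit 257)) (XT.lf (nat_lit 0) (nat_lit 18456428135) (nat_lit 76) (nat_lit 32400458240) (nat_lit 152) (nat_lit 174895536981)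 (nat_lit 35) (nat_lit 5) (nat_lit 36) (nat_lit 5) (nat_lit 37) (nat_lit 4) (nat_lit 513) (nat_lit 431) (nat_lit 256))) (XT.nd (nat_lit 78) (nat_lit 76) (nat_lit 0) (XT.lf (nat_lit 0) (nat_lit 113637983607) (nat_lit 152) (nat_lit 88262243732) (nat_lit 0) (nat_lit 31922755810) (nat_lit 35) (nat_lit 5) (nat_lit 37) (nat_lit 4) (nat_lit 35) (nat_lit 4) (nat_lit 514) (nat_lit 431) (nat_lit 255)) (XT.lf (nat_lit 0) (nat_lit 37386289749) (nat_lit 76) (nat_lit 143285525436) (nat_lit 76) (nat_lit 61569571787) (nat_lit 34) (nat_lit 4) (nat_lit 35) (nat_lit 5) (nat_lit 35) (nat_lit 4) (nat_lit 515) (nat_lit 431) (nat_lit 254)))))) (XT.nd (nat_lit 624) (nat_lit 380) (nat_lit 0) (XT.nd (nat_lit 312) (nat_lit 228) (nat_lit 0) (XT.nd (nat_lit 156) (nat_lit 76) (nat_lit 0) (XT.nd (nat_lit 78) (nat_lit 76) (nat_lit 0) (XT.lf (nat_lit 0) (nat_lit 1495464379) (nat_lit 152) (nat_lit 78650942960) (nat_lit 76) (nat_lit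 170858417461) (nat_lit 33) (nat_lit 5) (nat_lit 35) (nat_lit 5) (nat_lit 34) (nat_lit 4) (nat_lit 516) (nat_lit 431) (nat_lit 253)) (XT.lf (nat_lit 0) (nat_lit 54599367803) (nat_lit 76) (nat_lit 11896569323) (nat_lit 152) (nat_lit 193617464235) (nat_lit 32) (nat_lit 5) (nat_lit 33) (nat_lit 5) (nat_lit 34) (nat_lit 4) (nat_lit 517) (nat_lit 431) (nat_lit 252))) (XT.nd (nat_lit 78) (nat_lit 76) (nat_lit 0) (XT.lf (nat_lit 0) (nat_lit 137032251265) (nat_lit 152) (nat_lit 73325213655) (nat_lit 0) (nat_lit 59205650956) (nat_lit 32) (nat_lit 5) (nat_lit 34) (nat_lit 4) (nat_lit 32) (nat_lit 4) (nat_lit 518) (nat_lit 431) (nat_lit 251)) (XT.lf (nat_lit 0) (nat_lit 67434206999) (nat_lit 76) (nat_lit 144907969204) (nat_lit 76) (nat_lit 67080800171) (nat_lit 31) (nat_lit 4) (nat_lit 32) (nat_lit 5) (nat_lit 32) (nat_lit 4) (nat_lit 519) (nat_lit 431) (nat_lit 250)))) (XT.nd (nat_lit 156) (nat_lit 76)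 (nat_lit 0) (XT.nd (nat_lit 78) (nat_lit 76) (nat_lit 0) (XT.lf (nat_lit 0) (nat_lit 2850309304) (nat_lit 152) (nat_lit 71984576600) (nat_lit 76) (nat_lit 214876607942) (nat_lit 30) (nat_lit 5) (nat_lit 32) (nat_lit 5) (nat_lit 31) (nat_lit 4) (nat_lit 520) (nat_lit 431) (nat_lit 249)) (XT.lf (nat_lit 0) (nat_lit 75232744483) (nat_lit 152) (nat_lit 224055628224) (nat_lit 0) (nat_lit 1110623984) (nat_lit 29) (nat_lit 5) (nat_lit 31) (nat_lit 4) (nat_lit 29) (nat_lit 4) (nat_lit 521) (nat_lit 431) (nat_lit 248))) (XT.nd (nat_lit 78) (nat_lit 76) (nat_lit 0) (XT.lf (nat_lit 0) (nat_lit 153699167323) (nat_lit 152) (nat_lit 78221885136) (nat_lit 0) (nat_lit 79576578933) (nat_lit 29) (nat_lit 5) (nat_lit 31) (nat_lit 4) (nat_lit 29) (nat_lit 4) (nat_lit 522) (nat_lit 431) (nat_lit 247)) (XT.lf (nat_lit 0) (nat_lit 77378196010) (nat_lit 76) (nat_lit 159917839801) (nat_lit 76) (nat_lit 85794805800) (nat_lit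 28) (nat_lit 4) (nat_lit 29) (nat_lit 5) (nat_lit 29) (nat_lit 4) (nat_lit 523) (nat_lit 431) (nat_lit 246))))) (XT.nd (nat_lit 312) (nat_lit 152) (nat_lit 0) (XT.nd (nat_lit 156) (nat_lit 76) (nat_lit 0) (XT.nd (nat_lit 78) (nat_lit 152) (nat_lit 0) (XT.lf (nat_lit 0) (nat_lit 243472065037) (nat_lit 76) (nat_lit 82924458458) (nat_lit 76) (nat_lit 8801000067) (nat_lit 28) (nat_lit 4) (nat_lit 29) (nat_lit 5) (nat_lit 29) (nat_lit 4) (nat_lit 524) (nat_lit 431) (nat_lit 245)) (XT.lf (nat_lit 0) (nat_lit 70850128680) (nat_lit 152) (nat_lit 276691525701) (nat_lit 0) (nat_lit 255973849) (nat_lit 26) (nat_lit 5) (nat_lit 28) (nat_lit 4) (nat_lit 26) (nat_lit 4) (nat_lit 525) (nat_lit 431) (nat_lit 244))) (XT.nd (nat_lit 78) (nat_lit 76) (nat_lit 0) (XT.lf (nat_lit 0) (nat_lit 157125422696) (nat_lit 152) (nat_lit 117217331241) (nat_lit 0) (nat_lit 86530901261) (nat_lit 26) (nat_lit 5) (nat_lit 28)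 (nat_lit 4) (nat_lit 26) (nat_lit 4) (nat_lit 526) (nat_lit 431) (nat_lit 243)) (XT.lf (nat_lit 0) (nat_lit 51889607843) (nat_lit 76) (nat_lit 196634141434) (nat_lit 76) (nat_lit 126039270851) (nat_lit 25) (nat_lit 4) (nat_lit 26) (nat_lit 5) (nat_lit 26) (nat_lit 4) (nat_lit 527) (nat_lit 431) (nat_lit 242)))) (XT.nd (nat_lit 156) (nat_lit 0) (nat_lit 0) (XT.nd (nat_lit 78) (nat_lit 152) (nat_lit 0) (XT.lf (nat_lit 0) (nat_lit 233519686664) (nat_lit 76) (nat_lit 112956578062) (nat_lit 76) (nat_lit 42361374958) (nat_lit 25) (nat_lit 4) (nat_lit 26) (nat_lit 5) (nat_lit 26) (nat_lit 4) (nat_lit 528) (nat_lit 431) (nat_lit 241)) (XT.lf (nat_lit 0) (nat_lit 20344363387) (nat_lit 76) (nat_lit 24016555235) (nat_lit 152) (nat_lit 359413712133) (nat_lit 23) (nat_lit 5) (nat_lit 24) (nat_lit 5) (nat_lit 25) (nat_lit 4) (nat_lit 529) (nat_lit 431) (nat_lit 240))) (XT.nd (nat_lit 78) (nat_lit 0) (nat_lit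 0) (XT.lf (nat_lit 0) (nat_lit 137751448898) (nat_lit 152) (nat_lit 210967179670) (nat_lit 0) (nat_lit 70517333281) (nat_lit 23) (nat_lit 5) (nat_lit 25) (nat_lit 4) (nat_lit 23) (nat_lit 4) (nat_lit 530) (nat_lit 431) (nat_lit 239)) (XT.lf (nat_lit 0) (nat_lit 236204428102) (nat_lit 152) (nat_lit 30276246361) (nat_lit 0) (nat_lit 168970038919) (nat_lit 23) (nat_lit 5) (nat_lit 25) (nat_lit 4) (nat_lit 23) (nat_lit 4) (nat_lit 531) (nat_lit 431) (nat_lit 238))))))) (XT.nd (nat_lit 1170) (nat_lit 76) (nat_lit 0) (XT.nd (nat_lit 546) (nat_lit 380) (nat_lit 0) (XT.nd (nat_lit 234) (nat_lit 76) (nat_lit 0) (XT.nd (nat_lit 78) (nat_lit 152) (nat_lit 0) (XT.lf (nat_lit 0) (nat_lit 164719776336) (nat_lit 76) (nat_lit 177431263356) (nat_lit 76) (nat_lit 110196613635) (nat_lit 22) (nat_lit 4) (nat_lit 23) (nat_lit 5) (nat_lit 23) (nat_lit 4) (nat_lit 532) (nat_lit 431) (nat_lit 237)) (XT.nd (nat_lit 78)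 (nat_lit 152) (nat_lit 0) (XT.lf (nat_lit 0) (nat_lit 370515228760) (nat_lit 76) (nat_lit 83391754645) (nat_lit 76) (nat_lit 16156856791) (nat_lit 22) (nat_lit 4) (nat_lit 23) (nat_lit 5) (nat_lit 23) (nat_lit 4) (nat_lit 533) (nat_lit 431) (nat_lit 236)) (XT.lf (nat_lit 0) (nat_lit 81786040833) (nat_lit 152) (nat_lit 388970527528) (nat_lit 0) (nat_lit 17752579719) (nat_lit 20) (nat_lit 5) (nat_lit 22) (nat_lit 4) (nat_lit 20) (nat_lit 4) (nat_lit 534) (nat_lit 431) (nat_lit 235)))) (XT.nd (nat_lit 156) (nat_lit 0) (nat_lit 0) (XT.nd (nat_lit 78) (nat_lit 76) (nat_lit 0) (XT.lf (nat_lit 0) (nat_lit 187163009744) (nat_lit 152) (nat_lit 197417138874) (nat_lit 0) (nat_lit 123129334283) (nat_lit 20) (nat_lit 5) (nat_lit 22) (nat_lit 4) (nat_lit 20) (nat_lit 4) (nat_lit 535) (nat_lit 431) (nat_lit 234)) (XT.lf (nat_lit 0) (nat_lit 3835293869) (nat_lit 76) (nat_lit 294032730176) (nat_lit 76) (nat_lit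 229998850576) (nat_lit 19) (nat_lit 4) (nat_lit 20) (nat_lit 5) (nat_lit 20) (nat_lit 4) (nat_lit 536) (nat_lit 431) (nat_lit 233))) (XT.nd (nat_lit 78) (nat_lit 0) (nat_lit 0) (XT.lf (nat_lit 0) (nat_lit 222002869068) (nat_lit 76) (nat_lit 195448103355) (nat_lit 76) (nat_lit 131414029337) (nat_lit 19) (nat_lit 4) (nat_lit 20) (nat_lit 5) (nat_lit 20) (nat_lit 4) (nat_lit 537) (nat_lit 431) (nat_lit 232)) (XT.lf (nat_lit 0) (nat_lit 451077531160) (nat_lit 76) (nat_lit 91934897627) (nat_lit 76) (nat_lit 27900638448) (nat_lit 19) (nat_lit 4) (nat_lit 20) (nat_lit 5) (nat_lit 20) (nat_lit 4) (nat_lit 538) (nat_lit 431) (nat_lit 231))))) (XT.nd (nat_lit 312) (nat_lit 152) (nat_lit 0) (XT.nd (nat_lit 156) (nat_lit 76) (nat_lit 0) (XT.nd (nat_lit 78) (nat_lit 0) (nat_lit 0) (XT.lf (nat_lit 0) (nat_lit 80062670583) (nat_lit 152) (nat_lit 494767305691) (nat_lit 0) (nat_lit 19077493896) (nat_lit 17) (nat_lit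 5) (nat_lit 19) (nat_lit 4) (nat_lit 17) (nat_lit 4) (nat_lit 539) (nat_lit 431) (nat_lit 230)) (XT.lf (nat_lit 0) (nat_lit 196055754541) (nat_lit 152) (nat_lit 286724088739) (nat_lit 0) (nat_lit 135070417905) (nat_lit 17) (nat_lit 5) (nat_lit 19) (nat_lit 4) (nat_lit 17) (nat_lit 4) (nat_lit 540) (nat_lit 431) (nat_lit 229))) (XT.nd (nat_lit 78) (nat_lit 76) (nat_lit 0) (XT.lf (nat_lit 0) (nat_lit 317847903723) (nat_lit 152) (nat_lit 68279902725) (nat_lit 0) (nat_lit 256862414756) (nat_lit 17) (nat_lit 5) (nat_lit 19) (nat_lit 4) (nat_lit 17) (nat_lit 4) (nat_lit 541) (nat_lit 431) (nat_lit 228)) (XT.lf (nat_lit 0) (nat_lit 166411566958) (nat_lit 76) (nat_lit 281915683406) (nat_lit 76) (nat_lit 220930049361) (nat_lit 16) (nat_lit 4) (nat_lit 17) (nat_lit 5) (nat_lit 17) (nat_lit 4) (nat_lit 542) (nat_lit 431) (nat_lit 227)))) (XT.nd (nat_lit 156) (nat_lit 76) (nat_lit 0) (XT.nd (nat_lit 78)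 (nat_lit 76) (nat_lit 0) (XT.lf (nat_lit 0) (nat_lit 415207017442) (nat_lit 76) (nat_lit 171279348436) (nat_lit 76) (nat_lit 110293576221) (nat_lit 16) (nat_lit 4) (nat_lit 17) (nat_lit 5) (nat_lit 17) (nat_lit 4) (nat_lit 543) (nat_lit 431) (nat_lit 226)) (XT.lf (nat_lit 0) (nat_lit 5686158829) (nat_lit 152) (nat_lit 49329278203) (nat_lit 76) (nat_lit 670658720219) (nat_lit 15) (nat_lit 5) (nat_lit 17) (nat_lit 5) (nat_lit 16) (nat_lit 4) (nat_lit 544) (nat_lit 431) (nat_lit 225))) (XT.nd (nat_lit 78) (nat_lit 0) (nat_lit 0) (XT.lf (nat_lit 0) (nat_lit 127993740102) (nat_lit 152) (nat_lit 557805358548) (nat_lit 0) (nat_lit 69911807600) (nat_lit 14) (nat_lit 5) (nat_lit 16) (nat_lit 4) (nat_lit 14) (nat_lit 4) (nat_lit 545) (nat_lit 431) (nat_lit 224)) (XT.lf (nat_lit 0) (nat_lit 258167195198) (nat_lit 152) (nat_lit 328909623742) (nat_lit 0) (nat_lit 200085149023) (nat_lit 14) (nat_lit 5) (nat_lit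 16) (nat_lit 4) (nat_lit 14) (nat_lit 4) (nat_lit 546) (nat_lit 431) (nat_lit 223)))))) (XT.nd (nat_lit 53976) (nat_lit 0) (nat_lit 9348) (XT.nd (nat_lit 53664) (nat_lit 0) (nat_lit 10260) (XT.nd (nat_lit 53508) (nat_lit 0) (nat_lit 10184) (XT.nd (nat_lit 78) (nat_lit 76) (nat_lit 0) (XT.lf (nat_lit 0) (nat_lit 394848839069) (nat_lit 152) (nat_lit 88570083259) (nat_lit 0) (nat_lit 336766684635) (nat_lit 14) (nat_lit 5) (nat_lit 16) (nat_lit 4) (nat_lit 14) (nat_lit 4) (nat_lit 547) (nat_lit 431) (nat_lit 222)) (XT.lf (nat_lit 0) (nat_lit 169200988205) (nat_lit 76) (nat_lit 371804817607) (nat_lit 76) (nat_lit 313722560068) (nat_lit 13) (nat_lit 4) (nat_lit 14) (nat_lit 5) (nat_lit 14) (nat_lit 4) (nat_lit 548) (nat_lit 431) (nat_lit 221))) (XT.nd (nat_lit 78) (nat_lit 0) (nat_lit 0) (XT.lf (nat_lit 0) (nat_lit 2840534148) (nat_lit 836) (nat_lit 3445952235) (nat_lit 836) (nat_lit 3445952235) (nat_lit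 147) (nat_lit 3) (nat_lit 158) (nat_lit 3) (nat_lit 158) (nat_lit 5) (nat_lit 432) (nat_lit 432) (nat_lit 336)) (XT.lf (nat_lit 76) (nat_lit 2853325865) (nat_lit 0) (nat_lit 3186065538) (nat_lit 836) (nat_lit 13901266380) (nat_lit 148) (nat_lit 5) (nat_lit 147) (nat_lit 3) (nat_lit 158) (nat_lit 5) (nat_lit 433) (nat_lit 432) (nat_lit 335)))) (XT.nd (nat_lit 156) (nat_lit 0) (nat_lit 76) (XT.nd (nat_lit 78) (nat_lit 0) (nat_lit 0) (XT.lf (nat_lit 0) (nat_lit 6627394991) (nat_lit 760) (nat_lit 7221955739) (nat_lit 836) (nat_lit 6580290111) (nat_lit 148) (nat_lit 5) (nat_lit 158) (nat_lit 5) (nat_lit 159) (nat_lit 5) (nat_lit 434) (nat_lit 432) (nat_lit 334)) (XT.lf (nat_lit 76) (nat_lit 3179951615) (nat_lit 0) (nat_lit 4156242699) (nat_lit 836) (nat_lit 13602310579) (nat_lit 149) (nat_lit 5) (nat_lit 148) (nat_lit 5) (nat_lit 159) (nat_lit 5) (nat_lit 435) (nat_lit 432) (nat_lit 333))) (XT.nd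 (nat_lit 78) (nat_lit 0) (nat_lit 0) (XT.lf (nat_lit 0) (nat_lit 8288739261) (nat_lit 760) (nat_lit 7216780679) (nat_lit 836) (nat_lit 5956878467) (nat_lit 149) (nat_lit 5) (nat_lit 159) (nat_lit 5) (nat_lit 160) (nat_lit 5) (nat_lit 436) (nat_lit 432) (nat_lit 332)) (XT.lf (nat_lit 76) (nat_lit 3902418246) (nat_lit 0) (nat_lit 5506013630) (nat_lit 836) (nat_lit 12598080169) (nat_lit 150) (nat_lit 5) (nat_lit 149) (nat_lit 5) (nat_lit 160) (nat_lit 5) (nat_lit 437) (nat_lit 432) (nat_lit 331))))) (XT.nd (nat_lit 312) (nat_lit 1064) (nat_lit 0) (XT.nd (nat_lit 156) (nat_lit 0) (nat_lit 76) (XT.nd (nat_lit 78) (nat_lit 0) (nat_lit 0) (XT.lf (nat_lit 0) (nat_lit 10777152358) (nat_lit 760) (nat_lit 6830389214) (nat_lit 836) (nat_lit 4960639029) (nat_lit 150) (nat_lit 5) (nat_lit 160) (nat_lit 5) (nat_lit 161) (nat_lit 5) (nat_lit 438) (nat_lit 432) (nat_lit 330)) (XT.lf (nat_lit 76) (nat_lit 5072587166)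 (nat_lit 0) (nat_lit 7302474785) (nat_lit 836) (nat_lit 10774834313) (nat_lit 151) (nat_lit 5) (nat_lit 150) (nat_lit 5) (nat_lit 161) (nat_lit 5) (nat_lit 439) (nat_lit 432) (nat_lit 329))) (XT.nd (nat_lit 78) (nat_lit 0) (nat_lit 0) (XT.lf (nat_lit 0) (nat_lit 14217001762) (nat_lit 760) (nat_lit 6010738031) (nat_lit 836) (nat_lit 3524752449) (nat_lit 151) (nat_lit 5) (nat_lit 161) (nat_lit 5) (nat_lit 162) (nat_lit 5) (nat_lit 440) (nat_lit 432) (nat_lit 328)) (XT.lf (nat_lit 76) (nat_lit 6748930701) (nat_lit 0) (nat_lit 9619227466) (nat_lit 836) (nat_lit 8006205080) (nat_lit 152) (nat_lit 5) (nat_lit 151) (nat_lit 5) (nat_lit 162) (nat_lit 5) (nat_lit 441) (nat_lit 432) (nat_lit 327)))) (XT.nd (nat_lit 156) (nat_lit 456) (nat_lit 0) (XT.nd (nat_lit 78) (nat_lit 760) (nat_lit 0) (XT.lf (nat_lit 0) (nat_lit 18746398690) (nat_lit 760) (nat_lit 4699197570) (nat_lit 76) (nat_lit 1575756378) (nat_lit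 152) (nat_lit 5) (nat_lit 162) (nat_lit 5) (nat_lit 153) (nat_lit 5) (nat_lit 442) (nat_lit 432) (nat_lit 326)) (XT.lf (nat_lit 0) (nat_lit 8997120053) (nat_lit 760) (nat_lit 12537294492) (nat_lit 836) (nat_lit 4151734885) (nat_lit 142) (nat_lit 5) (nat_lit 152) (nat_lit 5) (nat_lit 153) (nat_lit 5) (nat_lit 443) (nat_lit 432) (nat_lit 325))) (XT.nd (nat_lit 78) (nat_lit 456) (nat_lit 0) (XT.lf (nat_lit 0) (nat_lit 23535003061) (nat_lit 760) (nat_lit 999359832) (nat_lit 836) (nat_lit 1846197627) (nat_lit 142) (nat_lit 5) (nat_lit 152) (nat_lit 5) (nat_lit 153) (nat_lit 5) (nat_lit 444) (nat_lit 432) (nat_lit 324)) (XT.lf (nat_lit 0) (nat_lit 914487237) (nat_lit 456) (nat_lit 15216136212) (nat_lit 76) (nat_lit 10960707992) (nat_lit 136) (nat_lit 5) (nat_lit 142) (nat_lit 5) (nat_lit 137) (nat_lit 5) (nat_lit 445) (nat_lit 432) (nat_lit 323))))))))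
noncomputable def xc163 : XT := (XT.nd (nat_lit 2418) (nat_lit 2584) (nat_lit 0) (XT.nd (nat_lit 1170) (nat_lit 2052) (nat_lit 0) (XT.nd (nat_lit 546) (nat_lit 1216) (nat_lit 0) (XT.nd (nat_lit 234) (nat_lit 608) (nat_lit 0) (XT.nd (nat_lit 78) (nat_lit 760) (nat_lit 0) (XT.lf (nat_lit 0) (nat_lit 3809933101) (nat_lit 456) (nat_lit 458446005) (nat_lit 76) (nat_lit 23564810870) (nat_lit 136) (nat_lit 5) (nat_lit 142) (nat_lit 5) (nat_lit 137) (nat_lit 5) (nat_lit 446) (nat_lit 432) (nat_lit 322)) (XT.nd (nat_lit 78) (nat_lit 380) (nat_lit 0) (XT.lf (nat_lit 0) (nat_lit 7218102696) (nat_lit 456) (nat_lit 13204254367) (nat_lit 76) (nat_lit 8171387663) (nat_lit 131) (nat_lit 5) (nat_lit 137) (nat_lit 5) (nat_lit 132) (nat_lit 5) (nat_lit 447) (nat_lit 432) (nat_lit 321)) (XT.lf (nat_lit 0) (nat_lit 2662471847) (nat_lit 380) (nat_lit 8247565585) (nat_lit 456) (nat_lit 18476622766) (nat_lit 126) (nat_lit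 5) (nat_lit 131) (nat_lit 5) (nat_lit 132) (nat_lit 5) (nat_lit 448) (nat_lit 432) (nat_lit 320)))) (XT.nd (nat_lit 156) (nat_lit 304) (nat_lit 0) (XT.nd (nat_lit 78) (nat_lit 304) (nat_lit 0) (XT.lf (nat_lit 0) (nat_lit 15078780986) (nat_lit 456) (nat_lit 10508197184) (nat_lit 76) (nat_lit 4617633449) (nat_lit 126) (nat_lit 5) (nat_lit 132) (nat_lit 5) (nat_lit 127) (nat_lit 5) (nat_lit 449) (nat_lit 432) (nat_lit 319)) (XT.lf (nat_lit 0) (nat_lit 6587930083) (nat_lit 304) (nat_lit 13100480918) (nat_lit 380) (nat_lit 11363427888) (nat_lit 122) (nat_lit 5) (nat_lit 126) (nat_lit 5) (nat_lit 127) (nat_lit 5) (nat_lit 450) (nat_lit 432) (nat_lit 318))) (XT.nd (nat_lit 78) (nat_lit 304) (nat_lit 0) (XT.lf (nat_lit 0) (nat_lit 24704108334) (nat_lit 380) (nat_lit 7038395109) (nat_lit 76) (nat_lit 190145494) (nat_lit 122) (nat_lit 5) (nat_lit 127) (nat_lit 5) (nat_lit 123) (nat_lit 5) (nat_lit 451)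 (nat_lit 432) (nat_lit 317)) (XT.lf (nat_lit 0) (nat_lit 11402417630) (nat_lit 304) (nat_lit 18955763873) (nat_lit 380) (nat_lit 2479939111) (nat_lit 118) (nat_lit 5) (nat_lit 122) (nat_lit 5) (nat_lit 123) (nat_lit 5) (nat_lit 452) (nat_lit 432) (nat_lit 316))))) (XT.nd (nat_lit 312) (nat_lit 532) (nat_lit 0) (XT.nd (nat_lit 156) (nat_lit 304) (nat_lit 0) (XT.nd (nat_lit 78) (nat_lit 304) (nat_lit 0) (XT.lf (nat_lit 0) (nat_lit 2541909260) (nat_lit 380) (nat_lit 2820592854) (nat_lit 76) (nat_lit 28418606643) (nat_lit 117) (nat_lit 5) (nat_lit 122) (nat_lit 5) (nat_lit 118) (nat_lit 5) (nat_lit 453) (nat_lit 432) (nat_lit 315)) (XT.lf (nat_lit 0) (nat_lit 8139814262) (nat_lit 380) (nat_lit 17670030826) (nat_lit 76) (nat_lit 8938953741) (nat_lit 113) (nat_lit 5) (nat_lit 118) (nat_lit 5) (nat_lit 114) (nat_lit 5) (nat_lit 454) (nat_lit 432) (nat_lit 314))) (XT.nd (nat_lit 78) (nat_lit 0) (nat_lit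 0) (XT.lf (nat_lit 0) (nat_lit 2286979542) (nat_lit 304) (nat_lit 11898045009) (nat_lit 380) (nat_lit 21571478906) (nat_lit 109) (nat_lit 5) (nat_lit 113) (nat_lit 5) (nat_lit 114) (nat_lit 5) (nat_lit 455) (nat_lit 432) (nat_lit 313)) (XT.lf (nat_lit 0) (nat_lit 20874307408) (nat_lit 380) (nat_lit 12997707680) (nat_lit 76) (nat_lit 2925488154) (nat_lit 109) (nat_lit 5) (nat_lit 114) (nat_lit 5) (nat_lit 110) (nat_lit 5) (nat_lit 456) (nat_lit 432) (nat_lit 312)))) (XT.nd (nat_lit 156) (nat_lit 304) (nat_lit 0) (XT.nd (nat_lit 78) (nat_lit 0) (nat_lit 0) (XT.lf (nat_lit 0) (nat_lit 8571097454) (nat_lit 228) (nat_lit 19651402212) (nat_lit 304) (nat_lit 9651831589) (nat_lit 106) (nat_lit 5) (nat_lit 109) (nat_lit 5) (nat_lit 110) (nat_lit 5) (nat_lit 457) (nat_lit 432) (nat_lit 311)) (XT.lf (nat_lit 0) (nat_lit 31663808114) (nat_lit 228) (nat_lit 4490112693) (nat_lit 304) (nat_lit 2840289376) (nat_lit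 106) (nat_lit 5) (nat_lit 109) (nat_lit 5) (nat_lit 110) (nat_lit 5) (nat_lit 458) (nat_lit 432) (nat_lit 310))) (XT.nd (nat_lit 78) (nat_lit 0) (nat_lit 0) (XT.lf (nat_lit 0) (nat_lit 4606035641) (nat_lit 304) (nat_lit 24151794694) (nat_lit 76) (nat_lit 11387276610) (nat_lit 102) (nat_lit 5) (nat_lit 106) (nat_lit 5) (nat_lit 103) (nat_lit 5) (nat_lit 459) (nat_lit 432) (nat_lit 309)) (XT.lf (nat_lit 0) (nat_lit 12524934252) (nat_lit 304) (nat_lit 737576739) (nat_lit 76) (nat_lit 28078924377) (nat_lit 102) (nat_lit 5) (nat_lit 106) (nat_lit 5) (nat_lit 103) (nat_lit 5) (nat_lit 460) (nat_lit 432) (nat_lit 308)))))) (XT.nd (nat_lit 624) (nat_lit 912) (nat_lit 0) (XT.nd (nat_lit 312) (nat_lit 456) (nat_lit 0) (XT.nd (nat_lit 156) (nat_lit 228) (nat_lit 0) (XT.nd (nat_lit 78) (nat_lit 228) (nat_lit 0) (XT.lf (nat_lit 0) (nat_lit 21273676825) (nat_lit 304) (nat_lit 18001574697) (nat_lit 76) (nat_lit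 3300634130) (nat_lit 99) (nat_lit 5) (nat_lit 103) (nat_lit 5) (nat_lit 100) (nat_lit 5) (nat_lit 461) (nat_lit 432) (nat_lit 307)) (XT.lf (nat_lit 0) (nat_lit 7316992277) (nat_lit 228) (nat_lit 23483409754) (nat_lit 304) (nat_lit 13054629521) (nat_lit 96) (nat_lit 5) (nat_lit 99) (nat_lit 5) (nat_lit 100) (nat_lit 5) (nat_lit 462) (nat_lit 432) (nat_lit 306))) (XT.nd (nat_lit 78) (nat_lit 228) (nat_lit 0) (XT.lf (nat_lit 0) (nat_lit 34521010660) (nat_lit 228) (nat_lit 6583606961) (nat_lit 304) (nat_lit 4078459776) (nat_lit 96) (nat_lit 5) (nat_lit 99) (nat_lit 5) (nat_lit 100) (nat_lit 5) (nat_lit 463) (nat_lit 432) (nat_lit 305)) (XT.lf (nat_lit 0) (nat_lit 5616565296) (nat_lit 228) (nat_lit 29778427650) (nat_lit 76) (nat_lit 11156300765) (nat_lit 93) (nat_lit 5) (nat_lit 96) (nat_lit 5) (nat_lit 94) (nat_lit 5) (nat_lit 464) (nat_lit 432) (nat_lit 304)))) (XT.nd (nat_lit 156) (nat_lit 228)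 (nat_lit 0) (XT.nd (nat_lit 78) (nat_lit 228) (nat_lit 0) (XT.lf (nat_lit 0) (nat_lit 15947203823) (nat_lit 228) (nat_lit 2212305648) (nat_lit 76) (nat_lit 29810672417) (nat_lit 93) (nat_lit 5) (nat_lit 96) (nat_lit 5) (nat_lit 94) (nat_lit 5) (nat_lit 465) (nat_lit 432) (nat_lit 303)) (XT.lf (nat_lit 0) (nat_lit 27228160499) (nat_lit 304) (nat_lit 21833976039) (nat_lit 76) (nat_lit 376188919) (nat_lit 90) (nat_lit 5) (nat_lit 94) (nat_lit 5) (nat_lit 91) (nat_lit 5) (nat_lit 466) (nat_lit 432) (nat_lit 302))) (XT.nd (nat_lit 78) (nat_lit 76) (nat_lit 0) (XT.lf (nat_lit 0) (nat_lit 7961991019) (nat_lit 152) (nat_lit 31567952562) (nat_lit 228) (nat_lit 11427093975) (nat_lit 88) (nat_lit 5) (nat_lit 90) (nat_lit 5) (nat_lit 91) (nat_lit 5) (nat_lit 467) (nat_lit 432) (nat_lit 301)) (XT.lf (nat_lit 0) (nat_lit 271034668) (nat_lit 228) (nat_lit 12537035857) (nat_lit 76) (nat_lit 39725069471) (nat_lit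 87) (nat_lit 5) (nat_lit 90) (nat_lit 5) (nat_lit 88) (nat_lit 5) (nat_lit 468) (nat_lit 432) (nat_lit 300))))) (XT.nd (nat_lit 312) (nat_lit 380) (nat_lit 0) (XT.nd (nat_lit 156) (nat_lit 304) (nat_lit 0) (XT.nd (nat_lit 78) (nat_lit 0) (nat_lit 0) (XT.lf (nat_lit 0) (nat_lit 12593129314) (nat_lit 304) (nat_lit 34390873385) (nat_lit 76) (nat_lit 7173524388) (nat_lit 84) (nat_lit 5) (nat_lit 88) (nat_lit 5) (nat_lit 85) (nat_lit 5) (nat_lit 469) (nat_lit 432) (nat_lit 299)) (XT.lf (nat_lit 0) (nat_lit 25954016241) (nat_lit 304) (nat_lit 1950175798) (nat_lit 76) (nat_lit 27937807346) (nat_lit 84) (nat_lit 5) (nat_lit 88) (nat_lit 5) (nat_lit 85) (nat_lit 5) (nat_lit 470) (nat_lit 432) (nat_lit 298))) (XT.nd (nat_lit 78) (nat_lit 152) (nat_lit 0) (XT.lf (nat_lit 0) (nat_lit 33169428790) (nat_lit 152) (nat_lit 7328450980) (nat_lit 228) (nat_lit 17087069133) (nat_lit 82) (nat_lit 5) (nat_lit 84)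 (nat_lit 5) (nat_lit 85) (nat_lit 5) (nat_lit 471) (nat_lit 432) (nat_lit 297)) (XT.lf (nat_lit 0) (nat_lit 10817320176) (nat_lit 152) (nat_lit 45374066112) (nat_lit 228) (nat_lit 3202537329) (nat_lit 80) (nat_lit 5) (nat_lit 82) (nat_lit 5) (nat_lit 83) (nat_lit 5) (nat_lit 472) (nat_lit 432) (nat_lit 296)))) (XT.nd (nat_lit 156) (nat_lit 152) (nat_lit 0) (XT.nd (nat_lit 78) (nat_lit 152) (nat_lit 0) (XT.lf (nat_lit 0) (nat_lit 11549637251) (nat_lit 228) (nat_lit 12922563603) (nat_lit 76) (nat_lit 36785389351) (nat_lit 79) (nat_lit 5) (nat_lit 82) (nat_lit 5) (nat_lit 80) (nat_lit 5) (nat_lit 473) (nat_lit 432) (nat_lit 295)) (XT.lf (nat_lit 0) (nat_lit 25265755343) (nat_lit 152) (nat_lit 2057765940) (nat_lit 228) (nat_lit 35868707640) (nat_lit 77) (nat_lit 5) (nat_lit 79) (nat_lit 5) (nat_lit 80) (nat_lit 5) (nat_lit 474) (nat_lit 432) (nat_lit 294))) (XT.nd (nat_lit 78) (nat_lit 0) (nat_lit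 0) (XT.lf (nat_lit 0) (nat_lit 264412236) (nat_lit 152) (nat_lit 44180864679) (nat_lit 228) (nat_lit 20750363964) (nat_lit 75) (nat_lit 5) (nat_lit 77) (nat_lit 5) (nat_lit 78) (nat_lit 5) (nat_lit 475) (nat_lit 432) (nat_lit 293)) (XT.lf (nat_lit 0) (nat_lit 41642173033) (nat_lit 152) (nat_lit 21453787776) (nat_lit 228) (nat_lit 4169620763) (nat_lit 75) (nat_lit 5) (nat_lit 77) (nat_lit 5) (nat_lit 78) (nat_lit 5) (nat_lit 476) (nat_lit 432) (nat_lit 292))))))) (XT.nd (nat_lit 1170) (nat_lit 1216) (nat_lit 0) (XT.nd (nat_lit 546) (nat_lit 684) (nat_lit 0) (XT.nd (nat_lit 234) (nat_lit 304) (nat_lit 0) (XT.nd (nat_lit 78) (nat_lit 152) (nat_lit 0) (XT.lf (nat_lit 0) (nat_lit 13107898423) (nat_lit 228) (nat_lit 53512276360) (nat_lit 76) (nat_lit 2793933535) (nat_lit 72) (nat_lit 5) (nat_lit 75) (nat_lit 5) (nat_lit 73) (nat_lit 5) (nat_lit 477) (nat_lit 432) (nat_lit 291)) (XT.nd (nat_lit 78)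 (nat_lit 152) (nat_lit 0) (XT.lf (nat_lit 0) (nat_lit 31899385365) (nat_lit 228) (nat_lit 11687049033) (nat_lit 76) (nat_lit 28040698501) (nat_lit 72) (nat_lit 5) (nat_lit 75) (nat_lit 5) (nat_lit 73) (nat_lit 5) (nat_lit 478) (nat_lit 432) (nat_lit 290)) (XT.lf (nat_lit 0) (nat_lit 33290725529) (nat_lit 152) (nat_lit 18857061968) (nat_lit 228) (nat_lit 21777154306) (nat_lit 70) (nat_lit 5) (nat_lit 72) (nat_lit 5) (nat_lit 73) (nat_lit 5) (nat_lit 479) (nat_lit 432) (nat_lit 289)))) (XT.nd (nat_lit 156) (nat_lit 152) (nat_lit 0) (XT.nd (nat_lit 78) (nat_lit 76) (nat_lit 0) (XT.lf (nat_lit 0) (nat_lit 4624938322) (nat_lit 76) (nat_lit 69165639932) (nat_lit 152) (nat_lit 2527964600) (nat_lit 69) (nat_lit 5) (nat_lit 70) (nat_lit 5) (nat_lit 71) (nat_lit 4) (nat_lit 480) (nat_lit 432) (nat_lit 288)) (XT.lf (nat_lit 0) (nat_lit 18123881946) (nat_lit 152) (nat_lit 25840400826) (nat_lit 76) (nat_lit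 34803427424) (nat_lit 68) (nat_lit 5) (nat_lit 70) (nat_lit 5) (nat_lit 69) (nat_lit 5) (nat_lit 481) (nat_lit 432) (nat_lit 287))) (XT.nd (nat_lit 78) (nat_lit 0) (nat_lit 0) (XT.lf (nat_lit 0) (nat_lit 22995980383) (nat_lit 152) (nat_lit 17084141766) (nat_lit 228) (nat_lit 41239303886) (nat_lit 66) (nat_lit 5) (nat_lit 68) (nat_lit 5) (nat_lit 69) (nat_lit 5) (nat_lit 482) (nat_lit 432) (nat_lit 286)) (XT.lf (nat_lit 0) (nat_lit 63750639170) (nat_lit 228) (nat_lit 8990720691) (nat_lit 76) (nat_lit 11226544673) (nat_lit 66) (nat_lit 5) (nat_lit 69) (nat_lit 5) (nat_lit 67) (nat_lit 4) (nat_lit 483) (nat_lit 432) (nat_lit 285))))) (XT.nd (nat_lit 312) (nat_lit 304) (nat_lit 0) (XT.nd (nat_lit 156) (nat_lit 76) (nat_lit 0) (XT.nd (nat_lit 78) (nat_lit 152) (nat_lit 0) (XT.lf (nat_lit 0) (nat_lit 2776077173) (nat_lit 152) (nat_lit 42814641614) (nat_lit 76) (nat_lit 41107659410) (nat_lit 64) (nat_lit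 5) (nat_lit 66) (nat_lit 5) (nat_lit 65) (nat_lit 5) (nat_lit 484) (nat_lit 432) (nat_lit 284)) (XT.lf (nat_lit 0) (nat_lit 10143119829) (nat_lit 152) (nat_lit 16407514956) (nat_lit 228) (nat_lit 62982620290) (nat_lit 62) (nat_lit 5) (nat_lit 64) (nat_lit 5) (nat_lit 65) (nat_lit 5) (nat_lit 485) (nat_lit 432) (nat_lit 283))) (XT.nd (nat_lit 78) (nat_lit 76) (nat_lit 0) (XT.lf (nat_lit 0) (nat_lit 52471014516) (nat_lit 228) (nat_lit 25476460765) (nat_lit 76) (nat_lit 14514545890) (nat_lit 62) (nat_lit 5) (nat_lit 65) (nat_lit 5) (nat_lit 63) (nat_lit 4) (nat_lit 486) (nat_lit 432) (nat_lit 282)) (XT.lf (nat_lit 0) (nat_lit 31880581616) (nat_lit 76) (nat_lit 48571528696) (nat_lit 152) (nat_lit 15046880488) (nat_lit 61) (nat_lit 5) (nat_lit 62) (nat_lit 5) (nat_lit 63) (nat_lit 4) (nat_lit 487) (nat_lit 432) (nat_lit 281)))) (XT.nd (nat_lit 156) (nat_lit 76) (nat_lit 0) (XT.nd (nat_lit 78) (nat_lit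 152) (nat_lit 0) (XT.lf (nat_lit 0) (nat_lit 11224272020) (nat_lit 152) (nat_lit 5861068657) (nat_lit 76) (nat_lit 81571942897) (nat_lit 60) (nat_lit 5) (nat_lit 62) (nat_lit 5) (nat_lit 61) (nat_lit 5) (nat_lit 488) (nat_lit 432) (nat_lit 280)) (XT.lf (nat_lit 0) (nat_lit 39448821271) (nat_lit 228) (nat_lit 45848070192) (nat_lit 76) (nat_lit 16606990439) (nat_lit 58) (nat_lit 5) (nat_lit 61) (nat_lit 5) (nat_lit 59) (nat_lit 4) (nat_lit 489) (nat_lit 432) (nat_lit 279))) (XT.nd (nat_lit 78) (nat_lit 0) (nat_lit 0) (XT.lf (nat_lit 0) (nat_lit 16197313128) (nat_lit 76) (nat_lit 53519235929) (nat_lit 152) (nat_lit 35564663602) (nat_lit 57) (nat_lit 5) (nat_lit 58) (nat_lit 5) (nat_lit 59) (nat_lit 4) (nat_lit 490) (nat_lit 432) (nat_lit 278)) (XT.lf (nat_lit 0) (nat_lit 82933205191) (nat_lit 76) (nat_lit 19339044358) (nat_lit 152) (nat_lit 6516431156) (nat_lit 57) (nat_lit 5) (nat_lit 58) (nat_lit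 5) (nat_lit 59) (nat_lit 4) (nat_lit 491) (nat_lit 432) (nat_lit 277)))))) (XT.nd (nat_lit 624) (nat_lit 532) (nat_lit 0) (XT.nd (nat_lit 312) (nat_lit 228) (nat_lit 0) (XT.nd (nat_lit 156) (nat_lit 228) (nat_lit 0) (XT.nd (nat_lit 78) (nat_lit 0) (nat_lit 0) (XT.lf (nat_lit 0) (nat_lit 24137567097) (nat_lit 228) (nat_lit 71211362189) (nat_lit 76) (nat_lit 17057819946) (nat_lit 54) (nat_lit 5) (nat_lit 57) (nat_lit 5) (nat_lit 55) (nat_lit 4) (nat_lit 492) (nat_lit 432) (nat_lit 276)) (XT.lf (nat_lit 0) (nat_lit 56865553979) (nat_lit 228) (nat_lit 4121834515) (nat_lit 76) (nat_lit 55174977234) (nat_lit 54) (nat_lit 5) (nat_lit 57) (nat_lit 5) (nat_lit 55) (nat_lit 4) (nat_lit 493) (nat_lit 432) (nat_lit 275))) (XT.nd (nat_lit 78) (nat_lit 152) (nat_lit 0) (XT.lf (nat_lit 0) (nat_lit 68511729902) (nat_lit 76) (nat_lit 23786153030) (nat_lit 152) (nat_lit 27754483034) (nat_lit 53) (nat_lit 5) (nat_lit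 54) (nat_lit 5) (nat_lit 55) (nat_lit 4) (nat_lit 494) (nat_lit 432) (nat_lit 274)) (XT.lf (nat_lit 0) (nat_lit 5842806845) (nat_lit 152) (nat_lit 102976065967) (nat_lit 76) (nat_lit 15281327496) (nat_lit 51) (nat_lit 5) (nat_lit 53) (nat_lit 5) (nat_lit 52) (nat_lit 4) (nat_lit 495) (nat_lit 432) (nat_lit 273)))) (XT.nd (nat_lit 156) (nat_lit 152) (nat_lit 0) (XT.nd (nat_lit 78) (nat_lit 76) (nat_lit 0) (XT.lf (nat_lit 0) (nat_lit 41462635385) (nat_lit 152) (nat_lit 29957758407) (nat_lit 76) (nat_lit 56843512707) (nat_lit 51) (nat_lit 5) (nat_lit 53) (nat_lit 5) (nat_lit 52) (nat_lit 4) (nat_lit 496) (nat_lit 432) (nat_lit 272)) (XT.lf (nat_lit 0) (nat_lit 48252753652) (nat_lit 76) (nat_lit 31362438577) (nat_lit 152) (nat_lit 52983018968) (nat_lit 50) (nat_lit 5) (nat_lit 51) (nat_lit 5) (nat_lit 52) (nat_lit 4) (nat_lit 497) (nat_lit 432) (nat_lit 271))) (XT.nd (nat_lit 78) (nat_lit 152) (nat_lit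 0) (XT.lf (nat_lit 0) (nat_lit 120356458611) (nat_lit 152) (nat_lit 5888463413) (nat_lit 0) (nat_lit 10870255064) (nat_lit 50) (nat_lit 5) (nat_lit 52) (nat_lit 4) (nat_lit 50) (nat_lit 4) (nat_lit 498) (nat_lit 432) (nat_lit 270)) (XT.lf (nat_lit 0) (nat_lit 22362288377) (nat_lit 152) (nat_lit 63645438274) (nat_lit 76) (nat_lit 55745331053) (nat_lit 48) (nat_lit 5) (nat_lit 50) (nat_lit 5) (nat_lit 49) (nat_lit 4) (nat_lit 499) (nat_lit 432) (nat_lit 269))))) (XT.nd (nat_lit 312) (nat_lit 304) (nat_lit 0) (XT.nd (nat_lit 156) (nat_lit 152) (nat_lit 0) (XT.nd (nat_lit 78) (nat_lit 0) (nat_lit 0) (XT.lf (nat_lit 0) (nat_lit 20259184434) (nat_lit 76) (nat_lit 43033082919) (nat_lit 152) (nat_lit 83296022148) (nat_lit 47) (nat_lit 5) (nat_lit 48) (nat_lit 5) (nat_lit 49) (nat_lit 4) (nat_lit 500) (nat_lit 432) (nat_lit 268)) (XT.lf (nat_lit 0) (nat_lit 107395385742) (nat_lit 152) (nat_lit 41095998929)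 (nat_lit 0) (nat_lit 3117566228) (nat_lit 47) (nat_lit 5) (nat_lit 49) (nat_lit 4) (nat_lit 47) (nat_lit 4) (nat_lit 501) (nat_lit 432) (nat_lit 267))) (XT.nd (nat_lit 78) (nat_lit 76) (nat_lit 0) (XT.lf (nat_lit 0) (nat_lit 49267337711) (nat_lit 76) (nat_lit 105909525739) (nat_lit 76) (nat_lit 1630121781) (nat_lit 46) (nat_lit 4) (nat_lit 47) (nat_lit 5) (nat_lit 47) (nat_lit 4) (nat_lit 502) (nat_lit 432) (nat_lit 266)) (XT.lf (nat_lit 0) (nat_lit 42409519368) (nat_lit 152) (nat_lit 17341398246) (nat_lit 76) (nat_lit 102445075047) (nat_lit 45) (nat_lit 5) (nat_lit 47) (nat_lit 5) (nat_lit 46) (nat_lit 4) (nat_lit 503) (nat_lit 432) (nat_lit 265)))) (XT.nd (nat_lit 156) (nat_lit 152) (nat_lit 0) (XT.nd (nat_lit 78) (nat_lit 76) (nat_lit 0) (XT.lf (nat_lit 0) (nat_lit 79894467343) (nat_lit 76) (nat_lit 9947882623) (nat_lit 152) (nat_lit 77948464851) (nat_lit 44) (nat_lit 5) (nat_lit 45) (nat_lit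 5) (nat_lit 46) (nat_lit 4) (nat_lit 504) (nat_lit 432) (nat_lit 264)) (XT.lf (nat_lit 0) (nat_lit 8548447637) (nat_lit 76) (nat_lit 132190086154) (nat_lit 76) (nat_lit 32872258733) (nat_lit 43) (nat_lit 4) (nat_lit 44) (nat_lit 5) (nat_lit 44) (nat_lit 4) (nat_lit 505) (nat_lit 432) (nat_lit 263))) (XT.nd (nat_lit 78) (nat_lit 76) (nat_lit 0) (XT.lf (nat_lit 0) (nat_lit 15669689296) (nat_lit 152) (nat_lit 67196205815) (nat_lit 76) (nat_lit 96760854216) (nat_lit 42) (nat_lit 5) (nat_lit 44) (nat_lit 5) (nat_lit 43) (nat_lit 4) (nat_lit 506) (nat_lit 432) (nat_lit 262)) (XT.lf (nat_lit 0) (nat_lit 36179756128) (nat_lit 76) (nat_lit 29917808426) (nat_lit 152) (nat_lit 119790817302) (nat_lit 41) (nat_lit 5) (nat_lit 42) (nat_lit 5) (nat_lit 43) (nat_lit 4) (nat_lit 507) (nat_lit 432) (nat_lit 261))))))))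
noncomputable def xc164 : XT := (XT.nd (nat_lit 2418) (nat_lit 380) (nat_lit 0) (XT.nd (nat_lit 1170) (nat_lit 760) (nat_lit 0) (XT.nd (nat_lit 546) (nat_lit 456) (nat_lit 0) (XT.nd (nat_lit 234) (nat_lit 304) (nat_lit 0) (XT.nd (nat_lit 78) (nat_lit 152) (nat_lit 0) (XT.lf (nat_lit 0) (nat_lit 120603079750) (nat_lit 152) (nat_lit 45770912077) (nat_lit 0) (nat_lit 26011291898) (nat_lit 41) (nat_lit 5) (nat_lit 43) (nat_lit 4) (nat_lit 41) (nat_lit 4) (nat_lit 508) (nat_lit 432) (nat_lit 260)) (XT.nd (nat_lit 78) (nat_lit 76) (nat_lit 0) (XT.lf (nat_lit 0) (nat_lit 64949569455) (nat_lit 76) (nat_lit 114387553909) (nat_lit 76) (nat_lit 19794744710) (nat_lit 40) (nat_lit 4) (nat_lit 41) (nat_lit 5) (nat_lit 41) (nat_lit 4) (nat_lit 509) (nat_lit 432) (nat_lit 259)) (XT.lf (nat_lit 0) (nat_lit 34465136997) (nat_lit 152) (nat_lit 23940251064) (nat_lit 76) (nat_lit 147743902822) (nat_lit 39) (nat_lit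 5) (nat_lit 41) (nat_lit 5) (nat_lit 40) (nat_lit 4) (nat_lit 510) (nat_lit 432) (nat_lit 258)))) (XT.nd (nat_lit 156) (nat_lit 228) (nat_lit 0) (XT.nd (nat_lit 78) (nat_lit 0) (nat_lit 0) (XT.lf (nat_lit 0) (nat_lit 92282550724) (nat_lit 152) (nat_lit 118950968027) (nat_lit 0) (nat_lit 2192352342) (nat_lit 38) (nat_lit 5) (nat_lit 40) (nat_lit 4) (nat_lit 38) (nat_lit 4) (nat_lit 511) (nat_lit 432) (nat_lit 257)) (XT.lf (nat_lit 0) (nat_lit 154359202650) (nat_lit 152) (nat_lit 2370495300) (nat_lit 0) (nat_lit 64268164003) (nat_lit 38) (nat_lit 5) (nat_lit 40) (nat_lit 4) (nat_lit 38) (nat_lit 4) (nat_lit 512) (nat_lit 432) (nat_lit 256))) (XT.nd (nat_lit 78) (nat_lit 152) (nat_lit 0) (XT.lf (nat_lit 0) (nat_lit 124005728907) (nat_lit 76) (nat_lit 97468907453) (nat_lit 76) (nat_lit 7377068555) (nat_lit 37) (nat_lit 4) (nat_lit 38) (nat_lit 5) (nat_lit 38) (nat_lit 4) (nat_lit 513) (nat_lit 432)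 (nat_lit 255)) (XT.lf (nat_lit 0) (nat_lit 19450141720) (nat_lit 76) (nat_lit 33985342554) (nat_lit 152) (nat_lit 183602772111) (nat_lit 35) (nat_lit 5) (nat_lit 36) (nat_lit 5) (nat_lit 37) (nat_lit 4) (nat_lit 514) (nat_lit 432) (nat_lit 254))))) (XT.nd (nat_lit 312) (nat_lit 228) (nat_lit 0) (XT.nd (nat_lit 156) (nat_lit 152) (nat_lit 0) (XT.nd (nat_lit 78) (nat_lit 76) (nat_lit 0) (XT.lf (nat_lit 0) (nat_lit 119354456304) (nat_lit 152) (nat_lit 92606659057) (nat_lit 0) (nat_lit 33551287832) (nat_lit 35) (nat_lit 5) (nat_lit 37) (nat_lit 4) (nat_lit 35) (nat_lit 4) (nat_lit 515) (nat_lit 432) (nat_lit 253)) (XT.lf (nat_lit 0) (nat_lit 39323193085) (nat_lit 76) (nat_lit 150416195269) (nat_lit 76) (nat_lit 64612368429) (nat_lit 34) (nat_lit 4) (nat_lit 35) (nat_lit 5) (nat_lit 35) (nat_lit 4) (nat_lit 516) (nat_lit 432) (nat_lit 252))) (XT.nd (nat_lit 78) (nat_lit 76) (nat_lit 0) (XT.lf (nat_lit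 0) (nat_lit 1603132743) (nat_lit 152) (nat_lit 82518031735) (nat_lit 76) (nat_lit 179432256425) (nat_lit 33) (nat_lit 5) (nat_lit 35) (nat_lit 5) (nat_lit 34) (nat_lit 4) (nat_lit 517) (nat_lit 432) (nat_lit 251)) (XT.lf (nat_lit 0) (nat_lit 57393738786) (nat_lit 76) (nat_lit 12459329411) (nat_lit 152) (nat_lit 203264386161) (nat_lit 32) (nat_lit 5) (nat_lit 33) (nat_lit 5) (nat_lit 34) (nat_lit 4) (nat_lit 518) (nat_lit 432) (nat_lit 250)))) (XT.nd (nat_lit 156) (nat_lit 152) (nat_lit 0) (XT.nd (nat_lit 78) (nat_lit 76) (nat_lit 0) (XT.lf (nat_lit 0) (nat_lit 143915135154) (nat_lit 152) (nat_lit 76929075302) (nat_lit 0) (nat_lit 62195497303) (nat_lit 32) (nat_lit 5) (nat_lit 34) (nat_lit 4) (nat_lit 32) (nat_lit 4) (nat_lit 519) (nat_lit 432) (nat_lit 249)) (XT.lf (nat_lit 0) (nat_lit 70867309948) (nat_lit 76) (nat_lit 152122715791) (nat_lit 76) (nat_lit 70402562091) (nat_lit 31) (nat_lit 4)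 (nat_lit 32) (nat_lit 5) (nat_lit 32) (nat_lit 4) (nat_lit 520) (nat_lit 432) (nat_lit 248))) (XT.nd (nat_lit 78) (nat_lit 76) (nat_lit 0) (XT.lf (nat_lit 0) (nat_lit 3022581901) (nat_lit 152) (nat_lit 75524352086) (nat_lit 76) (nat_lit 225648646398) (nat_lit 30) (nat_lit 5) (nat_lit 32) (nat_lit 5) (nat_lit 31) (nat_lit 4) (nat_lit 521) (nat_lit 432) (nat_lit 247)) (XT.lf (nat_lit 0) (nat_lit 79024091629) (nat_lit 152) (nat_lit 235198908798) (nat_lit 0) (nat_lit 1194460319) (nat_lit 29) (nat_lit 5) (nat_lit 31) (nat_lit 4) (nat_lit 29) (nat_lit 4) (nat_lit 522) (nat_lit 432) (nat_lit 246)))))) (XT.nd (nat_lit 624) (nat_lit 304) (nat_lit 0) (XT.nd (nat_lit 312) (nat_lit 228) (nat_lit 0) (XT.nd (nat_lit 156) (nat_lit 152) (nat_lit 0) (XT.nd (nat_lit 78) (nat_lit 76) (nat_lit 0) (XT.lf (nat_lit 0) (nat_lit 161412420853) (nat_lit 152) (nat_lit 82076311930) (nat_lit 0) (nat_lit 83582365152) (nat_lit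 29) (nat_lit 5) (nat_lit 31) (nat_lit 4) (nat_lit 29) (nat_lit 4) (nat_lit 523) (nat_lit 432) (nat_lit 245)) (XT.lf (nat_lit 0) (nat_lit 81302859283) (nat_lit 76) (nat_lit 167885796562) (nat_lit 76) (nat_lit 90055336679) (nat_lit 28) (nat_lit 4) (nat_lit 29) (nat_lit 5) (nat_lit 29) (nat_lit 4) (nat_lit 524) (nat_lit 432) (nat_lit 244))) (XT.nd (nat_lit 78) (nat_lit 152) (nat_lit 0) (XT.lf (nat_lit 0) (nat_lit 255698766834) (nat_lit 76) (nat_lit 87044076401) (nat_lit 76) (nat_lit 9213231584) (nat_lit 28) (nat_lit 4) (nat_lit 29) (nat_lit 5) (nat_lit 29) (nat_lit 4) (nat_lit 525) (nat_lit 432) (nat_lit 243)) (XT.lf (nat_lit 0) (nat_lit 74419526246) (nat_lit 152) (nat_lit 290472075631) (nat_lit 0) (nat_lit 294562987) (nat_lit 26) (nat_lit 5) (nat_lit 28) (nat_lit 4) (nat_lit 26) (nat_lit 4) (nat_lit 526) (nat_lit 432) (nat_lit 242)))) (XT.nd (nat_lit 156) (nat_lit 152) (nat_lit 0) (XT.nd (nat_lit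 78) (nat_lit 76) (nat_lit 0) (XT.lf (nat_lit 0) (nat_lit 165007304432) (nat_lit 152) (nat_lit 123026744132) (nat_lit 0) (nat_lit 90882008652) (nat_lit 26) (nat_lit 5) (nat_lit 28) (nat_lit 4) (nat_lit 26) (nat_lit 4) (nat_lit 527) (nat_lit 432) (nat_lit 241)) (XT.lf (nat_lit 0) (nat_lit 54534712008) (nat_lit 76) (nat_lit 206440406160) (nat_lit 76) (nat_lit 132314793693) (nat_lit 25) (nat_lit 4) (nat_lit 26) (nat_lit 5) (nat_lit 26) (nat_lit 4) (nat_lit 528) (nat_lit 432) (nat_lit 240))) (XT.nd (nat_lit 78) (nat_lit 152) (nat_lit 0) (XT.lf (nat_lit 0) (nat_lit 245243884114) (nat_lit 76) (nat_lit 118580176160) (nat_lit 76) (nat_lit 44454262087) (nat_lit 25) (nat_lit 4) (nat_lit 26) (nat_lit 5) (nat_lit 26) (nat_lit 4) (nat_lit 529) (nat_lit 432) (nat_lit 239)) (XT.lf (nat_lit 0) (nat_lit 21409810192) (nat_lit 76) (nat_lit 25193122251) (nat_lit 152) (nat_lit 377359231283) (nat_lit 23) (nat_lit 5)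 (nat_lit 24) (nat_lit 5) (nat_lit 25) (nat_lit 4) (nat_lit 530) (nat_lit 432) (nat_lit 238))))) (XT.nd (nat_lit 312) (nat_lit 228) (nat_lit 0) (XT.nd (nat_lit 156) (nat_lit 76) (nat_lit 0) (XT.nd (nat_lit 78) (nat_lit 0) (nat_lit 0) (XT.lf (nat_lit 0) (nat_lit 144662208645) (nat_lit 152) (nat_lit 221468825868) (nat_lit 0) (nat_lit 74065565898) (nat_lit 23) (nat_lit 5) (nat_lit 25) (nat_lit 4) (nat_lit 23) (nat_lit 4) (nat_lit 531) (nat_lit 432) (nat_lit 237)) (XT.lf (nat_lit 0) (nat_lit 248036732652) (nat_lit 152) (nat_lit 31745570312) (nat_lit 0) (nat_lit 177439841773) (nat_lit 23) (nat_lit 5) (nat_lit 25) (nat_lit 4) (nat_lit 23) (nat_lit 4) (nat_lit 532) (nat_lit 432) (nat_lit 236))) (XT.nd (nat_lit 78) (nat_lit 0) (nat_lit 0) (XT.lf (nat_lit 0) (nat_lit 172999535965) (nat_lit 76) (nat_lit 186280770663) (nat_lit 76) (nat_lit 115683643467) (nat_lit 22) (nat_lit 4) (nat_lit 23) (nat_lit 5) (nat_lit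 23) (nat_lit 4) (nat_lit 533) (nat_lit 432) (nat_lit 235)) (XT.lf (nat_lit 0) (nat_lit 389082676686) (nat_lit 76) (nat_lit 87540336795) (nat_lit 76) (nat_lit 16942984536) (nat_lit 22) (nat_lit 4) (nat_lit 23) (nat_lit 5) (nat_lit 23) (nat_lit 4) (nat_lit 534) (nat_lit 432) (nat_lit 234)))) (XT.nd (nat_lit 156) (nat_lit 76) (nat_lit 0) (XT.nd (nat_lit 78) (nat_lit 0) (nat_lit 0) (XT.lf (nat_lit 0) (nat_lit 85896341323) (nat_lit 152) (nat_lit 408376650505) (nat_lit 0) (nat_lit 18660563604) (nat_lit 20) (nat_lit 5) (nat_lit 22) (nat_lit 4) (nat_lit 20) (nat_lit 4) (nat_lit 535) (nat_lit 432) (nat_lit 233)) (XT.lf (nat_lit 0) (nat_lit 196541158753) (nat_lit 152) (nat_lit 207247611627) (nat_lit 0) (nat_lit 129305186616) (nat_lit 20) (nat_lit 5) (nat_lit 22) (nat_lit 4) (nat_lit 20) (nat_lit 4) (nat_lit 536) (nat_lit 432) (nat_lit 232))) (XT.nd (nat_lit 78) (nat_lit 0) (nat_lit 0) (XT.lf (nat_lit 0)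 (nat_lit 4066791395) (nat_lit 76) (nat_lit 308714300405) (nat_lit 76) (nat_lit 241478143107) (nat_lit 19) (nat_lit 4) (nat_lit 20) (nat_lit 5) (nat_lit 20) (nat_lit 4) (nat_lit 537) (nat_lit 432) (nat_lit 231)) (XT.lf (nat_lit 0) (nat_lit 233140853315) (nat_lit 76) (nat_lit 205201397780) (nat_lit 76) (nat_lit 137965064140) (nat_lit 19) (nat_lit 4) (nat_lit 20) (nat_lit 5) (nat_lit 20) (nat_lit 4) (nat_lit 538) (nat_lit 432) (nat_lit 230))))))) (XT.nd (nat_lit 54600) (nat_lit 0) (nat_lit 7904) (XT.nd (nat_lit 546) (nat_lit 76) (nat_lit 0) (XT.nd (nat_lit 234) (nat_lit 152) (nat_lit 0) (XT.nd (nat_lit 78) (nat_lit 152) (nat_lit 0) (XT.lf (nat_lit 0) (nat_lit 473667446568) (nat_lit 76) (nat_lit 96513441800) (nat_lit 76) (nat_lit 29276940214) (nat_lit 19) (nat_lit 4) (nat_lit 20) (nat_lit 5) (nat_lit 20) (nat_lit 4) (nat_lit 539) (nat_lit 432) (nat_lit 229)) (XT.nd (nat_lit 78) (nat_lit 0) (nat_lit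 0) (XT.lf (nat_lit 0) (nat_lit 84083918648) (nat_lit 152) (nat_lit 519469016307) (nat_lit 0) (nat_lit 20049002901) (nat_lit 17) (nat_lit 5) (nat_lit 19) (nat_lit 4) (nat_lit 17) (nat_lit 4) (nat_lit 540) (nat_lit 432) (nat_lit 228)) (XT.lf (nat_lit 0) (nat_lit 205875794207) (nat_lit 152) (nat_lit 301025383967) (nat_lit 0) (nat_lit 141840733382) (nat_lit 17) (nat_lit 5) (nat_lit 19) (nat_lit 4) (nat_lit 17) (nat_lit 4) (nat_lit 541) (nat_lit 432) (nat_lit 227)))) (XT.nd (nat_lit 156) (nat_lit 76) (nat_lit 0) (XT.nd (nat_lit 78) (nat_lit 76) (nat_lit 0) (XT.lf (nat_lit 0) (nat_lit 333756729327) (nat_lit 152) (nat_lit 71660650996) (nat_lit 0) (nat_lit 269721530332) (nat_lit 17) (nat_lit 5) (nat_lit 19) (nat_lit 4) (nat_lit 17) (nat_lit 4) (nat_lit 542) (nat_lit 432) (nat_lit 226)) (XT.lf (nat_lit 0) (nat_lit 174764855932) (nat_lit 76) (nat_lit 295994915672) (nat_lit 76) (nat_lit 231959585088) (nat_lit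 16) (nat_lit 4) (nat_lit 17) (nat_lit 5) (nat_lit 17) (nat_lit 4) (nat_lit 543) (nat_lit 432) (nat_lit 225))) (XT.nd (nat_lit 78) (nat_lit 76) (nat_lit 0) (XT.lf (nat_lit 0) (nat_lit 435998521291) (nat_lit 76) (nat_lit 179827552140) (nat_lit 76) (nat_lit 115792096231) (nat_lit 16) (nat_lit 4) (nat_lit 17) (nat_lit 5) (nat_lit 17) (nat_lit 4) (nat_lit 544) (nat_lit 432) (nat_lit 224)) (XT.lf (nat_lit 0) (nat_lit 5985363550) (nat_lit 152) (nat_lit 51765579984) (nat_lit 76) (nat_lit 704206176668) (nat_lit 15) (nat_lit 5) (nat_lit 17) (nat_lit 5) (nat_lit 16) (nat_lit 4) (nat_lit 545) (nat_lit 432) (nat_lit 223))))) (XT.nd (nat_lit 53742) (nat_lit 0) (nat_lit 10108) (XT.nd (nat_lit 156) (nat_lit 0) (nat_lit 0) (XT.nd (nat_lit 78) (nat_lit 0) (nat_lit 0) (XT.lf (nat_lit 0) (nat_lit 134408312418) (nat_lit 152) (nat_lit 585665452808) (nat_lit 0) (nat_lit 73421942002) (nat_lit 14) (nat_lit 5) (nat_lit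 16) (nat_lit 4) (nat_lit 14) (nat_lit 4) (nat_lit 546) (nat_lit 432) (nat_lit 222)) (XT.lf (nat_lit 0) (nat_lit 271089731444) (nat_lit 152) (nat_lit 345326368104) (nat_lit 0) (nat_lit 210103257924) (nat_lit 14) (nat_lit 5) (nat_lit 16) (nat_lit 4) (nat_lit 14) (nat_lit 4) (nat_lit 547) (nat_lit 432) (nat_lit 221))) (XT.nd (nat_lit 53508) (nat_lit 0) (nat_lit 10108) (XT.lf (nat_lit 0) (nat_lit 414604782438) (nat_lit 152) (nat_lit 92971219016) (nat_lit 0) (nat_lit 353618210724) (nat_lit 14) (nat_lit 5) (nat_lit 16) (nat_lit 4) (nat_lit 14) (nat_lit 4) (nat_lit 548) (nat_lit 432) (nat_lit 220)) (XT.lf (nat_lit 0) (nat_lit 3151627375) (nat_lit 836) (nat_lit 3529476849) (nat_lit 836) (nat_lit 3529476849) (nat_lit 147) (nat_lit 3) (nat_lit 158) (nat_lit 3) (nat_lit 158) (nat_lit 5) (nat_lit 433) (nat_lit 433) (nat_lit 334)))) (XT.nd (nat_lit 156) (nat_lit 0) (nat_lit 76) (XT.nd (nat_lit 78) (nat_lit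 0) (nat_lit 76) (XT.lf (nat_lit 76) (nat_lit 3170674510) (nat_lit 0) (nat_lit 3495445211) (nat_lit 836) (nat_lit 14255283204) (nat_lit 148) (nat_lit 5) (nat_lit 147) (nat_lit 3) (nat_lit 158) (nat_lit 5) (nat_lit 434) (nat_lit 433) (nat_lit 333)) (XT.lf (nat_lit 0) (nat_lit 7265827249) (nat_lit 760) (nat_lit 7398945705) (nat_lit 836) (nat_lit 6770949365) (nat_lit 148) (nat_lit 5) (nat_lit 158) (nat_lit 5) (nat_lit 159) (nat_lit 5) (nat_lit 435) (nat_lit 433) (nat_lit 332))) (XT.nd (nat_lit 78) (nat_lit 0) (nat_lit 76) (XT.lf (nat_lit 76) (nat_lit 3520087535) (nat_lit 0) (nat_lit 4478185055) (nat_lit 836) (nat_lit 13972348940) (nat_lit 149) (nat_lit 5) (nat_lit 148) (nat_lit 5) (nat_lit 159) (nat_lit 5) (nat_lit 436) (nat_lit 433) (nat_lit 331)) (XT.lf (nat_lit 0) (nat_lit 8982687337) (nat_lit 760) (nat_lit 7389306533) (nat_lit 836) (nat_lit 6149505874) (nat_lit 149) (nat_lit 5) (nat_lit 159)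 (nat_lit 5) (nat_lit 160) (nat_lit 5) (nat_lit 437) (nat_lit 433) (nat_lit 330)))))) (XT.nd (nat_lit 624) (nat_lit 1824) (nat_lit 0) (XT.nd (nat_lit 312) (nat_lit 532) (nat_lit 0) (XT.nd (nat_lit 156) (nat_lit 0) (nat_lit 76) (XT.nd (nat_lit 78) (nat_lit 0) (nat_lit 76) (XT.lf (nat_lit 76) (nat_lit 4282815030) (nat_lit 0) (nat_lit 5865132175) (nat_lit 836) (nat_lit 12945394775) (nat_lit 150) (nat_lit 5) (nat_lit 149) (nat_lit 5) (nat_lit 160) (nat_lit 5) (nat_lit 438) (nat_lit 433) (nat_lit 329)) (XT.lf (nat_lit 0) (nat_lit 11571043408) (nat_lit 760) (nat_lit 6981356133) (nat_lit 836) (nat_lit 5131399391) (nat_lit 150) (nat_lit 5) (nat_lit 160) (nat_lit 5) (nat_lit 161) (nat_lit 5) (nat_lit 439) (nat_lit 433) (nat_lit 328))) (XT.nd (nat_lit 78) (nat_lit 0) (nat_lit 76) (XT.lf (nat_lit 76) (nat_lit 5513695638) (nat_lit 0) (nat_lit 7725935468) (nat_lit 836) (nat_lit 11055431999) (nat_lit 151) (nat_lit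 5) (nat_lit 150) (nat_lit 5) (nat_lit 161) (nat_lit 5) (nat_lit 440) (nat_lit 433) (nat_lit 327)) (XT.lf (nat_lit 0) (nat_lit 15161094950) (nat_lit 760) (nat_lit 6120115038) (nat_lit 836) (nat_lit 3647209312) (nat_lit 151) (nat_lit 5) (nat_lit 161) (nat_lit 5) (nat_lit 162) (nat_lit 5) (nat_lit 441) (nat_lit 433) (nat_lit 326)))) (XT.nd (nat_lit 156) (nat_lit 684) (nat_lit 0) (XT.nd (nat_lit 78) (nat_lit 0) (nat_lit 76) (XT.lf (nat_lit 76) (nat_lit 7274453906) (nat_lit 0) (nat_lit 10137184858) (nat_lit 836) (nat_lit 8170155297) (nat_lit 152) (nat_lit 5) (nat_lit 151) (nat_lit 5) (nat_lit 162) (nat_lit 5) (nat_lit 442) (nat_lit 433) (nat_lit 325)) (XT.lf (nat_lit 0) (nat_lit 19897523460) (nat_lit 760) (nat_lit 4743736849) (nat_lit 76) (nat_lit 1620437612) (nat_lit 152) (nat_lit 5) (nat_lit 162) (nat_lit 5) (nat_lit 153) (nat_lit 5) (nat_lit 443) (nat_lit 433) (nat_lit 324))) (XT.nd (nat_lit 78)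 (nat_lit 0) (nat_lit 0) (XT.lf (nat_lit 0) (nat_lit 9634325355) (nat_lit 760) (nat_lit 13183358617) (nat_lit 836) (nat_lit 4142414915) (nat_lit 142) (nat_lit 5) (nat_lit 152) (nat_lit 5) (nat_lit 153) (nat_lit 5) (nat_lit 444) (nat_lit 433) (nat_lit 323)) (XT.lf (nat_lit 0) (nat_lit 24890181119) (nat_lit 760) (nat_lit 1067612967) (nat_lit 836) (nat_lit 1731929685) (nat_lit 142) (nat_lit 5) (nat_lit 152) (nat_lit 5) (nat_lit 153) (nat_lit 5) (nat_lit 445) (nat_lit 433) (nat_lit 322))))) (XT.nd (nat_lit 312) (nat_lit 608) (nat_lit 0) (XT.nd (nat_lit 156) (nat_lit 760) (nat_lit 0) (XT.nd (nat_lit 78) (nat_lit 0) (nat_lit 0) (XT.lf (nat_lit 0) (nat_lit 1153323338) (nat_lit 456) (nat_lit 15784994882) (nat_lit 76) (nat_lit 11497897791) (nat_lit 136) (nat_lit 5) (nat_lit 142) (nat_lit 5) (nat_lit 137) (nat_lit 5) (nat_lit 446) (nat_lit 433) (nat_lit 321)) (XT.lf (nat_lit 0) (nat_lit 4184345699) (nat_lit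 456) (nat_lit 298560552) (nat_lit 76) (nat_lit 24732722270) (nat_lit 136) (nat_lit 5) (nat_lit 142) (nat_lit 5) (nat_lit 137) (nat_lit 5) (nat_lit 447) (nat_lit 433) (nat_lit 320))) (XT.nd (nat_lit 78) (nat_lit 380) (nat_lit 0) (XT.lf (nat_lit 0) (nat_lit 7757003534) (nat_lit 456) (nat_lit 13675715134) (nat_lit 76) (nat_lit 8581789549) (nat_lit 131) (nat_lit 5) (nat_lit 137) (nat_lit 5) (nat_lit 132) (nat_lit 5) (nat_lit 448) (nat_lit 433) (nat_lit 319)) (XT.lf (nat_lit 0) (nat_lit 2981303005) (nat_lit 380) (nat_lit 8646655432) (nat_lit 456) (nat_lit 19219390996) (nat_lit 126) (nat_lit 5) (nat_lit 131) (nat_lit 5) (nat_lit 132) (nat_lit 5) (nat_lit 449) (nat_lit 433) (nat_lit 318)))) (XT.nd (nat_lit 156) (nat_lit 304) (nat_lit 0) (XT.nd (nat_lit 78) (nat_lit 304) (nat_lit 0) (XT.lf (nat_lit 0) (nat_lit 15997126324) (nat_lit 456) (nat_lit 10848708118) (nat_lit 76) (nat_lit 4860765712) (nat_lit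 126) (nat_lit 5) (nat_lit 132) (nat_lit 5) (nat_lit 127) (nat_lit 5) (nat_lit 450) (nat_lit 433) (nat_lit 317)) (XT.lf (nat_lit 0) (nat_lit 7099243271) (nat_lit 304) (nat_lit 13733005926) (nat_lit 380) (nat_lit 11764190056) (nat_lit 122) (nat_lit 5) (nat_lit 126) (nat_lit 5) (nat_lit 127) (nat_lit 5) (nat_lit 451) (nat_lit 433) (nat_lit 316))) (XT.nd (nat_lit 78) (nat_lit 304) (nat_lit 0) (XT.lf (nat_lit 0) (nat_lit 26091474627) (nat_lit 380) (nat_lit 7209784398) (nat_lit 76) (nat_lit 220394605) (nat_lit 122) (nat_lit 5) (nat_lit 127) (nat_lit 5) (nat_lit 123) (nat_lit 5) (nat_lit 452) (nat_lit 433) (nat_lit 315)) (XT.lf (nat_lit 0) (nat_lit 12150157197) (nat_lit 304) (nat_lit 19873621626) (nat_lit 380) (nat_lit 2448844636) (nat_lit 118) (nat_lit 5) (nat_lit 122) (nat_lit 5) (nat_lit 123) (nat_lit 5) (nat_lit 453) (nat_lit 433) (nat_lit 314))))))))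
noncomputable def xc165 : XT := (XT.nd (nat_lit 2418) (nat_lit 2356) (nat_lit 0) (XT.nd (nat_lit 1170) (nat_lit 1672) (nat_lit 0) (XT.nd (nat_lit 546) (nat_lit 1064) (nat_lit 0) (XT.nd (nat_lit 234) (nat_lit 532) (nat_lit 0) (XT.nd (nat_lit 78) (nat_lit 608) (nat_lit 0) (XT.lf (nat_lit 0) (nat_lit 2811983329) (nat_lit 380) (nat_lit 2787717297) (nat_lit 76) (nat_lit 29863297610) (nat_lit 117) (nat_lit 5) (nat_lit 122) (nat_lit 5) (nat_lit 118) (nat_lit 5) (nat_lit 454) (nat_lit 433) (nat_lit 313)) (XT.nd (nat_lit 78) (nat_lit 304) (nat_lit 0) (XT.lf (nat_lit 0) (nat_lit 8686150081) (nat_lit 380) (nat_lit 18375977452) (nat_lit 76) (nat_lit 9417127765) (nat_lit 113) (nat_lit 5) (nat_lit 118) (nat_lit 5) (nat_lit 114) (nat_lit 5) (nat_lit 455) (nat_lit 433) (nat_lit 312)) (XT.lf (nat_lit 0) (nat_lit 2576019646) (nat_lit 304) (nat_lit 12453693176) (nat_lit 380) (nat_lit 22507828512) (nat_lit 109)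 (nat_lit 5) (nat_lit 113) (nat_lit 5) (nat_lit 114) (nat_lit 5) (nat_lit 456) (nat_lit 433) (nat_lit 311)))) (XT.nd (nat_lit 156) (nat_lit 304) (nat_lit 0) (XT.nd (nat_lit 78) (nat_lit 228) (nat_lit 0) (XT.lf (nat_lit 0) (nat_lit 22047594120) (nat_lit 380) (nat_lit 13475340153) (nat_lit 76) (nat_lit 3107950855) (nat_lit 109) (nat_lit 5) (nat_lit 114) (nat_lit 5) (nat_lit 110) (nat_lit 5) (nat_lit 457) (nat_lit 433) (nat_lit 310)) (XT.lf (nat_lit 0) (nat_lit 9169126965) (nat_lit 228) (nat_lit 20590544937) (nat_lit 304) (nat_lit 10002059544) (nat_lit 106) (nat_lit 5) (nat_lit 109) (nat_lit 5) (nat_lit 110) (nat_lit 5) (nat_lit 458) (nat_lit 433) (nat_lit 309))) (XT.nd (nat_lit 78) (nat_lit 304) (nat_lit 0) (XT.lf (nat_lit 0) (nat_lit 33408402938) (nat_lit 228) (nat_lit 4673258912) (nat_lit 304) (nat_lit 2856243250) (nat_lit 106) (nat_lit 5) (nat_lit 109) (nat_lit 5) (nat_lit 110) (nat_lit 5) (nat_lit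 459) (nat_lit 433) (nat_lit 308)) (XT.lf (nat_lit 0) (nat_lit 4955781418) (nat_lit 304) (nat_lit 25191338604) (nat_lit 76) (nat_lit 11999257969) (nat_lit 102) (nat_lit 5) (nat_lit 106) (nat_lit 5) (nat_lit 103) (nat_lit 5) (nat_lit 460) (nat_lit 433) (nat_lit 307))))) (XT.nd (nat_lit 312) (nat_lit 608) (nat_lit 0) (XT.nd (nat_lit 156) (nat_lit 228) (nat_lit 0) (XT.nd (nat_lit 78) (nat_lit 228) (nat_lit 0) (XT.lf (nat_lit 0) (nat_lit 13264937150) (nat_lit 304) (nat_lit 614411933) (nat_lit 76) (nat_lit 29523458718) (nat_lit 102) (nat_lit 5) (nat_lit 106) (nat_lit 5) (nat_lit 103) (nat_lit 5) (nat_lit 461) (nat_lit 433) (nat_lit 306)) (XT.lf (nat_lit 0) (nat_lit 22448886884) (nat_lit 304) (nat_lit 18739368846) (nat_lit 76) (nat_lit 3510836918) (nat_lit 99) (nat_lit 5) (nat_lit 103) (nat_lit 5) (nat_lit 100) (nat_lit 5) (nat_lit 462) (nat_lit 433) (nat_lit 305))) (XT.nd (nat_lit 78) (nat_lit 0) (nat_lit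 0) (XT.lf (nat_lit 0) (nat_lit 7842508984) (nat_lit 228) (nat_lit 24606621445) (nat_lit 304) (nat_lit 13593206833) (nat_lit 96) (nat_lit 5) (nat_lit 99) (nat_lit 5) (nat_lit 100) (nat_lit 5) (nat_lit 463) (nat_lit 433) (nat_lit 304)) (XT.lf (nat_lit 0) (nat_lit 36399125091) (nat_lit 228) (nat_lit 6864255122) (nat_lit 304) (nat_lit 4173664513) (nat_lit 96) (nat_lit 5) (nat_lit 99) (nat_lit 5) (nat_lit 100) (nat_lit 5) (nat_lit 464) (nat_lit 433) (nat_lit 303)))) (XT.nd (nat_lit 156) (nat_lit 380) (nat_lit 0) (XT.nd (nat_lit 78) (nat_lit 0) (nat_lit 0) (XT.lf (nat_lit 0) (nat_lit 6000797549) (nat_lit 228) (nat_lit 31109952360) (nat_lit 76) (nat_lit 11762929257) (nat_lit 93) (nat_lit 5) (nat_lit 96) (nat_lit 5) (nat_lit 94) (nat_lit 5) (nat_lit 465) (nat_lit 433) (nat_lit 302)) (XT.lf (nat_lit 0) (nat_lit 16843044004) (nat_lit 228) (nat_lit 2173019338) (nat_lit 76) (nat_lit 31347695041) (nat_lit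 93) (nat_lit 5) (nat_lit 96) (nat_lit 5) (nat_lit 94) (nat_lit 5) (nat_lit 466) (nat_lit 433) (nat_lit 301))) (XT.nd (nat_lit 78) (nat_lit 152) (nat_lit 0) (XT.lf (nat_lit 0) (nat_lit 28686463980) (nat_lit 304) (nat_lit 22774180523) (nat_lit 76) (nat_lit 444744264) (nat_lit 90) (nat_lit 5) (nat_lit 94) (nat_lit 5) (nat_lit 91) (nat_lit 5) (nat_lit 467) (nat_lit 433) (nat_lit 300)) (XT.lf (nat_lit 0) (nat_lit 8509141431) (nat_lit 152) (nat_lit 33091907816) (nat_lit 228) (nat_lit 11899101961) (nat_lit 88) (nat_lit 5) (nat_lit 90) (nat_lit 5) (nat_lit 91) (nat_lit 5) (nat_lit 468) (nat_lit 433) (nat_lit 299)))))) (XT.nd (nat_lit 624) (nat_lit 684) (nat_lit 0) (XT.nd (nat_lit 312) (nat_lit 532) (nat_lit 0) (XT.nd (nat_lit 156) (nat_lit 152) (nat_lit 0) (XT.nd (nat_lit 78) (nat_lit 228) (nat_lit 0) (XT.lf (nat_lit 0) (nat_lit 376174018) (nat_lit 228) (nat_lit 13018899073) (nat_lit 76) (nat_lit 41760137449)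 (nat_lit 87) (nat_lit 5) (nat_lit 90) (nat_lit 5) (nat_lit 88) (nat_lit 5) (nat_lit 469) (nat_lit 433) (nat_lit 298)) (XT.lf (nat_lit 0) (nat_lit 13313069796) (nat_lit 304) (nat_lit 35964118139) (nat_lit 76) (nat_lit 7583694567) (nat_lit 84) (nat_lit 5) (nat_lit 88) (nat_lit 5) (nat_lit 85) (nat_lit 5) (nat_lit 470) (nat_lit 433) (nat_lit 297))) (XT.nd (nat_lit 78) (nat_lit 152) (nat_lit 0) (XT.lf (nat_lit 0) (nat_lit 27337701830) (nat_lit 304) (nat_lit 1908352288) (nat_lit 76) (nat_lit 29383739579) (nat_lit 84) (nat_lit 5) (nat_lit 88) (nat_lit 5) (nat_lit 85) (nat_lit 5) (nat_lit 471) (nat_lit 433) (nat_lit 296)) (XT.lf (nat_lit 0) (nat_lit 34964985235) (nat_lit 152) (nat_lit 7641819069) (nat_lit 228) (nat_lit 17853184405) (nat_lit 82) (nat_lit 5) (nat_lit 84) (nat_lit 5) (nat_lit 85) (nat_lit 5) (nat_lit 472) (nat_lit 433) (nat_lit 295)))) (XT.nd (nat_lit 156) (nat_lit 304) (nat_lit 0) (XT.nd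 (nat_lit 78) (nat_lit 76) (nat_lit 0) (XT.lf (nat_lit 0) (nat_lit 11496384947) (nat_lit 152) (nat_lit 47587546301) (nat_lit 228) (nat_lit 3275533947) (nat_lit 80) (nat_lit 5) (nat_lit 82) (nat_lit 5) (nat_lit 83) (nat_lit 5) (nat_lit 473) (nat_lit 433) (nat_lit 294)) (XT.lf (nat_lit 0) (nat_lit 12207444386) (nat_lit 228) (nat_lit 13434412719) (nat_lit 76) (nat_lit 38674591067) (nat_lit 79) (nat_lit 5) (nat_lit 82) (nat_lit 5) (nat_lit 80) (nat_lit 5) (nat_lit 474) (nat_lit 433) (nat_lit 293))) (XT.nd (nat_lit 78) (nat_lit 152) (nat_lit 0) (XT.lf (nat_lit 0) (nat_lit 26661156383) (nat_lit 152) (nat_lit 2107103882) (nat_lit 228) (nat_lit 37579646930) (nat_lit 77) (nat_lit 5) (nat_lit 79) (nat_lit 5) (nat_lit 80) (nat_lit 5) (nat_lit 475) (nat_lit 433) (nat_lit 292)) (XT.lf (nat_lit 0) (nat_lit 410662412) (nat_lit 152) (nat_lit 46334573399) (nat_lit 228) (nat_lit 21706297571) (nat_lit 75) (nat_lit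 5) (nat_lit 77) (nat_lit 5) (nat_lit 78) (nat_lit 5) (nat_lit 476) (nat_lit 433) (nat_lit 291))))) (XT.nd (nat_lit 312) (nat_lit 304) (nat_lit 0) (XT.nd (nat_lit 156) (nat_lit 152) (nat_lit 0) (XT.nd (nat_lit 78) (nat_lit 228) (nat_lit 0) (XT.lf (nat_lit 0) (nat_lit 43850976508) (nat_lit 152) (nat_lit 22473777627) (nat_lit 228) (nat_lit 4300402191) (nat_lit 75) (nat_lit 5) (nat_lit 77) (nat_lit 5) (nat_lit 78) (nat_lit 5) (nat_lit 477) (nat_lit 433) (nat_lit 290)) (XT.lf (nat_lit 0) (nat_lit 13837744025) (nat_lit 228) (nat_lit 56057937946) (nat_lit 76) (nat_lit 2985405091) (nat_lit 72) (nat_lit 5) (nat_lit 75) (nat_lit 5) (nat_lit 73) (nat_lit 5) (nat_lit 478) (nat_lit 433) (nat_lit 289))) (XT.nd (nat_lit 78) (nat_lit 152) (nat_lit 0) (XT.lf (nat_lit 0) (nat_lit 33565260045) (nat_lit 228) (nat_lit 12147637455) (nat_lit 76) (nat_lit 29492042835) (nat_lit 72) (nat_lit 5) (nat_lit 75) (nat_lit 5)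 (nat_lit 73) (nat_lit 5) (nat_lit 479) (nat_lit 433) (nat_lit 288)) (XT.lf (nat_lit 0) (nat_lit 35077029642) (nat_lit 152) (nat_lit 19747577331) (nat_lit 228) (nat_lit 22793106664) (nat_lit 70) (nat_lit 5) (nat_lit 72) (nat_lit 5) (nat_lit 73) (nat_lit 5) (nat_lit 480) (nat_lit 433) (nat_lit 287)))) (XT.nd (nat_lit 156) (nat_lit 152) (nat_lit 0) (XT.nd (nat_lit 78) (nat_lit 76) (nat_lit 0) (XT.lf (nat_lit 0) (nat_lit 4978604323) (nat_lit 76) (nat_lit 72570316282) (nat_lit 152) (nat_lit 2582105147) (nat_lit 69) (nat_lit 5) (nat_lit 70) (nat_lit 5) (nat_lit 71) (nat_lit 4) (nat_lit 481) (nat_lit 433) (nat_lit 286)) (XT.lf (nat_lit 0) (nat_lit 19096690315) (nat_lit 152) (nat_lit 27013625453) (nat_lit 76) (nat_lit 36592445982) (nat_lit 68) (nat_lit 5) (nat_lit 70) (nat_lit 5) (nat_lit 69) (nat_lit 5) (nat_lit 482) (nat_lit 433) (nat_lit 285))) (XT.nd (nat_lit 78) (nat_lit 0) (nat_lit 0) (XT.lf (nat_lit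 0) (nat_lit 24262658762) (nat_lit 152) (nat_lit 17886736474) (nat_lit 228) (nat_lit 43232735667) (nat_lit 66) (nat_lit 5) (nat_lit 68) (nat_lit 5) (nat_lit 69) (nat_lit 5) (nat_lit 483) (nat_lit 433) (nat_lit 284)) (XT.lf (nat_lit 0) (nat_lit 67001097598) (nat_lit 228) (nat_lit 9326599600) (nat_lit 76) (nat_lit 11835453299) (nat_lit 66) (nat_lit 5) (nat_lit 69) (nat_lit 5) (nat_lit 67) (nat_lit 4) (nat_lit 484) (nat_lit 433) (nat_lit 283))))))) (XT.nd (nat_lit 1170) (nat_lit 1140) (nat_lit 0) (XT.nd (nat_lit 546) (nat_lit 532) (nat_lit 0) (XT.nd (nat_lit 234) (nat_lit 380) (nat_lit 0) (XT.nd (nat_lit 78) (nat_lit 152) (nat_lit 0) (XT.lf (nat_lit 0) (nat_lit 2977570677) (nat_lit 152) (nat_lit 44841474280) (nat_lit 76) (nat_lit 43211115001) (nat_lit 64) (nat_lit 5) (nat_lit 66) (nat_lit 5) (nat_lit 65) (nat_lit 5) (nat_lit 485) (nat_lit 433) (nat_lit 282)) (XT.nd (nat_lit 78) (nat_lit 0) (nat_lit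 0) (XT.lf (nat_lit 0) (nat_lit 10762338148) (nat_lit 152) (nat_lit 17177282408) (nat_lit 228) (nat_lit 66067222032) (nat_lit 62) (nat_lit 5) (nat_lit 64) (nat_lit 5) (nat_lit 65) (nat_lit 5) (nat_lit 486) (nat_lit 433) (nat_lit 281)) (XT.lf (nat_lit 0) (nat_lit 55153845402) (nat_lit 228) (nat_lit 26641381488) (nat_lit 76) (nat_lit 15286928913) (nat_lit 62) (nat_lit 5) (nat_lit 65) (nat_lit 5) (nat_lit 63) (nat_lit 4) (nat_lit 487) (nat_lit 433) (nat_lit 280)))) (XT.nd (nat_lit 156) (nat_lit 228) (nat_lit 0) (XT.nd (nat_lit 78) (nat_lit 76) (nat_lit 0) (XT.lf (nat_lit 0) (nat_lit 33581756524) (nat_lit 76) (nat_lit 50951089446) (nat_lit 152) (nat_lit 15738185559) (nat_lit 61) (nat_lit 5) (nat_lit 62) (nat_lit 5) (nat_lit 63) (nat_lit 4) (nat_lit 488) (nat_lit 433) (nat_lit 279)) (XT.lf (nat_lit 0) (nat_lit 11841757359) (nat_lit 152) (nat_lit 6050215759) (nat_lit 76) (nat_lit 85695358958) (nat_lit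 60) (nat_lit 5) (nat_lit 62) (nat_lit 5) (nat_lit 61) (nat_lit 5) (nat_lit 489) (nat_lit 433) (nat_lit 278))) (XT.nd (nat_lit 78) (nat_lit 76) (nat_lit 0) (XT.lf (nat_lit 0) (nat_lit 41477185030) (nat_lit 228) (nat_lit 48036216337) (nat_lit 76) (nat_lit 17482876505) (nat_lit 58) (nat_lit 5) (nat_lit 61) (nat_lit 5) (nat_lit 59) (nat_lit 4) (nat_lit 490) (nat_lit 433) (nat_lit 277)) (XT.lf (nat_lit 0) (nat_lit 17109754578) (nat_lit 76) (nat_lit 56147483137) (nat_lit 152) (nat_lit 37285290621) (nat_lit 57) (nat_lit 5) (nat_lit 58) (nat_lit 5) (nat_lit 59) (nat_lit 4) (nat_lit 491) (nat_lit 433) (nat_lit 276))))) (XT.nd (nat_lit 312) (nat_lit 228) (nat_lit 0) (XT.nd (nat_lit 156) (nat_lit 76) (nat_lit 0) (XT.nd (nat_lit 78) (nat_lit 228) (nat_lit 0) (XT.lf (nat_lit 0) (nat_lit 87177556682) (nat_lit 76) (nat_lit 20260554111) (nat_lit 152) (nat_lit 6787389703) (nat_lit 57) (nat_lit 5) (nat_lit 58)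 (nat_lit 5) (nat_lit 59) (nat_lit 4) (nat_lit 492) (nat_lit 433) (nat_lit 275)) (XT.lf (nat_lit 0) (nat_lit 25397265345) (nat_lit 228) (nat_lit 74672192593) (nat_lit 76) (nat_lit 17954986124) (nat_lit 54) (nat_lit 5) (nat_lit 57) (nat_lit 5) (nat_lit 55) (nat_lit 4) (nat_lit 493) (nat_lit 433) (nat_lit 274))) (XT.nd (nat_lit 78) (nat_lit 76) (nat_lit 0) (XT.lf (nat_lit 0) (nat_lit 59759136338) (nat_lit 228) (nat_lit 4232937950) (nat_lit 76) (nat_lit 57975892935) (nat_lit 54) (nat_lit 5) (nat_lit 57) (nat_lit 5) (nat_lit 55) (nat_lit 4) (nat_lit 494) (nat_lit 433) (nat_lit 273)) (XT.lf (nat_lit 0) (nat_lit 72030772619) (nat_lit 76) (nat_lit 24931372773) (nat_lit 152) (nat_lit 29090368972) (nat_lit 53) (nat_lit 5) (nat_lit 54) (nat_lit 5) (nat_lit 55) (nat_lit 4) (nat_lit 495) (nat_lit 433) (nat_lit 272)))) (XT.nd (nat_lit 156) (nat_lit 76) (nat_lit 0) (XT.nd (nat_lit 78) (nat_lit 0) (nat_lit 0)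 (XT.lf (nat_lit 0) (nat_lit 6184890009) (nat_lit 152) (nat_lit 108029514890) (nat_lit 76) (nat_lit 16088306936) (nat_lit 51) (nat_lit 5) (nat_lit 53) (nat_lit 5) (nat_lit 52) (nat_lit 4) (nat_lit 496) (nat_lit 433) (nat_lit 271)) (XT.lf (nat_lit 0) (nat_lit 43583331746) (nat_lit 152) (nat_lit 31364832636) (nat_lit 76) (nat_lit 59726557929) (nat_lit 51) (nat_lit 5) (nat_lit 53) (nat_lit 5) (nat_lit 52) (nat_lit 4) (nat_lit 497) (nat_lit 433) (nat_lit 270))) (XT.nd (nat_lit 78) (nat_lit 0) (nat_lit 0) (XT.lf (nat_lit 0) (nat_lit 50754740288) (nat_lit 76) (nat_lit 32887906151) (nat_lit 152) (nat_lit 55583139366) (nat_lit 50) (nat_lit 5) (nat_lit 51) (nat_lit 5) (nat_lit 52) (nat_lit 4) (nat_lit 498) (nat_lit 433) (nat_lit 269)) (XT.lf (nat_lit 0) (nat_lit 126419386830) (nat_lit 152) (nat_lit 6096201868) (nat_lit 0) (nat_lit 11453090816) (nat_lit 50) (nat_lit 5) (nat_lit 52) (nat_lit 4) (nat_lit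 50) (nat_lit 4) (nat_lit 499) (nat_lit 433) (nat_lit 268)))))) (XT.nd (nat_lit 624) (nat_lit 532) (nat_lit 0) (XT.nd (nat_lit 312) (nat_lit 304) (nat_lit 0) (XT.nd (nat_lit 156) (nat_lit 76) (nat_lit 0) (XT.nd (nat_lit 78) (nat_lit 76) (nat_lit 0) (XT.lf (nat_lit 0) (nat_lit 23525418898) (nat_lit 152) (nat_lit 66740934121) (nat_lit 76) (nat_lit 58572105709) (nat_lit 48) (nat_lit 5) (nat_lit 50) (nat_lit 5) (nat_lit 49) (nat_lit 4) (nat_lit 500) (nat_lit 433) (nat_lit 267)) (XT.lf (nat_lit 0) (nat_lit 21357520108) (nat_lit 76) (nat_lit 45143566056) (nat_lit 152) (nat_lit 87414406535) (nat_lit 47) (nat_lit 5) (nat_lit 48) (nat_lit 5) (nat_lit 49) (nat_lit 4) (nat_lit 501) (nat_lit 433) (nat_lit 266))) (XT.nd (nat_lit 78) (nat_lit 76) (nat_lit 0) (XT.lf (nat_lit 0) (nat_lit 112807867637) (nat_lit 152) (nat_lit 43067994176) (nat_lit 0) (nat_lit 3311400044) (nat_lit 47) (nat_lit 5) (nat_lit 49) (nat_lit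 4) (nat_lit 47) (nat_lit 4) (nat_lit 502) (nat_lit 433) (nat_lit 265)) (XT.lf (nat_lit 0) (nat_lit 51812173736) (nat_lit 76) (nat_lit 111165483522) (nat_lit 76) (nat_lit 1667578791) (nat_lit 46) (nat_lit 4) (nat_lit 47) (nat_lit 5) (nat_lit 47) (nat_lit 4) (nat_lit 503) (nat_lit 433) (nat_lit 264)))) (XT.nd (nat_lit 156) (nat_lit 152) (nat_lit 0) (XT.nd (nat_lit 78) (nat_lit 76) (nat_lit 0) (XT.lf (nat_lit 0) (nat_lit 44570604130) (nat_lit 152) (nat_lit 18129534964) (nat_lit 76) (nat_lit 107603621933) (nat_lit 45) (nat_lit 5) (nat_lit 47) (nat_lit 5) (nat_lit 46) (nat_lit 4) (nat_lit 504) (nat_lit 433) (nat_lit 263)) (XT.lf (nat_lit 0) (nat_lit 83966850788) (nat_lit 76) (nat_lit 10407504210) (nat_lit 152) (nat_lit 81804005397) (nat_lit 44) (nat_lit 5) (nat_lit 45) (nat_lit 5) (nat_lit 46) (nat_lit 4) (nat_lit 505) (nat_lit 433) (nat_lit 262))) (XT.nd (nat_lit 78) (nat_lit 76) (nat_lit 0) (XT.lf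 (nat_lit 0) (nat_lit 9053660276) (nat_lit 76) (nat_lit 138761564508) (nat_lit 76) (nat_lit 34474118401) (nat_lit 43) (nat_lit 4) (nat_lit 44) (nat_lit 5) (nat_lit 44) (nat_lit 4) (nat_lit 506) (nat_lit 433) (nat_lit 261)) (XT.lf (nat_lit 0) (nat_lit 16491666050) (nat_lit 152) (nat_lit 70480656739) (nat_lit 76) (nat_lit 101633838711) (nat_lit 42) (nat_lit 5) (nat_lit 44) (nat_lit 5) (nat_lit 43) (nat_lit 4) (nat_lit 507) (nat_lit 433) (nat_lit 260))))) (XT.nd (nat_lit 312) (nat_lit 304) (nat_lit 0) (XT.nd (nat_lit 156) (nat_lit 152) (nat_lit 0) (XT.nd (nat_lit 78) (nat_lit 0) (nat_lit 0) (XT.lf (nat_lit 0) (nat_lit 38062887829) (nat_lit 76) (nat_lit 31377371870) (nat_lit 152) (nat_lit 125740649757) (nat_lit 41) (nat_lit 5) (nat_lit 42) (nat_lit 5) (nat_lit 43) (nat_lit 4) (nat_lit 508) (nat_lit 433) (nat_lit 259)) (XT.lf (nat_lit 0) (nat_lit 126669790006) (nat_lit 152) (nat_lit 47987583184) (nat_lit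 0) (nat_lit 27345346290) (nat_lit 41) (nat_lit 5) (nat_lit 43) (nat_lit 4) (nat_lit 41) (nat_lit 4) (nat_lit 509) (nat_lit 433) (nat_lit 258))) (XT.nd (nat_lit 78) (nat_lit 76) (nat_lit 0) (XT.lf (nat_lit 0) (nat_lit 68267763159) (nat_lit 76) (nat_lit 120072135931) (nat_lit 76) (nat_lit 20746765823) (nat_lit 40) (nat_lit 4) (nat_lit 41) (nat_lit 5) (nat_lit 41) (nat_lit 4) (nat_lit 510) (nat_lit 433) (nat_lit 257)) (XT.lf (nat_lit 0) (nat_lit 36223164296) (nat_lit 152) (nat_lit 25068765577) (nat_lit 76) (nat_lit 155163086499) (nat_lit 39) (nat_lit 5) (nat_lit 41) (nat_lit 5) (nat_lit 40) (nat_lit 4) (nat_lit 511) (nat_lit 433) (nat_lit 256)))) (XT.nd (nat_lit 156) (nat_lit 228) (nat_lit 0) (XT.nd (nat_lit 78) (nat_lit 0) (nat_lit 0) (XT.lf (nat_lit 0) (nat_lit 96931363927) (nat_lit 152) (nat_lit 124829933098) (nat_lit 0) (nat_lit 2334132831) (nat_lit 38) (nat_lit 5) (nat_lit 40) (nat_lit 4) (nat_lit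 38) (nat_lit 4) (nat_lit 512) (nat_lit 433) (nat_lit 255)) (XT.lf (nat_lit 0) (nat_lit 162110196751) (nat_lit 152) (nat_lit 2423702608) (nat_lit 0) (nat_lit 67512203511) (nat_lit 38) (nat_lit 5) (nat_lit 40) (nat_lit 4) (nat_lit 38) (nat_lit 4) (nat_lit 513) (nat_lit 433) (nat_lit 254))) (XT.nd (nat_lit 78) (nat_lit 152) (nat_lit 0) (XT.lf (nat_lit 0) (nat_lit 130270279302) (nat_lit 76) (nat_lit 102310553138) (nat_lit 76) (nat_lit 7711834047) (nat_lit 37) (nat_lit 4) (nat_lit 38) (nat_lit 5) (nat_lit 38) (nat_lit 4) (nat_lit 514) (nat_lit 433) (nat_lit 253)) (XT.lf (nat_lit 0) (nat_lit 20486950102) (nat_lit 76) (nat_lit 35652737937) (nat_lit 152) (nat_lit 192748859270) (nat_lit 35) (nat_lit 5) (nat_lit 36) (nat_lit 5) (nat_lit 37) (nat_lit 4) (nat_lit 515) (nat_lit 433) (nat_lit 252))))))))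
noncomputable def xc166 : XT := (XT.nd (nat_lit 2418) (nat_lit 76) (nat_lit 0) (XT.nd (nat_lit 1170) (nat_lit 760) (nat_lit 0) (XT.nd (nat_lit 546) (nat_lit 380) (nat_lit 0) (XT.nd (nat_lit 234) (nat_lit 228) (nat_lit 0) (XT.nd (nat_lit 78) (nat_lit 152) (nat_lit 0) (XT.lf (nat_lit 0) (nat_lit 125353538317) (nat_lit 152) (nat_lit 97174681930) (nat_lit 0) (nat_lit 35258234747) (nat_lit 35) (nat_lit 5) (nat_lit 37) (nat_lit 4) (nat_lit 35) (nat_lit 4) (nat_lit 516) (nat_lit 433) (nat_lit 251)) (XT.nd (nat_lit 78) (nat_lit 76) (nat_lit 0) (XT.lf (nat_lit 0) (nat_lit 41350657818) (nat_lit 76) (nat_lit 157906523002) (nat_lit 76) (nat_lit 67810622272) (nat_lit 34) (nat_lit 4) (nat_lit 35) (nat_lit 5) (nat_lit 35) (nat_lit 4) (nat_lit 517) (nat_lit 433) (nat_lit 250)) (XT.lf (nat_lit 0) (nat_lit 1713126246) (nat_lit 152) (nat_lit 86584560648) (nat_lit 76) (nat_lit 188431912867) (nat_lit 33) (nat_lit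 5) (nat_lit 35) (nat_lit 5) (nat_lit 34) (nat_lit 4) (nat_lit 518) (nat_lit 433) (nat_lit 249)))) (XT.nd (nat_lit 156) (nat_lit 152) (nat_lit 0) (XT.nd (nat_lit 78) (nat_lit 0) (nat_lit 0) (XT.lf (nat_lit 0) (nat_lit 60321840775) (nat_lit 76) (nat_lit 13053208917) (nat_lit 152) (nat_lit 213396810651) (nat_lit 32) (nat_lit 5) (nat_lit 33) (nat_lit 5) (nat_lit 34) (nat_lit 4) (nat_lit 519) (nat_lit 433) (nat_lit 248)) (XT.lf (nat_lit 0) (nat_lit 151139255926) (nat_lit 152) (nat_lit 80718931303) (nat_lit 0) (nat_lit 65332087406) (nat_lit 32) (nat_lit 5) (nat_lit 34) (nat_lit 4) (nat_lit 32) (nat_lit 4) (nat_lit 520) (nat_lit 433) (nat_lit 247))) (XT.nd (nat_lit 78) (nat_lit 76) (nat_lit 0) (XT.lf (nat_lit 0) (nat_lit 74466360342) (nat_lit 76) (nat_lit 159701049427) (nat_lit 76) (nat_lit 73893413017) (nat_lit 31) (nat_lit 4) (nat_lit 32) (nat_lit 5) (nat_lit 32) (nat_lit 4) (nat_lit 521) (nat_lit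 433) (nat_lit 246)) (XT.lf (nat_lit 0) (nat_lit 3200701592) (nat_lit 152) (nat_lit 79246643755) (nat_lit 76) (nat_lit 236956664258) (nat_lit 30) (nat_lit 5) (nat_lit 32) (nat_lit 5) (nat_lit 31) (nat_lit 4) (nat_lit 522) (nat_lit 433) (nat_lit 245))))) (XT.nd (nat_lit 312) (nat_lit 228) (nat_lit 0) (XT.nd (nat_lit 156) (nat_lit 76) (nat_lit 0) (XT.nd (nat_lit 78) (nat_lit 0) (nat_lit 0) (XT.lf (nat_lit 0) (nat_lit 83002243986) (nat_lit 152) (nat_lit 246904885225) (nat_lit 0) (nat_lit 1279856927) (nat_lit 29) (nat_lit 5) (nat_lit 31) (nat_lit 4) (nat_lit 29) (nat_lit 4) (nat_lit 523) (nat_lit 433) (nat_lit 244)) (XT.lf (nat_lit 0) (nat_lit 169508706443) (nat_lit 152) (nat_lit 86128728466) (nat_lit 0) (nat_lit 87785934450) (nat_lit 29) (nat_lit 5) (nat_lit 31) (nat_lit 4) (nat_lit 29) (nat_lit 4) (nat_lit 524) (nat_lit 433) (nat_lit 243))) (XT.nd (nat_lit 78) (nat_lit 0) (nat_lit 0) (XT.lf (nat_lit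 0) (nat_lit 85418572290) (nat_lit 76) (nat_lit 176254748313) (nat_lit 76) (nat_lit 94531609716) (nat_lit 28) (nat_lit 4) (nat_lit 29) (nat_lit 5) (nat_lit 29) (nat_lit 4) (nat_lit 525) (nat_lit 433) (nat_lit 242)) (XT.lf (nat_lit 0) (nat_lit 268531867121) (nat_lit 76) (nat_lit 91372148720) (nat_lit 76) (nat_lit 9648660975) (nat_lit 28) (nat_lit 4) (nat_lit 29) (nat_lit 5) (nat_lit 29) (nat_lit 4) (nat_lit 526) (nat_lit 433) (nat_lit 241)))) (XT.nd (nat_lit 156) (nat_lit 76) (nat_lit 0) (XT.nd (nat_lit 78) (nat_lit 0) (nat_lit 0) (XT.lf (nat_lit 0) (nat_lit 78164893607) (nat_lit 152) (nat_lit 304946675917) (nat_lit 0) (nat_lit 332683830) (nat_lit 26) (nat_lit 5) (nat_lit 28) (nat_lit 4) (nat_lit 26) (nat_lit 4) (nat_lit 527) (nat_lit 433) (nat_lit 240)) (XT.lf (nat_lit 0) (nat_lit 173280899225) (nat_lit 152) (nat_lit 129131411342) (nat_lit 0) (nat_lit 95448387841) (nat_lit 26) (nat_lit 5) (nat_lit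 28) (nat_lit 4) (nat_lit 26) (nat_lit 4) (nat_lit 528) (nat_lit 433) (nat_lit 239))) (XT.nd (nat_lit 78) (nat_lit 0) (nat_lit 0) (XT.lf (nat_lit 0) (nat_lit 57307364862) (nat_lit 76) (nat_lit 216739349512) (nat_lit 76) (nat_lit 138906550884) (nat_lit 25) (nat_lit 4) (nat_lit 26) (nat_lit 5) (nat_lit 26) (nat_lit 4) (nat_lit 529) (nat_lit 433) (nat_lit 238)) (XT.lf (nat_lit 0) (nat_lit 257549809038) (nat_lit 76) (nat_lit 124487206914) (nat_lit 76) (nat_lit 46654134720) (nat_lit 25) (nat_lit 4) (nat_lit 26) (nat_lit 5) (nat_lit 26) (nat_lit 4) (nat_lit 530) (nat_lit 433) (nat_lit 237)))))) (XT.nd (nat_lit 624) (nat_lit 304) (nat_lit 0) (XT.nd (nat_lit 312) (nat_lit 228) (nat_lit 0) (XT.nd (nat_lit 156) (nat_lit 76) (nat_lit 0) (XT.nd (nat_lit 78) (nat_lit 0) (nat_lit 0) (XT.lf (nat_lit 0) (nat_lit 22524045495) (nat_lit 76) (nat_lit 26430773152) (nat_lit 152) (nat_lit 396204366128) (nat_lit 23)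 (nat_lit 5) (nat_lit 24) (nat_lit 5) (nat_lit 25) (nat_lit 4) (nat_lit 531) (nat_lit 433) (nat_lit 236)) (XT.lf (nat_lit 0) (nat_lit 151916350644) (nat_lit 152) (nat_lit 232499897288) (nat_lit 0) (nat_lit 77789130772) (nat_lit 23) (nat_lit 5) (nat_lit 25) (nat_lit 4) (nat_lit 23) (nat_lit 4) (nat_lit 532) (nat_lit 433) (nat_lit 235))) (XT.nd (nat_lit 78) (nat_lit 76) (nat_lit 0) (XT.lf (nat_lit 0) (nat_lit 260458599348) (nat_lit 152) (nat_lit 33292496568) (nat_lit 0) (nat_lit 186331154413) (nat_lit 23) (nat_lit 5) (nat_lit 25) (nat_lit 4) (nat_lit 23) (nat_lit 4) (nat_lit 533) (nat_lit 433) (nat_lit 234)) (XT.lf (nat_lit 0) (nat_lit 181689214181) (nat_lit 76) (nat_lit 195574803879) (nat_lit 76) (nat_lit 121447144598) (nat_lit 22) (nat_lit 4) (nat_lit 23) (nat_lit 5) (nat_lit 23) (nat_lit 4) (nat_lit 534) (nat_lit 433) (nat_lit 233)))) (XT.nd (nat_lit 156) (nat_lit 76) (nat_lit 0) (XT.nd (nat_lit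 78) (nat_lit 152) (nat_lit 0) (XT.lf (nat_lit 0) (nat_lit 408574621395) (nat_lit 76) (nat_lit 91898300952) (nat_lit 76) (nat_lit 17770437532) (nat_lit 22) (nat_lit 4) (nat_lit 23) (nat_lit 5) (nat_lit 23) (nat_lit 4) (nat_lit 535) (nat_lit 433) (nat_lit 232)) (XT.lf (nat_lit 0) (nat_lit 90210204601) (nat_lit 152) (nat_lit 428757021896) (nat_lit 0) (nat_lit 19612054279) (nat_lit 20) (nat_lit 5) (nat_lit 22) (nat_lit 4) (nat_lit 20) (nat_lit 4) (nat_lit 536) (nat_lit 433) (nat_lit 231))) (XT.nd (nat_lit 78) (nat_lit 76) (nat_lit 0) (XT.lf (nat_lit 0) (nat_lit 206386355940) (nat_lit 152) (nat_lit 217573362557) (nat_lit 0) (nat_lit 135788029275) (nat_lit 20) (nat_lit 5) (nat_lit 22) (nat_lit 4) (nat_lit 20) (nat_lit 4) (nat_lit 537) (nat_lit 433) (nat_lit 230)) (XT.lf (nat_lit 0) (nat_lit 4306169815) (nat_lit 76) (nat_lit 324131814717) (nat_lit 76) (nat_lit 253533320106) (nat_lit 19) (nat_lit 4)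 (nat_lit 20) (nat_lit 5) (nat_lit 20) (nat_lit 4) (nat_lit 538) (nat_lit 433) (nat_lit 229))))) (XT.nd (nat_lit 312) (nat_lit 152) (nat_lit 0) (XT.nd (nat_lit 156) (nat_lit 152) (nat_lit 0) (XT.nd (nat_lit 78) (nat_lit 0) (nat_lit 0) (XT.lf (nat_lit 0) (nat_lit 244832218695) (nat_lit 76) (nat_lit 215444133662) (nat_lit 76) (nat_lit 144845479103) (nat_lit 19) (nat_lit 4) (nat_lit 20) (nat_lit 5) (nat_lit 20) (nat_lit 4) (nat_lit 539) (nat_lit 433) (nat_lit 228)) (XT.lf (nat_lit 0) (nat_lit 497383507196) (nat_lit 76) (nat_lit 101322605312) (nat_lit 76) (nat_lit 30723798421) (nat_lit 19) (nat_lit 4) (nat_lit 20) (nat_lit 5) (nat_lit 20) (nat_lit 4) (nat_lit 540) (nat_lit 433) (nat_lit 227))) (XT.nd (nat_lit 78) (nat_lit 0) (nat_lit 0) (XT.lf (nat_lit 0) (nat_lit 88304544998) (nat_lit 152) (nat_lit 545409220256) (nat_lit 0) (nat_lit 21067447885) (nat_lit 17) (nat_lit 5) (nat_lit 19) (nat_lit 4) (nat_lit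 17) (nat_lit 4) (nat_lit 541) (nat_lit 433) (nat_lit 226)) (XT.lf (nat_lit 0) (nat_lit 216185231934) (nat_lit 152) (nat_lit 316044989484) (nat_lit 0) (nat_lit 148948003231) (nat_lit 17) (nat_lit 5) (nat_lit 19) (nat_lit 4) (nat_lit 17) (nat_lit 4) (nat_lit 542) (nat_lit 433) (nat_lit 225)))) (XT.nd (nat_lit 156) (nat_lit 76) (nat_lit 0) (XT.nd (nat_lit 78) (nat_lit 76) (nat_lit 0) (XT.lf (nat_lit 0) (nat_lit 350459468667) (nat_lit 152) (nat_lit 75213527659) (nat_lit 0) (nat_lit 283222114639) (nat_lit 17) (nat_lit 5) (nat_lit 19) (nat_lit 4) (nat_lit 17) (nat_lit 4) (nat_lit 543) (nat_lit 433) (nat_lit 224)) (XT.lf (nat_lit 0) (nat_lit 183532768230) (nat_lit 76) (nat_lit 310779648391) (nat_lit 76) (nat_lit 243542175008) (nat_lit 16) (nat_lit 4) (nat_lit 17) (nat_lit 5) (nat_lit 17) (nat_lit 4) (nat_lit 544) (nat_lit 433) (nat_lit 223))) (XT.nd (nat_lit 78) (nat_lit 76) (nat_lit 0) (XT.lf (nat_lit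 0) (nat_lit 457826704024) (nat_lit 76) (nat_lit 188804631590) (nat_lit 76) (nat_lit 121567044534) (nat_lit 16) (nat_lit 4) (nat_lit 17) (nat_lit 5) (nat_lit 17) (nat_lit 4) (nat_lit 545) (nat_lit 433) (nat_lit 222)) (XT.lf (nat_lit 0) (nat_lit 6298143546) (nat_lit 152) (nat_lit 54326501044) (nat_lit 76) (nat_lit 739429655967) (nat_lit 15) (nat_lit 5) (nat_lit 17) (nat_lit 5) (nat_lit 16) (nat_lit 4) (nat_lit 546) (nat_lit 433) (nat_lit 221))))))) (XT.nd (nat_lit 54678) (nat_lit 0) (nat_lit 6688) (XT.nd (nat_lit 54054) (nat_lit 0) (nat_lit 9728) (XT.nd (nat_lit 53742) (nat_lit 0) (nat_lit 10108) (XT.nd (nat_lit 78) (nat_lit 0) (nat_lit 0) (XT.lf (nat_lit 0) (nat_lit 141142229454) (nat_lit 152) (nat_lit 614921357044) (nat_lit 0) (nat_lit 77106230959) (nat_lit 14) (nat_lit 5) (nat_lit 16) (nat_lit 4) (nat_lit 14) (nat_lit 4) (nat_lit 547) (nat_lit 433) (nat_lit 220)) (XT.nd (nat_lit 53586) (nat_lit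 0) (nat_lit 10108) (XT.lf (nat_lit 0) (nat_lit 284657076507) (nat_lit 152) (nat_lit 362566621361) (nat_lit 0) (nat_lit 220620984494) (nat_lit 14) (nat_lit 5) (nat_lit 16) (nat_lit 4) (nat_lit 14) (nat_lit 4) (nat_lit 548) (nat_lit 433) (nat_lit 219)) (XT.lf (nat_lit 0) (nat_lit 3462557061) (nat_lit 836) (nat_lit 3625430965) (nat_lit 836) (nat_lit 3625430965) (nat_lit 147) (nat_lit 3) (nat_lit 158) (nat_lit 3) (nat_lit 158) (nat_lit 5) (nat_lit 434) (nat_lit 434) (nat_lit 332)))) (XT.nd (nat_lit 156) (nat_lit 0) (nat_lit 76) (XT.nd (nat_lit 78) (nat_lit 0) (nat_lit 76) (XT.lf (nat_lit 76) (nat_lit 3487650277) (nat_lit 0) (nat_lit 3806341187) (nat_lit 836) (nat_lit 14658708140) (nat_lit 148) (nat_lit 5) (nat_lit 147) (nat_lit 3) (nat_lit 158) (nat_lit 5) (nat_lit 435) (nat_lit 434) (nat_lit 331)) (XT.lf (nat_lit 0) (nat_lit 7907633358) (nat_lit 760) (nat_lit 7601901770) (nat_lit 836) (nat_lit 6984004541)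 (nat_lit 148) (nat_lit 5) (nat_lit 158) (nat_lit 5) (nat_lit 159) (nat_lit 5) (nat_lit 436) (nat_lit 434) (nat_lit 330))) (XT.nd (nat_lit 78) (nat_lit 0) (nat_lit 76) (XT.lf (nat_lit 76) (nat_lit 3860389726) (nat_lit 0) (nat_lit 4805613784) (nat_lit 836) (nat_lit 14389717254) (nat_lit 149) (nat_lit 5) (nat_lit 148) (nat_lit 5) (nat_lit 159) (nat_lit 5) (nat_lit 437) (nat_lit 434) (nat_lit 329)) (XT.lf (nat_lit 0) (nat_lit 9685346523) (nat_lit 760) (nat_lit 7587966253) (nat_lit 836) (nat_lit 6361546687) (nat_lit 149) (nat_lit 5) (nat_lit 159) (nat_lit 5) (nat_lit 160) (nat_lit 5) (nat_lit 438) (nat_lit 434) (nat_lit 328))))) (XT.nd (nat_lit 312) (nat_lit 532) (nat_lit 0) (XT.nd (nat_lit 156) (nat_lit 0) (nat_lit 76) (XT.nd (nat_lit 78) (nat_lit 0) (nat_lit 76) (XT.lf (nat_lit 76) (nat_lit 4665006459) (nat_lit 0) (nat_lit 6234414058) (nat_lit 836) (nat_lit 13336347597) (nat_lit 150) (nat_lit 5)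 (nat_lit 149) (nat_lit 5) (nat_lit 160) (nat_lit 5) (nat_lit 439) (nat_lit 434) (nat_lit 327)) (XT.lf (nat_lit 0) (nat_lit 12380918420) (nat_lit 760) (nat_lit 7157587167) (nat_lit 836) (nat_lit 5317881751) (nat_lit 150) (nat_lit 5) (nat_lit 160) (nat_lit 5) (nat_lit 161) (nat_lit 5) (nat_lit 440) (nat_lit 434) (nat_lit 326))) (XT.nd (nat_lit 78) (nat_lit 0) (nat_lit 76) (XT.lf (nat_lit 76) (nat_lit 5959429503) (nat_lit 0) (nat_lit 8165145569) (nat_lit 836) (nat_lit 11374059354) (nat_lit 151) (nat_lit 5) (nat_lit 150) (nat_lit 5) (nat_lit 161) (nat_lit 5) (nat_lit 441) (nat_lit 434) (nat_lit 325)) (XT.lf (nat_lit 0) (nat_lit 16130708064) (nat_lit 760) (nat_lit 6252733131) (nat_lit 836) (nat_lit 3780789044) (nat_lit 151) (nat_lit 5) (nat_lit 161) (nat_lit 5) (nat_lit 162) (nat_lit 5) (nat_lit 442) (nat_lit 434) (nat_lit 324)))) (XT.nd (nat_lit 156) (nat_lit 684) (nat_lit 0) (XT.nd (nat_lit 78)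 (nat_lit 0) (nat_lit 76) (XT.lf (nat_lit 76) (nat_lit 7808767686) (nat_lit 0) (nat_lit 10677600580) (nat_lit 836) (nat_lit 8364277541) (nat_lit 152) (nat_lit 5) (nat_lit 151) (nat_lit 5) (nat_lit 162) (nat_lit 5) (nat_lit 443) (nat_lit 434) (nat_lit 323)) (XT.lf (nat_lit 0) (nat_lit 21086326922) (nat_lit 760) (nat_lit 4808206594) (nat_lit 76) (nat_lit 1670523813) (nat_lit 152) (nat_lit 5) (nat_lit 162) (nat_lit 5) (nat_lit 153) (nat_lit 5) (nat_lit 444) (nat_lit 434) (nat_lit 322))) (XT.nd (nat_lit 78) (nat_lit 0) (nat_lit 0) (XT.lf (nat_lit 0) (nat_lit 10285972961) (nat_lit 760) (nat_lit 13859940971) (nat_lit 836) (nat_lit 4152794876) (nat_lit 142) (nat_lit 5) (nat_lit 152) (nat_lit 5) (nat_lit 153) (nat_lit 5) (nat_lit 445) (nat_lit 434) (nat_lit 321)) (XT.lf (nat_lit 0) (nat_lit 26296529544) (nat_lit 760) (nat_lit 1137578780) (nat_lit 836) (nat_lit 1631153993) (nat_lit 142) (nat_lit 5) (nat_lit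 152) (nat_lit 5) (nat_lit 153) (nat_lit 5) (nat_lit 446) (nat_lit 434) (nat_lit 320)))))) (XT.nd (nat_lit 624) (nat_lit 1216) (nat_lit 0) (XT.nd (nat_lit 312) (nat_lit 608) (nat_lit 0) (XT.nd (nat_lit 156) (nat_lit 760) (nat_lit 0) (XT.nd (nat_lit 78) (nat_lit 0) (nat_lit 0) (XT.lf (nat_lit 0) (nat_lit 1386147545) (nat_lit 456) (nat_lit 16400142004) (nat_lit 76) (nat_lit 12062955401) (nat_lit 136) (nat_lit 5) (nat_lit 142) (nat_lit 5) (nat_lit 137) (nat_lit 5) (nat_lit 447) (nat_lit 434) (nat_lit 319)) (XT.lf (nat_lit 0) (nat_lit 4560380165) (nat_lit 456) (nat_lit 147676558) (nat_lit 76) (nat_lit 25959989546) (nat_lit 136) (nat_lit 5) (nat_lit 142) (nat_lit 5) (nat_lit 137) (nat_lit 5) (nat_lit 448) (nat_lit 434) (nat_lit 318))) (XT.nd (nat_lit 78) (nat_lit 380) (nat_lit 0) (XT.lf (nat_lit 0) (nat_lit 8306301061) (nat_lit 456) (nat_lit 14188297306) (nat_lit 76) (nat_lit 9012541161) (nat_lit 131)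 (nat_lit 5) (nat_lit 137) (nat_lit 5) (nat_lit 132) (nat_lit 5) (nat_lit 449) (nat_lit 434) (nat_lit 317)) (XT.lf (nat_lit 0) (nat_lit 3298810391) (nat_lit 380) (nat_lit 9066935204) (nat_lit 456) (nat_lit 20016131151) (nat_lit 126) (nat_lit 5) (nat_lit 131) (nat_lit 5) (nat_lit 132) (nat_lit 5) (nat_lit 450) (nat_lit 434) (nat_lit 316)))) (XT.nd (nat_lit 156) (nat_lit 304) (nat_lit 0) (XT.nd (nat_lit 78) (nat_lit 304) (nat_lit 0) (XT.lf (nat_lit 0) (nat_lit 16946103990) (nat_lit 456) (nat_lit 11223434749) (nat_lit 76) (nat_lit 5114915643) (nat_lit 126) (nat_lit 5) (nat_lit 132) (nat_lit 5) (nat_lit 127) (nat_lit 5) (nat_lit 451) (nat_lit 434) (nat_lit 315)) (XT.lf (nat_lit 0) (nat_lit 7619209230) (nat_lit 304) (nat_lit 14399248933) (nat_lit 380) (nat_lit 12200554456) (nat_lit 122) (nat_lit 5) (nat_lit 126) (nat_lit 5) (nat_lit 127) (nat_lit 5) (nat_lit 452) (nat_lit 434) (nat_lit 314))) (XT.nd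 (nat_lit 78) (nat_lit 304) (nat_lit 0) (XT.lf (nat_lit 0) (nat_lit 27534062758) (nat_lit 380) (nat_lit 7406527162) (nat_lit 76) (nat_lit 250227791) (nat_lit 122) (nat_lit 5) (nat_lit 127) (nat_lit 5) (nat_lit 123) (nat_lit 5) (nat_lit 453) (nat_lit 434) (nat_lit 313)) (XT.lf (nat_lit 0) (nat_lit 12918770440) (nat_lit 304) (nat_lit 20840154916) (nat_lit 380) (nat_lit 2430614368) (nat_lit 118) (nat_lit 5) (nat_lit 122) (nat_lit 5) (nat_lit 123) (nat_lit 5) (nat_lit 454) (nat_lit 434) (nat_lit 312))))) (XT.nd (nat_lit 312) (nat_lit 532) (nat_lit 0) (XT.nd (nat_lit 156) (nat_lit 304) (nat_lit 0) (XT.nd (nat_lit 78) (nat_lit 304) (nat_lit 0) (XT.lf (nat_lit 0) (nat_lit 3082268305) (nat_lit 380) (nat_lit 2769366020) (nat_lit 76) (nat_lit 31378014087) (nat_lit 117) (nat_lit 5) (nat_lit 122) (nat_lit 5) (nat_lit 118) (nat_lit 5) (nat_lit 455) (nat_lit 434) (nat_lit 311)) (XT.lf (nat_lit 0) (nat_lit 9246847705)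 (nat_lit 380) (nat_lit 19133728782) (nat_lit 76) (nat_lit 9916307361) (nat_lit 113) (nat_lit 5) (nat_lit 118) (nat_lit 5) (nat_lit 114) (nat_lit 5) (nat_lit 456) (nat_lit 434) (nat_lit 310))) (XT.nd (nat_lit 78) (nat_lit 0) (nat_lit 0) (XT.lf (nat_lit 0) (nat_lit 2863270629) (nat_lit 304) (nat_lit 13040773224) (nat_lit 380) (nat_lit 23504218268) (nat_lit 109) (nat_lit 5) (nat_lit 113) (nat_lit 5) (nat_lit 114) (nat_lit 5) (nat_lit 457) (nat_lit 434) (nat_lit 309)) (XT.lf (nat_lit 0) (nat_lit 23267498853) (nat_lit 380) (nat_lit 13992868692) (nat_lit 76) (nat_lit 3296172246) (nat_lit 109) (nat_lit 5) (nat_lit 114) (nat_lit 5) (nat_lit 110) (nat_lit 5) (nat_lit 458) (nat_lit 434) (nat_lit 308)))) (XT.nd (nat_lit 156) (nat_lit 304) (nat_lit 0) (XT.nd (nat_lit 78) (nat_lit 0) (nat_lit 0) (XT.lf (nat_lit 0) (nat_lit 9781301806) (nat_lit 228) (nat_lit 21580682264) (nat_lit 304) (nat_lit 10382104813)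 (nat_lit 106) (nat_lit 5) (nat_lit 109) (nat_lit 5) (nat_lit 110) (nat_lit 5) (nat_lit 459) (nat_lit 434) (nat_lit 307)) (XT.lf (nat_lit 0) (nat_lit 35225221649) (nat_lit 228) (nat_lit 4869407649) (nat_lit 304) (nat_lit 2884714738) (nat_lit 106) (nat_lit 5) (nat_lit 109) (nat_lit 5) (nat_lit 110) (nat_lit 5) (nat_lit 460) (nat_lit 434) (nat_lit 306))) (XT.nd (nat_lit 78) (nat_lit 0) (nat_lit 0) (XT.lf (nat_lit 0) (nat_lit 5311909713) (nat_lit 304) (nat_lit 26298483018) (nat_lit 76) (nat_lit 12637876222) (nat_lit 102) (nat_lit 5) (nat_lit 106) (nat_lit 5) (nat_lit 103) (nat_lit 5) (nat_lit 461) (nat_lit 434) (nat_lit 305)) (XT.lf (nat_lit 0) (nat_lit 14031364221) (nat_lit 304) (nat_lit 499968228) (nat_lit 76) (nat_lit 31036446278) (nat_lit 102) (nat_lit 5) (nat_lit 106) (nat_lit 5) (nat_lit 103) (nat_lit 5) (nat_lit 462) (nat_lit 434) (nat_lit 304))))))))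
noncomputable def xc167 : XT := (XT.nd (nat_lit 2418) (nat_lit 2128) (nat_lit 0) (XT.nd (nat_lit 1170) (nat_lit 1368) (nat_lit 0) (XT.nd (nat_lit 546) (nat_lit 988) (nat_lit 0) (XT.nd (nat_lit 234) (nat_lit 608) (nat_lit 0) (XT.nd (nat_lit 78) (nat_lit 228) (nat_lit 0) (XT.lf (nat_lit 0) (nat_lit 23672488796) (nat_lit 304) (nat_lit 19529140384) (nat_lit 76) (nat_lit 3727350266) (nat_lit 99) (nat_lit 5) (nat_lit 103) (nat_lit 5) (nat_lit 100) (nat_lit 5) (nat_lit 463) (nat_lit 434) (nat_lit 303)) (XT.nd (nat_lit 78) (nat_lit 0) (nat_lit 0) (XT.lf (nat_lit 0) (nat_lit 8379457193) (nat_lit 228) (nat_lit 25790731387) (nat_lit 304) (nat_lit 14169325982) (nat_lit 96) (nat_lit 5) (nat_lit 99) (nat_lit 5) (nat_lit 100) (nat_lit 5) (nat_lit 464) (nat_lit 434) (nat_lit 302)) (XT.lf (nat_lit 0) (nat_lit 38357007784) (nat_lit 228) (nat_lit 7163447753) (nat_lit 304) (nat_lit 4283737079) (nat_lit 96) (nat_lit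 5) (nat_lit 99) (nat_lit 5) (nat_lit 100) (nat_lit 5) (nat_lit 465) (nat_lit 434) (nat_lit 301)))) (XT.nd (nat_lit 156) (nat_lit 380) (nat_lit 0) (XT.nd (nat_lit 78) (nat_lit 0) (nat_lit 0) (XT.lf (nat_lit 0) (nat_lit 6394627893) (nat_lit 228) (nat_lit 32522686556) (nat_lit 76) (nat_lit 12395350962) (nat_lit 93) (nat_lit 5) (nat_lit 96) (nat_lit 5) (nat_lit 94) (nat_lit 5) (nat_lit 466) (nat_lit 434) (nat_lit 300)) (XT.lf (nat_lit 0) (nat_lit 17774520458) (nat_lit 228) (nat_lit 2145705141) (nat_lit 76) (nat_lit 32957246691) (nat_lit 93) (nat_lit 5) (nat_lit 96) (nat_lit 5) (nat_lit 94) (nat_lit 5) (nat_lit 467) (nat_lit 434) (nat_lit 299))) (XT.nd (nat_lit 78) (nat_lit 152) (nat_lit 0) (XT.lf (nat_lit 0) (nat_lit 30208674213) (nat_lit 304) (nat_lit 23775479737) (nat_lit 76) (nat_lit 512102475) (nat_lit 90) (nat_lit 5) (nat_lit 94) (nat_lit 5) (nat_lit 91) (nat_lit 5) (nat_lit 468) (nat_lit 434)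 (nat_lit 298)) (XT.lf (nat_lit 0) (nat_lit 9069792027) (nat_lit 152) (nat_lit 34697122369) (nat_lit 228) (nat_lit 12403946663) (nat_lit 88) (nat_lit 5) (nat_lit 90) (nat_lit 5) (nat_lit 91) (nat_lit 5) (nat_lit 469) (nat_lit 434) (nat_lit 297))))) (XT.nd (nat_lit 312) (nat_lit 532) (nat_lit 0) (XT.nd (nat_lit 156) (nat_lit 152) (nat_lit 0) (XT.nd (nat_lit 78) (nat_lit 228) (nat_lit 0) (XT.lf (nat_lit 0) (nat_lit 478055387) (nat_lit 228) (nat_lit 13538335114) (nat_lit 76) (nat_lit 43892420515) (nat_lit 87) (nat_lit 5) (nat_lit 90) (nat_lit 5) (nat_lit 88) (nat_lit 5) (nat_lit 470) (nat_lit 434) (nat_lit 296)) (XT.lf (nat_lit 0) (nat_lit 14060613550) (nat_lit 304) (nat_lit 37629626617) (nat_lit 76) (nat_lit 8009585835) (nat_lit 84) (nat_lit 5) (nat_lit 88) (nat_lit 5) (nat_lit 85) (nat_lit 5) (nat_lit 471) (nat_lit 434) (nat_lit 295))) (XT.nd (nat_lit 78) (nat_lit 152) (nat_lit 0) (XT.lf (nat_lit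 0) (nat_lit 28782577650) (nat_lit 304) (nat_lit 1877391398) (nat_lit 76) (nat_lit 30897408977) (nat_lit 84) (nat_lit 5) (nat_lit 88) (nat_lit 5) (nat_lit 85) (nat_lit 5) (nat_lit 472) (nat_lit 434) (nat_lit 294)) (XT.lf (nat_lit 0) (nat_lit 36837574638) (nat_lit 152) (nat_lit 7975788064) (nat_lit 228) (nat_lit 18665808991) (nat_lit 82) (nat_lit 5) (nat_lit 84) (nat_lit 5) (nat_lit 85) (nat_lit 5) (nat_lit 473) (nat_lit 434) (nat_lit 293)))) (XT.nd (nat_lit 156) (nat_lit 304) (nat_lit 0) (XT.nd (nat_lit 78) (nat_lit 76) (nat_lit 0) (XT.lf (nat_lit 0) (nat_lit 12196554545) (nat_lit 152) (nat_lit 49916834621) (nat_lit 228) (nat_lit 3360280940) (nat_lit 80) (nat_lit 5) (nat_lit 82) (nat_lit 5) (nat_lit 83) (nat_lit 5) (nat_lit 474) (nat_lit 434) (nat_lit 292)) (XT.lf (nat_lit 0) (nat_lit 12890673995) (nat_lit 228) (nat_lit 13984338285) (nat_lit 76) (nat_lit 40653610642) (nat_lit 79) (nat_lit 5) (nat_lit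 82) (nat_lit 5) (nat_lit 80) (nat_lit 5) (nat_lit 475) (nat_lit 434) (nat_lit 291))) (XT.nd (nat_lit 78) (nat_lit 152) (nat_lit 0) (XT.lf (nat_lit 0) (nat_lit 28114044836) (nat_lit 152) (nat_lit 2163887326) (nat_lit 228) (nat_lit 39383802889) (nat_lit 77) (nat_lit 5) (nat_lit 79) (nat_lit 5) (nat_lit 80) (nat_lit 5) (nat_lit 476) (nat_lit 434) (nat_lit 290)) (XT.lf (nat_lit 0) (nat_lit 551857269) (nat_lit 152) (nat_lit 48601112033) (nat_lit 228) (nat_lit 22717612821) (nat_lit 75) (nat_lit 5) (nat_lit 77) (nat_lit 5) (nat_lit 78) (nat_lit 5) (nat_lit 477) (nat_lit 434) (nat_lit 289)))))) (XT.nd (nat_lit 624) (nat_lit 684) (nat_lit 0) (XT.nd (nat_lit 312) (nat_lit 304) (nat_lit 0) (XT.nd (nat_lit 156) (nat_lit 152) (nat_lit 0) (XT.nd (nat_lit 78) (nat_lit 228) (nat_lit 0) (XT.lf (nat_lit 0) (nat_lit 46158441272) (nat_lit 152) (nat_lit 23549666474) (nat_lit 228) (nat_lit 4444946464) (nat_lit 75)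 (nat_lit 5) (nat_lit 77) (nat_lit 5) (nat_lit 78) (nat_lit 5) (nat_lit 478) (nat_lit 434) (nat_lit 288)) (XT.lf (nat_lit 0) (nat_lit 14597160190) (nat_lit 228) (nat_lit 58742964339) (nat_lit 76) (nat_lit 3181636687) (nat_lit 72) (nat_lit 5) (nat_lit 75) (nat_lit 5) (nat_lit 73) (nat_lit 5) (nat_lit 479) (nat_lit 434) (nat_lit 287))) (XT.nd (nat_lit 78) (nat_lit 152) (nat_lit 0) (XT.lf (nat_lit 0) (nat_lit 35307836345) (nat_lit 228) (nat_lit 12642761704) (nat_lit 76) (nat_lit 31011370064) (nat_lit 72) (nat_lit 5) (nat_lit 75) (nat_lit 5) (nat_lit 73) (nat_lit 5) (nat_lit 480) (nat_lit 434) (nat_lit 286)) (XT.lf (nat_lit 0) (nat_lit 36941328141) (nat_lit 152) (nat_lit 20687484328) (nat_lit 228) (nat_lit 23866634689) (nat_lit 70) (nat_lit 5) (nat_lit 72) (nat_lit 5) (nat_lit 73) (nat_lit 5) (nat_lit 481) (nat_lit 434) (nat_lit 285)))) (XT.nd (nat_lit 156) (nat_lit 152) (nat_lit 0) (XT.nd (nat_lit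 78) (nat_lit 76) (nat_lit 0) (XT.lf (nat_lit 0) (nat_lit 5338572257) (nat_lit 76) (nat_lit 76150210194) (nat_lit 152) (nat_lit 2645670556) (nat_lit 69) (nat_lit 5) (nat_lit 70) (nat_lit 5) (nat_lit 71) (nat_lit 4) (nat_lit 482) (nat_lit 434) (nat_lit 284)) (XT.lf (nat_lit 0) (nat_lit 20111945940) (nat_lit 152) (nat_lit 28256555783) (nat_lit 76) (nat_lit 38466374120) (nat_lit 68) (nat_lit 5) (nat_lit 70) (nat_lit 5) (nat_lit 69) (nat_lit 5) (nat_lit 483) (nat_lit 434) (nat_lit 283))) (XT.nd (nat_lit 78) (nat_lit 0) (nat_lit 0) (XT.lf (nat_lit 0) (nat_lit 25581804724) (nat_lit 152) (nat_lit 18734259347) (nat_lit 228) (nat_lit 45332210623) (nat_lit 66) (nat_lit 5) (nat_lit 68) (nat_lit 5) (nat_lit 69) (nat_lit 5) (nat_lit 484) (nat_lit 434) (nat_lit 282)) (XT.lf (nat_lit 0) (nat_lit 70408228640) (nat_lit 228) (nat_lit 9689839218) (nat_lit 76) (nat_lit 12470383690) (nat_lit 66) (nat_lit 5) (nat_lit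 69) (nat_lit 5) (nat_lit 67) (nat_lit 4) (nat_lit 485) (nat_lit 434) (nat_lit 281))))) (XT.nd (nat_lit 312) (nat_lit 304) (nat_lit 0) (XT.nd (nat_lit 156) (nat_lit 76) (nat_lit 0) (XT.nd (nat_lit 78) (nat_lit 152) (nat_lit 0) (XT.lf (nat_lit 0) (nat_lit 3183310567) (nat_lit 152) (nat_lit 46980237868) (nat_lit 76) (nat_lit 45415274035) (nat_lit 64) (nat_lit 5) (nat_lit 66) (nat_lit 5) (nat_lit 65) (nat_lit 5) (nat_lit 486) (nat_lit 434) (nat_lit 280)) (XT.lf (nat_lit 0) (nat_lit 11402098890) (nat_lit 152) (nat_lit 17990243311) (nat_lit 228) (nat_lit 69312053181) (nat_lit 62) (nat_lit 5) (nat_lit 64) (nat_lit 5) (nat_lit 65) (nat_lit 5) (nat_lit 487) (nat_lit 434) (nat_lit 279))) (XT.nd (nat_lit 78) (nat_lit 76) (nat_lit 0) (XT.lf (nat_lit 0) (nat_lit 57965306525) (nat_lit 228) (nat_lit 27874672952) (nat_lit 76) (nat_lit 16093593480) (nat_lit 62) (nat_lit 5) (nat_lit 65) (nat_lit 5) (nat_lit 63)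 (nat_lit 4) (nat_lit 488) (nat_lit 434) (nat_lit 278)) (XT.lf (nat_lit 0) (nat_lit 35358028773) (nat_lit 76) (nat_lit 53454185248) (nat_lit 152) (nat_lit 16469730708) (nat_lit 61) (nat_lit 5) (nat_lit 62) (nat_lit 5) (nat_lit 63) (nat_lit 4) (nat_lit 489) (nat_lit 434) (nat_lit 277)))) (XT.nd (nat_lit 156) (nat_lit 76) (nat_lit 0) (XT.nd (nat_lit 78) (nat_lit 152) (nat_lit 0) (XT.lf (nat_lit 0) (nat_lit 12484885353) (nat_lit 152) (nat_lit 6258480441) (nat_lit 76) (nat_lit 90020778985) (nat_lit 60) (nat_lit 5) (nat_lit 62) (nat_lit 5) (nat_lit 61) (nat_lit 5) (nat_lit 490) (nat_lit 434) (nat_lit 276)) (XT.lf (nat_lit 0) (nat_lit 43601767815) (nat_lit 228) (nat_lit 50343462651) (nat_lit 76) (nat_lit 18398323318) (nat_lit 58) (nat_lit 5) (nat_lit 61) (nat_lit 5) (nat_lit 59) (nat_lit 4) (nat_lit 491) (nat_lit 434) (nat_lit 275))) (XT.nd (nat_lit 78) (nat_lit 0) (nat_lit 0) (XT.lf (nat_lit 0) (nat_lit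 18058281576) (nat_lit 76) (nat_lit 58911578756) (nat_lit 152) (nat_lit 39097304666) (nat_lit 57) (nat_lit 5) (nat_lit 58) (nat_lit 5) (nat_lit 59) (nat_lit 4) (nat_lit 492) (nat_lit 434) (nat_lit 274)) (XT.lf (nat_lit 0) (nat_lit 91625043344) (nat_lit 76) (nat_lit 21232364161) (nat_lit 152) (nat_lit 7076996820) (nat_lit 57) (nat_lit 5) (nat_lit 58) (nat_lit 5) (nat_lit 59) (nat_lit 4) (nat_lit 493) (nat_lit 434) (nat_lit 273))))))) (XT.nd (nat_lit 1248) (nat_lit 912) (nat_lit 0) (XT.nd (nat_lit 624) (nat_lit 532) (nat_lit 0) (XT.nd (nat_lit 312) (nat_lit 228) (nat_lit 0) (XT.nd (nat_lit 156) (nat_lit 228) (nat_lit 0) (XT.nd (nat_lit 78) (nat_lit 0) (nat_lit 0) (XT.lf (nat_lit 0) (nat_lit 26715037813) (nat_lit 228) (nat_lit 78315337183) (nat_lit 76) (nat_lit 18892894324) (nat_lit 54) (nat_lit 5) (nat_lit 57) (nat_lit 5) (nat_lit 55) (nat_lit 4) (nat_lit 494) (nat_lit 434) (nat_lit 272)) (XT.lf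 (nat_lit 0) (nat_lit 62792720964) (nat_lit 228) (nat_lit 4358427668) (nat_lit 76) (nat_lit 60912934147) (nat_lit 54) (nat_lit 5) (nat_lit 57) (nat_lit 5) (nat_lit 55) (nat_lit 4) (nat_lit 495) (nat_lit 434) (nat_lit 271))) (XT.nd (nat_lit 78) (nat_lit 152) (nat_lit 0) (XT.lf (nat_lit 0) (nat_lit 75717078798) (nat_lit 76) (nat_lit 26137952379) (nat_lit 152) (nat_lit 30497868632) (nat_lit 53) (nat_lit 5) (nat_lit 54) (nat_lit 5) (nat_lit 55) (nat_lit 4) (nat_lit 496) (nat_lit 434) (nat_lit 270)) (XT.lf (nat_lit 0) (nat_lit 6539434121) (nat_lit 152) (nat_lit 113344501406) (nat_lit 76) (nat_lit 16931645699) (nat_lit 51) (nat_lit 5) (nat_lit 53) (nat_lit 5) (nat_lit 52) (nat_lit 4) (nat_lit 497) (nat_lit 434) (nat_lit 269)))) (XT.nd (nat_lit 156) (nat_lit 152) (nat_lit 0) (XT.nd (nat_lit 78) (nat_lit 76) (nat_lit 0) (XT.lf (nat_lit 0) (nat_lit 45805640821) (nat_lit 152) (nat_lit 32850703573) (nat_lit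 76) (nat_lit 62749955745) (nat_lit 51) (nat_lit 5) (nat_lit 53) (nat_lit 5) (nat_lit 52) (nat_lit 4) (nat_lit 498) (nat_lit 434) (nat_lit 268)) (XT.lf (nat_lit 0) (nat_lit 53373519438) (nat_lit 76) (nat_lit 34493612701) (nat_lit 152) (nat_lit 58317824180) (nat_lit 50) (nat_lit 5) (nat_lit 51) (nat_lit 5) (nat_lit 52) (nat_lit 4) (nat_lit 499) (nat_lit 434) (nat_lit 267))) (XT.nd (nat_lit 78) (nat_lit 152) (nat_lit 0) (XT.lf (nat_lit 0) (nat_lit 132781267998) (nat_lit 152) (nat_lit 6322386369) (nat_lit 0) (nat_lit 12061412476) (nat_lit 50) (nat_lit 5) (nat_lit 52) (nat_lit 4) (nat_lit 50) (nat_lit 4) (nat_lit 500) (nat_lit 434) (nat_lit 266)) (XT.lf (nat_lit 0) (nat_lit 24742520774) (nat_lit 152) (nat_lit 69999272378) (nat_lit 76) (nat_lit 61536546009) (nat_lit 48) (nat_lit 5) (nat_lit 50) (nat_lit 5) (nat_lit 49) (nat_lit 4) (nat_lit 501) (nat_lit 434) (nat_lit 265))))) (XT.nd (nat_lit 312) (nat_lit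 304) (nat_lit 0) (XT.nd (nat_lit 156) (nat_lit 152) (nat_lit 0) (XT.nd (nat_lit 78) (nat_lit 0) (nat_lit 0) (XT.lf (nat_lit 0) (nat_lit 22502835072) (nat_lit 76) (nat_lit 47363401041) (nat_lit 152) (nat_lit 91743025528) (nat_lit 47) (nat_lit 5) (nat_lit 48) (nat_lit 5) (nat_lit 49) (nat_lit 4) (nat_lit 502) (nat_lit 434) (nat_lit 264)) (XT.lf (nat_lit 0) (nat_lit 118487002614) (nat_lit 152) (nat_lit 45146287581) (nat_lit 0) (nat_lit 3511396807) (nat_lit 47) (nat_lit 5) (nat_lit 49) (nat_lit 4) (nat_lit 47) (nat_lit 4) (nat_lit 503) (nat_lit 434) (nat_lit 263))) (XT.nd (nat_lit 78) (nat_lit 76) (nat_lit 0) (XT.lf (nat_lit 0) (nat_lit 54476677334) (nat_lit 76) (nat_lit 116687913250) (nat_lit 76) (nat_lit 1711003917) (nat_lit 46) (nat_lit 4) (nat_lit 47) (nat_lit 5) (nat_lit 47) (nat_lit 4) (nat_lit 504) (nat_lit 434) (nat_lit 262)) (XT.lf (nat_lit 0) (nat_lit 46835967710) (nat_lit 152) (nat_lit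 18964416979) (nat_lit 76) (nat_lit 113016721972) (nat_lit 45) (nat_lit 5) (nat_lit 47) (nat_lit 5) (nat_lit 46) (nat_lit 4) (nat_lit 505) (nat_lit 434) (nat_lit 261)))) (XT.nd (nat_lit 156) (nat_lit 152) (nat_lit 0) (XT.nd (nat_lit 78) (nat_lit 76) (nat_lit 0) (XT.lf (nat_lit 0) (nat_lit 88235633308) (nat_lit 76) (nat_lit 10893618609) (nat_lit 152) (nat_lit 85856216825) (nat_lit 44) (nat_lit 5) (nat_lit 45) (nat_lit 5) (nat_lit 46) (nat_lit 4) (nat_lit 506) (nat_lit 434) (nat_lit 260)) (XT.lf (nat_lit 0) (nat_lit 9576901345) (nat_lit 76) (nat_lit 145665152074) (nat_lit 76) (nat_lit 36159952876) (nat_lit 43) (nat_lit 4) (nat_lit 44) (nat_lit 5) (nat_lit 44) (nat_lit 4) (nat_lit 507) (nat_lit 434) (nat_lit 259))) (XT.nd (nat_lit 78) (nat_lit 76) (nat_lit 0) (XT.lf (nat_lit 0) (nat_lit 17351162993) (nat_lit 152) (nat_lit 73936336408) (nat_lit 76) (nat_lit 106747223875) (nat_lit 42) (nat_lit 5) (nat_lit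 44) (nat_lit 5) (nat_lit 43) (nat_lit 4) (nat_lit 508) (nat_lit 434) (nat_lit 258)) (XT.lf (nat_lit 0) (nat_lit 40033282918) (nat_lit 76) (nat_lit 32913290824) (nat_lit 152) (nat_lit 131991665546) (nat_lit 41) (nat_lit 5) (nat_lit 42) (nat_lit 5) (nat_lit 43) (nat_lit 4) (nat_lit 509) (nat_lit 434) (nat_lit 257)))))) (XT.nd (nat_lit 624) (nat_lit 456) (nat_lit 0) (XT.nd (nat_lit 312) (nat_lit 228) (nat_lit 0) (XT.nd (nat_lit 156) (nat_lit 152) (nat_lit 0) (XT.nd (nat_lit 78) (nat_lit 76) (nat_lit 0) (XT.lf (nat_lit 0) (nat_lit 133036437120) (nat_lit 152) (nat_lit 50321770056) (nat_lit 0) (nat_lit 28742989838) (nat_lit 41) (nat_lit 5) (nat_lit 43) (nat_lit 4) (nat_lit 41) (nat_lit 4) (nat_lit 510) (nat_lit 434) (nat_lit 256)) (XT.lf (nat_lit 0) (nat_lit 71745292116) (nat_lit 76) (nat_lit 126044182026) (nat_lit 76) (nat_lit 21749894479) (nat_lit 40) (nat_lit 4) (nat_lit 41) (nat_lit 5) (nat_lit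 41) (nat_lit 4) (nat_lit 511) (nat_lit 434) (nat_lit 255))) (XT.nd (nat_lit 78) (nat_lit 76) (nat_lit 0) (XT.lf (nat_lit 0) (nat_lit 38065860333) (nat_lit 152) (nat_lit 26260074115) (nat_lit 76) (nat_lit 162950255369) (nat_lit 39) (nat_lit 5) (nat_lit 41) (nat_lit 5) (nat_lit 40) (nat_lit 4) (nat_lit 512) (nat_lit 434) (nat_lit 254)) (XT.lf (nat_lit 0) (nat_lit 101809393045) (nat_lit 152) (nat_lit 131009222651) (nat_lit 0) (nat_lit 2480012146) (nat_lit 38) (nat_lit 5) (nat_lit 40) (nat_lit 4) (nat_lit 38) (nat_lit 4) (nat_lit 513) (nat_lit 434) (nat_lit 253)))) (XT.nd (nat_lit 156) (nat_lit 152) (nat_lit 0) (XT.nd (nat_lit 78) (nat_lit 76) (nat_lit 0) (XT.lf (nat_lit 0) (nat_lit 170245669371) (nat_lit 152) (nat_lit 2485642880) (nat_lit 0) (nat_lit 70915597185) (nat_lit 38) (nat_lit 5) (nat_lit 40) (nat_lit 4) (nat_lit 38) (nat_lit 4) (nat_lit 514) (nat_lit 434) (nat_lit 252)) (XT.lf (nat_lit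 0) (nat_lit 136842082564) (nat_lit 76) (nat_lit 107397237542) (nat_lit 76) (nat_lit 8066506986) (nat_lit 37) (nat_lit 4) (nat_lit 38) (nat_lit 5) (nat_lit 38) (nat_lit 4) (nat_lit 515) (nat_lit 434) (nat_lit 251))) (XT.nd (nat_lit 78) (nat_lit 0) (nat_lit 0) (XT.lf (nat_lit 0) (nat_lit 21569620777) (nat_lit 76) (nat_lit 37406466222) (nat_lit 152) (nat_lit 202355416568) (nat_lit 35) (nat_lit 5) (nat_lit 36) (nat_lit 5) (nat_lit 37) (nat_lit 4) (nat_lit 516) (nat_lit 434) (nat_lit 250)) (XT.lf (nat_lit 0) (nat_lit 131649658950) (nat_lit 152) (nat_lit 101976898948) (nat_lit 0) (nat_lit 37047797299) (nat_lit 35) (nat_lit 5) (nat_lit 37) (nat_lit 4) (nat_lit 35) (nat_lit 4) (nat_lit 517) (nat_lit 434) (nat_lit 249))))) (XT.nd (nat_lit 312) (nat_lit 228) (nat_lit 0) (XT.nd (nat_lit 156) (nat_lit 76) (nat_lit 0) (XT.nd (nat_lit 78) (nat_lit 76) (nat_lit 0) (XT.lf (nat_lit 0) (nat_lit 43473796222) (nat_lit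 76) (nat_lit 165774201051) (nat_lit 76) (nat_lit 71171797758) (nat_lit 34) (nat_lit 4) (nat_lit 35) (nat_lit 5) (nat_lit 35) (nat_lit 4) (nat_lit 518) (nat_lit 434) (nat_lit 248)) (XT.lf (nat_lit 0) (nat_lit 1825845476) (nat_lit 152) (nat_lit 90859935915) (nat_lit 76) (nat_lit 197878944901) (nat_lit 33) (nat_lit 5) (nat_lit 35) (nat_lit 5) (nat_lit 34) (nat_lit 4) (nat_lit 519) (nat_lit 434) (nat_lit 247))) (XT.nd (nat_lit 78) (nat_lit 0) (nat_lit 0) (XT.lf (nat_lit 0) (nat_lit 63390916986) (nat_lit 76) (nat_lit 13679486630) (nat_lit 152) (nat_lit 224038719377) (nat_lit 32) (nat_lit 5) (nat_lit 33) (nat_lit 5) (nat_lit 34) (nat_lit 4) (nat_lit 520) (nat_lit 434) (nat_lit 246)) (XT.lf (nat_lit 0) (nat_lit 158721945719) (nat_lit 152) (nat_lit 84703542028) (nat_lit 0) (nat_lit 68623013988) (nat_lit 32) (nat_lit 5) (nat_lit 34) (nat_lit 4) (nat_lit 32) (nat_lit 4) (nat_lit 521) (nat_lit 434) (nat_lit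 245)))) (XT.nd (nat_lit 156) (nat_lit 76) (nat_lit 0) (XT.nd (nat_lit 78) (nat_lit 76) (nat_lit 0) (XT.lf (nat_lit 0) (nat_lit 78240186203) (nat_lit 76) (nat_lit 167660884526) (nat_lit 76) (nat_lit 77561528404) (nat_lit 31) (nat_lit 4) (nat_lit 32) (nat_lit 5) (nat_lit 32) (nat_lit 4) (nat_lit 522) (nat_lit 434) (nat_lit 244)) (XT.lf (nat_lit 0) (nat_lit 3385217938) (nat_lit 152) (nat_lit 83160063529) (nat_lit 76) (nat_lit 248827704311) (nat_lit 30) (nat_lit 5) (nat_lit 32) (nat_lit 5) (nat_lit 31) (nat_lit 4) (nat_lit 523) (nat_lit 434) (nat_lit 243))) (XT.nd (nat_lit 78) (nat_lit 0) (nat_lit 0) (XT.lf (nat_lit 0) (nat_lit 87176798611) (nat_lit 152) (nat_lit 259201178001) (nat_lit 0) (nat_lit 1367136479) (nat_lit 29) (nat_lit 5) (nat_lit 31) (nat_lit 4) (nat_lit 29) (nat_lit 4) (nat_lit 524) (nat_lit 434) (nat_lit 242)) (XT.lf (nat_lit 0) (nat_lit 178007420266) (nat_lit 152) (nat_lit 90388544427)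 (nat_lit 0) (nat_lit 92197408987) (nat_lit 29) (nat_lit 5) (nat_lit 31) (nat_lit 4) (nat_lit 29) (nat_lit 4) (nat_lit 525) (nat_lit 434) (nat_lit 241))))))))
noncomputable def xc168 : XT := (XT.nd (nat_lit 56004) (nat_lit 0) (nat_lit 5320) (XT.nd (nat_lit 1170) (nat_lit 380) (nat_lit 0) (XT.nd (nat_lit 546) (nat_lit 304) (nat_lit 0) (XT.nd (nat_lit 234) (nat_lit 228) (nat_lit 0) (XT.nd (nat_lit 78) (nat_lit 152) (nat_lit 0) (XT.lf (nat_lit 0) (nat_lit 89735369424) (nat_lit 76) (nat_lit 185044503347) (nat_lit 76) (nat_lit 99234159547) (nat_lit 28) (nat_lit 4) (nat_lit 29) (nat_lit 5) (nat_lit 29) (nat_lit 4) (nat_lit 526) (nat_lit 434) (nat_lit 240)) (XT.nd (nat_lit 78) (nat_lit 152) (nat_lit 0) (XT.lf (nat_lit 0) (nat_lit 282002144781) (nat_lit 76) (nat_lit 95918868173) (nat_lit 76) (nat_lit 10108207685) (nat_lit 28) (nat_lit 4) (nat_lit 29) (nat_lit 5) (nat_lit 29) (nat_lit 4) (nat_lit 527)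 (nat_lit 434) (nat_lit 239)) (XT.lf (nat_lit 0) (nat_lit 82095261688) (nat_lit 152) (nat_lit 320149562097) (nat_lit 0) (nat_lit 370535884) (nat_lit 26) (nat_lit 5) (nat_lit 28) (nat_lit 4) (nat_lit 26) (nat_lit 4) (nat_lit 528) (nat_lit 434) (nat_lit 238)))) (XT.nd (nat_lit 156) (nat_lit 152) (nat_lit 0) (XT.nd (nat_lit 78) (nat_lit 76) (nat_lit 0) (XT.lf (nat_lit 0) (nat_lit 181966014091) (nat_lit 152) (nat_lit 135545650847) (nat_lit 0) (nat_lit 100241014721) (nat_lit 26) (nat_lit 5) (nat_lit 28) (nat_lit 4) (nat_lit 26) (nat_lit 4) (nat_lit 529) (nat_lit 434) (nat_lit 237)) (XT.lf (nat_lit 0) (nat_lit 60214381409) (nat_lit 76) (nat_lit 227555385507) (nat_lit 76) (nat_lit 145830125598) (nat_lit 25) (nat_lit 4) (nat_lit 26) (nat_lit 5) (nat_lit 26) (nat_lit 4) (nat_lit 530) (nat_lit 434) (nat_lit 236))) (XT.nd (nat_lit 78) (nat_lit 152) (nat_lit 0) (XT.lf (nat_lit 0) (nat_lit 270466964541) (nat_lit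 76) (nat_lit 130691632517) (nat_lit 76) (nat_lit 48966124476) (nat_lit 25) (nat_lit 4) (nat_lit 26) (nat_lit 5) (nat_lit 26) (nat_lit 4) (nat_lit 531) (nat_lit 434) (nat_lit 235)) (XT.lf (nat_lit 0) (nat_lit 23689925587) (nat_lit 76) (nat_lit 27732352434) (nat_lit 152) (nat_lit 415993879928) (nat_lit 23) (nat_lit 5) (nat_lit 24) (nat_lit 5) (nat_lit 25) (nat_lit 4) (nat_lit 532) (nat_lit 434) (nat_lit 234))))) (XT.nd (nat_lit 312) (nat_lit 228) (nat_lit 0) (XT.nd (nat_lit 156) (nat_lit 76) (nat_lit 0) (XT.nd (nat_lit 78) (nat_lit 0) (nat_lit 0) (XT.lf (nat_lit 0) (nat_lit 159531244427) (nat_lit 152) (nat_lit 244086461428) (nat_lit 0) (nat_lit 81696987835) (nat_lit 23) (nat_lit 5) (nat_lit 25) (nat_lit 4) (nat_lit 23) (nat_lit 4) (nat_lit 533) (nat_lit 434) (nat_lit 233)) (XT.lf (nat_lit 0) (nat_lit 273499697173) (nat_lit 152) (nat_lit 34920520706) (nat_lit 0) (nat_lit 195665236443) (nat_lit 23)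 (nat_lit 5) (nat_lit 25) (nat_lit 4) (nat_lit 23) (nat_lit 4) (nat_lit 534) (nat_lit 434) (nat_lit 232))) (XT.nd (nat_lit 78) (nat_lit 0) (nat_lit 0) (XT.lf (nat_lit 0) (nat_lit 190809685246) (nat_lit 76) (nat_lit 205335398662) (nat_lit 76) (nat_lit 127500743513) (nat_lit 22) (nat_lit 4) (nat_lit 23) (nat_lit 5) (nat_lit 23) (nat_lit 4) (nat_lit 535) (nat_lit 434) (nat_lit 231)) (XT.lf (nat_lit 0) (nat_lit 429037648041) (nat_lit 76) (nat_lit 96475934656) (nat_lit 76) (nat_lit 18641094347) (nat_lit 22) (nat_lit 4) (nat_lit 23) (nat_lit 5) (nat_lit 23) (nat_lit 4) (nat_lit 536) (nat_lit 434) (nat_lit 230)))) (XT.nd (nat_lit 156) (nat_lit 76) (nat_lit 0) (XT.nd (nat_lit 78) (nat_lit 0) (nat_lit 0) (XT.lf (nat_lit 0) (nat_lit 94737990307) (nat_lit 152) (nat_lit 450159987609) (nat_lit 0) (nat_lit 20609403019) (nat_lit 20) (nat_lit 5) (nat_lit 22) (nat_lit 4) (nat_lit 20) (nat_lit 4) (nat_lit 537)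 (nat_lit 434) (nat_lit 229)) (XT.lf (nat_lit 0) (nat_lit 216722126571) (nat_lit 152) (nat_lit 228418806512) (nat_lit 0) (nat_lit 142593379335) (nat_lit 20) (nat_lit 5) (nat_lit 22) (nat_lit 4) (nat_lit 20) (nat_lit 4) (nat_lit 538) (nat_lit 434) (nat_lit 228))) (XT.nd (nat_lit 78) (nat_lit 0) (nat_lit 0) (XT.lf (nat_lit 0) (nat_lit 4554166605) (nat_lit 76) (nat_lit 340321896875) (nat_lit 76) (nat_lit 266192997307) (nat_lit 19) (nat_lit 4) (nat_lit 20) (nat_lit 5) (nat_lit 20) (nat_lit 4) (nat_lit 539) (nat_lit 434) (nat_lit 227)) (XT.lf (nat_lit 0) (nat_lit 257104961344) (nat_lit 76) (nat_lit 226200617890) (nat_lit 76) (nat_lit 152071573244) (nat_lit 19) (nat_lit 4) (nat_lit 20) (nat_lit 5) (nat_lit 20) (nat_lit 4) (nat_lit 540) (nat_lit 434) (nat_lit 226)))))) (XT.nd (nat_lit 54210) (nat_lit 0) (nat_lit 10108) (XT.nd (nat_lit 312) (nat_lit 228) (nat_lit 0) (XT.nd (nat_lit 156) (nat_lit 0) (nat_lit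 0) (XT.nd (nat_lit 78) (nat_lit 152) (nat_lit 0) (XT.lf (nat_lit 0) (nat_lit 522282331808) (nat_lit 76) (nat_lit 106373761811) (nat_lit 76) (nat_lit 32244578996) (nat_lit 19) (nat_lit 4) (nat_lit 20) (nat_lit 5) (nat_lit 20) (nat_lit 4) (nat_lit 541) (nat_lit 434) (nat_lit 225)) (XT.lf (nat_lit 0) (nat_lit 92734675122) (nat_lit 152) (nat_lit 572649525382) (nat_lit 0) (nat_lit 22135328069) (nat_lit 17) (nat_lit 5) (nat_lit 19) (nat_lit 4) (nat_lit 17) (nat_lit 4) (nat_lit 542) (nat_lit 434) (nat_lit 224))) (XT.nd (nat_lit 78) (nat_lit 0) (nat_lit 0) (XT.lf (nat_lit 0) (nat_lit 227008686744) (nat_lit 152) (nat_lit 331818519066) (nat_lit 0) (nat_lit 156409220335) (nat_lit 17) (nat_lit 5) (nat_lit 19) (nat_lit 4) (nat_lit 17) (nat_lit 4) (nat_lit 543) (nat_lit 434) (nat_lit 223)) (XT.lf (nat_lit 0) (nat_lit 367995959446) (nat_lit 152) (nat_lit 78946851763) (nat_lit 0) (nat_lit 297396379365) (nat_lit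 17) (nat_lit 5) (nat_lit 19) (nat_lit 4) (nat_lit 17) (nat_lit 4) (nat_lit 544) (nat_lit 434) (nat_lit 222)))) (XT.nd (nat_lit 156) (nat_lit 152) (nat_lit 0) (XT.nd (nat_lit 78) (nat_lit 0) (nat_lit 0) (XT.lf (nat_lit 0) (nat_lit 192736317754) (nat_lit 76) (nat_lit 326305013518) (nat_lit 76) (nat_lit 255705325178) (nat_lit 16) (nat_lit 4) (nat_lit 17) (nat_lit 5) (nat_lit 17) (nat_lit 4) (nat_lit 545) (nat_lit 434) (nat_lit 221)) (XT.lf (nat_lit 0) (nat_lit 480743668856) (nat_lit 76) (nat_lit 198231894319) (nat_lit 76) (nat_lit 127632102875) (nat_lit 16) (nat_lit 4) (nat_lit 17) (nat_lit 5) (nat_lit 17) (nat_lit 4) (nat_lit 546) (nat_lit 434) (nat_lit 220))) (XT.nd (nat_lit 78) (nat_lit 76) (nat_lit 0) (XT.lf (nat_lit 0) (nat_lit 6625306341) (nat_lit 152) (nat_lit 57018011638) (nat_lit 76) (nat_lit 776413084766) (nat_lit 15) (nat_lit 5) (nat_lit 17) (nat_lit 5) (nat_lit 16) (nat_lit 4) (nat_lit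 547) (nat_lit 434) (nat_lit 219)) (XT.lf (nat_lit 0) (nat_lit 148211587108) (nat_lit 152) (nat_lit 645642600945) (nat_lit 0) (nat_lit 80973507911) (nat_lit 14) (nat_lit 5) (nat_lit 16) (nat_lit 4) (nat_lit 14) (nat_lit 4) (nat_lit 548) (nat_lit 434) (nat_lit 218))))) (XT.nd (nat_lit 312) (nat_lit 0) (nat_lit 152) (XT.nd (nat_lit 156) (nat_lit 0) (nat_lit 76) (XT.nd (nat_lit 78) (nat_lit 0) (nat_lit 0) (XT.lf (nat_lit 0) (nat_lit 3774776358) (nat_lit 836) (nat_lit 3733668748) (nat_lit 836) (nat_lit 3733668748) (nat_lit 147) (nat_lit 3) (nat_lit 158) (nat_lit 3) (nat_lit 158) (nat_lit 5) (nat_lit 435) (nat_lit 435) (nat_lit 330)) (XT.lf (nat_lit 76) (nat_lit 3805744393) (nat_lit 0) (nat_lit 4120126469) (nat_lit 836) (nat_lit 15111063752) (nat_lit 148) (nat_lit 5) (nat_lit 147) (nat_lit 3) (nat_lit 158) (nat_lit 5) (nat_lit 436) (nat_lit 435) (nat_lit 329))) (XT.nd (nat_lit 78) (nat_lit 0) (nat_lit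 0) (XT.lf (nat_lit 0) (nat_lit 8555636112) (nat_lit 760) (nat_lit 7830530899) (nat_lit 836) (nat_lit 7219379561) (nat_lit 148) (nat_lit 5) (nat_lit 158) (nat_lit 5) (nat_lit 159) (nat_lit 5) (nat_lit 437) (nat_lit 435) (nat_lit 328)) (XT.lf (nat_lit 76) (nat_lit 4202432172) (nat_lit 0) (nat_lit 5139789689) (nat_lit 836) (nat_lit 14854101862) (nat_lit 149) (nat_lit 5) (nat_lit 148) (nat_lit 5) (nat_lit 159) (nat_lit 5) (nat_lit 438) (nat_lit 435) (nat_lit 327)))) (XT.nd (nat_lit 156) (nat_lit 0) (nat_lit 76) (XT.nd (nat_lit 78) (nat_lit 0) (nat_lit 0) (XT.lf (nat_lit 0) (nat_lit 10399568333) (nat_lit 760) (nat_lit 7812438846) (nat_lit 836) (nat_lit 6593062133) (nat_lit 149) (nat_lit 5) (nat_lit 159) (nat_lit 5) (nat_lit 160) (nat_lit 5) (nat_lit 439) (nat_lit 435) (nat_lit 326)) (XT.lf (nat_lit 76) (nat_lit 5050683700) (nat_lit 0) (nat_lit 6615091925) (nat_lit 836) (nat_lit 13770677977) (nat_lit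 150) (nat_lit 5) (nat_lit 149) (nat_lit 5) (nat_lit 160) (nat_lit 5) (nat_lit 440) (nat_lit 435) (nat_lit 325))) (XT.nd (nat_lit 78) (nat_lit 0) (nat_lit 0) (XT.lf (nat_lit 0) (nat_lit 13209780977) (nat_lit 760) (nat_lit 7358698477) (nat_lit 836) (nat_lit 5520204310) (nat_lit 150) (nat_lit 5) (nat_lit 160) (nat_lit 5) (nat_lit 161) (nat_lit 5) (nat_lit 441) (nat_lit 435) (nat_lit 324)) (XT.lf (nat_lit 76) (nat_lit 6411640509) (nat_lit 0) (nat_lit 8621396795) (nat_lit 836) (nat_lit 11730386590) (nat_lit 151) (nat_lit 5) (nat_lit 150) (nat_lit 5) (nat_lit 161) (nat_lit 5) (nat_lit 442) (nat_lit 435) (nat_lit 323))))))) (XT.nd (nat_lit 1170) (nat_lit 2204) (nat_lit 0) (XT.nd (nat_lit 546) (nat_lit 1748) (nat_lit 0) (XT.nd (nat_lit 234) (nat_lit 1140) (nat_lit 0) (XT.nd (nat_lit 78) (nat_lit 0) (nat_lit 0) (XT.lf (nat_lit 0) (nat_lit 17129133142) (nat_lit 760) (nat_lit 6408102069) (nat_lit 836) (nat_lit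 3925582932) (nat_lit 151) (nat_lit 5) (nat_lit 161) (nat_lit 5) (nat_lit 162) (nat_lit 5) (nat_lit 443) (nat_lit 435) (nat_lit 322)) (XT.nd (nat_lit 78) (nat_lit 0) (nat_lit 76) (XT.lf (nat_lit 76) (nat_lit 8353937212) (nat_lit 0) (nat_lit 11241917325) (nat_lit 836) (nat_lit 8588037430) (nat_lit 152) (nat_lit 5) (nat_lit 151) (nat_lit 5) (nat_lit 162) (nat_lit 5) (nat_lit 444) (nat_lit 435) (nat_lit 321)) (XT.lf (nat_lit 0) (nat_lit 22316541035) (nat_lit 760) (nat_lit 4891957424) (nat_lit 76) (nat_lit 1725990432) (nat_lit 152) (nat_lit 5) (nat_lit 162) (nat_lit 5) (nat_lit 153) (nat_lit 5) (nat_lit 445) (nat_lit 435) (nat_lit 320)))) (XT.nd (nat_lit 156) (nat_lit 456) (nat_lit 0) (XT.nd (nat_lit 78) (nat_lit 0) (nat_lit 0) (XT.lf (nat_lit 0) (nat_lit 10954404342) (nat_lit 760) (nat_lit 14568733414) (nat_lit 836) (nat_lit 4181984929) (nat_lit 142) (nat_lit 5) (nat_lit 152) (nat_lit 5) (nat_lit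 153) (nat_lit 5) (nat_lit 446) (nat_lit 435) (nat_lit 319)) (XT.lf (nat_lit 0) (nat_lit 27758149100) (nat_lit 760) (nat_lit 1209500951) (nat_lit 836) (nat_lit 1542759606) (nat_lit 142) (nat_lit 5) (nat_lit 152) (nat_lit 5) (nat_lit 153) (nat_lit 5) (nat_lit 447) (nat_lit 435) (nat_lit 318))) (XT.nd (nat_lit 78) (nat_lit 0) (nat_lit 0) (XT.lf (nat_lit 0) (nat_lit 1614328428) (nat_lit 456) (nat_lit 17062232893) (nat_lit 76) (nat_lit 12657180468) (nat_lit 136) (nat_lit 5) (nat_lit 142) (nat_lit 5) (nat_lit 137) (nat_lit 5) (nat_lit 448) (nat_lit 435) (nat_lit 317)) (XT.lf (nat_lit 0) (nat_lit 4939707274) (nat_lit 456) (nat_lit 4663995) (nat_lit 76) (nat_lit 27249491211) (nat_lit 136) (nat_lit 5) (nat_lit 142) (nat_lit 5) (nat_lit 137) (nat_lit 5) (nat_lit 449) (nat_lit 435) (nat_lit 316))))) (XT.nd (nat_lit 312) (nat_lit 684) (nat_lit 0) (XT.nd (nat_lit 156) (nat_lit 304) (nat_lit 0) (XT.nd (nat_lit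 78) (nat_lit 380) (nat_lit 0) (XT.lf (nat_lit 0) (nat_lit 8868053620) (nat_lit 456) (nat_lit 14742425474) (nat_lit 76) (nat_lit 9464675825) (nat_lit 131) (nat_lit 5) (nat_lit 137) (nat_lit 5) (nat_lit 132) (nat_lit 5) (nat_lit 450) (nat_lit 435) (nat_lit 315)) (XT.lf (nat_lit 0) (nat_lit 3616532985) (nat_lit 380) (nat_lit 9509349538) (nat_lit 456) (nat_lit 20867976805) (nat_lit 126) (nat_lit 5) (nat_lit 131) (nat_lit 5) (nat_lit 132) (nat_lit 5) (nat_lit 451) (nat_lit 435) (nat_lit 314))) (XT.nd (nat_lit 78) (nat_lit 304) (nat_lit 0) (XT.lf (nat_lit 0) (nat_lit 17928666650) (nat_lit 456) (nat_lit 11632489684) (nat_lit 76) (nat_lit 5380740016) (nat_lit 126) (nat_lit 5) (nat_lit 132) (nat_lit 5) (nat_lit 127) (nat_lit 5) (nat_lit 452) (nat_lit 435) (nat_lit 313)) (XT.lf (nat_lit 0) (nat_lit 8149832997) (nat_lit 304) (nat_lit 15100701366) (nat_lit 380) (nat_lit 12672854194) (nat_lit 122) (nat_lit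 5) (nat_lit 126) (nat_lit 5) (nat_lit 127) (nat_lit 5) (nat_lit 453) (nat_lit 435) (nat_lit 312)))) (XT.nd (nat_lit 156) (nat_lit 380) (nat_lit 0) (XT.nd (nat_lit 78) (nat_lit 304) (nat_lit 0) (XT.lf (nat_lit 0) (nat_lit 29035949025) (nat_lit 380) (nat_lit 7628330658) (nat_lit 76) (nat_lit 279803540) (nat_lit 122) (nat_lit 5) (nat_lit 127) (nat_lit 5) (nat_lit 123) (nat_lit 5) (nat_lit 454) (nat_lit 435) (nat_lit 311)) (XT.lf (nat_lit 0) (nat_lit 13710836294) (nat_lit 304) (nat_lit 21857538815) (nat_lit 380) (nat_lit 2424550983) (nat_lit 118) (nat_lit 5) (nat_lit 122) (nat_lit 5) (nat_lit 123) (nat_lit 5) (nat_lit 455) (nat_lit 435) (nat_lit 310))) (XT.nd (nat_lit 78) (nat_lit 304) (nat_lit 0) (XT.lf (nat_lit 0) (nat_lit 3354010574) (nat_lit 380) (nat_lit 2764762084) (nat_lit 76) (nat_lit 32966462724) (nat_lit 117) (nat_lit 5) (nat_lit 122) (nat_lit 5) (nat_lit 118) (nat_lit 5) (nat_lit 456)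 (nat_lit 435) (nat_lit 309)) (XT.lf (nat_lit 0) (nat_lit 9823829654) (nat_lit 380) (nat_lit 19944340353) (nat_lit 76) (nat_lit 10437812714) (nat_lit 113) (nat_lit 5) (nat_lit 118) (nat_lit 5) (nat_lit 114) (nat_lit 5) (nat_lit 457) (nat_lit 435) (nat_lit 308)))))) (XT.nd (nat_lit 624) (nat_lit 912) (nat_lit 0) (XT.nd (nat_lit 312) (nat_lit 760) (nat_lit 0) (XT.nd (nat_lit 156) (nat_lit 228) (nat_lit 0) (XT.nd (nat_lit 78) (nat_lit 0) (nat_lit 0) (XT.lf (nat_lit 0) (nat_lit 3150152983) (nat_lit 304) (nat_lit 13660517454) (nat_lit 380) (nat_lit 24562420865) (nat_lit 109) (nat_lit 5) (nat_lit 113) (nat_lit 5) (nat_lit 114) (nat_lit 5) (nat_lit 458) (nat_lit 435) (nat_lit 307)) (XT.lf (nat_lit 0) (nat_lit 24537472460) (nat_lit 380) (nat_lit 14550799230) (nat_lit 76) (nat_lit 3490753056) (nat_lit 109) (nat_lit 5) (nat_lit 114) (nat_lit 5) (nat_lit 110) (nat_lit 5) (nat_lit 459) (nat_lit 435) (nat_lit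 306))) (XT.nd (nat_lit 78) (nat_lit 0) (nat_lit 0) (XT.lf (nat_lit 0) (nat_lit 10409794101) (nat_lit 228) (nat_lit 22623988559) (nat_lit 304) (nat_lit 10792314173) (nat_lit 106) (nat_lit 5) (nat_lit 109) (nat_lit 5) (nat_lit 110) (nat_lit 5) (nat_lit 460) (nat_lit 435) (nat_lit 305)) (XT.lf (nat_lit 0) (nat_lit 37119270546) (nat_lit 228) (nat_lit 5078851538) (nat_lit 304) (nat_lit 2925240112) (nat_lit 106) (nat_lit 5) (nat_lit 109) (nat_lit 5) (nat_lit 110) (nat_lit 5) (nat_lit 461) (nat_lit 435) (nat_lit 304)))) (XT.nd (nat_lit 156) (nat_lit 456) (nat_lit 0) (XT.nd (nat_lit 78) (nat_lit 0) (nat_lit 0) (XT.lf (nat_lit 0) (nat_lit 5675772069) (nat_lit 304) (nat_lit 27475155453) (nat_lit 76) (nat_lit 13304831580) (nat_lit 102) (nat_lit 5) (nat_lit 106) (nat_lit 5) (nat_lit 103) (nat_lit 5) (nat_lit 462) (nat_lit 435) (nat_lit 303)) (XT.lf (nat_lit 0) (nat_lit 14826519927) (nat_lit 304) (nat_lit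 393298339) (nat_lit 76) (nat_lit 32621660541) (nat_lit 102) (nat_lit 5) (nat_lit 106) (nat_lit 5) (nat_lit 103) (nat_lit 5) (nat_lit 463) (nat_lit 435) (nat_lit 302))) (XT.nd (nat_lit 78) (nat_lit 228) (nat_lit 0) (XT.lf (nat_lit 0) (nat_lit 24947866131) (nat_lit 304) (nat_lit 20372085473) (nat_lit 76) (nat_lit 3950880140) (nat_lit 99) (nat_lit 5) (nat_lit 103) (nat_lit 5) (nat_lit 100) (nat_lit 5) (nat_lit 464) (nat_lit 435) (nat_lit 301)) (XT.lf (nat_lit 0) (nat_lit 8929788565) (nat_lit 228) (nat_lit 27038344028) (nat_lit 304) (nat_lit 14783877367) (nat_lit 96) (nat_lit 5) (nat_lit 99) (nat_lit 5) (nat_lit 100) (nat_lit 5) (nat_lit 465) (nat_lit 435) (nat_lit 300))))) (XT.nd (nat_lit 312) (nat_lit 456) (nat_lit 0) (XT.nd (nat_lit 156) (nat_lit 228) (nat_lit 0) (XT.nd (nat_lit 78) (nat_lit 228) (nat_lit 0) (XT.lf (nat_lit 0) (nat_lit 40399961518) (nat_lit 228) (nat_lit 7481692591) (nat_lit 304)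 (nat_lit 4408481159) (nat_lit 96) (nat_lit 5) (nat_lit 99) (nat_lit 5) (nat_lit 100) (nat_lit 5) (nat_lit 466) (nat_lit 435) (nat_lit 299)) (XT.lf (nat_lit 0) (nat_lit 6799430006) (nat_lit 228) (nat_lit 34019330252) (nat_lit 76) (nat_lit 13055277459) (nat_lit 93) (nat_lit 5) (nat_lit 96) (nat_lit 5) (nat_lit 94) (nat_lit 5) (nat_lit 467) (nat_lit 435) (nat_lit 298))) (XT.nd (nat_lit 78) (nat_lit 228) (nat_lit 0) (XT.lf (nat_lit 0) (nat_lit 18744266212) (nat_lit 228) (nat_lit 2129665986) (nat_lit 76) (nat_lit 34643355644) (nat_lit 93) (nat_lit 5) (nat_lit 96) (nat_lit 5) (nat_lit 94) (nat_lit 5) (nat_lit 468) (nat_lit 435) (nat_lit 297)) (XT.lf (nat_lit 0) (nat_lit 31798824054) (nat_lit 304) (nat_lit 24839618973) (nat_lit 76) (nat_lit 578633673) (nat_lit 90) (nat_lit 5) (nat_lit 94) (nat_lit 5) (nat_lit 91) (nat_lit 5) (nat_lit 469) (nat_lit 435) (nat_lit 296)))) (XT.nd (nat_lit 156) (nat_lit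 228) (nat_lit 0) (XT.nd (nat_lit 78) (nat_lit 76) (nat_lit 0) (XT.lf (nat_lit 0) (nat_lit 9645906141) (nat_lit 152) (nat_lit 36387188612) (nat_lit 228) (nat_lit 12942411209) (nat_lit 88) (nat_lit 5) (nat_lit 90) (nat_lit 5) (nat_lit 91) (nat_lit 5) (nat_lit 470) (nat_lit 435) (nat_lit 295)) (XT.lf (nat_lit 0) (nat_lit 577307515) (nat_lit 228) (nat_lit 14095969408) (nat_lit 76) (nat_lit 46127201354) (nat_lit 87) (nat_lit 5) (nat_lit 90) (nat_lit 5) (nat_lit 88) (nat_lit 5) (nat_lit 471) (nat_lit 435) (nat_lit 294))) (XT.nd (nat_lit 78) (nat_lit 0) (nat_lit 0) (XT.lf (nat_lit 0) (nat_lit 14837921111) (nat_lit 304) (nat_lit 39390747468) (nat_lit 76) (nat_lit 8452429335) (nat_lit 84) (nat_lit 5) (nat_lit 88) (nat_lit 5) (nat_lit 85) (nat_lit 5) (nat_lit 472) (nat_lit 435) (nat_lit 293)) (XT.lf (nat_lit 0) (nat_lit 30292446421) (nat_lit 304) (nat_lit 1856631940) (nat_lit 76) (nat_lit 32482626291)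 (nat_lit 84) (nat_lit 5) (nat_lit 88) (nat_lit 5) (nat_lit 85) (nat_lit 5) (nat_lit 473) (nat_lit 435) (nat_lit 292))))))))
noncomputable def xc169 : XT := (XT.nd (nat_lit 2418) (nat_lit 1824) (nat_lit 0) (XT.nd (nat_lit 1170) (nat_lit 1140) (nat_lit 0) (XT.nd (nat_lit 546) (nat_lit 760) (nat_lit 0) (XT.nd (nat_lit 234) (nat_lit 532) (nat_lit 0) (XT.nd (nat_lit 78) (nat_lit 228) (nat_lit 0) (XT.lf (nat_lit 0) (nat_lit 38792233543) (nat_lit 152) (nat_lit 8330929432) (nat_lit 228) (nat_lit 19526505668) (nat_lit 82) (nat_lit 5) (nat_lit 84) (nat_lit 5) (nat_lit 85) (nat_lit 5) (nat_lit 474) (nat_lit 435) (nat_lit 291)) (XT.nd (nat_lit 78) (nat_lit 76) (nat_lit 0) (XT.lf (nat_lit 0) (nat_lit 12920078736) (nat_lit 152) (nat_lit 52367244157) (nat_lit 228) (nat_lit 3456612716) (nat_lit 80) (nat_lit 5) (nat_lit 82) (nat_lit 5) (nat_lit 83) (nat_lit 5) (nat_lit 475) (nat_lit 435) (nat_lit 290)) (XT.lf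 (nat_lit 0) (nat_lit 13601291496) (nat_lit 228) (nat_lit 14573083480) (nat_lit 76) (nat_lit 42727370558) (nat_lit 79) (nat_lit 5) (nat_lit 82) (nat_lit 5) (nat_lit 80) (nat_lit 5) (nat_lit 476) (nat_lit 435) (nat_lit 289)))) (XT.nd (nat_lit 156) (nat_lit 228) (nat_lit 0) (XT.nd (nat_lit 78) (nat_lit 152) (nat_lit 0) (XT.lf (nat_lit 0) (nat_lit 29628436994) (nat_lit 152) (nat_lit 2228025682) (nat_lit 228) (nat_lit 41285123294) (nat_lit 77) (nat_lit 5) (nat_lit 79) (nat_lit 5) (nat_lit 80) (nat_lit 5) (nat_lit 477) (nat_lit 435) (nat_lit 288)) (XT.lf (nat_lit 0) (nat_lit 688893884) (nat_lit 152) (nat_lit 50985643793) (nat_lit 228) (nat_lit 23786373617) (nat_lit 75) (nat_lit 5) (nat_lit 77) (nat_lit 5) (nat_lit 78) (nat_lit 5) (nat_lit 478) (nat_lit 435) (nat_lit 287))) (XT.nd (nat_lit 78) (nat_lit 228) (nat_lit 0) (XT.lf (nat_lit 0) (nat_lit 48570595480) (nat_lit 152) (nat_lit 24683793758) (nat_lit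 228) (nat_lit 4603270126) (nat_lit 75) (nat_lit 5) (nat_lit 77) (nat_lit 5) (nat_lit 78) (nat_lit 5) (nat_lit 479) (nat_lit 435) (nat_lit 286)) (XT.lf (nat_lit 0) (nat_lit 15388268960) (nat_lit 228) (nat_lit 61573200533) (nat_lit 76) (nat_lit 3383313843) (nat_lit 72) (nat_lit 5) (nat_lit 75) (nat_lit 5) (nat_lit 73) (nat_lit 5) (nat_lit 480) (nat_lit 435) (nat_lit 285))))) (XT.nd (nat_lit 312) (nat_lit 456) (nat_lit 0) (XT.nd (nat_lit 156) (nat_lit 152) (nat_lit 0) (XT.nd (nat_lit 78) (nat_lit 152) (nat_lit 0) (XT.lf (nat_lit 0) (nat_lit 37131562220) (nat_lit 228) (nat_lit 13173078815) (nat_lit 76) (nat_lit 32602505539) (nat_lit 72) (nat_lit 5) (nat_lit 75) (nat_lit 5) (nat_lit 73) (nat_lit 5) (nat_lit 481) (nat_lit 435) (nat_lit 284)) (XT.lf (nat_lit 0) (nat_lit 38888573248) (nat_lit 152) (nat_lit 21678800160) (nat_lit 228) (nat_lit 24999987005) (nat_lit 70) (nat_lit 5) (nat_lit 72) (nat_lit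 5) (nat_lit 73) (nat_lit 5) (nat_lit 482) (nat_lit 435) (nat_lit 283))) (XT.nd (nat_lit 78) (nat_lit 76) (nat_lit 0) (XT.lf (nat_lit 0) (nat_lit 5706215354) (nat_lit 76) (nat_lit 79913619205) (nat_lit 152) (nat_lit 2718507510) (nat_lit 69) (nat_lit 5) (nat_lit 70) (nat_lit 5) (nat_lit 71) (nat_lit 4) (nat_lit 483) (nat_lit 435) (nat_lit 282)) (XT.lf (nat_lit 0) (nat_lit 21172346963) (nat_lit 152) (nat_lit 29571650291) (nat_lit 76) (nat_lit 40429879528) (nat_lit 68) (nat_lit 5) (nat_lit 70) (nat_lit 5) (nat_lit 69) (nat_lit 5) (nat_lit 484) (nat_lit 435) (nat_lit 281)))) (XT.nd (nat_lit 156) (nat_lit 304) (nat_lit 0) (XT.nd (nat_lit 78) (nat_lit 0) (nat_lit 0) (XT.lf (nat_lit 0) (nat_lit 26957051898) (nat_lit 152) (nat_lit 19628510680) (nat_lit 228) (nat_lit 47542438545) (nat_lit 66) (nat_lit 5) (nat_lit 68) (nat_lit 5) (nat_lit 69) (nat_lit 5) (nat_lit 485) (nat_lit 435) (nat_lit 280)) (XT.lf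 (nat_lit 0) (nat_lit 73980409833) (nat_lit 228) (nat_lit 10080825181) (nat_lit 76) (nat_lit 13133048204) (nat_lit 66) (nat_lit 5) (nat_lit 69) (nat_lit 5) (nat_lit 67) (nat_lit 4) (nat_lit 486) (nat_lit 435) (nat_lit 279))) (XT.nd (nat_lit 78) (nat_lit 152) (nat_lit 0) (XT.lf (nat_lit 0) (nat_lit 3394051022) (nat_lit 152) (nat_lit 49235544431) (nat_lit 76) (nat_lit 47725587201) (nat_lit 64) (nat_lit 5) (nat_lit 66) (nat_lit 5) (nat_lit 65) (nat_lit 5) (nat_lit 487) (nat_lit 435) (nat_lit 278)) (XT.lf (nat_lit 0) (nat_lit 12064397788) (nat_lit 152) (nat_lit 18848119906) (nat_lit 228) (nat_lit 72724567449) (nat_lit 62) (nat_lit 5) (nat_lit 64) (nat_lit 5) (nat_lit 65) (nat_lit 5) (nat_lit 488) (nat_lit 435) (nat_lit 277)))))) (XT.nd (nat_lit 624) (nat_lit 532) (nat_lit 0) (XT.nd (nat_lit 312) (nat_lit 304) (nat_lit 0) (XT.nd (nat_lit 156) (nat_lit 228) (nat_lit 0) (XT.nd (nat_lit 78) (nat_lit 76)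 (nat_lit 0) (XT.lf (nat_lit 0) (nat_lit 60912341786) (nat_lit 228) (nat_lit 29178812395) (nat_lit 76) (nat_lit 16936656937) (nat_lit 62) (nat_lit 5) (nat_lit 65) (nat_lit 5) (nat_lit 63) (nat_lit 4) (nat_lit 489) (nat_lit 435) (nat_lit 276)) (XT.lf (nat_lit 0) (nat_lit 37214079348) (nat_lit 76) (nat_lit 56086569185) (nat_lit 152) (nat_lit 17243000346) (nat_lit 61) (nat_lit 5) (nat_lit 62) (nat_lit 5) (nat_lit 63) (nat_lit 4) (nat_lit 490) (nat_lit 435) (nat_lit 275))) (XT.nd (nat_lit 78) (nat_lit 152) (nat_lit 0) (XT.lf (nat_lit 0) (nat_lit 13155424519) (nat_lit 152) (nat_lit 6485920467) (nat_lit 76) (nat_lit 94558690568) (nat_lit 60) (nat_lit 5) (nat_lit 62) (nat_lit 5) (nat_lit 61) (nat_lit 5) (nat_lit 491) (nat_lit 435) (nat_lit 274)) (XT.lf (nat_lit 0) (nat_lit 45827863946) (nat_lit 228) (nat_lit 52774862992) (nat_lit 76) (nat_lit 19355702511) (nat_lit 58) (nat_lit 5) (nat_lit 61) (nat_lit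 5) (nat_lit 59) (nat_lit 4) (nat_lit 492) (nat_lit 435) (nat_lit 273)))) (XT.nd (nat_lit 156) (nat_lit 228) (nat_lit 0) (XT.nd (nat_lit 78) (nat_lit 0) (nat_lit 0) (XT.lf (nat_lit 0) (nat_lit 19045585014) (nat_lit 76) (nat_lit 61817902784) (nat_lit 152) (nat_lit 41004777168) (nat_lit 57) (nat_lit 5) (nat_lit 58) (nat_lit 5) (nat_lit 59) (nat_lit 4) (nat_lit 493) (nat_lit 435) (nat_lit 272)) (XT.lf (nat_lit 0) (nat_lit 96286666329) (nat_lit 76) (nat_lit 22256596741) (nat_lit 152) (nat_lit 7385710727) (nat_lit 57) (nat_lit 5) (nat_lit 58) (nat_lit 5) (nat_lit 59) (nat_lit 4) (nat_lit 494) (nat_lit 435) (nat_lit 271))) (XT.nd (nat_lit 78) (nat_lit 0) (nat_lit 0) (XT.lf (nat_lit 0) (nat_lit 28094244760) (nat_lit 228) (nat_lit 82149049585) (nat_lit 76) (nat_lit 19873964341) (nat_lit 54) (nat_lit 5) (nat_lit 57) (nat_lit 5) (nat_lit 55) (nat_lit 4) (nat_lit 495) (nat_lit 435) (nat_lit 270)) (XT.lf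 (nat_lit 0) (nat_lit 65973742781) (nat_lit 228) (nat_lit 4498201949) (nat_lit 76) (nat_lit 63993271617) (nat_lit 54) (nat_lit 5) (nat_lit 57) (nat_lit 5) (nat_lit 55) (nat_lit 4) (nat_lit 496) (nat_lit 435) (nat_lit 269))))) (XT.nd (nat_lit 312) (nat_lit 228) (nat_lit 0) (XT.nd (nat_lit 156) (nat_lit 76) (nat_lit 0) (XT.nd (nat_lit 78) (nat_lit 152) (nat_lit 0) (XT.lf (nat_lit 0) (nat_lit 79579819403) (nat_lit 76) (nat_lit 27408578767) (nat_lit 152) (nat_lit 31980114637) (nat_lit 53) (nat_lit 5) (nat_lit 54) (nat_lit 5) (nat_lit 55) (nat_lit 4) (nat_lit 497) (nat_lit 435) (nat_lit 268)) (XT.lf (nat_lit 0) (nat_lit 6907493910) (nat_lit 152) (nat_lit 118933278195) (nat_lit 76) (nat_lit 17813532669) (nat_lit 51) (nat_lit 5) (nat_lit 53) (nat_lit 5) (nat_lit 52) (nat_lit 4) (nat_lit 498) (nat_lit 435) (nat_lit 267))) (XT.nd (nat_lit 78) (nat_lit 76) (nat_lit 0) (XT.lf (nat_lit 0) (nat_lit 48135054369)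 (nat_lit 152) (nat_lit 34418526104) (nat_lit 76) (nat_lit 65921077042) (nat_lit 51) (nat_lit 5) (nat_lit 53) (nat_lit 5) (nat_lit 52) (nat_lit 4) (nat_lit 499) (nat_lit 435) (nat_lit 266)) (XT.lf (nat_lit 0) (nat_lit 56115703015) (nat_lit 76) (nat_lit 36183201493) (nat_lit 152) (nat_lit 61193377833) (nat_lit 50) (nat_lit 5) (nat_lit 51) (nat_lit 5) (nat_lit 52) (nat_lit 4) (nat_lit 500) (nat_lit 435) (nat_lit 265)))) (XT.nd (nat_lit 156) (nat_lit 76) (nat_lit 0) (XT.nd (nat_lit 78) (nat_lit 152) (nat_lit 0) (XT.lf (nat_lit 0) (nat_lit 139457439631) (nat_lit 152) (nat_lit 6567189958) (nat_lit 0) (nat_lit 12696834228) (nat_lit 50) (nat_lit 5) (nat_lit 52) (nat_lit 4) (nat_lit 50) (nat_lit 4) (nat_lit 501) (nat_lit 435) (nat_lit 264)) (XT.lf (nat_lit 0) (nat_lit 26016681671) (nat_lit 152) (nat_lit 73427845113) (nat_lit 76) (nat_lit 64645876725) (nat_lit 48) (nat_lit 5) (nat_lit 50) (nat_lit 5) (nat_lit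 49) (nat_lit 4) (nat_lit 502) (nat_lit 435) (nat_lit 263))) (XT.nd (nat_lit 78) (nat_lit 0) (nat_lit 0) (XT.lf (nat_lit 0) (nat_lit 23698216244) (nat_lit 76) (nat_lit 49697699602) (nat_lit 152) (nat_lit 96291989653) (nat_lit 47) (nat_lit 5) (nat_lit 48) (nat_lit 5) (nat_lit 49) (nat_lit 4) (nat_lit 503) (nat_lit 435) (nat_lit 262)) (XT.lf (nat_lit 0) (nat_lit 124446492513) (nat_lit 152) (nat_lit 47335478329) (nat_lit 0) (nat_lit 3718192734) (nat_lit 47) (nat_lit 5) (nat_lit 49) (nat_lit 4) (nat_lit 47) (nat_lit 4) (nat_lit 504) (nat_lit 435) (nat_lit 261))))))) (XT.nd (nat_lit 1170) (nat_lit 836) (nat_lit 0) (XT.nd (nat_lit 546) (nat_lit 532) (nat_lit 0) (XT.nd (nat_lit 234) (nat_lit 228) (nat_lit 0) (XT.nd (nat_lit 78) (nat_lit 152) (nat_lit 0) (XT.lf (nat_lit 0) (nat_lit 57267536064) (nat_lit 76) (nat_lit 122489796942) (nat_lit 76) (nat_lit 1760314826) (nat_lit 46) (nat_lit 4) (nat_lit 47)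 (nat_lit 5) (nat_lit 47) (nat_lit 4) (nat_lit 505) (nat_lit 435) (nat_lit 260)) (XT.nd (nat_lit 78) (nat_lit 76) (nat_lit 0) (XT.lf (nat_lit 0) (nat_lit 49211175051) (nat_lit 152) (nat_lit 19847699294) (nat_lit 76) (nat_lit 118697416521) (nat_lit 45) (nat_lit 5) (nat_lit 47) (nat_lit 5) (nat_lit 46) (nat_lit 4) (nat_lit 506) (nat_lit 435) (nat_lit 259)) (XT.lf (nat_lit 0) (nat_lit 92711306111) (nat_lit 76) (nat_lit 11407223973) (nat_lit 152) (nat_lit 90114570668) (nat_lit 44) (nat_lit 5) (nat_lit 45) (nat_lit 5) (nat_lit 46) (nat_lit 4) (nat_lit 507) (nat_lit 435) (nat_lit 258)))) (XT.nd (nat_lit 156) (nat_lit 76) (nat_lit 0) (XT.nd (nat_lit 78) (nat_lit 76) (nat_lit 0) (XT.lf (nat_lit 0) (nat_lit 10119744649) (nat_lit 76) (nat_lit 152917125632) (nat_lit 76) (nat_lit 37933600003) (nat_lit 43) (nat_lit 4) (nat_lit 44) (nat_lit 5) (nat_lit 44) (nat_lit 4) (nat_lit 508) (nat_lit 435) (nat_lit 257))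 (XT.lf (nat_lit 0) (nat_lit 18250388844) (nat_lit 152) (nat_lit 77571154890) (nat_lit 76) (nat_lit 112113331761) (nat_lit 42) (nat_lit 5) (nat_lit 44) (nat_lit 5) (nat_lit 43) (nat_lit 4) (nat_lit 509) (nat_lit 435) (nat_lit 256))) (XT.nd (nat_lit 78) (nat_lit 0) (nat_lit 0) (XT.lf (nat_lit 0) (nat_lit 42095945429) (nat_lit 76) (nat_lit 34529069071) (nat_lit 152) (nat_lit 138558580616) (nat_lit 41) (nat_lit 5) (nat_lit 42) (nat_lit 5) (nat_lit 43) (nat_lit 4) (nat_lit 510) (nat_lit 435) (nat_lit 255)) (XT.lf (nat_lit 0) (nat_lit 139718333909) (nat_lit 152) (nat_lit 52778727232) (nat_lit 0) (nat_lit 30207691469) (nat_lit 41) (nat_lit 5) (nat_lit 43) (nat_lit 4) (nat_lit 41) (nat_lit 4) (nat_lit 511) (nat_lit 435) (nat_lit 254))))) (XT.nd (nat_lit 312) (nat_lit 304) (nat_lit 0) (XT.nd (nat_lit 156) (nat_lit 76) (nat_lit 0) (XT.nd (nat_lit 78) (nat_lit 76) (nat_lit 0) (XT.lf (nat_lit 0) (nat_lit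 75390734317) (nat_lit 76) (nat_lit 132317764641) (nat_lit 76) (nat_lit 22806360055) (nat_lit 40) (nat_lit 4) (nat_lit 41) (nat_lit 5) (nat_lit 41) (nat_lit 4) (nat_lit 512) (nat_lit 435) (nat_lit 253)) (XT.lf (nat_lit 0) (nat_lit 39997759084) (nat_lit 152) (nat_lit 27516724314) (nat_lit 76) (nat_lit 171124085185) (nat_lit 39) (nat_lit 5) (nat_lit 41) (nat_lit 5) (nat_lit 40) (nat_lit 4) (nat_lit 513) (nat_lit 435) (nat_lit 252))) (XT.nd (nat_lit 78) (nat_lit 0) (nat_lit 0) (XT.lf (nat_lit 0) (nat_lit 106928398681) (nat_lit 152) (nat_lit 137503260109) (nat_lit 0) (nat_lit 2630473229) (nat_lit 38) (nat_lit 5) (nat_lit 40) (nat_lit 4) (nat_lit 38) (nat_lit 4) (nat_lit 514) (nat_lit 435) (nat_lit 251)) (XT.lf (nat_lit 0) (nat_lit 178785129967) (nat_lit 152) (nat_lit 2556188190) (nat_lit 0) (nat_lit 74486577497) (nat_lit 38) (nat_lit 5) (nat_lit 40) (nat_lit 4) (nat_lit 38) (nat_lit 4) (nat_lit 515)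 (nat_lit 435) (nat_lit 250)))) (XT.nd (nat_lit 156) (nat_lit 76) (nat_lit 0) (XT.nd (nat_lit 78) (nat_lit 152) (nat_lit 0) (XT.lf (nat_lit 0) (nat_lit 143737056803) (nat_lit 76) (nat_lit 112740937737) (nat_lit 76) (nat_lit 8441788107) (nat_lit 37) (nat_lit 4) (nat_lit 38) (nat_lit 5) (nat_lit 38) (nat_lit 4) (nat_lit 516) (nat_lit 435) (nat_lit 249)) (XT.lf (nat_lit 0) (nat_lit 22701002651) (nat_lit 76) (nat_lit 39250568570) (nat_lit 152) (nat_lit 212445173187) (nat_lit 35) (nat_lit 5) (nat_lit 36) (nat_lit 5) (nat_lit 37) (nat_lit 4) (nat_lit 517) (nat_lit 435) (nat_lit 248))) (XT.nd (nat_lit 78) (nat_lit 76) (nat_lit 0) (XT.lf (nat_lit 0) (nat_lit 138257941188) (nat_lit 152) (nat_lit 107024481239) (nat_lit 0) (nat_lit 38924360239) (nat_lit 35) (nat_lit 5) (nat_lit 37) (nat_lit 4) (nat_lit 35) (nat_lit 4) (nat_lit 518) (nat_lit 435) (nat_lit 247)) (XT.lf (nat_lit 0) (nat_lit 45697921872) (nat_lit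 76) (nat_lit 174037833462) (nat_lit 76) (nat_lit 74703761228) (nat_lit 34) (nat_lit 4) (nat_lit 35) (nat_lit 5) (nat_lit 35) (nat_lit 4) (nat_lit 519) (nat_lit 435) (nat_lit 246)))))) (XT.nd (nat_lit 624) (nat_lit 380) (nat_lit 0) (XT.nd (nat_lit 312) (nat_lit 228) (nat_lit 0) (XT.nd (nat_lit 156) (nat_lit 76) (nat_lit 0) (XT.nd (nat_lit 78) (nat_lit 76) (nat_lit 0) (XT.lf (nat_lit 0) (nat_lit 1941684614) (nat_lit 152) (nat_lit 95354086665) (nat_lit 76) (nat_lit 207795963702) (nat_lit 33) (nat_lit 5) (nat_lit 35) (nat_lit 5) (nat_lit 34) (nat_lit 4) (nat_lit 520) (nat_lit 435) (nat_lit 245)) (XT.lf (nat_lit 0) (nat_lit 66608521042) (nat_lit 76) (nat_lit 14339531044) (nat_lit 152) (nat_lit 235215320373) (nat_lit 32) (nat_lit 5) (nat_lit 33) (nat_lit 5) (nat_lit 34) (nat_lit 4) (nat_lit 521) (nat_lit 435) (nat_lit 244))) (XT.nd (nat_lit 78) (nat_lit 76) (nat_lit 0) (XT.lf (nat_lit 0) (nat_lit 166681378150)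 (nat_lit 152) (nat_lit 88892156009) (nat_lit 0) (nat_lit 72076225649) (nat_lit 32) (nat_lit 5) (nat_lit 34) (nat_lit 4) (nat_lit 32) (nat_lit 4) (nat_lit 522) (nat_lit 435) (nat_lit 243)) (XT.lf (nat_lit 0) (nat_lit 82198007615) (nat_lit 76) (nat_lit 176021055853) (nat_lit 76) (nat_lit 81415518417) (nat_lit 31) (nat_lit 4) (nat_lit 32) (nat_lit 5) (nat_lit 32) (nat_lit 4) (nat_lit 523) (nat_lit 435) (nat_lit 242)))) (XT.nd (nat_lit 156) (nat_lit 76) (nat_lit 0) (XT.nd (nat_lit 78) (nat_lit 76) (nat_lit 0) (XT.lf (nat_lit 0) (nat_lit 3576684065) (nat_lit 152) (nat_lit 87273701705) (nat_lit 76) (nat_lit 261290138814) (nat_lit 30) (nat_lit 5) (nat_lit 32) (nat_lit 5) (nat_lit 31) (nat_lit 4) (nat_lit 524) (nat_lit 435) (nat_lit 241)) (XT.lf (nat_lit 0) (nat_lit 91557808543) (nat_lit 152) (nat_lit 272116836461) (nat_lit 0) (nat_lit 1456615031) (nat_lit 29) (nat_lit 5) (nat_lit 31) (nat_lit 4) (nat_lit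 29) (nat_lit 4) (nat_lit 525) (nat_lit 435) (nat_lit 240))) (XT.nd (nat_lit 78) (nat_lit 76) (nat_lit 0) (XT.lf (nat_lit 0) (nat_lit 186928905566) (nat_lit 152) (nat_lit 94865685515) (nat_lit 0) (nat_lit 96827395368) (nat_lit 29) (nat_lit 5) (nat_lit 31) (nat_lit 4) (nat_lit 29) (nat_lit 4) (nat_lit 526) (nat_lit 435) (nat_lit 239)) (XT.lf (nat_lit 0) (nat_lit 94263741994) (nat_lit 76) (nat_lit 194275882816) (nat_lit 76) (nat_lit 104174071011) (nat_lit 28) (nat_lit 4) (nat_lit 29) (nat_lit 5) (nat_lit 29) (nat_lit 4) (nat_lit 527) (nat_lit 435) (nat_lit 238))))) (XT.nd (nat_lit 312) (nat_lit 152) (nat_lit 0) (XT.nd (nat_lit 156) (nat_lit 76) (nat_lit 0) (XT.nd (nat_lit 78) (nat_lit 152) (nat_lit 0) (XT.lf (nat_lit 0) (nat_lit 296141874972) (nat_lit 76) (nat_lit 100694958536) (nat_lit 76) (nat_lit 10592859486) (nat_lit 28) (nat_lit 4) (nat_lit 29) (nat_lit 5) (nat_lit 29) (nat_lit 4) (nat_lit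 528) (nat_lit 435) (nat_lit 237)) (XT.lf (nat_lit 0) (nat_lit 86220091349) (nat_lit 152) (nat_lit 336116724905) (nat_lit 0) (nat_lit 408307906) (nat_lit 26) (nat_lit 5) (nat_lit 28) (nat_lit 4) (nat_lit 26) (nat_lit 4) (nat_lit 529) (nat_lit 435) (nat_lit 236))) (XT.nd (nat_lit 78) (nat_lit 76) (nat_lit 0) (XT.lf (nat_lit 0) (nat_lit 191083425821) (nat_lit 152) (nat_lit 142284537868) (nat_lit 0) (nat_lit 105271394245) (nat_lit 26) (nat_lit 5) (nat_lit 28) (nat_lit 4) (nat_lit 26) (nat_lit 4) (nat_lit 530) (nat_lit 435) (nat_lit 235)) (XT.lf (nat_lit 0) (nat_lit 63262876718) (nat_lit 76) (nat_lit 238914169313) (nat_lit 76) (nat_lit 153101901421) (nat_lit 25) (nat_lit 4) (nat_lit 26) (nat_lit 5) (nat_lit 26) (nat_lit 4) (nat_lit 531) (nat_lit 435) (nat_lit 234)))) (XT.nd (nat_lit 156) (nat_lit 0) (nat_lit 0) (XT.nd (nat_lit 78) (nat_lit 152) (nat_lit 0) (XT.lf (nat_lit 0) (nat_lit 284026290138)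 (nat_lit 76) (nat_lit 137208132743) (nat_lit 76) (nat_lit 51395639787) (nat_lit 25) (nat_lit 4) (nat_lit 26) (nat_lit 5) (nat_lit 26) (nat_lit 4) (nat_lit 532) (nat_lit 435) (nat_lit 233)) (XT.lf (nat_lit 0) (nat_lit 24910410817) (nat_lit 76) (nat_lit 29100866313) (nat_lit 152) (nat_lit 436774794327) (nat_lit 23) (nat_lit 5) (nat_lit 24) (nat_lit 5) (nat_lit 25) (nat_lit 4) (nat_lit 533) (nat_lit 435) (nat_lit 232))) (XT.nd (nat_lit 78) (nat_lit 0) (nat_lit 0) (XT.lf (nat_lit 0) (nat_lit 167525109370) (nat_lit 152) (nat_lit 256255926700) (nat_lit 0) (nat_lit 85798527046) (nat_lit 23) (nat_lit 5) (nat_lit 25) (nat_lit 4) (nat_lit 23) (nat_lit 4) (nat_lit 534) (nat_lit 435) (nat_lit 231)) (XT.lf (nat_lit 0) (nat_lit 287191160815) (nat_lit 152) (nat_lit 36633348837) (nat_lit 0) (nat_lit 205464393330) (nat_lit 23) (nat_lit 5) (nat_lit 25) (nat_lit 4) (nat_lit 23) (nat_lit 4) (nat_lit 535) (nat_lit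 435) (nat_lit 230))))))))
noncomputable def xc170 : XT := (XT.nd (nat_lit 56160) (nat_lit 0) (nat_lit 3952) (XT.nd (nat_lit 54912) (nat_lit 0) (nat_lit 8056) (XT.nd (nat_lit 546) (nat_lit 228) (nat_lit 0) (XT.nd (nat_lit 234) (nat_lit 76) (nat_lit 0) (XT.nd (nat_lit 78) (nat_lit 152) (nat_lit 0) (XT.lf (nat_lit 0) (nat_lit 200382831963) (nat_lit 76) (nat_lit 215585710172) (nat_lit 76) (nat_lit 133858766344) (nat_lit 22) (nat_lit 4) (nat_lit 23) (nat_lit 5) (nat_lit 23) (nat_lit 4) (nat_lit 536) (nat_lit 435) (nat_lit 229)) (XT.nd (nat_lit 78) (nat_lit 152) (nat_lit 0) (XT.lf (nat_lit 0) (nat_lit 450520637543) (nat_lit 76) (nat_lit 101284056700) (nat_lit 76) (nat_lit 19556944926) (nat_lit 22) (nat_lit 4) (nat_lit 23) (nat_lit 5) (nat_lit 23) (nat_lit 4) (nat_lit 537) (nat_lit 435) (nat_lit 228)) (XT.lf (nat_lit 0) (nat_lit 99490559187) (nat_lit 152) (nat_lit 472636344919) (nat_lit 0) (nat_lit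 21655062309) (nat_lit 20) (nat_lit 5) (nat_lit 22) (nat_lit 4) (nat_lit 20) (nat_lit 4) (nat_lit 538) (nat_lit 435) (nat_lit 227)))) (XT.nd (nat_lit 156) (nat_lit 0) (nat_lit 0) (XT.nd (nat_lit 78) (nat_lit 76) (nat_lit 0) (XT.lf (nat_lit 0) (nat_lit 227573156105) (nat_lit 152) (nat_lit 239809611533) (nat_lit 0) (nat_lit 149737514149) (nat_lit 20) (nat_lit 5) (nat_lit 22) (nat_lit 4) (nat_lit 20) (nat_lit 4) (nat_lit 539) (nat_lit 435) (nat_lit 226)) (XT.lf (nat_lit 0) (nat_lit 4811524187) (nat_lit 76) (nat_lit 357323017952) (nat_lit 76) (nat_lit 279487237826) (nat_lit 19) (nat_lit 4) (nat_lit 20) (nat_lit 5) (nat_lit 20) (nat_lit 4) (nat_lit 540) (nat_lit 435) (nat_lit 225))) (XT.nd (nat_lit 78) (nat_lit 0) (nat_lit 0) (XT.lf (nat_lit 0) (nat_lit 269988446793) (nat_lit 76) (nat_lit 237496388054) (nat_lit 76) (nat_lit 159660476339) (nat_lit 19) (nat_lit 4) (nat_lit 20) (nat_lit 5) (nat_lit 20)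 (nat_lit 4) (nat_lit 541) (nat_lit 435) (nat_lit 224)) (XT.lf (nat_lit 0) (nat_lit 548423341143) (nat_lit 76) (nat_lit 111678868253) (nat_lit 76) (nat_lit 33842831214) (nat_lit 19) (nat_lit 4) (nat_lit 20) (nat_lit 5) (nat_lit 20) (nat_lit 4) (nat_lit 542) (nat_lit 435) (nat_lit 223))))) (XT.nd (nat_lit 312) (nat_lit 0) (nat_lit 0) (XT.nd (nat_lit 156) (nat_lit 76) (nat_lit 0) (XT.nd (nat_lit 78) (nat_lit 0) (nat_lit 0) (XT.lf (nat_lit 0) (nat_lit 97384926223) (nat_lit 152) (nat_lit 601254649373) (nat_lit 0) (nat_lit 23255253466) (nat_lit 17) (nat_lit 5) (nat_lit 19) (nat_lit 4) (nat_lit 17) (nat_lit 4) (nat_lit 543) (nat_lit 435) (nat_lit 222)) (XT.lf (nat_lit 0) (nat_lit 238371994743) (nat_lit 152) (nat_lit 348383395231) (nat_lit 0) (nat_lit 164242213727) (nat_lit 17) (nat_lit 5) (nat_lit 19) (nat_lit 4) (nat_lit 17) (nat_lit 4) (nat_lit 544) (nat_lit 435) (nat_lit 221))) (XT.nd (nat_lit 78)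 (nat_lit 76) (nat_lit 0) (XT.lf (nat_lit 0) (nat_lit 386408018049) (nat_lit 152) (nat_lit 82869385028) (nat_lit 0) (nat_lit 312278133928) (nat_lit 17) (nat_lit 5) (nat_lit 19) (nat_lit 4) (nat_lit 17) (nat_lit 4) (nat_lit 545) (nat_lit 435) (nat_lit 220)) (XT.lf (nat_lit 0) (nat_lit 202397542814) (nat_lit 76) (nat_lit 342607912909) (nat_lit 76) (nat_lit 268477930594) (nat_lit 16) (nat_lit 4) (nat_lit 17) (nat_lit 5) (nat_lit 17) (nat_lit 4) (nat_lit 546) (nat_lit 435) (nat_lit 219)))) (XT.nd (nat_lit 53898) (nat_lit 0) (nat_lit 9956) (XT.nd (nat_lit 53820) (nat_lit 0) (nat_lit 9956) (XT.lf (nat_lit 0) (nat_lit 504804099130) (nat_lit 76) (nat_lit 208131725906) (nat_lit 76) (nat_lit 134001650073) (nat_lit 16) (nat_lit 4) (nat_lit 17) (nat_lit 5) (nat_lit 17) (nat_lit 4) (nat_lit 547) (nat_lit 435) (nat_lit 218)) (XT.lf (nat_lit 0) (nat_lit 4089675216) (nat_lit 836) (nat_lit 3854108408) (nat_lit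 836) (nat_lit 3854108408) (nat_lit 147) (nat_lit 3) (nat_lit 158) (nat_lit 3) (nat_lit 158) (nat_lit 5) (nat_lit 436) (nat_lit 436) (nat_lit 328))) (XT.nd (nat_lit 78) (nat_lit 0) (nat_lit 76) (XT.lf (nat_lit 76) (nat_lit 4126382272) (nat_lit 0) (nat_lit 4438122110) (nat_lit 836) (nat_lit 15612122795) (nat_lit 148) (nat_lit 5) (nat_lit 147) (nat_lit 3) (nat_lit 158) (nat_lit 5) (nat_lit 437) (nat_lit 436) (nat_lit 327)) (XT.lf (nat_lit 0) (nat_lit 9212552689) (nat_lit 760) (nat_lit 8084673353) (nat_lit 836) (nat_lit 7477105720) (nat_lit 148) (nat_lit 5) (nat_lit 158) (nat_lit 5) (nat_lit 159) (nat_lit 5) (nat_lit 438) (nat_lit 436) (nat_lit 326)))))) (XT.nd (nat_lit 624) (nat_lit 1976) (nat_lit 0) (XT.nd (nat_lit 312) (nat_lit 0) (nat_lit 152) (XT.nd (nat_lit 156) (nat_lit 0) (nat_lit 76) (XT.nd (nat_lit 78) (nat_lit 0) (nat_lit 76) (XT.lf (nat_lit 76) (nat_lit 4547721999) (nat_lit 0) (nat_lit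 5481944902) (nat_lit 836) (nat_lit 15365422598) (nat_lit 149) (nat_lit 5) (nat_lit 148) (nat_lit 5) (nat_lit 159) (nat_lit 5) (nat_lit 439) (nat_lit 436) (nat_lit 325)) (XT.lf (nat_lit 0) (nat_lit 11128122246) (nat_lit 760) (nat_lit 8062538593) (nat_lit 836) (nat_lit 6844201055) (nat_lit 149) (nat_lit 5) (nat_lit 159) (nat_lit 5) (nat_lit 160) (nat_lit 5) (nat_lit 440) (nat_lit 436) (nat_lit 324))) (XT.nd (nat_lit 78) (nat_lit 0) (nat_lit 76) (XT.lf (nat_lit 76) (nat_lit 5441473593) (nat_lit 0) (nat_lit 7008392702) (nat_lit 836) (nat_lit 14248339313) (nat_lit 150) (nat_lit 5) (nat_lit 149) (nat_lit 5) (nat_lit 160) (nat_lit 5) (nat_lit 441) (nat_lit 436) (nat_lit 323)) (XT.lf (nat_lit 0) (nat_lit 14060579899) (nat_lit 760) (nat_lit 7584440161) (nat_lit 836) (nat_lit 5738553276) (nat_lit 150) (nat_lit 5) (nat_lit 160) (nat_lit 5) (nat_lit 161) (nat_lit 5) (nat_lit 442) (nat_lit 436) (nat_lit 322))))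 (XT.nd (nat_lit 156) (nat_lit 0) (nat_lit 76) (XT.nd (nat_lit 78) (nat_lit 0) (nat_lit 76) (XT.lf (nat_lit 76) (nat_lit 6872122336) (nat_lit 0) (nat_lit 9095998561) (nat_lit 836) (nat_lit 12124274870) (nat_lit 151) (nat_lit 5) (nat_lit 150) (nat_lit 5) (nat_lit 161) (nat_lit 5) (nat_lit 443) (nat_lit 436) (nat_lit 321)) (XT.lf (nat_lit 0) (nat_lit 18159639391) (nat_lit 760) (nat_lit 6585860716) (nat_lit 836) (nat_lit 4081730048) (nat_lit 151) (nat_lit 5) (nat_lit 161) (nat_lit 5) (nat_lit 162) (nat_lit 5) (nat_lit 444) (nat_lit 436) (nat_lit 320))) (XT.nd (nat_lit 78) (nat_lit 0) (nat_lit 76) (XT.lf (nat_lit 76) (nat_lit 8911979780) (nat_lit 0) (nat_lit 11831620190) (nat_lit 836) (nat_lit 8841063803) (nat_lit 152) (nat_lit 5) (nat_lit 151) (nat_lit 5) (nat_lit 162) (nat_lit 5) (nat_lit 445) (nat_lit 436) (nat_lit 319)) (XT.lf (nat_lit 0) (nat_lit 23591912547) (nat_lit 760) (nat_lit 4994460512)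 (nat_lit 76) (nat_lit 1786839094) (nat_lit 152) (nat_lit 5) (nat_lit 162) (nat_lit 5) (nat_lit 153) (nat_lit 5) (nat_lit 446) (nat_lit 436) (nat_lit 318))))) (XT.nd (nat_lit 312) (nat_lit 684) (nat_lit 0) (XT.nd (nat_lit 156) (nat_lit 836) (nat_lit 0) (XT.nd (nat_lit 78) (nat_lit 0) (nat_lit 0) (XT.lf (nat_lit 0) (nat_lit 11641927491) (nat_lit 760) (nat_lit 15311496973) (nat_lit 836) (nat_lit 4229225045) (nat_lit 142) (nat_lit 5) (nat_lit 152) (nat_lit 5) (nat_lit 153) (nat_lit 5) (nat_lit 447) (nat_lit 436) (nat_lit 317)) (XT.lf (nat_lit 0) (nat_lit 29279202205) (nat_lit 760) (nat_lit 1283620655) (nat_lit 836) (nat_lit 1465746034) (nat_lit 142) (nat_lit 5) (nat_lit 152) (nat_lit 5) (nat_lit 153) (nat_lit 5) (nat_lit 448) (nat_lit 436) (nat_lit 316))) (XT.nd (nat_lit 78) (nat_lit 380) (nat_lit 0) (XT.lf (nat_lit 0) (nat_lit 1839147802) (nat_lit 456) (nat_lit 17772109880) (nat_lit 76) (nat_lit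 13281946337) (nat_lit 136) (nat_lit 5) (nat_lit 142) (nat_lit 5) (nat_lit 137) (nat_lit 5) (nat_lit 449) (nat_lit 436) (nat_lit 315)) (XT.lf (nat_lit 0) (nat_lit 135865302) (nat_lit 380) (nat_lit 5190189480) (nat_lit 456) (nat_lit 28470513941) (nat_lit 131) (nat_lit 5) (nat_lit 136) (nat_lit 5) (nat_lit 137) (nat_lit 5) (nat_lit 450) (nat_lit 436) (nat_lit 314)))) (XT.nd (nat_lit 156) (nat_lit 304) (nat_lit 0) (XT.nd (nat_lit 78) (nat_lit 380) (nat_lit 0) (XT.lf (nat_lit 0) (nat_lit 9444279435) (nat_lit 456) (nat_lit 15338697135) (nat_lit 76) (nat_lit 9939277058) (nat_lit 131) (nat_lit 5) (nat_lit 137) (nat_lit 5) (nat_lit 132) (nat_lit 5) (nat_lit 451) (nat_lit 436) (nat_lit 313)) (XT.lf (nat_lit 0) (nat_lit 3935937478) (nat_lit 380) (nat_lit 9974900982) (nat_lit 456) (nat_lit 21776263716) (nat_lit 126) (nat_lit 5) (nat_lit 131) (nat_lit 5) (nat_lit 132) (nat_lit 5) (nat_lit 452) (nat_lit 436)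 (nat_lit 312))) (XT.nd (nat_lit 78) (nat_lit 304) (nat_lit 0) (XT.lf (nat_lit 0) (nat_lit 18947782486) (nat_lit 456) (nat_lit 12076139743) (nat_lit 76) (nat_lit 5658918596) (nat_lit 126) (nat_lit 5) (nat_lit 132) (nat_lit 5) (nat_lit 127) (nat_lit 5) (nat_lit 453) (nat_lit 436) (nat_lit 311)) (XT.lf (nat_lit 0) (nat_lit 8693073678) (nat_lit 304) (nat_lit 15838947306) (nat_lit 380) (nat_lit 13181573561) (nat_lit 122) (nat_lit 5) (nat_lit 126) (nat_lit 5) (nat_lit 127) (nat_lit 5) (nat_lit 454) (nat_lit 436) (nat_lit 310))))))) (XT.nd (nat_lit 1170) (nat_lit 1900) (nat_lit 0) (XT.nd (nat_lit 546) (nat_lit 988) (nat_lit 0) (XT.nd (nat_lit 234) (nat_lit 836) (nat_lit 0) (XT.nd (nat_lit 78) (nat_lit 380) (nat_lit 0) (XT.lf (nat_lit 0) (nat_lit 30601291265) (nat_lit 380) (nat_lit 7875032577) (nat_lit 76) (nat_lit 309271595) (nat_lit 122) (nat_lit 5) (nat_lit 127) (nat_lit 5) (nat_lit 123) (nat_lit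 5) (nat_lit 455) (nat_lit 436) (nat_lit 309)) (XT.nd (nat_lit 78) (nat_lit 76) (nat_lit 0) (XT.lf (nat_lit 0) (nat_lit 14528919907) (nat_lit 304) (nat_lit 22928081200) (nat_lit 380) (nat_lit 2430046918) (nat_lit 118) (nat_lit 5) (nat_lit 122) (nat_lit 5) (nat_lit 123) (nat_lit 5) (nat_lit 456) (nat_lit 436) (nat_lit 308)) (XT.lf (nat_lit 0) (nat_lit 3628403940) (nat_lit 380) (nat_lit 2773229451) (nat_lit 76) (nat_lit 34632516412) (nat_lit 117) (nat_lit 5) (nat_lit 122) (nat_lit 5) (nat_lit 118) (nat_lit 5) (nat_lit 457) (nat_lit 436) (nat_lit 307)))) (XT.nd (nat_lit 156) (nat_lit 228) (nat_lit 0) (XT.nd (nat_lit 78) (nat_lit 304) (nat_lit 0) (XT.lf (nat_lit 0) (nat_lit 10419002600) (nat_lit 380) (nat_lit 20809063159) (nat_lit 76) (nat_lit 10983004923) (nat_lit 113) (nat_lit 5) (nat_lit 118) (nat_lit 5) (nat_lit 114) (nat_lit 5) (nat_lit 458) (nat_lit 436) (nat_lit 306)) (XT.lf (nat_lit 0) (nat_lit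 3438017840) (nat_lit 304) (nat_lit 14314251326) (nat_lit 380) (nat_lit 25684411916) (nat_lit 109) (nat_lit 5) (nat_lit 113) (nat_lit 5) (nat_lit 114) (nat_lit 5) (nat_lit 459) (nat_lit 436) (nat_lit 305))) (XT.nd (nat_lit 78) (nat_lit 228) (nat_lit 0) (XT.lf (nat_lit 0) (nat_lit 25861034214) (nat_lit 380) (nat_lit 15149801417) (nat_lit 76) (nat_lit 3692294970) (nat_lit 109) (nat_lit 5) (nat_lit 114) (nat_lit 5) (nat_lit 110) (nat_lit 5) (nat_lit 460) (nat_lit 436) (nat_lit 304)) (XT.lf (nat_lit 0) (nat_lit 11056748391) (nat_lit 228) (nat_lit 23722781803) (nat_lit 304) (nat_lit 11233158107) (nat_lit 106) (nat_lit 5) (nat_lit 109) (nat_lit 5) (nat_lit 110) (nat_lit 5) (nat_lit 461) (nat_lit 436) (nat_lit 303))))) (XT.nd (nat_lit 312) (nat_lit 456) (nat_lit 0) (XT.nd (nat_lit 156) (nat_lit 228) (nat_lit 0) (XT.nd (nat_lit 78) (nat_lit 304) (nat_lit 0) (XT.lf (nat_lit 0) (nat_lit 39095676535) (nat_lit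 228) (nat_lit 5301931082) (nat_lit 304) (nat_lit 2977433762) (nat_lit 106) (nat_lit 5) (nat_lit 109) (nat_lit 5) (nat_lit 110) (nat_lit 5) (nat_lit 462) (nat_lit 436) (nat_lit 302)) (XT.lf (nat_lit 0) (nat_lit 6048691620) (nat_lit 304) (nat_lit 28723514844) (nat_lit 76) (nat_lit 14001875015) (nat_lit 102) (nat_lit 5) (nat_lit 106) (nat_lit 5) (nat_lit 103) (nat_lit 5) (nat_lit 463) (nat_lit 436) (nat_lit 301))) (XT.nd (nat_lit 78) (nat_lit 228) (nat_lit 0) (XT.lf (nat_lit 0) (nat_lit 15652732541) (nat_lit 304) (nat_lit 293536226) (nat_lit 76) (nat_lit 34283031050) (nat_lit 102) (nat_lit 5) (nat_lit 106) (nat_lit 5) (nat_lit 103) (nat_lit 5) (nat_lit 464) (nat_lit 436) (nat_lit 300)) (XT.lf (nat_lit 0) (nat_lit 26278482018) (nat_lit 304) (nat_lit 21269590490) (nat_lit 76) (nat_lit 4182131504) (nat_lit 99) (nat_lit 5) (nat_lit 103) (nat_lit 5) (nat_lit 100) (nat_lit 5) (nat_lit 465) (nat_lit 436)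 (nat_lit 299)))) (XT.nd (nat_lit 156) (nat_lit 228) (nat_lit 0) (XT.nd (nat_lit 78) (nat_lit 0) (nat_lit 0) (XT.lf (nat_lit 0) (nat_lit 9495424037) (nat_lit 228) (nat_lit 28352234991) (nat_lit 304) (nat_lit 15437887640) (nat_lit 96) (nat_lit 5) (nat_lit 99) (nat_lit 5) (nat_lit 100) (nat_lit 5) (nat_lit 466) (nat_lit 436) (nat_lit 298)) (XT.lf (nat_lit 0) (nat_lit 42533432016) (nat_lit 228) (nat_lit 7819561755) (nat_lit 304) (nat_lit 4547777983) (nat_lit 96) (nat_lit 5) (nat_lit 99) (nat_lit 5) (nat_lit 100) (nat_lit 5) (nat_lit 467) (nat_lit 436) (nat_lit 297))) (XT.nd (nat_lit 78) (nat_lit 0) (nat_lit 0) (XT.lf (nat_lit 0) (nat_lit 7216563155) (nat_lit 228) (nat_lit 35602844944) (nat_lit 76) (nat_lit 13744466683) (nat_lit 93) (nat_lit 5) (nat_lit 96) (nat_lit 5) (nat_lit 94) (nat_lit 5) (nat_lit 468) (nat_lit 436) (nat_lit 296)) (XT.lf (nat_lit 0) (nat_lit 19754966807) (nat_lit 228) (nat_lit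 2124290409) (nat_lit 76) (nat_lit 36410214236) (nat_lit 93) (nat_lit 5) (nat_lit 96) (nat_lit 5) (nat_lit 94) (nat_lit 5) (nat_lit 469) (nat_lit 436) (nat_lit 295)))))) (XT.nd (nat_lit 624) (nat_lit 836) (nat_lit 0) (XT.nd (nat_lit 312) (nat_lit 380) (nat_lit 0) (XT.nd (nat_lit 156) (nat_lit 304) (nat_lit 0) (XT.nd (nat_lit 78) (nat_lit 152) (nat_lit 0) (XT.lf (nat_lit 0) (nat_lit 33461070138) (nat_lit 304) (nat_lit 25968552529) (nat_lit 76) (nat_lit 644686513) (nat_lit 90) (nat_lit 5) (nat_lit 94) (nat_lit 5) (nat_lit 91) (nat_lit 5) (nat_lit 470) (nat_lit 436) (nat_lit 294)) (XT.lf (nat_lit 0) (nat_lit 10239425496) (nat_lit 152) (nat_lit 38165922306) (nat_lit 228) (nat_lit 13515397723) (nat_lit 88) (nat_lit 5) (nat_lit 90) (nat_lit 5) (nat_lit 91) (nat_lit 5) (nat_lit 471) (nat_lit 436) (nat_lit 293))) (XT.nd (nat_lit 78) (nat_lit 228) (nat_lit 0) (XT.lf (nat_lit 0) (nat_lit 674516981) (nat_lit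 228) (nat_lit 14692575171) (nat_lit 76) (nat_lit 48469987556) (nat_lit 87) (nat_lit 5) (nat_lit 90) (nat_lit 5) (nat_lit 88) (nat_lit 5) (nat_lit 472) (nat_lit 436) (nat_lit 292)) (XT.lf (nat_lit 0) (nat_lit 15647188490) (nat_lit 304) (nat_lit 41251114338) (nat_lit 76) (nat_lit 8913476387) (nat_lit 84) (nat_lit 5) (nat_lit 88) (nat_lit 5) (nat_lit 85) (nat_lit 5) (nat_lit 473) (nat_lit 436) (nat_lit 291)))) (XT.nd (nat_lit 156) (nat_lit 228) (nat_lit 0) (XT.nd (nat_lit 78) (nat_lit 152) (nat_lit 0) (XT.lf (nat_lit 0) (nat_lit 31871231907) (nat_lit 304) (nat_lit 1845491629) (nat_lit 76) (nat_lit 34143353401) (nat_lit 84) (nat_lit 5) (nat_lit 88) (nat_lit 5) (nat_lit 85) (nat_lit 5) (nat_lit 474) (nat_lit 436) (nat_lit 290)) (XT.lf (nat_lit 0) (nat_lit 40834140161) (nat_lit 152) (nat_lit 8707885848) (nat_lit 228) (nat_lit 20436986259) (nat_lit 82) (nat_lit 5) (nat_lit 84) (nat_lit 5) (nat_lit 85)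 (nat_lit 5) (nat_lit 475) (nat_lit 436) (nat_lit 289))) (XT.nd (nat_lit 78) (nat_lit 76) (nat_lit 0) (XT.lf (nat_lit 0) (nat_lit 13669208717) (nat_lit 152) (nat_lit 54944398025) (nat_lit 228) (nat_lit 3564425419) (nat_lit 80) (nat_lit 5) (nat_lit 82) (nat_lit 5) (nat_lit 83) (nat_lit 5) (nat_lit 476) (nat_lit 436) (nat_lit 288)) (XT.lf (nat_lit 0) (nat_lit 14341296026) (nat_lit 228) (nat_lit 15201536549) (nat_lit 76) (nat_lit 44900999299) (nat_lit 79) (nat_lit 5) (nat_lit 82) (nat_lit 5) (nat_lit 80) (nat_lit 5) (nat_lit 477) (nat_lit 436) (nat_lit 287))))) (XT.nd (nat_lit 312) (nat_lit 304) (nat_lit 0) (XT.nd (nat_lit 156) (nat_lit 228) (nat_lit 0) (XT.nd (nat_lit 78) (nat_lit 152) (nat_lit 0) (XT.lf (nat_lit 0) (nat_lit 31208443803) (nat_lit 152) (nat_lit 2299466867) (nat_lit 228) (nat_lit 43287819604) (nat_lit 77) (nat_lit 5) (nat_lit 79) (nat_lit 5) (nat_lit 80) (nat_lit 5) (nat_lit 478)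 (nat_lit 436) (nat_lit 286)) (XT.lf (nat_lit 0) (nat_lit 822607287) (nat_lit 152) (nat_lit 53493634515) (nat_lit 228) (nat_lit 24914812620) (nat_lit 75) (nat_lit 5) (nat_lit 77) (nat_lit 5) (nat_lit 78) (nat_lit 5) (nat_lit 479) (nat_lit 436) (nat_lit 285))) (XT.nd (nat_lit 78) (nat_lit 228) (nat_lit 0) (XT.lf (nat_lit 0) (nat_lit 51093666882) (nat_lit 152) (nat_lit 25878658239) (nat_lit 228) (nat_lit 4775452986) (nat_lit 75) (nat_lit 5) (nat_lit 77) (nat_lit 5) (nat_lit 78) (nat_lit 5) (nat_lit 480) (nat_lit 436) (nat_lit 284)) (XT.lf (nat_lit 0) (nat_lit 16213238653) (nat_lit 228) (nat_lit 64554888203) (nat_lit 76) (nat_lit 3591114747) (nat_lit 72) (nat_lit 5) (nat_lit 75) (nat_lit 5) (nat_lit 73) (nat_lit 5) (nat_lit 481) (nat_lit 436) (nat_lit 283)))) (XT.nd (nat_lit 156) (nat_lit 152) (nat_lit 0) (XT.nd (nat_lit 78) (nat_lit 152) (nat_lit 0) (XT.lf (nat_lit 0) (nat_lit 39041051041) (nat_lit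 228) (nat_lit 13739378131) (nat_lit 76) (nat_lit 34269426256) (nat_lit 72) (nat_lit 5) (nat_lit 75) (nat_lit 5) (nat_lit 73) (nat_lit 5) (nat_lit 482) (nat_lit 436) (nat_lit 282)) (XT.lf (nat_lit 0) (nat_lit 40923866945) (nat_lit 152) (nat_lit 22723684943) (nat_lit 228) (nat_lit 26195583255) (nat_lit 70) (nat_lit 5) (nat_lit 72) (nat_lit 5) (nat_lit 73) (nat_lit 5) (nat_lit 483) (nat_lit 436) (nat_lit 281))) (XT.nd (nat_lit 78) (nat_lit 76) (nat_lit 0) (XT.lf (nat_lit 0) (nat_lit 6082877127) (nat_lit 76) (nat_lit 83869298806) (nat_lit 152) (nat_lit 2800513090) (nat_lit 69) (nat_lit 5) (nat_lit 70) (nat_lit 5) (nat_lit 71) (nat_lit 4) (nat_lit 484) (nat_lit 436) (nat_lit 280)) (XT.lf (nat_lit 0) (nat_lit 22280672907) (nat_lit 152) (nat_lit 30961585838) (nat_lit 76) (nat_lit 42487824027) (nat_lit 68) (nat_lit 5) (nat_lit 70) (nat_lit 5) (nat_lit 69) (nat_lit 5) (nat_lit 485) (nat_lit 436) (nat_lit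 279))))))))
noncomputable def xc171 : XT := (XT.nd (nat_lit 2418) (nat_lit 1672) (nat_lit 0) (XT.nd (nat_lit 1170) (nat_lit 988) (nat_lit 0) (XT.nd (nat_lit 546) (nat_lit 684) (nat_lit 0) (XT.nd (nat_lit 234) (nat_lit 304) (nat_lit 0) (XT.nd (nat_lit 78) (nat_lit 152) (nat_lit 0) (XT.lf (nat_lit 0) (nat_lit 28392121670) (nat_lit 152) (nat_lit 20571422261) (nat_lit 228) (nat_lit 49868419784) (nat_lit 66) (nat_lit 5) (nat_lit 68) (nat_lit 5) (nat_lit 69) (nat_lit 5) (nat_lit 486) (nat_lit 436) (nat_lit 278)) (XT.nd (nat_lit 78) (nat_lit 152) (nat_lit 0) (XT.lf (nat_lit 0) (nat_lit 77726387025) (nat_lit 228) (nat_lit 10500053744) (nat_lit 76) (nat_lit 13825206582) (nat_lit 66) (nat_lit 5) (nat_lit 69) (nat_lit 5) (nat_lit 67) (nat_lit 4) (nat_lit 487) (nat_lit 436) (nat_lit 277)) (XT.lf (nat_lit 0) (nat_lit 3610533551) (nat_lit 152) (nat_lit 51612328155) (nat_lit 76) (nat_lit 50147739091) (nat_lit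 64) (nat_lit 5) (nat_lit 66) (nat_lit 5) (nat_lit 65) (nat_lit 5) (nat_lit 488) (nat_lit 436) (nat_lit 276)))) (XT.nd (nat_lit 156) (nat_lit 152) (nat_lit 0) (XT.nd (nat_lit 78) (nat_lit 0) (nat_lit 0) (XT.lf (nat_lit 0) (nat_lit 12751240312) (nat_lit 152) (nat_lit 19752761212) (nat_lit 228) (nat_lit 76312643085) (nat_lit 62) (nat_lit 5) (nat_lit 64) (nat_lit 5) (nat_lit 65) (nat_lit 5) (nat_lit 489) (nat_lit 436) (nat_lit 275)) (XT.lf (nat_lit 0) (nat_lit 64002194644) (nat_lit 228) (nat_lit 30556488430) (nat_lit 76) (nat_lit 17818305007) (nat_lit 62) (nat_lit 5) (nat_lit 65) (nat_lit 5) (nat_lit 63) (nat_lit 4) (nat_lit 490) (nat_lit 436) (nat_lit 274))) (XT.nd (nat_lit 78) (nat_lit 76) (nat_lit 0) (XT.lf (nat_lit 0) (nat_lit 39154737181) (nat_lit 76) (nat_lit 58854321386) (nat_lit 152) (nat_lit 18059602156) (nat_lit 61) (nat_lit 5) (nat_lit 62) (nat_lit 5) (nat_lit 63) (nat_lit 4) (nat_lit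 491) (nat_lit 436) (nat_lit 273)) (XT.lf (nat_lit 0) (nat_lit 13855186582) (nat_lit 152) (nat_lit 6732679986) (nat_lit 76) (nat_lit 99320069663) (nat_lit 60) (nat_lit 5) (nat_lit 62) (nat_lit 5) (nat_lit 61) (nat_lit 5) (nat_lit 492) (nat_lit 436) (nat_lit 272))))) (XT.nd (nat_lit 312) (nat_lit 228) (nat_lit 0) (XT.nd (nat_lit 156) (nat_lit 228) (nat_lit 0) (XT.nd (nat_lit 78) (nat_lit 76) (nat_lit 0) (XT.lf (nat_lit 0) (nat_lit 48160987519) (nat_lit 228) (nat_lit 55335807692) (nat_lit 76) (nat_lit 20357467707) (nat_lit 58) (nat_lit 5) (nat_lit 61) (nat_lit 5) (nat_lit 59) (nat_lit 4) (nat_lit 493) (nat_lit 436) (nat_lit 271)) (XT.lf (nat_lit 0) (nat_lit 20074407902) (nat_lit 76) (nat_lit 64873192563) (nat_lit 152) (nat_lit 43012029422) (nat_lit 57) (nat_lit 5) (nat_lit 58) (nat_lit 5) (nat_lit 59) (nat_lit 4) (nat_lit 494) (nat_lit 436) (nat_lit 270))) (XT.nd (nat_lit 78) (nat_lit 228) (nat_lit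 0) (XT.lf (nat_lit 0) (nat_lit 101173898348) (nat_lit 76) (nat_lit 23335516711) (nat_lit 152) (nat_lit 7714056640) (nat_lit 57) (nat_lit 5) (nat_lit 58) (nat_lit 5) (nat_lit 59) (nat_lit 4) (nat_lit 495) (nat_lit 436) (nat_lit 269)) (XT.lf (nat_lit 0) (nat_lit 29538372016) (nat_lit 228) (nat_lit 86182076253) (nat_lit 76) (nat_lit 20900701380) (nat_lit 54) (nat_lit 5) (nat_lit 57) (nat_lit 5) (nat_lit 55) (nat_lit 4) (nat_lit 496) (nat_lit 436) (nat_lit 268)))) (XT.nd (nat_lit 156) (nat_lit 152) (nat_lit 0) (XT.nd (nat_lit 78) (nat_lit 76) (nat_lit 0) (XT.lf (nat_lit 0) (nat_lit 69309968032) (nat_lit 228) (nat_lit 4652230321) (nat_lit 76) (nat_lit 67224400743) (nat_lit 54) (nat_lit 5) (nat_lit 57) (nat_lit 5) (nat_lit 55) (nat_lit 4) (nat_lit 497) (nat_lit 436) (nat_lit 267)) (XT.lf (nat_lit 0) (nat_lit 83628548845) (nat_lit 76) (nat_lit 28746108630) (nat_lit 152) (nat_lit 33540437895) (nat_lit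 53) (nat_lit 5) (nat_lit 54) (nat_lit 5) (nat_lit 55) (nat_lit 4) (nat_lit 498) (nat_lit 436) (nat_lit 266))) (XT.nd (nat_lit 78) (nat_lit 0) (nat_lit 0) (XT.lf (nat_lit 0) (nat_lit 7290136708) (nat_lit 152) (nat_lit 124808787202) (nat_lit 76) (nat_lit 18736231693) (nat_lit 51) (nat_lit 5) (nat_lit 53) (nat_lit 5) (nat_lit 52) (nat_lit 4) (nat_lit 499) (nat_lit 436) (nat_lit 265)) (XT.lf (nat_lit 0) (nat_lit 50577300519) (nat_lit 152) (nat_lit 36071685835) (nat_lit 76) (nat_lit 69247628408) (nat_lit 51) (nat_lit 5) (nat_lit 53) (nat_lit 5) (nat_lit 52) (nat_lit 4) (nat_lit 500) (nat_lit 436) (nat_lit 264)))))) (XT.nd (nat_lit 624) (nat_lit 456) (nat_lit 0) (XT.nd (nat_lit 312) (nat_lit 228) (nat_lit 0) (XT.nd (nat_lit 156) (nat_lit 228) (nat_lit 0) (XT.nd (nat_lit 78) (nat_lit 0) (nat_lit 0) (XT.lf (nat_lit 0) (nat_lit 58988161731) (nat_lit 76) (nat_lit 37960532232) (nat_lit 152) (nat_lit 64216459373)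 (nat_lit 50) (nat_lit 5) (nat_lit 51) (nat_lit 5) (nat_lit 52) (nat_lit 4) (nat_lit 501) (nat_lit 436) (nat_lit 263)) (XT.lf (nat_lit 0) (nat_lit 146463969873) (nat_lit 152) (nat_lit 6830863986) (nat_lit 0) (nat_lit 13361019367) (nat_lit 50) (nat_lit 5) (nat_lit 52) (nat_lit 4) (nat_lit 50) (nat_lit 4) (nat_lit 502) (nat_lit 436) (nat_lit 262))) (XT.nd (nat_lit 78) (nat_lit 76) (nat_lit 0) (XT.lf (nat_lit 0) (nat_lit 27351107463) (nat_lit 152) (nat_lit 77034483732) (nat_lit 76) (nat_lit 67907652116) (nat_lit 48) (nat_lit 5) (nat_lit 50) (nat_lit 5) (nat_lit 49) (nat_lit 4) (nat_lit 503) (nat_lit 436) (nat_lit 261)) (XT.lf (nat_lit 0) (nat_lit 24946836279) (nat_lit 76) (nat_lit 52151862142) (nat_lit 152) (nat_lit 101071952265) (nat_lit 47) (nat_lit 5) (nat_lit 48) (nat_lit 5) (nat_lit 49) (nat_lit 4) (nat_lit 504) (nat_lit 436) (nat_lit 260)))) (XT.nd (nat_lit 156) (nat_lit 152) (nat_lit 0) (XT.nd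 (nat_lit 78) (nat_lit 76) (nat_lit 0) (XT.lf (nat_lit 0) (nat_lit 130700689944) (nat_lit 152) (nat_lit 49640462104) (nat_lit 0) (nat_lit 3932425352) (nat_lit 47) (nat_lit 5) (nat_lit 49) (nat_lit 4) (nat_lit 47) (nat_lit 4) (nat_lit 505) (nat_lit 436) (nat_lit 259)) (XT.lf (nat_lit 0) (nat_lit 60191706393) (nat_lit 76) (nat_lit 128584797473) (nat_lit 76) (nat_lit 1815460467) (nat_lit 46) (nat_lit 4) (nat_lit 47) (nat_lit 5) (nat_lit 47) (nat_lit 4) (nat_lit 506) (nat_lit 436) (nat_lit 258))) (XT.nd (nat_lit 78) (nat_lit 76) (nat_lit 0) (XT.lf (nat_lit 0) (nat_lit 51702036711) (nat_lit 152) (nat_lit 20781183094) (nat_lit 76) (nat_lit 124659369842) (nat_lit 45) (nat_lit 5) (nat_lit 47) (nat_lit 5) (nat_lit 46) (nat_lit 4) (nat_lit 507) (nat_lit 436) (nat_lit 257)) (XT.lf (nat_lit 0) (nat_lit 97404822562) (nat_lit 76) (nat_lit 11949398718) (nat_lit 152) (nat_lit 94589045688) (nat_lit 44) (nat_lit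 5) (nat_lit 45) (nat_lit 5) (nat_lit 46) (nat_lit 4) (nat_lit 508) (nat_lit 436) (nat_lit 256))))) (XT.nd (nat_lit 312) (nat_lit 228) (nat_lit 0) (XT.nd (nat_lit 156) (nat_lit 76) (nat_lit 0) (XT.nd (nat_lit 78) (nat_lit 76) (nat_lit 0) (XT.lf (nat_lit 0) (nat_lit 10683780169) (nat_lit 76) (nat_lit 160534606362) (nat_lit 76) (nat_lit 39799123071) (nat_lit 43) (nat_lit 4) (nat_lit 44) (nat_lit 5) (nat_lit 44) (nat_lit 4) (nat_lit 509) (nat_lit 436) (nat_lit 255)) (XT.lf (nat_lit 0) (nat_lit 19191631824) (nat_lit 152) (nat_lit 81393478314) (nat_lit 76) (nat_lit 117745072447) (nat_lit 42) (nat_lit 5) (nat_lit 44) (nat_lit 5) (nat_lit 43) (nat_lit 4) (nat_lit 510) (nat_lit 436) (nat_lit 254))) (XT.nd (nat_lit 78) (nat_lit 0) (nat_lit 0) (XT.lf (nat_lit 0) (nat_lit 44256070016) (nat_lit 76) (nat_lit 36228414775) (nat_lit 152) (nat_lit 145456878619) (nat_lit 41) (nat_lit 5) (nat_lit 42) (nat_lit 5)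 (nat_lit 43) (nat_lit 4) (nat_lit 511) (nat_lit 436) (nat_lit 253)) (XT.lf (nat_lit 0) (nat_lit 146731529456) (nat_lit 152) (nat_lit 55364029738) (nat_lit 0) (nat_lit 31743066645) (nat_lit 41) (nat_lit 5) (nat_lit 43) (nat_lit 4) (nat_lit 41) (nat_lit 4) (nat_lit 512) (nat_lit 436) (nat_lit 252)))) (XT.nd (nat_lit 156) (nat_lit 76) (nat_lit 0) (XT.nd (nat_lit 78) (nat_lit 76) (nat_lit 0) (XT.lf (nat_lit 0) (nat_lit 79213039827) (nat_lit 76) (nat_lit 138907687805) (nat_lit 76) (nat_lit 23918533707) (nat_lit 40) (nat_lit 4) (nat_lit 41) (nat_lit 5) (nat_lit 41) (nat_lit 4) (nat_lit 513) (nat_lit 436) (nat_lit 251)) (XT.lf (nat_lit 0) (nat_lit 42023593282) (nat_lit 152) (nat_lit 28841446237) (nat_lit 76) (nat_lit 179704159782) (nat_lit 39) (nat_lit 5) (nat_lit 41) (nat_lit 5) (nat_lit 40) (nat_lit 4) (nat_lit 514) (nat_lit 436) (nat_lit 250))) (XT.nd (nat_lit 78) (nat_lit 0) (nat_lit 0) (XT.lf (nat_lit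 0) (nat_lit 112300701593) (nat_lit 152) (nat_lit 144327245177) (nat_lit 0) (nat_lit 2785997321) (nat_lit 38) (nat_lit 5) (nat_lit 40) (nat_lit 4) (nat_lit 38) (nat_lit 4) (nat_lit 515) (nat_lit 436) (nat_lit 249)) (XT.lf (nat_lit 0) (nat_lit 187749036921) (nat_lit 152) (nat_lit 2635256708) (nat_lit 0) (nat_lit 78233763924) (nat_lit 38) (nat_lit 5) (nat_lit 40) (nat_lit 4) (nat_lit 38) (nat_lit 4) (nat_lit 516) (nat_lit 436) (nat_lit 248))))))) (XT.nd (nat_lit 1248) (nat_lit 684) (nat_lit 0) (XT.nd (nat_lit 624) (nat_lit 456) (nat_lit 0) (XT.nd (nat_lit 312) (nat_lit 228) (nat_lit 0) (XT.nd (nat_lit 156) (nat_lit 76) (nat_lit 0) (XT.nd (nat_lit 78) (nat_lit 152) (nat_lit 0) (XT.lf (nat_lit 0) (nat_lit 150971864392) (nat_lit 76) (nat_lit 118354255208) (nat_lit 76) (nat_lit 8838440569) (nat_lit 37) (nat_lit 4) (nat_lit 38) (nat_lit 5) (nat_lit 38) (nat_lit 4) (nat_lit 517) (nat_lit 436) (nat_lit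 247)) (XT.lf (nat_lit 0) (nat_lit 23884035400) (nat_lit 76) (nat_lit 41189313813) (nat_lit 152) (nat_lit 223042022133) (nat_lit 35) (nat_lit 5) (nat_lit 36) (nat_lit 5) (nat_lit 37) (nat_lit 4) (nat_lit 518) (nat_lit 436) (nat_lit 246))) (XT.nd (nat_lit 78) (nat_lit 76) (nat_lit 0) (XT.lf (nat_lit 0) (nat_lit 145194238964) (nat_lit 152) (nat_lit 112329208560) (nat_lit 0) (nat_lit 40892503942) (nat_lit 35) (nat_lit 5) (nat_lit 37) (nat_lit 4) (nat_lit 35) (nat_lit 4) (nat_lit 519) (nat_lit 436) (nat_lit 245)) (XT.lf (nat_lit 0) (nat_lit 48028564759) (nat_lit 76) (nat_lit 182716978974) (nat_lit 76) (nat_lit 78414798342) (nat_lit 34) (nat_lit 4) (nat_lit 35) (nat_lit 5) (nat_lit 35) (nat_lit 4) (nat_lit 520) (nat_lit 436) (nat_lit 244)))) (XT.nd (nat_lit 156) (nat_lit 76) (nat_lit 0) (XT.nd (nat_lit 78) (nat_lit 76) (nat_lit 0) (XT.lf (nat_lit 0) (nat_lit 2061033574) (nat_lit 152) (nat_lit 100077486195)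 (nat_lit 76) (nat_lit 218206688468) (nat_lit 33) (nat_lit 5) (nat_lit 35) (nat_lit 5) (nat_lit 34) (nat_lit 4) (nat_lit 521) (nat_lit 436) (nat_lit 243)) (XT.lf (nat_lit 0) (nat_lit 69982537304) (nat_lit 76) (nat_lit 15034802455) (nat_lit 152) (nat_lit 246953106825) (nat_lit 32) (nat_lit 5) (nat_lit 33) (nat_lit 5) (nat_lit 34) (nat_lit 4) (nat_lit 522) (nat_lit 436) (nat_lit 242))) (XT.nd (nat_lit 78) (nat_lit 76) (nat_lit 0) (XT.lf (nat_lit 0) (nat_lit 175036612722) (nat_lit 152) (nat_lit 93294529686) (nat_lit 0) (nat_lit 75700046875) (nat_lit 32) (nat_lit 5) (nat_lit 34) (nat_lit 4) (nat_lit 32) (nat_lit 4) (nat_lit 523) (nat_lit 436) (nat_lit 241)) (XT.lf (nat_lit 0) (nat_lit 86349460924) (nat_lit 76) (nat_lit 184801362251) (nat_lit 76) (nat_lit 85464447257) (nat_lit 31) (nat_lit 4) (nat_lit 32) (nat_lit 5) (nat_lit 32) (nat_lit 4) (nat_lit 524) (nat_lit 436) (nat_lit 240))))) (XT.nd (nat_lit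 312) (nat_lit 228) (nat_lit 0) (XT.nd (nat_lit 156) (nat_lit 76) (nat_lit 0) (XT.nd (nat_lit 78) (nat_lit 76) (nat_lit 0) (XT.lf (nat_lit 0) (nat_lit 3775659067) (nat_lit 152) (nat_lit 91597146427) (nat_lit 76) (nat_lit 274373738079) (nat_lit 30) (nat_lit 5) (nat_lit 32) (nat_lit 5) (nat_lit 31) (nat_lit 4) (nat_lit 525) (nat_lit 436) (nat_lit 239)) (XT.lf (nat_lit 0) (nat_lit 96155807815) (nat_lit 152) (nat_lit 285682405776) (nat_lit 0) (nat_lit 1548603813) (nat_lit 29) (nat_lit 5) (nat_lit 31) (nat_lit 4) (nat_lit 29) (nat_lit 4) (nat_lit 526) (nat_lit 436) (nat_lit 238))) (XT.nd (nat_lit 78) (nat_lit 76) (nat_lit 0) (XT.lf (nat_lit 0) (nat_lit 196294502125) (nat_lit 152) (nat_lit 99570615021) (nat_lit 0) (nat_lit 101687010879) (nat_lit 29) (nat_lit 5) (nat_lit 31) (nat_lit 4) (nat_lit 29) (nat_lit 4) (nat_lit 527) (nat_lit 436) (nat_lit 237)) (XT.lf (nat_lit 0) (nat_lit 99014665238) (nat_lit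 76) (nat_lit 203970769294) (nat_lit 76) (nat_lit 109363004482) (nat_lit 28) (nat_lit 4) (nat_lit 29) (nat_lit 5) (nat_lit 29) (nat_lit 4) (nat_lit 528) (nat_lit 436) (nat_lit 236)))) (XT.nd (nat_lit 156) (nat_lit 76) (nat_lit 0) (XT.nd (nat_lit 78) (nat_lit 152) (nat_lit 0) (XT.lf (nat_lit 0) (nat_lit 310984907906) (nat_lit 76) (nat_lit 105711699165) (nat_lit 76) (nat_lit 11103673814) (nat_lit 28) (nat_lit 4) (nat_lit 29) (nat_lit 5) (nat_lit 29) (nat_lit 4) (nat_lit 529) (nat_lit 436) (nat_lit 235)) (XT.lf (nat_lit 0) (nat_lit 90549296893) (nat_lit 152) (nat_lit 352885993986) (nat_lit 0) (nat_lit 446179289) (nat_lit 26) (nat_lit 5) (nat_lit 28) (nat_lit 4) (nat_lit 26) (nat_lit 4) (nat_lit 530) (nat_lit 436) (nat_lit 234))) (XT.nd (nat_lit 78) (nat_lit 76) (nat_lit 0) (XT.lf (nat_lit 0) (nat_lit 200654931375) (nat_lit 152) (nat_lit 149363938892) (nat_lit 0) (nat_lit 110551588708) (nat_lit 26)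 (nat_lit 5) (nat_lit 28) (nat_lit 4) (nat_lit 26) (nat_lit 4) (nat_lit 531) (nat_lit 436) (nat_lit 233)) (XT.lf (nat_lit 0) (nat_lit 66460284716) (nat_lit 76) (nat_lit 250842657398) (nat_lit 76) (nat_lit 160739100385) (nat_lit 25) (nat_lit 4) (nat_lit 26) (nat_lit 5) (nat_lit 26) (nat_lit 4) (nat_lit 532) (nat_lit 436) (nat_lit 232)))))) (XT.nd (nat_lit 624) (nat_lit 304) (nat_lit 0) (XT.nd (nat_lit 312) (nat_lit 228) (nat_lit 0) (XT.nd (nat_lit 156) (nat_lit 0) (nat_lit 0) (XT.nd (nat_lit 78) (nat_lit 152) (nat_lit 0) (XT.lf (nat_lit 0) (nat_lit 298260237181) (nat_lit 76) (nat_lit 144052139018) (nat_lit 76) (nat_lit 53948377866) (nat_lit 25) (nat_lit 4) (nat_lit 26) (nat_lit 5) (nat_lit 26) (nat_lit 4) (nat_lit 533) (nat_lit 436) (nat_lit 231)) (XT.lf (nat_lit 0) (nat_lit 26188574396) (nat_lit 76) (nat_lit 30539489001) (nat_lit 152) (nat_lit 458596500395) (nat_lit 23) (nat_lit 5) (nat_lit 24)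 (nat_lit 5) (nat_lit 25) (nat_lit 4) (nat_lit 534) (nat_lit 436) (nat_lit 230))) (XT.nd (nat_lit 78) (nat_lit 0) (nat_lit 0) (XT.lf (nat_lit 0) (nat_lit 175917058917) (nat_lit 152) (nat_lit 269037105983) (nat_lit 0) (nat_lit 90103591555) (nat_lit 23) (nat_lit 5) (nat_lit 25) (nat_lit 4) (nat_lit 23) (nat_lit 4) (nat_lit 535) (nat_lit 436) (nat_lit 229)) (XT.lf (nat_lit 0) (nat_lit 301565665597) (nat_lit 152) (nat_lit 38434904801) (nat_lit 0) (nat_lit 215752030289) (nat_lit 23) (nat_lit 5) (nat_lit 25) (nat_lit 4) (nat_lit 23) (nat_lit 4) (nat_lit 536) (nat_lit 436) (nat_lit 228)))) (XT.nd (nat_lit 156) (nat_lit 152) (nat_lit 0) (XT.nd (nat_lit 78) (nat_lit 0) (nat_lit 0) (XT.lf (nat_lit 0) (nat_lit 210431599370) (nat_lit 76) (nat_lit 226350067405) (nat_lit 76) (nat_lit 140536272149) (nat_lit 22) (nat_lit 4) (nat_lit 23) (nat_lit 5) (nat_lit 23) (nat_lit 4) (nat_lit 537) (nat_lit 436) (nat_lit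 227)) (XT.lf (nat_lit 0) (nat_lit 473074884476) (nat_lit 76) (nat_lit 106334042130) (nat_lit 76) (nat_lit 20520094542) (nat_lit 22) (nat_lit 4) (nat_lit 23) (nat_lit 5) (nat_lit 23) (nat_lit 4) (nat_lit 538) (nat_lit 436) (nat_lit 226))) (XT.nd (nat_lit 78) (nat_lit 0) (nat_lit 0) (XT.lf (nat_lit 0) (nat_lit 104479299723) (nat_lit 152) (nat_lit 496239461875) (nat_lit 0) (nat_lit 22751592422) (nat_lit 20) (nat_lit 5) (nat_lit 22) (nat_lit 4) (nat_lit 20) (nat_lit 4) (nat_lit 539) (nat_lit 436) (nat_lit 225)) (XT.lf (nat_lit 0) (nat_lit 238965349697) (nat_lit 152) (nat_lit 251772758500) (nat_lit 0) (nat_lit 157237510806) (nat_lit 20) (nat_lit 5) (nat_lit 22) (nat_lit 4) (nat_lit 20) (nat_lit 4) (nat_lit 540) (nat_lit 436) (nat_lit 224))))) (XT.nd (nat_lit 312) (nat_lit 76) (nat_lit 0) (XT.nd (nat_lit 156) (nat_lit 152) (nat_lit 0) (XT.nd (nat_lit 78) (nat_lit 0) (nat_lit 0) (XT.lf (nat_lit 0) (nat_lit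 5078993141) (nat_lit 76) (nat_lit 375175587201) (nat_lit 76) (nat_lit 293447622986) (nat_lit 19) (nat_lit 4) (nat_lit 20) (nat_lit 5) (nat_lit 20) (nat_lit 4) (nat_lit 541) (nat_lit 436) (nat_lit 223)) (XT.lf (nat_lit 0) (nat_lit 283513481271) (nat_lit 76) (nat_lit 249358272554) (nat_lit 76) (nat_lit 167630188983) (nat_lit 19) (nat_lit 4) (nat_lit 20) (nat_lit 5) (nat_lit 20) (nat_lit 4) (nat_lit 542) (nat_lit 436) (nat_lit 222))) (XT.nd (nat_lit 78) (nat_lit 152) (nat_lit 0) (XT.lf (nat_lit 0) (nat_lit 575868900713) (nat_lit 76) (nat_lit 117250492711) (nat_lit 76) (nat_lit 35522295468) (nat_lit 19) (nat_lit 4) (nat_lit 20) (nat_lit 5) (nat_lit 20) (nat_lit 4) (nat_lit 543) (nat_lit 436) (nat_lit 221)) (XT.lf (nat_lit 0) (nat_lit 102266433165) (nat_lit 152) (nat_lit 631292572519) (nat_lit 0) (nat_lit 24429951735) (nat_lit 17) (nat_lit 5) (nat_lit 19) (nat_lit 4) (nat_lit 17) (nat_lit 4) (nat_lit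 544) (nat_lit 436) (nat_lit 220)))) (XT.nd (nat_lit 156) (nat_lit 76) (nat_lit 0) (XT.nd (nat_lit 78) (nat_lit 0) (nat_lit 0) (XT.lf (nat_lit 0) (nat_lit 250302271272) (nat_lit 152) (nat_lit 365778937066) (nat_lit 0) (nat_lit 172465691647) (nat_lit 17) (nat_lit 5) (nat_lit 19) (nat_lit 4) (nat_lit 17) (nat_lit 4) (nat_lit 545) (nat_lit 436) (nat_lit 219)) (XT.lf (nat_lit 0) (nat_lit 405739539705) (nat_lit 152) (nat_lit 86990351493) (nat_lit 0) (nat_lit 327902866561) (nat_lit 17) (nat_lit 5) (nat_lit 19) (nat_lit 4) (nat_lit 17) (nat_lit 4) (nat_lit 546) (nat_lit 436) (nat_lit 218))) (XT.nd (nat_lit 53898) (nat_lit 0) (nat_lit 9956) (XT.lf (nat_lit 0) (nat_lit 212539559794) (nat_lit 76) (nat_lit 359727105574) (nat_lit 76) (nat_lit 281890343365) (nat_lit 16) (nat_lit 4) (nat_lit 17) (nat_lit 5) (nat_lit 17) (nat_lit 4) (nat_lit 547) (nat_lit 436) (nat_lit 217)) (XT.lf (nat_lit 0) (nat_lit 4408589852)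 (nat_lit 836) (nat_lit 3986728769) (nat_lit 836) (nat_lit 3986728769) (nat_lit 147) (nat_lit 3) (nat_lit 158) (nat_lit 3) (nat_lit 158) (nat_lit 5) (nat_lit 437) (nat_lit 437) (nat_lit 326))))))))
noncomputable def xc172 : XT := (XT.nd (nat_lit 2418) (nat_lit 3268) (nat_lit 0) (XT.nd (nat_lit 1170) (nat_lit 2660) (nat_lit 0) (XT.nd (nat_lit 546) (nat_lit 1216) (nat_lit 0) (XT.nd (nat_lit 234) (nat_lit 0) (nat_lit 152) (XT.nd (nat_lit 78) (nat_lit 0) (nat_lit 76) (XT.lf (nat_lit 76) (nat_lit 4450933277) (nat_lit 0) (nat_lit 4761605827) (nat_lit 836) (nat_lit 16161895242) (nat_lit 148) (nat_lit 5) (nat_lit 147) (nat_lit 3) (nat_lit 158) (nat_lit 5) (nat_lit 438) (nat_lit 437) (nat_lit 325)) (XT.nd (nat_lit 78) (nat_lit 0) (nat_lit 0) (XT.lf (nat_lit 0) (nat_lit 9881012316) (nat_lit 760) (nat_lit 8364295601) (nat_lit 836) (nat_lit 7757316726) (nat_lit 148) (nat_lit 5) (nat_lit 158) (nat_lit 5) (nat_lit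 159) (nat_lit 5) (nat_lit 439) (nat_lit 437) (nat_lit 324)) (XT.lf (nat_lit 76) (nat_lit 4897709657) (nat_lit 0) (nat_lit 5833289973) (nat_lit 836) (nat_lit 15923821295) (nat_lit 149) (nat_lit 5) (nat_lit 148) (nat_lit 5) (nat_lit 159) (nat_lit 5) (nat_lit 440) (nat_lit 437) (nat_lit 323)))) (XT.nd (nat_lit 156) (nat_lit 0) (nat_lit 76) (XT.nd (nat_lit 78) (nat_lit 0) (nat_lit 0) (XT.lf (nat_lit 0) (nat_lit 11873712482) (nat_lit 760) (nat_lit 8338207750) (nat_lit 836) (nat_lit 7115196429) (nat_lit 149) (nat_lit 5) (nat_lit 159) (nat_lit 5) (nat_lit 160) (nat_lit 5) (nat_lit 441) (nat_lit 437) (nat_lit 322)) (XT.lf (nat_lit 76) (nat_lit 5838949275) (nat_lit 0) (nat_lit 7415543567) (nat_lit 836) (nat_lit 14769488649) (nat_lit 150) (nat_lit 5) (nat_lit 149) (nat_lit 5) (nat_lit 160) (nat_lit 5) (nat_lit 442) (nat_lit 437) (nat_lit 321))) (XT.nd (nat_lit 78) (nat_lit 0) (nat_lit 0) (XT.lf (nat_lit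 0) (nat_lit 14936225560) (nat_lit 760) (nat_lit 7834688708) (nat_lit 836) (nat_lit 5973180487) (nat_lit 150) (nat_lit 5) (nat_lit 160) (nat_lit 5) (nat_lit 161) (nat_lit 5) (nat_lit 443) (nat_lit 437) (nat_lit 320)) (XT.lf (nat_lit 76) (nat_lit 7342621697) (nat_lit 0) (nat_lit 9590283228) (nat_lit 836) (nat_lit 12555766573) (nat_lit 151) (nat_lit 5) (nat_lit 150) (nat_lit 5) (nat_lit 161) (nat_lit 5) (nat_lit 444) (nat_lit 437) (nat_lit 319))))) (XT.nd (nat_lit 312) (nat_lit 836) (nat_lit 0) (XT.nd (nat_lit 156) (nat_lit 684) (nat_lit 0) (XT.nd (nat_lit 78) (nat_lit 0) (nat_lit 0) (XT.lf (nat_lit 0) (nat_lit 19225489471) (nat_lit 760) (nat_lit 6785769211) (nat_lit 836) (nat_lit 4249415616) (nat_lit 151) (nat_lit 5) (nat_lit 161) (nat_lit 5) (nat_lit 162) (nat_lit 5) (nat_lit 445) (nat_lit 437) (nat_lit 318)) (XT.lf (nat_lit 76) (nat_lit 9484876463) (nat_lit 0) (nat_lit 12448241561) (nat_lit 836)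 (nat_lit 9123139217) (nat_lit 152) (nat_lit 5) (nat_lit 151) (nat_lit 5) (nat_lit 162) (nat_lit 5) (nat_lit 446) (nat_lit 437) (nat_lit 317))) (XT.nd (nat_lit 78) (nat_lit 760) (nat_lit 0) (XT.lf (nat_lit 0) (nat_lit 24916219703) (nat_lit 760) (nat_lit 5115299380) (nat_lit 76) (nat_lit 1853096369) (nat_lit 152) (nat_lit 5) (nat_lit 162) (nat_lit 5) (nat_lit 153) (nat_lit 5) (nat_lit 447) (nat_lit 437) (nat_lit 316)) (XT.lf (nat_lit 0) (nat_lit 12350829246) (nat_lit 760) (nat_lit 16090066732) (nat_lit 836) (nat_lit 4293875295) (nat_lit 142) (nat_lit 5) (nat_lit 152) (nat_lit 5) (nat_lit 153) (nat_lit 5) (nat_lit 448) (nat_lit 437) (nat_lit 315)))) (XT.nd (nat_lit 156) (nat_lit 380) (nat_lit 0) (XT.nd (nat_lit 78) (nat_lit 456) (nat_lit 0) (XT.lf (nat_lit 0) (nat_lit 30863929344) (nat_lit 760) (nat_lit 1360177792) (nat_lit 836) (nat_lit 1399213333) (nat_lit 142) (nat_lit 5) (nat_lit 152) (nat_lit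 5) (nat_lit 153) (nat_lit 5) (nat_lit 449) (nat_lit 437) (nat_lit 314)) (XT.lf (nat_lit 0) (nat_lit 2061810819) (nat_lit 456) (nat_lit 18530797316) (nat_lit 76) (nat_lit 13938702925) (nat_lit 136) (nat_lit 5) (nat_lit 142) (nat_lit 5) (nat_lit 137) (nat_lit 5) (nat_lit 450) (nat_lit 437) (nat_lit 313))) (XT.nd (nat_lit 78) (nat_lit 0) (nat_lit 0) (XT.lf (nat_lit 0) (nat_lit 270481172) (nat_lit 380) (nat_lit 5448353567) (nat_lit 456) (nat_lit 29761221532) (nat_lit 131) (nat_lit 5) (nat_lit 136) (nat_lit 5) (nat_lit 137) (nat_lit 5) (nat_lit 451) (nat_lit 437) (nat_lit 312)) (XT.lf (nat_lit 0) (nat_lit 10036967906) (nat_lit 456) (nat_lit 15977877242) (nat_lit 76) (nat_lit 10437481221) (nat_lit 131) (nat_lit 5) (nat_lit 137) (nat_lit 5) (nat_lit 132) (nat_lit 5) (nat_lit 452) (nat_lit 437) (nat_lit 311)))))) (XT.nd (nat_lit 624) (nat_lit 988) (nat_lit 0) (XT.nd (nat_lit 312) (nat_lit 988) (nat_lit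 0) (XT.nd (nat_lit 156) (nat_lit 304) (nat_lit 0) (XT.nd (nat_lit 78) (nat_lit 0) (nat_lit 0) (XT.lf (nat_lit 0) (nat_lit 4258428542) (nat_lit 380) (nat_lit 10464651897) (nat_lit 456) (nat_lit 22742526398) (nat_lit 126) (nat_lit 5) (nat_lit 131) (nat_lit 5) (nat_lit 132) (nat_lit 5) (nat_lit 453) (nat_lit 437) (nat_lit 310)) (XT.lf (nat_lit 0) (nat_lit 20006448257) (nat_lit 456) (nat_lit 12554799860) (nat_lit 76) (nat_lit 5950156207) (nat_lit 126) (nat_lit 5) (nat_lit 132) (nat_lit 5) (nat_lit 127) (nat_lit 5) (nat_lit 454) (nat_lit 437) (nat_lit 309))) (XT.nd (nat_lit 78) (nat_lit 0) (nat_lit 0) (XT.lf (nat_lit 0) (nat_lit 9250855734) (nat_lit 304) (nat_lit 16615666437) (nat_lit 380) (nat_lit 13727343085) (nat_lit 122) (nat_lit 5) (nat_lit 126) (nat_lit 5) (nat_lit 127) (nat_lit 5) (nat_lit 455) (nat_lit 437) (nat_lit 308)) (XT.lf (nat_lit 0) (nat_lit 32234344298) (nat_lit 380) (nat_lit 8146594080)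 (nat_lit 76) (nat_lit 338774065) (nat_lit 122) (nat_lit 5) (nat_lit 127) (nat_lit 5) (nat_lit 123) (nat_lit 5) (nat_lit 456) (nat_lit 437) (nat_lit 307)))) (XT.nd (nat_lit 156) (nat_lit 608) (nat_lit 0) (XT.nd (nat_lit 78) (nat_lit 76) (nat_lit 0) (XT.lf (nat_lit 0) (nat_lit 15375585220) (nat_lit 304) (nat_lit 24054227160) (nat_lit 380) (nat_lit 2446577279) (nat_lit 118) (nat_lit 5) (nat_lit 122) (nat_lit 5) (nat_lit 123) (nat_lit 5) (nat_lit 457) (nat_lit 437) (nat_lit 306)) (XT.lf (nat_lit 0) (nat_lit 3906597685) (nat_lit 380) (nat_lit 2794185040) (nat_lit 76) (nat_lit 36380224365) (nat_lit 117) (nat_lit 5) (nat_lit 122) (nat_lit 5) (nat_lit 118) (nat_lit 5) (nat_lit 458) (nat_lit 437) (nat_lit 305))) (XT.nd (nat_lit 78) (nat_lit 304) (nat_lit 0) (XT.lf (nat_lit 0) (nat_lit 11034266983) (nat_lit 380) (nat_lit 21729340162) (nat_lit 76) (nat_lit 11553290383) (nat_lit 113) (nat_lit 5) (nat_lit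 118) (nat_lit 5) (nat_lit 114) (nat_lit 5) (nat_lit 459) (nat_lit 437) (nat_lit 304)) (XT.lf (nat_lit 0) (nat_lit 3728156563) (nat_lit 304) (nat_lit 15003395183) (nat_lit 380) (nat_lit 26872369481) (nat_lit 109) (nat_lit 5) (nat_lit 113) (nat_lit 5) (nat_lit 114) (nat_lit 5) (nat_lit 460) (nat_lit 437) (nat_lit 303))))) (XT.nd (nat_lit 312) (nat_lit 456) (nat_lit 0) (XT.nd (nat_lit 156) (nat_lit 304) (nat_lit 0) (XT.nd (nat_lit 78) (nat_lit 228) (nat_lit 0) (XT.lf (nat_lit 0) (nat_lit 27241784909) (nat_lit 380) (nat_lit 15790703937) (nat_lit 76) (nat_lit 3901403379) (nat_lit 109) (nat_lit 5) (nat_lit 114) (nat_lit 5) (nat_lit 110) (nat_lit 5) (nat_lit 461) (nat_lit 437) (nat_lit 302)) (XT.lf (nat_lit 0) (nat_lit 11724292917) (nat_lit 228) (nat_lit 24879527529) (nat_lit 304) (nat_lit 11705227102) (nat_lit 106) (nat_lit 5) (nat_lit 109) (nat_lit 5) (nat_lit 110) (nat_lit 5) (nat_lit 462) (nat_lit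 437) (nat_lit 301))) (XT.nd (nat_lit 78) (nat_lit 304) (nat_lit 0) (XT.lf (nat_lit 0) (nat_lit 41159705225) (nat_lit 228) (nat_lit 5539033956) (nat_lit 304) (nat_lit 3040982678) (nat_lit 106) (nat_lit 5) (nat_lit 109) (nat_lit 5) (nat_lit 110) (nat_lit 5) (nat_lit 463) (nat_lit 437) (nat_lit 300)) (XT.lf (nat_lit 0) (nat_lit 6431970599) (nat_lit 304) (nat_lit 30045950558) (nat_lit 76) (nat_lit 14730813987) (nat_lit 102) (nat_lit 5) (nat_lit 106) (nat_lit 5) (nat_lit 103) (nat_lit 5) (nat_lit 464) (nat_lit 437) (nat_lit 299)))) (XT.nd (nat_lit 156) (nat_lit 228) (nat_lit 0) (XT.nd (nat_lit 78) (nat_lit 228) (nat_lit 0) (XT.lf (nat_lit 0) (nat_lit 16512363832) (nat_lit 304) (nat_lit 199889200) (nat_lit 76) (nat_lit 36024654242) (nat_lit 102) (nat_lit 5) (nat_lit 106) (nat_lit 5) (nat_lit 103) (nat_lit 5) (nat_lit 465) (nat_lit 437) (nat_lit 298)) (XT.lf (nat_lit 0) (nat_lit 27667891453) (nat_lit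 304) (nat_lit 22223229418) (nat_lit 76) (nat_lit 4421811645) (nat_lit 99) (nat_lit 5) (nat_lit 103) (nat_lit 5) (nat_lit 100) (nat_lit 5) (nat_lit 466) (nat_lit 437) (nat_lit 297))) (XT.nd (nat_lit 78) (nat_lit 0) (nat_lit 0) (XT.lf (nat_lit 0) (nat_lit 10078264212) (nat_lit 228) (nat_lit 29735355821) (nat_lit 304) (nat_lit 16132517990) (nat_lit 96) (nat_lit 5) (nat_lit 99) (nat_lit 5) (nat_lit 100) (nat_lit 5) (nat_lit 467) (nat_lit 437) (nat_lit 296)) (XT.lf (nat_lit 0) (nat_lit 44763026449) (nat_lit 228) (nat_lit 8177691348) (nat_lit 304) (nat_lit 4701582090) (nat_lit 96) (nat_lit 5) (nat_lit 99) (nat_lit 5) (nat_lit 100) (nat_lit 5) (nat_lit 468) (nat_lit 437) (nat_lit 295))))))) (XT.nd (nat_lit 1170) (nat_lit 1444) (nat_lit 0) (XT.nd (nat_lit 546) (nat_lit 912) (nat_lit 0) (XT.nd (nat_lit 234) (nat_lit 456) (nat_lit 0) (XT.nd (nat_lit 78) (nat_lit 228) (nat_lit 0) (XT.lf (nat_lit 0) (nat_lit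 7647379202) (nat_lit 228) (nat_lit 37276454927) (nat_lit 76) (nat_lit 14464728885) (nat_lit 93) (nat_lit 5) (nat_lit 96) (nat_lit 5) (nat_lit 94) (nat_lit 5) (nat_lit 469) (nat_lit 437) (nat_lit 294)) (XT.nd (nat_lit 78) (nat_lit 228) (nat_lit 0) (XT.lf (nat_lit 0) (nat_lit 20809370280) (nat_lit 228) (nat_lit 2129045631) (nat_lit 76) (nat_lit 38262190536) (nat_lit 93) (nat_lit 5) (nat_lit 96) (nat_lit 5) (nat_lit 94) (nat_lit 5) (nat_lit 470) (nat_lit 437) (nat_lit 293)) (XT.lf (nat_lit 0) (nat_lit 35199706303) (nat_lit 304) (nat_lit 27164442838) (nat_lit 76) (nat_lit 710590821) (nat_lit 90) (nat_lit 5) (nat_lit 94) (nat_lit 5) (nat_lit 91) (nat_lit 5) (nat_lit 471) (nat_lit 437) (nat_lit 292)))) (XT.nd (nat_lit 156) (nat_lit 228) (nat_lit 0) (XT.nd (nat_lit 78) (nat_lit 76) (nat_lit 0) (XT.lf (nat_lit 0) (nat_lit 10852280260) (nat_lit 152) (nat_lit 40037369680) (nat_lit 228) (nat_lit 14123925844)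 (nat_lit 88) (nat_lit 5) (nat_lit 90) (nat_lit 5) (nat_lit 91) (nat_lit 5) (nat_lit 472) (nat_lit 437) (nat_lit 291)) (XT.lf (nat_lit 0) (nat_lit 770232934) (nat_lit 228) (nat_lit 15329069953) (nat_lit 76) (nat_lit 50926526512) (nat_lit 87) (nat_lit 5) (nat_lit 90) (nat_lit 5) (nat_lit 88) (nat_lit 5) (nat_lit 473) (nat_lit 437) (nat_lit 290))) (XT.nd (nat_lit 78) (nat_lit 0) (nat_lit 0) (XT.lf (nat_lit 0) (nat_lit 16490655690) (nat_lit 304) (nat_lit 43214649191) (nat_lit 76) (nat_lit 9394003346) (nat_lit 84) (nat_lit 5) (nat_lit 88) (nat_lit 5) (nat_lit 85) (nat_lit 5) (nat_lit 474) (nat_lit 437) (nat_lit 289)) (XT.lf (nat_lit 0) (nat_lit 33522991385) (nat_lit 304) (nat_lit 1843460625) (nat_lit 76) (nat_lit 35883714537) (nat_lit 84) (nat_lit 5) (nat_lit 88) (nat_lit 5) (nat_lit 85) (nat_lit 5) (nat_lit 475) (nat_lit 437) (nat_lit 288))))) (XT.nd (nat_lit 312) (nat_lit 380) (nat_lit 0) (XT.nd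 (nat_lit 156) (nat_lit 228) (nat_lit 0) (XT.nd (nat_lit 78) (nat_lit 152) (nat_lit 0) (XT.lf (nat_lit 0) (nat_lit 42968631697) (nat_lit 152) (nat_lit 9107370794) (nat_lit 228) (nat_lit 21399112496) (nat_lit 82) (nat_lit 5) (nat_lit 84) (nat_lit 5) (nat_lit 85) (nat_lit 5) (nat_lit 476) (nat_lit 437) (nat_lit 287)) (XT.lf (nat_lit 0) (nat_lit 14446207515) (nat_lit 152) (nat_lit 57654240747) (nat_lit 228) (nat_lit 3683673509) (nat_lit 80) (nat_lit 5) (nat_lit 82) (nat_lit 5) (nat_lit 83) (nat_lit 5) (nat_lit 477) (nat_lit 437) (nat_lit 286))) (XT.nd (nat_lit 78) (nat_lit 152) (nat_lit 0) (XT.lf (nat_lit 0) (nat_lit 15112728134) (nat_lit 228) (nat_lit 15870728020) (nat_lit 76) (nat_lit 47179845375) (nat_lit 79) (nat_lit 5) (nat_lit 82) (nat_lit 5) (nat_lit 80) (nat_lit 5) (nat_lit 478) (nat_lit 437) (nat_lit 285)) (XT.lf (nat_lit 0) (nat_lit 32858285457) (nat_lit 152) (nat_lit 2378195222) (nat_lit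 228) (nat_lit 45396373982) (nat_lit 77) (nat_lit 5) (nat_lit 79) (nat_lit 5) (nat_lit 80) (nat_lit 5) (nat_lit 479) (nat_lit 437) (nat_lit 284)))) (XT.nd (nat_lit 156) (nat_lit 228) (nat_lit 0) (XT.nd (nat_lit 78) (nat_lit 0) (nat_lit 0) (XT.lf (nat_lit 0) (nat_lit 953777296) (nat_lit 152) (nat_lit 56130863664) (nat_lit 228) (nat_lit 26105333589) (nat_lit 75) (nat_lit 5) (nat_lit 77) (nat_lit 5) (nat_lit 78) (nat_lit 5) (nat_lit 480) (nat_lit 437) (nat_lit 283)) (XT.lf (nat_lit 0) (nat_lit 53734102269) (nat_lit 152) (nat_lit 27136922030) (nat_lit 228) (nat_lit 4961635481) (nat_lit 75) (nat_lit 5) (nat_lit 77) (nat_lit 5) (nat_lit 78) (nat_lit 5) (nat_lit 481) (nat_lit 437) (nat_lit 282))) (XT.nd (nat_lit 78) (nat_lit 0) (nat_lit 0) (XT.lf (nat_lit 0) (nat_lit 17074291737) (nat_lit 228) (nat_lit 67694675828) (nat_lit 76) (nat_lit 3805713760) (nat_lit 72) (nat_lit 5) (nat_lit 75) (nat_lit 5) (nat_lit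 73) (nat_lit 5) (nat_lit 482) (nat_lit 437) (nat_lit 281)) (XT.lf (nat_lit 0) (nat_lit 41041095166) (nat_lit 228) (nat_lit 14342578670) (nat_lit 76) (nat_lit 36016272118) (nat_lit 72) (nat_lit 5) (nat_lit 75) (nat_lit 5) (nat_lit 73) (nat_lit 5) (nat_lit 483) (nat_lit 437) (nat_lit 280)))))) (XT.nd (nat_lit 624) (nat_lit 684) (nat_lit 0) (XT.nd (nat_lit 312) (nat_lit 304) (nat_lit 0) (XT.nd (nat_lit 156) (nat_lit 228) (nat_lit 0) (XT.nd (nat_lit 78) (nat_lit 76) (nat_lit 0) (XT.lf (nat_lit 0) (nat_lit 43052477556) (nat_lit 152) (nat_lit 23824444951) (nat_lit 228) (nat_lit 27456017202) (nat_lit 70) (nat_lit 5) (nat_lit 72) (nat_lit 5) (nat_lit 73) (nat_lit 5) (nat_lit 484) (nat_lit 437) (nat_lit 279)) (XT.lf (nat_lit 0) (nat_lit 6469879039) (nat_lit 76) (nat_lit 88026481335) (nat_lit 152) (nat_lit 2891631900) (nat_lit 69) (nat_lit 5) (nat_lit 70) (nat_lit 5) (nat_lit 71) (nat_lit 4) (nat_lit 485)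 (nat_lit 437) (nat_lit 278))) (XT.nd (nat_lit 78) (nat_lit 152) (nat_lit 0) (XT.lf (nat_lit 0) (nat_lit 23439793713) (nat_lit 152) (nat_lit 32429259718) (nat_lit 76) (nat_lit 44645276928) (nat_lit 68) (nat_lit 5) (nat_lit 70) (nat_lit 5) (nat_lit 69) (nat_lit 5) (nat_lit 486) (nat_lit 437) (nat_lit 277)) (XT.lf (nat_lit 0) (nat_lit 29890836305) (nat_lit 152) (nat_lit 21565060083) (nat_lit 228) (nat_lit 52315454661) (nat_lit 66) (nat_lit 5) (nat_lit 68) (nat_lit 5) (nat_lit 69) (nat_lit 5) (nat_lit 487) (nat_lit 437) (nat_lit 276)))) (XT.nd (nat_lit 156) (nat_lit 152) (nat_lit 0) (XT.nd (nat_lit 78) (nat_lit 152) (nat_lit 0) (XT.lf (nat_lit 0) (nat_lit 81655297487) (nat_lit 228) (nat_lit 10948128815) (nat_lit 76) (nat_lit 14548671871) (nat_lit 66) (nat_lit 5) (nat_lit 69) (nat_lit 5) (nat_lit 67) (nat_lit 4) (nat_lit 488) (nat_lit 437) (nat_lit 275)) (XT.lf (nat_lit 0) (nat_lit 3833491049) (nat_lit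 152) (nat_lit 54115852956) (nat_lit 76) (nat_lit 52687663487) (nat_lit 64) (nat_lit 5) (nat_lit 66) (nat_lit 5) (nat_lit 65) (nat_lit 5) (nat_lit 489) (nat_lit 437) (nat_lit 274))) (XT.nd (nat_lit 78) (nat_lit 0) (nat_lit 0) (XT.lf (nat_lit 0) (nat_lit 13464650522) (nat_lit 152) (nat_lit 20706145585) (nat_lit 228) (nat_lit 80084599287) (nat_lit 62) (nat_lit 5) (nat_lit 64) (nat_lit 5) (nat_lit 65) (nat_lit 5) (nat_lit 490) (nat_lit 437) (nat_lit 273)) (XT.lf (nat_lit 0) (nat_lit 67242427522) (nat_lit 228) (nat_lit 32010603478) (nat_lit 76) (nat_lit 18740798690) (nat_lit 62) (nat_lit 5) (nat_lit 65) (nat_lit 5) (nat_lit 63) (nat_lit 4) (nat_lit 491) (nat_lit 437) (nat_lit 272))))) (XT.nd (nat_lit 312) (nat_lit 304) (nat_lit 0) (XT.nd (nat_lit 156) (nat_lit 228) (nat_lit 0) (XT.nd (nat_lit 78) (nat_lit 76) (nat_lit 0) (XT.lf (nat_lit 0) (nat_lit 41184994553) (nat_lit 76) (nat_lit 61763861711) (nat_lit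 152) (nat_lit 18921268698) (nat_lit 61) (nat_lit 5) (nat_lit 62) (nat_lit 5) (nat_lit 63) (nat_lit 4) (nat_lit 492) (nat_lit 437) (nat_lit 271)) (XT.lf (nat_lit 0) (nat_lit 14586032839) (nat_lit 152) (nat_lit 6998986090) (nat_lit 76) (nat_lit 104316408353) (nat_lit 60) (nat_lit 5) (nat_lit 62) (nat_lit 5) (nat_lit 61) (nat_lit 5) (nat_lit 493) (nat_lit 437) (nat_lit 270))) (XT.nd (nat_lit 78) (nat_lit 76) (nat_lit 0) (XT.lf (nat_lit 0) (nat_lit 50606887577) (nat_lit 228) (nat_lit 58032032588) (nat_lit 76) (nat_lit 21406162018) (nat_lit 58) (nat_lit 5) (nat_lit 61) (nat_lit 5) (nat_lit 59) (nat_lit 4) (nat_lit 494) (nat_lit 437) (nat_lit 269)) (XT.lf (nat_lit 0) (nat_lit 21147555632) (nat_lit 76) (nat_lit 68084557080) (nat_lit 152) (nat_lit 45123640776) (nat_lit 57) (nat_lit 5) (nat_lit 58) (nat_lit 5) (nat_lit 59) (nat_lit 4) (nat_lit 495) (nat_lit 437) (nat_lit 268)))) (XT.nd (nat_lit 156) (nat_lit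 76) (nat_lit 0) (XT.nd (nat_lit 78) (nat_lit 228) (nat_lit 0) (XT.lf (nat_lit 0) (nat_lit 106298714536) (nat_lit 76) (nat_lit 24471535298) (nat_lit 152) (nat_lit 8062626027) (nat_lit 57) (nat_lit 5) (nat_lit 58) (nat_lit 5) (nat_lit 59) (nat_lit 4) (nat_lit 496) (nat_lit 437) (nat_lit 267)) (XT.lf (nat_lit 0) (nat_lit 31051041199) (nat_lit 228) (nat_lit 90423673661) (nat_lit 76) (nat_lit 21975703634) (nat_lit 54) (nat_lit 5) (nat_lit 57) (nat_lit 5) (nat_lit 55) (nat_lit 4) (nat_lit 497) (nat_lit 437) (nat_lit 266))) (XT.nd (nat_lit 78) (nat_lit 76) (nat_lit 0) (XT.lf (nat_lit 0) (nat_lit 72809514607) (nat_lit 228) (nat_lit 4820550023) (nat_lit 76) (nat_lit 70614160956) (nat_lit 54) (nat_lit 5) (nat_lit 57) (nat_lit 5) (nat_lit 55) (nat_lit 4) (nat_lit 498) (nat_lit 437) (nat_lit 265)) (XT.lf (nat_lit 0) (nat_lit 87873231137) (nat_lit 76) (nat_lit 30153573630) (nat_lit 152) (nat_lit 35182373646)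 (nat_lit 53) (nat_lit 5) (nat_lit 54) (nat_lit 5) (nat_lit 55) (nat_lit 4) (nat_lit 499) (nat_lit 437) (nat_lit 264))))))))
noncomputable def xc173 : XT := (XT.nd (nat_lit 2418) (nat_lit 836) (nat_lit 0) (XT.nd (nat_lit 1170) (nat_lit 912) (nat_lit 0) (XT.nd (nat_lit 546) (nat_lit 532) (nat_lit 0) (XT.nd (nat_lit 234) (nat_lit 228) (nat_lit 0) (XT.nd (nat_lit 78) (nat_lit 76) (nat_lit 0) (XT.lf (nat_lit 0) (nat_lit 7688446811) (nat_lit 152) (nat_lit 130984686968) (nat_lit 76) (nat_lit 19702088529) (nat_lit 51) (nat_lit 5) (nat_lit 53) (nat_lit 5) (nat_lit 52) (nat_lit 4) (nat_lit 500) (nat_lit 437) (nat_lit 263)) (XT.nd (nat_lit 78) (nat_lit 76) (nat_lit 0) (XT.lf (nat_lit 0) (nat_lit 53138359133) (nat_lit 152) (nat_lit 37813803846) (nat_lit 76) (nat_lit 72737671973) (nat_lit 51) (nat_lit 5) (nat_lit 53) (nat_lit 5) (nat_lit 52) (nat_lit 4) (nat_lit 501) (nat_lit 437) (nat_lit 262)) (XT.lf (nat_lit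 0) (nat_lit 61998044706) (nat_lit 76) (nat_lit 39829688697) (nat_lit 152) (nat_lit 67394096535) (nat_lit 50) (nat_lit 5) (nat_lit 51) (nat_lit 5) (nat_lit 52) (nat_lit 4) (nat_lit 502) (nat_lit 437) (nat_lit 261)))) (XT.nd (nat_lit 156) (nat_lit 76) (nat_lit 0) (XT.nd (nat_lit 78) (nat_lit 152) (nat_lit 0) (XT.lf (nat_lit 0) (nat_lit 153817697402) (nat_lit 152) (nat_lit 7113735558) (nat_lit 0) (nat_lit 14055685689) (nat_lit 50) (nat_lit 5) (nat_lit 52) (nat_lit 4) (nat_lit 50) (nat_lit 4) (nat_lit 503) (nat_lit 437) (nat_lit 260)) (XT.lf (nat_lit 0) (nat_lit 28749131505) (nat_lit 152) (nat_lit 80827474461) (nat_lit 76) (nat_lit 71329775362) (nat_lit 48) (nat_lit 5) (nat_lit 50) (nat_lit 5) (nat_lit 49) (nat_lit 4) (nat_lit 504) (nat_lit 437) (nat_lit 259))) (XT.nd (nat_lit 78) (nat_lit 0) (nat_lit 0) (XT.lf (nat_lit 0) (nat_lit 26251964236) (nat_lit 76) (nat_lit 54731589090) (nat_lit 152) (nat_lit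 106094133214) (nat_lit 47) (nat_lit 5) (nat_lit 48) (nat_lit 5) (nat_lit 49) (nat_lit 4) (nat_lit 505) (nat_lit 437) (nat_lit 258)) (XT.lf (nat_lit 0) (nat_lit 137264634016) (nat_lit 152) (nat_lit 52066439730) (nat_lit 0) (nat_lit 4154736399) (nat_lit 47) (nat_lit 5) (nat_lit 49) (nat_lit 4) (nat_lit 47) (nat_lit 4) (nat_lit 506) (nat_lit 437) (nat_lit 257))))) (XT.nd (nat_lit 312) (nat_lit 228) (nat_lit 0) (XT.nd (nat_lit 156) (nat_lit 152) (nat_lit 0) (XT.nd (nat_lit 78) (nat_lit 76) (nat_lit 0) (XT.lf (nat_lit 0) (nat_lit 63256433233) (nat_lit 76) (nat_lit 134987289667) (nat_lit 76) (nat_lit 1876419339) (nat_lit 46) (nat_lit 4) (nat_lit 47) (nat_lit 5) (nat_lit 47) (nat_lit 4) (nat_lit 507) (nat_lit 437) (nat_lit 256)) (XT.lf (nat_lit 0) (nat_lit 54314624176) (nat_lit 152) (nat_lit 21766817157) (nat_lit 76) (nat_lit 130916902955) (nat_lit 45) (nat_lit 5) (nat_lit 47) (nat_lit 5) (nat_lit 46)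 (nat_lit 4) (nat_lit 508) (nat_lit 437) (nat_lit 255))) (XT.nd (nat_lit 78) (nat_lit 76) (nat_lit 0) (XT.lf (nat_lit 0) (nat_lit 102327627088) (nat_lit 76) (nat_lit 12521302709) (nat_lit 152) (nat_lit 99290150114) (nat_lit 44) (nat_lit 5) (nat_lit 45) (nat_lit 5) (nat_lit 46) (nat_lit 4) (nat_lit 509) (nat_lit 437) (nat_lit 254)) (XT.lf (nat_lit 0) (nat_lit 11270620685) (nat_lit 76) (nat_lit 168535599218) (nat_lit 76) (nat_lit 41760818969) (nat_lit 43) (nat_lit 4) (nat_lit 44) (nat_lit 5) (nat_lit 44) (nat_lit 4) (nat_lit 510) (nat_lit 437) (nat_lit 253)))) (XT.nd (nat_lit 156) (nat_lit 76) (nat_lit 0) (XT.nd (nat_lit 78) (nat_lit 76) (nat_lit 0) (XT.lf (nat_lit 0) (nat_lit 20177266512) (nat_lit 152) (nat_lit 85412146043) (nat_lit 76) (nat_lit 123655976044) (nat_lit 42) (nat_lit 5) (nat_lit 44) (nat_lit 5) (nat_lit 43) (nat_lit 4) (nat_lit 511) (nat_lit 437) (nat_lit 252)) (XT.lf (nat_lit 0)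 (nat_lit 46519057022) (nat_lit 76) (nat_lit 38015247986) (nat_lit 152) (nat_lit 152702846335) (nat_lit 41) (nat_lit 5) (nat_lit 42) (nat_lit 5) (nat_lit 43) (nat_lit 4) (nat_lit 512) (nat_lit 437) (nat_lit 251))) (XT.nd (nat_lit 78) (nat_lit 76) (nat_lit 0) (XT.lf (nat_lit 0) (nat_lit 154092848650) (nat_lit 152) (nat_lit 58083583736) (nat_lit 0) (nat_lit 33352887190) (nat_lit 41) (nat_lit 5) (nat_lit 43) (nat_lit 4) (nat_lit 41) (nat_lit 4) (nat_lit 513) (nat_lit 437) (nat_lit 250)) (XT.lf (nat_lit 0) (nat_lit 83221554670) (nat_lit 76) (nat_lit 145829521114) (nat_lit 76) (nat_lit 25088932636) (nat_lit 40) (nat_lit 4) (nat_lit 41) (nat_lit 5) (nat_lit 41) (nat_lit 4) (nat_lit 514) (nat_lit 437) (nat_lit 249)))))) (XT.nd (nat_lit 624) (nat_lit 380) (nat_lit 0) (XT.nd (nat_lit 312) (nat_lit 304) (nat_lit 0) (XT.nd (nat_lit 156) (nat_lit 76) (nat_lit 0) (XT.nd (nat_lit 78) (nat_lit 76) (nat_lit 0)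 (XT.lf (nat_lit 0) (nat_lit 44148306955) (nat_lit 152) (nat_lit 30237156379) (nat_lit 76) (nat_lit 188711018871) (nat_lit 39) (nat_lit 5) (nat_lit 41) (nat_lit 5) (nat_lit 40) (nat_lit 4) (nat_lit 515) (nat_lit 437) (nat_lit 248)) (XT.lf (nat_lit 0) (nat_lit 117939213297) (nat_lit 152) (nat_lit 151497187539) (nat_lit 0) (nat_lit 2947066285) (nat_lit 38) (nat_lit 5) (nat_lit 40) (nat_lit 4) (nat_lit 38) (nat_lit 4) (nat_lit 516) (nat_lit 437) (nat_lit 247))) (XT.nd (nat_lit 78) (nat_lit 76) (nat_lit 0) (XT.lf (nat_lit 0) (nat_lit 197158847457) (nat_lit 152) (nat_lit 2722810117) (nat_lit 0) (nat_lit 82166184595) (nat_lit 38) (nat_lit 5) (nat_lit 40) (nat_lit 4) (nat_lit 38) (nat_lit 4) (nat_lit 517) (nat_lit 437) (nat_lit 246)) (XT.lf (nat_lit 0) (nat_lit 158563953982) (nat_lit 76) (nat_lit 124250444688) (nat_lit 76) (nat_lit 9257290541) (nat_lit 37) (nat_lit 4) (nat_lit 38) (nat_lit 5) (nat_lit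 38) (nat_lit 4) (nat_lit 518) (nat_lit 437) (nat_lit 245)))) (XT.nd (nat_lit 156) (nat_lit 152) (nat_lit 0) (XT.nd (nat_lit 78) (nat_lit 0) (nat_lit 0) (XT.lf (nat_lit 0) (nat_lit 25121758818) (nat_lit 76) (nat_lit 43227207452) (nat_lit 152) (nat_lit 234171075881) (nat_lit 35) (nat_lit 5) (nat_lit 36) (nat_lit 5) (nat_lit 37) (nat_lit 4) (nat_lit 519) (nat_lit 437) (nat_lit 244)) (XT.lf (nat_lit 0) (nat_lit 152475176052) (nat_lit 152) (nat_lit 117903495074) (nat_lit 0) (nat_lit 42957016388) (nat_lit 35) (nat_lit 5) (nat_lit 37) (nat_lit 4) (nat_lit 35) (nat_lit 4) (nat_lit 520) (nat_lit 437) (nat_lit 243))) (XT.nd (nat_lit 78) (nat_lit 76) (nat_lit 0) (XT.lf (nat_lit 0) (nat_lit 50471486687) (nat_lit 76) (nat_lit 191832196485) (nat_lit 76) (nat_lit 82313632639) (nat_lit 34) (nat_lit 4) (nat_lit 35) (nat_lit 5) (nat_lit 35) (nat_lit 4) (nat_lit 521) (nat_lit 437) (nat_lit 242)) (XT.lf (nat_lit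 0) (nat_lit 2184280018) (nat_lit 152) (nat_lit 105041174742) (nat_lit 76) (nat_lit 229136003918) (nat_lit 33) (nat_lit 5) (nat_lit 35) (nat_lit 5) (nat_lit 34) (nat_lit 4) (nat_lit 522) (nat_lit 437) (nat_lit 241))))) (XT.nd (nat_lit 312) (nat_lit 152) (nat_lit 0) (XT.nd (nat_lit 156) (nat_lit 152) (nat_lit 0) (XT.nd (nat_lit 78) (nat_lit 0) (nat_lit 0) (XT.lf (nat_lit 0) (nat_lit 73521201774) (nat_lit 76) (nat_lit 15766855376) (nat_lit 152) (nat_lit 259279919021) (nat_lit 32) (nat_lit 5) (nat_lit 33) (nat_lit 5) (nat_lit 34) (nat_lit 4) (nat_lit 523) (nat_lit 437) (nat_lit 240)) (XT.lf (nat_lit 0) (nat_lit 183807641239) (nat_lit 152) (nat_lit 97920948576) (nat_lit 0) (nat_lit 79503198827) (nat_lit 32) (nat_lit 5) (nat_lit 34) (nat_lit 4) (nat_lit 32) (nat_lit 4) (nat_lit 524) (nat_lit 437) (nat_lit 239))) (XT.nd (nat_lit 78) (nat_lit 76) (nat_lit 0) (XT.lf (nat_lit 0) (nat_lit 90704623700) (nat_lit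 76) (nat_lit 194022612772) (nat_lit 76) (nat_lit 89717853673) (nat_lit 31) (nat_lit 4) (nat_lit 32) (nat_lit 5) (nat_lit 32) (nat_lit 4) (nat_lit 525) (nat_lit 437) (nat_lit 238)) (XT.lf (nat_lit 0) (nat_lit 3982710318) (nat_lit 152) (nat_lit 96140504553) (nat_lit 76) (nat_lit 288109742284) (nat_lit 30) (nat_lit 5) (nat_lit 32) (nat_lit 5) (nat_lit 31) (nat_lit 4) (nat_lit 526) (nat_lit 437) (nat_lit 237)))) (XT.nd (nat_lit 156) (nat_lit 76) (nat_lit 0) (XT.nd (nat_lit 78) (nat_lit 0) (nat_lit 0) (XT.lf (nat_lit 0) (nat_lit 100981837520) (nat_lit 152) (nat_lit 299929997712) (nat_lit 0) (nat_lit 1643410902) (nat_lit 29) (nat_lit 5) (nat_lit 31) (nat_lit 4) (nat_lit 29) (nat_lit 4) (nat_lit 527) (nat_lit 437) (nat_lit 236)) (XT.lf (nat_lit 0) (nat_lit 206126598008) (nat_lit 152) (nat_lit 104514356865) (nat_lit 0) (nat_lit 106787910850) (nat_lit 29) (nat_lit 5) (nat_lit 31) (nat_lit 4) (nat_lit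 29) (nat_lit 4) (nat_lit 528) (nat_lit 437) (nat_lit 235))) (XT.nd (nat_lit 78) (nat_lit 0) (nat_lit 0) (XT.lf (nat_lit 0) (nat_lit 103999626296) (nat_lit 76) (nat_lit 214152157952) (nat_lit 76) (nat_lit 114813222662) (nat_lit 28) (nat_lit 4) (nat_lit 29) (nat_lit 5) (nat_lit 29) (nat_lit 4) (nat_lit 529) (nat_lit 437) (nat_lit 234)) (XT.lf (nat_lit 0) (nat_lit 326566751202) (nat_lit 76) (nat_lit 110980950973) (nat_lit 76) (nat_lit 11641779366) (nat_lit 28) (nat_lit 4) (nat_lit 29) (nat_lit 5) (nat_lit 29) (nat_lit 4) (nat_lit 530) (nat_lit 437) (nat_lit 233))))))) (XT.nd (nat_lit 1170) (nat_lit 0) (nat_lit 0) (XT.nd (nat_lit 546) (nat_lit 456) (nat_lit 0) (XT.nd (nat_lit 234) (nat_lit 152) (nat_lit 0) (XT.nd (nat_lit 78) (nat_lit 76) (nat_lit 0) (XT.lf (nat_lit 0) (nat_lit 95093270559) (nat_lit 152) (nat_lit 370497126191) (nat_lit 0) (nat_lit 484321350) (nat_lit 26) (nat_lit 5) (nat_lit 28)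 (nat_lit 4) (nat_lit 26) (nat_lit 4) (nat_lit 531) (nat_lit 437) (nat_lit 232)) (XT.nd (nat_lit 78) (nat_lit 76) (nat_lit 0) (XT.lf (nat_lit 0) (nat_lit 210703400631) (nat_lit 152) (nat_lit 156800547746) (nat_lit 0) (nat_lit 116094247283) (nat_lit 26) (nat_lit 5) (nat_lit 28) (nat_lit 4) (nat_lit 26) (nat_lit 4) (nat_lit 532) (nat_lit 437) (nat_lit 231)) (XT.lf (nat_lit 0) (nat_lit 69814377557) (nat_lit 76) (nat_lit 263369170875) (nat_lit 76) (nat_lit 168759823108) (nat_lit 25) (nat_lit 4) (nat_lit 26) (nat_lit 5) (nat_lit 26) (nat_lit 4) (nat_lit 533) (nat_lit 437) (nat_lit 230)))) (XT.nd (nat_lit 156) (nat_lit 0) (nat_lit 0) (XT.nd (nat_lit 78) (nat_lit 152) (nat_lit 0) (XT.lf (nat_lit 0) (nat_lit 313202847711) (nat_lit 76) (nat_lit 151239870356) (nat_lit 76) (nat_lit 56630337429) (nat_lit 25) (nat_lit 4) (nat_lit 26) (nat_lit 5) (nat_lit 26) (nat_lit 4) (nat_lit 534) (nat_lit 437) (nat_lit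 229)) (XT.lf (nat_lit 0) (nat_lit 27527611314) (nat_lit 76) (nat_lit 32051569458) (nat_lit 152) (nat_lit 481510875393) (nat_lit 23) (nat_lit 5) (nat_lit 24) (nat_lit 5) (nat_lit 25) (nat_lit 4) (nat_lit 535) (nat_lit 437) (nat_lit 228))) (XT.nd (nat_lit 78) (nat_lit 0) (nat_lit 0) (XT.lf (nat_lit 0) (nat_lit 184727146855) (nat_lit 152) (nat_lit 282460283684) (nat_lit 0) (nat_lit 94622501888) (nat_lit 23) (nat_lit 5) (nat_lit 25) (nat_lit 4) (nat_lit 23) (nat_lit 4) (nat_lit 536) (nat_lit 437) (nat_lit 227)) (XT.lf (nat_lit 0) (nat_lit 316657506012) (nat_lit 152) (nat_lit 40329338043) (nat_lit 0) (nat_lit 226552708713) (nat_lit 23) (nat_lit 5) (nat_lit 25) (nat_lit 4) (nat_lit 23) (nat_lit 4) (nat_lit 537) (nat_lit 437) (nat_lit 226))))) (XT.nd (nat_lit 312) (nat_lit 228) (nat_lit 0) (XT.nd (nat_lit 156) (nat_lit 152) (nat_lit 0) (XT.nd (nat_lit 78) (nat_lit 0) (nat_lit 0) (XT.lf (nat_lit 0) (nat_lit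 220980050821) (nat_lit 76) (nat_lit 237654030390) (nat_lit 76) (nat_lit 147549088013) (nat_lit 22) (nat_lit 4) (nat_lit 23) (nat_lit 5) (nat_lit 23) (nat_lit 4) (nat_lit 538) (nat_lit 437) (nat_lit 225)) (XT.lf (nat_lit 0) (nat_lit 496754220588) (nat_lit 76) (nat_lit 111637848631) (nat_lit 76) (nat_lit 21532768085) (nat_lit 22) (nat_lit 4) (nat_lit 23) (nat_lit 5) (nat_lit 23) (nat_lit 4) (nat_lit 539) (nat_lit 437) (nat_lit 224))) (XT.nd (nat_lit 78) (nat_lit 0) (nat_lit 0) (XT.lf (nat_lit 0) (nat_lit 109716155935) (nat_lit 152) (nat_lit 521025402960) (nat_lit 0) (nat_lit 23901668186) (nat_lit 20) (nat_lit 5) (nat_lit 22) (nat_lit 4) (nat_lit 20) (nat_lit 4) (nat_lit 540) (nat_lit 437) (nat_lit 223)) (XT.lf (nat_lit 0) (nat_lit 250925894540) (nat_lit 152) (nat_lit 264336604035) (nat_lit 0) (nat_lit 165111287435) (nat_lit 20) (nat_lit 5) (nat_lit 22) (nat_lit 4) (nat_lit 20) (nat_lit 4) (nat_lit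 541) (nat_lit 437) (nat_lit 222)))) (XT.nd (nat_lit 156) (nat_lit 152) (nat_lit 0) (XT.nd (nat_lit 78) (nat_lit 0) (nat_lit 0) (XT.lf (nat_lit 0) (nat_lit 5357335311) (nat_lit 76) (nat_lit 393922047606) (nat_lit 76) (nat_lit 308107326829) (nat_lit 19) (nat_lit 4) (nat_lit 20) (nat_lit 5) (nat_lit 20) (nat_lit 4) (nat_lit 542) (nat_lit 437) (nat_lit 221)) (XT.lf (nat_lit 0) (nat_lit 297712386299) (nat_lit 76) (nat_lit 261814453843) (nat_lit 76) (nat_lit 175999624806) (nat_lit 19) (nat_lit 4) (nat_lit 20) (nat_lit 5) (nat_lit 20) (nat_lit 4) (nat_lit 543) (nat_lit 437) (nat_lit 220))) (XT.nd (nat_lit 78) (nat_lit 152) (nat_lit 0) (XT.lf (nat_lit 0) (nat_lit 604684470476) (nat_lit 76) (nat_lit 123101843691) (nat_lit 76) (nat_lit 37286911550) (nat_lit 19) (nat_lit 4) (nat_lit 20) (nat_lit 5) (nat_lit 20) (nat_lit 4) (nat_lit 544) (nat_lit 437) (nat_lit 219)) (XT.lf (nat_lit 0) (nat_lit 107390875577)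 (nat_lit 152) (nat_lit 662834698357) (nat_lit 0) (nat_lit 25662275258) (nat_lit 17) (nat_lit 5) (nat_lit 19) (nat_lit 4) (nat_lit 17) (nat_lit 4) (nat_lit 545) (nat_lit 437) (nat_lit 218)))))) (XT.nd (nat_lit 54522) (nat_lit 0) (nat_lit 9044) (XT.nd (nat_lit 54210) (nat_lit 0) (nat_lit 9956) (XT.nd (nat_lit 54054) (nat_lit 0) (nat_lit 9880) (XT.nd (nat_lit 78) (nat_lit 0) (nat_lit 0) (XT.lf (nat_lit 0) (nat_lit 262827976029) (nat_lit 152) (nat_lit 384046452693) (nat_lit 0) (nat_lit 181099286645) (nat_lit 17) (nat_lit 5) (nat_lit 19) (nat_lit 4) (nat_lit 17) (nat_lit 4) (nat_lit 546) (nat_lit 437) (nat_lit 217)) (XT.lf (nat_lit 0) (nat_lit 426036603542) (nat_lit 152) (nat_lit 91319458376) (nat_lit 0) (nat_lit 344307829333) (nat_lit 17) (nat_lit 5) (nat_lit 19) (nat_lit 4) (nat_lit 17) (nat_lit 4) (nat_lit 547) (nat_lit 437) (nat_lit 216))) (XT.nd (nat_lit 78) (nat_lit 0) (nat_lit 0) (XT.lf (nat_lit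 0) (nat_lit 4732811522) (nat_lit 836) (nat_lit 4131566287) (nat_lit 836) (nat_lit 4131566287) (nat_lit 147) (nat_lit 3) (nat_lit 158) (nat_lit 3) (nat_lit 158) (nat_lit 5) (nat_lit 438) (nat_lit 438) (nat_lit 324)) (XT.lf (nat_lit 76) (nat_lit 4780719751) (nat_lit 0) (nat_lit 5091820007) (nat_lit 836) (nat_lit 16760617041) (nat_lit 148) (nat_lit 5) (nat_lit 147) (nat_lit 3) (nat_lit 158) (nat_lit 5) (nat_lit 439) (nat_lit 438) (nat_lit 323)))) (XT.nd (nat_lit 156) (nat_lit 0) (nat_lit 76) (XT.nd (nat_lit 78) (nat_lit 0) (nat_lit 0) (XT.lf (nat_lit 0) (nat_lit 10563572675) (nat_lit 760) (nat_lit 8669484150) (nat_lit 836) (nat_lit 8060244439) (nat_lit 148) (nat_lit 5) (nat_lit 158) (nat_lit 5) (nat_lit 159) (nat_lit 5) (nat_lit 440) (nat_lit 438) (nat_lit 322)) (XT.lf (nat_lit 76) (nat_lit 5253798368) (nat_lit 0) (nat_lit 6195020527) (nat_lit 836) (nat_lit 16529651876) (nat_lit 149) (nat_lit 5)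 (nat_lit 148) (nat_lit 5) (nat_lit 159) (nat_lit 5) (nat_lit 441) (nat_lit 438) (nat_lit 321))) (XT.nd (nat_lit 78) (nat_lit 0) (nat_lit 0) (XT.lf (nat_lit 0) (nat_lit 12638993683) (nat_lit 760) (nat_lit 8639510180) (nat_lit 836) (nat_lit 7406362436) (nat_lit 149) (nat_lit 5) (nat_lit 159) (nat_lit 5) (nat_lit 160) (nat_lit 5) (nat_lit 442) (nat_lit 438) (nat_lit 320)) (XT.lf (nat_lit 76) (nat_lit 6244640052) (nat_lit 0) (nat_lit 7837777643) (nat_lit 836) (nat_lit 15334477702) (nat_lit 150) (nat_lit 5) (nat_lit 149) (nat_lit 5) (nat_lit 160) (nat_lit 5) (nat_lit 443) (nat_lit 438) (nat_lit 319))))) (XT.nd (nat_lit 312) (nat_lit 1064) (nat_lit 0) (XT.nd (nat_lit 156) (nat_lit 0) (nat_lit 76) (XT.nd (nat_lit 78) (nat_lit 0) (nat_lit 0) (XT.lf (nat_lit 0) (nat_lit 15839605242) (nat_lit 760) (nat_lit 8109440412) (nat_lit 836) (nat_lit 6224401458) (nat_lit 150) (nat_lit 5) (nat_lit 160) (nat_lit 5)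 (nat_lit 161) (nat_lit 5) (nat_lit 444) (nat_lit 438) (nat_lit 318)) (XT.lf (nat_lit 76) (nat_lit 7824848694) (nat_lit 0) (nat_lit 10105611213) (nat_lit 836) (nat_lit 13025076861) (nat_lit 151) (nat_lit 5) (nat_lit 150) (nat_lit 5) (nat_lit 161) (nat_lit 5) (nat_lit 445) (nat_lit 438) (nat_lit 317))) (XT.nd (nat_lit 78) (nat_lit 0) (nat_lit 0) (XT.lf (nat_lit 0) (nat_lit 20329954975) (nat_lit 760) (nat_lit 7007702079) (nat_lit 836) (nat_lit 4428869676) (nat_lit 151) (nat_lit 5) (nat_lit 161) (nat_lit 5) (nat_lit 162) (nat_lit 5) (nat_lit 446) (nat_lit 438) (nat_lit 316)) (XT.lf (nat_lit 76) (nat_lit 10074583047) (nat_lit 0) (nat_lit 13093365986) (nat_lit 836) (nat_lit 9434191618) (nat_lit 152) (nat_lit 5) (nat_lit 151) (nat_lit 5) (nat_lit 162) (nat_lit 5) (nat_lit 447) (nat_lit 438) (nat_lit 315)))) (XT.nd (nat_lit 156) (nat_lit 456) (nat_lit 0) (XT.nd (nat_lit 78) (nat_lit 760) (nat_lit 0)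 (XT.lf (nat_lit 0) (nat_lit 26293288311) (nat_lit 760) (nat_lit 5254162619) (nat_lit 76) (nat_lit 1924812702) (nat_lit 152) (nat_lit 5) (nat_lit 162) (nat_lit 5) (nat_lit 153) (nat_lit 5) (nat_lit 448) (nat_lit 438) (nat_lit 314)) (XT.lf (nat_lit 0) (nat_lit 13083386927) (nat_lit 760) (nat_lit 16906356835) (nat_lit 836) (nat_lit 4375407152) (nat_lit 142) (nat_lit 5) (nat_lit 152) (nat_lit 5) (nat_lit 153) (nat_lit 5) (nat_lit 449) (nat_lit 438) (nat_lit 313))) (XT.nd (nat_lit 78) (nat_lit 456) (nat_lit 0) (XT.lf (nat_lit 0) (nat_lit 32516665067) (nat_lit 760) (nat_lit 1439412174) (nat_lit 836) (nat_lit 1342353136) (nat_lit 142) (nat_lit 5) (nat_lit 152) (nat_lit 5) (nat_lit 153) (nat_lit 5) (nat_lit 450) (nat_lit 438) (nat_lit 312)) (XT.lf (nat_lit 0) (nat_lit 2283455216) (nat_lit 456) (nat_lit 19339497675) (nat_lit 76) (nat_lit 14628979813) (nat_lit 136) (nat_lit 5) (nat_lit 142) (nat_lit 5)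 (nat_lit 137) (nat_lit 5) (nat_lit 451) (nat_lit 438) (nat_lit 311))))))))
noncomputable def xc174 : XT := (XT.nd (nat_lit 2418) (nat_lit 2584) (nat_lit 0) (XT.nd (nat_lit 1170) (nat_lit 2052) (nat_lit 0) (XT.nd (nat_lit 546) (nat_lit 1216) (nat_lit 0) (XT.nd (nat_lit 234) (nat_lit 608) (nat_lit 0) (XT.nd (nat_lit 78) (nat_lit 380) (nat_lit 0) (XT.lf (nat_lit 0) (nat_lit 399944101) (nat_lit 380) (nat_lit 5719550940) (nat_lit 456) (nat_lit 31128812670) (nat_lit 131) (nat_lit 5) (nat_lit 136) (nat_lit 5) (nat_lit 137) (nat_lit 5) (nat_lit 452) (nat_lit 438) (nat_lit 310)) (XT.nd (nat_lit 78) (nat_lit 380) (nat_lit 0) (XT.lf (nat_lit 0) (nat_lit 10648090222) (nat_lit 456) (nat_lit 16660893779) (nat_lit 76) (nat_lit 10960480281) (nat_lit 131) (nat_lit 5) (nat_lit 137) (nat_lit 5) (nat_lit 132) (nat_lit 5) (nat_lit 453) (nat_lit 438) (nat_lit 309)) (XT.lf (nat_lit 0) (nat_lit 4585358305) (nat_lit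 380) (nat_lit 10979726547) (nat_lit 456) (nat_lit 23768495799) (nat_lit 126) (nat_lit 5) (nat_lit 131) (nat_lit 5) (nat_lit 132) (nat_lit 5) (nat_lit 454) (nat_lit 438) (nat_lit 308)))) (XT.nd (nat_lit 156) (nat_lit 304) (nat_lit 0) (XT.nd (nat_lit 78) (nat_lit 304) (nat_lit 0) (XT.lf (nat_lit 0) (nat_lit 21107701870) (nat_lit 456) (nat_lit 13069027953) (nat_lit 76) (nat_lit 6255184817) (nat_lit 126) (nat_lit 5) (nat_lit 132) (nat_lit 5) (nat_lit 127) (nat_lit 5) (nat_lit 455) (nat_lit 438) (nat_lit 307)) (XT.lf (nat_lit 0) (nat_lit 9825079584) (nat_lit 304) (nat_lit 17432637302) (nat_lit 380) (nat_lit 14310935497) (nat_lit 122) (nat_lit 5) (nat_lit 126) (nat_lit 5) (nat_lit 127) (nat_lit 5) (nat_lit 456) (nat_lit 438) (nat_lit 306))) (XT.nd (nat_lit 78) (nat_lit 304) (nat_lit 0) (XT.lf (nat_lit 0) (nat_lit 33939475091) (nat_lit 380) (nat_lit 8443093737) (nat_lit 76) (nat_lit 368446457) (nat_lit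 122) (nat_lit 5) (nat_lit 127) (nat_lit 5) (nat_lit 123) (nat_lit 5) (nat_lit 457) (nat_lit 438) (nat_lit 305)) (XT.lf (nat_lit 0) (nat_lit 16253406946) (nat_lit 304) (nat_lit 25238563825) (nat_lit 380) (nat_lit 2473693458) (nat_lit 118) (nat_lit 5) (nat_lit 122) (nat_lit 5) (nat_lit 123) (nat_lit 5) (nat_lit 458) (nat_lit 438) (nat_lit 304))))) (XT.nd (nat_lit 312) (nat_lit 532) (nat_lit 0) (XT.nd (nat_lit 156) (nat_lit 304) (nat_lit 0) (XT.nd (nat_lit 78) (nat_lit 304) (nat_lit 0) (XT.lf (nat_lit 0) (nat_lit 4189704031) (nat_lit 380) (nat_lit 2827131586) (nat_lit 76) (nat_lit 38213822552) (nat_lit 117) (nat_lit 5) (nat_lit 122) (nat_lit 5) (nat_lit 118) (nat_lit 5) (nat_lit 459) (nat_lit 438) (nat_lit 303)) (XT.lf (nat_lit 0) (nat_lit 11671526140) (nat_lit 380) (nat_lit 22706803854) (nat_lit 76) (nat_lit 12150125164) (nat_lit 113) (nat_lit 5) (nat_lit 118) (nat_lit 5) (nat_lit 114) (nat_lit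 5) (nat_lit 460) (nat_lit 438) (nat_lit 302))) (XT.nd (nat_lit 78) (nat_lit 0) (nat_lit 0) (XT.lf (nat_lit 0) (nat_lit 4021809588) (nat_lit 304) (nat_lit 15729466341) (nat_lit 380) (nat_lit 28128674547) (nat_lit 109) (nat_lit 5) (nat_lit 113) (nat_lit 5) (nat_lit 114) (nat_lit 5) (nat_lit 461) (nat_lit 438) (nat_lit 301)) (XT.lf (nat_lit 0) (nat_lit 28683419719) (nat_lit 380) (nat_lit 16474490789) (nat_lit 76) (nat_lit 4118690021) (nat_lit 109) (nat_lit 5) (nat_lit 114) (nat_lit 5) (nat_lit 110) (nat_lit 5) (nat_lit 462) (nat_lit 438) (nat_lit 300)))) (XT.nd (nat_lit 156) (nat_lit 304) (nat_lit 0) (XT.nd (nat_lit 78) (nat_lit 0) (nat_lit 0) (XT.lf (nat_lit 0) (nat_lit 12414550289) (nat_lit 228) (nat_lit 26096843258) (nat_lit 304) (nat_lit 12209228674) (nat_lit 106) (nat_lit 5) (nat_lit 109) (nat_lit 5) (nat_lit 110) (nat_lit 5) (nat_lit 463) (nat_lit 438) (nat_lit 299)) (XT.lf (nat_lit 0) (nat_lit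 43316778797) (nat_lit 228) (nat_lit 5790594561) (nat_lit 304) (nat_lit 3115641542) (nat_lit 106) (nat_lit 5) (nat_lit 109) (nat_lit 5) (nat_lit 110) (nat_lit 5) (nat_lit 464) (nat_lit 438) (nat_lit 298))) (XT.nd (nat_lit 78) (nat_lit 0) (nat_lit 0) (XT.lf (nat_lit 0) (nat_lit 6826897380) (nat_lit 304) (nat_lit 31445082527) (nat_lit 76) (nat_lit 15493518152) (nat_lit 102) (nat_lit 5) (nat_lit 106) (nat_lit 5) (nat_lit 103) (nat_lit 5) (nat_lit 465) (nat_lit 438) (nat_lit 297)) (XT.lf (nat_lit 0) (nat_lit 17407818454) (nat_lit 304) (nat_lit 111630747) (nat_lit 76) (nat_lit 37850804540) (nat_lit 102) (nat_lit 5) (nat_lit 106) (nat_lit 5) (nat_lit 103) (nat_lit 5) (nat_lit 466) (nat_lit 438) (nat_lit 296)))))) (XT.nd (nat_lit 624) (nat_lit 912) (nat_lit 0) (XT.nd (nat_lit 312) (nat_lit 456) (nat_lit 0) (XT.nd (nat_lit 156) (nat_lit 228) (nat_lit 0) (XT.nd (nat_lit 78) (nat_lit 228) (nat_lit 0) (XT.lf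 (nat_lit 0) (nat_lit 29119753449) (nat_lit 304) (nat_lit 23234762231) (nat_lit 76) (nat_lit 4670633353) (nat_lit 99) (nat_lit 5) (nat_lit 103) (nat_lit 5) (nat_lit 100) (nat_lit 5) (nat_lit 467) (nat_lit 438) (nat_lit 295)) (XT.lf (nat_lit 0) (nat_lit 10680199167) (nat_lit 228) (nat_lit 31190839331) (nat_lit 304) (nat_lit 16869063135) (nat_lit 96) (nat_lit 5) (nat_lit 99) (nat_lit 5) (nat_lit 100) (nat_lit 5) (nat_lit 468) (nat_lit 438) (nat_lit 294))) (XT.nd (nat_lit 78) (nat_lit 228) (nat_lit 0) (XT.lf (nat_lit 0) (nat_lit 47094531813) (nat_lit 228) (nat_lit 8556781362) (nat_lit 304) (nat_lit 4869917618) (nat_lit 96) (nat_lit 5) (nat_lit 99) (nat_lit 5) (nat_lit 100) (nat_lit 5) (nat_lit 469) (nat_lit 438) (nat_lit 293)) (XT.lf (nat_lit 0) (nat_lit 8093229242) (nat_lit 228) (nat_lit 39043649770) (nat_lit 76) (nat_lit 15217932555) (nat_lit 93) (nat_lit 5) (nat_lit 96) (nat_lit 5) (nat_lit 94)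 (nat_lit 5) (nat_lit 470) (nat_lit 438) (nat_lit 292)))) (XT.nd (nat_lit 156) (nat_lit 228) (nat_lit 0) (XT.nd (nat_lit 78) (nat_lit 228) (nat_lit 0) (XT.lf (nat_lit 0) (nat_lit 21910296965) (nat_lit 228) (nat_lit 2143471337) (nat_lit 76) (nat_lit 40203840279) (nat_lit 93) (nat_lit 5) (nat_lit 96) (nat_lit 5) (nat_lit 94) (nat_lit 5) (nat_lit 471) (nat_lit 438) (nat_lit 291)) (XT.lf (nat_lit 0) (nat_lit 37019177022) (nat_lit 304) (nat_lit 28429660610) (nat_lit 76) (nat_lit 776660029) (nat_lit 90) (nat_lit 5) (nat_lit 94) (nat_lit 5) (nat_lit 91) (nat_lit 5) (nat_lit 472) (nat_lit 438) (nat_lit 290))) (XT.nd (nat_lit 78) (nat_lit 76) (nat_lit 0) (XT.lf (nat_lit 0) (nat_lit 11486398573) (nat_lit 152) (nat_lit 42005815269) (nat_lit 228) (nat_lit 14769131873) (nat_lit 88) (nat_lit 5) (nat_lit 90) (nat_lit 5) (nat_lit 91) (nat_lit 5) (nat_lit 473) (nat_lit 438) (nat_lit 289)) (XT.lf (nat_lit 0) (nat_lit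 864971432) (nat_lit 228) (nat_lit 16006513042) (nat_lit 76) (nat_lit 53502820709) (nat_lit 87) (nat_lit 5) (nat_lit 90) (nat_lit 5) (nat_lit 88) (nat_lit 5) (nat_lit 474) (nat_lit 438) (nat_lit 288))))) (XT.nd (nat_lit 312) (nat_lit 380) (nat_lit 0) (XT.nd (nat_lit 156) (nat_lit 304) (nat_lit 0) (XT.nd (nat_lit 78) (nat_lit 0) (nat_lit 0) (XT.lf (nat_lit 0) (nat_lit 17370615029) (nat_lit 304) (nat_lit 45285566807) (nat_lit 76) (nat_lit 9895316337) (nat_lit 84) (nat_lit 5) (nat_lit 88) (nat_lit 5) (nat_lit 85) (nat_lit 5) (nat_lit 475) (nat_lit 438) (nat_lit 287)) (XT.lf (nat_lit 0) (nat_lit 35251928148) (nat_lit 304) (nat_lit 1850095711) (nat_lit 76) (nat_lit 37708007716) (nat_lit 84) (nat_lit 5) (nat_lit 88) (nat_lit 5) (nat_lit 85) (nat_lit 5) (nat_lit 476) (nat_lit 438) (nat_lit 286))) (XT.nd (nat_lit 78) (nat_lit 152) (nat_lit 0) (XT.lf (nat_lit 0) (nat_lit 45201221583) (nat_lit 152) (nat_lit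 9530168498) (nat_lit 228) (nat_lit 22414897530) (nat_lit 82) (nat_lit 5) (nat_lit 84) (nat_lit 5) (nat_lit 85) (nat_lit 5) (nat_lit 477) (nat_lit 438) (nat_lit 285)) (XT.lf (nat_lit 0) (nat_lit 15253359942) (nat_lit 152) (nat_lit 60503050581) (nat_lit 228) (nat_lit 3814366770) (nat_lit 80) (nat_lit 5) (nat_lit 82) (nat_lit 5) (nat_lit 83) (nat_lit 5) (nat_lit 478) (nat_lit 438) (nat_lit 284)))) (XT.nd (nat_lit 156) (nat_lit 152) (nat_lit 0) (XT.nd (nat_lit 78) (nat_lit 152) (nat_lit 0) (XT.lf (nat_lit 0) (nat_lit 15917677290) (nat_lit 228) (nat_lit 16581828723) (nat_lit 76) (nat_lit 49569491713) (nat_lit 79) (nat_lit 5) (nat_lit 82) (nat_lit 5) (nat_lit 80) (nat_lit 5) (nat_lit 479) (nat_lit 438) (nat_lit 283)) (XT.lf (nat_lit 0) (nat_lit 34582305819) (nat_lit 152) (nat_lit 2464229710) (nat_lit 228) (nat_lit 47615547236) (nat_lit 77) (nat_lit 5) (nat_lit 79) (nat_lit 5) (nat_lit 80) (nat_lit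 5) (nat_lit 480) (nat_lit 438) (nat_lit 282))) (XT.nd (nat_lit 78) (nat_lit 0) (nat_lit 0) (XT.lf (nat_lit 0) (nat_lit 1083134773) (nat_lit 152) (nat_lit 58903436255) (nat_lit 228) (nat_lit 27360514407) (nat_lit 75) (nat_lit 5) (nat_lit 77) (nat_lit 5) (nat_lit 78) (nat_lit 5) (nat_lit 481) (nat_lit 438) (nat_lit 281)) (XT.lf (nat_lit 0) (nat_lit 56498587013) (nat_lit 152) (nat_lit 28461415186) (nat_lit 228) (nat_lit 5162016435) (nat_lit 75) (nat_lit 5) (nat_lit 77) (nat_lit 5) (nat_lit 78) (nat_lit 5) (nat_lit 482) (nat_lit 438) (nat_lit 280))))))) (XT.nd (nat_lit 1170) (nat_lit 1216) (nat_lit 0) (XT.nd (nat_lit 546) (nat_lit 684) (nat_lit 0) (XT.nd (nat_lit 234) (nat_lit 304) (nat_lit 0) (XT.nd (nat_lit 78) (nat_lit 152) (nat_lit 0) (XT.lf (nat_lit 0) (nat_lit 17973712584) (nat_lit 228) (nat_lit 70999630222) (nat_lit 76) (nat_lit 4027784733) (nat_lit 72) (nat_lit 5) (nat_lit 75) (nat_lit 5)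 (nat_lit 73) (nat_lit 5) (nat_lit 483) (nat_lit 438) (nat_lit 279)) (XT.nd (nat_lit 78) (nat_lit 152) (nat_lit 0) (XT.lf (nat_lit 0) (nat_lit 43136679696) (nat_lit 228) (nat_lit 14983727225) (nat_lit 76) (nat_lit 37847357423) (nat_lit 72) (nat_lit 5) (nat_lit 75) (nat_lit 5) (nat_lit 73) (nat_lit 5) (nat_lit 484) (nat_lit 438) (nat_lit 278)) (XT.lf (nat_lit 0) (nat_lit 45279856323) (nat_lit 152) (nat_lit 24983536369) (nat_lit 228) (nat_lit 28784060497) (nat_lit 70) (nat_lit 5) (nat_lit 72) (nat_lit 5) (nat_lit 73) (nat_lit 5) (nat_lit 485) (nat_lit 438) (nat_lit 277)))) (XT.nd (nat_lit 156) (nat_lit 152) (nat_lit 0) (XT.nd (nat_lit 78) (nat_lit 76) (nat_lit 0) (XT.lf (nat_lit 0) (nat_lit 6868527689) (nat_lit 76) (nat_lit 92394896184) (nat_lit 152) (nat_lit 2991853546) (nat_lit 69) (nat_lit 5) (nat_lit 70) (nat_lit 5) (nat_lit 71) (nat_lit 4) (nat_lit 486) (nat_lit 438) (nat_lit 276)) (XT.lf (nat_lit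 0) (nat_lit 24652678784) (nat_lit 152) (nat_lit 33977792625) (nat_lit 76) (nat_lit 46907528710) (nat_lit 68) (nat_lit 5) (nat_lit 70) (nat_lit 5) (nat_lit 69) (nat_lit 5) (nat_lit 487) (nat_lit 438) (nat_lit 275))) (XT.nd (nat_lit 78) (nat_lit 0) (nat_lit 0) (XT.lf (nat_lit 0) (nat_lit 31457131908) (nat_lit 152) (nat_lit 22611627563) (nat_lit 228) (nat_lit 54889153822) (nat_lit 66) (nat_lit 5) (nat_lit 68) (nat_lit 5) (nat_lit 69) (nat_lit 5) (nat_lit 488) (nat_lit 438) (nat_lit 274)) (XT.lf (nat_lit 0) (nat_lit 85776693754) (nat_lit 228) (nat_lit 11425759640) (nat_lit 76) (nat_lit 15305316312) (nat_lit 66) (nat_lit 5) (nat_lit 69) (nat_lit 5) (nat_lit 67) (nat_lit 4) (nat_lit 489) (nat_lit 438) (nat_lit 273))))) (XT.nd (nat_lit 312) (nat_lit 304) (nat_lit 0) (XT.nd (nat_lit 156) (nat_lit 76) (nat_lit 0) (XT.nd (nat_lit 78) (nat_lit 152) (nat_lit 0) (XT.lf (nat_lit 0) (nat_lit 4063651605) (nat_lit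 152) (nat_lit 56751721243) (nat_lit 76) (nat_lit 55351559081) (nat_lit 64) (nat_lit 5) (nat_lit 66) (nat_lit 5) (nat_lit 65) (nat_lit 5) (nat_lit 490) (nat_lit 438) (nat_lit 272)) (XT.lf (nat_lit 0) (nat_lit 14206679596) (nat_lit 152) (nat_lit 21710383761) (nat_lit 228) (nat_lit 84049213876) (nat_lit 62) (nat_lit 5) (nat_lit 64) (nat_lit 5) (nat_lit 65) (nat_lit 5) (nat_lit 491) (nat_lit 438) (nat_lit 271))) (XT.nd (nat_lit 78) (nat_lit 76) (nat_lit 0) (XT.lf (nat_lit 0) (nat_lit 70640941774) (nat_lit 228) (nat_lit 33544277077) (nat_lit 76) (nat_lit 19706481195) (nat_lit 62) (nat_lit 5) (nat_lit 65) (nat_lit 5) (nat_lit 63) (nat_lit 4) (nat_lit 492) (nat_lit 438) (nat_lit 270)) (XT.lf (nat_lit 0) (nat_lit 43310022524) (nat_lit 76) (nat_lit 64821963419) (nat_lit 152) (nat_lit 19829859511) (nat_lit 61) (nat_lit 5) (nat_lit 62) (nat_lit 5) (nat_lit 63) (nat_lit 4) (nat_lit 493) (nat_lit 438) (nat_lit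 269)))) (XT.nd (nat_lit 156) (nat_lit 76) (nat_lit 0) (XT.nd (nat_lit 78) (nat_lit 152) (nat_lit 0) (XT.lf (nat_lit 0) (nat_lit 15349880447) (nat_lit 152) (nat_lit 7285145921) (nat_lit 76) (nat_lit 109559743698) (nat_lit 60) (nat_lit 5) (nat_lit 62) (nat_lit 5) (nat_lit 61) (nat_lit 5) (nat_lit 494) (nat_lit 438) (nat_lit 268)) (XT.lf (nat_lit 0) (nat_lit 53171563640) (nat_lit 228) (nat_lit 60869629240) (nat_lit 76) (nat_lit 22504425607) (nat_lit 58) (nat_lit 5) (nat_lit 61) (nat_lit 5) (nat_lit 59) (nat_lit 4) (nat_lit 495) (nat_lit 438) (nat_lit 267))) (XT.nd (nat_lit 78) (nat_lit 0) (nat_lit 0) (XT.lf (nat_lit 0) (nat_lit 22267906053) (nat_lit 76) (nat_lit 71459492316) (nat_lit 152) (nat_lit 47344457630) (nat_lit 57) (nat_lit 5) (nat_lit 58) (nat_lit 5) (nat_lit 59) (nat_lit 4) (nat_lit 496) (nat_lit 438) (nat_lit 266)) (XT.lf (nat_lit 0) (nat_lit 111673624205) (nat_lit 76) (nat_lit 25667214331)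 (nat_lit 152) (nat_lit 8432076199) (nat_lit 57) (nat_lit 5) (nat_lit 58) (nat_lit 5) (nat_lit 59) (nat_lit 4) (nat_lit 497) (nat_lit 438) (nat_lit 265)))))) (XT.nd (nat_lit 624) (nat_lit 532) (nat_lit 0) (XT.nd (nat_lit 312) (nat_lit 228) (nat_lit 0) (XT.nd (nat_lit 156) (nat_lit 228) (nat_lit 0) (XT.nd (nat_lit 78) (nat_lit 0) (nat_lit 0) (XT.lf (nat_lit 0) (nat_lit 32636020092) (nat_lit 228) (nat_lit 94883627044) (nat_lit 76) (nat_lit 23101669936) (nat_lit 54) (nat_lit 5) (nat_lit 57) (nat_lit 5) (nat_lit 55) (nat_lit 4) (nat_lit 498) (nat_lit 438) (nat_lit 264)) (XT.lf (nat_lit 0) (nat_lit 76480873035) (nat_lit 228) (nat_lit 5003262953) (nat_lit 76) (nat_lit 74170755785) (nat_lit 54) (nat_lit 5) (nat_lit 57) (nat_lit 5) (nat_lit 55) (nat_lit 4) (nat_lit 499) (nat_lit 438) (nat_lit 263))) (XT.nd (nat_lit 78) (nat_lit 152) (nat_lit 0) (XT.lf (nat_lit 0) (nat_lit 92324266707) (nat_lit 76) (nat_lit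 31634186160) (nat_lit 152) (nat_lit 36909668161) (nat_lit 53) (nat_lit 5) (nat_lit 54) (nat_lit 5) (nat_lit 55) (nat_lit 4) (nat_lit 500) (nat_lit 438) (nat_lit 262)) (XT.lf (nat_lit 0) (nat_lit 8103529712) (nat_lit 152) (nat_lit 137475382002) (nat_lit 76) (nat_lit 20713537856) (nat_lit 51) (nat_lit 5) (nat_lit 53) (nat_lit 5) (nat_lit 52) (nat_lit 4) (nat_lit 501) (nat_lit 438) (nat_lit 261)))) (XT.nd (nat_lit 156) (nat_lit 152) (nat_lit 0) (XT.nd (nat_lit 78) (nat_lit 76) (nat_lit 0) (XT.lf (nat_lit 0) (nat_lit 55824477623) (nat_lit 152) (nat_lit 39648742310) (nat_lit 76) (nat_lit 76399645953) (nat_lit 51) (nat_lit 5) (nat_lit 53) (nat_lit 5) (nat_lit 52) (nat_lit 4) (nat_lit 502) (nat_lit 438) (nat_lit 260)) (XT.lf (nat_lit 0) (nat_lit 65152799448) (nat_lit 76) (nat_lit 41794987059) (nat_lit 152) (nat_lit 70733700857) (nat_lit 50) (nat_lit 5) (nat_lit 51) (nat_lit 5) (nat_lit 52) (nat_lit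 4) (nat_lit 503) (nat_lit 438) (nat_lit 259))) (XT.nd (nat_lit 78) (nat_lit 152) (nat_lit 0) (XT.lf (nat_lit 0) (nat_lit 161536273006) (nat_lit 152) (nat_lit 7416205440) (nat_lit 0) (nat_lit 14782610884) (nat_lit 50) (nat_lit 5) (nat_lit 52) (nat_lit 4) (nat_lit 50) (nat_lit 4) (nat_lit 504) (nat_lit 438) (nat_lit 258)) (XT.lf (nat_lit 0) (nat_lit 30214224062) (nat_lit 152) (nat_lit 84815575208) (nat_lit 76) (nat_lit 74920518679) (nat_lit 48) (nat_lit 5) (nat_lit 50) (nat_lit 5) (nat_lit 49) (nat_lit 4) (nat_lit 505) (nat_lit 438) (nat_lit 257))))) (XT.nd (nat_lit 312) (nat_lit 304) (nat_lit 0) (XT.nd (nat_lit 156) (nat_lit 152) (nat_lit 0) (XT.nd (nat_lit 78) (nat_lit 0) (nat_lit 0) (XT.lf (nat_lit 0) (nat_lit 27616976183) (nat_lit 76) (nat_lit 57442893117) (nat_lit 152) (nat_lit 111370344035) (nat_lit 47) (nat_lit 5) (nat_lit 48) (nat_lit 5) (nat_lit 49) (nat_lit 4) (nat_lit 506) (nat_lit 438)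 (nat_lit 256)) (XT.lf (nat_lit 0) (nat_lit 144154087552) (nat_lit 152) (nat_lit 54618926814) (nat_lit 0) (nat_lit 4385774606) (nat_lit 47) (nat_lit 5) (nat_lit 49) (nat_lit 4) (nat_lit 47) (nat_lit 4) (nat_lit 507) (nat_lit 438) (nat_lit 255))) (XT.nd (nat_lit 78) (nat_lit 76) (nat_lit 0) (XT.lf (nat_lit 0) (nat_lit 66469269880) (nat_lit 76) (nat_lit 141712393217) (nat_lit 76) (nat_lit 1943197993) (nat_lit 46) (nat_lit 4) (nat_lit 47) (nat_lit 5) (nat_lit 47) (nat_lit 4) (nat_lit 508) (nat_lit 438) (nat_lit 254)) (XT.lf (nat_lit 0) (nat_lit 57055285662) (nat_lit 152) (nat_lit 22806699881) (nat_lit 76) (nat_lit 137485028939) (nat_lit 45) (nat_lit 5) (nat_lit 47) (nat_lit 5) (nat_lit 46) (nat_lit 4) (nat_lit 509) (nat_lit 438) (nat_lit 253)))) (XT.nd (nat_lit 156) (nat_lit 152) (nat_lit 0) (XT.nd (nat_lit 78) (nat_lit 76) (nat_lit 0) (XT.lf (nat_lit 0) (nat_lit 107491684993) (nat_lit 76) (nat_lit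 13124178779) (nat_lit 152) (nat_lit 104228945277) (nat_lit 44) (nat_lit 5) (nat_lit 45) (nat_lit 5) (nat_lit 46) (nat_lit 4) (nat_lit 510) (nat_lit 438) (nat_lit 252)) (XT.lf (nat_lit 0) (nat_lit 11881908188) (nat_lit 76) (nat_lit 176939034542) (nat_lit 76) (nat_lit 43823227032) (nat_lit 43) (nat_lit 4) (nat_lit 44) (nat_lit 5) (nat_lit 44) (nat_lit 4) (nat_lit 511) (nat_lit 438) (nat_lit 251))) (XT.nd (nat_lit 78) (nat_lit 76) (nat_lit 0) (XT.lf (nat_lit 0) (nat_lit 21209760763) (nat_lit 152) (nat_lit 89636489231) (nat_lit 76) (nat_lit 129860226071) (nat_lit 42) (nat_lit 5) (nat_lit 44) (nat_lit 5) (nat_lit 43) (nat_lit 4) (nat_lit 512) (nat_lit 438) (nat_lit 250)) (XT.lf (nat_lit 0) (nat_lit 48890527793) (nat_lit 76) (nat_lit 39893708772) (nat_lit 152) (nat_lit 160313611133) (nat_lit 41) (nat_lit 5) (nat_lit 42) (nat_lit 5) (nat_lit 43) (nat_lit 4) (nat_lit 513) (nat_lit 438) (nat_lit 249))))))))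
noncomputable def xc175 : XT := (XT.nd (nat_lit 2418) (nat_lit 152) (nat_lit 0) (XT.nd (nat_lit 1170) (nat_lit 760) (nat_lit 0) (XT.nd (nat_lit 546) (nat_lit 456) (nat_lit 0) (XT.nd (nat_lit 234) (nat_lit 304) (nat_lit 0) (XT.nd (nat_lit 78) (nat_lit 152) (nat_lit 0) (XT.lf (nat_lit 0) (nat_lit 161819933461) (nat_lit 152) (nat_lit 60943638217) (nat_lit 0) (nat_lit 35041091380) (nat_lit 41) (nat_lit 5) (nat_lit 43) (nat_lit 4) (nat_lit 41) (nat_lit 4) (nat_lit 514) (nat_lit 438) (nat_lit 248)) (XT.nd (nat_lit 78) (nat_lit 76) (nat_lit 0) (XT.lf (nat_lit 0) (nat_lit 87426045421) (nat_lit 76) (nat_lit 153099635645) (nat_lit 76) (nat_lit 26320224840) (nat_lit 40) (nat_lit 4) (nat_lit 41) (nat_lit 5) (nat_lit 41) (nat_lit 4) (nat_lit 515) (nat_lit 438) (nat_lit 247)) (XT.lf (nat_lit 0) (nat_lit 46377068342) (nat_lit 152) (nat_lit 31706962344) (nat_lit 76) (nat_lit 198166208001) (nat_lit 39) (nat_lit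 5) (nat_lit 41) (nat_lit 5) (nat_lit 40) (nat_lit 4) (nat_lit 516) (nat_lit 438) (nat_lit 246)))) (XT.nd (nat_lit 156) (nat_lit 228) (nat_lit 0) (XT.nd (nat_lit 78) (nat_lit 0) (nat_lit 0) (XT.lf (nat_lit 0) (nat_lit 123857467952) (nat_lit 152) (nat_lit 159029942701) (nat_lit 0) (nat_lit 3114164813) (nat_lit 38) (nat_lit 5) (nat_lit 40) (nat_lit 4) (nat_lit 38) (nat_lit 4) (nat_lit 517) (nat_lit 438) (nat_lit 245)) (XT.lf (nat_lit 0) (nat_lit 207037069820) (nat_lit 152) (nat_lit 2818851370) (nat_lit 0) (nat_lit 86293298790) (nat_lit 38) (nat_lit 5) (nat_lit 40) (nat_lit 4) (nat_lit 38) (nat_lit 4) (nat_lit 518) (nat_lit 438) (nat_lit 244))) (XT.nd (nat_lit 78) (nat_lit 152) (nat_lit 0) (XT.lf (nat_lit 0) (nat_lit 166531604172) (nat_lit 76) (nat_lit 130443444673) (nat_lit 76) (nat_lit 9699228033) (nat_lit 37) (nat_lit 4) (nat_lit 38) (nat_lit 5) (nat_lit 38) (nat_lit 4) (nat_lit 519) (nat_lit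 438) (nat_lit 243)) (XT.lf (nat_lit 0) (nat_lit 26417322177) (nat_lit 76) (nat_lit 45369001338) (nat_lit 152) (nat_lit 245858725041) (nat_lit 35) (nat_lit 5) (nat_lit 36) (nat_lit 5) (nat_lit 37) (nat_lit 4) (nat_lit 520) (nat_lit 438) (nat_lit 242))))) (XT.nd (nat_lit 312) (nat_lit 228) (nat_lit 0) (XT.nd (nat_lit 156) (nat_lit 152) (nat_lit 0) (XT.nd (nat_lit 78) (nat_lit 76) (nat_lit 0) (XT.lf (nat_lit 0) (nat_lit 160118186682) (nat_lit 152) (nat_lit 123760416844) (nat_lit 0) (nat_lit 45122905528) (nat_lit 35) (nat_lit 5) (nat_lit 37) (nat_lit 4) (nat_lit 35) (nat_lit 4) (nat_lit 521) (nat_lit 438) (nat_lit 241)) (XT.lf (nat_lit 0) (nat_lit 53032697021) (nat_lit 76) (nat_lit 201405092986) (nat_lit 76) (nat_lit 86409445227) (nat_lit 34) (nat_lit 4) (nat_lit 35) (nat_lit 5) (nat_lit 35) (nat_lit 4) (nat_lit 522) (nat_lit 438) (nat_lit 240))) (XT.nd (nat_lit 78) (nat_lit 76) (nat_lit 0) (XT.lf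 (nat_lit 0) (nat_lit 2311811267) (nat_lit 152) (nat_lit 110256783808) (nat_lit 76) (nat_lit 240610020464) (nat_lit 33) (nat_lit 5) (nat_lit 35) (nat_lit 5) (nat_lit 34) (nat_lit 4) (nat_lit 523) (nat_lit 438) (nat_lit 239)) (XT.lf (nat_lit 0) (nat_lit 77233123636) (nat_lit 76) (nat_lit 16537341272) (nat_lit 152) (nat_lit 272225009626) (nat_lit 32) (nat_lit 5) (nat_lit 33) (nat_lit 5) (nat_lit 34) (nat_lit 4) (nat_lit 524) (nat_lit 438) (nat_lit 238)))) (XT.nd (nat_lit 156) (nat_lit 152) (nat_lit 0) (XT.nd (nat_lit 78) (nat_lit 76) (nat_lit 0) (XT.lf (nat_lit 0) (nat_lit 193015436345) (nat_lit 152) (nat_lit 102782249887) (nat_lit 0) (nat_lit 83494820999) (nat_lit 32) (nat_lit 5) (nat_lit 34) (nat_lit 4) (nat_lit 32) (nat_lit 4) (nat_lit 525) (nat_lit 438) (nat_lit 237)) (XT.lf (nat_lit 0) (nat_lit 95274040582) (nat_lit 76) (nat_lit 203706675300) (nat_lit 76) (nat_lit 94185772709) (nat_lit 31)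 (nat_lit 4) (nat_lit 32) (nat_lit 5) (nat_lit 32) (nat_lit 4) (nat_lit 526) (nat_lit 438) (nat_lit 236))) (XT.nd (nat_lit 78) (nat_lit 76) (nat_lit 0) (XT.lf (nat_lit 0) (nat_lit 4198415718) (nat_lit 152) (nat_lit 100914423934) (nat_lit 76) (nat_lit 302530936701) (nat_lit 30) (nat_lit 5) (nat_lit 32) (nat_lit 5) (nat_lit 31) (nat_lit 4) (nat_lit 527) (nat_lit 438) (nat_lit 235)) (XT.lf (nat_lit 0) (nat_lit 106047472993) (nat_lit 152) (nat_lit 314893365306) (nat_lit 0) (nat_lit 1741342806) (nat_lit 29) (nat_lit 5) (nat_lit 31) (nat_lit 4) (nat_lit 29) (nat_lit 4) (nat_lit 528) (nat_lit 438) (nat_lit 234)))))) (XT.nd (nat_lit 624) (nat_lit 304) (nat_lit 0) (XT.nd (nat_lit 312) (nat_lit 228) (nat_lit 0) (XT.nd (nat_lit 156) (nat_lit 152) (nat_lit 0) (XT.nd (nat_lit 78) (nat_lit 76) (nat_lit 0) (XT.lf (nat_lit 0) (nat_lit 216448683714) (nat_lit 152) (nat_lit 109708520144) (nat_lit 0) (nat_lit 112142317211)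 (nat_lit 29) (nat_lit 5) (nat_lit 31) (nat_lit 4) (nat_lit 29) (nat_lit 4) (nat_lit 529) (nat_lit 438) (nat_lit 233)) (XT.lf (nat_lit 0) (nat_lit 109230653230) (nat_lit 76) (nat_lit 224844210468) (nat_lit 76) (nat_lit 120537618902) (nat_lit 28) (nat_lit 4) (nat_lit 29) (nat_lit 5) (nat_lit 29) (nat_lit 4) (nat_lit 530) (nat_lit 438) (nat_lit 232))) (XT.nd (nat_lit 78) (nat_lit 152) (nat_lit 0) (XT.lf (nat_lit 0) (nat_lit 342924656019) (nat_lit 76) (nat_lit 116515183873) (nat_lit 76) (nat_lit 12208377960) (nat_lit 28) (nat_lit 4) (nat_lit 29) (nat_lit 5) (nat_lit 29) (nat_lit 4) (nat_lit 531) (nat_lit 438) (nat_lit 231)) (XT.lf (nat_lit 0) (nat_lit 99862908075) (nat_lit 152) (nat_lit 388991898605) (nat_lit 0) (nat_lit 522898502) (nat_lit 26) (nat_lit 5) (nat_lit 28) (nat_lit 4) (nat_lit 26) (nat_lit 4) (nat_lit 532) (nat_lit 438) (nat_lit 230)))) (XT.nd (nat_lit 156) (nat_lit 152) (nat_lit 0)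 (XT.nd (nat_lit 78) (nat_lit 76) (nat_lit 0) (XT.lf (nat_lit 0) (nat_lit 221252831604) (nat_lit 152) (nat_lit 164611923804) (nat_lit 0) (nat_lit 121912636870) (nat_lit 26) (nat_lit 5) (nat_lit 28) (nat_lit 4) (nat_lit 26) (nat_lit 4) (nat_lit 533) (nat_lit 438) (nat_lit 229)) (XT.lf (nat_lit 0) (nat_lit 73333285646) (nat_lit 76) (nat_lit 276523462169) (nat_lit 76) (nat_lit 177183091092) (nat_lit 25) (nat_lit 4) (nat_lit 26) (nat_lit 5) (nat_lit 26) (nat_lit 4) (nat_lit 534) (nat_lit 438) (nat_lit 228))) (XT.nd (nat_lit 78) (nat_lit 152) (nat_lit 0) (XT.lf (nat_lit 0) (nat_lit 328889836965) (nat_lit 76) (nat_lit 158788371255) (nat_lit 76) (nat_lit 59447832233) (nat_lit 25) (nat_lit 4) (nat_lit 26) (nat_lit 5) (nat_lit 26) (nat_lit 4) (nat_lit 535) (nat_lit 438) (nat_lit 227)) (XT.lf (nat_lit 0) (nat_lit 28930847389) (nat_lit 76) (nat_lit 33640638640) (nat_lit 152) (nat_lit 505572405537) (nat_lit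 23) (nat_lit 5) (nat_lit 24) (nat_lit 5) (nat_lit 25) (nat_lit 4) (nat_lit 536) (nat_lit 438) (nat_lit 226))))) (XT.nd (nat_lit 312) (nat_lit 228) (nat_lit 0) (XT.nd (nat_lit 156) (nat_lit 76) (nat_lit 0) (XT.nd (nat_lit 78) (nat_lit 0) (nat_lit 0) (XT.lf (nat_lit 0) (nat_lit 193976415756) (nat_lit 152) (nat_lit 296557286441) (nat_lit 0) (nat_lit 99366081182) (nat_lit 23) (nat_lit 5) (nat_lit 25) (nat_lit 4) (nat_lit 23) (nat_lit 4) (nat_lit 537) (nat_lit 438) (nat_lit 225)) (XT.lf (nat_lit 0) (nat_lit 332502678034) (nat_lit 152) (nat_lit 42321032157) (nat_lit 0) (nat_lit 237892205291) (nat_lit 23) (nat_lit 5) (nat_lit 25) (nat_lit 4) (nat_lit 23) (nat_lit 4) (nat_lit 538) (nat_lit 438) (nat_lit 224))) (XT.nd (nat_lit 78) (nat_lit 0) (nat_lit 0) (XT.lf (nat_lit 0) (nat_lit 232053426589) (nat_lit 76) (nat_lit 249524450381) (nat_lit 76) (nat_lit 154913846048) (nat_lit 22) (nat_lit 4) (nat_lit 23)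 (nat_lit 5) (nat_lit 23) (nat_lit 4) (nat_lit 539) (nat_lit 438) (nat_lit 223)) (XT.lf (nat_lit 0) (nat_lit 521615144214) (nat_lit 76) (nat_lit 117208044369) (nat_lit 76) (nat_lit 22597314712) (nat_lit 22) (nat_lit 4) (nat_lit 23) (nat_lit 5) (nat_lit 23) (nat_lit 4) (nat_lit 540) (nat_lit 438) (nat_lit 222)))) (XT.nd (nat_lit 156) (nat_lit 76) (nat_lit 0) (XT.nd (nat_lit 78) (nat_lit 0) (nat_lit 0) (XT.lf (nat_lit 0) (nat_lit 115213656454) (nat_lit 152) (nat_lit 547053061308) (nat_lit 0) (nat_lit 25108085965) (nat_lit 20) (nat_lit 5) (nat_lit 22) (nat_lit 4) (nat_lit 20) (nat_lit 4) (nat_lit 541) (nat_lit 438) (nat_lit 221)) (XT.lf (nat_lit 0) (nat_lit 263483325192) (nat_lit 152) (nat_lit 277530946808) (nat_lit 0) (nat_lit 173377646445) (nat_lit 20) (nat_lit 5) (nat_lit 22) (nat_lit 4) (nat_lit 20) (nat_lit 4) (nat_lit 542) (nat_lit 438) (nat_lit 220))) (XT.nd (nat_lit 78) (nat_lit 0) (nat_lit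 0) (XT.lf (nat_lit 0) (nat_lit 5647326804) (nat_lit 76) (nat_lit 413606976331) (nat_lit 76) (nat_lit 323501194479) (nat_lit 19) (nat_lit 4) (nat_lit 20) (nat_lit 5) (nat_lit 20) (nat_lit 4) (nat_lit 543) (nat_lit 438) (nat_lit 219)) (XT.lf (nat_lit 0) (nat_lit 312619076784) (nat_lit 76) (nat_lit 274894534958) (nat_lit 76) (nat_lit 184788654912) (nat_lit 19) (nat_lit 4) (nat_lit 20) (nat_lit 5) (nat_lit 20) (nat_lit 4) (nat_lit 544) (nat_lit 438) (nat_lit 218))))))) (XT.nd (nat_lit 55224) (nat_lit 0) (nat_lit 6460) (XT.nd (nat_lit 54600) (nat_lit 0) (nat_lit 9500) (XT.nd (nat_lit 54288) (nat_lit 0) (nat_lit 9880) (XT.nd (nat_lit 156) (nat_lit 0) (nat_lit 0) (XT.nd (nat_lit 78) (nat_lit 152) (nat_lit 0) (XT.lf (nat_lit 0) (nat_lit 634938761781) (nat_lit 76) (nat_lit 129246801040) (nat_lit 76) (nat_lit 39140827475) (nat_lit 19) (nat_lit 4) (nat_lit 20) (nat_lit 5) (nat_lit 20) (nat_lit 4) (nat_lit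 545) (nat_lit 438) (nat_lit 217)) (XT.lf (nat_lit 0) (nat_lit 112770506208) (nat_lit 152) (nat_lit 695956022584) (nat_lit 0) (nat_lit 26955208465) (nat_lit 17) (nat_lit 5) (nat_lit 19) (nat_lit 4) (nat_lit 17) (nat_lit 4) (nat_lit 546) (nat_lit 438) (nat_lit 216))) (XT.nd (nat_lit 54054) (nat_lit 0) (nat_lit 9880) (XT.lf (nat_lit 0) (nat_lit 275978981356) (nat_lit 152) (nat_lit 403229336574) (nat_lit 0) (nat_lit 190163602828) (nat_lit 17) (nat_lit 5) (nat_lit 19) (nat_lit 4) (nat_lit 17) (nat_lit 4) (nat_lit 547) (nat_lit 438) (nat_lit 215)) (XT.lf (nat_lit 0) (nat_lit 5063594662) (nat_lit 836) (nat_lit 4288712475) (nat_lit 836) (nat_lit 4288712475) (nat_lit 147) (nat_lit 3) (nat_lit 158) (nat_lit 3) (nat_lit 158) (nat_lit 5) (nat_lit 439) (nat_lit 439) (nat_lit 322)))) (XT.nd (nat_lit 156) (nat_lit 0) (nat_lit 76) (XT.nd (nat_lit 78) (nat_lit 0) (nat_lit 76) (XT.lf (nat_lit 76) (nat_lit 5117025408)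 (nat_lit 0) (nat_lit 5429979161) (nat_lit 836) (nat_lit 17408740444) (nat_lit 148) (nat_lit 5) (nat_lit 147) (nat_lit 3) (nat_lit 158) (nat_lit 5) (nat_lit 440) (nat_lit 439) (nat_lit 321)) (XT.lf (nat_lit 0) (nat_lit 11262735203) (nat_lit 760) (nat_lit 9000440234) (nat_lit 836) (nat_lit 8386215280) (nat_lit 148) (nat_lit 5) (nat_lit 158) (nat_lit 5) (nat_lit 159) (nat_lit 5) (nat_lit 441) (nat_lit 439) (nat_lit 320))) (XT.nd (nat_lit 78) (nat_lit 0) (nat_lit 76) (XT.lf (nat_lit 76) (nat_lit 5617352891) (nat_lit 0) (nat_lit 6568323532) (nat_lit 836) (nat_lit 17183471900) (nat_lit 149) (nat_lit 5) (nat_lit 148) (nat_lit 5) (nat_lit 159) (nat_lit 5) (nat_lit 442) (nat_lit 439) (nat_lit 319)) (XT.lf (nat_lit 0) (nat_lit 13426585613) (nat_lit 760) (nat_lit 8966625863) (nat_lit 836) (nat_lit 7718092065) (nat_lit 149) (nat_lit 5) (nat_lit 159) (nat_lit 5) (nat_lit 160) (nat_lit 5) (nat_lit 443) (nat_lit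 439) (nat_lit 318))))) (XT.nd (nat_lit 312) (nat_lit 532) (nat_lit 0) (XT.nd (nat_lit 156) (nat_lit 0) (nat_lit 76) (XT.nd (nat_lit 78) (nat_lit 0) (nat_lit 76) (XT.lf (nat_lit 76) (nat_lit 6660040592) (nat_lit 0) (nat_lit 8276339448) (nat_lit 836) (nat_lit 15943845235) (nat_lit 150) (nat_lit 5) (nat_lit 149) (nat_lit 5) (nat_lit 160) (nat_lit 5) (nat_lit 444) (nat_lit 439) (nat_lit 317)) (XT.lf (nat_lit 0) (nat_lit 16773597662) (nat_lit 760) (nat_lit 8408805647) (nat_lit 836) (nat_lit 6492593818) (nat_lit 150) (nat_lit 5) (nat_lit 160) (nat_lit 5) (nat_lit 161) (nat_lit 5) (nat_lit 445) (nat_lit 439) (nat_lit 316))) (XT.nd (nat_lit 78) (nat_lit 0) (nat_lit 76) (XT.lf (nat_lit 76) (nat_lit 8320486515) (nat_lit 0) (nat_lit 10643375966) (nat_lit 836) (nat_lit 13532586449) (nat_lit 151) (nat_lit 5) (nat_lit 150) (nat_lit 5) (nat_lit 161) (nat_lit 5) (nat_lit 446) (nat_lit 439) (nat_lit 315)) (XT.lf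 (nat_lit 0) (nat_lit 21476331209) (nat_lit 760) (nat_lit 7251642200) (nat_lit 836) (nat_lit 4620366021) (nat_lit 151) (nat_lit 5) (nat_lit 161) (nat_lit 5) (nat_lit 162) (nat_lit 5) (nat_lit 447) (nat_lit 439) (nat_lit 314)))) (XT.nd (nat_lit 156) (nat_lit 684) (nat_lit 0) (XT.nd (nat_lit 78) (nat_lit 0) (nat_lit 76) (XT.lf (nat_lit 76) (nat_lit 10683040327) (nat_lit 0) (nat_lit 13768635053) (nat_lit 836) (nat_lit 9774287086) (nat_lit 152) (nat_lit 5) (nat_lit 151) (nat_lit 5) (nat_lit 162) (nat_lit 5) (nat_lit 448) (nat_lit 439) (nat_lit 313)) (XT.lf (nat_lit 0) (nat_lit 27727007259) (nat_lit 760) (nat_lit 5410837435) (nat_lit 76) (nat_lit 2002061514) (nat_lit 152) (nat_lit 5) (nat_lit 162) (nat_lit 5) (nat_lit 153) (nat_lit 5) (nat_lit 449) (nat_lit 439) (nat_lit 312))) (XT.nd (nat_lit 78) (nat_lit 0) (nat_lit 0) (XT.lf (nat_lit 0) (nat_lit 13841879373) (nat_lit 760) (nat_lit 17762365621) (nat_lit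 836) (nat_lit 4473395735) (nat_lit 142) (nat_lit 5) (nat_lit 152) (nat_lit 5) (nat_lit 153) (nat_lit 5) (nat_lit 450) (nat_lit 439) (nat_lit 311)) (XT.lf (nat_lit 0) (nat_lit 34241853654) (nat_lit 760) (nat_lit 1521564635) (nat_lit 836) (nat_lit 1294440531) (nat_lit 142) (nat_lit 5) (nat_lit 152) (nat_lit 5) (nat_lit 153) (nat_lit 5) (nat_lit 451) (nat_lit 439) (nat_lit 310)))))) (XT.nd (nat_lit 624) (nat_lit 1216) (nat_lit 0) (XT.nd (nat_lit 312) (nat_lit 608) (nat_lit 0) (XT.nd (nat_lit 156) (nat_lit 380) (nat_lit 0) (XT.nd (nat_lit 78) (nat_lit 380) (nat_lit 0) (XT.lf (nat_lit 0) (nat_lit 2505159819) (nat_lit 456) (nat_lit 20199588651) (nat_lit 76) (nat_lit 15354389567) (nat_lit 136) (nat_lit 5) (nat_lit 142) (nat_lit 5) (nat_lit 137) (nat_lit 5) (nat_lit 452) (nat_lit 439) (nat_lit 309)) (XT.lf (nat_lit 0) (nat_lit 525101280) (nat_lit 380) (nat_lit 6004421634) (nat_lit 456) (nat_lit 32575983519)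 (nat_lit 131) (nat_lit 5) (nat_lit 136) (nat_lit 5) (nat_lit 137) (nat_lit 5) (nat_lit 453) (nat_lit 439) (nat_lit 308))) (XT.nd (nat_lit 78) (nat_lit 380) (nat_lit 0) (XT.lf (nat_lit 0) (nat_lit 11279609401) (nat_lit 456) (nat_lit 17388834319) (nat_lit 76) (nat_lit 11509524701) (nat_lit 131) (nat_lit 5) (nat_lit 137) (nat_lit 5) (nat_lit 132) (nat_lit 5) (nat_lit 454) (nat_lit 439) (nat_lit 307)) (XT.lf (nat_lit 0) (nat_lit 4918035141) (nat_lit 380) (nat_lit 11521313378) (nat_lit 456) (nat_lit 24856097986) (nat_lit 126) (nat_lit 5) (nat_lit 131) (nat_lit 5) (nat_lit 132) (nat_lit 5) (nat_lit 455) (nat_lit 439) (nat_lit 306)))) (XT.nd (nat_lit 156) (nat_lit 304) (nat_lit 0) (XT.nd (nat_lit 78) (nat_lit 304) (nat_lit 0) (XT.lf (nat_lit 0) (nat_lit 22254634536) (nat_lit 456) (nat_lit 13619520711) (nat_lit 76) (nat_lit 6574765645) (nat_lit 126) (nat_lit 5) (nat_lit 132) (nat_lit 5) (nat_lit 127)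 (nat_lit 5) (nat_lit 456) (nat_lit 439) (nat_lit 305)) (XT.lf (nat_lit 0) (nat_lit 10417631580) (nat_lit 304) (nat_lit 18291740861) (nat_lit 380) (nat_lit 14933262550) (nat_lit 122) (nat_lit 5) (nat_lit 126) (nat_lit 5) (nat_lit 127) (nat_lit 5) (nat_lit 457) (nat_lit 439) (nat_lit 304))) (XT.nd (nat_lit 78) (nat_lit 304) (nat_lit 0) (XT.lf (nat_lit 0) (nat_lit 35721177715) (nat_lit 380) (nat_lit 8764722305) (nat_lit 76) (nat_lit 398418610) (nat_lit 122) (nat_lit 5) (nat_lit 127) (nat_lit 5) (nat_lit 123) (nat_lit 5) (nat_lit 458) (nat_lit 439) (nat_lit 303)) (XT.lf (nat_lit 0) (nat_lit 17164982023) (nat_lit 304) (nat_lit 26483825627) (nat_lit 380) (nat_lit 2511017420) (nat_lit 118) (nat_lit 5) (nat_lit 122) (nat_lit 5) (nat_lit 123) (nat_lit 5) (nat_lit 459) (nat_lit 439) (nat_lit 302))))) (XT.nd (nat_lit 312) (nat_lit 532) (nat_lit 0) (XT.nd (nat_lit 156) (nat_lit 304) (nat_lit 0) (XT.nd (nat_lit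 78) (nat_lit 304) (nat_lit 0) (XT.lf (nat_lit 0) (nat_lit 4478805070) (nat_lit 380) (nat_lit 2871651243) (nat_lit 76) (nat_lit 40137744491) (nat_lit 117) (nat_lit 5) (nat_lit 122) (nat_lit 5) (nat_lit 118) (nat_lit 5) (nat_lit 460) (nat_lit 439) (nat_lit 301)) (XT.lf (nat_lit 0) (nat_lit 12332695017) (nat_lit 380) (nat_lit 23743274826) (nat_lit 76) (nat_lit 12775019415) (nat_lit 113) (nat_lit 5) (nat_lit 118) (nat_lit 5) (nat_lit 114) (nat_lit 5) (nat_lit 461) (nat_lit 439) (nat_lit 300))) (XT.nd (nat_lit 78) (nat_lit 0) (nat_lit 0) (XT.lf (nat_lit 0) (nat_lit 4320174624) (nat_lit 304) (nat_lit 16494081515) (nat_lit 380) (nat_lit 29455912441) (nat_lit 109) (nat_lit 5) (nat_lit 113) (nat_lit 5) (nat_lit 114) (nat_lit 5) (nat_lit 462) (nat_lit 439) (nat_lit 299)) (XT.lf (nat_lit 0) (nat_lit 30189740876) (nat_lit 380) (nat_lit 17202298462) (nat_lit 76) (nat_lit 4344775518) (nat_lit 109) (nat_lit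 5) (nat_lit 114) (nat_lit 5) (nat_lit 110) (nat_lit 5) (nat_lit 463) (nat_lit 439) (nat_lit 298)))) (XT.nd (nat_lit 156) (nat_lit 304) (nat_lit 0) (XT.nd (nat_lit 78) (nat_lit 0) (nat_lit 0) (XT.lf (nat_lit 0) (nat_lit 13129647624) (nat_lit 228) (nat_lit 27377503427) (nat_lit 304) (nat_lit 12745985089) (nat_lit 106) (nat_lit 5) (nat_lit 109) (nat_lit 5) (nat_lit 110) (nat_lit 5) (nat_lit 464) (nat_lit 439) (nat_lit 297)) (XT.lf (nat_lit 0) (nat_lit 45572493756) (nat_lit 228) (nat_lit 6057093819) (nat_lit 304) (nat_lit 3201228364) (nat_lit 106) (nat_lit 5) (nat_lit 109) (nat_lit 5) (nat_lit 110) (nat_lit 5) (nat_lit 465) (nat_lit 439) (nat_lit 296))) (XT.nd (nat_lit 78) (nat_lit 0) (nat_lit 0) (XT.lf (nat_lit 0) (nat_lit 7234753135) (nat_lit 304) (nat_lit 32923762450) (nat_lit 76) (nat_lit 16291925094) (nat_lit 102) (nat_lit 5) (nat_lit 106) (nat_lit 5) (nat_lit 103) (nat_lit 5) (nat_lit 466)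 (nat_lit 439) (nat_lit 295)) (XT.lf (nat_lit 0) (nat_lit 18341553077) (nat_lit 304) (nat_lit 28093996) (nat_lit 76) (nat_lit 39765945752) (nat_lit 102) (nat_lit 5) (nat_lit 106) (nat_lit 5) (nat_lit 103) (nat_lit 5) (nat_lit 467) (nat_lit 439) (nat_lit 294))))))))
noncomputable def xc176 : XT := (XT.nd (nat_lit 2418) (nat_lit 2128) (nat_lit 0) (XT.nd (nat_lit 1170) (nat_lit 1368) (nat_lit 0) (XT.nd (nat_lit 546) (nat_lit 988) (nat_lit 0) (XT.nd (nat_lit 234) (nat_lit 608) (nat_lit 0) (XT.nd (nat_lit 78) (nat_lit 228) (nat_lit 0) (XT.lf (nat_lit 0) (nat_lit 30637843093) (nat_lit 304) (nat_lit 24306134213) (nat_lit 76) (nat_lit 4929317969) (nat_lit 99) (nat_lit 5) (nat_lit 103) (nat_lit 5) (nat_lit 100) (nat_lit 5) (nat_lit 468) (nat_lit 439) (nat_lit 293)) (XT.nd (nat_lit 78) (nat_lit 0) (nat_lit 0) (XT.lf (nat_lit 0) (nat_lit 11303117737) (nat_lit 228) (nat_lit 32722005533) (nat_lit 304) (nat_lit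 17648950982) (nat_lit 96) (nat_lit 5) (nat_lit 99) (nat_lit 5) (nat_lit 100) (nat_lit 5) (nat_lit 469) (nat_lit 439) (nat_lit 292)) (XT.lf (nat_lit 0) (nat_lit 49533933272) (nat_lit 228) (nat_lit 8957595892) (nat_lit 304) (nat_lit 5052875109) (nat_lit 96) (nat_lit 5) (nat_lit 99) (nat_lit 5) (nat_lit 100) (nat_lit 5) (nat_lit 470) (nat_lit 439) (nat_lit 291)))) (XT.nd (nat_lit 156) (nat_lit 380) (nat_lit 0) (XT.nd (nat_lit 78) (nat_lit 0) (nat_lit 0) (XT.lf (nat_lit 0) (nat_lit 8555469914) (nat_lit 228) (nat_lit 40908187902) (nat_lit 76) (nat_lit 16006010341) (nat_lit 93) (nat_lit 5) (nat_lit 96) (nat_lit 5) (nat_lit 94) (nat_lit 5) (nat_lit 471) (nat_lit 439) (nat_lit 290)) (XT.lf (nat_lit 0) (nat_lit 23060649157) (nat_lit 228) (nat_lit 2167174088) (nat_lit 76) (nat_lit 42239919109) (nat_lit 93) (nat_lit 5) (nat_lit 96) (nat_lit 5) (nat_lit 94) (nat_lit 5) (nat_lit 472) (nat_lit 439) (nat_lit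 289))) (XT.nd (nat_lit 78) (nat_lit 152) (nat_lit 0) (XT.lf (nat_lit 0) (nat_lit 38924090888) (nat_lit 304) (nat_lit 29766785936) (nat_lit 76) (nat_lit 843193409) (nat_lit 90) (nat_lit 5) (nat_lit 94) (nat_lit 5) (nat_lit 91) (nat_lit 5) (nat_lit 473) (nat_lit 439) (nat_lit 288)) (XT.lf (nat_lit 0) (nat_lit 12143715598) (nat_lit 152) (nat_lit 44075790482) (nat_lit 228) (nat_lit 15452268499) (nat_lit 88) (nat_lit 5) (nat_lit 90) (nat_lit 5) (nat_lit 91) (nat_lit 5) (nat_lit 474) (nat_lit 439) (nat_lit 287))))) (XT.nd (nat_lit 312) (nat_lit 532) (nat_lit 0) (XT.nd (nat_lit 156) (nat_lit 152) (nat_lit 0) (XT.nd (nat_lit 78) (nat_lit 228) (nat_lit 0) (XT.lf (nat_lit 0) (nat_lit 959219416) (nat_lit 228) (nat_lit 16726103630) (nat_lit 76) (nat_lit 56205143486) (nat_lit 87) (nat_lit 5) (nat_lit 90) (nat_lit 5) (nat_lit 88) (nat_lit 5) (nat_lit 475) (nat_lit 439) (nat_lit 286)) (XT.lf (nat_lit 0) (nat_lit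 18289419299) (nat_lit 304) (nat_lit 47468380437) (nat_lit 76) (nat_lit 10418755918) (nat_lit 84) (nat_lit 5) (nat_lit 88) (nat_lit 5) (nat_lit 85) (nat_lit 5) (nat_lit 476) (nat_lit 439) (nat_lit 285))) (XT.nd (nat_lit 78) (nat_lit 152) (nat_lit 0) (XT.lf (nat_lit 0) (nat_lit 37062404097) (nat_lit 304) (nat_lit 1865015058) (nat_lit 76) (nat_lit 39620716448) (nat_lit 84) (nat_lit 5) (nat_lit 88) (nat_lit 5) (nat_lit 85) (nat_lit 5) (nat_lit 477) (nat_lit 439) (nat_lit 284)) (XT.lf (nat_lit 0) (nat_lit 47537616723) (nat_lit 152) (nat_lit 9977134214) (nat_lit 228) (nat_lit 23486508083) (nat_lit 82) (nat_lit 5) (nat_lit 84) (nat_lit 5) (nat_lit 85) (nat_lit 5) (nat_lit 478) (nat_lit 439) (nat_lit 283)))) (XT.nd (nat_lit 156) (nat_lit 304) (nat_lit 0) (XT.nd (nat_lit 78) (nat_lit 76) (nat_lit 0) (XT.lf (nat_lit 0) (nat_lit 16092982181) (nat_lit 152) (nat_lit 63497452813) (nat_lit 228) (nat_lit 3956567726)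 (nat_lit 80) (nat_lit 5) (nat_lit 82) (nat_lit 5) (nat_lit 83) (nat_lit 5) (nat_lit 479) (nat_lit 439) (nat_lit 282)) (XT.lf (nat_lit 0) (nat_lit 16758289272) (nat_lit 228) (nat_lit 17336148552) (nat_lit 76) (nat_lit 52075770443) (nat_lit 79) (nat_lit 5) (nat_lit 82) (nat_lit 5) (nat_lit 80) (nat_lit 5) (nat_lit 480) (nat_lit 439) (nat_lit 281))) (XT.nd (nat_lit 78) (nat_lit 152) (nat_lit 0) (XT.lf (nat_lit 0) (nat_lit 36384986724) (nat_lit 152) (nat_lit 2557622354) (nat_lit 228) (nat_lit 49950387687) (nat_lit 77) (nat_lit 5) (nat_lit 79) (nat_lit 5) (nat_lit 80) (nat_lit 5) (nat_lit 481) (nat_lit 439) (nat_lit 280)) (XT.lf (nat_lit 0) (nat_lit 1211367351) (nat_lit 152) (nat_lit 61817795740) (nat_lit 228) (nat_lit 28683110774) (nat_lit 75) (nat_lit 5) (nat_lit 77) (nat_lit 5) (nat_lit 78) (nat_lit 5) (nat_lit 482) (nat_lit 439) (nat_lit 279)))))) (XT.nd (nat_lit 624) (nat_lit 684) (nat_lit 0)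 (XT.nd (nat_lit 312) (nat_lit 304) (nat_lit 0) (XT.nd (nat_lit 156) (nat_lit 152) (nat_lit 0) (XT.nd (nat_lit 78) (nat_lit 228) (nat_lit 0) (XT.lf (nat_lit 0) (nat_lit 59394064782) (nat_lit 152) (nat_lit 29855140871) (nat_lit 228) (nat_lit 5376851206) (nat_lit 75) (nat_lit 5) (nat_lit 77) (nat_lit 5) (nat_lit 78) (nat_lit 5) (nat_lit 483) (nat_lit 439) (nat_lit 278)) (XT.lf (nat_lit 0) (nat_lit 18913855139) (nat_lit 228) (nat_lit 74477249468) (nat_lit 76) (nat_lit 4258004159) (nat_lit 72) (nat_lit 5) (nat_lit 75) (nat_lit 5) (nat_lit 73) (nat_lit 5) (nat_lit 484) (nat_lit 439) (nat_lit 277))) (XT.nd (nat_lit 78) (nat_lit 152) (nat_lit 0) (XT.lf (nat_lit 0) (nat_lit 45332996467) (nat_lit 228) (nat_lit 15663997144) (nat_lit 76) (nat_lit 39767182618) (nat_lit 72) (nat_lit 5) (nat_lit 75) (nat_lit 5) (nat_lit 73) (nat_lit 5) (nat_lit 485) (nat_lit 439) (nat_lit 276)) (XT.lf (nat_lit 0) (nat_lit 47611654026)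 (nat_lit 152) (nat_lit 26203569577) (nat_lit 228) (nat_lit 30182667091) (nat_lit 70) (nat_lit 5) (nat_lit 72) (nat_lit 5) (nat_lit 73) (nat_lit 5) (nat_lit 486) (nat_lit 439) (nat_lit 275)))) (XT.nd (nat_lit 156) (nat_lit 152) (nat_lit 0) (XT.nd (nat_lit 78) (nat_lit 76) (nat_lit 0) (XT.lf (nat_lit 0) (nat_lit 7280121600) (nat_lit 76) (nat_lit 96984791363) (nat_lit 152) (nat_lit 3101210442) (nat_lit 69) (nat_lit 5) (nat_lit 70) (nat_lit 5) (nat_lit 71) (nat_lit 4) (nat_lit 487) (nat_lit 439) (nat_lit 274)) (XT.lf (nat_lit 0) (nat_lit 25922406042) (nat_lit 152) (nat_lit 35610532524) (nat_lit 76) (nat_lit 49280105087) (nat_lit 68) (nat_lit 5) (nat_lit 70) (nat_lit 5) (nat_lit 69) (nat_lit 5) (nat_lit 488) (nat_lit 439) (nat_lit 273))) (XT.nd (nat_lit 78) (nat_lit 0) (nat_lit 0) (XT.lf (nat_lit 0) (nat_lit 33095071303) (nat_lit 152) (nat_lit 23713469236) (nat_lit 228) (nat_lit 57595449544) (nat_lit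 66) (nat_lit 5) (nat_lit 68) (nat_lit 5) (nat_lit 69) (nat_lit 5) (nat_lit 489) (nat_lit 439) (nat_lit 272)) (XT.lf (nat_lit 0) (nat_lit 90100568254) (nat_lit 228) (nat_lit 11933759083) (nat_lit 76) (nat_lit 16097077228) (nat_lit 66) (nat_lit 5) (nat_lit 69) (nat_lit 5) (nat_lit 67) (nat_lit 4) (nat_lit 490) (nat_lit 439) (nat_lit 271))))) (XT.nd (nat_lit 312) (nat_lit 304) (nat_lit 0) (XT.nd (nat_lit 156) (nat_lit 76) (nat_lit 0) (XT.nd (nat_lit 78) (nat_lit 152) (nat_lit 0) (XT.lf (nat_lit 0) (nat_lit 4301742126) (nat_lit 152) (nat_lit 59525883849) (nat_lit 76) (nat_lit 58145905669) (nat_lit 64) (nat_lit 5) (nat_lit 66) (nat_lit 5) (nat_lit 65) (nat_lit 5) (nat_lit 491) (nat_lit 439) (nat_lit 270)) (XT.lf (nat_lit 0) (nat_lit 14979414073) (nat_lit 152) (nat_lit 22767722356) (nat_lit 228) (nat_lit 88215742257) (nat_lit 62) (nat_lit 5) (nat_lit 64) (nat_lit 5) (nat_lit 65) (nat_lit 5) (nat_lit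 492) (nat_lit 439) (nat_lit 269))) (XT.nd (nat_lit 78) (nat_lit 76) (nat_lit 0) (XT.lf (nat_lit 0) (nat_lit 74205998274) (nat_lit 228) (nat_lit 35160850046) (nat_lit 76) (nat_lit 20717784910) (nat_lit 62) (nat_lit 5) (nat_lit 65) (nat_lit 5) (nat_lit 63) (nat_lit 4) (nat_lit 493) (nat_lit 439) (nat_lit 268)) (XT.lf (nat_lit 0) (nat_lit 45535186456) (nat_lit 76) (nat_lit 68035767822) (nat_lit 152) (nat_lit 20787363714) (nat_lit 61) (nat_lit 5) (nat_lit 62) (nat_lit 5) (nat_lit 63) (nat_lit 4) (nat_lit 494) (nat_lit 439) (nat_lit 267)))) (XT.nd (nat_lit 156) (nat_lit 76) (nat_lit 0) (XT.nd (nat_lit 78) (nat_lit 152) (nat_lit 0) (XT.lf (nat_lit 0) (nat_lit 16148708679) (nat_lit 152) (nat_lit 7591544283) (nat_lit 76) (nat_lit 115062687733) (nat_lit 60) (nat_lit 5) (nat_lit 62) (nat_lit 5) (nat_lit 61) (nat_lit 5) (nat_lit 495) (nat_lit 439) (nat_lit 266)) (XT.lf (nat_lit 0) (nat_lit 55861281671)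 (nat_lit 228) (nat_lit 63855056301) (nat_lit 76) (nat_lit 23655003339) (nat_lit 58) (nat_lit 5) (nat_lit 61) (nat_lit 5) (nat_lit 59) (nat_lit 4) (nat_lit 496) (nat_lit 439) (nat_lit 265))) (XT.nd (nat_lit 78) (nat_lit 0) (nat_lit 0) (XT.lf (nat_lit 0) (nat_lit 23438419395) (nat_lit 76) (nat_lit 75005897663) (nat_lit 152) (nat_lit 49679603245) (nat_lit 57) (nat_lit 5) (nat_lit 58) (nat_lit 5) (nat_lit 59) (nat_lit 4) (nat_lit 497) (nat_lit 439) (nat_lit 264)) (XT.lf (nat_lit 0) (nat_lit 117311703549) (nat_lit 76) (nat_lit 26925270983) (nat_lit 152) (nat_lit 8823130232) (nat_lit 57) (nat_lit 5) (nat_lit 58) (nat_lit 5) (nat_lit 59) (nat_lit 4) (nat_lit 498) (nat_lit 439) (nat_lit 263))))))) (XT.nd (nat_lit 1170) (nat_lit 988) (nat_lit 0) (XT.nd (nat_lit 546) (nat_lit 608) (nat_lit 0) (XT.nd (nat_lit 234) (nat_lit 228) (nat_lit 0) (XT.nd (nat_lit 78) (nat_lit 76) (nat_lit 0) (XT.lf (nat_lit 0)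 (nat_lit 34297233189) (nat_lit 228) (nat_lit 99572270710) (nat_lit 76) (nat_lit 24281407510) (nat_lit 54) (nat_lit 5) (nat_lit 57) (nat_lit 5) (nat_lit 55) (nat_lit 4) (nat_lit 499) (nat_lit 439) (nat_lit 262)) (XT.nd (nat_lit 78) (nat_lit 76) (nat_lit 0) (XT.lf (nat_lit 0) (nat_lit 80332928204) (nat_lit 228) (nat_lit 5200533066) (nat_lit 76) (nat_lit 77902773648) (nat_lit 54) (nat_lit 5) (nat_lit 57) (nat_lit 5) (nat_lit 55) (nat_lit 4) (nat_lit 500) (nat_lit 439) (nat_lit 261)) (XT.lf (nat_lit 0) (nat_lit 96992519963) (nat_lit 76) (nat_lit 33191345671) (nat_lit 152) (nat_lit 38726286112) (nat_lit 53) (nat_lit 5) (nat_lit 54) (nat_lit 5) (nat_lit 55) (nat_lit 4) (nat_lit 501) (nat_lit 439) (nat_lit 260)))) (XT.nd (nat_lit 156) (nat_lit 76) (nat_lit 0) (XT.nd (nat_lit 78) (nat_lit 0) (nat_lit 0) (XT.lf (nat_lit 0) (nat_lit 8536516230) (nat_lit 152) (nat_lit 144296054218) (nat_lit 76) (nat_lit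 21773110349) (nat_lit 51) (nat_lit 5) (nat_lit 53) (nat_lit 5) (nat_lit 52) (nat_lit 4) (nat_lit 502) (nat_lit 439) (nat_lit 259)) (XT.lf (nat_lit 0) (nat_lit 58642187249) (nat_lit 152) (nat_lit 41580610965) (nat_lit 76) (nat_lit 80242385965) (nat_lit 51) (nat_lit 5) (nat_lit 53) (nat_lit 5) (nat_lit 52) (nat_lit 4) (nat_lit 503) (nat_lit 439) (nat_lit 258))) (XT.nd (nat_lit 78) (nat_lit 0) (nat_lit 0) (XT.lf (nat_lit 0) (nat_lit 68460192261) (nat_lit 76) (nat_lit 43860984871) (nat_lit 152) (nat_lit 74243083855) (nat_lit 50) (nat_lit 5) (nat_lit 51) (nat_lit 5) (nat_lit 52) (nat_lit 4) (nat_lit 504) (nat_lit 439) (nat_lit 257)) (XT.lf (nat_lit 0) (nat_lit 169638202969) (nat_lit 152) (nat_lit 7738746419) (nat_lit 0) (nat_lit 15543637945) (nat_lit 50) (nat_lit 5) (nat_lit 52) (nat_lit 4) (nat_lit 50) (nat_lit 4) (nat_lit 505) (nat_lit 439) (nat_lit 256))))) (XT.nd (nat_lit 312) (nat_lit 304) (nat_lit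 0) (XT.nd (nat_lit 156) (nat_lit 76) (nat_lit 0) (XT.nd (nat_lit 78) (nat_lit 76) (nat_lit 0) (XT.lf (nat_lit 0) (nat_lit 31750001915) (nat_lit 152) (nat_lit 89008033807) (nat_lit 76) (nat_lit 78688544203) (nat_lit 48) (nat_lit 5) (nat_lit 50) (nat_lit 5) (nat_lit 49) (nat_lit 4) (nat_lit 506) (nat_lit 439) (nat_lit 255)) (XT.lf (nat_lit 0) (nat_lit 29045365795) (nat_lit 76) (nat_lit 60292112215) (nat_lit 152) (nat_lit 116913014670) (nat_lit 47) (nat_lit 5) (nat_lit 48) (nat_lit 5) (nat_lit 49) (nat_lit 4) (nat_lit 507) (nat_lit 439) (nat_lit 254))) (XT.nd (nat_lit 78) (nat_lit 76) (nat_lit 0) (XT.lf (nat_lit 0) (nat_lit 151385575908) (nat_lit 152) (nat_lit 57303764400) (nat_lit 0) (nat_lit 4626198381) (nat_lit 47) (nat_lit 5) (nat_lit 49) (nat_lit 4) (nat_lit 47) (nat_lit 4) (nat_lit 508) (nat_lit 439) (nat_lit 253)) (XT.lf (nat_lit 0) (nat_lit 69838098439) (nat_lit 76) (nat_lit 148776007497)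 (nat_lit 76) (nat_lit 2015829717) (nat_lit 46) (nat_lit 4) (nat_lit 47) (nat_lit 5) (nat_lit 47) (nat_lit 4) (nat_lit 509) (nat_lit 439) (nat_lit 252)))) (XT.nd (nat_lit 156) (nat_lit 152) (nat_lit 0) (XT.nd (nat_lit 78) (nat_lit 76) (nat_lit 0) (XT.lf (nat_lit 0) (nat_lit 59930662441) (nat_lit 152) (nat_lit 23903081919) (nat_lit 76) (nat_lit 144379489760) (nat_lit 45) (nat_lit 5) (nat_lit 47) (nat_lit 5) (nat_lit 46) (nat_lit 4) (nat_lit 510) (nat_lit 439) (nat_lit 251)) (XT.lf (nat_lit 0) (nat_lit 112909513280) (nat_lit 76) (nat_lit 13759354551) (nat_lit 152) (nat_lit 109417070688) (nat_lit 44) (nat_lit 5) (nat_lit 45) (nat_lit 5) (nat_lit 46) (nat_lit 4) (nat_lit 511) (nat_lit 439) (nat_lit 250))) (XT.nd (nat_lit 78) (nat_lit 76) (nat_lit 0) (XT.lf (nat_lit 0) (nat_lit 12519320123) (nat_lit 76) (nat_lit 185764811996) (nat_lit 76) (nat_lit 45991138602) (nat_lit 43) (nat_lit 4) (nat_lit 44)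 (nat_lit 5) (nat_lit 44) (nat_lit 4) (nat_lit 512) (nat_lit 439) (nat_lit 249)) (XT.lf (nat_lit 0) (nat_lit 22291682748) (nat_lit 152) (nat_lit 94076350777) (nat_lit 76) (nat_lit 136372694267) (nat_lit 42) (nat_lit 5) (nat_lit 44) (nat_lit 5) (nat_lit 43) (nat_lit 4) (nat_lit 513) (nat_lit 439) (nat_lit 248)))))) (XT.nd (nat_lit 624) (nat_lit 456) (nat_lit 0) (XT.nd (nat_lit 312) (nat_lit 304) (nat_lit 0) (XT.nd (nat_lit 156) (nat_lit 152) (nat_lit 0) (XT.nd (nat_lit 78) (nat_lit 0) (nat_lit 0) (XT.lf (nat_lit 0) (nat_lit 51376340277) (nat_lit 76) (nat_lit 41868165990) (nat_lit 152) (nat_lit 168307180561) (nat_lit 41) (nat_lit 5) (nat_lit 42) (nat_lit 5) (nat_lit 43) (nat_lit 4) (nat_lit 514) (nat_lit 439) (nat_lit 247)) (XT.lf (nat_lit 0) (nat_lit 169931286033) (nat_lit 152) (nat_lit 63950797718) (nat_lit 0) (nat_lit 36811794322) (nat_lit 41) (nat_lit 5) (nat_lit 43) (nat_lit 4) (nat_lit 41)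 (nat_lit 4) (nat_lit 515) (nat_lit 439) (nat_lit 246))) (XT.nd (nat_lit 78) (nat_lit 76) (nat_lit 0) (XT.lf (nat_lit 0) (nat_lit 91836724579) (nat_lit 76) (nat_lit 160735241894) (nat_lit 76) (nat_lit 27615234333) (nat_lit 40) (nat_lit 4) (nat_lit 41) (nat_lit 5) (nat_lit 41) (nat_lit 4) (nat_lit 516) (nat_lit 439) (nat_lit 245)) (XT.lf (nat_lit 0) (nat_lit 48715283246) (nat_lit 152) (nat_lit 33254168189) (nat_lit 76) (nat_lit 208092330814) (nat_lit 39) (nat_lit 5) (nat_lit 41) (nat_lit 5) (nat_lit 40) (nat_lit 4) (nat_lit 517) (nat_lit 439) (nat_lit 244)))) (XT.nd (nat_lit 156) (nat_lit 228) (nat_lit 0) (XT.nd (nat_lit 78) (nat_lit 0) (nat_lit 0) (XT.lf (nat_lit 0) (nat_lit 130069655627) (nat_lit 152) (nat_lit 166943250071) (nat_lit 0) (nat_lit 3287782545) (nat_lit 38) (nat_lit 5) (nat_lit 40) (nat_lit 4) (nat_lit 38) (nat_lit 4) (nat_lit 518) (nat_lit 439) (nat_lit 243)) (XT.lf (nat_lit 0) (nat_lit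 217407317861) (nat_lit 152) (nat_lit 2923422735) (nat_lit 0) (nat_lit 90625020388) (nat_lit 38) (nat_lit 5) (nat_lit 40) (nat_lit 4) (nat_lit 38) (nat_lit 4) (nat_lit 519) (nat_lit 439) (nat_lit 242))) (XT.nd (nat_lit 78) (nat_lit 152) (nat_lit 0) (XT.lf (nat_lit 0) (nat_lit 174893968952) (nat_lit 76) (nat_lit 136947909650) (nat_lit 76) (nat_lit 10165207996) (nat_lit 37) (nat_lit 4) (nat_lit 38) (nat_lit 5) (nat_lit 38) (nat_lit 4) (nat_lit 520) (nat_lit 439) (nat_lit 241)) (XT.lf (nat_lit 0) (nat_lit 27773993653) (nat_lit 76) (nat_lit 47619704025) (nat_lit 152) (nat_lit 258132700173) (nat_lit 35) (nat_lit 5) (nat_lit 36) (nat_lit 5) (nat_lit 37) (nat_lit 4) (nat_lit 521) (nat_lit 439) (nat_lit 240))))) (XT.nd (nat_lit 312) (nat_lit 228) (nat_lit 0) (XT.nd (nat_lit 156) (nat_lit 152) (nat_lit 0) (XT.nd (nat_lit 78) (nat_lit 76) (nat_lit 0) (XT.lf (nat_lit 0) (nat_lit 168141557992) (nat_lit 152)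 (nat_lit 129913741102) (nat_lit 0) (nat_lit 47395412093) (nat_lit 35) (nat_lit 5) (nat_lit 37) (nat_lit 4) (nat_lit 35) (nat_lit 4) (nat_lit 522) (nat_lit 439) (nat_lit 239)) (XT.lf (nat_lit 0) (nat_lit 55718468834) (nat_lit 76) (nat_lit 211458374100) (nat_lit 76) (nat_lit 90711895680) (nat_lit 34) (nat_lit 4) (nat_lit 35) (nat_lit 5) (nat_lit 35) (nat_lit 4) (nat_lit 523) (nat_lit 439) (nat_lit 238))) (XT.nd (nat_lit 78) (nat_lit 76) (nat_lit 0) (XT.lf (nat_lit 0) (nat_lit 2444016114) (nat_lit 152) (nat_lit 115736562072) (nat_lit 76) (nat_lit 252656137224) (nat_lit 33) (nat_lit 5) (nat_lit 35) (nat_lit 5) (nat_lit 34) (nat_lit 4) (nat_lit 524) (nat_lit 439) (nat_lit 237)) (XT.lf (nat_lit 0) (nat_lit 81127307504) (nat_lit 76) (nat_lit 17348011626) (nat_lit 152) (nat_lit 285819112401) (nat_lit 32) (nat_lit 5) (nat_lit 33) (nat_lit 5) (nat_lit 34) (nat_lit 4) (nat_lit 525) (nat_lit 439) (nat_lit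 236)))) (XT.nd (nat_lit 156) (nat_lit 152) (nat_lit 0) (XT.nd (nat_lit 78) (nat_lit 76) (nat_lit 0) (XT.lf (nat_lit 0) (nat_lit 202682002307) (nat_lit 152) (nat_lit 107889846628) (nat_lit 0) (nat_lit 87684493776) (nat_lit 32) (nat_lit 5) (nat_lit 34) (nat_lit 4) (nat_lit 32) (nat_lit 4) (nat_lit 526) (nat_lit 439) (nat_lit 235)) (XT.lf (nat_lit 0) (nat_lit 100068750045) (nat_lit 76) (nat_lit 213876527786) (nat_lit 76) (nat_lit 98878758716) (nat_lit 31) (nat_lit 4) (nat_lit 32) (nat_lit 5) (nat_lit 32) (nat_lit 4) (nat_lit 527) (nat_lit 439) (nat_lit 234))) (XT.nd (nat_lit 78) (nat_lit 76) (nat_lit 0) (XT.lf (nat_lit 0) (nat_lit 4423365878) (nat_lit 152) (nat_lit 105930117152) (nat_lit 76) (nat_lit 317671730522) (nat_lit 30) (nat_lit 5) (nat_lit 32) (nat_lit 5) (nat_lit 31) (nat_lit 4) (nat_lit 528) (nat_lit 439) (nat_lit 233)) (XT.lf (nat_lit 0) (nat_lit 111364852172) (nat_lit 152) (nat_lit 330607981605)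 (nat_lit 0) (nat_lit 1842705963) (nat_lit 29) (nat_lit 5) (nat_lit 31) (nat_lit 4) (nat_lit 29) (nat_lit 4) (nat_lit 529) (nat_lit 439) (nat_lit 232))))))))
noncomputable def xc177 : XT := (XT.nd (nat_lit 56472) (nat_lit 0) (nat_lit 4408) (XT.nd (nat_lit 1170) (nat_lit 152) (nat_lit 0) (XT.nd (nat_lit 546) (nat_lit 456) (nat_lit 0) (XT.nd (nat_lit 234) (nat_lit 228) (nat_lit 0) (XT.nd (nat_lit 78) (nat_lit 76) (nat_lit 0) (XT.lf (nat_lit 0) (nat_lit 227285408880) (nat_lit 152) (nat_lit 115165325232) (nat_lit 0) (nat_lit 117763048325) (nat_lit 29) (nat_lit 5) (nat_lit 31) (nat_lit 4) (nat_lit 29) (nat_lit 4) (nat_lit 530) (nat_lit 439) (nat_lit 231)) (XT.nd (nat_lit 78) (nat_lit 0) (nat_lit 0) (XT.lf (nat_lit 0) (nat_lit 114720345184) (nat_lit 76) (nat_lit 236072311803) (nat_lit 76) (nat_lit 126549747109) (nat_lit 28) (nat_lit 4) (nat_lit 29) (nat_lit 5) (nat_lit 29) (nat_lit 4) (nat_lit 531)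 (nat_lit 439) (nat_lit 230)) (XT.lf (nat_lit 0) (nat_lit 360097707193) (nat_lit 76) (nat_lit 122327505744) (nat_lit 76) (nat_lit 12804746632) (nat_lit 28) (nat_lit 4) (nat_lit 29) (nat_lit 5) (nat_lit 29) (nat_lit 4) (nat_lit 532) (nat_lit 439) (nat_lit 229)))) (XT.nd (nat_lit 156) (nat_lit 76) (nat_lit 0) (XT.nd (nat_lit 78) (nat_lit 0) (nat_lit 0) (XT.lf (nat_lit 0) (nat_lit 104869635328) (nat_lit 152) (nat_lit 408414206555) (nat_lit 0) (nat_lit 562069354) (nat_lit 26) (nat_lit 5) (nat_lit 28) (nat_lit 4) (nat_lit 26) (nat_lit 4) (nat_lit 533) (nat_lit 439) (nat_lit 228)) (XT.lf (nat_lit 0) (nat_lit 232328408278) (nat_lit 152) (nat_lit 172816532394) (nat_lit 0) (nat_lit 128020674359) (nat_lit 26) (nat_lit 5) (nat_lit 28) (nat_lit 4) (nat_lit 26) (nat_lit 4) (nat_lit 534) (nat_lit 439) (nat_lit 227))) (XT.nd (nat_lit 78) (nat_lit 0) (nat_lit 0) (XT.lf (nat_lit 0) (nat_lit 77025518374) (nat_lit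 76) (nat_lit 290336785164) (nat_lit 76) (nat_lit 186028891297) (nat_lit 25) (nat_lit 4) (nat_lit 26) (nat_lit 5) (nat_lit 26) (nat_lit 4) (nat_lit 535) (nat_lit 439) (nat_lit 226)) (XT.lf (nat_lit 0) (nat_lit 345358679713) (nat_lit 76) (nat_lit 166715551615) (nat_lit 76) (nat_lit 62407505416) (nat_lit 25) (nat_lit 4) (nat_lit 26) (nat_lit 5) (nat_lit 26) (nat_lit 4) (nat_lit 536) (nat_lit 439) (nat_lit 225))))) (XT.nd (nat_lit 312) (nat_lit 228) (nat_lit 0) (XT.nd (nat_lit 156) (nat_lit 76) (nat_lit 0) (XT.nd (nat_lit 78) (nat_lit 0) (nat_lit 0) (XT.lf (nat_lit 0) (nat_lit 30401748496) (nat_lit 76) (nat_lit 35310417246) (nat_lit 152) (nat_lit 530838315043) (nat_lit 23) (nat_lit 5) (nat_lit 24) (nat_lit 5) (nat_lit 25) (nat_lit 4) (nat_lit 537) (nat_lit 439) (nat_lit 224)) (XT.lf (nat_lit 0) (nat_lit 203686947707) (nat_lit 152) (nat_lit 311361557633) (nat_lit 0) (nat_lit 104345681567) (nat_lit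 23) (nat_lit 5) (nat_lit 25) (nat_lit 4) (nat_lit 23) (nat_lit 4) (nat_lit 538) (nat_lit 439) (nat_lit 223))) (XT.nd (nat_lit 78) (nat_lit 76) (nat_lit 0) (XT.lf (nat_lit 0) (nat_lit 349138965425) (nat_lit 152) (nat_lit 44414614117) (nat_lit 0) (nat_lit 249797573961) (nat_lit 23) (nat_lit 5) (nat_lit 25) (nat_lit 4) (nat_lit 23) (nat_lit 4) (nat_lit 539) (nat_lit 439) (nat_lit 222)) (XT.lf (nat_lit 0) (nat_lit 243678205153) (nat_lit 76) (nat_lit 261989533191) (nat_lit 76) (nat_lit 162648022372) (nat_lit 22) (nat_lit 4) (nat_lit 23) (nat_lit 5) (nat_lit 23) (nat_lit 4) (nat_lit 540) (nat_lit 439) (nat_lit 221)))) (XT.nd (nat_lit 156) (nat_lit 76) (nat_lit 0) (XT.nd (nat_lit 78) (nat_lit 152) (nat_lit 0) (XT.lf (nat_lit 0) (nat_lit 547716955934) (nat_lit 76) (nat_lit 123057837341) (nat_lit 76) (nat_lit 23716212849) (nat_lit 22) (nat_lit 4) (nat_lit 23) (nat_lit 5) (nat_lit 23) (nat_lit 4) (nat_lit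 541) (nat_lit 439) (nat_lit 220)) (XT.lf (nat_lit 0) (nat_lit 120984944920) (nat_lit 152) (nat_lit 574384297775) (nat_lit 0) (nat_lit 26373770871) (nat_lit 20) (nat_lit 5) (nat_lit 22) (nat_lit 4) (nat_lit 20) (nat_lit 4) (nat_lit 542) (nat_lit 439) (nat_lit 219))) (XT.nd (nat_lit 78) (nat_lit 76) (nat_lit 0) (XT.lf (nat_lit 0) (nat_lit 276667592065) (nat_lit 152) (nat_lit 291387097388) (nat_lit 0) (nat_lit 182056319822) (nat_lit 20) (nat_lit 5) (nat_lit 22) (nat_lit 4) (nat_lit 20) (nat_lit 4) (nat_lit 543) (nat_lit 439) (nat_lit 218)) (XT.lf (nat_lit 0) (nat_lit 5949760925) (nat_lit 76) (nat_lit 434277190312) (nat_lit 76) (nat_lit 339665824551) (nat_lit 19) (nat_lit 4) (nat_lit 20) (nat_lit 5) (nat_lit 20) (nat_lit 4) (nat_lit 544) (nat_lit 439) (nat_lit 217)))))) (XT.nd (nat_lit 54678) (nat_lit 0) (nat_lit 9500) (XT.nd (nat_lit 54366) (nat_lit 0) (nat_lit 9880) (XT.nd (nat_lit 156) (nat_lit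 152) (nat_lit 0) (XT.nd (nat_lit 78) (nat_lit 0) (nat_lit 0) (XT.lf (nat_lit 0) (nat_lit 328269142795) (nat_lit 76) (nat_lit 288629609483) (nat_lit 76) (nat_lit 194018154656) (nat_lit 19) (nat_lit 4) (nat_lit 20) (nat_lit 5) (nat_lit 20) (nat_lit 4) (nat_lit 545) (nat_lit 439) (nat_lit 216)) (XT.lf (nat_lit 0) (nat_lit 666703901938) (nat_lit 76) (nat_lit 135699948498) (nat_lit 76) (nat_lit 41088408847) (nat_lit 19) (nat_lit 4) (nat_lit 20) (nat_lit 5) (nat_lit 20) (nat_lit 4) (nat_lit 546) (nat_lit 439) (nat_lit 215))) (XT.nd (nat_lit 54132) (nat_lit 0) (nat_lit 9880) (XT.lf (nat_lit 0) (nat_lit 118418180590) (nat_lit 152) (nat_lit 730735310614) (nat_lit 0) (nat_lit 28311875413) (nat_lit 17) (nat_lit 5) (nat_lit 19) (nat_lit 4) (nat_lit 17) (nat_lit 4) (nat_lit 547) (nat_lit 439) (nat_lit 214)) (XT.lf (nat_lit 0) (nat_lit 5402164476) (nat_lit 836) (nat_lit 4458311702) (nat_lit 836) (nat_lit 4458311702)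 (nat_lit 147) (nat_lit 3) (nat_lit 158) (nat_lit 3) (nat_lit 158) (nat_lit 5) (nat_lit 440) (nat_lit 440) (nat_lit 320)))) (XT.nd (nat_lit 156) (nat_lit 0) (nat_lit 76) (XT.nd (nat_lit 78) (nat_lit 0) (nat_lit 76) (XT.lf (nat_lit 76) (nat_lit 5461103136) (nat_lit 0) (nat_lit 5777276897) (nat_lit 836) (nat_lit 18106925811) (nat_lit 148) (nat_lit 5) (nat_lit 147) (nat_lit 3) (nat_lit 158) (nat_lit 5) (nat_lit 441) (nat_lit 440) (nat_lit 319)) (XT.lf (nat_lit 0) (nat_lit 11980959396) (nat_lit 760) (nat_lit 9357475286) (nat_lit 836) (nat_lit 8735647241) (nat_lit 148) (nat_lit 5) (nat_lit 158) (nat_lit 5) (nat_lit 159) (nat_lit 5) (nat_lit 442) (nat_lit 440) (nat_lit 318))) (XT.nd (nat_lit 78) (nat_lit 0) (nat_lit 76) (XT.lf (nat_lit 76) (nat_lit 5989707706) (nat_lit 0) (nat_lit 6954383226) (nat_lit 836) (nat_lit 17886035454) (nat_lit 149) (nat_lit 5) (nat_lit 148) (nat_lit 5) (nat_lit 159) (nat_lit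 5) (nat_lit 443) (nat_lit 440) (nat_lit 317)) (XT.lf (nat_lit 0) (nat_lit 14239087000) (nat_lit 760) (nat_lit 9319846204) (nat_lit 836) (nat_lit 8050855178) (nat_lit 149) (nat_lit 5) (nat_lit 159) (nat_lit 5) (nat_lit 160) (nat_lit 5) (nat_lit 444) (nat_lit 440) (nat_lit 316))))) (XT.nd (nat_lit 312) (nat_lit 532) (nat_lit 0) (XT.nd (nat_lit 156) (nat_lit 0) (nat_lit 76) (XT.nd (nat_lit 78) (nat_lit 0) (nat_lit 76) (XT.lf (nat_lit 76) (nat_lit 7086619527) (nat_lit 0) (nat_lit 8732490138) (nat_lit 836) (nat_lit 16598310646) (nat_lit 150) (nat_lit 5) (nat_lit 149) (nat_lit 5) (nat_lit 160) (nat_lit 5) (nat_lit 445) (nat_lit 440) (nat_lit 315)) (XT.lf (nat_lit 0) (nat_lit 17741086759) (nat_lit 760) (nat_lit 8733003947) (nat_lit 836) (nat_lit 6778196106) (nat_lit 150) (nat_lit 5) (nat_lit 160) (nat_lit 5) (nat_lit 161) (nat_lit 5) (nat_lit 446) (nat_lit 440) (nat_lit 314))) (XT.nd (nat_lit 78) (nat_lit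 0) (nat_lit 76) (XT.lf (nat_lit 76) (nat_lit 8831200533) (nat_lit 0) (nat_lit 11205008885) (nat_lit 836) (nat_lit 14078835495) (nat_lit 151) (nat_lit 5) (nat_lit 150) (nat_lit 5) (nat_lit 161) (nat_lit 5) (nat_lit 447) (nat_lit 440) (nat_lit 313)) (XT.lf (nat_lit 0) (nat_lit 22667951384) (nat_lit 760) (nat_lit 7517675574) (nat_lit 836) (nat_lit 4824221384) (nat_lit 151) (nat_lit 5) (nat_lit 161) (nat_lit 5) (nat_lit 162) (nat_lit 5) (nat_lit 448) (nat_lit 440) (nat_lit 312)))) (XT.nd (nat_lit 156) (nat_lit 684) (nat_lit 0) (XT.nd (nat_lit 78) (nat_lit 0) (nat_lit 76) (XT.lf (nat_lit 76) (nat_lit 11312183842) (nat_lit 0) (nat_lit 14475752309) (nat_lit 836) (nat_lit 10143623561) (nat_lit 152) (nat_lit 5) (nat_lit 151) (nat_lit 5) (nat_lit 162) (nat_lit 5) (nat_lit 449) (nat_lit 440) (nat_lit 311)) (XT.lf (nat_lit 0) (nat_lit 29221343593) (nat_lit 760) (nat_lit 5585203964) (nat_lit 76) (nat_lit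 2084938447) (nat_lit 152) (nat_lit 5) (nat_lit 162) (nat_lit 5) (nat_lit 153) (nat_lit 5) (nat_lit 450) (nat_lit 440) (nat_lit 310))) (XT.nd (nat_lit 78) (nat_lit 0) (nat_lit 0) (XT.lf (nat_lit 0) (nat_lit 14628597470) (nat_lit 760) (nat_lit 18660180904) (nat_lit 836) (nat_lit 4587512891) (nat_lit 142) (nat_lit 5) (nat_lit 152) (nat_lit 5) (nat_lit 153) (nat_lit 5) (nat_lit 451) (nat_lit 440) (nat_lit 309)) (XT.lf (nat_lit 0) (nat_lit 36044064554) (nat_lit 760) (nat_lit 1606878107) (nat_lit 836) (nat_lit 1254826719) (nat_lit 142) (nat_lit 5) (nat_lit 152) (nat_lit 5) (nat_lit 153) (nat_lit 5) (nat_lit 452) (nat_lit 440) (nat_lit 308))))))) (XT.nd (nat_lit 1170) (nat_lit 2052) (nat_lit 0) (XT.nd (nat_lit 546) (nat_lit 1520) (nat_lit 0) (XT.nd (nat_lit 234) (nat_lit 684) (nat_lit 0) (XT.nd (nat_lit 78) (nat_lit 380) (nat_lit 0) (XT.lf (nat_lit 0) (nat_lit 2727952361) (nat_lit 456) (nat_lit 21112621229)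 (nat_lit 76) (nat_lit 16116631280) (nat_lit 136) (nat_lit 5) (nat_lit 142) (nat_lit 5) (nat_lit 137) (nat_lit 5) (nat_lit 453) (nat_lit 440) (nat_lit 307)) (XT.nd (nat_lit 78) (nat_lit 0) (nat_lit 0) (XT.lf (nat_lit 0) (nat_lit 646739540) (nat_lit 380) (nat_lit 6303638768) (nat_lit 456) (nat_lit 34105671779) (nat_lit 131) (nat_lit 5) (nat_lit 136) (nat_lit 5) (nat_lit 137) (nat_lit 5) (nat_lit 454) (nat_lit 440) (nat_lit 306)) (XT.lf (nat_lit 0) (nat_lit 11933489797) (nat_lit 456) (nat_lit 18162943473) (nat_lit 76) (nat_lit 12085926475) (nat_lit 131) (nat_lit 5) (nat_lit 137) (nat_lit 5) (nat_lit 132) (nat_lit 5) (nat_lit 455) (nat_lit 440) (nat_lit 305)))) (XT.nd (nat_lit 156) (nat_lit 304) (nat_lit 0) (XT.nd (nat_lit 78) (nat_lit 0) (nat_lit 0) (XT.lf (nat_lit 0) (nat_lit 5257731838) (nat_lit 380) (nat_lit 12090667486) (nat_lit 456) (nat_lit 26007453813) (nat_lit 126) (nat_lit 5) (nat_lit 131)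 (nat_lit 5) (nat_lit 132) (nat_lit 5) (nat_lit 456) (nat_lit 440) (nat_lit 304)) (XT.lf (nat_lit 0) (nat_lit 23450402611) (nat_lit 456) (nat_lit 14207110225) (nat_lit 76) (nat_lit 6909691307) (nat_lit 126) (nat_lit 5) (nat_lit 132) (nat_lit 5) (nat_lit 127) (nat_lit 5) (nat_lit 457) (nat_lit 440) (nat_lit 303))) (XT.nd (nat_lit 78) (nat_lit 0) (nat_lit 0) (XT.lf (nat_lit 0) (nat_lit 11030393446) (nat_lit 304) (nat_lit 19194964362) (nat_lit 380) (nat_lit 15595372643) (nat_lit 122) (nat_lit 5) (nat_lit 126) (nat_lit 5) (nat_lit 127) (nat_lit 5) (nat_lit 458) (nat_lit 440) (nat_lit 302)) (XT.lf (nat_lit 0) (nat_lit 37584088183) (nat_lit 380) (nat_lit 9111778267) (nat_lit 76) (nat_lit 428815577) (nat_lit 122) (nat_lit 5) (nat_lit 127) (nat_lit 5) (nat_lit 123) (nat_lit 5) (nat_lit 459) (nat_lit 440) (nat_lit 301))))) (XT.nd (nat_lit 312) (nat_lit 532) (nat_lit 0) (XT.nd (nat_lit 156) (nat_lit 608)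 (nat_lit 0) (XT.nd (nat_lit 78) (nat_lit 76) (nat_lit 0) (XT.lf (nat_lit 0) (nat_lit 18112940631) (nat_lit 304) (nat_lit 27792900002) (nat_lit 380) (nat_lit 2558236579) (nat_lit 118) (nat_lit 5) (nat_lit 122) (nat_lit 5) (nat_lit 123) (nat_lit 5) (nat_lit 460) (nat_lit 440) (nat_lit 300)) (XT.lf (nat_lit 0) (nat_lit 4774959235) (nat_lit 380) (nat_lit 2927399862) (nat_lit 76) (nat_lit 42156632450) (nat_lit 117) (nat_lit 5) (nat_lit 122) (nat_lit 5) (nat_lit 118) (nat_lit 5) (nat_lit 461) (nat_lit 440) (nat_lit 299))) (XT.nd (nat_lit 78) (nat_lit 304) (nat_lit 0) (XT.lf (nat_lit 0) (nat_lit 13019708515) (nat_lit 380) (nat_lit 24840761270) (nat_lit 76) (nat_lit 13429541808) (nat_lit 113) (nat_lit 5) (nat_lit 118) (nat_lit 5) (nat_lit 114) (nat_lit 5) (nat_lit 462) (nat_lit 440) (nat_lit 298)) (XT.lf (nat_lit 0) (nat_lit 4624414245) (nat_lit 304) (nat_lit 17298959612) (nat_lit 380) (nat_lit 30856875106)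 (nat_lit 109) (nat_lit 5) (nat_lit 113) (nat_lit 5) (nat_lit 114) (nat_lit 5) (nat_lit 463) (nat_lit 440) (nat_lit 297)))) (XT.nd (nat_lit 156) (nat_lit 304) (nat_lit 0) (XT.nd (nat_lit 78) (nat_lit 228) (nat_lit 0) (XT.lf (nat_lit 0) (nat_lit 31764670253) (nat_lit 380) (nat_lit 17975413960) (nat_lit 76) (nat_lit 4580291840) (nat_lit 109) (nat_lit 5) (nat_lit 114) (nat_lit 5) (nat_lit 110) (nat_lit 5) (nat_lit 464) (nat_lit 440) (nat_lit 296)) (XT.lf (nat_lit 0) (nat_lit 13871726214) (nat_lit 228) (nat_lit 28724444817) (nat_lit 304) (nat_lit 13316431719) (nat_lit 106) (nat_lit 5) (nat_lit 109) (nat_lit 5) (nat_lit 110) (nat_lit 5) (nat_lit 465) (nat_lit 440) (nat_lit 295))) (XT.nd (nat_lit 78) (nat_lit 304) (nat_lit 0) (XT.lf (nat_lit 0) (nat_lit 47932638643) (nat_lit 228) (nat_lit 6339059194) (nat_lit 304) (nat_lit 3297620616) (nat_lit 106) (nat_lit 5) (nat_lit 109) (nat_lit 5) (nat_lit 110)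 (nat_lit 5) (nat_lit 466) (nat_lit 440) (nat_lit 294)) (XT.lf (nat_lit 0) (nat_lit 7656818125) (nat_lit 304) (nat_lit 34485076012) (nat_lit 76) (nat_lit 17128046097) (nat_lit 102) (nat_lit 5) (nat_lit 106) (nat_lit 5) (nat_lit 103) (nat_lit 5) (nat_lit 467) (nat_lit 440) (nat_lit 293)))))) (XT.nd (nat_lit 624) (nat_lit 988) (nat_lit 0) (XT.nd (nat_lit 312) (nat_lit 608) (nat_lit 0) (XT.nd (nat_lit 156) (nat_lit 228) (nat_lit 0) (XT.nd (nat_lit 78) (nat_lit 0) (nat_lit 0) (XT.lf (nat_lit 0) (nat_lit 53031559) (nat_lit 228) (nat_lit 19263881746) (nat_lit 304) (nat_lit 41722539212) (nat_lit 99) (nat_lit 5) (nat_lit 102) (nat_lit 5) (nat_lit 103) (nat_lit 5) (nat_lit 468) (nat_lit 440) (nat_lit 292)) (XT.lf (nat_lit 0) (nat_lit 32226063566) (nat_lit 304) (nat_lit 25439476179) (nat_lit 76) (nat_lit 5198598333) (nat_lit 99) (nat_lit 5) (nat_lit 103) (nat_lit 5) (nat_lit 100) (nat_lit 5) (nat_lit 469)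 (nat_lit 440) (nat_lit 291))) (XT.nd (nat_lit 78) (nat_lit 0) (nat_lit 0) (XT.lf (nat_lit 0) (nat_lit 11948916356) (nat_lit 228) (nat_lit 34332368154) (nat_lit 304) (nat_lit 18473742921) (nat_lit 96) (nat_lit 5) (nat_lit 99) (nat_lit 5) (nat_lit 100) (nat_lit 5) (nat_lit 470) (nat_lit 440) (nat_lit 290)) (XT.lf (nat_lit 0) (nat_lit 52087432538) (nat_lit 228) (nat_lit 9380963635) (nat_lit 304) (nat_lit 5250608759) (nat_lit 96) (nat_lit 5) (nat_lit 99) (nat_lit 5) (nat_lit 100) (nat_lit 5) (nat_lit 471) (nat_lit 440) (nat_lit 289)))) (XT.nd (nat_lit 156) (nat_lit 380) (nat_lit 0) (XT.nd (nat_lit 78) (nat_lit 0) (nat_lit 0) (XT.lf (nat_lit 0) (nat_lit 9035469451) (nat_lit 228) (nat_lit 42874101282) (nat_lit 76) (nat_lit 16830964969) (nat_lit 93) (nat_lit 5) (nat_lit 96) (nat_lit 5) (nat_lit 94) (nat_lit 5) (nat_lit 472) (nat_lit 440) (nat_lit 288)) (XT.lf (nat_lit 0) (nat_lit 24263420701) (nat_lit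 228) (nat_lit 2199822302) (nat_lit 76) (nat_lit 44375395171) (nat_lit 93) (nat_lit 5) (nat_lit 96) (nat_lit 5) (nat_lit 94) (nat_lit 5) (nat_lit 473) (nat_lit 440) (nat_lit 287))) (XT.nd (nat_lit 78) (nat_lit 152) (nat_lit 0) (XT.lf (nat_lit 0) (nat_lit 40919234222) (nat_lit 304) (nat_lit 31178610308) (nat_lit 76) (nat_lit 910478139) (nat_lit 90) (nat_lit 5) (nat_lit 94) (nat_lit 5) (nat_lit 91) (nat_lit 5) (nat_lit 474) (nat_lit 440) (nat_lit 286)) (XT.lf (nat_lit 0) (nat_lit 12826182191) (nat_lit 152) (nat_lit 46252082907) (nat_lit 228) (nat_lit 16174705083) (nat_lit 88) (nat_lit 5) (nat_lit 90) (nat_lit 5) (nat_lit 91) (nat_lit 5) (nat_lit 475) (nat_lit 440) (nat_lit 285))))) (XT.nd (nat_lit 312) (nat_lit 532) (nat_lit 0) (XT.nd (nat_lit 156) (nat_lit 152) (nat_lit 0) (XT.nd (nat_lit 78) (nat_lit 228) (nat_lit 0) (XT.lf (nat_lit 0) (nat_lit 1053438356) (nat_lit 228) (nat_lit 17489179727) (nat_lit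 76) (nat_lit 59040055302) (nat_lit 87) (nat_lit 5) (nat_lit 90) (nat_lit 5) (nat_lit 88) (nat_lit 5) (nat_lit 476) (nat_lit 440) (nat_lit 284)) (XT.lf (nat_lit 0) (nat_lit 19249489827) (nat_lit 304) (nat_lit 49767908565) (nat_lit 76) (nat_lit 10965701663) (nat_lit 84) (nat_lit 5) (nat_lit 88) (nat_lit 5) (nat_lit 85) (nat_lit 5) (nat_lit 477) (nat_lit 440) (nat_lit 283))) (XT.nd (nat_lit 78) (nat_lit 152) (nat_lit 0) (XT.lf (nat_lit 0) (nat_lit 38958952458) (nat_lit 304) (nat_lit 1887893531) (nat_lit 76) (nat_lit 41626521746) (nat_lit 84) (nat_lit 5) (nat_lit 88) (nat_lit 5) (nat_lit 85) (nat_lit 5) (nat_lit 478) (nat_lit 440) (nat_lit 282)) (XT.lf (nat_lit 0) (nat_lit 49983734802) (nat_lit 152) (nat_lit 10449194817) (nat_lit 228) (nat_lit 24616267208) (nat_lit 82) (nat_lit 5) (nat_lit 84) (nat_lit 5) (nat_lit 85) (nat_lit 5) (nat_lit 479) (nat_lit 440) (nat_lit 281)))) (XT.nd (nat_lit 156) (nat_lit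 304) (nat_lit 0) (XT.nd (nat_lit 78) (nat_lit 76) (nat_lit 0) (XT.lf (nat_lit 0) (nat_lit 16967431057) (nat_lit 152) (nat_lit 66644434027) (nat_lit 228) (nat_lit 4110389416) (nat_lit 80) (nat_lit 5) (nat_lit 82) (nat_lit 5) (nat_lit 83) (nat_lit 5) (nat_lit 480) (nat_lit 440) (nat_lit 280)) (XT.lf (nat_lit 0) (nat_lit 17636773457) (nat_lit 228) (nat_lit 18135135927) (nat_lit 76) (nat_lit 54704778144) (nat_lit 79) (nat_lit 5) (nat_lit 82) (nat_lit 5) (nat_lit 80) (nat_lit 5) (nat_lit 481) (nat_lit 440) (nat_lit 279))) (XT.nd (nat_lit 78) (nat_lit 152) (nat_lit 0) (XT.lf (nat_lit 0) (nat_lit 38270962241) (nat_lit 152) (nat_lit 2658456904) (nat_lit 228) (nat_lit 52406240939) (nat_lit 77) (nat_lit 5) (nat_lit 79) (nat_lit 5) (nat_lit 80) (nat_lit 5) (nat_lit 482) (nat_lit 440) (nat_lit 278)) (XT.lf (nat_lit 0) (nat_lit 1339124688) (nat_lit 152) (nat_lit 64880737837) (nat_lit 228) (nat_lit 30076060551)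 (nat_lit 75) (nat_lit 5) (nat_lit 77) (nat_lit 5) (nat_lit 78) (nat_lit 5) (nat_lit 483) (nat_lit 440) (nat_lit 277))))))))
noncomputable def xc178 : XT := (XT.nd (nat_lit 2418) (nat_lit 1748) (nat_lit 0) (XT.nd (nat_lit 1170) (nat_lit 1140) (nat_lit 0) (XT.nd (nat_lit 546) (nat_lit 684) (nat_lit 0) (XT.nd (nat_lit 234) (nat_lit 456) (nat_lit 0) (XT.nd (nat_lit 78) (nat_lit 228) (nat_lit 0) (XT.lf (nat_lit 0) (nat_lit 62427757516) (nat_lit 152) (nat_lit 31321281067) (nat_lit 228) (nat_lit 5606450183) (nat_lit 75) (nat_lit 5) (nat_lit 77) (nat_lit 5) (nat_lit 78) (nat_lit 5) (nat_lit 484) (nat_lit 440) (nat_lit 276)) (XT.nd (nat_lit 78) (nat_lit 0) (nat_lit 0) (XT.lf (nat_lit 0) (nat_lit 19897150550) (nat_lit 228) (nat_lit 78135477234) (nat_lit 76) (nat_lit 4497054199) (nat_lit 72) (nat_lit 5) (nat_lit 75) (nat_lit 5) (nat_lit 73) (nat_lit 5) (nat_lit 485) (nat_lit 440) (nat_lit 275)) (XT.lf (nat_lit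 0) (nat_lit 47635458341) (nat_lit 228) (nat_lit 16384687756) (nat_lit 76) (nat_lit 41780446351) (nat_lit 72) (nat_lit 5) (nat_lit 75) (nat_lit 5) (nat_lit 73) (nat_lit 5) (nat_lit 486) (nat_lit 440) (nat_lit 274)))) (XT.nd (nat_lit 156) (nat_lit 228) (nat_lit 0) (XT.nd (nat_lit 78) (nat_lit 76) (nat_lit 0) (XT.lf (nat_lit 0) (nat_lit 50053737760) (nat_lit 152) (nat_lit 27487313943) (nat_lit 228) (nat_lit 31654978286) (nat_lit 70) (nat_lit 5) (nat_lit 72) (nat_lit 5) (nat_lit 73) (nat_lit 5) (nat_lit 487) (nat_lit 440) (nat_lit 273)) (XT.lf (nat_lit 0) (nat_lit 7705957637) (nat_lit 76) (nat_lit 101806956437) (nat_lit 152) (nat_lit 3219775924) (nat_lit 69) (nat_lit 5) (nat_lit 70) (nat_lit 5) (nat_lit 71) (nat_lit 4) (nat_lit 488) (nat_lit 440) (nat_lit 272))) (XT.nd (nat_lit 78) (nat_lit 152) (nat_lit 0) (XT.lf (nat_lit 0) (nat_lit 27252171078) (nat_lit 152) (nat_lit 37331059394) (nat_lit 76)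 (nat_lit 51768781490) (nat_lit 68) (nat_lit 5) (nat_lit 70) (nat_lit 5) (nat_lit 69) (nat_lit 5) (nat_lit 489) (nat_lit 440) (nat_lit 271)) (XT.lf (nat_lit 0) (nat_lit 34808856887) (nat_lit 152) (nat_lit 24873074938) (nat_lit 228) (nat_lit 60440607990) (nat_lit 66) (nat_lit 5) (nat_lit 68) (nat_lit 5) (nat_lit 69) (nat_lit 5) (nat_lit 490) (nat_lit 440) (nat_lit 270))))) (XT.nd (nat_lit 312) (nat_lit 380) (nat_lit 0) (XT.nd (nat_lit 156) (nat_lit 152) (nat_lit 0) (XT.nd (nat_lit 78) (nat_lit 152) (nat_lit 0) (XT.lf (nat_lit 0) (nat_lit 94637378810) (nat_lit 228) (nat_lit 12473042465) (nat_lit 76) (nat_lit 16925962926) (nat_lit 66) (nat_lit 5) (nat_lit 69) (nat_lit 5) (nat_lit 67) (nat_lit 4) (nat_lit 491) (nat_lit 440) (nat_lit 269)) (XT.lf (nat_lit 0) (nat_lit 4548491763) (nat_lit 152) (nat_lit 62444651098) (nat_lit 76) (nat_lit 61077480892) (nat_lit 64) (nat_lit 5) (nat_lit 66) (nat_lit 5)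 (nat_lit 65) (nat_lit 5) (nat_lit 492) (nat_lit 440) (nat_lit 268))) (XT.nd (nat_lit 78) (nat_lit 0) (nat_lit 0) (XT.lf (nat_lit 0) (nat_lit 15784983867) (nat_lit 152) (nat_lit 23880547845) (nat_lit 228) (nat_lit 92593937702) (nat_lit 62) (nat_lit 5) (nat_lit 64) (nat_lit 5) (nat_lit 65) (nat_lit 5) (nat_lit 493) (nat_lit 440) (nat_lit 267)) (XT.lf (nat_lit 0) (nat_lit 77946238697) (nat_lit 228) (nat_lit 36863889479) (nat_lit 76) (nat_lit 21777238469) (nat_lit 62) (nat_lit 5) (nat_lit 65) (nat_lit 5) (nat_lit 63) (nat_lit 4) (nat_lit 494) (nat_lit 440) (nat_lit 266)))) (XT.nd (nat_lit 156) (nat_lit 228) (nat_lit 0) (XT.nd (nat_lit 78) (nat_lit 76) (nat_lit 0) (XT.lf (nat_lit 0) (nat_lit 47866061702) (nat_lit 76) (nat_lit 71412799962) (nat_lit 152) (nat_lit 21795903081) (nat_lit 61) (nat_lit 5) (nat_lit 62) (nat_lit 5) (nat_lit 63) (nat_lit 4) (nat_lit 495) (nat_lit 440) (nat_lit 265)) (XT.lf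 (nat_lit 0) (nat_lit 16984565164) (nat_lit 152) (nat_lit 7918641739) (nat_lit 76) (nat_lit 120838458718) (nat_lit 60) (nat_lit 5) (nat_lit 62) (nat_lit 5) (nat_lit 61) (nat_lit 5) (nat_lit 496) (nat_lit 440) (nat_lit 264))) (XT.nd (nat_lit 78) (nat_lit 76) (nat_lit 0) (XT.lf (nat_lit 0) (nat_lit 58682590516) (nat_lit 228) (nat_lit 66995152062) (nat_lit 76) (nat_lit 24860752555) (nat_lit 58) (nat_lit 5) (nat_lit 61) (nat_lit 5) (nat_lit 59) (nat_lit 4) (nat_lit 497) (nat_lit 440) (nat_lit 263)) (XT.lf (nat_lit 0) (nat_lit 24662148111) (nat_lit 76) (nat_lit 78732093437) (nat_lit 152) (nat_lit 52134488382) (nat_lit 57) (nat_lit 5) (nat_lit 58) (nat_lit 5) (nat_lit 59) (nat_lit 4) (nat_lit 498) (nat_lit 440) (nat_lit 262)))))) (XT.nd (nat_lit 624) (nat_lit 608) (nat_lit 0) (XT.nd (nat_lit 312) (nat_lit 228) (nat_lit 0) (XT.nd (nat_lit 156) (nat_lit 76) (nat_lit 0) (XT.nd (nat_lit 78) (nat_lit 228)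 (nat_lit 0) (XT.lf (nat_lit 0) (nat_lit 123226629437) (nat_lit 76) (nat_lit 28248582999) (nat_lit 152) (nat_lit 9236577195) (nat_lit 57) (nat_lit 5) (nat_lit 58) (nat_lit 5) (nat_lit 59) (nat_lit 4) (nat_lit 499) (nat_lit 440) (nat_lit 261)) (XT.lf (nat_lit 0) (nat_lit 36038772484) (nat_lit 228) (nat_lit 104500509927) (nat_lit 76) (nat_lit 25517839860) (nat_lit 54) (nat_lit 5) (nat_lit 57) (nat_lit 5) (nat_lit 55) (nat_lit 4) (nat_lit 500) (nat_lit 440) (nat_lit 260))) (XT.nd (nat_lit 78) (nat_lit 76) (nat_lit 0) (XT.lf (nat_lit 0) (nat_lit 84374981886) (nat_lit 228) (nat_lit 5412584178) (nat_lit 76) (nat_lit 81819209449) (nat_lit 54) (nat_lit 5) (nat_lit 57) (nat_lit 5) (nat_lit 55) (nat_lit 4) (nat_lit 501) (nat_lit 440) (nat_lit 259)) (XT.lf (nat_lit 0) (nat_lit 101889347704) (nat_lit 76) (nat_lit 34828645565) (nat_lit 152) (nat_lit 40636418597) (nat_lit 53) (nat_lit 5) (nat_lit 54) (nat_lit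 5) (nat_lit 55) (nat_lit 4) (nat_lit 502) (nat_lit 440) (nat_lit 258)))) (XT.nd (nat_lit 156) (nat_lit 76) (nat_lit 0) (XT.nd (nat_lit 78) (nat_lit 0) (nat_lit 0) (XT.lf (nat_lit 0) (nat_lit 8988566560) (nat_lit 152) (nat_lit 151462696489) (nat_lit 76) (nat_lit 22883439881) (nat_lit 51) (nat_lit 5) (nat_lit 53) (nat_lit 5) (nat_lit 52) (nat_lit 4) (nat_lit 503) (nat_lit 440) (nat_lit 257)) (XT.lf (nat_lit 0) (nat_lit 61598319962) (nat_lit 152) (nat_lit 43613774428) (nat_lit 76) (nat_lit 84275147182) (nat_lit 51) (nat_lit 5) (nat_lit 53) (nat_lit 5) (nat_lit 52) (nat_lit 4) (nat_lit 504) (nat_lit 440) (nat_lit 256))) (XT.nd (nat_lit 78) (nat_lit 0) (nat_lit 0) (XT.lf (nat_lit 0) (nat_lit 71928329168) (nat_lit 76) (nat_lit 46032490767) (nat_lit 152) (nat_lit 77930474288) (nat_lit 50) (nat_lit 5) (nat_lit 51) (nat_lit 5) (nat_lit 52) (nat_lit 4) (nat_lit 505) (nat_lit 440) (nat_lit 255)) (XT.lf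 (nat_lit 0) (nat_lit 178142894354) (nat_lit 152) (nat_lit 8081902068) (nat_lit 0) (nat_lit 16340680629) (nat_lit 50) (nat_lit 5) (nat_lit 52) (nat_lit 4) (nat_lit 50) (nat_lit 4) (nat_lit 506) (nat_lit 440) (nat_lit 254))))) (XT.nd (nat_lit 312) (nat_lit 304) (nat_lit 0) (XT.nd (nat_lit 156) (nat_lit 76) (nat_lit 0) (XT.nd (nat_lit 78) (nat_lit 76) (nat_lit 0) (XT.lf (nat_lit 0) (nat_lit 33360238201) (nat_lit 152) (nat_lit 93414607688) (nat_lit 76) (nat_lit 82642925690) (nat_lit 48) (nat_lit 5) (nat_lit 50) (nat_lit 5) (nat_lit 49) (nat_lit 4) (nat_lit 507) (nat_lit 440) (nat_lit 253)) (XT.lf (nat_lit 0) (nat_lit 30540754995) (nat_lit 76) (nat_lit 63285923668) (nat_lit 152) (nat_lit 122735221805) (nat_lit 47) (nat_lit 5) (nat_lit 48) (nat_lit 5) (nat_lit 49) (nat_lit 4) (nat_lit 508) (nat_lit 440) (nat_lit 252))) (XT.nd (nat_lit 78) (nat_lit 76) (nat_lit 0) (XT.lf (nat_lit 0) (nat_lit 158976427473)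 (nat_lit 152) (nat_lit 60127130620) (nat_lit 0) (nat_lit 4876678408) (nat_lit 47) (nat_lit 5) (nat_lit 49) (nat_lit 4) (nat_lit 47) (nat_lit 4) (nat_lit 509) (nat_lit 440) (nat_lit 251)) (XT.lf (nat_lit 0) (nat_lit 73371150813) (nat_lit 76) (nat_lit 156194848342) (nat_lit 76) (nat_lit 2094373425) (nat_lit 46) (nat_lit 4) (nat_lit 47) (nat_lit 5) (nat_lit 47) (nat_lit 4) (nat_lit 510) (nat_lit 440) (nat_lit 250)))) (XT.nd (nat_lit 156) (nat_lit 152) (nat_lit 0) (XT.nd (nat_lit 78) (nat_lit 76) (nat_lit 0) (XT.lf (nat_lit 0) (nat_lit 62947705763) (nat_lit 152) (nat_lit 25058369388) (nat_lit 76) (nat_lit 151616794747) (nat_lit 45) (nat_lit 5) (nat_lit 47) (nat_lit 5) (nat_lit 46) (nat_lit 4) (nat_lit 511) (nat_lit 440) (nat_lit 249)) (XT.lf (nat_lit 0) (nat_lit 118594212561) (nat_lit 76) (nat_lit 14428244577) (nat_lit 152) (nat_lit 114866770614) (nat_lit 44) (nat_lit 5) (nat_lit 45) (nat_lit 5)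 (nat_lit 46) (nat_lit 4) (nat_lit 512) (nat_lit 440) (nat_lit 248))) (XT.nd (nat_lit 78) (nat_lit 76) (nat_lit 0) (XT.lf (nat_lit 0) (nat_lit 13184575495) (nat_lit 76) (nat_lit 195033846905) (nat_lit 76) (nat_lit 48269607294) (nat_lit 43) (nat_lit 4) (nat_lit 44) (nat_lit 5) (nat_lit 44) (nat_lit 4) (nat_lit 513) (nat_lit 440) (nat_lit 247)) (XT.lf (nat_lit 0) (nat_lit 23425708107) (nat_lit 152) (nat_lit 98742106714) (nat_lit 76) (nat_lit 143208976956) (nat_lit 42) (nat_lit 5) (nat_lit 44) (nat_lit 5) (nat_lit 43) (nat_lit 4) (nat_lit 514) (nat_lit 440) (nat_lit 246))))))) (XT.nd (nat_lit 1170) (nat_lit 836) (nat_lit 0) (XT.nd (nat_lit 546) (nat_lit 532) (nat_lit 0) (XT.nd (nat_lit 234) (nat_lit 228) (nat_lit 0) (XT.nd (nat_lit 78) (nat_lit 76) (nat_lit 0) (XT.lf (nat_lit 0) (nat_lit 53982604995) (nat_lit 76) (nat_lit 43943226698) (nat_lit 152) (nat_lit 176702484143) (nat_lit 41) (nat_lit 5)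 (nat_lit 42) (nat_lit 5) (nat_lit 43) (nat_lit 4) (nat_lit 515) (nat_lit 440) (nat_lit 245)) (XT.nd (nat_lit 78) (nat_lit 76) (nat_lit 0) (XT.lf (nat_lit 0) (nat_lit 178446313734) (nat_lit 152) (nat_lit 67112036099) (nat_lit 0) (nat_lit 38669298661) (nat_lit 41) (nat_lit 5) (nat_lit 43) (nat_lit 4) (nat_lit 41) (nat_lit 4) (nat_lit 516) (nat_lit 440) (nat_lit 244)) (XT.lf (nat_lit 0) (nat_lit 96464276805) (nat_lit 76) (nat_lit 168754429809) (nat_lit 76) (nat_lit 28976946845) (nat_lit 40) (nat_lit 4) (nat_lit 41) (nat_lit 5) (nat_lit 41) (nat_lit 4) (nat_lit 517) (nat_lit 440) (nat_lit 243)))) (XT.nd (nat_lit 156) (nat_lit 76) (nat_lit 0) (XT.nd (nat_lit 78) (nat_lit 76) (nat_lit 0) (XT.lf (nat_lit 0) (nat_lit 51168608848) (nat_lit 152) (nat_lit 34882280434) (nat_lit 76) (nat_lit 218513103739) (nat_lit 39) (nat_lit 5) (nat_lit 41) (nat_lit 5) (nat_lit 40) (nat_lit 4) (nat_lit 518) (nat_lit 440)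 (nat_lit 242)) (XT.lf (nat_lit 0) (nat_lit 136590657027) (nat_lit 152) (nat_lit 175255773333) (nat_lit 0) (nat_lit 3468416108) (nat_lit 38) (nat_lit 5) (nat_lit 40) (nat_lit 4) (nat_lit 38) (nat_lit 4) (nat_lit 519) (nat_lit 440) (nat_lit 241))) (XT.nd (nat_lit 78) (nat_lit 76) (nat_lit 0) (XT.lf (nat_lit 0) (nat_lit 228294368152) (nat_lit 152) (nat_lit 3036604117) (nat_lit 0) (nat_lit 95171742299) (nat_lit 38) (nat_lit 5) (nat_lit 40) (nat_lit 4) (nat_lit 38) (nat_lit 4) (nat_lit 520) (nat_lit 440) (nat_lit 240)) (XT.lf (nat_lit 0) (nat_lit 183671125062) (nat_lit 76) (nat_lit 143779244130) (nat_lit 76) (nat_lit 10656251672) (nat_lit 37) (nat_lit 4) (nat_lit 38) (nat_lit 5) (nat_lit 38) (nat_lit 4) (nat_lit 521) (nat_lit 440) (nat_lit 239))))) (XT.nd (nat_lit 312) (nat_lit 228) (nat_lit 0) (XT.nd (nat_lit 156) (nat_lit 152) (nat_lit 0) (XT.nd (nat_lit 78) (nat_lit 0) (nat_lit 0) (XT.lf (nat_lit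 0) (nat_lit 29195169859) (nat_lit 76) (nat_lit 49984591830) (nat_lit 152) (nat_lit 271022136888) (nat_lit 35) (nat_lit 5) (nat_lit 36) (nat_lit 5) (nat_lit 37) (nat_lit 4) (nat_lit 522) (nat_lit 440) (nat_lit 238)) (XT.lf (nat_lit 0) (nat_lit 176564474417) (nat_lit 152) (nat_lit 136377957333) (nat_lit 0) (nat_lit 49780022868) (nat_lit 35) (nat_lit 5) (nat_lit 37) (nat_lit 4) (nat_lit 35) (nat_lit 4) (nat_lit 523) (nat_lit 440) (nat_lit 237))) (XT.nd (nat_lit 78) (nat_lit 76) (nat_lit 0) (XT.lf (nat_lit 0) (nat_lit 58535355506) (nat_lit 76) (nat_lit 222015897308) (nat_lit 76) (nat_lit 95231144153) (nat_lit 34) (nat_lit 4) (nat_lit 35) (nat_lit 5) (nat_lit 35) (nat_lit 4) (nat_lit 524) (nat_lit 440) (nat_lit 236)) (XT.lf (nat_lit 0) (nat_lit 2581286565) (nat_lit 152) (nat_lit 121493402940) (nat_lit 76) (nat_lit 265303108019) (nat_lit 33) (nat_lit 5) (nat_lit 35) (nat_lit 5) (nat_lit 34) (nat_lit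 4) (nat_lit 525) (nat_lit 440) (nat_lit 235)))) (XT.nd (nat_lit 156) (nat_lit 152) (nat_lit 0) (XT.nd (nat_lit 78) (nat_lit 0) (nat_lit 0) (XT.lf (nat_lit 0) (nat_lit 85213176449) (nat_lit 76) (nat_lit 18200721314) (nat_lit 152) (nat_lit 300094514545) (nat_lit 32) (nat_lit 5) (nat_lit 33) (nat_lit 5) (nat_lit 34) (nat_lit 4) (nat_lit 526) (nat_lit 440) (nat_lit 234)) (XT.lf (nat_lit 0) (nat_lit 212830428177) (nat_lit 152) (nat_lit 113255753243) (nat_lit 0) (nat_lit 92082261982) (nat_lit 32) (nat_lit 5) (nat_lit 34) (nat_lit 4) (nat_lit 32) (nat_lit 4) (nat_lit 527) (nat_lit 440) (nat_lit 233))) (XT.nd (nat_lit 78) (nat_lit 76) (nat_lit 0) (XT.lf (nat_lit 0) (nat_lit 105100312204) (nat_lit 76) (nat_lit 224556312199) (nat_lit 76) (nat_lit 103807909688) (nat_lit 31) (nat_lit 4) (nat_lit 32) (nat_lit 5) (nat_lit 32) (nat_lit 4) (nat_lit 528) (nat_lit 440) (nat_lit 232)) (XT.lf (nat_lit 0) (nat_lit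 4658166257) (nat_lit 152) (nat_lit 111199386747) (nat_lit 76) (nat_lit 333568239485) (nat_lit 30) (nat_lit 5) (nat_lit 32) (nat_lit 5) (nat_lit 31) (nat_lit 4) (nat_lit 529) (nat_lit 440) (nat_lit 231)))))) (XT.nd (nat_lit 624) (nat_lit 456) (nat_lit 0) (XT.nd (nat_lit 312) (nat_lit 228) (nat_lit 0) (XT.nd (nat_lit 156) (nat_lit 76) (nat_lit 0) (XT.nd (nat_lit 78) (nat_lit 0) (nat_lit 0) (XT.lf (nat_lit 0) (nat_lit 116946705238) (nat_lit 152) (nat_lit 347111122667) (nat_lit 0) (nat_lit 1947808170) (nat_lit 29) (nat_lit 5) (nat_lit 31) (nat_lit 4) (nat_lit 29) (nat_lit 4) (nat_lit 530) (nat_lit 440) (nat_lit 230)) (XT.lf (nat_lit 0) (nat_lit 238662641665) (nat_lit 152) (nat_lit 120897631476) (nat_lit 0) (nat_lit 123663550179) (nat_lit 29) (nat_lit 5) (nat_lit 31) (nat_lit 4) (nat_lit 29) (nat_lit 4) (nat_lit 531) (nat_lit 440) (nat_lit 229))) (XT.nd (nat_lit 78) (nat_lit 0) (nat_lit 0) (XT.lf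 (nat_lit 0) (nat_lit 120481903751) (nat_lit 76) (nat_lit 247863129943) (nat_lit 76) (nat_lit 132863853297) (nat_lit 28) (nat_lit 4) (nat_lit 29) (nat_lit 5) (nat_lit 29) (nat_lit 4) (nat_lit 532) (nat_lit 440) (nat_lit 228)) (XT.lf (nat_lit 0) (nat_lit 378126917608) (nat_lit 76) (nat_lit 128431692983) (nat_lit 76) (nat_lit 13432239994) (nat_lit 28) (nat_lit 4) (nat_lit 29) (nat_lit 5) (nat_lit 29) (nat_lit 4) (nat_lit 533) (nat_lit 440) (nat_lit 227)))) (XT.nd (nat_lit 156) (nat_lit 76) (nat_lit 0) (XT.nd (nat_lit 78) (nat_lit 0) (nat_lit 0) (XT.lf (nat_lit 0) (nat_lit 110125436232) (nat_lit 152) (nat_lit 428810166787) (nat_lit 0) (nat_lit 601987722) (nat_lit 26) (nat_lit 5) (nat_lit 28) (nat_lit 4) (nat_lit 26) (nat_lit 4) (nat_lit 534) (nat_lit 440) (nat_lit 226)) (XT.lf (nat_lit 0) (nat_lit 243956561204) (nat_lit 152) (nat_lit 181433787494) (nat_lit 0) (nat_lit 134432960363) (nat_lit 26) (nat_lit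 5) (nat_lit 28) (nat_lit 4) (nat_lit 26) (nat_lit 4) (nat_lit 535) (nat_lit 440) (nat_lit 225))) (XT.nd (nat_lit 78) (nat_lit 0) (nat_lit 0) (XT.lf (nat_lit 0) (nat_lit 80899985627) (nat_lit 76) (nat_lit 304841968991) (nat_lit 76) (nat_lit 195318223072) (nat_lit 25) (nat_lit 4) (nat_lit 26) (nat_lit 5) (nat_lit 26) (nat_lit 4) (nat_lit 536) (nat_lit 440) (nat_lit 224)) (XT.lf (nat_lit 0) (nat_lit 362648700683) (nat_lit 76) (nat_lit 175040228785) (nat_lit 76) (nat_lit 65516344696) (nat_lit 25) (nat_lit 4) (nat_lit 26) (nat_lit 5) (nat_lit 26) (nat_lit 4) (nat_lit 537) (nat_lit 440) (nat_lit 223))))) (XT.nd (nat_lit 312) (nat_lit 228) (nat_lit 0) (XT.nd (nat_lit 156) (nat_lit 76) (nat_lit 0) (XT.nd (nat_lit 78) (nat_lit 0) (nat_lit 0) (XT.lf (nat_lit 0) (nat_lit 31943930014) (nat_lit 76) (nat_lit 37064823981) (nat_lit 152) (nat_lit 557368701752) (nat_lit 23) (nat_lit 5) (nat_lit 24) (nat_lit 5)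 (nat_lit 25) (nat_lit 4) (nat_lit 538) (nat_lit 440) (nat_lit 222)) (XT.lf (nat_lit 0) (nat_lit 213881917463) (nat_lit 152) (nat_lit 326908235849) (nat_lit 0) (nat_lit 109573211746) (nat_lit 23) (nat_lit 5) (nat_lit 25) (nat_lit 4) (nat_lit 23) (nat_lit 4) (nat_lit 539) (nat_lit 440) (nat_lit 221))) (XT.nd (nat_lit 78) (nat_lit 76) (nat_lit 0) (XT.lf (nat_lit 0) (nat_lit 366606030239) (nat_lit 152) (nat_lit 46614964189) (nat_lit 0) (nat_lit 262297210851) (nat_lit 23) (nat_lit 5) (nat_lit 25) (nat_lit 4) (nat_lit 23) (nat_lit 4) (nat_lit 540) (nat_lit 440) (nat_lit 220)) (XT.lf (nat_lit 0) (nat_lit 255882167324) (nat_lit 76) (nat_lit 275078905807) (nat_lit 76) (nat_lit 170769978159) (nat_lit 22) (nat_lit 4) (nat_lit 23) (nat_lit 5) (nat_lit 23) (nat_lit 4) (nat_lit 541) (nat_lit 440) (nat_lit 219)))) (XT.nd (nat_lit 156) (nat_lit 76) (nat_lit 0) (XT.nd (nat_lit 78) (nat_lit 152) (nat_lit 0) (XT.lf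 (nat_lit 0) (nat_lit 575121900792) (nat_lit 76) (nat_lit 129201106309) (nat_lit 76) (nat_lit 24892075557) (nat_lit 22) (nat_lit 4) (nat_lit 23) (nat_lit 5) (nat_lit 23) (nat_lit 4) (nat_lit 542) (nat_lit 440) (nat_lit 218)) (XT.lf (nat_lit 0) (nat_lit 127043811797) (nat_lit 152) (nat_lit 603084087177) (nat_lit 0) (nat_lit 27701784229) (nat_lit 20) (nat_lit 5) (nat_lit 22) (nat_lit 4) (nat_lit 20) (nat_lit 4) (nat_lit 543) (nat_lit 440) (nat_lit 217))) (XT.nd (nat_lit 78) (nat_lit 76) (nat_lit 0) (XT.lf (nat_lit 0) (nat_lit 290510133221) (nat_lit 152) (nat_lit 305937951795) (nat_lit 0) (nat_lit 191168016588) (nat_lit 20) (nat_lit 5) (nat_lit 22) (nat_lit 4) (nat_lit 20) (nat_lit 4) (nat_lit 544) (nat_lit 440) (nat_lit 216)) (XT.lf (nat_lit 0) (nat_lit 6265451040) (nat_lit 76) (nat_lit 455981857234) (nat_lit 76) (nat_lit 356639655776) (nat_lit 19) (nat_lit 4) (nat_lit 20) (nat_lit 5) (nat_lit 20)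 (nat_lit 4) (nat_lit 545) (nat_lit 440) (nat_lit 215))))))))
noncomputable def xc179 : XT := (XT.nd (nat_lit 56550) (nat_lit 0) (nat_lit 2888) (XT.nd (nat_lit 55302) (nat_lit 0) (nat_lit 6080) (XT.nd (nat_lit 54678) (nat_lit 0) (nat_lit 9348) (XT.nd (nat_lit 54366) (nat_lit 0) (nat_lit 9728) (XT.nd (nat_lit 78) (nat_lit 0) (nat_lit 0) (XT.lf (nat_lit 0) (nat_lit 344699935238) (nat_lit 76) (nat_lit 303052335105) (nat_lit 76) (nat_lit 203710052863) (nat_lit 19) (nat_lit 4) (nat_lit 20) (nat_lit 5) (nat_lit 20) (nat_lit 4) (nat_lit 546) (nat_lit 440) (nat_lit 214)) (XT.nd (nat_lit 54210) (nat_lit 0) (nat_lit 9728) (XT.lf (nat_lit 0) (nat_lit 700055606847) (nat_lit 76) (nat_lit 142476607969) (nat_lit 76) (nat_lit 43134248789) (nat_lit 19) (nat_lit 4) (nat_lit 20) (nat_lit 5) (nat_lit 20) (nat_lit 4) (nat_lit 547) (nat_lit 440) (nat_lit 213)) (XT.lf (nat_lit 0) (nat_lit 5749724021) (nat_lit 836) (nat_lit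 4640559354) (nat_lit 836) (nat_lit 4640559354) (nat_lit 147) (nat_lit 3) (nat_lit 158) (nat_lit 3) (nat_lit 158) (nat_lit 5) (nat_lit 441) (nat_lit 441) (nat_lit 318)))) (XT.nd (nat_lit 156) (nat_lit 0) (nat_lit 76) (XT.nd (nat_lit 78) (nat_lit 0) (nat_lit 76) (XT.lf (nat_lit 76) (nat_lit 5814182290) (nat_lit 0) (nat_lit 6134892468) (nat_lit 836) (nat_lit 18856034773) (nat_lit 148) (nat_lit 5) (nat_lit 147) (nat_lit 3) (nat_lit 158) (nat_lit 5) (nat_lit 442) (nat_lit 441) (nat_lit 317)) (XT.lf (nat_lit 0) (nat_lit 12720676239) (nat_lit 760) (nat_lit 9741007136) (nat_lit 836) (nat_lit 9109047468) (nat_lit 148) (nat_lit 5) (nat_lit 158) (nat_lit 5) (nat_lit 159) (nat_lit 5) (nat_lit 443) (nat_lit 441) (nat_lit 316))) (XT.nd (nat_lit 78) (nat_lit 0) (nat_lit 76) (XT.lf (nat_lit 76) (nat_lit 6372174652) (nat_lit 0) (nat_lit 7354386757) (nat_lit 836) (nat_lit 18638287303) (nat_lit 149) (nat_lit 5)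 (nat_lit 148) (nat_lit 5) (nat_lit 159) (nat_lit 5) (nat_lit 444) (nat_lit 441) (nat_lit 315)) (XT.lf (nat_lit 0) (nat_lit 15079088611) (nat_lit 760) (nat_lit 9699570076) (nat_lit 836) (nat_lit 8405197039) (nat_lit 149) (nat_lit 5) (nat_lit 159) (nat_lit 5) (nat_lit 160) (nat_lit 5) (nat_lit 445) (nat_lit 441) (nat_lit 314))))) (XT.nd (nat_lit 312) (nat_lit 532) (nat_lit 0) (XT.nd (nat_lit 156) (nat_lit 0) (nat_lit 76) (XT.nd (nat_lit 78) (nat_lit 0) (nat_lit 76) (XT.lf (nat_lit 76) (nat_lit 7525827515) (nat_lit 0) (nat_lit 9207512574) (nat_lit 836) (nat_lit 17298768717) (nat_lit 150) (nat_lit 5) (nat_lit 149) (nat_lit 5) (nat_lit 160) (nat_lit 5) (nat_lit 446) (nat_lit 441) (nat_lit 313)) (XT.lf (nat_lit 0) (nat_lit 18744974851) (nat_lit 760) (nat_lit 9082359830) (nat_lit 836) (nat_lit 7081706905) (nat_lit 150) (nat_lit 5) (nat_lit 160) (nat_lit 5) (nat_lit 161) (nat_lit 5) (nat_lit 447) (nat_lit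 441) (nat_lit 312))) (XT.nd (nat_lit 78) (nat_lit 0) (nat_lit 76) (XT.lf (nat_lit 76) (nat_lit 9358646902) (nat_lit 0) (nat_lit 11791984156) (nat_lit 836) (nat_lit 14664518515) (nat_lit 151) (nat_lit 5) (nat_lit 150) (nat_lit 5) (nat_lit 161) (nat_lit 5) (nat_lit 448) (nat_lit 441) (nat_lit 311)) (XT.lf (nat_lit 0) (nat_lit 23908200305) (nat_lit 760) (nat_lit 7805986802) (nat_lit 836) (nat_lit 5040794868) (nat_lit 151) (nat_lit 5) (nat_lit 161) (nat_lit 5) (nat_lit 162) (nat_lit 5) (nat_lit 449) (nat_lit 441) (nat_lit 310)))) (XT.nd (nat_lit 156) (nat_lit 684) (nat_lit 0) (XT.nd (nat_lit 78) (nat_lit 0) (nat_lit 76) (XT.lf (nat_lit 76) (nat_lit 11963953124) (nat_lit 0) (nat_lit 15216488227) (nat_lit 836) (nat_lit 10542525482) (nat_lit 152) (nat_lit 5) (nat_lit 151) (nat_lit 5) (nat_lit 162) (nat_lit 5) (nat_lit 450) (nat_lit 441) (nat_lit 309)) (XT.lf (nat_lit 0) (nat_lit 30780357231) (nat_lit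 760) (nat_lit 5777230292) (nat_lit 76) (nat_lit 2173560749) (nat_lit 152) (nat_lit 5) (nat_lit 162) (nat_lit 5) (nat_lit 153) (nat_lit 5) (nat_lit 451) (nat_lit 441) (nat_lit 308))) (XT.nd (nat_lit 78) (nat_lit 0) (nat_lit 0) (XT.lf (nat_lit 0) (nat_lit 15445854216) (nat_lit 760) (nat_lit 19601985416) (nat_lit 836) (nat_lit 4717521070) (nat_lit 142) (nat_lit 5) (nat_lit 152) (nat_lit 5) (nat_lit 153) (nat_lit 5) (nat_lit 452) (nat_lit 441) (nat_lit 307)) (XT.lf (nat_lit 0) (nat_lit 37928007660) (nat_lit 760) (nat_lit 1695598647) (nat_lit 836) (nat_lit 1222932374) (nat_lit 142) (nat_lit 5) (nat_lit 152) (nat_lit 5) (nat_lit 153) (nat_lit 5) (nat_lit 453) (nat_lit 441) (nat_lit 306)))))) (XT.nd (nat_lit 624) (nat_lit 1444) (nat_lit 0) (XT.nd (nat_lit 312) (nat_lit 608) (nat_lit 0) (XT.nd (nat_lit 156) (nat_lit 380) (nat_lit 0) (XT.nd (nat_lit 78) (nat_lit 380) (nat_lit 0) (XT.lf (nat_lit 0) (nat_lit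 2952816692) (nat_lit 456) (nat_lit 22080318636) (nat_lit 76) (nat_lit 16917494350) (nat_lit 136) (nat_lit 5) (nat_lit 142) (nat_lit 5) (nat_lit 137) (nat_lit 5) (nat_lit 454) (nat_lit 441) (nat_lit 305)) (XT.lf (nat_lit 0) (nat_lit 765591887) (nat_lit 380) (nat_lit 6617910096) (nat_lit 456) (nat_lit 35721058845) (nat_lit 131) (nat_lit 5) (nat_lit 136) (nat_lit 5) (nat_lit 137) (nat_lit 5) (nat_lit 455) (nat_lit 441) (nat_lit 304))) (XT.nd (nat_lit 78) (nat_lit 380) (nat_lit 0) (XT.lf (nat_lit 0) (nat_lit 12611706170) (nat_lit 456) (nat_lit 18984621203) (nat_lit 76) (nat_lit 12691062290) (nat_lit 131) (nat_lit 5) (nat_lit 137) (nat_lit 5) (nat_lit 132) (nat_lit 5) (nat_lit 456) (nat_lit 441) (nat_lit 303)) (XT.lf (nat_lit 0) (nat_lit 5605693206) (nat_lit 380) (nat_lit 12689113277) (nat_lit 456) (nat_lit 27224879499) (nat_lit 126) (nat_lit 5) (nat_lit 131) (nat_lit 5) (nat_lit 132) (nat_lit 5)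 (nat_lit 457) (nat_lit 441) (nat_lit 302)))) (XT.nd (nat_lit 156) (nat_lit 304) (nat_lit 0) (XT.nd (nat_lit 78) (nat_lit 304) (nat_lit 0) (XT.lf (nat_lit 0) (nat_lit 24698239156) (nat_lit 456) (nat_lit 14832761408) (nat_lit 76) (nat_lit 7260788009) (nat_lit 126) (nat_lit 5) (nat_lit 132) (nat_lit 5) (nat_lit 127) (nat_lit 5) (nat_lit 458) (nat_lit 441) (nat_lit 301)) (XT.lf (nat_lit 0) (nat_lit 11665251247) (nat_lit 304) (nat_lit 20144405512) (nat_lit 380) (nat_lit 16298449179) (nat_lit 122) (nat_lit 5) (nat_lit 126) (nat_lit 5) (nat_lit 127) (nat_lit 5) (nat_lit 459) (nat_lit 441) (nat_lit 300))) (XT.nd (nat_lit 78) (nat_lit 304) (nat_lit 0) (XT.lf (nat_lit 0) (nat_lit 39532999243) (nat_lit 380) (nat_lit 9484664093) (nat_lit 76) (nat_lit 459758430) (nat_lit 122) (nat_lit 5) (nat_lit 127) (nat_lit 5) (nat_lit 123) (nat_lit 5) (nat_lit 460) (nat_lit 441) (nat_lit 299)) (XT.lf (nat_lit 0) (nat_lit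 19099956828) (nat_lit 304) (nat_lit 29168833523) (nat_lit 380) (nat_lit 2615099237) (nat_lit 118) (nat_lit 5) (nat_lit 122) (nat_lit 5) (nat_lit 123) (nat_lit 5) (nat_lit 461) (nat_lit 441) (nat_lit 298))))) (XT.nd (nat_lit 312) (nat_lit 760) (nat_lit 0) (XT.nd (nat_lit 156) (nat_lit 304) (nat_lit 0) (XT.nd (nat_lit 78) (nat_lit 304) (nat_lit 0) (XT.lf (nat_lit 0) (nat_lit 5079207344) (nat_lit 380) (nat_lit 2994101880) (nat_lit 76) (nat_lit 44275349094) (nat_lit 117) (nat_lit 5) (nat_lit 122) (nat_lit 5) (nat_lit 118) (nat_lit 5) (nat_lit 462) (nat_lit 441) (nat_lit 297)) (XT.lf (nat_lit 0) (nat_lit 13734529540) (nat_lit 380) (nat_lit 26001459381) (nat_lit 76) (nat_lit 14115324043) (nat_lit 113) (nat_lit 5) (nat_lit 118) (nat_lit 5) (nat_lit 114) (nat_lit 5) (nat_lit 463) (nat_lit 441) (nat_lit 296))) (XT.nd (nat_lit 78) (nat_lit 0) (nat_lit 0) (XT.lf (nat_lit 0) (nat_lit 4935662975) (nat_lit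 304) (nat_lit 18145924844) (nat_lit 380) (nat_lit 32334564253) (nat_lit 109) (nat_lit 5) (nat_lit 113) (nat_lit 5) (nat_lit 114) (nat_lit 5) (nat_lit 464) (nat_lit 441) (nat_lit 295)) (XT.lf (nat_lit 0) (nat_lit 33412261890) (nat_lit 380) (nat_lit 18795273615) (nat_lit 76) (nat_lit 4825884706) (nat_lit 109) (nat_lit 5) (nat_lit 114) (nat_lit 5) (nat_lit 110) (nat_lit 5) (nat_lit 465) (nat_lit 441) (nat_lit 294)))) (XT.nd (nat_lit 156) (nat_lit 532) (nat_lit 0) (XT.nd (nat_lit 78) (nat_lit 0) (nat_lit 0) (XT.lf (nat_lit 0) (nat_lit 14642950809) (nat_lit 228) (nat_lit 30140772472) (nat_lit 304) (nat_lit 13921616004) (nat_lit 106) (nat_lit 5) (nat_lit 109) (nat_lit 5) (nat_lit 110) (nat_lit 5) (nat_lit 466) (nat_lit 441) (nat_lit 293)) (XT.lf (nat_lit 0) (nat_lit 50403211798) (nat_lit 228) (nat_lit 6637064929) (nat_lit 304) (nat_lit 3404751836) (nat_lit 106) (nat_lit 5) (nat_lit 109) (nat_lit 5)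 (nat_lit 110) (nat_lit 5) (nat_lit 467) (nat_lit 441) (nat_lit 292))) (XT.nd (nat_lit 78) (nat_lit 228) (nat_lit 0) (XT.lf (nat_lit 0) (nat_lit 8094377702) (nat_lit 304) (nat_lit 36132346084) (nat_lit 76) (nat_lit 18003971983) (nat_lit 102) (nat_lit 5) (nat_lit 106) (nat_lit 5) (nat_lit 103) (nat_lit 5) (nat_lit 468) (nat_lit 441) (nat_lit 291)) (XT.lf (nat_lit 0) (nat_lit 131425192) (nat_lit 228) (nat_lit 20204629343) (nat_lit 304) (nat_lit 43752700549) (nat_lit 99) (nat_lit 5) (nat_lit 102) (nat_lit 5) (nat_lit 103) (nat_lit 5) (nat_lit 469) (nat_lit 441) (nat_lit 290))))))) (XT.nd (nat_lit 1170) (nat_lit 1368) (nat_lit 0) (XT.nd (nat_lit 546) (nat_lit 988) (nat_lit 0) (XT.nd (nat_lit 234) (nat_lit 608) (nat_lit 0) (XT.nd (nat_lit 78) (nat_lit 228) (nat_lit 0) (XT.lf (nat_lit 0) (nat_lit 33888458190) (nat_lit 304) (nat_lit 26637105550) (nat_lit 76) (nat_lit 5479221642) (nat_lit 99) (nat_lit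 5) (nat_lit 103) (nat_lit 5) (nat_lit 100) (nat_lit 5) (nat_lit 470) (nat_lit 441) (nat_lit 289)) (XT.nd (nat_lit 78) (nat_lit 0) (nat_lit 0) (XT.lf (nat_lit 0) (nat_lit 12619507509) (nat_lit 228) (nat_lit 36025641750) (nat_lit 304) (nat_lit 19345134729) (nat_lit 96) (nat_lit 5) (nat_lit 99) (nat_lit 5) (nat_lit 100) (nat_lit 5) (nat_lit 471) (nat_lit 441) (nat_lit 288)) (XT.lf (nat_lit 0) (nat_lit 54761466388) (nat_lit 228) (nat_lit 9827778662) (nat_lit 304) (nat_lit 5463334113) (nat_lit 96) (nat_lit 5) (nat_lit 99) (nat_lit 5) (nat_lit 100) (nat_lit 5) (nat_lit 472) (nat_lit 441) (nat_lit 287)))) (XT.nd (nat_lit 156) (nat_lit 380) (nat_lit 0) (XT.nd (nat_lit 78) (nat_lit 0) (nat_lit 0) (XT.lf (nat_lit 0) (nat_lit 9534613482) (nat_lit 228) (nat_lit 44945701116) (nat_lit 76) (nat_lit 17694875224) (nat_lit 93) (nat_lit 5) (nat_lit 96) (nat_lit 5) (nat_lit 94) (nat_lit 5) (nat_lit 473) (nat_lit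 441) (nat_lit 286)) (XT.lf (nat_lit 0) (nat_lit 25521706554) (nat_lit 228) (nat_lit 2241141770) (nat_lit 76) (nat_lit 46615462078) (nat_lit 93) (nat_lit 5) (nat_lit 96) (nat_lit 5) (nat_lit 94) (nat_lit 5) (nat_lit 474) (nat_lit 441) (nat_lit 285))) (XT.nd (nat_lit 78) (nat_lit 152) (nat_lit 0) (XT.lf (nat_lit 0) (nat_lit 43009584858) (nat_lit 304) (nat_lit 32668139531) (nat_lit 76) (nat_lit 978791215) (nat_lit 90) (nat_lit 5) (nat_lit 94) (nat_lit 5) (nat_lit 91) (nat_lit 5) (nat_lit 475) (nat_lit 441) (nat_lit 284)) (XT.lf (nat_lit 0) (nat_lit 13535773218) (nat_lit 152) (nat_lit 48539746374) (nat_lit 228) (nat_lit 16937928464) (nat_lit 88) (nat_lit 5) (nat_lit 90) (nat_lit 5) (nat_lit 91) (nat_lit 5) (nat_lit 476) (nat_lit 441) (nat_lit 283))))) (XT.nd (nat_lit 312) (nat_lit 532) (nat_lit 0) (XT.nd (nat_lit 156) (nat_lit 152) (nat_lit 0) (XT.nd (nat_lit 78) (nat_lit 228) (nat_lit 0) (XT.lf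 (nat_lit 0) (nat_lit 1148067617) (nat_lit 228) (nat_lit 18297217776) (nat_lit 76) (nat_lit 62014420554) (nat_lit 87) (nat_lit 5) (nat_lit 90) (nat_lit 5) (nat_lit 88) (nat_lit 5) (nat_lit 477) (nat_lit 441) (nat_lit 282)) (XT.lf (nat_lit 0) (nat_lit 20253324467) (nat_lit 304) (nat_lit 52189282775) (nat_lit 76) (nat_lit 11537576722) (nat_lit 84) (nat_lit 5) (nat_lit 88) (nat_lit 5) (nat_lit 85) (nat_lit 5) (nat_lit 478) (nat_lit 441) (nat_lit 281))) (XT.nd (nat_lit 78) (nat_lit 152) (nat_lit 0) (XT.lf (nat_lit 0) (nat_lit 40946290698) (nat_lit 304) (nat_lit 1918458476) (nat_lit 76) (nat_lit 43730314477) (nat_lit 84) (nat_lit 5) (nat_lit 88) (nat_lit 5) (nat_lit 85) (nat_lit 5) (nat_lit 479) (nat_lit 441) (nat_lit 280)) (XT.lf (nat_lit 0) (nat_lit 52545721763) (nat_lit 152) (nat_lit 10947349699) (nat_lit 228) (nat_lit 25806657640) (nat_lit 82) (nat_lit 5) (nat_lit 84) (nat_lit 5) (nat_lit 85) (nat_lit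 5) (nat_lit 480) (nat_lit 441) (nat_lit 279)))) (XT.nd (nat_lit 156) (nat_lit 304) (nat_lit 0) (XT.nd (nat_lit 78) (nat_lit 76) (nat_lit 0) (XT.lf (nat_lit 0) (nat_lit 17879113055) (nat_lit 152) (nat_lit 69951357382) (nat_lit 228) (nat_lit 4275993516) (nat_lit 80) (nat_lit 5) (nat_lit 82) (nat_lit 5) (nat_lit 83) (nat_lit 5) (nat_lit 481) (nat_lit 441) (nat_lit 278)) (XT.lf (nat_lit 0) (nat_lit 18555410063) (nat_lit 228) (nat_lit 18980377937) (nat_lit 76) (nat_lit 57462891590) (nat_lit 79) (nat_lit 5) (nat_lit 82) (nat_lit 5) (nat_lit 80) (nat_lit 5) (nat_lit 482) (nat_lit 441) (nat_lit 277))) (XT.nd (nat_lit 78) (nat_lit 152) (nat_lit 0) (XT.lf (nat_lit 0) (nat_lit 40245032966) (nat_lit 152) (nat_lit 2766847714) (nat_lit 228) (nat_lit 54988760575) (nat_lit 77) (nat_lit 5) (nat_lit 79) (nat_lit 5) (nat_lit 80) (nat_lit 5) (nat_lit 483) (nat_lit 441) (nat_lit 276)) (XT.lf (nat_lit 0) (nat_lit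 1467023299) (nat_lit 152) (nat_lit 68099425350) (nat_lit 228) (nat_lit 31542488737) (nat_lit 75) (nat_lit 5) (nat_lit 77) (nat_lit 5) (nat_lit 78) (nat_lit 5) (nat_lit 484) (nat_lit 441) (nat_lit 275)))))) (XT.nd (nat_lit 624) (nat_lit 684) (nat_lit 0) (XT.nd (nat_lit 312) (nat_lit 304) (nat_lit 0) (XT.nd (nat_lit 156) (nat_lit 152) (nat_lit 0) (XT.nd (nat_lit 78) (nat_lit 228) (nat_lit 0) (XT.lf (nat_lit 0) (nat_lit 65607185750) (nat_lit 152) (nat_lit 32863202855) (nat_lit 228) (nat_lit 5851177606) (nat_lit 75) (nat_lit 5) (nat_lit 77) (nat_lit 5) (nat_lit 78) (nat_lit 5) (nat_lit 485) (nat_lit 441) (nat_lit 274)) (XT.lf (nat_lit 0) (nat_lit 20926114792) (nat_lit 228) (nat_lit 81982718481) (nat_lit 76) (nat_lit 4745625578) (nat_lit 72) (nat_lit 5) (nat_lit 75) (nat_lit 5) (nat_lit 73) (nat_lit 5) (nat_lit 486) (nat_lit 441) (nat_lit 273))) (XT.nd (nat_lit 78) (nat_lit 152) (nat_lit 0) (XT.lf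 (nat_lit 0) (nat_lit 50049713844) (nat_lit 228) (nat_lit 17147224415) (nat_lit 76) (nat_lit 43892057877) (nat_lit 72) (nat_lit 5) (nat_lit 75) (nat_lit 5) (nat_lit 73) (nat_lit 5) (nat_lit 487) (nat_lit 441) (nat_lit 272)) (XT.lf (nat_lit 0) (nat_lit 52612207896) (nat_lit 152) (nat_lit 28837703120) (nat_lit 228) (nat_lit 33204328416) (nat_lit 70) (nat_lit 5) (nat_lit 72) (nat_lit 5) (nat_lit 73) (nat_lit 5) (nat_lit 488) (nat_lit 441) (nat_lit 271)))) (XT.nd (nat_lit 156) (nat_lit 152) (nat_lit 0) (XT.nd (nat_lit 78) (nat_lit 76) (nat_lit 0) (XT.lf (nat_lit 0) (nat_lit 8147337112) (nat_lit 76) (nat_lit 106872746894) (nat_lit 152) (nat_lit 3347662644) (nat_lit 69) (nat_lit 5) (nat_lit 70) (nat_lit 5) (nat_lit 71) (nat_lit 4) (nat_lit 489) (nat_lit 441) (nat_lit 270)) (XT.lf (nat_lit 0) (nat_lit 28645296398) (nat_lit 152) (nat_lit 39143190816) (nat_lit 76) (nat_lit 54379598024) (nat_lit 68) (nat_lit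 5) (nat_lit 70) (nat_lit 5) (nat_lit 69) (nat_lit 5) (nat_lit 490) (nat_lit 441) (nat_lit 269))) (XT.nd (nat_lit 78) (nat_lit 0) (nat_lit 0) (XT.lf (nat_lit 0) (nat_lit 36602843513) (nat_lit 152) (nat_lit 26093084459) (nat_lit 228) (nat_lit 63431242443) (nat_lit 66) (nat_lit 5) (nat_lit 68) (nat_lit 5) (nat_lit 69) (nat_lit 5) (nat_lit 491) (nat_lit 441) (nat_lit 268)) (XT.lf (nat_lit 0) (nat_lit 99398075091) (nat_lit 228) (nat_lit 13044626950) (nat_lit 76) (nat_lit 17794058656) (nat_lit 66) (nat_lit 5) (nat_lit 69) (nat_lit 5) (nat_lit 67) (nat_lit 4) (nat_lit 492) (nat_lit 441) (nat_lit 267))))) (XT.nd (nat_lit 312) (nat_lit 304) (nat_lit 0) (XT.nd (nat_lit 156) (nat_lit 76) (nat_lit 0) (XT.nd (nat_lit 78) (nat_lit 152) (nat_lit 0) (XT.lf (nat_lit 0) (nat_lit 4804635200) (nat_lit 152) (nat_lit 65514705018) (nat_lit 76) (nat_lit 64153377558) (nat_lit 64) (nat_lit 5) (nat_lit 66) (nat_lit 5)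 (nat_lit 65) (nat_lit 5) (nat_lit 493) (nat_lit 441) (nat_lit 266)) (XT.lf (nat_lit 0) (nat_lit 16625570103) (nat_lit 152) (nat_lit 25051390993) (nat_lit 228) (nat_lit 97194072984) (nat_lit 62) (nat_lit 5) (nat_lit 64) (nat_lit 5) (nat_lit 65) (nat_lit 5) (nat_lit 494) (nat_lit 441) (nat_lit 265))) (XT.nd (nat_lit 78) (nat_lit 76) (nat_lit 0) (XT.lf (nat_lit 0) (nat_lit 81870707556) (nat_lit 228) (nat_lit 38657194547) (nat_lit 76) (nat_lit 22887473919) (nat_lit 62) (nat_lit 5) (nat_lit 65) (nat_lit 5) (nat_lit 63) (nat_lit 4) (nat_lit 495) (nat_lit 441) (nat_lit 264)) (XT.lf (nat_lit 0) (nat_lit 50308449524) (nat_lit 76) (nat_lit 74960985311) (nat_lit 152) (nat_lit 22857735587) (nat_lit 61) (nat_lit 5) (nat_lit 62) (nat_lit 5) (nat_lit 63) (nat_lit 4) (nat_lit 496) (nat_lit 441) (nat_lit 263)))) (XT.nd (nat_lit 156) (nat_lit 76) (nat_lit 0) (XT.nd (nat_lit 78) (nat_lit 152) (nat_lit 0) (XT.lf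 (nat_lit 0) (nat_lit 17859572154) (nat_lit 152) (nat_lit 8266973139) (nat_lit 76) (nat_lit 126900913716) (nat_lit 60) (nat_lit 5) (nat_lit 62) (nat_lit 5) (nat_lit 61) (nat_lit 5) (nat_lit 497) (nat_lit 441) (nat_lit 262)) (XT.lf (nat_lit 0) (nat_lit 61642338873) (nat_lit 228) (nat_lit 70297148166) (nat_lit 76) (nat_lit 26124650998) (nat_lit 58) (nat_lit 5) (nat_lit 61) (nat_lit 5) (nat_lit 59) (nat_lit 4) (nat_lit 498) (nat_lit 441) (nat_lit 261))) (XT.nd (nat_lit 78) (nat_lit 0) (nat_lit 0) (XT.lf (nat_lit 0) (nat_lit 25942246670) (nat_lit 76) (nat_lit 82646839507) (nat_lit 152) (nat_lit 54714822755) (nat_lit 57) (nat_lit 5) (nat_lit 58) (nat_lit 5) (nat_lit 59) (nat_lit 4) (nat_lit 499) (nat_lit 441) (nat_lit 260)) (XT.lf (nat_lit 0) (nat_lit 129432714388) (nat_lit 76) (nat_lit 29640194432) (nat_lit 152) (nat_lit 9673272678) (nat_lit 57) (nat_lit 5) (nat_lit 58) (nat_lit 5) (nat_lit 59) (nat_lit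 4) (nat_lit 500) (nat_lit 441) (nat_lit 259))))))))
noncomputable def xc180 : XT := (XT.nd (nat_lit 2418) (nat_lit 760) (nat_lit 0) (XT.nd (nat_lit 1170) (nat_lit 988) (nat_lit 0) (XT.nd (nat_lit 546) (nat_lit 608) (nat_lit 0) (XT.nd (nat_lit 234) (nat_lit 228) (nat_lit 0) (XT.nd (nat_lit 78) (nat_lit 76) (nat_lit 0) (XT.lf (nat_lit 0) (nat_lit 37864908510) (nat_lit 228) (nat_lit 109679844431) (nat_lit 76) (nat_lit 26814014824) (nat_lit 54) (nat_lit 5) (nat_lit 57) (nat_lit 5) (nat_lit 55) (nat_lit 4) (nat_lit 501) (nat_lit 441) (nat_lit 258)) (XT.nd (nat_lit 78) (nat_lit 76) (nat_lit 0) (XT.lf (nat_lit 0) (nat_lit 88616776125) (nat_lit 228) (nat_lit 5639698156) (nat_lit 76) (nat_lit 85929487036) (nat_lit 54) (nat_lit 5) (nat_lit 57) (nat_lit 5) (nat_lit 55) (nat_lit 4) (nat_lit 502) (nat_lit 441) (nat_lit 257)) (XT.lf (nat_lit 0) (nat_lit 107026628461) (nat_lit 76) (nat_lit 36549880665) (nat_lit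 152) (nat_lit 42644491844) (nat_lit 53) (nat_lit 5) (nat_lit 54) (nat_lit 5) (nat_lit 55) (nat_lit 4) (nat_lit 503) (nat_lit 441) (nat_lit 256)))) (XT.nd (nat_lit 156) (nat_lit 76) (nat_lit 0) (XT.nd (nat_lit 78) (nat_lit 0) (nat_lit 0) (XT.lf (nat_lit 0) (nat_lit 9460874270) (nat_lit 152) (nat_lit 158992148376) (nat_lit 76) (nat_lit 24047270845) (nat_lit 51) (nat_lit 5) (nat_lit 53) (nat_lit 5) (nat_lit 52) (nat_lit 4) (nat_lit 504) (nat_lit 441) (nat_lit 255)) (XT.lf (nat_lit 0) (nat_lit 64700025848) (nat_lit 152) (nat_lit 45752860352) (nat_lit 76) (nat_lit 88507627369) (nat_lit 51) (nat_lit 5) (nat_lit 53) (nat_lit 5) (nat_lit 52) (nat_lit 4) (nat_lit 505) (nat_lit 441) (nat_lit 254))) (XT.nd (nat_lit 78) (nat_lit 0) (nat_lit 0) (XT.lf (nat_lit 0) (nat_lit 75565677411) (nat_lit 76) (nat_lit 48314574854) (nat_lit 152) (nat_lit 81804536542) (nat_lit 50) (nat_lit 5) (nat_lit 51) (nat_lit 5) (nat_lit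 52) (nat_lit 4) (nat_lit 506) (nat_lit 441) (nat_lit 253)) (XT.lf (nat_lit 0) (nat_lit 187070702324) (nat_lit 152) (nat_lit 8446285905) (nat_lit 0) (nat_lit 17175728980) (nat_lit 50) (nat_lit 5) (nat_lit 52) (nat_lit 4) (nat_lit 50) (nat_lit 4) (nat_lit 507) (nat_lit 441) (nat_lit 252))))) (XT.nd (nat_lit 312) (nat_lit 304) (nat_lit 0) (XT.nd (nat_lit 156) (nat_lit 76) (nat_lit 0) (XT.nd (nat_lit 78) (nat_lit 76) (nat_lit 0) (XT.lf (nat_lit 0) (nat_lit 35048872506) (nat_lit 152) (nat_lit 98045584957) (nat_lit 76) (nat_lit 86793171093) (nat_lit 48) (nat_lit 5) (nat_lit 50) (nat_lit 5) (nat_lit 49) (nat_lit 4) (nat_lit 508) (nat_lit 441) (nat_lit 251)) (XT.lf (nat_lit 0) (nat_lit 32106904681) (nat_lit 76) (nat_lit 66431358939) (nat_lit 152) (nat_lit 128850718861) (nat_lit 47) (nat_lit 5) (nat_lit 48) (nat_lit 5) (nat_lit 49) (nat_lit 4) (nat_lit 509) (nat_lit 441) (nat_lit 250))) (XT.nd (nat_lit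 78) (nat_lit 76) (nat_lit 0) (XT.lf (nat_lit 0) (nat_lit 166944815985) (nat_lit 152) (nat_lit 63095553364) (nat_lit 0) (nat_lit 5137900182) (nat_lit 47) (nat_lit 5) (nat_lit 49) (nat_lit 4) (nat_lit 47) (nat_lit 4) (nat_lit 510) (nat_lit 441) (nat_lit 249)) (XT.lf (nat_lit 0) (nat_lit 77077030305) (nat_lit 76) (nat_lit 163986486877) (nat_lit 76) (nat_lit 2178912705) (nat_lit 46) (nat_lit 4) (nat_lit 47) (nat_lit 5) (nat_lit 47) (nat_lit 4) (nat_lit 511) (nat_lit 441) (nat_lit 248)))) (XT.nd (nat_lit 156) (nat_lit 152) (nat_lit 0) (XT.nd (nat_lit 78) (nat_lit 76) (nat_lit 0) (XT.lf (nat_lit 0) (nat_lit 66113694408) (nat_lit 152) (nat_lit 26275127652) (nat_lit 76) (nat_lit 159214260787) (nat_lit 45) (nat_lit 5) (nat_lit 47) (nat_lit 5) (nat_lit 46) (nat_lit 4) (nat_lit 512) (nat_lit 441) (nat_lit 247)) (XT.lf (nat_lit 0) (nat_lit 124559500165) (nat_lit 76) (nat_lit 15132352768) (nat_lit 152) (nat_lit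 120590922198) (nat_lit 44) (nat_lit 5) (nat_lit 45) (nat_lit 5) (nat_lit 46) (nat_lit 4) (nat_lit 513) (nat_lit 441) (nat_lit 246))) (XT.nd (nat_lit 78) (nat_lit 76) (nat_lit 0) (XT.lf (nat_lit 0) (nat_lit 13879440883) (nat_lit 76) (nat_lit 204768119123) (nat_lit 76) (nat_lit 50663960005) (nat_lit 43) (nat_lit 4) (nat_lit 44) (nat_lit 5) (nat_lit 44) (nat_lit 4) (nat_lit 514) (nat_lit 441) (nat_lit 245)) (XT.lf (nat_lit 0) (nat_lit 24614627274) (nat_lit 152) (nat_lit 103644689055) (nat_lit 76) (nat_lit 150385433038) (nat_lit 42) (nat_lit 5) (nat_lit 44) (nat_lit 5) (nat_lit 43) (nat_lit 4) (nat_lit 515) (nat_lit 441) (nat_lit 244)))))) (XT.nd (nat_lit 624) (nat_lit 456) (nat_lit 0) (XT.nd (nat_lit 312) (nat_lit 304) (nat_lit 0) (XT.nd (nat_lit 156) (nat_lit 152) (nat_lit 0) (XT.nd (nat_lit 78) (nat_lit 0) (nat_lit 0) (XT.lf (nat_lit 0) (nat_lit 56715701417) (nat_lit 76) (nat_lit 46123746226)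 (nat_lit 152) (nat_lit 185519417470) (nat_lit 41) (nat_lit 5) (nat_lit 42) (nat_lit 5) (nat_lit 43) (nat_lit 4) (nat_lit 516) (nat_lit 441) (nat_lit 243)) (XT.lf (nat_lit 0) (nat_lit 187385376269) (nat_lit 152) (nat_lit 70434711369) (nat_lit 0) (nat_lit 40618105656) (nat_lit 41) (nat_lit 5) (nat_lit 43) (nat_lit 4) (nat_lit 41) (nat_lit 4) (nat_lit 517) (nat_lit 441) (nat_lit 242))) (XT.nd (nat_lit 78) (nat_lit 76) (nat_lit 0) (XT.lf (nat_lit 0) (nat_lit 101319886107) (nat_lit 76) (nat_lit 177176211000) (nat_lit 76) (nat_lit 30408515997) (nat_lit 40) (nat_lit 4) (nat_lit 41) (nat_lit 5) (nat_lit 41) (nat_lit 4) (nat_lit 518) (nat_lit 441) (nat_lit 241)) (XT.lf (nat_lit 0) (nat_lit 53742968034) (nat_lit 152) (nat_lit 36595014715) (nat_lit 76) (nat_lit 229453413243) (nat_lit 39) (nat_lit 5) (nat_lit 41) (nat_lit 5) (nat_lit 40) (nat_lit 4) (nat_lit 519) (nat_lit 441) (nat_lit 240)))) (XT.nd (nat_lit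 156) (nat_lit 228) (nat_lit 0) (XT.nd (nat_lit 78) (nat_lit 0) (nat_lit 0) (XT.lf (nat_lit 0) (nat_lit 143436079782) (nat_lit 152) (nat_lit 183987143186) (nat_lit 0) (nat_lit 3656571096) (nat_lit 38) (nat_lit 5) (nat_lit 40) (nat_lit 4) (nat_lit 38) (nat_lit 4) (nat_lit 520) (nat_lit 441) (nat_lit 239)) (XT.lf (nat_lit 0) (nat_lit 239724219801) (nat_lit 152) (nat_lit 3158511643) (nat_lit 0) (nat_lit 99944361969) (nat_lit 38) (nat_lit 5) (nat_lit 40) (nat_lit 4) (nat_lit 38) (nat_lit 4) (nat_lit 521) (nat_lit 441) (nat_lit 238))) (XT.nd (nat_lit 78) (nat_lit 152) (nat_lit 0) (XT.lf (nat_lit 0) (nat_lit 192884121371) (nat_lit 76) (nat_lit 150953638533) (nat_lit 76) (nat_lit 11173448179) (nat_lit 37) (nat_lit 4) (nat_lit 38) (nat_lit 5) (nat_lit 38) (nat_lit 4) (nat_lit 522) (nat_lit 441) (nat_lit 237)) (XT.lf (nat_lit 0) (nat_lit 30684385516) (nat_lit 76) (nat_lit 52469220608) (nat_lit 152) (nat_lit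 284557644373) (nat_lit 35) (nat_lit 5) (nat_lit 36) (nat_lit 5) (nat_lit 37) (nat_lit 4) (nat_lit 523) (nat_lit 441) (nat_lit 236))))) (XT.nd (nat_lit 312) (nat_lit 228) (nat_lit 0) (XT.nd (nat_lit 156) (nat_lit 152) (nat_lit 0) (XT.nd (nat_lit 78) (nat_lit 76) (nat_lit 0) (XT.lf (nat_lit 0) (nat_lit 185407064148) (nat_lit 152) (nat_lit 143168310235) (nat_lit 0) (nat_lit 52282484484) (nat_lit 35) (nat_lit 5) (nat_lit 37) (nat_lit 4) (nat_lit 35) (nat_lit 4) (nat_lit 524) (nat_lit 441) (nat_lit 235)) (XT.lf (nat_lit 0) (nat_lit 61490207844) (nat_lit 76) (nat_lit 233102728004) (nat_lit 76) (nat_lit 99977874774) (nat_lit 34) (nat_lit 4) (nat_lit 35) (nat_lit 5) (nat_lit 35) (nat_lit 4) (nat_lit 525) (nat_lit 441) (nat_lit 234))) (XT.nd (nat_lit 78) (nat_lit 76) (nat_lit 0) (XT.lf (nat_lit 0) (nat_lit 2724019505) (nat_lit 152) (nat_lit 127540873782) (nat_lit 76) (nat_lit 278581110526) (nat_lit 33)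 (nat_lit 5) (nat_lit 35) (nat_lit 5) (nat_lit 34) (nat_lit 4) (nat_lit 526) (nat_lit 441) (nat_lit 233)) (XT.lf (nat_lit 0) (nat_lit 89500595878) (nat_lit 76) (nat_lit 19097432306) (nat_lit 152) (nat_lit 315085132812) (nat_lit 32) (nat_lit 5) (nat_lit 33) (nat_lit 5) (nat_lit 34) (nat_lit 4) (nat_lit 527) (nat_lit 441) (nat_lit 232)))) (XT.nd (nat_lit 156) (nat_lit 152) (nat_lit 0) (XT.nd (nat_lit 78) (nat_lit 76) (nat_lit 0) (XT.lf (nat_lit 0) (nat_lit 223484943468) (nat_lit 152) (nat_lit 118892612817) (nat_lit 0) (nat_lit 96698659451) (nat_lit 32) (nat_lit 5) (nat_lit 34) (nat_lit 4) (nat_lit 32) (nat_lit 4) (nat_lit 528) (nat_lit 441) (nat_lit 231)) (XT.lf (nat_lit 0) (nat_lit 110380837708) (nat_lit 76) (nat_lit 235771391323) (nat_lit 76) (nat_lit 108984892960) (nat_lit 31) (nat_lit 4) (nat_lit 32) (nat_lit 5) (nat_lit 32) (nat_lit 4) (nat_lit 529) (nat_lit 441) (nat_lit 230))) (XT.nd (nat_lit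 78) (nat_lit 76) (nat_lit 0) (XT.lf (nat_lit 0) (nat_lit 4903439272) (nat_lit 152) (nat_lit 116734651992) (nat_lit 76) (nat_lit 350258372491) (nat_lit 30) (nat_lit 5) (nat_lit 32) (nat_lit 5) (nat_lit 31) (nat_lit 4) (nat_lit 530) (nat_lit 441) (nat_lit 229)) (XT.lf (nat_lit 0) (nat_lit 122806385586) (nat_lit 152) (nat_lit 364441954973) (nat_lit 0) (nat_lit 2056959947) (nat_lit 29) (nat_lit 5) (nat_lit 31) (nat_lit 4) (nat_lit 29) (nat_lit 4) (nat_lit 531) (nat_lit 441) (nat_lit 228))))))) (XT.nd (nat_lit 1170) (nat_lit 0) (nat_lit 0) (XT.nd (nat_lit 546) (nat_lit 456) (nat_lit 0) (XT.nd (nat_lit 234) (nat_lit 228) (nat_lit 0) (XT.nd (nat_lit 78) (nat_lit 76) (nat_lit 0) (XT.lf (nat_lit 0) (nat_lit 250607530973) (nat_lit 152) (nat_lit 126918966548) (nat_lit 0) (nat_lit 129857928991) (nat_lit 29) (nat_lit 5) (nat_lit 31) (nat_lit 4) (nat_lit 29) (nat_lit 4) (nat_lit 532) (nat_lit 441) (nat_lit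 227)) (XT.nd (nat_lit 78) (nat_lit 0) (nat_lit 0) (XT.lf (nat_lit 0) (nat_lit 126529165658) (nat_lit 76) (nat_lit 260244678775) (nat_lit 76) (nat_lit 139494908848) (nat_lit 28) (nat_lit 4) (nat_lit 29) (nat_lit 5) (nat_lit 29) (nat_lit 4) (nat_lit 533) (nat_lit 441) (nat_lit 226)) (XT.lf (nat_lit 0) (nat_lit 397055327030) (nat_lit 76) (nat_lit 134842222714) (nat_lit 76) (nat_lit 14092292838) (nat_lit 28) (nat_lit 4) (nat_lit 29) (nat_lit 5) (nat_lit 29) (nat_lit 4) (nat_lit 534) (nat_lit 441) (nat_lit 225)))) (XT.nd (nat_lit 156) (nat_lit 76) (nat_lit 0) (XT.nd (nat_lit 78) (nat_lit 0) (nat_lit 0) (XT.lf (nat_lit 0) (nat_lit 115642881864) (nat_lit 152) (nat_lit 450228226060) (nat_lit 0) (nat_lit 642803571) (nat_lit 26) (nat_lit 5) (nat_lit 28) (nat_lit 4) (nat_lit 26) (nat_lit 4) (nat_lit 535) (nat_lit 441) (nat_lit 224)) (XT.lf (nat_lit 0) (nat_lit 256165030998) (nat_lit 152) (nat_lit 190484096806)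 (nat_lit 0) (nat_lit 141164814536) (nat_lit 26) (nat_lit 5) (nat_lit 28) (nat_lit 4) (nat_lit 26) (nat_lit 4) (nat_lit 536) (nat_lit 441) (nat_lit 223))) (XT.nd (nat_lit 78) (nat_lit 0) (nat_lit 0) (XT.lf (nat_lit 0) (nat_lit 84966020131) (nat_lit 76) (nat_lit 320073495621) (nat_lit 76) (nat_lit 205073147568) (nat_lit 25) (nat_lit 4) (nat_lit 26) (nat_lit 5) (nat_lit 26) (nat_lit 4) (nat_lit 537) (nat_lit 441) (nat_lit 222)) (XT.lf (nat_lit 0) (nat_lit 380801169264) (nat_lit 76) (nat_lit 183782171824) (nat_lit 76) (nat_lit 68781698448) (nat_lit 25) (nat_lit 4) (nat_lit 26) (nat_lit 5) (nat_lit 26) (nat_lit 4) (nat_lit 538) (nat_lit 441) (nat_lit 221))))) (XT.nd (nat_lit 312) (nat_lit 228) (nat_lit 0) (XT.nd (nat_lit 156) (nat_lit 76) (nat_lit 0) (XT.nd (nat_lit 78) (nat_lit 0) (nat_lit 0) (XT.lf (nat_lit 0) (nat_lit 33561166509) (nat_lit 76) (nat_lit 38907984340) (nat_lit 152) (nat_lit 585226679656)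 (nat_lit 23) (nat_lit 5) (nat_lit 24) (nat_lit 5) (nat_lit 25) (nat_lit 4) (nat_lit 539) (nat_lit 441) (nat_lit 220)) (XT.lf (nat_lit 0) (nat_lit 224585648139) (nat_lit 152) (nat_lit 343234237514) (nat_lit 0) (nat_lit 115061165849) (nat_lit 23) (nat_lit 5) (nat_lit 25) (nat_lit 4) (nat_lit 23) (nat_lit 4) (nat_lit 540) (nat_lit 441) (nat_lit 219))) (XT.nd (nat_lit 78) (nat_lit 76) (nat_lit 0) (XT.lf (nat_lit 0) (nat_lit 384945507754) (nat_lit 152) (nat_lit 48927226563) (nat_lit 0) (nat_lit 275420922360) (nat_lit 23) (nat_lit 5) (nat_lit 25) (nat_lit 4) (nat_lit 23) (nat_lit 4) (nat_lit 541) (nat_lit 441) (nat_lit 218)) (XT.lf (nat_lit 0) (nat_lit 268694463367) (nat_lit 76) (nat_lit 288823686431) (nat_lit 76) (nat_lit 179299002843) (nat_lit 22) (nat_lit 4) (nat_lit 23) (nat_lit 5) (nat_lit 23) (nat_lit 4) (nat_lit 542) (nat_lit 441) (nat_lit 217)))) (XT.nd (nat_lit 156) (nat_lit 76) (nat_lit 0)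 (XT.nd (nat_lit 78) (nat_lit 152) (nat_lit 0) (XT.lf (nat_lit 0) (nat_lit 603895317428) (nat_lit 76) (nat_lit 135652433371) (nat_lit 76) (nat_lit 26127656264) (nat_lit 22) (nat_lit 4) (nat_lit 23) (nat_lit 5) (nat_lit 23) (nat_lit 4) (nat_lit 543) (nat_lit 441) (nat_lit 216)) (XT.lf (nat_lit 0) (nat_lit 133404727676) (nat_lit 152) (nat_lit 633220672048) (nat_lit 0) (nat_lit 29095331321) (nat_lit 20) (nat_lit 5) (nat_lit 22) (nat_lit 4) (nat_lit 20) (nat_lit 4) (nat_lit 544) (nat_lit 441) (nat_lit 215))) (XT.nd (nat_lit 78) (nat_lit 76) (nat_lit 0) (XT.lf (nat_lit 0) (nat_lit 305043949682) (nat_lit 152) (nat_lit 321218068920) (nat_lit 0) (nat_lit 200734472542) (nat_lit 20) (nat_lit 5) (nat_lit 22) (nat_lit 4) (nat_lit 20) (nat_lit 4) (nat_lit 545) (nat_lit 441) (nat_lit 214)) (XT.lf (nat_lit 0) (nat_lit 6595233404) (nat_lit 76) (nat_lit 478772612142) (nat_lit 76) (nat_lit 374463058065) (nat_lit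 19) (nat_lit 4) (nat_lit 20) (nat_lit 5) (nat_lit 20) (nat_lit 4) (nat_lit 546) (nat_lit 441) (nat_lit 213)))))) (XT.nd (nat_lit 54834) (nat_lit 0) (nat_lit 8512) (XT.nd (nat_lit 54522) (nat_lit 0) (nat_lit 9804) (XT.nd (nat_lit 54366) (nat_lit 0) (nat_lit 9728) (XT.nd (nat_lit 54288) (nat_lit 0) (nat_lit 9728) (XT.lf (nat_lit 0) (nat_lit 361950655631) (nat_lit 76) (nat_lit 318197010952) (nat_lit 76) (nat_lit 213887383601) (nat_lit 19) (nat_lit 4) (nat_lit 20) (nat_lit 5) (nat_lit 20) (nat_lit 4) (nat_lit 547) (nat_lit 441) (nat_lit 212)) (XT.lf (nat_lit 0) (nat_lit 6107460853) (nat_lit 836) (nat_lit 4835700308) (nat_lit 836) (nat_lit 4835700308) (nat_lit 147) (nat_lit 3) (nat_lit 158) (nat_lit 3) (nat_lit 158) (nat_lit 5) (nat_lit 442) (nat_lit 442) (nat_lit 316))) (XT.nd (nat_lit 78) (nat_lit 0) (nat_lit 76) (XT.lf (nat_lit 76) (nat_lit 6177475530) (nat_lit 0) (nat_lit 6503996934) (nat_lit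 836) (nat_lit 19657124649) (nat_lit 148) (nat_lit 5) (nat_lit 147) (nat_lit 3) (nat_lit 158) (nat_lit 5) (nat_lit 443) (nat_lit 442) (nat_lit 315)) (XT.lf (nat_lit 0) (nat_lit 13484300866) (nat_lit 760) (nat_lit 10151556891) (nat_lit 836) (nat_lit 9507010376) (nat_lit 148) (nat_lit 5) (nat_lit 158) (nat_lit 5) (nat_lit 159) (nat_lit 5) (nat_lit 444) (nat_lit 442) (nat_lit 314)))) (XT.nd (nat_lit 156) (nat_lit 0) (nat_lit 76) (XT.nd (nat_lit 78) (nat_lit 0) (nat_lit 76) (XT.lf (nat_lit 76) (nat_lit 6766050107) (nat_lit 0) (nat_lit 7769529559) (nat_lit 836) (nat_lit 19441358200) (nat_lit 149) (nat_lit 5) (nat_lit 148) (nat_lit 5) (nat_lit 159) (nat_lit 5) (nat_lit 445) (nat_lit 442) (nat_lit 313)) (XT.lf (nat_lit 0) (nat_lit 15949185683) (nat_lit 760) (nat_lit 10106300564) (nat_lit 836) (nat_lit 8781737255) (nat_lit 149) (nat_lit 5) (nat_lit 159) (nat_lit 5) (nat_lit 160) (nat_lit 5) (nat_lit 446)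 (nat_lit 442) (nat_lit 312))) (XT.nd (nat_lit 78) (nat_lit 0) (nat_lit 76) (XT.lf (nat_lit 76) (nat_lit 7979104842) (nat_lit 0) (nat_lit 9702716257) (nat_lit 836) (nat_lit 18046285420) (nat_lit 150) (nat_lit 5) (nat_lit 149) (nat_lit 5) (nat_lit 160) (nat_lit 5) (nat_lit 447) (nat_lit 442) (nat_lit 311)) (XT.lf (nat_lit 0) (nat_lit 19788195252) (nat_lit 760) (nat_lit 9457299304) (nat_lit 836) (nat_lit 7403684309) (nat_lit 150) (nat_lit 5) (nat_lit 160) (nat_lit 5) (nat_lit 161) (nat_lit 5) (nat_lit 448) (nat_lit 442) (nat_lit 310))))) (XT.nd (nat_lit 312) (nat_lit 1444) (nat_lit 0) (XT.nd (nat_lit 156) (nat_lit 0) (nat_lit 76) (XT.nd (nat_lit 78) (nat_lit 0) (nat_lit 76) (XT.lf (nat_lit 76) (nat_lit 9904480691) (nat_lit 0) (nat_lit 12405823569) (nat_lit 836) (nat_lit 15290480265) (nat_lit 151) (nat_lit 5) (nat_lit 150) (nat_lit 5) (nat_lit 161) (nat_lit 5) (nat_lit 449) (nat_lit 442) (nat_lit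 309)) (XT.lf (nat_lit 0) (nat_lit 25200527645) (nat_lit 760) (nat_lit 8116855258) (nat_lit 836) (nat_lit 5270487595) (nat_lit 151) (nat_lit 5) (nat_lit 161) (nat_lit 5) (nat_lit 162) (nat_lit 5) (nat_lit 450) (nat_lit 442) (nat_lit 308))) (XT.nd (nat_lit 78) (nat_lit 0) (nat_lit 76) (XT.lf (nat_lit 76) (nat_lit 12640300521) (nat_lit 0) (nat_lit 15992685248) (nat_lit 836) (nat_lit 10971439279) (nat_lit 152) (nat_lit 5) (nat_lit 151) (nat_lit 5) (nat_lit 162) (nat_lit 5) (nat_lit 451) (nat_lit 442) (nat_lit 307)) (XT.lf (nat_lit 0) (nat_lit 32408215418) (nat_lit 760) (nat_lit 5986968114) (nat_lit 76) (nat_lit 2268066796) (nat_lit 152) (nat_lit 5) (nat_lit 162) (nat_lit 5) (nat_lit 153) (nat_lit 5) (nat_lit 452) (nat_lit 442) (nat_lit 306)))) (XT.nd (nat_lit 156) (nat_lit 836) (nat_lit 0) (XT.nd (nat_lit 78) (nat_lit 0) (nat_lit 0) (XT.lf (nat_lit 0) (nat_lit 16295994431) (nat_lit 760) (nat_lit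 20590062435) (nat_lit 836) (nat_lit 4863267904) (nat_lit 142) (nat_lit 5) (nat_lit 152) (nat_lit 5) (nat_lit 153) (nat_lit 5) (nat_lit 453) (nat_lit 442) (nat_lit 305)) (XT.lf (nat_lit 0) (nat_lit 39898548523) (nat_lit 760) (nat_lit 1787976434) (nat_lit 836) (nat_lit 1198241640) (nat_lit 142) (nat_lit 5) (nat_lit 152) (nat_lit 5) (nat_lit 153) (nat_lit 5) (nat_lit 454) (nat_lit 442) (nat_lit 304))) (XT.nd (nat_lit 78) (nat_lit 380) (nat_lit 0) (XT.lf (nat_lit 0) (nat_lit 3180699442) (nat_lit 456) (nat_lit 23104576150) (nat_lit 76) (nat_lit 17758862496) (nat_lit 136) (nat_lit 5) (nat_lit 142) (nat_lit 5) (nat_lit 137) (nat_lit 5) (nat_lit 455) (nat_lit 442) (nat_lit 303)) (XT.lf (nat_lit 0) (nat_lit 882343472) (nat_lit 380) (nat_lit 6947979650) (nat_lit 456) (nat_lit 37425572992) (nat_lit 131) (nat_lit 5) (nat_lit 136) (nat_lit 5) (nat_lit 137) (nat_lit 5) (nat_lit 456) (nat_lit 442) (nat_lit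 302))))))))
noncomputable def xc181 : XT := (XT.nd (nat_lit 2418) (nat_lit 2356) (nat_lit 0) (XT.nd (nat_lit 1170) (nat_lit 2052) (nat_lit 0) (XT.nd (nat_lit 546) (nat_lit 1368) (nat_lit 0) (XT.nd (nat_lit 234) (nat_lit 684) (nat_lit 0) (XT.nd (nat_lit 78) (nat_lit 380) (nat_lit 0) (XT.lf (nat_lit 0) (nat_lit 13316252369) (nat_lit 456) (nat_lit 19855421928) (nat_lit 76) (nat_lit 13326376847) (nat_lit 131) (nat_lit 5) (nat_lit 137) (nat_lit 5) (nat_lit 132) (nat_lit 5) (nat_lit 457) (nat_lit 442) (nat_lit 301)) (XT.nd (nat_lit 78) (nat_lit 0) (nat_lit 0) (XT.lf (nat_lit 0) (nat_lit 5963143195) (nat_lit 380) (nat_lit 13318047322) (nat_lit 456) (nat_lit 28510888096) (nat_lit 126) (nat_lit 5) (nat_lit 131) (nat_lit 5) (nat_lit 132) (nat_lit 5) (nat_lit 458) (nat_lit 442) (nat_lit 300)) (XT.lf (nat_lit 0) (nat_lit 26001465322) (nat_lit 456) (nat_lit 15497570156) (nat_lit 76) (nat_lit 7628917783) (nat_lit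 126) (nat_lit 5) (nat_lit 132) (nat_lit 5) (nat_lit 127) (nat_lit 5) (nat_lit 459) (nat_lit 442) (nat_lit 299)))) (XT.nd (nat_lit 156) (nat_lit 380) (nat_lit 0) (XT.nd (nat_lit 78) (nat_lit 0) (nat_lit 0) (XT.lf (nat_lit 0) (nat_lit 12324103949) (nat_lit 304) (nat_lit 21142276973) (nat_lit 380) (nat_lit 17043809647) (nat_lit 122) (nat_lit 5) (nat_lit 126) (nat_lit 5) (nat_lit 127) (nat_lit 5) (nat_lit 460) (nat_lit 442) (nat_lit 298)) (XT.lf (nat_lit 0) (nat_lit 41572875192) (nat_lit 380) (nat_lit 9883883160) (nat_lit 76) (nat_lit 491365012) (nat_lit 122) (nat_lit 5) (nat_lit 127) (nat_lit 5) (nat_lit 123) (nat_lit 5) (nat_lit 461) (nat_lit 442) (nat_lit 297))) (XT.nd (nat_lit 78) (nat_lit 76) (nat_lit 0) (XT.lf (nat_lit 0) (nat_lit 20128758902) (nat_lit 304) (nat_lit 30614838483) (nat_lit 380) (nat_lit 2681410506) (nat_lit 118) (nat_lit 5) (nat_lit 122) (nat_lit 5) (nat_lit 123) (nat_lit 5)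 (nat_lit 462) (nat_lit 442) (nat_lit 296)) (XT.lf (nat_lit 0) (nat_lit 5392578275) (nat_lit 380) (nat_lit 3071545772) (nat_lit 76) (nat_lit 46498989583) (nat_lit 117) (nat_lit 5) (nat_lit 122) (nat_lit 5) (nat_lit 118) (nat_lit 5) (nat_lit 463) (nat_lit 442) (nat_lit 295))))) (XT.nd (nat_lit 312) (nat_lit 532) (nat_lit 0) (XT.nd (nat_lit 156) (nat_lit 228) (nat_lit 0) (XT.nd (nat_lit 78) (nat_lit 304) (nat_lit 0) (XT.lf (nat_lit 0) (nat_lit 14479156786) (nat_lit 380) (nat_lit 27227754615) (nat_lit 76) (nat_lit 14834065433) (nat_lit 113) (nat_lit 5) (nat_lit 118) (nat_lit 5) (nat_lit 114) (nat_lit 5) (nat_lit 464) (nat_lit 442) (nat_lit 294)) (XT.lf (nat_lit 0) (nat_lit 5255033895) (nat_lit 304) (nat_lit 19036910204) (nat_lit 380) (nat_lit 33892195315) (nat_lit 109) (nat_lit 5) (nat_lit 113) (nat_lit 5) (nat_lit 114) (nat_lit 5) (nat_lit 465) (nat_lit 442) (nat_lit 293))) (XT.nd (nat_lit 78) (nat_lit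 228) (nat_lit 0) (XT.lf (nat_lit 0) (nat_lit 35136714554) (nat_lit 380) (nat_lit 19663462653) (nat_lit 76) (nat_lit 5082215925) (nat_lit 109) (nat_lit 5) (nat_lit 114) (nat_lit 5) (nat_lit 110) (nat_lit 5) (nat_lit 466) (nat_lit 442) (nat_lit 292)) (XT.lf (nat_lit 0) (nat_lit 15445518562) (nat_lit 228) (nat_lit 31629766120) (nat_lit 304) (nat_lit 14562696985) (nat_lit 106) (nat_lit 5) (nat_lit 109) (nat_lit 5) (nat_lit 110) (nat_lit 5) (nat_lit 467) (nat_lit 442) (nat_lit 291)))) (XT.nd (nat_lit 156) (nat_lit 228) (nat_lit 0) (XT.nd (nat_lit 78) (nat_lit 304) (nat_lit 0) (XT.lf (nat_lit 0) (nat_lit 52990439258) (nat_lit 228) (nat_lit 6951732484) (nat_lit 304) (nat_lit 3522608647) (nat_lit 106) (nat_lit 5) (nat_lit 109) (nat_lit 5) (nat_lit 110) (nat_lit 5) (nat_lit 468) (nat_lit 442) (nat_lit 290)) (XT.lf (nat_lit 0) (nat_lit 8548728034) (nat_lit 304) (nat_lit 37869136877) (nat_lit 76) (nat_lit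 18921879045) (nat_lit 102) (nat_lit 5) (nat_lit 106) (nat_lit 5) (nat_lit 103) (nat_lit 5) (nat_lit 469) (nat_lit 442) (nat_lit 289))) (XT.nd (nat_lit 78) (nat_lit 0) (nat_lit 0) (XT.lf (nat_lit 0) (nat_lit 206696729) (nat_lit 228) (nat_lit 21194501182) (nat_lit 304) (nat_lit 45889573107) (nat_lit 99) (nat_lit 5) (nat_lit 102) (nat_lit 5) (nat_lit 103) (nat_lit 5) (nat_lit 470) (nat_lit 442) (nat_lit 288)) (XT.lf (nat_lit 0) (nat_lit 35629222547) (nat_lit 304) (nat_lit 27901528230) (nat_lit 76) (nat_lit 5771952242) (nat_lit 99) (nat_lit 5) (nat_lit 103) (nat_lit 5) (nat_lit 100) (nat_lit 5) (nat_lit 471) (nat_lit 442) (nat_lit 287)))))) (XT.nd (nat_lit 624) (nat_lit 912) (nat_lit 0) (XT.nd (nat_lit 312) (nat_lit 684) (nat_lit 0) (XT.nd (nat_lit 156) (nat_lit 228) (nat_lit 0) (XT.nd (nat_lit 78) (nat_lit 0) (nat_lit 0) (XT.lf (nat_lit 0) (nat_lit 13316827859) (nat_lit 228) (nat_lit 37805749405)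 (nat_lit 304) (nat_lit 20264958052) (nat_lit 96) (nat_lit 5) (nat_lit 99) (nat_lit 5) (nat_lit 100) (nat_lit 5) (nat_lit 472) (nat_lit 442) (nat_lit 286)) (XT.lf (nat_lit 0) (nat_lit 57562725398) (nat_lit 228) (nat_lit 10299001469) (nat_lit 304) (nat_lit 5691326140) (nat_lit 96) (nat_lit 5) (nat_lit 99) (nat_lit 5) (nat_lit 100) (nat_lit 5) (nat_lit 473) (nat_lit 442) (nat_lit 285))) (XT.nd (nat_lit 78) (nat_lit 0) (nat_lit 0) (XT.lf (nat_lit 0) (nat_lit 10054310650) (nat_lit 228) (nat_lit 47127584604) (nat_lit 76) (nat_lit 18599901983) (nat_lit 93) (nat_lit 5) (nat_lit 96) (nat_lit 5) (nat_lit 94) (nat_lit 5) (nat_lit 474) (nat_lit 442) (nat_lit 284)) (XT.lf (nat_lit 0) (nat_lit 26838712352) (nat_lit 228) (nat_lit 2290911650) (nat_lit 76) (nat_lit 48965552323) (nat_lit 93) (nat_lit 5) (nat_lit 96) (nat_lit 5) (nat_lit 94) (nat_lit 5) (nat_lit 475) (nat_lit 442) (nat_lit 283)))) (XT.nd (nat_lit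 156) (nat_lit 304) (nat_lit 0) (XT.nd (nat_lit 78) (nat_lit 152) (nat_lit 0) (XT.lf (nat_lit 0) (nat_lit 45200326164) (nat_lit 304) (nat_lit 34238597489) (nat_lit 76) (nat_lit 1048401225) (nat_lit 90) (nat_lit 5) (nat_lit 94) (nat_lit 5) (nat_lit 91) (nat_lit 5) (nat_lit 476) (nat_lit 442) (nat_lit 282)) (XT.lf (nat_lit 0) (nat_lit 14274495590) (nat_lit 152) (nat_lit 50944111762) (nat_lit 228) (nat_lit 17743544276) (nat_lit 88) (nat_lit 5) (nat_lit 90) (nat_lit 5) (nat_lit 91) (nat_lit 5) (nat_lit 477) (nat_lit 442) (nat_lit 281))) (XT.nd (nat_lit 78) (nat_lit 228) (nat_lit 0) (XT.lf (nat_lit 0) (nat_lit 1243527544) (nat_lit 228) (nat_lit 19151832917) (nat_lit 76) (nat_lit 65135425017) (nat_lit 87) (nat_lit 5) (nat_lit 90) (nat_lit 5) (nat_lit 88) (nat_lit 5) (nat_lit 478) (nat_lit 442) (nat_lit 280)) (XT.lf (nat_lit 0) (nat_lit 21303505564) (nat_lit 304) (nat_lit 54737956692) (nat_lit 76) (nat_lit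 12135852362) (nat_lit 84) (nat_lit 5) (nat_lit 88) (nat_lit 5) (nat_lit 85) (nat_lit 5) (nat_lit 479) (nat_lit 442) (nat_lit 279))))) (XT.nd (nat_lit 312) (nat_lit 532) (nat_lit 0) (XT.nd (nat_lit 156) (nat_lit 228) (nat_lit 0) (XT.nd (nat_lit 78) (nat_lit 152) (nat_lit 0) (XT.lf (nat_lit 0) (nat_lit 43029333684) (nat_lit 304) (nat_lit 1956485951) (nat_lit 76) (nat_lit 45937208110) (nat_lit 84) (nat_lit 5) (nat_lit 88) (nat_lit 5) (nat_lit 85) (nat_lit 5) (nat_lit 480) (nat_lit 442) (nat_lit 278)) (XT.lf (nat_lit 0) (nat_lit 55229969502) (nat_lit 152) (nat_lit 11472671960) (nat_lit 228) (nat_lit 27060325733) (nat_lit 82) (nat_lit 5) (nat_lit 84) (nat_lit 5) (nat_lit 85) (nat_lit 5) (nat_lit 481) (nat_lit 442) (nat_lit 277))) (XT.nd (nat_lit 78) (nat_lit 76) (nat_lit 0) (XT.lf (nat_lit 0) (nat_lit 18830493148) (nat_lit 152) (nat_lit 73425978906) (nat_lit 228) (nat_lit 4453588773) (nat_lit 80)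 (nat_lit 5) (nat_lit 82) (nat_lit 5) (nat_lit 83) (nat_lit 5) (nat_lit 482) (nat_lit 442) (nat_lit 276)) (XT.lf (nat_lit 0) (nat_lit 19516557376) (nat_lit 228) (nat_lit 19873601108) (nat_lit 76) (nat_lit 60356784050) (nat_lit 79) (nat_lit 5) (nat_lit 82) (nat_lit 5) (nat_lit 80) (nat_lit 5) (nat_lit 483) (nat_lit 442) (nat_lit 275)))) (XT.nd (nat_lit 156) (nat_lit 228) (nat_lit 0) (XT.nd (nat_lit 78) (nat_lit 152) (nat_lit 0) (XT.lf (nat_lit 0) (nat_lit 42312180408) (nat_lit 152) (nat_lit 2882938822) (nat_lit 228) (nat_lit 57703919774) (nat_lit 77) (nat_lit 5) (nat_lit 79) (nat_lit 5) (nat_lit 80) (nat_lit 5) (nat_lit 484) (nat_lit 442) (nat_lit 274)) (XT.lf (nat_lit 0) (nat_lit 1595650995) (nat_lit 152) (nat_lit 71481403984) (nat_lit 228) (nat_lit 33085713092) (nat_lit 75) (nat_lit 5) (nat_lit 77) (nat_lit 5) (nat_lit 78) (nat_lit 5) (nat_lit 485) (nat_lit 442) (nat_lit 273))) (XT.nd (nat_lit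 78) (nat_lit 228) (nat_lit 0) (XT.lf (nat_lit 0) (nat_lit 68940189353) (nat_lit 152) (nat_lit 34484465252) (nat_lit 228) (nat_lit 6111450693) (nat_lit 75) (nat_lit 5) (nat_lit 77) (nat_lit 5) (nat_lit 78) (nat_lit 5) (nat_lit 486) (nat_lit 442) (nat_lit 272)) (XT.lf (nat_lit 0) (nat_lit 22003356328) (nat_lit 228) (nat_lit 86027856569) (nat_lit 76) (nat_lit 5004420388) (nat_lit 72) (nat_lit 5) (nat_lit 75) (nat_lit 5) (nat_lit 73) (nat_lit 5) (nat_lit 487) (nat_lit 442) (nat_lit 271))))))) (XT.nd (nat_lit 1170) (nat_lit 988) (nat_lit 0) (XT.nd (nat_lit 546) (nat_lit 760) (nat_lit 0) (XT.nd (nat_lit 234) (nat_lit 380) (nat_lit 0) (XT.nd (nat_lit 78) (nat_lit 228) (nat_lit 0) (XT.lf (nat_lit 0) (nat_lit 52581662199) (nat_lit 228) (nat_lit 17953159125) (nat_lit 76) (nat_lit 46107149848) (nat_lit 72) (nat_lit 5) (nat_lit 75) (nat_lit 5) (nat_lit 73) (nat_lit 5) (nat_lit 488) (nat_lit 442) (nat_lit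 270)) (XT.nd (nat_lit 78) (nat_lit 76) (nat_lit 0) (XT.lf (nat_lit 0) (nat_lit 55293415342) (nat_lit 152) (nat_lit 30257840866) (nat_lit 228) (nat_lit 34834251155) (nat_lit 70) (nat_lit 5) (nat_lit 72) (nat_lit 5) (nat_lit 73) (nat_lit 5) (nat_lit 489) (nat_lit 442) (nat_lit 269)) (XT.lf (nat_lit 0) (nat_lit 8605571625) (nat_lit 76) (nat_lit 112194109986) (nat_lit 152) (nat_lit 3485021216) (nat_lit 69) (nat_lit 5) (nat_lit 70) (nat_lit 5) (nat_lit 71) (nat_lit 4) (nat_lit 490) (nat_lit 442) (nat_lit 268)))) (XT.nd (nat_lit 156) (nat_lit 152) (nat_lit 0) (XT.nd (nat_lit 78) (nat_lit 152) (nat_lit 0) (XT.lf (nat_lit 0) (nat_lit 30105240824) (nat_lit 152) (nat_lit 41050988408) (nat_lit 76) (nat_lit 57118874941) (nat_lit 68) (nat_lit 5) (nat_lit 70) (nat_lit 5) (nat_lit 69) (nat_lit 5) (nat_lit 491) (nat_lit 442) (nat_lit 267)) (XT.lf (nat_lit 0) (nat_lit 38481551476) (nat_lit 152) (nat_lit 27376292672)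 (nat_lit 228) (nat_lit 66574327516) (nat_lit 66) (nat_lit 5) (nat_lit 68) (nat_lit 5) (nat_lit 69) (nat_lit 5) (nat_lit 492) (nat_lit 442) (nat_lit 266))) (XT.nd (nat_lit 78) (nat_lit 152) (nat_lit 0) (XT.lf (nat_lit 0) (nat_lit 104394126093) (nat_lit 228) (nat_lit 13649631415) (nat_lit 76) (nat_lit 18703532641) (nat_lit 66) (nat_lit 5) (nat_lit 69) (nat_lit 5) (nat_lit 67) (nat_lit 4) (nat_lit 493) (nat_lit 442) (nat_lit 265)) (XT.lf (nat_lit 0) (nat_lit 5070915802) (nat_lit 152) (nat_lit 68743112710) (nat_lit 76) (nat_lit 67381021603) (nat_lit 64) (nat_lit 5) (nat_lit 66) (nat_lit 5) (nat_lit 65) (nat_lit 5) (nat_lit 494) (nat_lit 442) (nat_lit 264))))) (XT.nd (nat_lit 312) (nat_lit 456) (nat_lit 0) (XT.nd (nat_lit 156) (nat_lit 152) (nat_lit 0) (XT.nd (nat_lit 78) (nat_lit 0) (nat_lit 0) (XT.lf (nat_lit 0) (nat_lit 17503412820) (nat_lit 152) (nat_lit 26282931751) (nat_lit 228) (nat_lit 102026963388)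 (nat_lit 62) (nat_lit 5) (nat_lit 64) (nat_lit 5) (nat_lit 65) (nat_lit 5) (nat_lit 495) (nat_lit 442) (nat_lit 263)) (XT.lf (nat_lit 0) (nat_lit 85988875065) (nat_lit 228) (nat_lit 40544803113) (nat_lit 76) (nat_lit 24051234034) (nat_lit 62) (nat_lit 5) (nat_lit 65) (nat_lit 5) (nat_lit 63) (nat_lit 4) (nat_lit 496) (nat_lit 442) (nat_lit 262))) (XT.nd (nat_lit 78) (nat_lit 76) (nat_lit 0) (XT.lf (nat_lit 0) (nat_lit 52868393305) (nat_lit 76) (nat_lit 78688667547) (nat_lit 152) (nat_lit 23975259421) (nat_lit 61) (nat_lit 5) (nat_lit 62) (nat_lit 5) (nat_lit 63) (nat_lit 4) (nat_lit 497) (nat_lit 442) (nat_lit 261)) (XT.lf (nat_lit 0) (nat_lit 18775932831) (nat_lit 152) (nat_lit 8637146569) (nat_lit 76) (nat_lit 133264582588) (nat_lit 60) (nat_lit 5) (nat_lit 62) (nat_lit 5) (nat_lit 61) (nat_lit 5) (nat_lit 498) (nat_lit 442) (nat_lit 260)))) (XT.nd (nat_lit 156) (nat_lit 228) (nat_lit 0) (XT.nd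 (nat_lit 78) (nat_lit 76) (nat_lit 0) (XT.lf (nat_lit 0) (nat_lit 64747692851) (nat_lit 228) (nat_lit 73768684486) (nat_lit 76) (nat_lit 27449804923) (nat_lit 58) (nat_lit 5) (nat_lit 61) (nat_lit 5) (nat_lit 59) (nat_lit 4) (nat_lit 499) (nat_lit 442) (nat_lit 259)) (XT.lf (nat_lit 0) (nat_lit 27281981365) (nat_lit 76) (nat_lit 86759355085) (nat_lit 152) (nat_lit 57426627343) (nat_lit 57) (nat_lit 5) (nat_lit 58) (nat_lit 5) (nat_lit 59) (nat_lit 4) (nat_lit 500) (nat_lit 442) (nat_lit 258))) (XT.nd (nat_lit 78) (nat_lit 228) (nat_lit 0) (XT.lf (nat_lit 0) (nat_lit 135944942832) (nat_lit 76) (nat_lit 31103321871) (nat_lit 152) (nat_lit 10134139598) (nat_lit 57) (nat_lit 5) (nat_lit 58) (nat_lit 5) (nat_lit 59) (nat_lit 4) (nat_lit 501) (nat_lit 442) (nat_lit 257)) (XT.lf (nat_lit 0) (nat_lit 39780101692) (nat_lit 228) (nat_lit 115122393576) (nat_lit 76) (nat_lit 28173112817) (nat_lit 54) (nat_lit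 5) (nat_lit 57) (nat_lit 5) (nat_lit 55) (nat_lit 4) (nat_lit 502) (nat_lit 442) (nat_lit 256)))))) (XT.nd (nat_lit 624) (nat_lit 456) (nat_lit 0) (XT.nd (nat_lit 312) (nat_lit 304) (nat_lit 0) (XT.nd (nat_lit 156) (nat_lit 152) (nat_lit 0) (XT.nd (nat_lit 78) (nat_lit 76) (nat_lit 0) (XT.lf (nat_lit 0) (nat_lit 93068517557) (nat_lit 228) (nat_lit 5882213467) (nat_lit 76) (nat_lit 90243482581) (nat_lit 54) (nat_lit 5) (nat_lit 57) (nat_lit 5) (nat_lit 55) (nat_lit 4) (nat_lit 503) (nat_lit 442) (nat_lit 255)) (XT.lf (nat_lit 0) (nat_lit 112416792875) (nat_lit 76) (nat_lit 38359055262) (nat_lit 152) (nat_lit 44755176587) (nat_lit 53) (nat_lit 5) (nat_lit 54) (nat_lit 5) (nat_lit 55) (nat_lit 4) (nat_lit 504) (nat_lit 442) (nat_lit 254))) (XT.nd (nat_lit 78) (nat_lit 0) (nat_lit 0) (XT.lf (nat_lit 0) (nat_lit 9954670258) (nat_lit 152) (nat_lit 166902134082) (nat_lit 76) (nat_lit 25267465652) (nat_lit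 51) (nat_lit 5) (nat_lit 53) (nat_lit 5) (nat_lit 52) (nat_lit 4) (nat_lit 505) (nat_lit 442) (nat_lit 253)) (XT.lf (nat_lit 0) (nat_lit 67954791211) (nat_lit 152) (nat_lit 48002768405) (nat_lit 76) (nat_lit 92949990895) (nat_lit 51) (nat_lit 5) (nat_lit 53) (nat_lit 5) (nat_lit 52) (nat_lit 4) (nat_lit 506) (nat_lit 442) (nat_lit 252)))) (XT.nd (nat_lit 156) (nat_lit 228) (nat_lit 0) (XT.nd (nat_lit 78) (nat_lit 0) (nat_lit 0) (XT.lf (nat_lit 0) (nat_lit 79381087618) (nat_lit 76) (nat_lit 50712579831) (nat_lit 152) (nat_lit 85874390163) (nat_lit 50) (nat_lit 5) (nat_lit 51) (nat_lit 5) (nat_lit 52) (nat_lit 4) (nat_lit 507) (nat_lit 442) (nat_lit 251)) (XT.lf (nat_lit 0) (nat_lit 196442979619) (nat_lit 152) (nat_lit 8832580910) (nat_lit 0) (nat_lit 18050854947) (nat_lit 50) (nat_lit 5) (nat_lit 52) (nat_lit 4) (nat_lit 50) (nat_lit 4) (nat_lit 508) (nat_lit 442) (nat_lit 250))) (XT.nd (nat_lit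 78) (nat_lit 76) (nat_lit 0) (XT.lf (nat_lit 0) (nat_lit 36820021252) (nat_lit 152) (nat_lit 102911806957) (nat_lit 76) (nat_lit 91149246080) (nat_lit 48) (nat_lit 5) (nat_lit 50) (nat_lit 5) (nat_lit 49) (nat_lit 4) (nat_lit 509) (nat_lit 442) (nat_lit 249)) (XT.lf (nat_lit 0) (nat_lit 33747725594) (nat_lit 76) (nat_lit 69735819481) (nat_lit 152) (nat_lit 135273967698) (nat_lit 47) (nat_lit 5) (nat_lit 48) (nat_lit 5) (nat_lit 49) (nat_lit 4) (nat_lit 510) (nat_lit 442) (nat_lit 248))))) (XT.nd (nat_lit 312) (nat_lit 228) (nat_lit 0) (XT.nd (nat_lit 156) (nat_lit 152) (nat_lit 0) (XT.nd (nat_lit 78) (nat_lit 76) (nat_lit 0) (XT.lf (nat_lit 0) (nat_lit 175309804755) (nat_lit 152) (nat_lit 66215923969) (nat_lit 0) (nat_lit 5410566487) (nat_lit 47) (nat_lit 5) (nat_lit 49) (nat_lit 4) (nat_lit 47) (nat_lit 4) (nat_lit 511) (nat_lit 442) (nat_lit 247)) (XT.lf (nat_lit 0) (nat_lit 80964733930) (nat_lit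 76) (nat_lit 172169390466) (nat_lit 76) (nat_lit 2269555038) (nat_lit 46) (nat_lit 4) (nat_lit 47) (nat_lit 5) (nat_lit 47) (nat_lit 4) (nat_lit 512) (nat_lit 442) (nat_lit 246))) (XT.nd (nat_lit 78) (nat_lit 76) (nat_lit 0) (XT.lf (nat_lit 0) (nat_lit 69436252921) (nat_lit 152) (nat_lit 27556085663) (nat_lit 76) (nat_lit 167190054373) (nat_lit 45) (nat_lit 5) (nat_lit 47) (nat_lit 5) (nat_lit 46) (nat_lit 4) (nat_lit 513) (nat_lit 442) (nat_lit 245)) (XT.lf (nat_lit 0) (nat_lit 130819744540) (nat_lit 76) (nat_lit 15873275134) (nat_lit 152) (nat_lit 126603065183) (nat_lit 44) (nat_lit 5) (nat_lit 45) (nat_lit 5) (nat_lit 46) (nat_lit 4) (nat_lit 514) (nat_lit 442) (nat_lit 244)))) (XT.nd (nat_lit 156) (nat_lit 76) (nat_lit 0) (XT.nd (nat_lit 78) (nat_lit 76) (nat_lit 0) (XT.lf (nat_lit 0) (nat_lit 14605736385) (nat_lit 76) (nat_lit 214990724511) (nat_lit 76) (nat_lit 53179808660) (nat_lit 43)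 (nat_lit 4) (nat_lit 44) (nat_lit 5) (nat_lit 44) (nat_lit 4) (nat_lit 515) (nat_lit 442) (nat_lit 243)) (XT.lf (nat_lit 0) (nat_lit 25861352978) (nat_lit 152) (nat_lit 108795610134) (nat_lit 76) (nat_lit 157919223723) (nat_lit 42) (nat_lit 5) (nat_lit 44) (nat_lit 5) (nat_lit 43) (nat_lit 4) (nat_lit 516) (nat_lit 442) (nat_lit 242))) (XT.nd (nat_lit 78) (nat_lit 0) (nat_lit 0) (XT.lf (nat_lit 0) (nat_lit 59582294808) (nat_lit 76) (nat_lit 48414838928) (nat_lit 152) (nat_lit 194778888679) (nat_lit 41) (nat_lit 5) (nat_lit 42) (nat_lit 5) (nat_lit 43) (nat_lit 4) (nat_lit 517) (nat_lit 442) (nat_lit 241)) (XT.lf (nat_lit 0) (nat_lit 196769834967) (nat_lit 152) (nat_lit 73926581600) (nat_lit 0) (nat_lit 42662926642) (nat_lit 41) (nat_lit 5) (nat_lit 43) (nat_lit 4) (nat_lit 41) (nat_lit 4) (nat_lit 518) (nat_lit 442) (nat_lit 240))))))))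
noncomputable def xc182 : XT := (XT.nd (nat_lit 56784) (nat_lit 0) (nat_lit 5548) (XT.nd (nat_lit 1170) (nat_lit 684) (nat_lit 0) (XT.nd (nat_lit 546) (nat_lit 456) (nat_lit 0) (XT.nd (nat_lit 234) (nat_lit 228) (nat_lit 0) (XT.nd (nat_lit 78) (nat_lit 152) (nat_lit 0) (XT.lf (nat_lit 0) (nat_lit 106415264051) (nat_lit 76) (nat_lit 186020563229) (nat_lit 76) (nat_lit 31913269969) (nat_lit 40) (nat_lit 4) (nat_lit 41) (nat_lit 5) (nat_lit 41) (nat_lit 4) (nat_lit 519) (nat_lit 442) (nat_lit 239)) (XT.nd (nat_lit 78) (nat_lit 76) (nat_lit 0) (XT.lf (nat_lit 0) (nat_lit 56444564275) (nat_lit 152) (nat_lit 38396303100) (nat_lit 76) (nat_lit 240939375802) (nat_lit 39) (nat_lit 5) (nat_lit 41) (nat_lit 5) (nat_lit 40) (nat_lit 4) (nat_lit 520) (nat_lit 442) (nat_lit 238)) (XT.lf (nat_lit 0) (nat_lit 150622296382) (nat_lit 152) (nat_lit 193158002555) (nat_lit 0) (nat_lit 3852763989) (nat_lit 38) (nat_lit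 5) (nat_lit 40) (nat_lit 4) (nat_lit 38) (nat_lit 4) (nat_lit 521) (nat_lit 442) (nat_lit 237)))) (XT.nd (nat_lit 156) (nat_lit 152) (nat_lit 0) (XT.nd (nat_lit 78) (nat_lit 76) (nat_lit 0) (XT.lf (nat_lit 0) (nat_lit 251724157088) (nat_lit 152) (nat_lit 3289296473) (nat_lit 0) (nat_lit 104954308008) (nat_lit 38) (nat_lit 5) (nat_lit 40) (nat_lit 4) (nat_lit 38) (nat_lit 4) (nat_lit 522) (nat_lit 442) (nat_lit 236)) (XT.lf (nat_lit 0) (nat_lit 202555030438) (nat_lit 76) (nat_lit 158488107033) (nat_lit 76) (nat_lit 11717956347) (nat_lit 37) (nat_lit 4) (nat_lit 38) (nat_lit 5) (nat_lit 38) (nat_lit 4) (nat_lit 523) (nat_lit 442) (nat_lit 235))) (XT.nd (nat_lit 78) (nat_lit 0) (nat_lit 0) (XT.lf (nat_lit 0) (nat_lit 32245323309) (nat_lit 76) (nat_lit 55079438271) (nat_lit 152) (nat_lit 298771377512) (nat_lit 35) (nat_lit 5) (nat_lit 36) (nat_lit 5) (nat_lit 37) (nat_lit 4) (nat_lit 524) (nat_lit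 442) (nat_lit 234)) (XT.lf (nat_lit 0) (nat_lit 194690447750) (nat_lit 152) (nat_lit 150300834621) (nat_lit 0) (nat_lit 54908817754) (nat_lit 35) (nat_lit 5) (nat_lit 37) (nat_lit 4) (nat_lit 35) (nat_lit 4) (nat_lit 525) (nat_lit 442) (nat_lit 233))))) (XT.nd (nat_lit 312) (nat_lit 228) (nat_lit 0) (XT.nd (nat_lit 156) (nat_lit 76) (nat_lit 0) (XT.nd (nat_lit 78) (nat_lit 76) (nat_lit 0) (XT.lf (nat_lit 0) (nat_lit 64590191762) (nat_lit 76) (nat_lit 244745198491) (nat_lit 76) (nat_lit 104963320362) (nat_lit 34) (nat_lit 4) (nat_lit 35) (nat_lit 5) (nat_lit 35) (nat_lit 4) (nat_lit 526) (nat_lit 442) (nat_lit 232)) (XT.lf (nat_lit 0) (nat_lit 2872618315) (nat_lit 152) (nat_lit 133893246898) (nat_lit 76) (nat_lit 292521818756) (nat_lit 33) (nat_lit 5) (nat_lit 35) (nat_lit 5) (nat_lit 34) (nat_lit 4) (nat_lit 527) (nat_lit 442) (nat_lit 231))) (XT.nd (nat_lit 78) (nat_lit 0) (nat_lit 0) (XT.lf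 (nat_lit 0) (nat_lit 93999898332) (nat_lit 76) (nat_lit 20040217687) (nat_lit 152) (nat_lit 330826593570) (nat_lit 32) (nat_lit 5) (nat_lit 33) (nat_lit 5) (nat_lit 34) (nat_lit 4) (nat_lit 528) (nat_lit 442) (nat_lit 230)) (XT.lf (nat_lit 0) (nat_lit 234670976475) (nat_lit 152) (nat_lit 124813725918) (nat_lit 0) (nat_lit 101544734708) (nat_lit 32) (nat_lit 5) (nat_lit 34) (nat_lit 4) (nat_lit 32) (nat_lit 4) (nat_lit 529) (nat_lit 442) (nat_lit 229)))) (XT.nd (nat_lit 156) (nat_lit 76) (nat_lit 0) (XT.nd (nat_lit 78) (nat_lit 76) (nat_lit 0) (XT.lf (nat_lit 0) (nat_lit 115923017818) (nat_lit 76) (nat_lit 247548408520) (nat_lit 76) (nat_lit 114421972335) (nat_lit 31) (nat_lit 4) (nat_lit 32) (nat_lit 5) (nat_lit 32) (nat_lit 4) (nat_lit 530) (nat_lit 442) (nat_lit 228)) (XT.lf (nat_lit 0) (nat_lit 5159826386) (nat_lit 152) (nat_lit 122548977252) (nat_lit 76) (nat_lit 367781922436) (nat_lit 30)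 (nat_lit 5) (nat_lit 32) (nat_lit 5) (nat_lit 31) (nat_lit 4) (nat_lit 531) (nat_lit 442) (nat_lit 227))) (XT.nd (nat_lit 78) (nat_lit 0) (nat_lit 0) (XT.lf (nat_lit 0) (nat_lit 128957902223) (nat_lit 152) (nat_lit 382641627483) (nat_lit 0) (nat_lit 2170475853) (nat_lit 29) (nat_lit 5) (nat_lit 31) (nat_lit 4) (nat_lit 29) (nat_lit 4) (nat_lit 532) (nat_lit 442) (nat_lit 226)) (XT.lf (nat_lit 0) (nat_lit 263148571671) (nat_lit 152) (nat_lit 133243557504) (nat_lit 0) (nat_lit 136360985353) (nat_lit 29) (nat_lit 5) (nat_lit 31) (nat_lit 4) (nat_lit 29) (nat_lit 4) (nat_lit 533) (nat_lit 442) (nat_lit 225)))))) (XT.nd (nat_lit 624) (nat_lit 228) (nat_lit 0) (XT.nd (nat_lit 312) (nat_lit 228) (nat_lit 0) (XT.nd (nat_lit 156) (nat_lit 152) (nat_lit 0) (XT.nd (nat_lit 78) (nat_lit 0) (nat_lit 0) (XT.lf (nat_lit 0) (nat_lit 132876636838) (nat_lit 76) (nat_lit 273246384220) (nat_lit 76) (nat_lit 146458645570)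 (nat_lit 28) (nat_lit 4) (nat_lit 29) (nat_lit 5) (nat_lit 29) (nat_lit 4) (nat_lit 534) (nat_lit 442) (nat_lit 224)) (XT.lf (nat_lit 0) (nat_lit 416928105665) (nat_lit 76) (nat_lit 141574306712) (nat_lit 76) (nat_lit 14786422985) (nat_lit 28) (nat_lit 4) (nat_lit 29) (nat_lit 5) (nat_lit 29) (nat_lit 4) (nat_lit 535) (nat_lit 442) (nat_lit 223))) (XT.nd (nat_lit 78) (nat_lit 0) (nat_lit 0) (XT.lf (nat_lit 0) (nat_lit 121435160942) (nat_lit 152) (nat_lit 472719275398) (nat_lit 0) (nat_lit 684663897) (nat_lit 26) (nat_lit 5) (nat_lit 28) (nat_lit 4) (nat_lit 26) (nat_lit 4) (nat_lit 536) (nat_lit 442) (nat_lit 222)) (XT.lf (nat_lit 0) (nat_lit 268982934914) (nat_lit 152) (nat_lit 199988909299) (nat_lit 0) (nat_lit 148232312546) (nat_lit 26) (nat_lit 5) (nat_lit 28) (nat_lit 4) (nat_lit 26) (nat_lit 4) (nat_lit 537) (nat_lit 442) (nat_lit 221)))) (XT.nd (nat_lit 156) (nat_lit 152) (nat_lit 0) (XT.nd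 (nat_lit 78) (nat_lit 0) (nat_lit 0) (XT.lf (nat_lit 0) (nat_lit 89233400705) (nat_lit 76) (nat_lit 336067581450) (nat_lit 76) (nat_lit 215316839725) (nat_lit 25) (nat_lit 4) (nat_lit 26) (nat_lit 5) (nat_lit 26) (nat_lit 4) (nat_lit 538) (nat_lit 442) (nat_lit 220)) (XT.lf (nat_lit 0) (nat_lit 399859398744) (nat_lit 76) (nat_lit 192962148080) (nat_lit 76) (nat_lit 72211292683) (nat_lit 25) (nat_lit 4) (nat_lit 26) (nat_lit 5) (nat_lit 26) (nat_lit 4) (nat_lit 539) (nat_lit 442) (nat_lit 219))) (XT.nd (nat_lit 78) (nat_lit 0) (nat_lit 0) (XT.lf (nat_lit 0) (nat_lit 35257401700) (nat_lit 76) (nat_lit 40844239937) (nat_lit 152) (nat_lit 614478528666) (nat_lit 23) (nat_lit 5) (nat_lit 24) (nat_lit 5) (nat_lit 25) (nat_lit 4) (nat_lit 540) (nat_lit 442) (nat_lit 218)) (XT.lf (nat_lit 0) (nat_lit 235823669596) (nat_lit 152) (nat_lit 360378343832) (nat_lit 0) (nat_lit 120822653634) (nat_lit 23) (nat_lit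 5) (nat_lit 25) (nat_lit 4) (nat_lit 23) (nat_lit 4) (nat_lit 541) (nat_lit 442) (nat_lit 217))))) (XT.nd (nat_lit 312) (nat_lit 0) (nat_lit 0) (XT.nd (nat_lit 156) (nat_lit 152) (nat_lit 0) (XT.nd (nat_lit 78) (nat_lit 76) (nat_lit 0) (XT.lf (nat_lit 0) (nat_lit 404201106047) (nat_lit 152) (nat_lit 51356820693) (nat_lit 0) (nat_lit 289199996566) (nat_lit 23) (nat_lit 5) (nat_lit 25) (nat_lit 4) (nat_lit 23) (nat_lit 4) (nat_lit 542) (nat_lit 442) (nat_lit 216)) (XT.lf (nat_lit 0) (nat_lit 282145683295) (nat_lit 76) (nat_lit 303256558131) (nat_lit 76) (nat_lit 188255359585) (nat_lit 22) (nat_lit 4) (nat_lit 23) (nat_lit 5) (nat_lit 23) (nat_lit 4) (nat_lit 543) (nat_lit 442) (nat_lit 215))) (XT.nd (nat_lit 78) (nat_lit 152) (nat_lit 0) (XT.lf (nat_lit 0) (nat_lit 634105794499) (nat_lit 76) (nat_lit 142427138257) (nat_lit 76) (nat_lit 27425854887) (nat_lit 22) (nat_lit 4) (nat_lit 23) (nat_lit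 5) (nat_lit 23) (nat_lit 4) (nat_lit 544) (nat_lit 442) (nat_lit 214)) (XT.lf (nat_lit 0) (nat_lit 140082878154) (nat_lit 152) (nat_lit 664865724255) (nat_lit 0) (nat_lit 30557769435) (nat_lit 20) (nat_lit 5) (nat_lit 22) (nat_lit 4) (nat_lit 20) (nat_lit 4) (nat_lit 545) (nat_lit 442) (nat_lit 213)))) (XT.nd (nat_lit 54522) (nat_lit 0) (nat_lit 9652) (XT.nd (nat_lit 54444) (nat_lit 0) (nat_lit 9652) (XT.lf (nat_lit 0) (nat_lit 320303684398) (nat_lit 152) (nat_lit 337263751989) (nat_lit 0) (nat_lit 210778502405) (nat_lit 20) (nat_lit 5) (nat_lit 22) (nat_lit 4) (nat_lit 20) (nat_lit 4) (nat_lit 546) (nat_lit 442) (nat_lit 212)) (XT.lf (nat_lit 0) (nat_lit 6476553289) (nat_lit 836) (nat_lit 5044027714) (nat_lit 836) (nat_lit 5044027714) (nat_lit 147) (nat_lit 3) (nat_lit 158) (nat_lit 3) (nat_lit 158) (nat_lit 5) (nat_lit 443) (nat_lit 443) (nat_lit 314))) (XT.nd (nat_lit 78) (nat_lit 0) (nat_lit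 76) (XT.lf (nat_lit 76) (nat_lit 6552185247) (nat_lit 0) (nat_lit 6885758996) (nat_lit 836) (nat_lit 20511444045) (nat_lit 148) (nat_lit 5) (nat_lit 147) (nat_lit 3) (nat_lit 158) (nat_lit 5) (nat_lit 444) (nat_lit 443) (nat_lit 313)) (XT.lf (nat_lit 0) (nat_lit 14274244539) (nat_lit 760) (nat_lit 10589746434) (nat_lit 836) (nat_lit 9930216256) (nat_lit 148) (nat_lit 5) (nat_lit 158) (nat_lit 5) (nat_lit 159) (nat_lit 5) (nat_lit 445) (nat_lit 443) (nat_lit 312))))))) (XT.nd (nat_lit 1170) (nat_lit 2508) (nat_lit 0) (XT.nd (nat_lit 546) (nat_lit 1672) (nat_lit 0) (XT.nd (nat_lit 234) (nat_lit 0) (nat_lit 152) (XT.nd (nat_lit 78) (nat_lit 0) (nat_lit 76) (XT.lf (nat_lit 76) (nat_lit 7172621747) (nat_lit 0) (nat_lit 8201020517) (nat_lit 836) (nat_lit 20296561286) (nat_lit 149) (nat_lit 5) (nat_lit 148) (nat_lit 5) (nat_lit 159) (nat_lit 5) (nat_lit 446) (nat_lit 443) (nat_lit 311)) (XT.nd (nat_lit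 78) (nat_lit 0) (nat_lit 0) (XT.lf (nat_lit 0) (nat_lit 16851989766) (nat_lit 760) (nat_lit 10540642335) (nat_lit 836) (nat_lit 9181169120) (nat_lit 149) (nat_lit 5) (nat_lit 159) (nat_lit 5) (nat_lit 160) (nat_lit 5) (nat_lit 447) (nat_lit 443) (nat_lit 310)) (XT.lf (nat_lit 76) (nat_lit 8447888611) (nat_lit 0) (nat_lit 10219442141) (nat_lit 836) (nat_lit 18842094718) (nat_lit 150) (nat_lit 5) (nat_lit 149) (nat_lit 5) (nat_lit 160) (nat_lit 5) (nat_lit 448) (nat_lit 443) (nat_lit 309)))) (XT.nd (nat_lit 156) (nat_lit 0) (nat_lit 76) (XT.nd (nat_lit 78) (nat_lit 0) (nat_lit 0) (XT.lf (nat_lit 0) (nat_lit 20873724433) (nat_lit 760) (nat_lit 9858347020) (nat_lit 836) (nat_lit 7744745675) (nat_lit 150) (nat_lit 5) (nat_lit 160) (nat_lit 5) (nat_lit 161) (nat_lit 5) (nat_lit 449) (nat_lit 443) (nat_lit 308)) (XT.lf (nat_lit 76) (nat_lit 10470363632) (nat_lit 0) (nat_lit 13048101328) (nat_lit 836)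 (nat_lit 15957712508) (nat_lit 151) (nat_lit 5) (nat_lit 150) (nat_lit 5) (nat_lit 161) (nat_lit 5) (nat_lit 450) (nat_lit 443) (nat_lit 307))) (XT.nd (nat_lit 78) (nat_lit 0) (nat_lit 0) (XT.lf (nat_lit 0) (nat_lit 26548460899) (nat_lit 760) (nat_lit 8450651867) (nat_lit 836) (nat_lit 5513742572) (nat_lit 151) (nat_lit 5) (nat_lit 161) (nat_lit 5) (nat_lit 162) (nat_lit 5) (nat_lit 451) (nat_lit 443) (nat_lit 306)) (XT.lf (nat_lit 76) (nat_lit 13343199666) (nat_lit 0) (nat_lit 16806262921) (nat_lit 836) (nat_lit 11430929631) (nat_lit 152) (nat_lit 5) (nat_lit 151) (nat_lit 5) (nat_lit 162) (nat_lit 5) (nat_lit 452) (nat_lit 443) (nat_lit 305))))) (XT.nd (nat_lit 312) (nat_lit 760) (nat_lit 0) (XT.nd (nat_lit 156) (nat_lit 456) (nat_lit 0) (XT.nd (nat_lit 78) (nat_lit 760) (nat_lit 0) (XT.lf (nat_lit 0) (nat_lit 34109206983) (nat_lit 760) (nat_lit 6214548998) (nat_lit 76) (nat_lit 2368615722)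 (nat_lit 152) (nat_lit 5) (nat_lit 162) (nat_lit 5) (nat_lit 153) (nat_lit 5) (nat_lit 453) (nat_lit 443) (nat_lit 304)) (XT.lf (nat_lit 0) (nat_lit 17181404133) (nat_lit 760) (nat_lit 21626801609) (nat_lit 836) (nat_lit 5024681439) (nat_lit 142) (nat_lit 5) (nat_lit 152) (nat_lit 5) (nat_lit 153) (nat_lit 5) (nat_lit 454) (nat_lit 443) (nat_lit 303))) (XT.nd (nat_lit 78) (nat_lit 456) (nat_lit 0) (XT.lf (nat_lit 0) (nat_lit 41960723550) (nat_lit 760) (nat_lit 1884266734) (nat_lit 836) (nat_lit 1180296713) (nat_lit 142) (nat_lit 5) (nat_lit 152) (nat_lit 5) (nat_lit 153) (nat_lit 5) (nat_lit 455) (nat_lit 443) (nat_lit 302)) (XT.lf (nat_lit 0) (nat_lit 3412516198) (nat_lit 456) (nat_lit 24187461722) (nat_lit 76) (nat_lit 18642718028) (nat_lit 136) (nat_lit 5) (nat_lit 142) (nat_lit 5) (nat_lit 137) (nat_lit 5) (nat_lit 456) (nat_lit 443) (nat_lit 301)))) (XT.nd (nat_lit 156) (nat_lit 380) (nat_lit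 0) (XT.nd (nat_lit 78) (nat_lit 0) (nat_lit 0) (XT.lf (nat_lit 0) (nat_lit 997637055) (nat_lit 380) (nat_lit 7294629471) (nat_lit 456) (nat_lit 39222893550) (nat_lit 131) (nat_lit 5) (nat_lit 136) (nat_lit 5) (nat_lit 137) (nat_lit 5) (nat_lit 457) (nat_lit 443) (nat_lit 300)) (XT.lf (nat_lit 0) (nat_lit 14049149696) (nat_lit 456) (nat_lit 20777054399) (nat_lit 76) (nat_lit 13993386341) (nat_lit 131) (nat_lit 5) (nat_lit 137) (nat_lit 5) (nat_lit 132) (nat_lit 5) (nat_lit 458) (nat_lit 443) (nat_lit 299))) (XT.nd (nat_lit 78) (nat_lit 0) (nat_lit 0) (XT.lf (nat_lit 0) (nat_lit 6331291583) (nat_lit 380) (nat_lit 13978941418) (nat_lit 456) (nat_lit 29868191795) (nat_lit 126) (nat_lit 5) (nat_lit 131) (nat_lit 5) (nat_lit 132) (nat_lit 5) (nat_lit 459) (nat_lit 443) (nat_lit 298)) (XT.lf (nat_lit 0) (nat_lit 27363501590) (nat_lit 456) (nat_lit 16202762204) (nat_lit 76) (nat_lit 8014980790) (nat_lit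 126) (nat_lit 5) (nat_lit 132) (nat_lit 5) (nat_lit 127) (nat_lit 5) (nat_lit 460) (nat_lit 443) (nat_lit 297)))))) (XT.nd (nat_lit 624) (nat_lit 988) (nat_lit 0) (XT.nd (nat_lit 312) (nat_lit 836) (nat_lit 0) (XT.nd (nat_lit 156) (nat_lit 380) (nat_lit 0) (XT.nd (nat_lit 78) (nat_lit 0) (nat_lit 0) (XT.lf (nat_lit 0) (nat_lit 13008871632) (nat_lit 304) (nat_lit 22190911171) (nat_lit 380) (nat_lit 17832905353) (nat_lit 122) (nat_lit 5) (nat_lit 126) (nat_lit 5) (nat_lit 127) (nat_lit 5) (nat_lit 461) (nat_lit 443) (nat_lit 296)) (XT.lf (nat_lit 0) (nat_lit 43708866785) (nat_lit 380) (nat_lit 10310037283) (nat_lit 76) (nat_lit 523750643) (nat_lit 122) (nat_lit 5) (nat_lit 127) (nat_lit 5) (nat_lit 123) (nat_lit 5) (nat_lit 462) (nat_lit 443) (nat_lit 295))) (XT.nd (nat_lit 78) (nat_lit 76) (nat_lit 0) (XT.lf (nat_lit 0) (nat_lit 21202139462) (nat_lit 304) (nat_lit 32134299939) (nat_lit 380) (nat_lit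 2757028702) (nat_lit 118) (nat_lit 5) (nat_lit 122) (nat_lit 5) (nat_lit 123) (nat_lit 5) (nat_lit 463) (nat_lit 443) (nat_lit 294)) (XT.lf (nat_lit 0) (nat_lit 5716094322) (nat_lit 380) (nat_lit 3159580020) (nat_lit 76) (nat_lit 48832894195) (nat_lit 117) (nat_lit 5) (nat_lit 122) (nat_lit 5) (nat_lit 118) (nat_lit 5) (nat_lit 464) (nat_lit 443) (nat_lit 293)))) (XT.nd (nat_lit 156) (nat_lit 228) (nat_lit 0) (XT.nd (nat_lit 78) (nat_lit 304) (nat_lit 0) (XT.lf (nat_lit 0) (nat_lit 15255632331) (nat_lit 380) (nat_lit 28522223766) (nat_lit 76) (nat_lit 15587537582) (nat_lit 113) (nat_lit 5) (nat_lit 118) (nat_lit 5) (nat_lit 114) (nat_lit 5) (nat_lit 465) (nat_lit 443) (nat_lit 292)) (XT.lf (nat_lit 0) (nat_lit 5583624838) (nat_lit 304) (nat_lit 19973961263) (nat_lit 380) (nat_lit 35533202223) (nat_lit 109) (nat_lit 5) (nat_lit 113) (nat_lit 5) (nat_lit 114) (nat_lit 5) (nat_lit 466) (nat_lit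 443) (nat_lit 291))) (XT.nd (nat_lit 78) (nat_lit 228) (nat_lit 0) (XT.lf (nat_lit 0) (nat_lit 36942384358) (nat_lit 380) (nat_lit 20581715475) (nat_lit 76) (nat_lit 5349965708) (nat_lit 109) (nat_lit 5) (nat_lit 114) (nat_lit 5) (nat_lit 110) (nat_lit 5) (nat_lit 467) (nat_lit 443) (nat_lit 290)) (XT.lf (nat_lit 0) (nat_lit 16281667699) (nat_lit 228) (nat_lit 33194887101) (nat_lit 304) (nat_lit 15240945376) (nat_lit 106) (nat_lit 5) (nat_lit 109) (nat_lit 5) (nat_lit 110) (nat_lit 5) (nat_lit 468) (nat_lit 443) (nat_lit 289))))) (XT.nd (nat_lit 312) (nat_lit 456) (nat_lit 0) (XT.nd (nat_lit 156) (nat_lit 228) (nat_lit 0) (XT.nd (nat_lit 78) (nat_lit 304) (nat_lit 0) (XT.lf (nat_lit 0) (nat_lit 55700792848) (nat_lit 228) (nat_lit 7283731180) (nat_lit 304) (nat_lit 3651228167) (nat_lit 106) (nat_lit 5) (nat_lit 109) (nat_lit 5) (nat_lit 110) (nat_lit 5) (nat_lit 469) (nat_lit 443) (nat_lit 288))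 (XT.lf (nat_lit 0) (nat_lit 9021181621) (nat_lit 304) (nat_lit 39699259017) (nat_lit 76) (nat_lit 19884035096) (nat_lit 102) (nat_lit 5) (nat_lit 106) (nat_lit 5) (nat_lit 103) (nat_lit 5) (nat_lit 470) (nat_lit 443) (nat_lit 287))) (XT.nd (nat_lit 78) (nat_lit 0) (nat_lit 0) (XT.lf (nat_lit 0) (nat_lit 279344742) (nat_lit 228) (nat_lit 22235759458) (nat_lit 304) (nat_lit 48138008706) (nat_lit 99) (nat_lit 5) (nat_lit 102) (nat_lit 5) (nat_lit 103) (nat_lit 5) (nat_lit 471) (nat_lit 443) (nat_lit 286)) (XT.lf (nat_lit 0) (nat_lit 37452716732) (nat_lit 304) (nat_lit 29235441287) (nat_lit 76) (nat_lit 6077574359) (nat_lit 99) (nat_lit 5) (nat_lit 103) (nat_lit 5) (nat_lit 100) (nat_lit 5) (nat_lit 472) (nat_lit 443) (nat_lit 285)))) (XT.nd (nat_lit 156) (nat_lit 228) (nat_lit 0) (XT.nd (nat_lit 78) (nat_lit 0) (nat_lit 0) (XT.lf (nat_lit 0) (nat_lit 14042846100) (nat_lit 228) (nat_lit 39676831041)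 (nat_lit 304) (nat_lit 21235182450) (nat_lit 96) (nat_lit 5) (nat_lit 99) (nat_lit 5) (nat_lit 100) (nat_lit 5) (nat_lit 473) (nat_lit 443) (nat_lit 284)) (XT.lf (nat_lit 0) (nat_lit 60498172952) (nat_lit 228) (nat_lit 10795660272) (nat_lit 304) (nat_lit 5934917681) (nat_lit 96) (nat_lit 5) (nat_lit 99) (nat_lit 5) (nat_lit 100) (nat_lit 5) (nat_lit 474) (nat_lit 443) (nat_lit 283))) (XT.nd (nat_lit 78) (nat_lit 0) (nat_lit 0) (XT.lf (nat_lit 0) (nat_lit 10595998058) (nat_lit 228) (nat_lit 49424642683) (nat_lit 76) (nat_lit 19548294360) (nat_lit 93) (nat_lit 5) (nat_lit 96) (nat_lit 5) (nat_lit 94) (nat_lit 5) (nat_lit 475) (nat_lit 443) (nat_lit 282)) (XT.lf (nat_lit 0) (nat_lit 28217764042) (nat_lit 228) (nat_lit 2348960899) (nat_lit 76) (nat_lit 51431351156) (nat_lit 93) (nat_lit 5) (nat_lit 96) (nat_lit 5) (nat_lit 94) (nat_lit 5) (nat_lit 476) (nat_lit 443) (nat_lit 281))))))))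
noncomputable def xc183 : XT := (XT.nd (nat_lit 2418) (nat_lit 1976) (nat_lit 0) (XT.nd (nat_lit 1170) (nat_lit 1368) (nat_lit 0) (XT.nd (nat_lit 546) (nat_lit 836) (nat_lit 0) (XT.nd (nat_lit 234) (nat_lit 532) (nat_lit 0) (XT.nd (nat_lit 78) (nat_lit 228) (nat_lit 0) (XT.lf (nat_lit 0) (nat_lit 47496861350) (nat_lit 304) (nat_lit 35893430748) (nat_lit 76) (nat_lit 1119569992) (nat_lit 90) (nat_lit 5) (nat_lit 94) (nat_lit 5) (nat_lit 91) (nat_lit 5) (nat_lit 477) (nat_lit 443) (nat_lit 280)) (XT.nd (nat_lit 78) (nat_lit 76) (nat_lit 0) (XT.lf (nat_lit 0) (nat_lit 15044396072) (nat_lit 152) (nat_lit 53470798592) (nat_lit 228) (nat_lit 18593278759) (nat_lit 88) (nat_lit 5) (nat_lit 90) (nat_lit 5) (nat_lit 91) (nat_lit 5) (nat_lit 478) (nat_lit 443) (nat_lit 279)) (XT.lf (nat_lit 0) (nat_lit 1340222331) (nat_lit 228) (nat_lit 20054779893) (nat_lit 76) (nat_lit 68410593941) (nat_lit 87) (nat_lit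 5) (nat_lit 90) (nat_lit 5) (nat_lit 88) (nat_lit 5) (nat_lit 479) (nat_lit 443) (nat_lit 278)))) (XT.nd (nat_lit 156) (nat_lit 304) (nat_lit 0) (XT.nd (nat_lit 78) (nat_lit 0) (nat_lit 0) (XT.lf (nat_lit 0) (nat_lit 22402707938) (nat_lit 304) (nat_lit 57419716004) (nat_lit 76) (nat_lit 12762052512) (nat_lit 84) (nat_lit 5) (nat_lit 88) (nat_lit 5) (nat_lit 85) (nat_lit 5) (nat_lit 480) (nat_lit 443) (nat_lit 277)) (XT.lf (nat_lit 0) (nat_lit 45213207126) (nat_lit 304) (nat_lit 2001797370) (nat_lit 76) (nat_lit 48252551879) (nat_lit 84) (nat_lit 5) (nat_lit 88) (nat_lit 5) (nat_lit 85) (nat_lit 5) (nat_lit 481) (nat_lit 443) (nat_lit 276))) (XT.nd (nat_lit 78) (nat_lit 152) (nat_lit 0) (XT.lf (nat_lit 0) (nat_lit 58043133874) (nat_lit 152) (nat_lit 12026309890) (nat_lit 228) (nat_lit 28380085976) (nat_lit 82) (nat_lit 5) (nat_lit 84) (nat_lit 5) (nat_lit 85) (nat_lit 5) (nat_lit 482) (nat_lit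 443) (nat_lit 275)) (XT.lf (nat_lit 0) (nat_lit 19824103465) (nat_lit 152) (nat_lit 77076464839) (nat_lit 228) (nat_lit 4643429738) (nat_lit 80) (nat_lit 5) (nat_lit 82) (nat_lit 5) (nat_lit 83) (nat_lit 5) (nat_lit 483) (nat_lit 443) (nat_lit 274))))) (XT.nd (nat_lit 312) (nat_lit 456) (nat_lit 0) (XT.nd (nat_lit 156) (nat_lit 152) (nat_lit 0) (XT.nd (nat_lit 78) (nat_lit 152) (nat_lit 0) (XT.lf (nat_lit 0) (nat_lit 20522658995) (nat_lit 228) (nat_lit 20816672797) (nat_lit 76) (nat_lit 63393442192) (nat_lit 79) (nat_lit 5) (nat_lit 82) (nat_lit 5) (nat_lit 80) (nat_lit 5) (nat_lit 484) (nat_lit 443) (nat_lit 273)) (XT.lf (nat_lit 0) (nat_lit 44477581532) (nat_lit 152) (nat_lit 3006903197) (nat_lit 228) (nat_lit 60558023853) (nat_lit 77) (nat_lit 5) (nat_lit 79) (nat_lit 5) (nat_lit 80) (nat_lit 5) (nat_lit 485) (nat_lit 443) (nat_lit 272))) (XT.nd (nat_lit 78) (nat_lit 0) (nat_lit 0) (XT.lf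 (nat_lit 0) (nat_lit 1725570988) (nat_lit 152) (nat_lit 75034619186) (nat_lit 228) (nat_lit 34709250372) (nat_lit 75) (nat_lit 5) (nat_lit 77) (nat_lit 5) (nat_lit 78) (nat_lit 5) (nat_lit 486) (nat_lit 443) (nat_lit 271)) (XT.lf (nat_lit 0) (nat_lit 72434948767) (nat_lit 152) (nat_lit 36188826613) (nat_lit 228) (nat_lit 6387739062) (nat_lit 75) (nat_lit 5) (nat_lit 77) (nat_lit 5) (nat_lit 78) (nat_lit 5) (nat_lit 487) (nat_lit 443) (nat_lit 270)))) (XT.nd (nat_lit 156) (nat_lit 228) (nat_lit 0) (XT.nd (nat_lit 78) (nat_lit 0) (nat_lit 0) (XT.lf (nat_lit 0) (nat_lit 23131583823) (nat_lit 228) (nat_lit 90280271768) (nat_lit 76) (nat_lit 5274154815) (nat_lit 72) (nat_lit 5) (nat_lit 75) (nat_lit 5) (nat_lit 73) (nat_lit 5) (nat_lit 488) (nat_lit 443) (nat_lit 269)) (XT.lf (nat_lit 0) (nat_lit 55237468813) (nat_lit 228) (nat_lit 18804171720) (nat_lit 76) (nat_lit 48431091538) (nat_lit 72) (nat_lit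 5) (nat_lit 75) (nat_lit 5) (nat_lit 73) (nat_lit 5) (nat_lit 489) (nat_lit 443) (nat_lit 268))) (XT.nd (nat_lit 78) (nat_lit 76) (nat_lit 0) (XT.lf (nat_lit 0) (nat_lit 58103979126) (nat_lit 152) (nat_lit 31751007367) (nat_lit 228) (nat_lit 36548486450) (nat_lit 70) (nat_lit 5) (nat_lit 72) (nat_lit 5) (nat_lit 73) (nat_lit 5) (nat_lit 490) (nat_lit 443) (nat_lit 267)) (XT.lf (nat_lit 0) (nat_lit 9081988672) (nat_lit 76) (nat_lit 117783612080) (nat_lit 152) (nat_lit 3632039116) (nat_lit 69) (nat_lit 5) (nat_lit 70) (nat_lit 5) (nat_lit 71) (nat_lit 4) (nat_lit 491) (nat_lit 443) (nat_lit 266)))))) (XT.nd (nat_lit 624) (nat_lit 684) (nat_lit 0) (XT.nd (nat_lit 312) (nat_lit 304) (nat_lit 0) (XT.nd (nat_lit 156) (nat_lit 152) (nat_lit 0) (XT.nd (nat_lit 78) (nat_lit 152) (nat_lit 0) (XT.lf (nat_lit 0) (nat_lit 31635609083) (nat_lit 152) (nat_lit 43058765086) (nat_lit 76) (nat_lit 59993228679)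 (nat_lit 68) (nat_lit 5) (nat_lit 70) (nat_lit 5) (nat_lit 69) (nat_lit 5) (nat_lit 492) (nat_lit 443) (nat_lit 265)) (XT.lf (nat_lit 0) (nat_lit 40449679651) (nat_lit 152) (nat_lit 28725655142) (nat_lit 228) (nat_lit 69877214369) (nat_lit 66) (nat_lit 5) (nat_lit 68) (nat_lit 5) (nat_lit 69) (nat_lit 5) (nat_lit 493) (nat_lit 443) (nat_lit 264))) (XT.nd (nat_lit 78) (nat_lit 152) (nat_lit 0) (XT.lf (nat_lit 0) (nat_lit 109637548722) (nat_lit 228) (nat_lit 14289276811) (nat_lit 76) (nat_lit 19656642199) (nat_lit 66) (nat_lit 5) (nat_lit 69) (nat_lit 5) (nat_lit 67) (nat_lit 4) (nat_lit 494) (nat_lit 443) (nat_lit 263)) (XT.lf (nat_lit 0) (nat_lit 5348088660) (nat_lit 152) (nat_lit 72137340854) (nat_lit 76) (nat_lit 70768190748) (nat_lit 64) (nat_lit 5) (nat_lit 66) (nat_lit 5) (nat_lit 65) (nat_lit 5) (nat_lit 495) (nat_lit 443) (nat_lit 262)))) (XT.nd (nat_lit 156) (nat_lit 152) (nat_lit 0)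 (XT.nd (nat_lit 78) (nat_lit 0) (nat_lit 0) (XT.lf (nat_lit 0) (nat_lit 18420818574) (nat_lit 152) (nat_lit 27578004603) (nat_lit 228) (nat_lit 107103991153) (nat_lit 62) (nat_lit 5) (nat_lit 64) (nat_lit 5) (nat_lit 65) (nat_lit 5) (nat_lit 496) (nat_lit 443) (nat_lit 261)) (XT.lf (nat_lit 0) (nat_lit 90310660888) (nat_lit 228) (nat_lit 42530999132) (nat_lit 76) (nat_lit 25271379789) (nat_lit 62) (nat_lit 5) (nat_lit 65) (nat_lit 5) (nat_lit 63) (nat_lit 4) (nat_lit 497) (nat_lit 443) (nat_lit 260))) (XT.nd (nat_lit 78) (nat_lit 76) (nat_lit 0) (XT.lf (nat_lit 0) (nat_lit 55552195105) (nat_lit 76) (nat_lit 82604627428) (nat_lit 152) (nat_lit 25151017452) (nat_lit 61) (nat_lit 5) (nat_lit 62) (nat_lit 5) (nat_lit 63) (nat_lit 4) (nat_lit 498) (nat_lit 443) (nat_lit 259)) (XT.lf (nat_lit 0) (nat_lit 19735937699) (nat_lit 152) (nat_lit 9029842694) (nat_lit 76) (nat_lit 139944703496) (nat_lit 60)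 (nat_lit 5) (nat_lit 62) (nat_lit 5) (nat_lit 61) (nat_lit 5) (nat_lit 499) (nat_lit 443) (nat_lit 258))))) (XT.nd (nat_lit 312) (nat_lit 228) (nat_lit 0) (XT.nd (nat_lit 156) (nat_lit 228) (nat_lit 0) (XT.nd (nat_lit 78) (nat_lit 76) (nat_lit 0) (XT.lf (nat_lit 0) (nat_lit 68006154170) (nat_lit 228) (nat_lit 77417825206) (nat_lit 76) (nat_lit 28839457414) (nat_lit 58) (nat_lit 5) (nat_lit 61) (nat_lit 5) (nat_lit 59) (nat_lit 4) (nat_lit 500) (nat_lit 443) (nat_lit 257)) (XT.lf (nat_lit 0) (nat_lit 28684740171) (nat_lit 76) (nat_lit 91079339713) (nat_lit 152) (nat_lit 60276247553) (nat_lit 57) (nat_lit 5) (nat_lit 58) (nat_lit 5) (nat_lit 59) (nat_lit 4) (nat_lit 501) (nat_lit 443) (nat_lit 256))) (XT.nd (nat_lit 78) (nat_lit 228) (nat_lit 0) (XT.lf (nat_lit 0) (nat_lit 142779008772) (nat_lit 76) (nat_lit 32641361178) (nat_lit 152) (nat_lit 10620169286) (nat_lit 57) (nat_lit 5) (nat_lit 58)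 (nat_lit 5) (nat_lit 59) (nat_lit 4) (nat_lit 502) (nat_lit 443) (nat_lit 255)) (XT.lf (nat_lit 0) (nat_lit 41789014039) (nat_lit 228) (nat_lit 120840923163) (nat_lit 76) (nat_lit 29598455308) (nat_lit 54) (nat_lit 5) (nat_lit 57) (nat_lit 5) (nat_lit 55) (nat_lit 4) (nat_lit 503) (nat_lit 443) (nat_lit 254)))) (XT.nd (nat_lit 156) (nat_lit 152) (nat_lit 0) (XT.nd (nat_lit 78) (nat_lit 76) (nat_lit 0) (XT.lf (nat_lit 0) (nat_lit 97740902732) (nat_lit 228) (nat_lit 6140524053) (nat_lit 76) (nat_lit 94771548948) (nat_lit 54) (nat_lit 5) (nat_lit 57) (nat_lit 5) (nat_lit 55) (nat_lit 4) (nat_lit 504) (nat_lit 443) (nat_lit 253)) (XT.lf (nat_lit 0) (nat_lit 118072855186) (nat_lit 76) (nat_lit 40260391756) (nat_lit 152) (nat_lit 46973398139) (nat_lit 53) (nat_lit 5) (nat_lit 54) (nat_lit 5) (nat_lit 55) (nat_lit 4) (nat_lit 505) (nat_lit 443) (nat_lit 252))) (XT.nd (nat_lit 78) (nat_lit 0) (nat_lit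 0) (XT.lf (nat_lit 0) (nat_lit 10471226695) (nat_lit 152) (nat_lit 175211302725) (nat_lit 76) (nat_lit 26547012418) (nat_lit 51) (nat_lit 5) (nat_lit 53) (nat_lit 5) (nat_lit 52) (nat_lit 4) (nat_lit 506) (nat_lit 443) (nat_lit 251)) (XT.lf (nat_lit 0) (nat_lit 71370457366) (nat_lit 152) (nat_lit 50368680100) (nat_lit 76) (nat_lit 97612893757) (nat_lit 51) (nat_lit 5) (nat_lit 53) (nat_lit 5) (nat_lit 52) (nat_lit 4) (nat_lit 507) (nat_lit 443) (nat_lit 250))))))) (XT.nd (nat_lit 1248) (nat_lit 988) (nat_lit 0) (XT.nd (nat_lit 624) (nat_lit 456) (nat_lit 0) (XT.nd (nat_lit 312) (nat_lit 228) (nat_lit 0) (XT.nd (nat_lit 156) (nat_lit 228) (nat_lit 0) (XT.nd (nat_lit 78) (nat_lit 0) (nat_lit 0) (XT.lf (nat_lit 0) (nat_lit 83383816680) (nat_lit 76) (nat_lit 53232132845) (nat_lit 152) (nat_lit 90149630572) (nat_lit 50) (nat_lit 5) (nat_lit 51) (nat_lit 5) (nat_lit 52) (nat_lit 4) (nat_lit 508) (nat_lit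 443) (nat_lit 249)) (XT.lf (nat_lit 0) (nat_lit 206282128309) (nat_lit 152) (nat_lit 9241539398) (nat_lit 0) (nat_lit 18968218119) (nat_lit 50) (nat_lit 5) (nat_lit 52) (nat_lit 4) (nat_lit 50) (nat_lit 4) (nat_lit 509) (nat_lit 443) (nat_lit 248))) (XT.nd (nat_lit 78) (nat_lit 76) (nat_lit 0) (XT.lf (nat_lit 0) (nat_lit 38677988409) (nat_lit 152) (nat_lit 108024692318) (nat_lit 76) (nat_lit 95721598573) (nat_lit 48) (nat_lit 5) (nat_lit 50) (nat_lit 5) (nat_lit 49) (nat_lit 4) (nat_lit 510) (nat_lit 443) (nat_lit 247)) (XT.lf (nat_lit 0) (nat_lit 35467289361) (nat_lit 76) (nat_lit 73207093535) (nat_lit 152) (nat_lit 142020172109) (nat_lit 47) (nat_lit 5) (nat_lit 48) (nat_lit 5) (nat_lit 49) (nat_lit 4) (nat_lit 511) (nat_lit 443) (nat_lit 246)))) (XT.nd (nat_lit 156) (nat_lit 152) (nat_lit 0) (XT.nd (nat_lit 78) (nat_lit 76) (nat_lit 0) (XT.lf (nat_lit 0) (nat_lit 184091392925) (nat_lit 152)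 (nat_lit 69495511947) (nat_lit 0) (nat_lit 5695399842) (nat_lit 47) (nat_lit 5) (nat_lit 49) (nat_lit 4) (nat_lit 47) (nat_lit 4) (nat_lit 512) (nat_lit 443) (nat_lit 245)) (XT.lf (nat_lit 0) (nat_lit 85043675489) (nat_lit 76) (nat_lit 180762965881) (nat_lit 76) (nat_lit 2366431156) (nat_lit 46) (nat_lit 4) (nat_lit 47) (nat_lit 5) (nat_lit 47) (nat_lit 4) (nat_lit 513) (nat_lit 443) (nat_lit 244))) (XT.nd (nat_lit 78) (nat_lit 76) (nat_lit 0) (XT.lf (nat_lit 0) (nat_lit 72923370594) (nat_lit 152) (nat_lit 28904140855) (nat_lit 76) (nat_lit 175563235592) (nat_lit 45) (nat_lit 5) (nat_lit 47) (nat_lit 5) (nat_lit 46) (nat_lit 4) (nat_lit 514) (nat_lit 443) (nat_lit 243)) (XT.lf (nat_lit 0) (nat_lit 137390001033) (nat_lit 76) (nat_lit 16652702816) (nat_lit 152) (nat_lit 132917433294) (nat_lit 44) (nat_lit 5) (nat_lit 45) (nat_lit 5) (nat_lit 46) (nat_lit 4) (nat_lit 515) (nat_lit 443) (nat_lit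 242))))) (XT.nd (nat_lit 312) (nat_lit 228) (nat_lit 0) (XT.nd (nat_lit 156) (nat_lit 76) (nat_lit 0) (XT.nd (nat_lit 78) (nat_lit 76) (nat_lit 0) (XT.lf (nat_lit 0) (nat_lit 15365341534) (nat_lit 76) (nat_lit 225725929155) (nat_lit 76) (nat_lit 55823062725) (nat_lit 43) (nat_lit 4) (nat_lit 44) (nat_lit 5) (nat_lit 44) (nat_lit 4) (nat_lit 516) (nat_lit 443) (nat_lit 241)) (XT.lf (nat_lit 0) (nat_lit 27168927966) (nat_lit 152) (nat_lit 114206988488) (nat_lit 76) (nat_lit 165828354100) (nat_lit 42) (nat_lit 5) (nat_lit 44) (nat_lit 5) (nat_lit 43) (nat_lit 4) (nat_lit 517) (nat_lit 443) (nat_lit 240))) (XT.nd (nat_lit 78) (nat_lit 0) (nat_lit 0) (XT.lf (nat_lit 0) (nat_lit 62589353602) (nat_lit 76) (nat_lit 50821889618) (nat_lit 152) (nat_lit 204502867431) (nat_lit 41) (nat_lit 5) (nat_lit 42) (nat_lit 5) (nat_lit 43) (nat_lit 4) (nat_lit 518) (nat_lit 443) (nat_lit 239)) (XT.lf (nat_lit 0) (nat_lit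 206622104389) (nat_lit 152) (nat_lit 77595821938) (nat_lit 0) (nat_lit 44808694926) (nat_lit 41) (nat_lit 5) (nat_lit 43) (nat_lit 4) (nat_lit 41) (nat_lit 4) (nat_lit 519) (nat_lit 443) (nat_lit 238)))) (XT.nd (nat_lit 156) (nat_lit 76) (nat_lit 0) (XT.nd (nat_lit 78) (nat_lit 76) (nat_lit 0) (XT.lf (nat_lit 0) (nat_lit 111762679081) (nat_lit 76) (nat_lit 195308477268) (nat_lit 76) (nat_lit 33494718657) (nat_lit 40) (nat_lit 4) (nat_lit 41) (nat_lit 5) (nat_lit 41) (nat_lit 4) (nat_lit 520) (nat_lit 443) (nat_lit 237)) (XT.lf (nat_lit 0) (nat_lit 59279897105) (nat_lit 152) (nat_lit 40290302064) (nat_lit 76) (nat_lit 252998400735) (nat_lit 39) (nat_lit 5) (nat_lit 41) (nat_lit 5) (nat_lit 40) (nat_lit 4) (nat_lit 521) (nat_lit 443) (nat_lit 236))) (XT.nd (nat_lit 78) (nat_lit 0) (nat_lit 0) (XT.lf (nat_lit 0) (nat_lit 158166483864) (nat_lit 152) (nat_lit 202790054347) (nat_lit 0) (nat_lit 4057524037)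 (nat_lit 38) (nat_lit 5) (nat_lit 40) (nat_lit 4) (nat_lit 38) (nat_lit 4) (nat_lit 522) (nat_lit 443) (nat_lit 235)) (XT.lf (nat_lit 0) (nat_lit 264322815097) (nat_lit 152) (nat_lit 3429143834) (nat_lit 0) (nat_lit 110213568026) (nat_lit 38) (nat_lit 5) (nat_lit 40) (nat_lit 4) (nat_lit 38) (nat_lit 4) (nat_lit 523) (nat_lit 443) (nat_lit 234)))))) (XT.nd (nat_lit 624) (nat_lit 456) (nat_lit 0) (XT.nd (nat_lit 312) (nat_lit 228) (nat_lit 0) (XT.nd (nat_lit 156) (nat_lit 76) (nat_lit 0) (XT.nd (nat_lit 78) (nat_lit 152) (nat_lit 0) (XT.lf (nat_lit 0) (nat_lit 212707002366) (nat_lit 76) (nat_lit 166400527417) (nat_lit 76) (nat_lit 12291006780) (nat_lit 37) (nat_lit 4) (nat_lit 38) (nat_lit 5) (nat_lit 38) (nat_lit 4) (nat_lit 524) (nat_lit 443) (nat_lit 233)) (XT.lf (nat_lit 0) (nat_lit 33881823956) (nat_lit 76) (nat_lit 57821398059) (nat_lit 152) (nat_lit 313697112756) (nat_lit 35) (nat_lit 5)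 (nat_lit 36) (nat_lit 5) (nat_lit 37) (nat_lit 4) (nat_lit 525) (nat_lit 443) (nat_lit 232))) (XT.nd (nat_lit 78) (nat_lit 76) (nat_lit 0) (XT.lf (nat_lit 0) (nat_lit 204436789090) (nat_lit 152) (nat_lit 157792392339) (nat_lit 0) (nat_lit 57665332606) (nat_lit 35) (nat_lit 5) (nat_lit 37) (nat_lit 4) (nat_lit 35) (nat_lit 4) (nat_lit 526) (nat_lit 443) (nat_lit 231)) (XT.lf (nat_lit 0) (nat_lit 67842806590) (nat_lit 76) (nat_lit 256970970059) (nat_lit 76) (nat_lit 110199288511) (nat_lit 34) (nat_lit 4) (nat_lit 35) (nat_lit 5) (nat_lit 35) (nat_lit 4) (nat_lit 527) (nat_lit 443) (nat_lit 230)))) (XT.nd (nat_lit 156) (nat_lit 76) (nat_lit 0) (XT.nd (nat_lit 78) (nat_lit 76) (nat_lit 0) (XT.lf (nat_lit 0) (nat_lit 3027494432) (nat_lit 152) (nat_lit 140565532307) (nat_lit 76) (nat_lit 307158479039) (nat_lit 33) (nat_lit 5) (nat_lit 35) (nat_lit 5) (nat_lit 34) (nat_lit 4) (nat_lit 528) (nat_lit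 443) (nat_lit 229)) (XT.lf (nat_lit 0) (nat_lit 98721909267) (nat_lit 76) (nat_lit 21031266001) (nat_lit 152) (nat_lit 347356317006) (nat_lit 32) (nat_lit 5) (nat_lit 33) (nat_lit 5) (nat_lit 34) (nat_lit 4) (nat_lit 529) (nat_lit 443) (nat_lit 228))) (XT.nd (nat_lit 78) (nat_lit 76) (nat_lit 0) (XT.lf (nat_lit 0) (nat_lit 246415215397) (nat_lit 152) (nat_lit 131033081111) (nat_lit 0) (nat_lit 106632077825) (nat_lit 32) (nat_lit 5) (nat_lit 34) (nat_lit 4) (nat_lit 32) (nat_lit 4) (nat_lit 530) (nat_lit 443) (nat_lit 227)) (XT.lf (nat_lit 0) (nat_lit 121740155761) (nat_lit 76) (nat_lit 259915350607) (nat_lit 76) (nat_lit 120132036691) (nat_lit 31) (nat_lit 4) (nat_lit 32) (nat_lit 5) (nat_lit 32) (nat_lit 4) (nat_lit 531) (nat_lit 443) (nat_lit 226))))) (XT.nd (nat_lit 312) (nat_lit 228) (nat_lit 0) (XT.nd (nat_lit 156) (nat_lit 76) (nat_lit 0) (XT.nd (nat_lit 78) (nat_lit 76) (nat_lit 0) (XT.lf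 (nat_lit 0) (nat_lit 5427990177) (nat_lit 152) (nat_lit 128656101997) (nat_lit 76) (nat_lit 386180661479) (nat_lit 30) (nat_lit 5) (nat_lit 32) (nat_lit 5) (nat_lit 31) (nat_lit 4) (nat_lit 532) (nat_lit 443) (nat_lit 225)) (XT.lf (nat_lit 0) (nat_lit 135415953667) (nat_lit 152) (nat_lit 401753368503) (nat_lit 0) (nat_lit 2288675753) (nat_lit 29) (nat_lit 5) (nat_lit 31) (nat_lit 4) (nat_lit 29) (nat_lit 4) (nat_lit 533) (nat_lit 443) (nat_lit 224))) (XT.nd (nat_lit 78) (nat_lit 76) (nat_lit 0) (XT.lf (nat_lit 0) (nat_lit 276315672953) (nat_lit 152) (nat_lit 139886363614) (nat_lit 0) (nat_lit 143188249961) (nat_lit 29) (nat_lit 5) (nat_lit 31) (nat_lit 4) (nat_lit 29) (nat_lit 4) (nat_lit 534) (nat_lit 443) (nat_lit 223)) (XT.lf (nat_lit 0) (nat_lit 139539527997) (nat_lit 76) (nat_lit 286899153776) (nat_lit 76) (nat_lit 153771592615) (nat_lit 28) (nat_lit 4) (nat_lit 29) (nat_lit 5) (nat_lit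 29) (nat_lit 4) (nat_lit 535) (nat_lit 443) (nat_lit 222)))) (XT.nd (nat_lit 156) (nat_lit 76) (nat_lit 0) (XT.nd (nat_lit 78) (nat_lit 152) (nat_lit 0) (XT.lf (nat_lit 0) (nat_lit 437792662679) (nat_lit 76) (nat_lit 148643927139) (nat_lit 76) (nat_lit 15516234388) (nat_lit 28) (nat_lit 4) (nat_lit 29) (nat_lit 5) (nat_lit 29) (nat_lit 4) (nat_lit 536) (nat_lit 443) (nat_lit 221)) (XT.lf (nat_lit 0) (nat_lit 127516111719) (nat_lit 152) (nat_lit 496336770266) (nat_lit 0) (nat_lit 727713552) (nat_lit 26) (nat_lit 5) (nat_lit 28) (nat_lit 4) (nat_lit 26) (nat_lit 4) (nat_lit 537) (nat_lit 443) (nat_lit 220))) (XT.nd (nat_lit 78) (nat_lit 76) (nat_lit 0) (XT.lf (nat_lit 0) (nat_lit 282440836641) (nat_lit 152) (nat_lit 209970765333) (nat_lit 0) (nat_lit 155652324802) (nat_lit 26) (nat_lit 5) (nat_lit 28) (nat_lit 4) (nat_lit 26) (nat_lit 4) (nat_lit 538) (nat_lit 443) (nat_lit 219)) (XT.lf (nat_lit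 0) (nat_lit 93712376471) (nat_lit 76) (nat_lit 352862263060) (nat_lit 76) (nat_lit 226073642961) (nat_lit 25) (nat_lit 4) (nat_lit 26) (nat_lit 5) (nat_lit 26) (nat_lit 4) (nat_lit 539) (nat_lit 443) (nat_lit 218))))))))
noncomputable def xc184 : XT := (XT.nd (nat_lit 56862) (nat_lit 0) (nat_lit 3192) (XT.nd (nat_lit 55614) (nat_lit 0) (nat_lit 6764) (XT.nd (nat_lit 54990) (nat_lit 0) (nat_lit 9652) (XT.nd (nat_lit 234) (nat_lit 228) (nat_lit 0) (XT.nd (nat_lit 78) (nat_lit 152) (nat_lit 0) (XT.lf (nat_lit 0) (nat_lit 419868850329) (nat_lit 76) (nat_lit 202601972187) (nat_lit 76) (nat_lit 75813248984) (nat_lit 25) (nat_lit 4) (nat_lit 26) (nat_lit 5) (nat_lit 26) (nat_lit 4) (nat_lit 540) (nat_lit 443) (nat_lit 217)) (XT.nd (nat_lit 78) (nat_lit 0) (nat_lit 0) (XT.lf (nat_lit 0) (nat_lit 37036758737) (nat_lit 76) (nat_lit 42878158401) (nat_lit 152) (nat_lit 645193851950) (nat_lit 23) (nat_lit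 5) (nat_lit 24) (nat_lit 5) (nat_lit 25) (nat_lit 4) (nat_lit 541) (nat_lit 443) (nat_lit 216)) (XT.lf (nat_lit 0) (nat_lit 247622779652) (nat_lit 152) (nat_lit 378381292264) (nat_lit 0) (nat_lit 126871432114) (nat_lit 23) (nat_lit 5) (nat_lit 25) (nat_lit 4) (nat_lit 23) (nat_lit 4) (nat_lit 542) (nat_lit 443) (nat_lit 215)))) (XT.nd (nat_lit 156) (nat_lit 152) (nat_lit 0) (XT.nd (nat_lit 78) (nat_lit 76) (nat_lit 0) (XT.lf (nat_lit 0) (nat_lit 424418710470) (nat_lit 152) (nat_lit 53909453385) (nat_lit 0) (nat_lit 303667278107) (nat_lit 23) (nat_lit 5) (nat_lit 25) (nat_lit 4) (nat_lit 23) (nat_lit 4) (nat_lit 543) (nat_lit 443) (nat_lit 214)) (XT.lf (nat_lit 0) (nat_lit 296267930506) (nat_lit 76) (nat_lit 318411846244) (nat_lit 76) (nat_lit 197660333097) (nat_lit 22) (nat_lit 4) (nat_lit 23) (nat_lit 5) (nat_lit 23) (nat_lit 4) (nat_lit 544) (nat_lit 443) (nat_lit 213))) (XT.nd (nat_lit 78)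 (nat_lit 152) (nat_lit 0) (XT.lf (nat_lit 0) (nat_lit 665825334744) (nat_lit 76) (nat_lit 149541314414) (nat_lit 76) (nat_lit 28789724329) (nat_lit 22) (nat_lit 4) (nat_lit 23) (nat_lit 5) (nat_lit 23) (nat_lit 4) (nat_lit 545) (nat_lit 443) (nat_lit 212)) (XT.lf (nat_lit 0) (nat_lit 147094200379) (nat_lit 152) (nat_lit 698094514871) (nat_lit 0) (nat_lit 32092616227) (nat_lit 20) (nat_lit 5) (nat_lit 22) (nat_lit 4) (nat_lit 20) (nat_lit 4) (nat_lit 546) (nat_lit 443) (nat_lit 211))))) (XT.nd (nat_lit 312) (nat_lit 0) (nat_lit 152) (XT.nd (nat_lit 156) (nat_lit 0) (nat_lit 76) (XT.nd (nat_lit 78) (nat_lit 0) (nat_lit 0) (XT.lf (nat_lit 0) (nat_lit 6858176321) (nat_lit 836) (nat_lit 5265882061) (nat_lit 836) (nat_lit 5265882061) (nat_lit 147) (nat_lit 3) (nat_lit 158) (nat_lit 3) (nat_lit 158) (nat_lit 5) (nat_lit 444) (nat_lit 444) (nat_lit 312)) (XT.lf (nat_lit 76) (nat_lit 6939509649) (nat_lit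 0) (nat_lit 7281350542) (nat_lit 836) (nat_lit 21420429547) (nat_lit 148) (nat_lit 5) (nat_lit 147) (nat_lit 3) (nat_lit 158) (nat_lit 5) (nat_lit 445) (nat_lit 444) (nat_lit 311))) (XT.nd (nat_lit 78) (nat_lit 0) (nat_lit 0) (XT.lf (nat_lit 0) (nat_lit 15092926045) (nat_lit 760) (nat_lit 11056296521) (nat_lit 836) (nat_lit 10379430344) (nat_lit 148) (nat_lit 5) (nat_lit 158) (nat_lit 5) (nat_lit 159) (nat_lit 5) (nat_lit 446) (nat_lit 444) (nat_lit 310)) (XT.lf (nat_lit 76) (nat_lit 7593174953) (nat_lit 0) (nat_lit 8650086944) (nat_lit 836) (nat_lit 21205389510) (nat_lit 149) (nat_lit 5) (nat_lit 148) (nat_lit 5) (nat_lit 159) (nat_lit 5) (nat_lit 447) (nat_lit 444) (nat_lit 309)))) (XT.nd (nat_lit 156) (nat_lit 0) (nat_lit 76) (XT.nd (nat_lit 78) (nat_lit 0) (nat_lit 0) (XT.lf (nat_lit 0) (nat_lit 17790140092) (nat_lit 760) (nat_lit 11003299615) (nat_lit 836) (nat_lit 9604259323) (nat_lit 149)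 (nat_lit 5) (nat_lit 159) (nat_lit 5) (nat_lit 160) (nat_lit 5) (nat_lit 448) (nat_lit 444) (nat_lit 308)) (XT.lf (nat_lit 76) (nat_lit 8933619575) (nat_lit 0) (nat_lit 10759067374) (nat_lit 836) (nat_lit 19687596303) (nat_lit 150) (nat_lit 5) (nat_lit 149) (nat_lit 5) (nat_lit 160) (nat_lit 5) (nat_lit 449) (nat_lit 444) (nat_lit 307))) (XT.nd (nat_lit 78) (nat_lit 0) (nat_lit 0) (XT.lf (nat_lit 0) (nat_lit 22004593801) (nat_lit 760) (nat_lit 10286124010) (nat_lit 836) (nat_lit 8105567676) (nat_lit 150) (nat_lit 5) (nat_lit 160) (nat_lit 5) (nat_lit 161) (nat_lit 5) (nat_lit 450) (nat_lit 444) (nat_lit 306)) (XT.lf (nat_lit 76) (nat_lit 11057971524) (nat_lit 0) (nat_lit 13720448871) (nat_lit 836) (nat_lit 16667351631) (nat_lit 151) (nat_lit 5) (nat_lit 150) (nat_lit 5) (nat_lit 161) (nat_lit 5) (nat_lit 451) (nat_lit 444) (nat_lit 305)))))) (XT.nd (nat_lit 624) (nat_lit 1672) (nat_lit 0) (XT.nd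 (nat_lit 312) (nat_lit 836) (nat_lit 0) (XT.nd (nat_lit 156) (nat_lit 684) (nat_lit 0) (XT.nd (nat_lit 78) (nat_lit 0) (nat_lit 0) (XT.lf (nat_lit 0) (nat_lit 27955618067) (nat_lit 760) (nat_lit 8807836475) (nat_lit 836) (nat_lit 5771044755) (nat_lit 151) (nat_lit 5) (nat_lit 161) (nat_lit 5) (nat_lit 162) (nat_lit 5) (nat_lit 452) (nat_lit 444) (nat_lit 304)) (XT.lf (nat_lit 76) (nat_lit 14074653635) (nat_lit 0) (nat_lit 17659223151) (nat_lit 836) (nat_lit 11921676464) (nat_lit 152) (nat_lit 5) (nat_lit 151) (nat_lit 5) (nat_lit 162) (nat_lit 5) (nat_lit 453) (nat_lit 444) (nat_lit 303))) (XT.nd (nat_lit 78) (nat_lit 760) (nat_lit 0) (XT.lf (nat_lit 0) (nat_lit 35887756488) (nat_lit 760) (nat_lit 6460181191) (nat_lit 76) (nat_lit 2475387176) (nat_lit 152) (nat_lit 5) (nat_lit 162) (nat_lit 5) (nat_lit 153) (nat_lit 5) (nat_lit 454) (nat_lit 444) (nat_lit 302)) (XT.lf (nat_lit 0) (nat_lit 18104519674)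 (nat_lit 760) (nat_lit 22714705002) (nat_lit 836) (nat_lit 5201765979) (nat_lit 142) (nat_lit 5) (nat_lit 152) (nat_lit 5) (nat_lit 153) (nat_lit 5) (nat_lit 455) (nat_lit 444) (nat_lit 301)))) (XT.nd (nat_lit 156) (nat_lit 380) (nat_lit 0) (XT.nd (nat_lit 78) (nat_lit 456) (nat_lit 0) (XT.lf (nat_lit 0) (nat_lit 44119755284) (nat_lit 760) (nat_lit 1984730845) (nat_lit 836) (nat_lit 1168692946) (nat_lit 142) (nat_lit 5) (nat_lit 152) (nat_lit 5) (nat_lit 153) (nat_lit 5) (nat_lit 456) (nat_lit 444) (nat_lit 300)) (XT.lf (nat_lit 0) (nat_lit 3649157231) (nat_lit 456) (nat_lit 25331217361) (nat_lit 76) (nat_lit 19571146362) (nat_lit 136) (nat_lit 5) (nat_lit 142) (nat_lit 5) (nat_lit 137) (nat_lit 5) (nat_lit 457) (nat_lit 444) (nat_lit 299))) (XT.nd (nat_lit 78) (nat_lit 0) (nat_lit 0) (XT.lf (nat_lit 0) (nat_lit 1112078009) (nat_lit 380) (nat_lit 7658681432) (nat_lit 456) (nat_lit 41116956058)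 (nat_lit 131) (nat_lit 5) (nat_lit 136) (nat_lit 5) (nat_lit 137) (nat_lit 5) (nat_lit 458) (nat_lit 444) (nat_lit 298)) (XT.lf (nat_lit 0) (nat_lit 14812454990) (nat_lit 456) (nat_lit 21751382289) (nat_lit 76) (nat_lit 14693682099) (nat_lit 131) (nat_lit 5) (nat_lit 137) (nat_lit 5) (nat_lit 132) (nat_lit 5) (nat_lit 459) (nat_lit 444) (nat_lit 297))))) (XT.nd (nat_lit 312) (nat_lit 988) (nat_lit 0) (XT.nd (nat_lit 156) (nat_lit 304) (nat_lit 0) (XT.nd (nat_lit 78) (nat_lit 0) (nat_lit 0) (XT.lf (nat_lit 0) (nat_lit 6711340270) (nat_lit 380) (nat_lit 14673345840) (nat_lit 456) (nat_lit 31299705053) (nat_lit 126) (nat_lit 5) (nat_lit 131) (nat_lit 5) (nat_lit 132) (nat_lit 5) (nat_lit 460) (nat_lit 444) (nat_lit 296)) (XT.lf (nat_lit 0) (nat_lit 28787878938) (nat_lit 456) (nat_lit 16949692641) (nat_lit 76) (nat_lit 8419917692) (nat_lit 126) (nat_lit 5) (nat_lit 132) (nat_lit 5) (nat_lit 127)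 (nat_lit 5) (nat_lit 461) (nat_lit 444) (nat_lit 295))) (XT.nd (nat_lit 78) (nat_lit 0) (nat_lit 0) (XT.lf (nat_lit 0) (nat_lit 13721503408) (nat_lit 304) (nat_lit 23292765436) (nat_lit 380) (nat_lit 18667321798) (nat_lit 122) (nat_lit 5) (nat_lit 126) (nat_lit 5) (nat_lit 127) (nat_lit 5) (nat_lit 462) (nat_lit 444) (nat_lit 294)) (XT.lf (nat_lit 0) (nat_lit 45946326300) (nat_lit 380) (nat_lit 10763824830) (nat_lit 76) (nat_lit 557028769) (nat_lit 122) (nat_lit 5) (nat_lit 127) (nat_lit 5) (nat_lit 123) (nat_lit 5) (nat_lit 463) (nat_lit 444) (nat_lit 293)))) (XT.nd (nat_lit 156) (nat_lit 608) (nat_lit 0) (XT.nd (nat_lit 78) (nat_lit 76) (nat_lit 0) (XT.lf (nat_lit 0) (nat_lit 22322965360) (nat_lit 304) (nat_lit 33730783219) (nat_lit 380) (nat_lit 2841862152) (nat_lit 118) (nat_lit 5) (nat_lit 122) (nat_lit 5) (nat_lit 123) (nat_lit 5) (nat_lit 464) (nat_lit 444) (nat_lit 292)) (XT.lf (nat_lit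 0) (nat_lit 6050776256) (nat_lit 380) (nat_lit 3258109551) (nat_lit 76) (nat_lit 51282661475) (nat_lit 117) (nat_lit 5) (nat_lit 122) (nat_lit 5) (nat_lit 118) (nat_lit 5) (nat_lit 465) (nat_lit 444) (nat_lit 291))) (XT.nd (nat_lit 78) (nat_lit 304) (nat_lit 0) (XT.lf (nat_lit 0) (nat_lit 16066049054) (nat_lit 380) (nat_lit 29887637829) (nat_lit 76) (nat_lit 16377589181) (nat_lit 113) (nat_lit 5) (nat_lit 118) (nat_lit 5) (nat_lit 114) (nat_lit 5) (nat_lit 466) (nat_lit 444) (nat_lit 290)) (XT.lf (nat_lit 0) (nat_lit 5922524218) (nat_lit 304) (nat_lit 20959240323) (nat_lit 380) (nat_lit 37261242962) (nat_lit 109) (nat_lit 5) (nat_lit 113) (nat_lit 5) (nat_lit 114) (nat_lit 5) (nat_lit 467) (nat_lit 444) (nat_lit 289))))))) (XT.nd (nat_lit 1170) (nat_lit 1672) (nat_lit 0) (XT.nd (nat_lit 546) (nat_lit 912) (nat_lit 0) (XT.nd (nat_lit 234) (nat_lit 760) (nat_lit 0) (XT.nd (nat_lit 78) (nat_lit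 228) (nat_lit 0) (XT.lf (nat_lit 0) (nat_lit 38833797523) (nat_lit 380) (nat_lit 21551916613) (nat_lit 76) (nat_lit 5629834957) (nat_lit 109) (nat_lit 5) (nat_lit 114) (nat_lit 5) (nat_lit 110) (nat_lit 5) (nat_lit 468) (nat_lit 444) (nat_lit 288)) (XT.nd (nat_lit 78) (nat_lit 0) (nat_lit 0) (XT.lf (nat_lit 0) (nat_lit 17153685968) (nat_lit 228) (nat_lit 34839785810) (nat_lit 304) (nat_lit 15957744158) (nat_lit 106) (nat_lit 5) (nat_lit 109) (nat_lit 5) (nat_lit 110) (nat_lit 5) (nat_lit 469) (nat_lit 444) (nat_lit 287)) (XT.lf (nat_lit 0) (nat_lit 58541008570) (nat_lit 228) (nat_lit 7633779028) (nat_lit 304) (nat_lit 3790695778) (nat_lit 106) (nat_lit 5) (nat_lit 109) (nat_lit 5) (nat_lit 110) (nat_lit 5) (nat_lit 470) (nat_lit 444) (nat_lit 286)))) (XT.nd (nat_lit 156) (nat_lit 228) (nat_lit 0) (XT.nd (nat_lit 78) (nat_lit 228) (nat_lit 0) (XT.lf (nat_lit 0) (nat_lit 9513072616) (nat_lit 304)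 (nat_lit 41626775525) (nat_lit 76) (nat_lit 20892805648) (nat_lit 102) (nat_lit 5) (nat_lit 106) (nat_lit 5) (nat_lit 103) (nat_lit 5) (nat_lit 471) (nat_lit 444) (nat_lit 285)) (XT.lf (nat_lit 0) (nat_lit 349831867) (nat_lit 228) (nat_lit 23330797514) (nat_lit 304) (nat_lit 50503146732) (nat_lit 99) (nat_lit 5) (nat_lit 102) (nat_lit 5) (nat_lit 103) (nat_lit 5) (nat_lit 472) (nat_lit 444) (nat_lit 284))) (XT.nd (nat_lit 78) (nat_lit 228) (nat_lit 0) (XT.lf (nat_lit 0) (nat_lit 39363477792) (nat_lit 304) (nat_lit 30641736387) (nat_lit 76) (nat_lit 6396894806) (nat_lit 99) (nat_lit 5) (nat_lit 103) (nat_lit 5) (nat_lit 100) (nat_lit 5) (nat_lit 473) (nat_lit 444) (nat_lit 283)) (XT.lf (nat_lit 0) (nat_lit 14799570581) (nat_lit 228) (nat_lit 41643252335) (nat_lit 304) (nat_lit 22257917987) (nat_lit 96) (nat_lit 5) (nat_lit 99) (nat_lit 5) (nat_lit 100) (nat_lit 5) (nat_lit 474) (nat_lit 444) (nat_lit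 282))))) (XT.nd (nat_lit 312) (nat_lit 456) (nat_lit 0) (XT.nd (nat_lit 156) (nat_lit 228) (nat_lit 0) (XT.nd (nat_lit 78) (nat_lit 228) (nat_lit 0) (XT.lf (nat_lit 0) (nat_lit 63575064624) (nat_lit 228) (nat_lit 11318852563) (nat_lit 304) (nat_lit 6194498244) (nat_lit 96) (nat_lit 5) (nat_lit 99) (nat_lit 5) (nat_lit 100) (nat_lit 5) (nat_lit 475) (nat_lit 444) (nat_lit 281)) (XT.lf (nat_lit 0) (nat_lit 11161146601) (nat_lit 228) (nat_lit 51842068785) (nat_lit 76) (nat_lit 20542395951) (nat_lit 93) (nat_lit 5) (nat_lit 96) (nat_lit 5) (nat_lit 94) (nat_lit 5) (nat_lit 476) (nat_lit 444) (nat_lit 280))) (XT.nd (nat_lit 78) (nat_lit 228) (nat_lit 0) (XT.lf (nat_lit 0) (nat_lit 29662317616) (nat_lit 228) (nat_lit 2415165104) (nat_lit 76) (nat_lit 54018810974) (nat_lit 93) (nat_lit 5) (nat_lit 96) (nat_lit 5) (nat_lit 94) (nat_lit 5) (nat_lit 477) (nat_lit 444) (nat_lit 279)) (XT.lf (nat_lit 0)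 (nat_lit 49904828117) (nat_lit 304) (nat_lit 37636313973) (nat_lit 76) (nat_lit 1192554121) (nat_lit 90) (nat_lit 5) (nat_lit 94) (nat_lit 5) (nat_lit 91) (nat_lit 5) (nat_lit 478) (nat_lit 444) (nat_lit 278)))) (XT.nd (nat_lit 156) (nat_lit 228) (nat_lit 0) (XT.nd (nat_lit 78) (nat_lit 76) (nat_lit 0) (XT.lf (nat_lit 0) (nat_lit 15847568893) (nat_lit 152) (nat_lit 56125727404) (nat_lit 228) (nat_lit 19488981036) (nat_lit 88) (nat_lit 5) (nat_lit 90) (nat_lit 5) (nat_lit 91) (nat_lit 5) (nat_lit 479) (nat_lit 444) (nat_lit 277)) (XT.lf (nat_lit 0) (nat_lit 1438542662) (nat_lit 228) (nat_lit 21007954561) (nat_lit 76) (nat_lit 71847810870) (nat_lit 87) (nat_lit 5) (nat_lit 90) (nat_lit 5) (nat_lit 88) (nat_lit 5) (nat_lit 480) (nat_lit 444) (nat_lit 276))) (XT.nd (nat_lit 78) (nat_lit 0) (nat_lit 0) (XT.lf (nat_lit 0) (nat_lit 23553706915) (nat_lit 304) (nat_lit 60240689539) (nat_lit 76) (nat_lit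 13417758342) (nat_lit 84) (nat_lit 5) (nat_lit 88) (nat_lit 5) (nat_lit 85) (nat_lit 5) (nat_lit 481) (nat_lit 444) (nat_lit 275)) (XT.lf (nat_lit 0) (nat_lit 47503261368) (nat_lit 304) (nat_lit 2054256509) (nat_lit 76) (nat_lit 50681944429) (nat_lit 84) (nat_lit 5) (nat_lit 88) (nat_lit 5) (nat_lit 85) (nat_lit 5) (nat_lit 482) (nat_lit 444) (nat_lit 274)))))) (XT.nd (nat_lit 624) (nat_lit 760) (nat_lit 0) (XT.nd (nat_lit 312) (nat_lit 380) (nat_lit 0) (XT.nd (nat_lit 156) (nat_lit 228) (nat_lit 0) (XT.nd (nat_lit 78) (nat_lit 152) (nat_lit 0) (XT.lf (nat_lit 0) (nat_lit 60992153059) (nat_lit 152) (nat_lit 12609488724) (nat_lit 228) (nat_lit 29768926063) (nat_lit 82) (nat_lit 5) (nat_lit 84) (nat_lit 5) (nat_lit 85) (nat_lit 5) (nat_lit 483) (nat_lit 444) (nat_lit 273)) (XT.lf (nat_lit 0) (nat_lit 20862551867) (nat_lit 152) (nat_lit 80911410066) (nat_lit 228) (nat_lit 4845815761) (nat_lit 80)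 (nat_lit 5) (nat_lit 82) (nat_lit 5) (nat_lit 83) (nat_lit 5) (nat_lit 484) (nat_lit 444) (nat_lit 272))) (XT.nd (nat_lit 78) (nat_lit 152) (nat_lit 0) (XT.lf (nat_lit 0) (nat_lit 21576251129) (nat_lit 228) (nat_lit 21811603156) (nat_lit 76) (nat_lit 66580183634) (nat_lit 79) (nat_lit 5) (nat_lit 82) (nat_lit 5) (nat_lit 80) (nat_lit 5) (nat_lit 485) (nat_lit 444) (nat_lit 271)) (XT.lf (nat_lit 0) (nat_lit 46746623514) (nat_lit 152) (nat_lit 3138942175) (nat_lit 228) (nat_lit 63557723767) (nat_lit 77) (nat_lit 5) (nat_lit 79) (nat_lit 5) (nat_lit 80) (nat_lit 5) (nat_lit 486) (nat_lit 444) (nat_lit 270)))) (XT.nd (nat_lit 156) (nat_lit 228) (nat_lit 0) (XT.nd (nat_lit 78) (nat_lit 0) (nat_lit 0) (XT.lf (nat_lit 0) (nat_lit 1857325677) (nat_lit 152) (nat_lit 78767434049) (nat_lit 228) (nat_lit 36416823209) (nat_lit 75) (nat_lit 5) (nat_lit 77) (nat_lit 5) (nat_lit 78) (nat_lit 5) (nat_lit 487)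 (nat_lit 444) (nat_lit 269)) (XT.lf (nat_lit 0) (nat_lit 76100006814) (nat_lit 152) (nat_lit 37980252613) (nat_lit 228) (nat_lit 6680564413) (nat_lit 75) (nat_lit 5) (nat_lit 77) (nat_lit 5) (nat_lit 78) (nat_lit 5) (nat_lit 488) (nat_lit 444) (nat_lit 268))) (XT.nd (nat_lit 78) (nat_lit 0) (nat_lit 0) (XT.lf (nat_lit 0) (nat_lit 24313613970) (nat_lit 228) (nat_lit 94749861202) (nat_lit 76) (nat_lit 5555561792) (nat_lit 72) (nat_lit 5) (nat_lit 75) (nat_lit 5) (nat_lit 73) (nat_lit 5) (nat_lit 489) (nat_lit 444) (nat_lit 267)) (XT.lf (nat_lit 0) (nat_lit 58023581260) (nat_lit 228) (nat_lit 19702071588) (nat_lit 76) (nat_lit 50869502530) (nat_lit 72) (nat_lit 5) (nat_lit 75) (nat_lit 5) (nat_lit 73) (nat_lit 5) (nat_lit 490) (nat_lit 444) (nat_lit 266))))) (XT.nd (nat_lit 312) (nat_lit 304) (nat_lit 0) (XT.nd (nat_lit 156) (nat_lit 228) (nat_lit 0) (XT.nd (nat_lit 78) (nat_lit 76) (nat_lit 0)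 (XT.lf (nat_lit 0) (nat_lit 61050804402) (nat_lit 152) (nat_lit 33320666087) (nat_lit 228) (nat_lit 38350988086) (nat_lit 70) (nat_lit 5) (nat_lit 72) (nat_lit 5) (nat_lit 73) (nat_lit 5) (nat_lit 491) (nat_lit 444) (nat_lit 265)) (XT.lf (nat_lit 0) (nat_lit 9577937054) (nat_lit 76) (nat_lit 123654467601) (nat_lit 152) (nat_lit 3788939793) (nat_lit 69) (nat_lit 5) (nat_lit 70) (nat_lit 5) (nat_lit 71) (nat_lit 4) (nat_lit 492) (nat_lit 444) (nat_lit 264))) (XT.nd (nat_lit 78) (nat_lit 152) (nat_lit 0) (XT.lf (nat_lit 0) (nat_lit 33240161618) (nat_lit 152) (nat_lit 45171093144) (nat_lit 76) (nat_lit 63009588517) (nat_lit 68) (nat_lit 5) (nat_lit 70) (nat_lit 5) (nat_lit 69) (nat_lit 5) (nat_lit 493) (nat_lit 444) (nat_lit 263)) (XT.lf (nat_lit 0) (nat_lit 42512118828) (nat_lit 152) (nat_lit 30144294213) (nat_lit 228) (nat_lit 73347646949) (nat_lit 66) (nat_lit 5) (nat_lit 68) (nat_lit 5) (nat_lit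 69) (nat_lit 5) (nat_lit 494) (nat_lit 444) (nat_lit 262)))) (XT.nd (nat_lit 156) (nat_lit 152) (nat_lit 0) (XT.nd (nat_lit 78) (nat_lit 152) (nat_lit 0) (XT.lf (nat_lit 0) (nat_lit 115140937563) (nat_lit 228) (nat_lit 14964886978) (nat_lit 76) (nat_lit 20655740002) (nat_lit 66) (nat_lit 5) (nat_lit 69) (nat_lit 5) (nat_lit 67) (nat_lit 4) (nat_lit 495) (nat_lit 444) (nat_lit 261)) (XT.lf (nat_lit 0) (nat_lit 5636923541) (nat_lit 152) (nat_lit 75705271396) (nat_lit 76) (nat_lit 74323033905) (nat_lit 64) (nat_lit 5) (nat_lit 66) (nat_lit 5) (nat_lit 65) (nat_lit 5) (nat_lit 496) (nat_lit 444) (nat_lit 260))) (XT.nd (nat_lit 78) (nat_lit 0) (nat_lit 0) (XT.lf (nat_lit 0) (nat_lit 19380167995) (nat_lit 152) (nat_lit 28939604394) (nat_lit 228) (nat_lit 112437131388) (nat_lit 62) (nat_lit 5) (nat_lit 64) (nat_lit 5) (nat_lit 65) (nat_lit 5) (nat_lit 497) (nat_lit 444) (nat_lit 259)) (XT.lf (nat_lit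 0) (nat_lit 94846458847) (nat_lit 228) (nat_lit 44620320846) (nat_lit 76) (nat_lit 26550898033) (nat_lit 62) (nat_lit 5) (nat_lit 65) (nat_lit 5) (nat_lit 63) (nat_lit 4) (nat_lit 498) (nat_lit 444) (nat_lit 258))))))))
noncomputable def xc185 : XT := (XT.nd (nat_lit 2418) (nat_lit 836) (nat_lit 0) (XT.nd (nat_lit 1170) (nat_lit 1064) (nat_lit 0) (XT.nd (nat_lit 546) (nat_lit 532) (nat_lit 0) (XT.nd (nat_lit 234) (nat_lit 304) (nat_lit 0) (XT.nd (nat_lit 78) (nat_lit 228) (nat_lit 0) (XT.lf (nat_lit 0) (nat_lit 58366432647) (nat_lit 76) (nat_lit 86718102794) (nat_lit 152) (nat_lit 26387702167) (nat_lit 61) (nat_lit 5) (nat_lit 62) (nat_lit 5) (nat_lit 63) (nat_lit 4) (nat_lit 499) (nat_lit 444) (nat_lit 257)) (XT.nd (nat_lit 78) (nat_lit 152) (nat_lit 0) (XT.lf (nat_lit 0) (nat_lit 20741971071) (nat_lit 152) (nat_lit 9445814462) (nat_lit 76) (nat_lit 146957260012) (nat_lit 60) (nat_lit 5) (nat_lit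 62) (nat_lit 5) (nat_lit 61) (nat_lit 5) (nat_lit 500) (nat_lit 444) (nat_lit 256)) (XT.lf (nat_lit 0) (nat_lit 71425579045) (nat_lit 228) (nat_lit 81253076100) (nat_lit 76) (nat_lit 30296996946) (nat_lit 58) (nat_lit 5) (nat_lit 61) (nat_lit 5) (nat_lit 59) (nat_lit 4) (nat_lit 501) (nat_lit 444) (nat_lit 255)))) (XT.nd (nat_lit 156) (nat_lit 228) (nat_lit 0) (XT.nd (nat_lit 78) (nat_lit 0) (nat_lit 0) (XT.lf (nat_lit 0) (nat_lit 30154042701) (nat_lit 76) (nat_lit 95616995473) (nat_lit 152) (nat_lit 63270367272) (nat_lit 57) (nat_lit 5) (nat_lit 58) (nat_lit 5) (nat_lit 59) (nat_lit 4) (nat_lit 502) (nat_lit 444) (nat_lit 254)) (XT.lf (nat_lit 0) (nat_lit 149951354946) (nat_lit 76) (nat_lit 34257894736) (nat_lit 152) (nat_lit 11132422837) (nat_lit 57) (nat_lit 5) (nat_lit 58) (nat_lit 5) (nat_lit 59) (nat_lit 4) (nat_lit 503) (nat_lit 444) (nat_lit 253))) (XT.nd (nat_lit 78) (nat_lit 0) (nat_lit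 0) (XT.lf (nat_lit 0) (nat_lit 43896521214) (nat_lit 228) (nat_lit 126848873999) (nat_lit 76) (nat_lit 31093513538) (nat_lit 54) (nat_lit 5) (nat_lit 57) (nat_lit 5) (nat_lit 55) (nat_lit 4) (nat_lit 504) (nat_lit 444) (nat_lit 252)) (XT.lf (nat_lit 0) (nat_lit 102645144510) (nat_lit 228) (nat_lit 6415078520) (nat_lit 76) (nat_lit 99524541123) (nat_lit 54) (nat_lit 5) (nat_lit 57) (nat_lit 5) (nat_lit 55) (nat_lit 4) (nat_lit 505) (nat_lit 444) (nat_lit 251))))) (XT.nd (nat_lit 312) (nat_lit 228) (nat_lit 0) (XT.nd (nat_lit 156) (nat_lit 76) (nat_lit 0) (XT.nd (nat_lit 78) (nat_lit 152) (nat_lit 0) (XT.lf (nat_lit 0) (nat_lit 124008445942) (nat_lit 76) (nat_lit 42258339898) (nat_lit 152) (nat_lit 49304347159) (nat_lit 53) (nat_lit 5) (nat_lit 54) (nat_lit 5) (nat_lit 55) (nat_lit 4) (nat_lit 506) (nat_lit 444) (nat_lit 250)) (XT.lf (nat_lit 0) (nat_lit 11011860977) (nat_lit 152) (nat_lit 183939270981)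 (nat_lit 76) (nat_lit 27889032865) (nat_lit 51) (nat_lit 5) (nat_lit 53) (nat_lit 5) (nat_lit 52) (nat_lit 4) (nat_lit 507) (nat_lit 444) (nat_lit 249))) (XT.nd (nat_lit 78) (nat_lit 76) (nat_lit 0) (XT.lf (nat_lit 0) (nat_lit 74955240184) (nat_lit 152) (nat_lit 52856069457) (nat_lit 76) (nat_lit 102507509708) (nat_lit 51) (nat_lit 5) (nat_lit 53) (nat_lit 5) (nat_lit 52) (nat_lit 4) (nat_lit 508) (nat_lit 444) (nat_lit 248)) (XT.lf (nat_lit 0) (nat_lit 87583551442) (nat_lit 76) (nat_lit 55879158102) (nat_lit 152) (nat_lit 94640351013) (nat_lit 50) (nat_lit 5) (nat_lit 51) (nat_lit 5) (nat_lit 52) (nat_lit 4) (nat_lit 509) (nat_lit 444) (nat_lit 247)))) (XT.nd (nat_lit 156) (nat_lit 76) (nat_lit 0) (XT.nd (nat_lit 78) (nat_lit 152) (nat_lit 0) (XT.lf (nat_lit 0) (nat_lit 216611653961) (nat_lit 152) (nat_lit 9673983209) (nat_lit 0) (nat_lit 19930071587) (nat_lit 50) (nat_lit 5) (nat_lit 52) (nat_lit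 4) (nat_lit 50) (nat_lit 4) (nat_lit 510) (nat_lit 444) (nat_lit 246)) (XT.lf (nat_lit 0) (nat_lit 40627276578) (nat_lit 152) (nat_lit 113396262547) (nat_lit 76) (nat_lit 100521184342) (nat_lit 48) (nat_lit 5) (nat_lit 50) (nat_lit 5) (nat_lit 49) (nat_lit 4) (nat_lit 511) (nat_lit 444) (nat_lit 245))) (XT.nd (nat_lit 78) (nat_lit 0) (nat_lit 0) (XT.lf (nat_lit 0) (nat_lit 37269839758) (nat_lit 76) (nat_lit 76853373908) (nat_lit 152) (nat_lit 149105313164) (nat_lit 47) (nat_lit 5) (nat_lit 48) (nat_lit 5) (nat_lit 49) (nat_lit 4) (nat_lit 512) (nat_lit 444) (nat_lit 244)) (XT.lf (nat_lit 0) (nat_lit 193310563871) (nat_lit 152) (nat_lit 72941980769) (nat_lit 0) (nat_lit 5993144918) (nat_lit 47) (nat_lit 5) (nat_lit 49) (nat_lit 4) (nat_lit 47) (nat_lit 4) (nat_lit 513) (nat_lit 444) (nat_lit 243)))))) (XT.nd (nat_lit 624) (nat_lit 532) (nat_lit 0) (XT.nd (nat_lit 312) (nat_lit 228) (nat_lit 0)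 (XT.nd (nat_lit 156) (nat_lit 152) (nat_lit 0) (XT.nd (nat_lit 78) (nat_lit 76) (nat_lit 0) (XT.lf (nat_lit 0) (nat_lit 89323709478) (nat_lit 76) (nat_lit 189787604780) (nat_lit 76) (nat_lit 2469694541) (nat_lit 46) (nat_lit 4) (nat_lit 47) (nat_lit 5) (nat_lit 47) (nat_lit 4) (nat_lit 514) (nat_lit 444) (nat_lit 242)) (XT.lf (nat_lit 0) (nat_lit 76583421235) (nat_lit 152) (nat_lit 30322364596) (nat_lit 76) (nat_lit 184353804174) (nat_lit 45) (nat_lit 5) (nat_lit 47) (nat_lit 5) (nat_lit 46) (nat_lit 4) (nat_lit 515) (nat_lit 444) (nat_lit 241))) (XT.nd (nat_lit 78) (nat_lit 76) (nat_lit 0) (XT.lf (nat_lit 0) (nat_lit 144286049173) (nat_lit 76) (nat_lit 17472425418) (nat_lit 152) (nat_lit 139548987364) (nat_lit 44) (nat_lit 5) (nat_lit 45) (nat_lit 5) (nat_lit 46) (nat_lit 4) (nat_lit 516) (nat_lit 444) (nat_lit 240)) (XT.lf (nat_lit 0) (nat_lit 16160201200) (nat_lit 76) (nat_lit 236999226445)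 (nat_lit 76) (nat_lit 58599942512) (nat_lit 43) (nat_lit 4) (nat_lit 44) (nat_lit 5) (nat_lit 44) (nat_lit 4) (nat_lit 517) (nat_lit 444) (nat_lit 239)))) (XT.nd (nat_lit 156) (nat_lit 76) (nat_lit 0) (XT.nd (nat_lit 78) (nat_lit 76) (nat_lit 0) (XT.lf (nat_lit 0) (nat_lit 28540532948) (nat_lit 152) (nat_lit 119891576322) (nat_lit 76) (nat_lit 174131716650) (nat_lit 42) (nat_lit 5) (nat_lit 44) (nat_lit 5) (nat_lit 43) (nat_lit 4) (nat_lit 518) (nat_lit 444) (nat_lit 238)) (XT.lf (nat_lit 0) (nat_lit 65744167363) (nat_lit 76) (nat_lit 53350565727) (nat_lit 152) (nat_lit 214714436487) (nat_lit 41) (nat_lit 5) (nat_lit 42) (nat_lit 5) (nat_lit 43) (nat_lit 4) (nat_lit 519) (nat_lit 444) (nat_lit 237))) (XT.nd (nat_lit 78) (nat_lit 76) (nat_lit 0) (XT.lf (nat_lit 0) (nat_lit 216965706365) (nat_lit 152) (nat_lit 81451042747) (nat_lit 0) (nat_lit 47060578155) (nat_lit 41) (nat_lit 5) (nat_lit 43)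 (nat_lit 4) (nat_lit 41) (nat_lit 4) (nat_lit 520) (nat_lit 444) (nat_lit 236)) (XT.lf (nat_lit 0) (nat_lit 117374987027) (nat_lit 76) (nat_lit 205062006234) (nat_lit 76) (nat_lit 35156561339) (nat_lit 40) (nat_lit 4) (nat_lit 41) (nat_lit 5) (nat_lit 41) (nat_lit 4) (nat_lit 521) (nat_lit 444) (nat_lit 235))))) (XT.nd (nat_lit 312) (nat_lit 304) (nat_lit 0) (XT.nd (nat_lit 156) (nat_lit 76) (nat_lit 0) (XT.nd (nat_lit 78) (nat_lit 76) (nat_lit 0) (XT.lf (nat_lit 0) (nat_lit 62255778234) (nat_lit 152) (nat_lit 42281401121) (nat_lit 76) (nat_lit 265659256049) (nat_lit 39) (nat_lit 5) (nat_lit 41) (nat_lit 5) (nat_lit 40) (nat_lit 4) (nat_lit 522) (nat_lit 444) (nat_lit 234)) (XT.lf (nat_lit 0) (nat_lit 166086665347) (nat_lit 152) (nat_lit 212906111862) (nat_lit 0) (nat_lit 4271395113) (nat_lit 38) (nat_lit 5) (nat_lit 40) (nat_lit 4) (nat_lit 38) (nat_lit 4) (nat_lit 523) (nat_lit 444) (nat_lit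 233))) (XT.nd (nat_lit 78) (nat_lit 76) (nat_lit 0) (XT.lf (nat_lit 0) (nat_lit 277550248510) (nat_lit 152) (nat_lit 3578272261) (nat_lit 0) (nat_lit 115734717736) (nat_lit 38) (nat_lit 5) (nat_lit 40) (nat_lit 4) (nat_lit 38) (nat_lit 4) (nat_lit 524) (nat_lit 444) (nat_lit 232)) (XT.lf (nat_lit 0) (nat_lit 223364321108) (nat_lit 76) (nat_lit 174709683069) (nat_lit 76) (nat_lit 12893904162) (nat_lit 37) (nat_lit 4) (nat_lit 38) (nat_lit 5) (nat_lit 38) (nat_lit 4) (nat_lit 525) (nat_lit 444) (nat_lit 231)))) (XT.nd (nat_lit 156) (nat_lit 152) (nat_lit 0) (XT.nd (nat_lit 78) (nat_lit 0) (nat_lit 0) (XT.lf (nat_lit 0) (nat_lit 35597896544) (nat_lit 76) (nat_lit 60701572610) (nat_lit 152) (nat_lit 329370327911) (nat_lit 35) (nat_lit 5) (nat_lit 36) (nat_lit 5) (nat_lit 37) (nat_lit 4) (nat_lit 526) (nat_lit 444) (nat_lit 230)) (XT.lf (nat_lit 0) (nat_lit 214669348682) (nat_lit 152) (nat_lit 165660711263)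 (nat_lit 0) (nat_lit 60558643648) (nat_lit 35) (nat_lit 5) (nat_lit 37) (nat_lit 4) (nat_lit 35) (nat_lit 4) (nat_lit 527) (nat_lit 444) (nat_lit 229))) (XT.nd (nat_lit 78) (nat_lit 76) (nat_lit 0) (XT.lf (nat_lit 0) (nat_lit 71255904052) (nat_lit 76) (nat_lit 269809098283) (nat_lit 76) (nat_lit 115698189110) (nat_lit 34) (nat_lit 4) (nat_lit 35) (nat_lit 5) (nat_lit 35) (nat_lit 4) (nat_lit 528) (nat_lit 444) (nat_lit 228)) (XT.lf (nat_lit 0) (nat_lit 3189068882) (nat_lit 152) (nat_lit 147573512381) (nat_lit 76) (nat_lit 322525989699) (nat_lit 33) (nat_lit 5) (nat_lit 35) (nat_lit 5) (nat_lit 34) (nat_lit 4) (nat_lit 529) (nat_lit 444) (nat_lit 227))))))) (XT.nd (nat_lit 1170) (nat_lit 76) (nat_lit 0) (XT.nd (nat_lit 546) (nat_lit 380) (nat_lit 0) (XT.nd (nat_lit 234) (nat_lit 228) (nat_lit 0) (XT.nd (nat_lit 78) (nat_lit 76) (nat_lit 0) (XT.lf (nat_lit 0) (nat_lit 103677973908) (nat_lit 76)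 (nat_lit 22072885926) (nat_lit 152) (nat_lit 364713605651) (nat_lit 32) (nat_lit 5) (nat_lit 33) (nat_lit 5) (nat_lit 34) (nat_lit 4) (nat_lit 530) (nat_lit 444) (nat_lit 226)) (XT.nd (nat_lit 78) (nat_lit 76) (nat_lit 0) (XT.lf (nat_lit 0) (nat_lit 258745672402) (nat_lit 152) (nat_lit 137565387229) (nat_lit 0) (nat_lit 111972848502) (nat_lit 32) (nat_lit 5) (nat_lit 34) (nat_lit 4) (nat_lit 32) (nat_lit 4) (nat_lit 531) (nat_lit 444) (nat_lit 225)) (XT.lf (nat_lit 0) (nat_lit 127846199424) (nat_lit 76) (nat_lit 272901613975) (nat_lit 76) (nat_lit 126128630126) (nat_lit 31) (nat_lit 4) (nat_lit 32) (nat_lit 5) (nat_lit 32) (nat_lit 4) (nat_lit 532) (nat_lit 444) (nat_lit 224)))) (XT.nd (nat_lit 156) (nat_lit 76) (nat_lit 0) (XT.nd (nat_lit 78) (nat_lit 76) (nat_lit 0) (XT.lf (nat_lit 0) (nat_lit 5708616418) (nat_lit 152) (nat_lit 135070472522) (nat_lit 76) (nat_lit 405498440966) (nat_lit 30)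 (nat_lit 5) (nat_lit 32) (nat_lit 5) (nat_lit 31) (nat_lit 4) (nat_lit 533) (nat_lit 444) (nat_lit 223)) (XT.lf (nat_lit 0) (nat_lit 142195963443) (nat_lit 152) (nat_lit 421822587629) (nat_lit 0) (nat_lit 2411886055) (nat_lit 29) (nat_lit 5) (nat_lit 31) (nat_lit 4) (nat_lit 29) (nat_lit 4) (nat_lit 534) (nat_lit 444) (nat_lit 222))) (XT.nd (nat_lit 78) (nat_lit 76) (nat_lit 0) (XT.lf (nat_lit 0) (nat_lit 290140230023) (nat_lit 152) (nat_lit 146863111033) (nat_lit 0) (nat_lit 150356021044) (nat_lit 29) (nat_lit 5) (nat_lit 31) (nat_lit 4) (nat_lit 29) (nat_lit 4) (nat_lit 535) (nat_lit 444) (nat_lit 221)) (XT.lf (nat_lit 0) (nat_lit 146533791759) (nat_lit 76) (nat_lit 301235449647) (nat_lit 76) (nat_lit 161451115345) (nat_lit 28) (nat_lit 4) (nat_lit 29) (nat_lit 5) (nat_lit 29) (nat_lit 4) (nat_lit 536) (nat_lit 444) (nat_lit 220))))) (XT.nd (nat_lit 312) (nat_lit 152) (nat_lit 0) (XT.nd (nat_lit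 156) (nat_lit 76) (nat_lit 0) (XT.nd (nat_lit 78) (nat_lit 152) (nat_lit 0) (XT.lf (nat_lit 0) (nat_lit 459698759968) (nat_lit 76) (nat_lit 156067874145) (nat_lit 76) (nat_lit 16283420487) (nat_lit 28) (nat_lit 4) (nat_lit 29) (nat_lit 5) (nat_lit 29) (nat_lit 4) (nat_lit 537) (nat_lit 444) (nat_lit 219)) (XT.lf (nat_lit 0) (nat_lit 133900255382) (nat_lit 152) (nat_lit 521136856940) (nat_lit 0) (nat_lit 772096019) (nat_lit 26) (nat_lit 5) (nat_lit 28) (nat_lit 4) (nat_lit 26) (nat_lit 4) (nat_lit 538) (nat_lit 444) (nat_lit 218))) (XT.nd (nat_lit 78) (nat_lit 76) (nat_lit 0) (XT.lf (nat_lit 0) (nat_lit 296570819498) (nat_lit 152) (nat_lit 220453349467) (nat_lit 0) (nat_lit 163442557032) (nat_lit 26) (nat_lit 5) (nat_lit 28) (nat_lit 4) (nat_lit 26) (nat_lit 4) (nat_lit 539) (nat_lit 444) (nat_lit 217)) (XT.lf (nat_lit 0) (nat_lit 98413692102) (nat_lit 76) (nat_lit 370497487358) (nat_lit 76) (nat_lit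 237369126697) (nat_lit 25) (nat_lit 4) (nat_lit 26) (nat_lit 5) (nat_lit 26) (nat_lit 4) (nat_lit 540) (nat_lit 444) (nat_lit 216)))) (XT.nd (nat_lit 156) (nat_lit 0) (nat_lit 0) (XT.nd (nat_lit 78) (nat_lit 152) (nat_lit 0) (XT.lf (nat_lit 0) (nat_lit 440877242186) (nat_lit 76) (nat_lit 212724557601) (nat_lit 76) (nat_lit 79596103421) (nat_lit 25) (nat_lit 4) (nat_lit 26) (nat_lit 5) (nat_lit 26) (nat_lit 4) (nat_lit 541) (nat_lit 444) (nat_lit 215)) (XT.lf (nat_lit 0) (nat_lit 38903550826) (nat_lit 76) (nat_lit 45014543842) (nat_lit 152) (nat_lit 677445741236) (nat_lit 23) (nat_lit 5) (nat_lit 24) (nat_lit 5) (nat_lit 25) (nat_lit 4) (nat_lit 542) (nat_lit 444) (nat_lit 214))) (XT.nd (nat_lit 78) (nat_lit 0) (nat_lit 0) (XT.lf (nat_lit 0) (nat_lit 260011108273) (nat_lit 152) (nat_lit 397285872742) (nat_lit 0) (nat_lit 133221938684) (nat_lit 23) (nat_lit 5) (nat_lit 25) (nat_lit 4) (nat_lit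 23) (nat_lit 4) (nat_lit 543) (nat_lit 444) (nat_lit 213)) (XT.lf (nat_lit 0) (nat_lit 445646493268) (nat_lit 152) (nat_lit 56591131640) (nat_lit 0) (nat_lit 318857246741) (nat_lit 23) (nat_lit 5) (nat_lit 25) (nat_lit 4) (nat_lit 23) (nat_lit 4) (nat_lit 544) (nat_lit 444) (nat_lit 212)))))) (XT.nd (nat_lit 55146) (nat_lit 0) (nat_lit 8664) (XT.nd (nat_lit 54834) (nat_lit 0) (nat_lit 9576) (XT.nd (nat_lit 54678) (nat_lit 0) (nat_lit 9500) (XT.nd (nat_lit 78) (nat_lit 0) (nat_lit 0) (XT.lf (nat_lit 0) (nat_lit 311094898956) (nat_lit 76) (nat_lit 334325599742) (nat_lit 76) (nat_lit 207536279940) (nat_lit 22) (nat_lit 4) (nat_lit 23) (nat_lit 5) (nat_lit 23) (nat_lit 4) (nat_lit 545) (nat_lit 444) (nat_lit 211)) (XT.lf (nat_lit 0) (nat_lit 699129527124) (nat_lit 76) (nat_lit 157011866978) (nat_lit 76) (nat_lit 30222477391) (nat_lit 22) (nat_lit 4) (nat_lit 23) (nat_lit 5) (nat_lit 23) (nat_lit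 4) (nat_lit 546) (nat_lit 444) (nat_lit 210))) (XT.nd (nat_lit 78) (nat_lit 0) (nat_lit 0) (XT.lf (nat_lit 0) (nat_lit 7253507239) (nat_lit 836) (nat_lit 5501650507) (nat_lit 836) (nat_lit 5501650507) (nat_lit 147) (nat_lit 3) (nat_lit 158) (nat_lit 3) (nat_lit 158) (nat_lit 5) (nat_lit 445) (nat_lit 445) (nat_lit 310)) (XT.lf (nat_lit 76) (nat_lit 7340648523) (nat_lit 0) (nat_lit 7691951944) (nat_lit 836) (nat_lit 22385703450) (nat_lit 148) (nat_lit 5) (nat_lit 147) (nat_lit 3) (nat_lit 158) (nat_lit 5) (nat_lit 446) (nat_lit 445) (nat_lit 309)))) (XT.nd (nat_lit 156) (nat_lit 0) (nat_lit 76) (XT.nd (nat_lit 78) (nat_lit 0) (nat_lit 0) (XT.lf (nat_lit 0) (nat_lit 15942782577) (nat_lit 760) (nat_lit 11552025420) (nat_lit 836) (nat_lit 10855502337) (nat_lit 148) (nat_lit 5) (nat_lit 158) (nat_lit 5) (nat_lit 159) (nat_lit 5) (nat_lit 447) (nat_lit 445) (nat_lit 308)) (XT.lf (nat_lit 76) (nat_lit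 8028998887) (nat_lit 0) (nat_lit 9117979411) (nat_lit 836) (nat_lit 22169514006) (nat_lit 149) (nat_lit 5) (nat_lit 148) (nat_lit 5) (nat_lit 159) (nat_lit 5) (nat_lit 448) (nat_lit 445) (nat_lit 307))) (XT.nd (nat_lit 78) (nat_lit 0) (nat_lit 0) (XT.lf (nat_lit 0) (nat_lit 18766314523) (nat_lit 760) (nat_lit 11495074721) (nat_lit 836) (nat_lit 10051848024) (nat_lit 149) (nat_lit 5) (nat_lit 159) (nat_lit 5) (nat_lit 160) (nat_lit 5) (nat_lit 449) (nat_lit 445) (nat_lit 306)) (XT.lf (nat_lit 76) (nat_lit 9437748656) (nat_lit 0) (nat_lit 11323009973) (nat_lit 836) (nat_lit 20584354213) (nat_lit 150) (nat_lit 5) (nat_lit 149) (nat_lit 5) (nat_lit 160) (nat_lit 5) (nat_lit 450) (nat_lit 445) (nat_lit 305))))) (XT.nd (nat_lit 312) (nat_lit 1064) (nat_lit 0) (XT.nd (nat_lit 156) (nat_lit 0) (nat_lit 76) (XT.nd (nat_lit 78) (nat_lit 0) (nat_lit 0) (XT.lf (nat_lit 0) (nat_lit 23183901174) (nat_lit 760)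 (nat_lit 10741345982) (nat_lit 836) (nat_lit 8486886620) (nat_lit 150) (nat_lit 5) (nat_lit 160) (nat_lit 5) (nat_lit 161) (nat_lit 5) (nat_lit 451) (nat_lit 445) (nat_lit 304)) (XT.lf (nat_lit 76) (nat_lit 11669001357) (nat_lit 0) (nat_lit 14424559728) (nat_lit 836) (nat_lit 17420677032) (nat_lit 151) (nat_lit 5) (nat_lit 150) (nat_lit 5) (nat_lit 161) (nat_lit 5) (nat_lit 452) (nat_lit 445) (nat_lit 303))) (XT.nd (nat_lit 78) (nat_lit 0) (nat_lit 0) (XT.lf (nat_lit 0) (nat_lit 29425720171) (nat_lit 760) (nat_lit 9188955750) (nat_lit 836) (nat_lit 6042921306) (nat_lit 151) (nat_lit 5) (nat_lit 161) (nat_lit 5) (nat_lit 162) (nat_lit 5) (nat_lit 453) (nat_lit 445) (nat_lit 302)) (XT.lf (nat_lit 76) (nat_lit 14836702857) (nat_lit 0) (nat_lit 18553655587) (nat_lit 836) (nat_lit 12444472625) (nat_lit 152) (nat_lit 5) (nat_lit 151) (nat_lit 5) (nat_lit 162) (nat_lit 5) (nat_lit 454) (nat_lit 445)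 (nat_lit 301)))) (XT.nd (nat_lit 156) (nat_lit 456) (nat_lit 0) (XT.nd (nat_lit 78) (nat_lit 760) (nat_lit 0) (XT.lf (nat_lit 0) (nat_lit 37748438331) (nat_lit 760) (nat_lit 6724146933) (nat_lit 76) (nat_lit 2588581177) (nat_lit 152) (nat_lit 5) (nat_lit 162) (nat_lit 5) (nat_lit 153) (nat_lit 5) (nat_lit 455) (nat_lit 445) (nat_lit 300)) (XT.lf (nat_lit 0) (nat_lit 19067836663) (nat_lit 760) (nat_lit 23856393370) (nat_lit 836) (nat_lit 5394598466) (nat_lit 142) (nat_lit 5) (nat_lit 152) (nat_lit 5) (nat_lit 153) (nat_lit 5) (nat_lit 456) (nat_lit 445) (nat_lit 299))) (XT.nd (nat_lit 78) (nat_lit 456) (nat_lit 0) (XT.lf (nat_lit 0) (nat_lit 46381067816) (nat_lit 760) (nat_lit 2089637023) (nat_lit 836) (nat_lit 1163074439) (nat_lit 142) (nat_lit 5) (nat_lit 152) (nat_lit 5) (nat_lit 153) (nat_lit 5) (nat_lit 457) (nat_lit 445) (nat_lit 298)) (XT.lf (nat_lit 0) (nat_lit 3891492846) (nat_lit 456)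 (nat_lit 26538261270) (nat_lit 76) (nat_lit 20546340808) (nat_lit 136) (nat_lit 5) (nat_lit 142) (nat_lit 5) (nat_lit 137) (nat_lit 5) (nat_lit 458) (nat_lit 445) (nat_lit 297))))))))
noncomputable def xc186 : XT := (XT.nd (nat_lit 2418) (nat_lit 2584) (nat_lit 0) (XT.nd (nat_lit 1170) (nat_lit 1824) (nat_lit 0) (XT.nd (nat_lit 546) (nat_lit 1444) (nat_lit 0) (XT.nd (nat_lit 234) (nat_lit 608) (nat_lit 0) (XT.nd (nat_lit 78) (nat_lit 380) (nat_lit 0) (XT.lf (nat_lit 0) (nat_lit 1226238918) (nat_lit 380) (nat_lit 8040999167) (nat_lit 456) (nat_lit 43111958356) (nat_lit 131) (nat_lit 5) (nat_lit 136) (nat_lit 5) (nat_lit 137) (nat_lit 5) (nat_lit 459) (nat_lit 445) (nat_lit 296)) (XT.nd (nat_lit 78) (nat_lit 380) (nat_lit 0) (XT.lf (nat_lit 0) (nat_lit 15608268495) (nat_lit 456) (nat_lit 22780425480) (nat_lit 76) (nat_lit 15428934404) (nat_lit 131) (nat_lit 5) (nat_lit 137) (nat_lit 5) (nat_lit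 132) (nat_lit 5) (nat_lit 460) (nat_lit 445) (nat_lit 295)) (XT.lf (nat_lit 0) (nat_lit 7104489240) (nat_lit 380) (nat_lit 15402892816) (nat_lit 456) (nat_lit 32808548508) (nat_lit 126) (nat_lit 5) (nat_lit 131) (nat_lit 5) (nat_lit 132) (nat_lit 5) (nat_lit 461) (nat_lit 445) (nat_lit 294)))) (XT.nd (nat_lit 156) (nat_lit 304) (nat_lit 0) (XT.nd (nat_lit 78) (nat_lit 304) (nat_lit 0) (XT.lf (nat_lit 0) (nat_lit 30278249999) (nat_lit 456) (nat_lit 17739846050) (nat_lit 76) (nat_lit 8844712092) (nat_lit 126) (nat_lit 5) (nat_lit 132) (nat_lit 5) (nat_lit 127) (nat_lit 5) (nat_lit 462) (nat_lit 445) (nat_lit 293)) (XT.lf (nat_lit 0) (nat_lit 14463985105) (nat_lit 304) (nat_lit 24450427479) (nat_lit 380) (nat_lit 19548779659) (nat_lit 122) (nat_lit 5) (nat_lit 126) (nat_lit 5) (nat_lit 127) (nat_lit 5) (nat_lit 463) (nat_lit 445) (nat_lit 292))) (XT.nd (nat_lit 78) (nat_lit 304) (nat_lit 0) (XT.lf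 (nat_lit 0) (nat_lit 48290822820) (nat_lit 380) (nat_lit 11246039367) (nat_lit 76) (nat_lit 591311585) (nat_lit 122) (nat_lit 5) (nat_lit 127) (nat_lit 5) (nat_lit 123) (nat_lit 5) (nat_lit 464) (nat_lit 445) (nat_lit 291)) (XT.lf (nat_lit 0) (nat_lit 23494187483) (nat_lit 304) (nat_lit 35408041911) (nat_lit 380) (nat_lit 2935866383) (nat_lit 118) (nat_lit 5) (nat_lit 122) (nat_lit 5) (nat_lit 123) (nat_lit 5) (nat_lit 465) (nat_lit 445) (nat_lit 290))))) (XT.nd (nat_lit 312) (nat_lit 760) (nat_lit 0) (XT.nd (nat_lit 156) (nat_lit 304) (nat_lit 0) (XT.nd (nat_lit 78) (nat_lit 304) (nat_lit 0) (XT.lf (nat_lit 0) (nat_lit 6397648147) (nat_lit 380) (nat_lit 3367092607) (nat_lit 76) (nat_lit 53854161959) (nat_lit 117) (nat_lit 5) (nat_lit 122) (nat_lit 5) (nat_lit 118) (nat_lit 5) (nat_lit 466) (nat_lit 445) (nat_lit 289)) (XT.lf (nat_lit 0) (nat_lit 16912557953) (nat_lit 380) (nat_lit 31326965639)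 (nat_lit 76) (nat_lit 17206150925) (nat_lit 113) (nat_lit 5) (nat_lit 118) (nat_lit 5) (nat_lit 114) (nat_lit 5) (nat_lit 467) (nat_lit 445) (nat_lit 288))) (XT.nd (nat_lit 78) (nat_lit 0) (nat_lit 0) (XT.lf (nat_lit 0) (nat_lit 6272816542) (nat_lit 304) (nat_lit 21995030908) (nat_lit 380) (nat_lit 39080205906) (nat_lit 109) (nat_lit 5) (nat_lit 113) (nat_lit 5) (nat_lit 114) (nat_lit 5) (nat_lit 468) (nat_lit 445) (nat_lit 287)) (XT.lf (nat_lit 0) (nat_lit 40815663314) (nat_lit 380) (nat_lit 22576102344) (nat_lit 76) (nat_lit 5922547533) (nat_lit 109) (nat_lit 5) (nat_lit 114) (nat_lit 5) (nat_lit 110) (nat_lit 5) (nat_lit 469) (nat_lit 445) (nat_lit 286)))) (XT.nd (nat_lit 156) (nat_lit 532) (nat_lit 0) (XT.nd (nat_lit 78) (nat_lit 0) (nat_lit 0) (XT.lf (nat_lit 0) (nat_lit 18063918913) (nat_lit 228) (nat_lit 36568309661) (nat_lit 304) (nat_lit 16714589653) (nat_lit 106) (nat_lit 5) (nat_lit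 109) (nat_lit 5) (nat_lit 110) (nat_lit 5) (nat_lit 470) (nat_lit 445) (nat_lit 285)) (XT.lf (nat_lit 0) (nat_lit 61518105329) (nat_lit 228) (nat_lit 8002643752) (nat_lit 304) (nat_lit 3941143222) (nat_lit 106) (nat_lit 5) (nat_lit 109) (nat_lit 5) (nat_lit 110) (nat_lit 5) (nat_lit 471) (nat_lit 445) (nat_lit 284))) (XT.nd (nat_lit 78) (nat_lit 228) (nat_lit 0) (XT.lf (nat_lit 0) (nat_lit 10025761997) (nat_lit 304) (nat_lit 43656008683) (nat_lit 76) (nat_lit 21950660258) (nat_lit 102) (nat_lit 5) (nat_lit 106) (nat_lit 5) (nat_lit 103) (nat_lit 5) (nat_lit 472) (nat_lit 445) (nat_lit 283)) (XT.lf (nat_lit 0) (nat_lit 418588665) (nat_lit 228) (nat_lit 24482144721) (nat_lit 304) (nat_lit 52990424332) (nat_lit 99) (nat_lit 5) (nat_lit 102) (nat_lit 5) (nat_lit 103) (nat_lit 5) (nat_lit 473) (nat_lit 445) (nat_lit 282)))))) (XT.nd (nat_lit 624) (nat_lit 912) (nat_lit 0) (XT.nd (nat_lit 312) (nat_lit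 456) (nat_lit 0) (XT.nd (nat_lit 156) (nat_lit 228) (nat_lit 0) (XT.nd (nat_lit 78) (nat_lit 228) (nat_lit 0) (XT.lf (nat_lit 0) (nat_lit 41366232383) (nat_lit 304) (nat_lit 32123503964) (nat_lit 76) (nat_lit 6730745649) (nat_lit 99) (nat_lit 5) (nat_lit 103) (nat_lit 5) (nat_lit 100) (nat_lit 5) (nat_lit 474) (nat_lit 445) (nat_lit 281)) (XT.lf (nat_lit 0) (nat_lit 15589056751) (nat_lit 228) (nat_lit 43709614264) (nat_lit 304) (nat_lit 23335418343) (nat_lit 96) (nat_lit 5) (nat_lit 99) (nat_lit 5) (nat_lit 100) (nat_lit 5) (nat_lit 475) (nat_lit 445) (nat_lit 280))) (XT.nd (nat_lit 78) (nat_lit 228) (nat_lit 0) (XT.lf (nat_lit 0) (nat_lit 66800967990) (nat_lit 228) (nat_lit 11869746918) (nat_lit 304) (nat_lit 6470513115) (nat_lit 96) (nat_lit 5) (nat_lit 99) (nat_lit 5) (nat_lit 100) (nat_lit 5) (nat_lit 476) (nat_lit 445) (nat_lit 279)) (XT.lf (nat_lit 0) (nat_lit 11751266190) (nat_lit 228)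 (nat_lit 54385368567) (nat_lit 76) (nat_lit 21584651234) (nat_lit 93) (nat_lit 5) (nat_lit 96) (nat_lit 5) (nat_lit 94) (nat_lit 5) (nat_lit 477) (nat_lit 445) (nat_lit 278)))) (XT.nd (nat_lit 156) (nat_lit 228) (nat_lit 0) (XT.nd (nat_lit 78) (nat_lit 228) (nat_lit 0) (XT.lf (nat_lit 0) (nat_lit 31175968981) (nat_lit 228) (nat_lit 2489443685) (nat_lit 76) (nat_lit 56734166271) (nat_lit 93) (nat_lit 5) (nat_lit 96) (nat_lit 5) (nat_lit 94) (nat_lit 5) (nat_lit 478) (nat_lit 445) (nat_lit 277)) (XT.lf (nat_lit 0) (nat_lit 52430113694) (nat_lit 304) (nat_lit 39471156145) (nat_lit 76) (nat_lit 1267606434) (nat_lit 90) (nat_lit 5) (nat_lit 94) (nat_lit 5) (nat_lit 91) (nat_lit 5) (nat_lit 479) (nat_lit 445) (nat_lit 276))) (XT.nd (nat_lit 78) (nat_lit 76) (nat_lit 0) (XT.lf (nat_lit 0) (nat_lit 16686163227) (nat_lit 152) (nat_lit 58915132941) (nat_lit 228) (nat_lit 20432625860) (nat_lit 88) (nat_lit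 5) (nat_lit 90) (nat_lit 5) (nat_lit 91) (nat_lit 5) (nat_lit 480) (nat_lit 445) (nat_lit 275)) (XT.lf (nat_lit 0) (nat_lit 1538868176) (nat_lit 228) (nat_lit 22013395984) (nat_lit 76) (nat_lit 75455337224) (nat_lit 87) (nat_lit 5) (nat_lit 90) (nat_lit 5) (nat_lit 88) (nat_lit 5) (nat_lit 481) (nat_lit 445) (nat_lit 274))))) (XT.nd (nat_lit 312) (nat_lit 380) (nat_lit 0) (XT.nd (nat_lit 156) (nat_lit 304) (nat_lit 0) (XT.nd (nat_lit 78) (nat_lit 0) (nat_lit 0) (XT.lf (nat_lit 0) (nat_lit 24759386437) (nat_lit 304) (nat_lit 63207361417) (nat_lit 76) (nat_lit 14104612883) (nat_lit 84) (nat_lit 5) (nat_lit 88) (nat_lit 5) (nat_lit 85) (nat_lit 5) (nat_lit 482) (nat_lit 445) (nat_lit 273)) (XT.lf (nat_lit 0) (nat_lit 49905085556) (nat_lit 304) (nat_lit 2113766859) (nat_lit 76) (nat_lit 53231247959) (nat_lit 84) (nat_lit 5) (nat_lit 88) (nat_lit 5) (nat_lit 85) (nat_lit 5) (nat_lit 483) (nat_lit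 445) (nat_lit 272))) (XT.nd (nat_lit 78) (nat_lit 152) (nat_lit 0) (XT.lf (nat_lit 0) (nat_lit 64084266373) (nat_lit 152) (nat_lit 13223512675) (nat_lit 228) (nat_lit 31230012537) (nat_lit 82) (nat_lit 5) (nat_lit 84) (nat_lit 5) (nat_lit 85) (nat_lit 5) (nat_lit 484) (nat_lit 445) (nat_lit 271)) (XT.lf (nat_lit 0) (nat_lit 21948530462) (nat_lit 152) (nat_lit 84939857652) (nat_lit 228) (nat_lit 5061090255) (nat_lit 80) (nat_lit 5) (nat_lit 82) (nat_lit 5) (nat_lit 83) (nat_lit 5) (nat_lit 485) (nat_lit 445) (nat_lit 270)))) (XT.nd (nat_lit 156) (nat_lit 152) (nat_lit 0) (XT.nd (nat_lit 78) (nat_lit 152) (nat_lit 0) (XT.lf (nat_lit 0) (nat_lit 22679969975) (nat_lit 228) (nat_lit 22860547684) (nat_lit 76) (nat_lit 69924675204) (nat_lit 79) (nat_lit 5) (nat_lit 82) (nat_lit 5) (nat_lit 80) (nat_lit 5) (nat_lit 486) (nat_lit 445) (nat_lit 269)) (XT.lf (nat_lit 0) (nat_lit 49124918776) (nat_lit 152)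 (nat_lit 3279285037) (nat_lit 228) (nat_lit 66710030564) (nat_lit 77) (nat_lit 5) (nat_lit 79) (nat_lit 5) (nat_lit 80) (nat_lit 5) (nat_lit 487) (nat_lit 445) (nat_lit 268))) (XT.nd (nat_lit 78) (nat_lit 0) (nat_lit 0) (XT.lf (nat_lit 0) (nat_lit 1991440160) (nat_lit 152) (nat_lit 82688648294) (nat_lit 228) (nat_lit 38212367606) (nat_lit 75) (nat_lit 5) (nat_lit 77) (nat_lit 5) (nat_lit 78) (nat_lit 5) (nat_lit 488) (nat_lit 445) (nat_lit 267)) (XT.lf (nat_lit 0) (nat_lit 79944291154) (nat_lit 152) (nat_lit 39862924808) (nat_lit 228) (nat_lit 6990500478) (nat_lit 75) (nat_lit 5) (nat_lit 77) (nat_lit 5) (nat_lit 78) (nat_lit 5) (nat_lit 489) (nat_lit 445) (nat_lit 266))))))) (XT.nd (nat_lit 1170) (nat_lit 1216) (nat_lit 0) (XT.nd (nat_lit 546) (nat_lit 684) (nat_lit 0) (XT.nd (nat_lit 234) (nat_lit 304) (nat_lit 0) (XT.nd (nat_lit 78) (nat_lit 152) (nat_lit 0) (XT.lf (nat_lit 0) (nat_lit 25552379436)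 (nat_lit 228) (nat_lit 99447060246) (nat_lit 76) (nat_lit 5849393610) (nat_lit 72) (nat_lit 5) (nat_lit 75) (nat_lit 5) (nat_lit 73) (nat_lit 5) (nat_lit 490) (nat_lit 445) (nat_lit 265)) (XT.nd (nat_lit 78) (nat_lit 152) (nat_lit 0) (XT.lf (nat_lit 0) (nat_lit 60946745815) (nat_lit 228) (nat_lit 20648799913) (nat_lit 76) (nat_lit 53428266922) (nat_lit 72) (nat_lit 5) (nat_lit 75) (nat_lit 5) (nat_lit 73) (nat_lit 5) (nat_lit 491) (nat_lit 445) (nat_lit 264)) (XT.lf (nat_lit 0) (nat_lit 64141100920) (nat_lit 152) (nat_lit 34970471139) (nat_lit 228) (nat_lit 40245931878) (nat_lit 70) (nat_lit 5) (nat_lit 72) (nat_lit 5) (nat_lit 73) (nat_lit 5) (nat_lit 492) (nat_lit 445) (nat_lit 263)))) (XT.nd (nat_lit 156) (nat_lit 152) (nat_lit 0) (XT.nd (nat_lit 78) (nat_lit 76) (nat_lit 0) (XT.lf (nat_lit 0) (nat_lit 10094792136) (nat_lit 76) (nat_lit 129820569590) (nat_lit 152) (nat_lit 3955981994) (nat_lit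 69) (nat_lit 5) (nat_lit 70) (nat_lit 5) (nat_lit 71) (nat_lit 4) (nat_lit 493) (nat_lit 445) (nat_lit 262)) (XT.lf (nat_lit 0) (nat_lit 34922824647) (nat_lit 152) (nat_lit 47392813155) (nat_lit 76) (nat_lit 66175213888) (nat_lit 68) (nat_lit 5) (nat_lit 70) (nat_lit 5) (nat_lit 69) (nat_lit 5) (nat_lit 494) (nat_lit 445) (nat_lit 261))) (XT.nd (nat_lit 78) (nat_lit 0) (nat_lit 0) (XT.lf (nat_lit 0) (nat_lit 44673965308) (nat_lit 152) (nat_lit 31635505581) (nat_lit 228) (nat_lit 76993779284) (nat_lit 66) (nat_lit 5) (nat_lit 68) (nat_lit 5) (nat_lit 69) (nat_lit 5) (nat_lit 495) (nat_lit 445) (nat_lit 260)) (XT.lf (nat_lit 0) (nat_lit 120917495920) (nat_lit 228) (nat_lit 15677889899) (nat_lit 76) (nat_lit 21703280465) (nat_lit 66) (nat_lit 5) (nat_lit 69) (nat_lit 5) (nat_lit 67) (nat_lit 4) (nat_lit 496) (nat_lit 445) (nat_lit 259))))) (XT.nd (nat_lit 312) (nat_lit 304) (nat_lit 0) (XT.nd (nat_lit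 156) (nat_lit 76) (nat_lit 0) (XT.nd (nat_lit 78) (nat_lit 152) (nat_lit 0) (XT.lf (nat_lit 0) (nat_lit 5938207765) (nat_lit 152) (nat_lit 79455218413) (nat_lit 76) (nat_lit 78054091377) (nat_lit 64) (nat_lit 5) (nat_lit 66) (nat_lit 5) (nat_lit 65) (nat_lit 5) (nat_lit 497) (nat_lit 445) (nat_lit 258)) (XT.lf (nat_lit 0) (nat_lit 20383923326) (nat_lit 152) (nat_lit 30370892605) (nat_lit 228) (nat_lit 118038979500) (nat_lit 62) (nat_lit 5) (nat_lit 64) (nat_lit 5) (nat_lit 65) (nat_lit 5) (nat_lit 498) (nat_lit 445) (nat_lit 257))) (XT.nd (nat_lit 78) (nat_lit 76) (nat_lit 0) (XT.lf (nat_lit 0) (nat_lit 99607162665) (nat_lit 228) (nat_lit 46817569775) (nat_lit 76) (nat_lit 27892909379) (nat_lit 62) (nat_lit 5) (nat_lit 65) (nat_lit 5) (nat_lit 63) (nat_lit 4) (nat_lit 499) (nat_lit 445) (nat_lit 256)) (XT.lf (nat_lit 0) (nat_lit 61317976762) (nat_lit 76) (nat_lit 91038809743) (nat_lit 152) (nat_lit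 27688161055) (nat_lit 61) (nat_lit 5) (nat_lit 62) (nat_lit 5) (nat_lit 63) (nat_lit 4) (nat_lit 500) (nat_lit 445) (nat_lit 255)))) (XT.nd (nat_lit 156) (nat_lit 76) (nat_lit 0) (XT.nd (nat_lit 78) (nat_lit 152) (nat_lit 0) (XT.lf (nat_lit 0) (nat_lit 21796517685) (nat_lit 152) (nat_lit 9885887166) (nat_lit 76) (nat_lit 154319019920) (nat_lit 60) (nat_lit 5) (nat_lit 62) (nat_lit 5) (nat_lit 61) (nat_lit 5) (nat_lit 501) (nat_lit 445) (nat_lit 254)) (XT.lf (nat_lit 0) (nat_lit 75014197830) (nat_lit 228) (nat_lit 85283403042) (nat_lit 76) (nat_lit 31825966214) (nat_lit 58) (nat_lit 5) (nat_lit 61) (nat_lit 5) (nat_lit 59) (nat_lit 4) (nat_lit 502) (nat_lit 445) (nat_lit 253))) (XT.nd (nat_lit 78) (nat_lit 0) (nat_lit 0) (XT.lf (nat_lit 0) (nat_lit 31693550298) (nat_lit 76) (nat_lit 100383050484) (nat_lit 152) (nat_lit 66416023814) (nat_lit 57) (nat_lit 5) (nat_lit 58) (nat_lit 5) (nat_lit 59)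 (nat_lit 4) (nat_lit 503) (nat_lit 445) (nat_lit 252)) (XT.lf (nat_lit 0) (nat_lit 157479213609) (nat_lit 76) (nat_lit 35956699223) (nat_lit 152) (nat_lit 11672032720) (nat_lit 57) (nat_lit 5) (nat_lit 58) (nat_lit 5) (nat_lit 59) (nat_lit 4) (nat_lit 504) (nat_lit 445) (nat_lit 251)))))) (XT.nd (nat_lit 624) (nat_lit 532) (nat_lit 0) (XT.nd (nat_lit 312) (nat_lit 228) (nat_lit 0) (XT.nd (nat_lit 156) (nat_lit 228) (nat_lit 0) (XT.nd (nat_lit 78) (nat_lit 0) (nat_lit 0) (XT.lf (nat_lit 0) (nat_lit 46107725029) (nat_lit 228) (nat_lit 133160392237) (nat_lit 76) (nat_lit 32661917528) (nat_lit 54) (nat_lit 5) (nat_lit 57) (nat_lit 5) (nat_lit 55) (nat_lit 4) (nat_lit 505) (nat_lit 445) (nat_lit 250)) (XT.lf (nat_lit 0) (nat_lit 107792999596) (nat_lit 228) (nat_lit 6706379626) (nat_lit 76) (nat_lit 104513842763) (nat_lit 54) (nat_lit 5) (nat_lit 57) (nat_lit 5) (nat_lit 55) (nat_lit 4) (nat_lit 506)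 (nat_lit 445) (nat_lit 249))) (XT.nd (nat_lit 78) (nat_lit 152) (nat_lit 0) (XT.lf (nat_lit 0) (nat_lit 130237846015) (nat_lit 76) (nat_lit 44357586647) (nat_lit 152) (nat_lit 51753491150) (nat_lit 53) (nat_lit 5) (nat_lit 54) (nat_lit 5) (nat_lit 55) (nat_lit 4) (nat_lit 507) (nat_lit 445) (nat_lit 248)) (XT.lf (nat_lit 0) (nat_lit 11577939692) (nat_lit 152) (nat_lit 193106668198) (nat_lit 76) (nat_lit 29296790473) (nat_lit 51) (nat_lit 5) (nat_lit 53) (nat_lit 5) (nat_lit 52) (nat_lit 4) (nat_lit 508) (nat_lit 445) (nat_lit 247)))) (XT.nd (nat_lit 156) (nat_lit 152) (nat_lit 0) (XT.nd (nat_lit 78) (nat_lit 76) (nat_lit 0) (XT.lf (nat_lit 0) (nat_lit 78717750447) (nat_lit 152) (nat_lit 55470714518) (nat_lit 76) (nat_lit 107645557541) (nat_lit 51) (nat_lit 5) (nat_lit 53) (nat_lit 5) (nat_lit 52) (nat_lit 4) (nat_lit 509) (nat_lit 445) (nat_lit 246)) (XT.lf (nat_lit 0) (nat_lit 91990433258) (nat_lit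 76) (nat_lit 58659890260) (nat_lit 152) (nat_lit 99357165763) (nat_lit 50) (nat_lit 5) (nat_lit 51) (nat_lit 5) (nat_lit 52) (nat_lit 4) (nat_lit 510) (nat_lit 445) (nat_lit 245))) (XT.nd (nat_lit 78) (nat_lit 152) (nat_lit 0) (XT.lf (nat_lit 0) (nat_lit 227456222362) (nat_lit 152) (nat_lit 10130804221) (nat_lit 0) (nat_lit 20938767967) (nat_lit 50) (nat_lit 5) (nat_lit 52) (nat_lit 4) (nat_lit 50) (nat_lit 4) (nat_lit 511) (nat_lit 445) (nat_lit 244)) (XT.lf (nat_lit 0) (nat_lit 42672598456) (nat_lit 152) (nat_lit 119039169201) (nat_lit 76) (nat_lit 105559493755) (nat_lit 48) (nat_lit 5) (nat_lit 50) (nat_lit 5) (nat_lit 49) (nat_lit 4) (nat_lit 512) (nat_lit 445) (nat_lit 243))))) (XT.nd (nat_lit 312) (nat_lit 304) (nat_lit 0) (XT.nd (nat_lit 156) (nat_lit 152) (nat_lit 0) (XT.nd (nat_lit 78) (nat_lit 0) (nat_lit 0) (XT.lf (nat_lit 0) (nat_lit 39159804244) (nat_lit 76) (nat_lit 80683276795)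 (nat_lit 152) (nat_lit 156546186487) (nat_lit 47) (nat_lit 5) (nat_lit 48) (nat_lit 5) (nat_lit 49) (nat_lit 4) (nat_lit 513) (nat_lit 445) (nat_lit 242)) (XT.lf (nat_lit 0) (nat_lit 202989335874) (nat_lit 152) (nat_lit 76563404727) (nat_lit 0) (nat_lit 6304570948) (nat_lit 47) (nat_lit 5) (nat_lit 49) (nat_lit 4) (nat_lit 47) (nat_lit 4) (nat_lit 514) (nat_lit 445) (nat_lit 241))) (XT.nd (nat_lit 78) (nat_lit 76) (nat_lit 0) (XT.lf (nat_lit 0) (nat_lit 93815155918) (nat_lit 76) (nat_lit 199264731599) (nat_lit 76) (nat_lit 2579521063) (nat_lit 46) (nat_lit 4) (nat_lit 47) (nat_lit 5) (nat_lit 47) (nat_lit 4) (nat_lit 515) (nat_lit 445) (nat_lit 240)) (XT.lf (nat_lit 0) (nat_lit 80425183780) (nat_lit 152) (nat_lit 31814008175) (nat_lit 76) (nat_lit 193582747719) (nat_lit 45) (nat_lit 5) (nat_lit 47) (nat_lit 5) (nat_lit 46) (nat_lit 4) (nat_lit 516) (nat_lit 445) (nat_lit 239)))) (XT.nd (nat_lit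 156) (nat_lit 152) (nat_lit 0) (XT.nd (nat_lit 78) (nat_lit 76) (nat_lit 0) (XT.lf (nat_lit 0) (nat_lit 151524431529) (nat_lit 76) (nat_lit 18334334635) (nat_lit 152) (nat_lit 146513450251) (nat_lit 44) (nat_lit 5) (nat_lit 45) (nat_lit 5) (nat_lit 46) (nat_lit 4) (nat_lit 517) (nat_lit 445) (nat_lit 238)) (XT.lf (nat_lit 0) (nat_lit 16992331522) (nat_lit 76) (nat_lit 248837397140) (nat_lit 76) (nat_lit 61516993289) (nat_lit 43) (nat_lit 4) (nat_lit 44) (nat_lit 5) (nat_lit 44) (nat_lit 4) (nat_lit 518) (nat_lit 445) (nat_lit 237))) (XT.nd (nat_lit 78) (nat_lit 76) (nat_lit 0) (XT.lf (nat_lit 0) (nat_lit 29979494819) (nat_lit 152) (nat_lit 125862788616) (nat_lit 76) (nat_lit 182849136808) (nat_lit 42) (nat_lit 5) (nat_lit 44) (nat_lit 5) (nat_lit 43) (nat_lit 4) (nat_lit 519) (nat_lit 445) (nat_lit 236)) (XT.lf (nat_lit 0) (nat_lit 69054365373) (nat_lit 76) (nat_lit 56006830183) (nat_lit 152)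 (nat_lit 225437846008) (nat_lit 41) (nat_lit 5) (nat_lit 42) (nat_lit 5) (nat_lit 43) (nat_lit 4) (nat_lit 520) (nat_lit 445) (nat_lit 235))))))))
noncomputable def xc187 : XT := (XT.nd (nat_lit 57018) (nat_lit 0) (nat_lit 4940) (XT.nd (nat_lit 1170) (nat_lit 532) (nat_lit 0) (XT.nd (nat_lit 546) (nat_lit 456) (nat_lit 0) (XT.nd (nat_lit 234) (nat_lit 304) (nat_lit 0) (XT.nd (nat_lit 78) (nat_lit 152) (nat_lit 0) (XT.lf (nat_lit 0) (nat_lit 227825326609) (nat_lit 152) (nat_lit 85501308909) (nat_lit 0) (nat_lit 49423991175) (nat_lit 41) (nat_lit 5) (nat_lit 43) (nat_lit 4) (nat_lit 41) (nat_lit 4) (nat_lit 521) (nat_lit 445) (nat_lit 234)) (XT.nd (nat_lit 78) (nat_lit 76) (nat_lit 0) (XT.lf (nat_lit 0) (nat_lit 123265662902) (nat_lit 76) (nat_lit 215304317524) (nat_lit 76) (nat_lit 36902694846) (nat_lit 40) (nat_lit 4) (nat_lit 41) (nat_lit 5) (nat_lit 41) (nat_lit 4) (nat_lit 522) (nat_lit 445)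 (nat_lit 233)) (XT.lf (nat_lit 0) (nat_lit 65379348346) (nat_lit 152) (nat_lit 44374232133) (nat_lit 76) (nat_lit 278952137470) (nat_lit 39) (nat_lit 5) (nat_lit 41) (nat_lit 5) (nat_lit 40) (nat_lit 4) (nat_lit 523) (nat_lit 445) (nat_lit 232)))) (XT.nd (nat_lit 156) (nat_lit 228) (nat_lit 0) (XT.nd (nat_lit 78) (nat_lit 0) (nat_lit 0) (XT.lf (nat_lit 0) (nat_lit 174401753527) (nat_lit 152) (nat_lit 223530151965) (nat_lit 0) (nat_lit 4494937543) (nat_lit 38) (nat_lit 5) (nat_lit 40) (nat_lit 4) (nat_lit 38) (nat_lit 4) (nat_lit 524) (nat_lit 445) (nat_lit 231)) (XT.lf (nat_lit 0) (nat_lit 291438003709) (nat_lit 152) (nat_lit 3736933027) (nat_lit 0) (nat_lit 121530951408) (nat_lit 38) (nat_lit 5) (nat_lit 40) (nat_lit 4) (nat_lit 38) (nat_lit 4) (nat_lit 525) (nat_lit 445) (nat_lit 230))) (XT.nd (nat_lit 78) (nat_lit 152) (nat_lit 0) (XT.lf (nat_lit 0) (nat_lit 234552463352) (nat_lit 76) (nat_lit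 183435307160) (nat_lit 76) (nat_lit 13528029796) (nat_lit 37) (nat_lit 4) (nat_lit 38) (nat_lit 5) (nat_lit 38) (nat_lit 4) (nat_lit 526) (nat_lit 445) (nat_lit 229)) (XT.lf (nat_lit 0) (nat_lit 37397729139) (nat_lit 76) (nat_lit 63726768835) (nat_lit 152) (nat_lit 345828286046) (nat_lit 35) (nat_lit 5) (nat_lit 36) (nat_lit 5) (nat_lit 37) (nat_lit 4) (nat_lit 527) (nat_lit 445) (nat_lit 228))))) (XT.nd (nat_lit 312) (nat_lit 228) (nat_lit 0) (XT.nd (nat_lit 156) (nat_lit 152) (nat_lit 0) (XT.nd (nat_lit 78) (nat_lit 76) (nat_lit 0) (XT.lf (nat_lit 0) (nat_lit 225412539598) (nat_lit 152) (nat_lit 173924426470) (nat_lit 0) (nat_lit 63595686408) (nat_lit 35) (nat_lit 5) (nat_lit 37) (nat_lit 4) (nat_lit 35) (nat_lit 4) (nat_lit 528) (nat_lit 445) (nat_lit 227)) (XT.lf (nat_lit 0) (nat_lit 74837707992) (nat_lit 76) (nat_lit 283290101698) (nat_lit 76) (nat_lit 121473063348) (nat_lit 34) (nat_lit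 4) (nat_lit 35) (nat_lit 5) (nat_lit 35) (nat_lit 4) (nat_lit 529) (nat_lit 445) (nat_lit 226))) (XT.nd (nat_lit 78) (nat_lit 76) (nat_lit 0) (XT.lf (nat_lit 0) (nat_lit 3357773781) (nat_lit 152) (nat_lit 154933778440) (nat_lit 76) (nat_lit 338660984611) (nat_lit 33) (nat_lit 5) (nat_lit 35) (nat_lit 5) (nat_lit 34) (nat_lit 4) (nat_lit 530) (nat_lit 445) (nat_lit 225)) (XT.lf (nat_lit 0) (nat_lit 108879985235) (nat_lit 76) (nat_lit 23167511288) (nat_lit 152) (nat_lit 382939737449) (nat_lit 32) (nat_lit 5) (nat_lit 33) (nat_lit 5) (nat_lit 34) (nat_lit 4) (nat_lit 531) (nat_lit 445) (nat_lit 224)))) (XT.nd (nat_lit 156) (nat_lit 152) (nat_lit 0) (XT.nd (nat_lit 78) (nat_lit 76) (nat_lit 0) (XT.lf (nat_lit 0) (nat_lit 271691750793) (nat_lit 152) (nat_lit 144426107440) (nat_lit 0) (nat_lit 117579805472) (nat_lit 32) (nat_lit 5) (nat_lit 34) (nat_lit 4) (nat_lit 32) (nat_lit 4) (nat_lit 532) (nat_lit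 445) (nat_lit 223)) (XT.lf (nat_lit 0) (nat_lit 134255775495) (nat_lit 76) (nat_lit 286538074118) (nat_lit 76) (nat_lit 132425983719) (nat_lit 31) (nat_lit 4) (nat_lit 32) (nat_lit 5) (nat_lit 32) (nat_lit 4) (nat_lit 533) (nat_lit 445) (nat_lit 222))) (XT.nd (nat_lit 78) (nat_lit 76) (nat_lit 0) (XT.lf (nat_lit 0) (nat_lit 6002416156) (nat_lit 152) (nat_lit 141807275446) (nat_lit 76) (nat_lit 425781296270) (nat_lit 30) (nat_lit 5) (nat_lit 32) (nat_lit 5) (nat_lit 31) (nat_lit 4) (nat_lit 534) (nat_lit 445) (nat_lit 221)) (XT.lf (nat_lit 0) (nat_lit 149314117256) (nat_lit 152) (nat_lit 442896982951) (nat_lit 0) (nat_lit 2540440915) (nat_lit 29) (nat_lit 5) (nat_lit 31) (nat_lit 4) (nat_lit 29) (nat_lit 4) (nat_lit 535) (nat_lit 445) (nat_lit 220)))))) (XT.nd (nat_lit 624) (nat_lit 76) (nat_lit 0) (XT.nd (nat_lit 312) (nat_lit 228) (nat_lit 0) (XT.nd (nat_lit 156) (nat_lit 152) (nat_lit 0) (XT.nd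 (nat_lit 78) (nat_lit 76) (nat_lit 0) (XT.lf (nat_lit 0) (nat_lit 304655199277) (nat_lit 152) (nat_lit 154190329386) (nat_lit 0) (nat_lit 157881403579) (nat_lit 29) (nat_lit 5) (nat_lit 31) (nat_lit 4) (nat_lit 29) (nat_lit 4) (nat_lit 536) (nat_lit 445) (nat_lit 219)) (XT.lf (nat_lit 0) (nat_lit 153876161495) (nat_lit 76) (nat_lit 316289365605) (nat_lit 76) (nat_lit 169515456236) (nat_lit 28) (nat_lit 4) (nat_lit 29) (nat_lit 5) (nat_lit 29) (nat_lit 4) (nat_lit 537) (nat_lit 445) (nat_lit 218))) (XT.nd (nat_lit 78) (nat_lit 152) (nat_lit 0) (XT.lf (nat_lit 0) (nat_lit 482698631440) (nat_lit 76) (nat_lit 163863785448) (nat_lit 76) (nat_lit 17089767819) (nat_lit 28) (nat_lit 4) (nat_lit 29) (nat_lit 5) (nat_lit 29) (nat_lit 4) (nat_lit 538) (nat_lit 445) (nat_lit 217)) (XT.lf (nat_lit 0) (nat_lit 140602831032) (nat_lit 152) (nat_lit 547178505376) (nat_lit 0) (nat_lit 817954144) (nat_lit 26) (nat_lit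 5) (nat_lit 28) (nat_lit 4) (nat_lit 26) (nat_lit 4) (nat_lit 539) (nat_lit 445) (nat_lit 216)))) (XT.nd (nat_lit 156) (nat_lit 152) (nat_lit 0) (XT.nd (nat_lit 78) (nat_lit 76) (nat_lit 0) (XT.lf (nat_lit 0) (nat_lit 311406563218) (nat_lit 152) (nat_lit 231461546072) (nat_lit 0) (nat_lit 171621592811) (nat_lit 26) (nat_lit 5) (nat_lit 28) (nat_lit 4) (nat_lit 26) (nat_lit 4) (nat_lit 540) (nat_lit 445) (nat_lit 215)) (XT.lf (nat_lit 0) (nat_lit 103348614174) (nat_lit 76) (nat_lit 389015206302) (nat_lit 76) (nat_lit 249230146830) (nat_lit 25) (nat_lit 4) (nat_lit 26) (nat_lit 5) (nat_lit 26) (nat_lit 4) (nat_lit 541) (nat_lit 445) (nat_lit 214))) (XT.nd (nat_lit 78) (nat_lit 152) (nat_lit 0) (XT.lf (nat_lit 0) (nat_lit 462934663787) (nat_lit 76) (nat_lit 223353970792) (nat_lit 76) (nat_lit 83568826495) (nat_lit 25) (nat_lit 4) (nat_lit 26) (nat_lit 5) (nat_lit 26) (nat_lit 4) (nat_lit 542) (nat_lit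 445) (nat_lit 213)) (XT.lf (nat_lit 0) (nat_lit 40862292225) (nat_lit 76) (nat_lit 47258447924) (nat_lit 152) (nat_lit 711310950465) (nat_lit 23) (nat_lit 5) (nat_lit 24) (nat_lit 5) (nat_lit 25) (nat_lit 4) (nat_lit 543) (nat_lit 445) (nat_lit 212))))) (XT.nd (nat_lit 54912) (nat_lit 0) (nat_lit 9500) (XT.nd (nat_lit 156) (nat_lit 76) (nat_lit 0) (XT.nd (nat_lit 78) (nat_lit 0) (nat_lit 0) (XT.lf (nat_lit 0) (nat_lit 273018184901) (nat_lit 152) (nat_lit 417137028841) (nat_lit 0) (nat_lit 139889325835) (nat_lit 23) (nat_lit 5) (nat_lit 25) (nat_lit 4) (nat_lit 23) (nat_lit 4) (nat_lit 544) (nat_lit 445) (nat_lit 211)) (XT.lf (nat_lit 0) (nat_lit 467935028611) (nat_lit 152) (nat_lit 59408176281) (nat_lit 0) (nat_lit 334806099761) (nat_lit 23) (nat_lit 5) (nat_lit 25) (nat_lit 4) (nat_lit 23) (nat_lit 4) (nat_lit 545) (nat_lit 445) (nat_lit 210))) (XT.nd (nat_lit 54678) (nat_lit 0) (nat_lit 9500)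 (XT.lf (nat_lit 0) (nat_lit 326661954039) (nat_lit 76) (nat_lit 351035676722) (nat_lit 76) (nat_lit 217906681410) (nat_lit 22) (nat_lit 4) (nat_lit 23) (nat_lit 5) (nat_lit 23) (nat_lit 4) (nat_lit 546) (nat_lit 445) (nat_lit 209)) (XT.lf (nat_lit 0) (nat_lit 7663730994) (nat_lit 836) (nat_lit 5751766449) (nat_lit 836) (nat_lit 5751766449) (nat_lit 147) (nat_lit 3) (nat_lit 158) (nat_lit 3) (nat_lit 158) (nat_lit 5) (nat_lit 446) (nat_lit 446) (nat_lit 308)))) (XT.nd (nat_lit 156) (nat_lit 0) (nat_lit 76) (XT.nd (nat_lit 78) (nat_lit 0) (nat_lit 76) (XT.lf (nat_lit 76) (nat_lit 7756808742) (nat_lit 0) (nat_lit 8118757137) (nat_lit 836) (nat_lit 23409072456) (nat_lit 148) (nat_lit 5) (nat_lit 147) (nat_lit 3) (nat_lit 158) (nat_lit 5) (nat_lit 447) (nat_lit 446) (nat_lit 307)) (XT.lf (nat_lit 0) (nat_lit 16826280192) (nat_lit 760) (nat_lit 12077848072) (nat_lit 836) (nat_lit 11359366322) (nat_lit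 148) (nat_lit 5) (nat_lit 158) (nat_lit 5) (nat_lit 159) (nat_lit 5) (nat_lit 448) (nat_lit 446) (nat_lit 306))) (XT.nd (nat_lit 78) (nat_lit 0) (nat_lit 76) (XT.lf (nat_lit 76) (nat_lit 8481392311) (nat_lit 0) (nat_lit 9605976449) (nat_lit 836) (nat_lit 23190783375) (nat_lit 149) (nat_lit 5) (nat_lit 148) (nat_lit 5) (nat_lit 159) (nat_lit 5) (nat_lit 449) (nat_lit 446) (nat_lit 305)) (XT.lf (nat_lit 0) (nat_lit 19783240160) (nat_lit 760) (nat_lit 12016867120) (nat_lit 836) (nat_lit 10524849255) (nat_lit 149) (nat_lit 5) (nat_lit 159) (nat_lit 5) (nat_lit 160) (nat_lit 5) (nat_lit 450) (nat_lit 446) (nat_lit 304))))))) (XT.nd (nat_lit 1248) (nat_lit 2356) (nat_lit 0) (XT.nd (nat_lit 624) (nat_lit 1824) (nat_lit 0) (XT.nd (nat_lit 312) (nat_lit 532) (nat_lit 0) (XT.nd (nat_lit 156) (nat_lit 0) (nat_lit 76) (XT.nd (nat_lit 78) (nat_lit 0) (nat_lit 76) (XT.lf (nat_lit 76) (nat_lit 9961743211) (nat_lit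 0) (nat_lit 11912733469) (nat_lit 836) (nat_lit 21534096273) (nat_lit 150) (nat_lit 5) (nat_lit 149) (nat_lit 5) (nat_lit 160) (nat_lit 5) (nat_lit 451) (nat_lit 446) (nat_lit 303)) (XT.lf (nat_lit 0) (nat_lit 24414822023) (nat_lit 760) (nat_lit 11224822144) (nat_lit 836) (nat_lit 8889499032) (nat_lit 150) (nat_lit 5) (nat_lit 160) (nat_lit 5) (nat_lit 161) (nat_lit 5) (nat_lit 452) (nat_lit 446) (nat_lit 302))) (XT.nd (nat_lit 78) (nat_lit 0) (nat_lit 76) (XT.lf (nat_lit 76) (nat_lit 12305178189) (nat_lit 0) (nat_lit 15162194440) (nat_lit 836) (nat_lit 18219110267) (nat_lit 151) (nat_lit 5) (nat_lit 150) (nat_lit 5) (nat_lit 161) (nat_lit 5) (nat_lit 453) (nat_lit 446) (nat_lit 301)) (XT.lf (nat_lit 0) (nat_lit 30962603640) (nat_lit 760) (nat_lit 9594641588) (nat_lit 836) (nat_lit 6329942031) (nat_lit 151) (nat_lit 5) (nat_lit 161) (nat_lit 5) (nat_lit 162) (nat_lit 5) (nat_lit 454) (nat_lit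 446) (nat_lit 300)))) (XT.nd (nat_lit 156) (nat_lit 684) (nat_lit 0) (XT.nd (nat_lit 78) (nat_lit 0) (nat_lit 76) (XT.lf (nat_lit 76) (nat_lit 15631432821) (nat_lit 0) (nat_lit 19491743153) (nat_lit 836) (nat_lit 13000222185) (nat_lit 152) (nat_lit 5) (nat_lit 151) (nat_lit 5) (nat_lit 162) (nat_lit 5) (nat_lit 455) (nat_lit 446) (nat_lit 299)) (XT.lf (nat_lit 0) (nat_lit 39695990876) (nat_lit 760) (nat_lit 7006800250) (nat_lit 76) (nat_lit 2708418075) (nat_lit 152) (nat_lit 5) (nat_lit 162) (nat_lit 5) (nat_lit 153) (nat_lit 5) (nat_lit 456) (nat_lit 446) (nat_lit 298))) (XT.nd (nat_lit 78) (nat_lit 0) (nat_lit 0) (XT.lf (nat_lit 0) (nat_lit 20073918751) (nat_lit 760) (nat_lit 25054612692) (nat_lit 836) (nat_lit 5603325385) (nat_lit 142) (nat_lit 5) (nat_lit 152) (nat_lit 5) (nat_lit 153) (nat_lit 5) (nat_lit 457) (nat_lit 446) (nat_lit 297)) (XT.lf (nat_lit 0) (nat_lit 48750302401) (nat_lit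 760) (nat_lit 2199261402) (nat_lit 836) (nat_lit 1163130062) (nat_lit 142) (nat_lit 5) (nat_lit 152) (nat_lit 5) (nat_lit 153) (nat_lit 5) (nat_lit 458) (nat_lit 446) (nat_lit 296))))) (XT.nd (nat_lit 312) (nat_lit 608) (nat_lit 0) (XT.nd (nat_lit 156) (nat_lit 380) (nat_lit 0) (XT.nd (nat_lit 78) (nat_lit 380) (nat_lit 0) (XT.lf (nat_lit 0) (nat_lit 4140378376) (nat_lit 456) (nat_lit 27811190697) (nat_lit 76) (nat_lit 21570607624) (nat_lit 136) (nat_lit 5) (nat_lit 142) (nat_lit 5) (nat_lit 137) (nat_lit 5) (nat_lit 459) (nat_lit 446) (nat_lit 295)) (XT.lf (nat_lit 0) (nat_lit 1340663796) (nat_lit 380) (nat_lit 8442490089) (nat_lit 456) (nat_lit 45212367607) (nat_lit 131) (nat_lit 5) (nat_lit 136) (nat_lit 5) (nat_lit 137) (nat_lit 5) (nat_lit 460) (nat_lit 446) (nat_lit 294))) (XT.nd (nat_lit 78) (nat_lit 380) (nat_lit 0) (XT.lf (nat_lit 0) (nat_lit 16438741562) (nat_lit 456) (nat_lit 23866362017)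 (nat_lit 76) (nat_lit 16200896499) (nat_lit 131) (nat_lit 5) (nat_lit 137) (nat_lit 5) (nat_lit 132) (nat_lit 5) (nat_lit 461) (nat_lit 446) (nat_lit 293)) (XT.lf (nat_lit 0) (nat_lit 7511942234) (nat_lit 380) (nat_lit 16169300208) (nat_lit 456) (nat_lit 34398053667) (nat_lit 126) (nat_lit 5) (nat_lit 131) (nat_lit 5) (nat_lit 132) (nat_lit 5) (nat_lit 462) (nat_lit 446) (nat_lit 292)))) (XT.nd (nat_lit 156) (nat_lit 304) (nat_lit 0) (XT.nd (nat_lit 78) (nat_lit 304) (nat_lit 0) (XT.lf (nat_lit 0) (nat_lit 31838400244) (nat_lit 456) (nat_lit 18574837243) (nat_lit 76) (nat_lit 9290393061) (nat_lit 126) (nat_lit 5) (nat_lit 132) (nat_lit 5) (nat_lit 127) (nat_lit 5) (nat_lit 463) (nat_lit 446) (nat_lit 291)) (XT.lf (nat_lit 0) (nat_lit 15238346742) (nat_lit 304) (nat_lit 25666621207) (nat_lit 380) (nat_lit 20479136348) (nat_lit 122) (nat_lit 5) (nat_lit 126) (nat_lit 5) (nat_lit 127) (nat_lit 5)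 (nat_lit 464) (nat_lit 446) (nat_lit 290))) (XT.nd (nat_lit 78) (nat_lit 304) (nat_lit 0) (XT.lf (nat_lit 0) (nat_lit 50748157798) (nat_lit 380) (nat_lit 11757568814) (nat_lit 76) (nat_lit 626710613) (nat_lit 122) (nat_lit 5) (nat_lit 127) (nat_lit 5) (nat_lit 123) (nat_lit 5) (nat_lit 465) (nat_lit 446) (nat_lit 289)) (XT.lf (nat_lit 0) (nat_lit 24718850466) (nat_lit 304) (nat_lit 37170026348) (nat_lit 380) (nat_lit 3039041675) (nat_lit 118) (nat_lit 5) (nat_lit 122) (nat_lit 5) (nat_lit 123) (nat_lit 5) (nat_lit 466) (nat_lit 446) (nat_lit 288)))))) (XT.nd (nat_lit 624) (nat_lit 912) (nat_lit 0) (XT.nd (nat_lit 312) (nat_lit 760) (nat_lit 0) (XT.nd (nat_lit 156) (nat_lit 304) (nat_lit 0) (XT.nd (nat_lit 78) (nat_lit 304) (nat_lit 0) (XT.lf (nat_lit 0) (nat_lit 6757741962) (nat_lit 380) (nat_lit 3486538012) (nat_lit 76) (nat_lit 56553552516) (nat_lit 117) (nat_lit 5) (nat_lit 122) (nat_lit 5)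 (nat_lit 118) (nat_lit 5) (nat_lit 467) (nat_lit 446) (nat_lit 287)) (XT.lf (nat_lit 0) (nat_lit 17797375371) (nat_lit 380) (nat_lit 32843378246) (nat_lit 76) (nat_lit 18075240589) (nat_lit 113) (nat_lit 5) (nat_lit 118) (nat_lit 5) (nat_lit 114) (nat_lit 5) (nat_lit 468) (nat_lit 446) (nat_lit 286))) (XT.nd (nat_lit 78) (nat_lit 0) (nat_lit 0) (XT.lf (nat_lit 0) (nat_lit 6635587630) (nat_lit 304) (nat_lit 23083742606) (nat_lit 380) (nat_lit 40994216923) (nat_lit 109) (nat_lit 5) (nat_lit 113) (nat_lit 5) (nat_lit 114) (nat_lit 5) (nat_lit 469) (nat_lit 446) (nat_lit 285)) (XT.lf (nat_lit 0) (nat_lit 42892887219) (nat_lit 380) (nat_lit 23656462925) (nat_lit 76) (nat_lit 6228852531) (nat_lit 109) (nat_lit 5) (nat_lit 114) (nat_lit 5) (nat_lit 110) (nat_lit 5) (nat_lit 470) (nat_lit 446) (nat_lit 284)))) (XT.nd (nat_lit 156) (nat_lit 532) (nat_lit 0) (XT.nd (nat_lit 78) (nat_lit 0) (nat_lit 0)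 (XT.lf (nat_lit 0) (nat_lit 19014778031) (nat_lit 228) (nat_lit 38384511595) (nat_lit 304) (nat_lit 17513093093) (nat_lit 106) (nat_lit 5) (nat_lit 109) (nat_lit 5) (nat_lit 110) (nat_lit 5) (nat_lit 471) (nat_lit 446) (nat_lit 283)) (XT.lf (nat_lit 0) (nat_lit 64639404092) (nat_lit 228) (nat_lit 8391143988) (nat_lit 304) (nat_lit 4102747009) (nat_lit 106) (nat_lit 5) (nat_lit 109) (nat_lit 5) (nat_lit 110) (nat_lit 5) (nat_lit 472) (nat_lit 446) (nat_lit 282))) (XT.nd (nat_lit 78) (nat_lit 228) (nat_lit 0) (XT.lf (nat_lit 0) (nat_lit 10560642614) (nat_lit 304) (nat_lit 45791547786) (nat_lit 76) (nat_lit 23060179056) (nat_lit 102) (nat_lit 5) (nat_lit 106) (nat_lit 5) (nat_lit 103) (nat_lit 5) (nat_lit 473) (nat_lit 446) (nat_lit 281)) (XT.lf (nat_lit 0) (nat_lit 486017150) (nat_lit 228) (nat_lit 25692471760) (nat_lit 304) (nat_lit 55605587511) (nat_lit 99) (nat_lit 5) (nat_lit 102) (nat_lit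 5) (nat_lit 103) (nat_lit 5) (nat_lit 474) (nat_lit 446) (nat_lit 280))))) (XT.nd (nat_lit 312) (nat_lit 456) (nat_lit 0) (XT.nd (nat_lit 156) (nat_lit 228) (nat_lit 0) (XT.nd (nat_lit 78) (nat_lit 228) (nat_lit 0) (XT.lf (nat_lit 0) (nat_lit 43465909718) (nat_lit 304) (nat_lit 33684038125) (nat_lit 76) (nat_lit 7079986880) (nat_lit 99) (nat_lit 5) (nat_lit 103) (nat_lit 5) (nat_lit 100) (nat_lit 5) (nat_lit 475) (nat_lit 446) (nat_lit 279)) (XT.lf (nat_lit 0) (nat_lit 16413414480) (nat_lit 228) (nat_lit 45880763288) (nat_lit 304) (nat_lit 24470084459) (nat_lit 96) (nat_lit 5) (nat_lit 99) (nat_lit 5) (nat_lit 100) (nat_lit 5) (nat_lit 476) (nat_lit 446) (nat_lit 278))) (XT.nd (nat_lit 78) (nat_lit 228) (nat_lit 0) (XT.lf (nat_lit 0) (nat_lit 70183782952) (nat_lit 228) (nat_lit 12449585035) (nat_lit 304) (nat_lit 6763462770) (nat_lit 96) (nat_lit 5) (nat_lit 99) (nat_lit 5) (nat_lit 100) (nat_lit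 5) (nat_lit 477) (nat_lit 446) (nat_lit 277)) (XT.lf (nat_lit 0) (nat_lit 12367910914) (nat_lit 228) (nat_lit 57060370639) (nat_lit 76) (nat_lit 22677612128) (nat_lit 93) (nat_lit 5) (nat_lit 96) (nat_lit 5) (nat_lit 94) (nat_lit 5) (nat_lit 478) (nat_lit 446) (nat_lit 276)))) (XT.nd (nat_lit 156) (nat_lit 228) (nat_lit 0) (XT.nd (nat_lit 78) (nat_lit 228) (nat_lit 0) (XT.lf (nat_lit 0) (nat_lit 32762464015) (nat_lit 228) (nat_lit 2571757435) (nat_lit 76) (nat_lit 59583949186) (nat_lit 93) (nat_lit 5) (nat_lit 96) (nat_lit 5) (nat_lit 94) (nat_lit 5) (nat_lit 479) (nat_lit 446) (nat_lit 275)) (XT.lf (nat_lit 0) (nat_lit 55078870327) (nat_lit 304) (nat_lit 41402107579) (nat_lit 76) (nat_lit 1344977329) (nat_lit 90) (nat_lit 5) (nat_lit 94) (nat_lit 5) (nat_lit 91) (nat_lit 5) (nat_lit 480) (nat_lit 446) (nat_lit 274))) (XT.nd (nat_lit 78) (nat_lit 76) (nat_lit 0) (XT.lf (nat_lit 0) (nat_lit 17562390562)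 (nat_lit 152) (nat_lit 61845578175) (nat_lit 228) (nat_lit 21426316811) (nat_lit 88) (nat_lit 5) (nat_lit 90) (nat_lit 5) (nat_lit 91) (nat_lit 5) (nat_lit 481) (nat_lit 446) (nat_lit 273)) (XT.lf (nat_lit 0) (nat_lit 1641569754) (nat_lit 228) (nat_lit 23073289090) (nat_lit 76) (nat_lit 79241832713) (nat_lit 87) (nat_lit 5) (nat_lit 90) (nat_lit 5) (nat_lit 88) (nat_lit 5) (nat_lit 482) (nat_lit 446) (nat_lit 272))))))))
noncomputable def xc188 : XT := (XT.nd (nat_lit 2418) (nat_lit 1900) (nat_lit 0) (XT.nd (nat_lit 1170) (nat_lit 1368) (nat_lit 0) (XT.nd (nat_lit 546) (nat_lit 684) (nat_lit 0) (XT.nd (nat_lit 234) (nat_lit 532) (nat_lit 0) (XT.nd (nat_lit 78) (nat_lit 152) (nat_lit 0) (XT.lf (nat_lit 0) (nat_lit 26022747302) (nat_lit 304) (nat_lit 66326584274) (nat_lit 76) (nat_lit 14824325727) (nat_lit 84) (nat_lit 5) (nat_lit 88) (nat_lit 5) (nat_lit 85) (nat_lit 5) (nat_lit 483) (nat_lit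 446) (nat_lit 271)) (XT.nd (nat_lit 78) (nat_lit 152) (nat_lit 0) (XT.lf (nat_lit 0) (nat_lit 52424522256) (nat_lit 304) (nat_lit 2180269284) (nat_lit 76) (nat_lit 55906602928) (nat_lit 84) (nat_lit 5) (nat_lit 88) (nat_lit 5) (nat_lit 85) (nat_lit 5) (nat_lit 484) (nat_lit 446) (nat_lit 270)) (XT.lf (nat_lit 0) (nat_lit 67327033579) (nat_lit 152) (nat_lit 13869767233) (nat_lit 228) (nat_lit 32766696992) (nat_lit 82) (nat_lit 5) (nat_lit 84) (nat_lit 5) (nat_lit 85) (nat_lit 5) (nat_lit 485) (nat_lit 446) (nat_lit 269)))) (XT.nd (nat_lit 156) (nat_lit 304) (nat_lit 0) (XT.nd (nat_lit 78) (nat_lit 76) (nat_lit 0) (XT.lf (nat_lit 0) (nat_lit 23084824107) (nat_lit 152) (nat_lit 89171319545) (nat_lit 228) (nat_lit 5289640192) (nat_lit 80) (nat_lit 5) (nat_lit 82) (nat_lit 5) (nat_lit 83) (nat_lit 5) (nat_lit 486) (nat_lit 446) (nat_lit 268)) (XT.lf (nat_lit 0) (nat_lit 23836559213) (nat_lit 228)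 (nat_lit 23965810326) (nat_lit 76) (nat_lit 73434951946) (nat_lit 79) (nat_lit 5) (nat_lit 82) (nat_lit 5) (nat_lit 80) (nat_lit 5) (nat_lit 487) (nat_lit 446) (nat_lit 267))) (XT.nd (nat_lit 78) (nat_lit 152) (nat_lit 0) (XT.lf (nat_lit 0) (nat_lit 51618320349) (nat_lit 152) (nat_lit 3428188748) (nat_lit 228) (nat_lit 70022330831) (nat_lit 77) (nat_lit 5) (nat_lit 79) (nat_lit 5) (nat_lit 80) (nat_lit 5) (nat_lit 488) (nat_lit 446) (nat_lit 266)) (XT.lf (nat_lit 0) (nat_lit 2128425500) (nat_lit 152) (nat_lit 86807518389) (nat_lit 228) (nat_lit 40100041076) (nat_lit 75) (nat_lit 5) (nat_lit 77) (nat_lit 5) (nat_lit 78) (nat_lit 5) (nat_lit 489) (nat_lit 446) (nat_lit 265))))) (XT.nd (nat_lit 312) (nat_lit 304) (nat_lit 0) (XT.nd (nat_lit 156) (nat_lit 152) (nat_lit 0) (XT.nd (nat_lit 78) (nat_lit 228) (nat_lit 0) (XT.lf (nat_lit 0) (nat_lit 83977137457) (nat_lit 152) (nat_lit 41841249792) (nat_lit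 228) (nat_lit 7318173207) (nat_lit 75) (nat_lit 5) (nat_lit 77) (nat_lit 5) (nat_lit 78) (nat_lit 5) (nat_lit 490) (nat_lit 446) (nat_lit 264)) (XT.lf (nat_lit 0) (nat_lit 26850936973) (nat_lit 228) (nat_lit 104382865397) (nat_lit 76) (nat_lit 6156424496) (nat_lit 72) (nat_lit 5) (nat_lit 75) (nat_lit 5) (nat_lit 73) (nat_lit 5) (nat_lit 491) (nat_lit 446) (nat_lit 263))) (XT.nd (nat_lit 78) (nat_lit 152) (nat_lit 0) (XT.lf (nat_lit 0) (nat_lit 64014024596) (nat_lit 228) (nat_lit 21646432422) (nat_lit 76) (nat_lit 56113548082) (nat_lit 72) (nat_lit 5) (nat_lit 75) (nat_lit 5) (nat_lit 73) (nat_lit 5) (nat_lit 492) (nat_lit 446) (nat_lit 262)) (XT.lf (nat_lit 0) (nat_lit 67382402042) (nat_lit 152) (nat_lit 36704275193) (nat_lit 228) (nat_lit 42237724516) (nat_lit 70) (nat_lit 5) (nat_lit 72) (nat_lit 5) (nat_lit 73) (nat_lit 5) (nat_lit 493) (nat_lit 446) (nat_lit 261)))) (XT.nd (nat_lit 156)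 (nat_lit 152) (nat_lit 0) (XT.nd (nat_lit 78) (nat_lit 76) (nat_lit 0) (XT.lf (nat_lit 0) (nat_lit 10633960976) (nat_lit 76) (nat_lit 136296521978) (nat_lit 152) (nat_lit 4133459289) (nat_lit 69) (nat_lit 5) (nat_lit 70) (nat_lit 5) (nat_lit 71) (nat_lit 4) (nat_lit 494) (nat_lit 446) (nat_lit 260)) (XT.lf (nat_lit 0) (nat_lit 36687700526) (nat_lit 152) (nat_lit 49729043703) (nat_lit 76) (nat_lit 69497712402) (nat_lit 68) (nat_lit 5) (nat_lit 70) (nat_lit 5) (nat_lit 69) (nat_lit 5) (nat_lit 495) (nat_lit 446) (nat_lit 259))) (XT.nd (nat_lit 78) (nat_lit 0) (nat_lit 0) (XT.lf (nat_lit 0) (nat_lit 46940534810) (nat_lit 152) (nat_lit 33202765356) (nat_lit 228) (nat_lit 80824193860) (nat_lit 66) (nat_lit 5) (nat_lit 68) (nat_lit 5) (nat_lit 69) (nat_lit 5) (nat_lit 496) (nat_lit 446) (nat_lit 258)) (XT.lf (nat_lit 0) (nat_lit 126981068202) (nat_lit 228) (nat_lit 16429819381) (nat_lit 76) (nat_lit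 22801826314) (nat_lit 66) (nat_lit 5) (nat_lit 69) (nat_lit 5) (nat_lit 67) (nat_lit 4) (nat_lit 497) (nat_lit 446) (nat_lit 257)))))) (XT.nd (nat_lit 624) (nat_lit 684) (nat_lit 0) (XT.nd (nat_lit 312) (nat_lit 304) (nat_lit 0) (XT.nd (nat_lit 156) (nat_lit 76) (nat_lit 0) (XT.nd (nat_lit 78) (nat_lit 152) (nat_lit 0) (XT.lf (nat_lit 0) (nat_lit 6252749035) (nat_lit 152) (nat_lit 83395946178) (nat_lit 76) (nat_lit 81970315925) (nat_lit 64) (nat_lit 5) (nat_lit 66) (nat_lit 5) (nat_lit 65) (nat_lit 5) (nat_lit 498) (nat_lit 446) (nat_lit 256)) (XT.lf (nat_lit 0) (nat_lit 21434635984) (nat_lit 152) (nat_lit 31875204121) (nat_lit 228) (nat_lit 123922780215) (nat_lit 62) (nat_lit 5) (nat_lit 64) (nat_lit 5) (nat_lit 65) (nat_lit 5) (nat_lit 499) (nat_lit 446) (nat_lit 255))) (XT.nd (nat_lit 78) (nat_lit 76) (nat_lit 0) (XT.lf (nat_lit 0) (nat_lit 104604192794) (nat_lit 228) (nat_lit 49127820496)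 (nat_lit 76) (nat_lit 29300676340) (nat_lit 62) (nat_lit 5) (nat_lit 65) (nat_lit 5) (nat_lit 63) (nat_lit 4) (nat_lit 500) (nat_lit 446) (nat_lit 254)) (XT.lf (nat_lit 0) (nat_lit 64414009372) (nat_lit 76) (nat_lit 95576965024) (nat_lit 152) (nat_lit 29055402467) (nat_lit 61) (nat_lit 5) (nat_lit 62) (nat_lit 5) (nat_lit 63) (nat_lit 4) (nat_lit 501) (nat_lit 446) (nat_lit 253)))) (XT.nd (nat_lit 156) (nat_lit 76) (nat_lit 0) (XT.nd (nat_lit 78) (nat_lit 152) (nat_lit 0) (XT.lf (nat_lit 0) (nat_lit 22902169474) (nat_lit 152) (nat_lit 10350958832) (nat_lit 76) (nat_lit 162047575821) (nat_lit 60) (nat_lit 5) (nat_lit 62) (nat_lit 5) (nat_lit 61) (nat_lit 5) (nat_lit 502) (nat_lit 446) (nat_lit 252)) (XT.lf (nat_lit 0) (nat_lit 78780635462) (nat_lit 228) (nat_lit 89518251776) (nat_lit 76) (nat_lit 33430071256) (nat_lit 58) (nat_lit 5) (nat_lit 61) (nat_lit 5) (nat_lit 59) (nat_lit 4) (nat_lit 503)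 (nat_lit 446) (nat_lit 251))) (XT.nd (nat_lit 78) (nat_lit 0) (nat_lit 0) (XT.lf (nat_lit 0) (nat_lit 33307076305) (nat_lit 76) (nat_lit 105388783722) (nat_lit 152) (nat_lit 69720623806) (nat_lit 57) (nat_lit 5) (nat_lit 58) (nat_lit 5) (nat_lit 59) (nat_lit 4) (nat_lit 504) (nat_lit 446) (nat_lit 250)) (XT.lf (nat_lit 0) (nat_lit 165380649044) (nat_lit 76) (nat_lit 37741753911) (nat_lit 152) (nat_lit 12240204643) (nat_lit 57) (nat_lit 5) (nat_lit 58) (nat_lit 5) (nat_lit 59) (nat_lit 4) (nat_lit 505) (nat_lit 446) (nat_lit 249))))) (XT.nd (nat_lit 312) (nat_lit 228) (nat_lit 0) (XT.nd (nat_lit 156) (nat_lit 228) (nat_lit 0) (XT.nd (nat_lit 78) (nat_lit 0) (nat_lit 0) (XT.lf (nat_lit 0) (nat_lit 48427966386) (nat_lit 228) (nat_lit 139790361543) (nat_lit 76) (nat_lit 34307465389) (nat_lit 54) (nat_lit 5) (nat_lit 57) (nat_lit 5) (nat_lit 55) (nat_lit 4) (nat_lit 506) (nat_lit 446) (nat_lit 248))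 (XT.lf (nat_lit 0) (nat_lit 113196797296) (nat_lit 228) (nat_lit 7014984030) (nat_lit 76) (nat_lit 109751393934) (nat_lit 54) (nat_lit 5) (nat_lit 57) (nat_lit 5) (nat_lit 55) (nat_lit 4) (nat_lit 507) (nat_lit 446) (nat_lit 247))) (XT.nd (nat_lit 78) (nat_lit 152) (nat_lit 0) (XT.lf (nat_lit 0) (nat_lit 136776022012) (nat_lit 76) (nat_lit 46563066664) (nat_lit 152) (nat_lit 54326586690) (nat_lit 53) (nat_lit 5) (nat_lit 54) (nat_lit 5) (nat_lit 55) (nat_lit 4) (nat_lit 508) (nat_lit 446) (nat_lit 246)) (XT.lf (nat_lit 0) (nat_lit 12170882632) (nat_lit 152) (nat_lit 202735184073) (nat_lit 76) (nat_lit 30773698898) (nat_lit 51) (nat_lit 5) (nat_lit 53) (nat_lit 5) (nat_lit 52) (nat_lit 4) (nat_lit 509) (nat_lit 446) (nat_lit 245)))) (XT.nd (nat_lit 156) (nat_lit 152) (nat_lit 0) (XT.nd (nat_lit 78) (nat_lit 76) (nat_lit 0) (XT.lf (nat_lit 0) (nat_lit 82667015071) (nat_lit 152) (nat_lit 58218709735)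 (nat_lit 76) (nat_lit 113039329610) (nat_lit 51) (nat_lit 5) (nat_lit 53) (nat_lit 5) (nat_lit 52) (nat_lit 4) (nat_lit 510) (nat_lit 446) (nat_lit 244)) (XT.lf (nat_lit 0) (nat_lit 96615083486) (nat_lit 76) (nat_lit 61580888631) (nat_lit 152) (nat_lit 104311234663) (nat_lit 50) (nat_lit 5) (nat_lit 51) (nat_lit 5) (nat_lit 52) (nat_lit 4) (nat_lit 511) (nat_lit 446) (nat_lit 243))) (XT.nd (nat_lit 78) (nat_lit 152) (nat_lit 0) (XT.lf (nat_lit 0) (nat_lit 238841718925) (nat_lit 152) (nat_lit 10612965159) (nat_lit 0) (nat_lit 21996765594) (nat_lit 50) (nat_lit 5) (nat_lit 52) (nat_lit 4) (nat_lit 50) (nat_lit 4) (nat_lit 512) (nat_lit 446) (nat_lit 242)) (XT.lf (nat_lit 0) (nat_lit 44818888740) (nat_lit 152) (nat_lit 124966722697) (nat_lit 76) (nat_lit 110848579730) (nat_lit 48) (nat_lit 5) (nat_lit 50) (nat_lit 5) (nat_lit 49) (nat_lit 4) (nat_lit 513) (nat_lit 446) (nat_lit 241))))))) (XT.nd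 (nat_lit 1170) (nat_lit 912) (nat_lit 0) (XT.nd (nat_lit 546) (nat_lit 532) (nat_lit 0) (XT.nd (nat_lit 234) (nat_lit 304) (nat_lit 0) (XT.nd (nat_lit 78) (nat_lit 76) (nat_lit 0) (XT.lf (nat_lit 0) (nat_lit 41141805792) (nat_lit 76) (nat_lit 84705861670) (nat_lit 152) (nat_lit 164360441539) (nat_lit 47) (nat_lit 5) (nat_lit 48) (nat_lit 5) (nat_lit 49) (nat_lit 4) (nat_lit 514) (nat_lit 446) (nat_lit 240)) (XT.nd (nat_lit 78) (nat_lit 76) (nat_lit 0) (XT.lf (nat_lit 0) (nat_lit 213150815193) (nat_lit 152) (nat_lit 80368286909) (nat_lit 0) (nat_lit 6630474129) (nat_lit 47) (nat_lit 5) (nat_lit 49) (nat_lit 4) (nat_lit 47) (nat_lit 4) (nat_lit 515) (nat_lit 446) (nat_lit 239)) (XT.lf (nat_lit 0) (nat_lit 98528826155) (nat_lit 76) (nat_lit 209216853966) (nat_lit 76) (nat_lit 2696108720) (nat_lit 46) (nat_lit 4) (nat_lit 47) (nat_lit 5) (nat_lit 47) (nat_lit 4) (nat_lit 516) (nat_lit 446) (nat_lit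 238)))) (XT.nd (nat_lit 156) (nat_lit 152) (nat_lit 0) (XT.nd (nat_lit 78) (nat_lit 76) (nat_lit 0) (XT.lf (nat_lit 0) (nat_lit 84457863816) (nat_lit 152) (nat_lit 33382509355) (nat_lit 76) (nat_lit 203272092213) (nat_lit 45) (nat_lit 5) (nat_lit 47) (nat_lit 5) (nat_lit 46) (nat_lit 4) (nat_lit 517) (nat_lit 446) (nat_lit 237)) (XT.lf (nat_lit 0) (nat_lit 159122494283) (nat_lit 76) (nat_lit 19240428188) (nat_lit 152) (nat_lit 153827343643) (nat_lit 44) (nat_lit 5) (nat_lit 45) (nat_lit 5) (nat_lit 46) (nat_lit 4) (nat_lit 518) (nat_lit 446) (nat_lit 236))) (XT.nd (nat_lit 78) (nat_lit 76) (nat_lit 0) (XT.lf (nat_lit 0) (nat_lit 17863825887) (nat_lit 76) (nat_lit 261268572550) (nat_lit 76) (nat_lit 64581100234) (nat_lit 43) (nat_lit 4) (nat_lit 44) (nat_lit 5) (nat_lit 44) (nat_lit 4) (nat_lit 519) (nat_lit 446) (nat_lit 235)) (XT.lf (nat_lit 0) (nat_lit 31489295160) (nat_lit 152) (nat_lit 132134733923)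 (nat_lit 76) (nat_lit 192001420702) (nat_lit 42) (nat_lit 5) (nat_lit 44) (nat_lit 5) (nat_lit 43) (nat_lit 4) (nat_lit 520) (nat_lit 446) (nat_lit 234))))) (XT.nd (nat_lit 312) (nat_lit 304) (nat_lit 0) (XT.nd (nat_lit 156) (nat_lit 152) (nat_lit 0) (XT.nd (nat_lit 78) (nat_lit 0) (nat_lit 0) (XT.lf (nat_lit 0) (nat_lit 72527935925) (nat_lit 76) (nat_lit 58796955067) (nat_lit 152) (nat_lit 236698570686) (nat_lit 41) (nat_lit 5) (nat_lit 42) (nat_lit 5) (nat_lit 43) (nat_lit 4) (nat_lit 521) (nat_lit 446) (nat_lit 233)) (XT.lf (nat_lit 0) (nat_lit 239226874051) (nat_lit 152) (nat_lit 89756160318) (nat_lit 0) (nat_lit 51904609429) (nat_lit 41) (nat_lit 5) (nat_lit 43) (nat_lit 4) (nat_lit 41) (nat_lit 4) (nat_lit 522) (nat_lit 446) (nat_lit 232))) (XT.nd (nat_lit 78) (nat_lit 76) (nat_lit 0) (XT.lf (nat_lit 0) (nat_lit 129448834051) (nat_lit 76) (nat_lit 226059747440) (nat_lit 76) (nat_lit 38737222278)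 (nat_lit 40) (nat_lit 4) (nat_lit 41) (nat_lit 5) (nat_lit 41) (nat_lit 4) (nat_lit 523) (nat_lit 446) (nat_lit 231)) (XT.lf (nat_lit 0) (nat_lit 68658094630) (nat_lit 152) (nat_lit 46573679301) (nat_lit 76) (nat_lit 292908740822) (nat_lit 39) (nat_lit 5) (nat_lit 41) (nat_lit 5) (nat_lit 40) (nat_lit 4) (nat_lit 524) (nat_lit 446) (nat_lit 230)))) (XT.nd (nat_lit 156) (nat_lit 228) (nat_lit 0) (XT.nd (nat_lit 78) (nat_lit 0) (nat_lit 0) (XT.lf (nat_lit 0) (nat_lit 183131596226) (nat_lit 152) (nat_lit 234687371138) (nat_lit 0) (nat_lit 4728729930) (nat_lit 38) (nat_lit 5) (nat_lit 40) (nat_lit 4) (nat_lit 38) (nat_lit 4) (nat_lit 525) (nat_lit 446) (nat_lit 229)) (XT.lf (nat_lit 0) (nat_lit 306019194392) (nat_lit 152) (nat_lit 3905409749) (nat_lit 0) (nat_lit 127616113750) (nat_lit 38) (nat_lit 5) (nat_lit 40) (nat_lit 4) (nat_lit 38) (nat_lit 4) (nat_lit 526) (nat_lit 446) (nat_lit 228))) (XT.nd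 (nat_lit 78) (nat_lit 152) (nat_lit 0) (XT.lf (nat_lit 0) (nat_lit 246298160160) (nat_lit 76) (nat_lit 192598129150) (nat_lit 76) (nat_lit 14194844369) (nat_lit 37) (nat_lit 4) (nat_lit 38) (nat_lit 5) (nat_lit 38) (nat_lit 4) (nat_lit 527) (nat_lit 446) (nat_lit 227)) (XT.lf (nat_lit 0) (nat_lit 39285699740) (nat_lit 76) (nat_lit 66904143644) (nat_lit 152) (nat_lit 363110123694) (nat_lit 35) (nat_lit 5) (nat_lit 36) (nat_lit 5) (nat_lit 37) (nat_lit 4) (nat_lit 528) (nat_lit 446) (nat_lit 226)))))) (XT.nd (nat_lit 624) (nat_lit 456) (nat_lit 0) (XT.nd (nat_lit 312) (nat_lit 228) (nat_lit 0) (XT.nd (nat_lit 156) (nat_lit 152) (nat_lit 0) (XT.nd (nat_lit 78) (nat_lit 76) (nat_lit 0) (XT.lf (nat_lit 0) (nat_lit 236691986062) (nat_lit 152) (nat_lit 182603123661) (nat_lit 0) (nat_lit 66783734291) (nat_lit 35) (nat_lit 5) (nat_lit 37) (nat_lit 4) (nat_lit 35) (nat_lit 4) (nat_lit 529) (nat_lit 446)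 (nat_lit 225)) (XT.lf (nat_lit 0) (nat_lit 78596834877) (nat_lit 76) (nat_lit 297446033994) (nat_lit 76) (nat_lit 127537614278) (nat_lit 34) (nat_lit 4) (nat_lit 35) (nat_lit 5) (nat_lit 35) (nat_lit 4) (nat_lit 530) (nat_lit 446) (nat_lit 224))) (XT.nd (nat_lit 78) (nat_lit 76) (nat_lit 0) (XT.lf (nat_lit 0) (nat_lit 3534053813) (nat_lit 152) (nat_lit 162663769347) (nat_lit 76) (nat_lit 355601920850) (nat_lit 33) (nat_lit 5) (nat_lit 35) (nat_lit 5) (nat_lit 34) (nat_lit 4) (nat_lit 531) (nat_lit 446) (nat_lit 223)) (XT.lf (nat_lit 0) (nat_lit 114340413189) (nat_lit 76) (nat_lit 24317706413) (nat_lit 152) (nat_lit 402078063565) (nat_lit 32) (nat_lit 5) (nat_lit 33) (nat_lit 5) (nat_lit 34) (nat_lit 4) (nat_lit 532) (nat_lit 446) (nat_lit 222)))) (XT.nd (nat_lit 156) (nat_lit 152) (nat_lit 0) (XT.nd (nat_lit 78) (nat_lit 76) (nat_lit 0) (XT.lf (nat_lit 0) (nat_lit 285284315449) (nat_lit 152)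 (nat_lit 151631495215) (nat_lit 0) (nat_lit 123466337282) (nat_lit 32) (nat_lit 5) (nat_lit 34) (nat_lit 4) (nat_lit 32) (nat_lit 4) (nat_lit 533) (nat_lit 446) (nat_lit 221)) (XT.lf (nat_lit 0) (nat_lit 140984225131) (nat_lit 76) (nat_lit 300857158726) (nat_lit 76) (nat_lit 139039048970) (nat_lit 31) (nat_lit 4) (nat_lit 32) (nat_lit 5) (nat_lit 32) (nat_lit 4) (nat_lit 534) (nat_lit 446) (nat_lit 220))) (XT.nd (nat_lit 78) (nat_lit 76) (nat_lit 0) (XT.lf (nat_lit 0) (nat_lit 6310127819) (nat_lit 152) (nat_lit 148882473049) (nat_lit 76) (nat_lit 447077556780) (nat_lit 30) (nat_lit 5) (nat_lit 32) (nat_lit 5) (nat_lit 31) (nat_lit 4) (nat_lit 535) (nat_lit 446) (nat_lit 219)) (XT.lf (nat_lit 0) (nat_lit 156787401931) (nat_lit 152) (nat_lit 465026653814) (nat_lit 0) (nat_lit 2674683420) (nat_lit 29) (nat_lit 5) (nat_lit 31) (nat_lit 4) (nat_lit 29) (nat_lit 4) (nat_lit 536) (nat_lit 446) (nat_lit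 218))))) (XT.nd (nat_lit 312) (nat_lit 228) (nat_lit 0) (XT.nd (nat_lit 156) (nat_lit 152) (nat_lit 0) (XT.nd (nat_lit 78) (nat_lit 76) (nat_lit 0) (XT.lf (nat_lit 0) (nat_lit 319895177157) (nat_lit 152) (nat_lit 161885390346) (nat_lit 0) (nat_lit 165782350387) (nat_lit 29) (nat_lit 5) (nat_lit 31) (nat_lit 4) (nat_lit 29) (nat_lit 4) (nat_lit 537) (nat_lit 446) (nat_lit 217)) (XT.lf (nat_lit 0) (nat_lit 161584191926) (nat_lit 76) (nat_lit 332096707786) (nat_lit 76) (nat_lit 177983777912) (nat_lit 28) (nat_lit 4) (nat_lit 29) (nat_lit 5) (nat_lit 29) (nat_lit 4) (nat_lit 538) (nat_lit 446) (nat_lit 216))) (XT.nd (nat_lit 78) (nat_lit 152) (nat_lit 0) (XT.lf (nat_lit 0) (nat_lit 506847108113) (nat_lit 76) (nat_lit 172050187960) (nat_lit 76) (nat_lit 17937159891) (nat_lit 28) (nat_lit 4) (nat_lit 29) (nat_lit 5) (nat_lit 29) (nat_lit 4) (nat_lit 539) (nat_lit 446) (nat_lit 215)) (XT.lf (nat_lit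 0) (nat_lit 147639832340) (nat_lit 152) (nat_lit 574523648865) (nat_lit 0) (nat_lit 865430829) (nat_lit 26) (nat_lit 5) (nat_lit 28) (nat_lit 4) (nat_lit 26) (nat_lit 4) (nat_lit 540) (nat_lit 446) (nat_lit 214)))) (XT.nd (nat_lit 156) (nat_lit 152) (nat_lit 0) (XT.nd (nat_lit 78) (nat_lit 76) (nat_lit 0) (XT.lf (nat_lit 0) (nat_lit 326983424480) (nat_lit 152) (nat_lit 243021497872) (nat_lit 0) (nat_lit 180208938145) (nat_lit 26) (nat_lit 5) (nat_lit 28) (nat_lit 4) (nat_lit 26) (nat_lit 4) (nat_lit 541) (nat_lit 446) (nat_lit 213)) (XT.lf (nat_lit 0) (nat_lit 108528958685) (nat_lit 76) (nat_lit 408459476437) (nat_lit 76) (nat_lit 261684909317) (nat_lit 25) (nat_lit 4) (nat_lit 26) (nat_lit 5) (nat_lit 26) (nat_lit 4) (nat_lit 542) (nat_lit 446) (nat_lit 212))) (XT.nd (nat_lit 78) (nat_lit 152) (nat_lit 0) (XT.lf (nat_lit 0) (nat_lit 486093695836) (nat_lit 76) (nat_lit 234515488207) (nat_lit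 76) (nat_lit 87740844149) (nat_lit 25) (nat_lit 4) (nat_lit 26) (nat_lit 5) (nat_lit 26) (nat_lit 4) (nat_lit 543) (nat_lit 446) (nat_lit 211)) (XT.lf (nat_lit 0) (nat_lit 42917709654) (nat_lit 76) (nat_lit 49615181558) (nat_lit 152) (nat_lit 746870078185) (nat_lit 23) (nat_lit 5) (nat_lit 24) (nat_lit 5) (nat_lit 25) (nat_lit 4) (nat_lit 544) (nat_lit 446) (nat_lit 210))))))))
noncomputable def xc189 : XT := (XT.nd (nat_lit 57096) (nat_lit 0) (nat_lit 2584) (XT.nd (nat_lit 55848) (nat_lit 0) (nat_lit 5776) (XT.nd (nat_lit 55224) (nat_lit 0) (nat_lit 9044) (XT.nd (nat_lit 54912) (nat_lit 0) (nat_lit 9424) (XT.nd (nat_lit 78) (nat_lit 0) (nat_lit 0) (XT.lf (nat_lit 0) (nat_lit 286675009079) (nat_lit 152) (nat_lit 437981964148) (nat_lit 0) (nat_lit 146889497539) (nat_lit 23) (nat_lit 5) (nat_lit 25) (nat_lit 4) (nat_lit 23) (nat_lit 4) (nat_lit 545) (nat_lit 446) (nat_lit 209)) (XT.nd (nat_lit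 54756) (nat_lit 0) (nat_lit 9424) (XT.lf (nat_lit 0) (nat_lit 491337413312) (nat_lit 152) (nat_lit 62367236395) (nat_lit 0) (nat_lit 351551838475) (nat_lit 23) (nat_lit 5) (nat_lit 25) (nat_lit 4) (nat_lit 23) (nat_lit 4) (nat_lit 546) (nat_lit 446) (nat_lit 208)) (XT.lf (nat_lit 0) (nat_lit 8090045337) (nat_lit 836) (nat_lit 6016709344) (nat_lit 836) (nat_lit 6016709344) (nat_lit 147) (nat_lit 3) (nat_lit 158) (nat_lit 3) (nat_lit 158) (nat_lit 5) (nat_lit 447) (nat_lit 447) (nat_lit 306)))) (XT.nd (nat_lit 156) (nat_lit 0) (nat_lit 76) (XT.nd (nat_lit 78) (nat_lit 0) (nat_lit 76) (XT.lf (nat_lit 76) (nat_lit 8189209535) (nat_lit 0) (nat_lit 8562978528) (nat_lit 836) (nat_lit 24492527288) (nat_lit 148) (nat_lit 5) (nat_lit 147) (nat_lit 3) (nat_lit 158) (nat_lit 5) (nat_lit 448) (nat_lit 447) (nat_lit 305)) (XT.lf (nat_lit 0) (nat_lit 17745923893) (nat_lit 760) (nat_lit 12634775742) (nat_lit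 836) (nat_lit 11892041094) (nat_lit 148) (nat_lit 5) (nat_lit 158) (nat_lit 5) (nat_lit 159) (nat_lit 5) (nat_lit 449) (nat_lit 447) (nat_lit 304))) (XT.nd (nat_lit 78) (nat_lit 0) (nat_lit 76) (XT.lf (nat_lit 76) (nat_lit 8951669164) (nat_lit 0) (nat_lit 10115389165) (nat_lit 836) (nat_lit 24271223831) (nat_lit 149) (nat_lit 5) (nat_lit 148) (nat_lit 5) (nat_lit 159) (nat_lit 5) (nat_lit 450) (nat_lit 447) (nat_lit 303)) (XT.lf (nat_lit 0) (nat_lit 20843703675) (nat_lit 760) (nat_lit 12569672982) (nat_lit 836) (nat_lit 11024251654) (nat_lit 149) (nat_lit 5) (nat_lit 159) (nat_lit 5) (nat_lit 160) (nat_lit 5) (nat_lit 451) (nat_lit 447) (nat_lit 302))))) (XT.nd (nat_lit 312) (nat_lit 532) (nat_lit 0) (XT.nd (nat_lit 156) (nat_lit 0) (nat_lit 76) (XT.nd (nat_lit 78) (nat_lit 0) (nat_lit 76) (XT.lf (nat_lit 76) (nat_lit 10507093067) (nat_lit 0) (nat_lit 12529751547) (nat_lit 836) (nat_lit 22538714328)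 (nat_lit 150) (nat_lit 5) (nat_lit 149) (nat_lit 5) (nat_lit 160) (nat_lit 5) (nat_lit 452) (nat_lit 447) (nat_lit 301)) (XT.lf (nat_lit 0) (nat_lit 25700620530) (nat_lit 760) (nat_lit 11737454510) (nat_lit 836) (nat_lit 9314262493) (nat_lit 150) (nat_lit 5) (nat_lit 160) (nat_lit 5) (nat_lit 161) (nat_lit 5) (nat_lit 453) (nat_lit 447) (nat_lit 300))) (XT.nd (nat_lit 78) (nat_lit 0) (nat_lit 76) (XT.lf (nat_lit 76) (nat_lit 12968261828) (nat_lit 0) (nat_lit 15935185545) (nat_lit 836) (nat_lit 19064214881) (nat_lit 151) (nat_lit 5) (nat_lit 150) (nat_lit 5) (nat_lit 161) (nat_lit 5) (nat_lit 454) (nat_lit 447) (nat_lit 299)) (XT.lf (nat_lit 0) (nat_lit 32570232653) (nat_lit 760) (nat_lit 10025609995) (nat_lit 836) (nat_lit 6632720003) (nat_lit 151) (nat_lit 5) (nat_lit 161) (nat_lit 5) (nat_lit 162) (nat_lit 5) (nat_lit 455) (nat_lit 447) (nat_lit 298)))) (XT.nd (nat_lit 156) (nat_lit 684) (nat_lit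 0) (XT.nd (nat_lit 78) (nat_lit 0) (nat_lit 76) (XT.lf (nat_lit 76) (nat_lit 16460981624) (nat_lit 0) (nat_lit 20475767760) (nat_lit 836) (nat_lit 13589939353) (nat_lit 152) (nat_lit 5) (nat_lit 151) (nat_lit 5) (nat_lit 162) (nat_lit 5) (nat_lit 456) (nat_lit 447) (nat_lit 297)) (XT.lf (nat_lit 0) (nat_lit 41735330673) (nat_lit 760) (nat_lit 7308565179) (nat_lit 76) (nat_lit 2835138606) (nat_lit 152) (nat_lit 5) (nat_lit 162) (nat_lit 5) (nat_lit 153) (nat_lit 5) (nat_lit 457) (nat_lit 447) (nat_lit 296))) (XT.nd (nat_lit 78) (nat_lit 0) (nat_lit 0) (XT.lf (nat_lit 0) (nat_lit 21125406303) (nat_lit 760) (nat_lit 26312240972) (nat_lit 836) (nat_lit 5828160132) (nat_lit 142) (nat_lit 5) (nat_lit 152) (nat_lit 5) (nat_lit 153) (nat_lit 5) (nat_lit 458) (nat_lit 447) (nat_lit 295)) (XT.lf (nat_lit 0) (nat_lit 51233333345) (nat_lit 760) (nat_lit 2313888896) (nat_lit 836) (nat_lit 1168589877) (nat_lit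 142) (nat_lit 5) (nat_lit 152) (nat_lit 5) (nat_lit 153) (nat_lit 5) (nat_lit 459) (nat_lit 447) (nat_lit 294)))))) (XT.nd (nat_lit 624) (nat_lit 1444) (nat_lit 0) (XT.nd (nat_lit 312) (nat_lit 608) (nat_lit 0) (XT.nd (nat_lit 156) (nat_lit 380) (nat_lit 0) (XT.nd (nat_lit 78) (nat_lit 380) (nat_lit 0) (XT.lf (nat_lit 0) (nat_lit 4396658871) (nat_lit 456) (nat_lit 29152785483) (nat_lit 76) (nat_lit 22646371361) (nat_lit 136) (nat_lit 5) (nat_lit 142) (nat_lit 5) (nat_lit 137) (nat_lit 5) (nat_lit 460) (nat_lit 447) (nat_lit 293)) (XT.lf (nat_lit 0) (nat_lit 1455871981) (nat_lit 380) (nat_lit 8864107532) (nat_lit 456) (nat_lit 47422928240) (nat_lit 131) (nat_lit 5) (nat_lit 136) (nat_lit 5) (nat_lit 137) (nat_lit 5) (nat_lit 461) (nat_lit 447) (nat_lit 292))) (XT.nd (nat_lit 78) (nat_lit 380) (nat_lit 0) (XT.lf (nat_lit 0) (nat_lit 17306084212) (nat_lit 456) (nat_lit 25011530696) (nat_lit 76)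 (nat_lit 17011408784) (nat_lit 131) (nat_lit 5) (nat_lit 137) (nat_lit 5) (nat_lit 132) (nat_lit 5) (nat_lit 462) (nat_lit 447) (nat_lit 291)) (XT.lf (nat_lit 0) (nat_lit 7934912164) (nat_lit 380) (nat_lit 16974375424) (nat_lit 456) (nat_lit 36071768355) (nat_lit 126) (nat_lit 5) (nat_lit 131) (nat_lit 5) (nat_lit 132) (nat_lit 5) (nat_lit 463) (nat_lit 447) (nat_lit 290)))) (XT.nd (nat_lit 156) (nat_lit 304) (nat_lit 0) (XT.nd (nat_lit 78) (nat_lit 304) (nat_lit 0) (XT.lf (nat_lit 0) (nat_lit 33472259254) (nat_lit 456) (nat_lit 19456412566) (nat_lit 76) (nat_lit 9758037762) (nat_lit 126) (nat_lit 5) (nat_lit 132) (nat_lit 5) (nat_lit 127) (nat_lit 5) (nat_lit 464) (nat_lit 447) (nat_lit 289)) (XT.lf (nat_lit 0) (nat_lit 16046669868) (nat_lit 304) (nat_lit 26944212906) (nat_lit 380) (nat_lit 21460388137) (nat_lit 122) (nat_lit 5) (nat_lit 126) (nat_lit 5) (nat_lit 127) (nat_lit 5) (nat_lit 465)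 (nat_lit 447) (nat_lit 288))) (XT.nd (nat_lit 78) (nat_lit 304) (nat_lit 0) (XT.lf (nat_lit 0) (nat_lit 53324380959) (nat_lit 380) (nat_lit 12299395082) (nat_lit 76) (nat_lit 663337254) (nat_lit 122) (nat_lit 5) (nat_lit 127) (nat_lit 5) (nat_lit 123) (nat_lit 5) (nat_lit 466) (nat_lit 447) (nat_lit 287)) (XT.lf (nat_lit 0) (nat_lit 26000102386) (nat_lit 304) (nat_lit 39020892600) (nat_lit 380) (nat_lit 3151430921) (nat_lit 118) (nat_lit 5) (nat_lit 122) (nat_lit 5) (nat_lit 123) (nat_lit 5) (nat_lit 467) (nat_lit 447) (nat_lit 286))))) (XT.nd (nat_lit 312) (nat_lit 760) (nat_lit 0) (XT.nd (nat_lit 156) (nat_lit 304) (nat_lit 0) (XT.nd (nat_lit 78) (nat_lit 304) (nat_lit 0) (XT.lf (nat_lit 0) (nat_lit 7132101993) (nat_lit 380) (nat_lit 3616502803) (nat_lit 76) (nat_lit 59387291328) (nat_lit 117) (nat_lit 5) (nat_lit 122) (nat_lit 5) (nat_lit 118) (nat_lit 5) (nat_lit 468) (nat_lit 447) (nat_lit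 285)) (XT.lf (nat_lit 0) (nat_lit 18722790189) (nat_lit 380) (nat_lit 34440254029) (nat_lit 76) (nat_lit 18986968258) (nat_lit 113) (nat_lit 5) (nat_lit 118) (nat_lit 5) (nat_lit 114) (nat_lit 5) (nat_lit 469) (nat_lit 447) (nat_lit 284))) (XT.nd (nat_lit 78) (nat_lit 0) (nat_lit 0) (XT.lf (nat_lit 0) (nat_lit 7011929606) (nat_lit 304) (nat_lit 24227916270) (nat_lit 380) (nat_lit 43007647245) (nat_lit 109) (nat_lit 5) (nat_lit 113) (nat_lit 5) (nat_lit 114) (nat_lit 5) (nat_lit 470) (nat_lit 447) (nat_lit 283)) (XT.lf (nat_lit 0) (nat_lit 45070584405) (nat_lit 380) (nat_lit 24795345450) (nat_lit 76) (nat_lit 6549526561) (nat_lit 109) (nat_lit 5) (nat_lit 114) (nat_lit 5) (nat_lit 110) (nat_lit 5) (nat_lit 471) (nat_lit 447) (nat_lit 282)))) (XT.nd (nat_lit 156) (nat_lit 532) (nat_lit 0) (XT.nd (nat_lit 78) (nat_lit 0) (nat_lit 0) (XT.lf (nat_lit 0) (nat_lit 20008748834) (nat_lit 228) (nat_lit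 40292659124) (nat_lit 304) (nat_lit 18354982630) (nat_lit 106) (nat_lit 5) (nat_lit 109) (nat_lit 5) (nat_lit 110) (nat_lit 5) (nat_lit 472) (nat_lit 447) (nat_lit 281)) (XT.lf (nat_lit 0) (nat_lit 67912547537) (nat_lit 228) (nat_lit 8800150663) (nat_lit 304) (nat_lit 4275727104) (nat_lit 106) (nat_lit 5) (nat_lit 109) (nat_lit 5) (nat_lit 110) (nat_lit 5) (nat_lit 473) (nat_lit 447) (nat_lit 280))) (XT.nd (nat_lit 78) (nat_lit 228) (nat_lit 0) (XT.lf (nat_lit 0) (nat_lit 11119144148) (nat_lit 304) (nat_lit 48038257755) (nat_lit 76) (nat_lit 24224059469) (nat_lit 102) (nat_lit 5) (nat_lit 106) (nat_lit 5) (nat_lit 103) (nat_lit 5) (nat_lit 474) (nat_lit 447) (nat_lit 279)) (XT.lf (nat_lit 0) (nat_lit 552494018) (nat_lit 228) (nat_lit 26964596302) (nat_lit 304) (nat_lit 58354703133) (nat_lit 99) (nat_lit 5) (nat_lit 102) (nat_lit 5) (nat_lit 103) (nat_lit 5) (nat_lit 475) (nat_lit 447) (nat_lit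 278))))))) (XT.nd (nat_lit 1170) (nat_lit 1368) (nat_lit 0) (XT.nd (nat_lit 546) (nat_lit 988) (nat_lit 0) (XT.nd (nat_lit 234) (nat_lit 608) (nat_lit 0) (XT.nd (nat_lit 78) (nat_lit 228) (nat_lit 0) (XT.lf (nat_lit 0) (nat_lit 45667654832) (nat_lit 304) (nat_lit 35326842266) (nat_lit 76) (nat_lit 7445509079) (nat_lit 99) (nat_lit 5) (nat_lit 103) (nat_lit 5) (nat_lit 100) (nat_lit 5) (nat_lit 476) (nat_lit 447) (nat_lit 277)) (XT.nd (nat_lit 78) (nat_lit 0) (nat_lit 0) (XT.lf (nat_lit 0) (nat_lit 17274815263) (nat_lit 228) (nat_lit 48161802188) (nat_lit 304) (nat_lit 25664468681) (nat_lit 96) (nat_lit 5) (nat_lit 99) (nat_lit 5) (nat_lit 100) (nat_lit 5) (nat_lit 477) (nat_lit 447) (nat_lit 276)) (XT.lf (nat_lit 0) (nat_lit 73731762633) (nat_lit 228) (nat_lit 13059684035) (nat_lit 304) (nat_lit 7073902574) (nat_lit 96) (nat_lit 5) (nat_lit 99) (nat_lit 5) (nat_lit 100) (nat_lit 5) (nat_lit 478)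 (nat_lit 447) (nat_lit 275)))) (XT.nd (nat_lit 156) (nat_lit 380) (nat_lit 0) (XT.nd (nat_lit 78) (nat_lit 0) (nat_lit 0) (XT.lf (nat_lit 0) (nat_lit 13012684159) (nat_lit 228) (nat_lit 59873238282) (nat_lit 76) (nat_lit 23823944736) (nat_lit 93) (nat_lit 5) (nat_lit 96) (nat_lit 5) (nat_lit 94) (nat_lit 5) (nat_lit 479) (nat_lit 447) (nat_lit 274)) (XT.lf (nat_lit 0) (nat_lit 34425708834) (nat_lit 228) (nat_lit 2662106364) (nat_lit 76) (nat_lit 62575005694) (nat_lit 93) (nat_lit 5) (nat_lit 96) (nat_lit 5) (nat_lit 94) (nat_lit 5) (nat_lit 480) (nat_lit 447) (nat_lit 273))) (XT.nd (nat_lit 78) (nat_lit 152) (nat_lit 0) (XT.lf (nat_lit 0) (nat_lit 57857531258) (nat_lit 304) (nat_lit 43433567721) (nat_lit 76) (nat_lit 1424916058) (nat_lit 90) (nat_lit 5) (nat_lit 94) (nat_lit 5) (nat_lit 91) (nat_lit 5) (nat_lit 481) (nat_lit 447) (nat_lit 272)) (XT.lf (nat_lit 0) (nat_lit 18478532016) (nat_lit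 152) (nat_lit 64923969180) (nat_lit 228) (nat_lit 22472289937) (nat_lit 88) (nat_lit 5) (nat_lit 90) (nat_lit 5) (nat_lit 91) (nat_lit 5) (nat_lit 482) (nat_lit 447) (nat_lit 271))))) (XT.nd (nat_lit 312) (nat_lit 532) (nat_lit 0) (XT.nd (nat_lit 156) (nat_lit 152) (nat_lit 0) (XT.nd (nat_lit 78) (nat_lit 228) (nat_lit 0) (XT.lf (nat_lit 0) (nat_lit 1747011660) (nat_lit 228) (nat_lit 24189967881) (nat_lit 76) (nat_lit 83216376618) (nat_lit 87) (nat_lit 5) (nat_lit 90) (nat_lit 5) (nat_lit 88) (nat_lit 5) (nat_lit 483) (nat_lit 447) (nat_lit 270)) (XT.lf (nat_lit 0) (nat_lit 27346915545) (nat_lit 304) (nat_lit 69605593565) (nat_lit 76) (nat_lit 15578677794) (nat_lit 84) (nat_lit 5) (nat_lit 88) (nat_lit 5) (nat_lit 85) (nat_lit 5) (nat_lit 484) (nat_lit 447) (nat_lit 269))) (XT.nd (nat_lit 78) (nat_lit 152) (nat_lit 0) (XT.lf (nat_lit 0) (nat_lit 55067682539) (nat_lit 304) (nat_lit 2253739965)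 (nat_lit 76) (nat_lit 58714443342) (nat_lit 84) (nat_lit 5) (nat_lit 88) (nat_lit 5) (nat_lit 85) (nat_lit 5) (nat_lit 485) (nat_lit 447) (nat_lit 268)) (XT.lf (nat_lit 0) (nat_lit 70728354771) (nat_lit 152) (nat_lit 14549721740) (nat_lit 228) (nat_lit 34382522842) (nat_lit 82) (nat_lit 5) (nat_lit 84) (nat_lit 5) (nat_lit 85) (nat_lit 5) (nat_lit 486) (nat_lit 447) (nat_lit 267)))) (XT.nd (nat_lit 156) (nat_lit 304) (nat_lit 0) (XT.nd (nat_lit 78) (nat_lit 76) (nat_lit 0) (XT.lf (nat_lit 0) (nat_lit 24274318937) (nat_lit 152) (nat_lit 93615798457) (nat_lit 228) (nat_lit 5531895830) (nat_lit 80) (nat_lit 5) (nat_lit 82) (nat_lit 5) (nat_lit 83) (nat_lit 5) (nat_lit 487) (nat_lit 447) (nat_lit 266)) (XT.lf (nat_lit 0) (nat_lit 25048877639) (nat_lit 228) (nat_lit 25129847107) (nat_lit 76) (nat_lit 77119436943) (nat_lit 79) (nat_lit 5) (nat_lit 82) (nat_lit 5) (nat_lit 80) (nat_lit 5) (nat_lit 488)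 (nat_lit 447) (nat_lit 265))) (XT.nd (nat_lit 78) (nat_lit 152) (nat_lit 0) (XT.lf (nat_lit 0) (nat_lit 54232937622) (nat_lit 152) (nat_lit 3585937830) (nat_lit 228) (nat_lit 73502403144) (nat_lit 77) (nat_lit 5) (nat_lit 79) (nat_lit 5) (nat_lit 80) (nat_lit 5) (nat_lit 489) (nat_lit 447) (nat_lit 264)) (XT.lf (nat_lit 0) (nat_lit 2268781771) (nat_lit 152) (nat_lit 91133778826) (nat_lit 228) (nat_lit 42084231420) (nat_lit 75) (nat_lit 5) (nat_lit 77) (nat_lit 5) (nat_lit 78) (nat_lit 5) (nat_lit 490) (nat_lit 447) (nat_lit 263)))))) (XT.nd (nat_lit 624) (nat_lit 684) (nat_lit 0) (XT.nd (nat_lit 312) (nat_lit 304) (nat_lit 0) (XT.nd (nat_lit 156) (nat_lit 152) (nat_lit 0) (XT.nd (nat_lit 78) (nat_lit 228) (nat_lit 0) (XT.lf (nat_lit 0) (nat_lit 88208313373) (nat_lit 152) (nat_lit 43919868965) (nat_lit 228) (nat_lit 7664261191) (nat_lit 75) (nat_lit 5) (nat_lit 77) (nat_lit 5) (nat_lit 78) (nat_lit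 5) (nat_lit 491) (nat_lit 447) (nat_lit 262)) (XT.lf (nat_lit 0) (nat_lit 28212475716) (nat_lit 228) (nat_lit 109568858679) (nat_lit 76) (nat_lit 6477453163) (nat_lit 72) (nat_lit 5) (nat_lit 75) (nat_lit 5) (nat_lit 73) (nat_lit 5) (nat_lit 492) (nat_lit 447) (nat_lit 261))) (XT.nd (nat_lit 78) (nat_lit 152) (nat_lit 0) (XT.lf (nat_lit 0) (nat_lit 67232813345) (nat_lit 228) (nat_lit 22697182627) (nat_lit 76) (nat_lit 58931804003) (nat_lit 72) (nat_lit 5) (nat_lit 75) (nat_lit 5) (nat_lit 73) (nat_lit 5) (nat_lit 493) (nat_lit 447) (nat_lit 260)) (XT.lf (nat_lit 0) (nat_lit 70782584344) (nat_lit 152) (nat_lit 38526137929) (nat_lit 228) (nat_lit 44331013049) (nat_lit 70) (nat_lit 5) (nat_lit 72) (nat_lit 5) (nat_lit 73) (nat_lit 5) (nat_lit 494) (nat_lit 447) (nat_lit 259)))) (XT.nd (nat_lit 156) (nat_lit 152) (nat_lit 0) (XT.nd (nat_lit 78) (nat_lit 76) (nat_lit 0) (XT.lf (nat_lit 0) (nat_lit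 11196887355) (nat_lit 76) (nat_lit 143097673617) (nat_lit 152) (nat_lit 4321699779) (nat_lit 69) (nat_lit 5) (nat_lit 70) (nat_lit 5) (nat_lit 71) (nat_lit 4) (nat_lit 495) (nat_lit 447) (nat_lit 258)) (XT.lf (nat_lit 0) (nat_lit 38539078429) (nat_lit 152) (nat_lit 52185191934) (nat_lit 76) (nat_lit 72985058629) (nat_lit 68) (nat_lit 5) (nat_lit 70) (nat_lit 5) (nat_lit 69) (nat_lit 5) (nat_lit 496) (nat_lit 447) (nat_lit 257))) (XT.nd (nat_lit 78) (nat_lit 0) (nat_lit 0) (XT.lf (nat_lit 0) (nat_lit 49317376731) (nat_lit 152) (nat_lit 34849737634) (nat_lit 228) (nat_lit 84847921116) (nat_lit 66) (nat_lit 5) (nat_lit 68) (nat_lit 5) (nat_lit 69) (nat_lit 5) (nat_lit 497) (nat_lit 447) (nat_lit 256)) (XT.lf (nat_lit 0) (nat_lit 133346173754) (nat_lit 228) (nat_lit 17222317141) (nat_lit 76) (nat_lit 23954055341) (nat_lit 66) (nat_lit 5) (nat_lit 69) (nat_lit 5) (nat_lit 67) (nat_lit 4) (nat_lit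 498) (nat_lit 447) (nat_lit 255))))) (XT.nd (nat_lit 312) (nat_lit 304) (nat_lit 0) (XT.nd (nat_lit 156) (nat_lit 76) (nat_lit 0) (XT.nd (nat_lit 78) (nat_lit 152) (nat_lit 0) (XT.lf (nat_lit 0) (nat_lit 6581378216) (nat_lit 152) (nat_lit 87536688471) (nat_lit 76) (nat_lit 86081094741) (nat_lit 64) (nat_lit 5) (nat_lit 66) (nat_lit 5) (nat_lit 65) (nat_lit 5) (nat_lit 499) (nat_lit 447) (nat_lit 254)) (XT.lf (nat_lit 0) (nat_lit 22534954170) (nat_lit 152) (nat_lit 33456054473) (nat_lit 228) (nat_lit 130102458219) (nat_lit 62) (nat_lit 5) (nat_lit 64) (nat_lit 5) (nat_lit 65) (nat_lit 5) (nat_lit 500) (nat_lit 447) (nat_lit 253))) (XT.nd (nat_lit 78) (nat_lit 76) (nat_lit 0) (XT.lf (nat_lit 0) (nat_lit 109849524426) (nat_lit 228) (nat_lit 51556431233) (nat_lit 76) (nat_lit 30777611736) (nat_lit 62) (nat_lit 5) (nat_lit 65) (nat_lit 5) (nat_lit 63) (nat_lit 4) (nat_lit 501) (nat_lit 447) (nat_lit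 252)) (XT.lf (nat_lit 0) (nat_lit 67662042059) (nat_lit 76) (nat_lit 100343309686) (nat_lit 152) (nat_lit 30492601942) (nat_lit 61) (nat_lit 5) (nat_lit 62) (nat_lit 5) (nat_lit 63) (nat_lit 4) (nat_lit 502) (nat_lit 447) (nat_lit 251)))) (XT.nd (nat_lit 156) (nat_lit 76) (nat_lit 0) (XT.nd (nat_lit 78) (nat_lit 152) (nat_lit 0) (XT.lf (nat_lit 0) (nat_lit 24061632510) (nat_lit 152) (nat_lit 10842000929) (nat_lit 76) (nat_lit 170161387633) (nat_lit 60) (nat_lit 5) (nat_lit 62) (nat_lit 5) (nat_lit 61) (nat_lit 5) (nat_lit 503) (nat_lit 447) (nat_lit 250)) (XT.lf (nat_lit 0) (nat_lit 82733932759) (nat_lit 228) (nat_lit 93967568975) (nat_lit 76) (nat_lit 35113190902) (nat_lit 58) (nat_lit 5) (nat_lit 61) (nat_lit 5) (nat_lit 59) (nat_lit 4) (nat_lit 504) (nat_lit 447) (nat_lit 249))) (XT.nd (nat_lit 78) (nat_lit 0) (nat_lit 0) (XT.lf (nat_lit 0) (nat_lit 34998596552) (nat_lit 76) (nat_lit 110646051220)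 (nat_lit 152) (nat_lit 73191960031) (nat_lit 57) (nat_lit 5) (nat_lit 58) (nat_lit 5) (nat_lit 59) (nat_lit 4) (nat_lit 505) (nat_lit 447) (nat_lit 248)) (XT.lf (nat_lit 0) (nat_lit 173674601908) (nat_lit 76) (nat_lit 39617249523) (nat_lit 152) (nat_lit 12838219670) (nat_lit 57) (nat_lit 5) (nat_lit 58) (nat_lit 5) (nat_lit 59) (nat_lit 4) (nat_lit 506) (nat_lit 447) (nat_lit 247))))))))
noncomputable def xc190 : XT := (XT.nd (nat_lit 2418) (nat_lit 456) (nat_lit 0) (XT.nd (nat_lit 1170) (nat_lit 988) (nat_lit 0) (XT.nd (nat_lit 546) (nat_lit 608) (nat_lit 0) (XT.nd (nat_lit 234) (nat_lit 228) (nat_lit 0) (XT.nd (nat_lit 78) (nat_lit 76) (nat_lit 0) (XT.lf (nat_lit 0) (nat_lit 50862838724) (nat_lit 228) (nat_lit 146754437167) (nat_lit 76) (nat_lit 36034132975) (nat_lit 54) (nat_lit 5) (nat_lit 57) (nat_lit 5) (nat_lit 55) (nat_lit 4) (nat_lit 507) (nat_lit 447) (nat_lit 246)) (XT.nd (nat_lit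 78) (nat_lit 76) (nat_lit 0) (XT.lf (nat_lit 0) (nat_lit 118869469559) (nat_lit 228) (nat_lit 7341502323) (nat_lit 76) (nat_lit 115249720123) (nat_lit 54) (nat_lit 5) (nat_lit 57) (nat_lit 5) (nat_lit 55) (nat_lit 4) (nat_lit 508) (nat_lit 447) (nat_lit 245)) (XT.lf (nat_lit 0) (nat_lit 143638663200) (nat_lit 76) (nat_lit 48879973452) (nat_lit 152) (nat_lit 57029692426) (nat_lit 53) (nat_lit 5) (nat_lit 54) (nat_lit 5) (nat_lit 55) (nat_lit 4) (nat_lit 509) (nat_lit 447) (nat_lit 244)))) (XT.nd (nat_lit 156) (nat_lit 76) (nat_lit 0) (XT.nd (nat_lit 78) (nat_lit 0) (nat_lit 0) (XT.lf (nat_lit 0) (nat_lit 12792166860) (nat_lit 152) (nat_lit 212847618982) (nat_lit 76) (nat_lit 32323330693) (nat_lit 51) (nat_lit 5) (nat_lit 53) (nat_lit 5) (nat_lit 52) (nat_lit 4) (nat_lit 510) (nat_lit 447) (nat_lit 243)) (XT.lf (nat_lit 0) (nat_lit 86812499249) (nat_lit 152) (nat_lit 61106479227) (nat_lit 76) (nat_lit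 118701721662) (nat_lit 51) (nat_lit 5) (nat_lit 53) (nat_lit 5) (nat_lit 52) (nat_lit 4) (nat_lit 511) (nat_lit 447) (nat_lit 242))) (XT.nd (nat_lit 78) (nat_lit 0) (nat_lit 0) (XT.lf (nat_lit 0) (nat_lit 101468630010) (nat_lit 76) (nat_lit 64649052208) (nat_lit 152) (nat_lit 109514289015) (nat_lit 50) (nat_lit 5) (nat_lit 51) (nat_lit 5) (nat_lit 52) (nat_lit 4) (nat_lit 512) (nat_lit 447) (nat_lit 241)) (XT.lf (nat_lit 0) (nat_lit 250795310943) (nat_lit 152) (nat_lit 11121500698) (nat_lit 0) (nat_lit 23106634921) (nat_lit 50) (nat_lit 5) (nat_lit 52) (nat_lit 4) (nat_lit 50) (nat_lit 4) (nat_lit 513) (nat_lit 447) (nat_lit 240))))) (XT.nd (nat_lit 312) (nat_lit 304) (nat_lit 0) (XT.nd (nat_lit 156) (nat_lit 76) (nat_lit 0) (XT.nd (nat_lit 78) (nat_lit 76) (nat_lit 0) (XT.lf (nat_lit 0) (nat_lit 47071316499) (nat_lit 152) (nat_lit 131192922809) (nat_lit 76) (nat_lit 116401086983) (nat_lit 48)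 (nat_lit 5) (nat_lit 50) (nat_lit 5) (nat_lit 49) (nat_lit 4) (nat_lit 514) (nat_lit 447) (nat_lit 239)) (XT.lf (nat_lit 0) (nat_lit 43220675071) (nat_lit 76) (nat_lit 88930652291) (nat_lit 152) (nat_lit 172566623006) (nat_lit 47) (nat_lit 5) (nat_lit 48) (nat_lit 5) (nat_lit 49) (nat_lit 4) (nat_lit 515) (nat_lit 447) (nat_lit 238))) (XT.nd (nat_lit 78) (nat_lit 76) (nat_lit 0) (XT.lf (nat_lit 0) (nat_lit 223819251667) (nat_lit 152) (nat_lit 84365578303) (nat_lit 0) (nat_lit 6971680043) (nat_lit 47) (nat_lit 5) (nat_lit 49) (nat_lit 4) (nat_lit 47) (nat_lit 4) (nat_lit 516) (nat_lit 447) (nat_lit 237)) (XT.lf (nat_lit 0) (nat_lit 103476049721) (nat_lit 76) (nat_lit 219667615745) (nat_lit 76) (nat_lit 2819677517) (nat_lit 46) (nat_lit 4) (nat_lit 47) (nat_lit 5) (nat_lit 47) (nat_lit 4) (nat_lit 517) (nat_lit 447) (nat_lit 236)))) (XT.nd (nat_lit 156) (nat_lit 152) (nat_lit 0) (XT.nd (nat_lit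 78) (nat_lit 76) (nat_lit 0) (XT.lf (nat_lit 0) (nat_lit 88691116052) (nat_lit 152) (nat_lit 35031499467) (nat_lit 76) (nat_lit 213444954971) (nat_lit 45) (nat_lit 5) (nat_lit 47) (nat_lit 5) (nat_lit 46) (nat_lit 4) (nat_lit 518) (nat_lit 447) (nat_lit 235)) (XT.lf (nat_lit 0) (nat_lit 167098429589) (nat_lit 76) (nat_lit 20192814062) (nat_lit 152) (nat_lit 161508026816) (nat_lit 44) (nat_lit 5) (nat_lit 45) (nat_lit 5) (nat_lit 46) (nat_lit 4) (nat_lit 519) (nat_lit 447) (nat_lit 234))) (XT.nd (nat_lit 78) (nat_lit 76) (nat_lit 0) (XT.lf (nat_lit 0) (nat_lit 18776860981) (nat_lit 76) (nat_lit 274322300998) (nat_lit 76) (nat_lit 67799504252) (nat_lit 43) (nat_lit 4) (nat_lit 44) (nat_lit 5) (nat_lit 44) (nat_lit 4) (nat_lit 520) (nat_lit 447) (nat_lit 233)) (XT.lf (nat_lit 0) (nat_lit 33073579056) (nat_lit 152) (nat_lit 138722246924) (nat_lit 76) (nat_lit 201610405164) (nat_lit 42) (nat_lit 5)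 (nat_lit 44) (nat_lit 5) (nat_lit 43) (nat_lit 4) (nat_lit 521) (nat_lit 447) (nat_lit 232)))))) (XT.nd (nat_lit 624) (nat_lit 456) (nat_lit 0) (XT.nd (nat_lit 312) (nat_lit 304) (nat_lit 0) (XT.nd (nat_lit 156) (nat_lit 152) (nat_lit 0) (XT.nd (nat_lit 78) (nat_lit 0) (nat_lit 0) (XT.lf (nat_lit 0) (nat_lit 76173246357) (nat_lit 76) (nat_lit 61727536039) (nat_lit 152) (nat_lit 248523369857) (nat_lit 41) (nat_lit 5) (nat_lit 42) (nat_lit 5) (nat_lit 43) (nat_lit 4) (nat_lit 522) (nat_lit 447) (nat_lit 231)) (XT.lf (nat_lit 0) (nat_lit 251197543025) (nat_lit 152) (nat_lit 94225633608) (nat_lit 0) (nat_lit 54508382934) (nat_lit 41) (nat_lit 5) (nat_lit 43) (nat_lit 4) (nat_lit 41) (nat_lit 4) (nat_lit 523) (nat_lit 447) (nat_lit 230))) (XT.nd (nat_lit 78) (nat_lit 76) (nat_lit 0) (XT.lf (nat_lit 0) (nat_lit 135939314759) (nat_lit 76) (nat_lit 237353858657) (nat_lit 76) (nat_lit 40664462249) (nat_lit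 40) (nat_lit 4) (nat_lit 41) (nat_lit 5) (nat_lit 41) (nat_lit 4) (nat_lit 524) (nat_lit 447) (nat_lit 229)) (XT.lf (nat_lit 0) (nat_lit 72099869082) (nat_lit 152) (nat_lit 48884889852) (nat_lit 76) (nat_lit 307562337936) (nat_lit 39) (nat_lit 5) (nat_lit 41) (nat_lit 5) (nat_lit 40) (nat_lit 4) (nat_lit 525) (nat_lit 447) (nat_lit 228)))) (XT.nd (nat_lit 156) (nat_lit 228) (nat_lit 0) (XT.nd (nat_lit 78) (nat_lit 0) (nat_lit 0) (XT.lf (nat_lit 0) (nat_lit 192297024130) (nat_lit 152) (nat_lit 246404244523) (nat_lit 0) (nat_lit 4973370971) (nat_lit 38) (nat_lit 5) (nat_lit 40) (nat_lit 4) (nat_lit 38) (nat_lit 4) (nat_lit 526) (nat_lit 447) (nat_lit 227)) (XT.lf (nat_lit 0) (nat_lit 321328580866) (nat_lit 152) (nat_lit 4084018169) (nat_lit 0) (nat_lit 134004733289) (nat_lit 38) (nat_lit 5) (nat_lit 40) (nat_lit 4) (nat_lit 38) (nat_lit 4) (nat_lit 527) (nat_lit 447) (nat_lit 226))) (XT.nd (nat_lit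 78) (nat_lit 152) (nat_lit 0) (XT.lf (nat_lit 0) (nat_lit 258629461492) (nat_lit 76) (nat_lit 202219923710) (nat_lit 76) (nat_lit 14895890972) (nat_lit 37) (nat_lit 4) (nat_lit 38) (nat_lit 5) (nat_lit 38) (nat_lit 4) (nat_lit 528) (nat_lit 447) (nat_lit 225)) (XT.lf (nat_lit 0) (nat_lit 41266387578) (nat_lit 76) (nat_lit 70241220547) (nat_lit 152) (nat_lit 381256943572) (nat_lit 35) (nat_lit 5) (nat_lit 36) (nat_lit 5) (nat_lit 37) (nat_lit 4) (nat_lit 529) (nat_lit 447) (nat_lit 224))))) (XT.nd (nat_lit 312) (nat_lit 228) (nat_lit 0) (XT.nd (nat_lit 156) (nat_lit 152) (nat_lit 0) (XT.nd (nat_lit 78) (nat_lit 76) (nat_lit 0) (XT.lf (nat_lit 0) (nat_lit 248534584897) (nat_lit 152) (nat_lit 191717384939) (nat_lit 0) (nat_lit 70130416300) (nat_lit 35) (nat_lit 5) (nat_lit 37) (nat_lit 4) (nat_lit 35) (nat_lit 4) (nat_lit 530) (nat_lit 447) (nat_lit 223)) (XT.lf (nat_lit 0) (nat_lit 82542315156)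 (nat_lit 76) (nat_lit 312310559922) (nat_lit 76) (nat_lit 133906238994) (nat_lit 34) (nat_lit 4) (nat_lit 35) (nat_lit 5) (nat_lit 35) (nat_lit 4) (nat_lit 531) (nat_lit 447) (nat_lit 222))) (XT.nd (nat_lit 78) (nat_lit 76) (nat_lit 0) (XT.lf (nat_lit 0) (nat_lit 3718367698) (nat_lit 152) (nat_lit 170781812223) (nat_lit 76) (nat_lit 373389170642) (nat_lit 33) (nat_lit 5) (nat_lit 35) (nat_lit 5) (nat_lit 34) (nat_lit 4) (nat_lit 532) (nat_lit 447) (nat_lit 221)) (XT.lf (nat_lit 0) (nat_lit 120072335156) (nat_lit 76) (nat_lit 25526171834) (nat_lit 152) (nat_lit 422174111181) (nat_lit 32) (nat_lit 5) (nat_lit 33) (nat_lit 5) (nat_lit 34) (nat_lit 4) (nat_lit 533) (nat_lit 447) (nat_lit 220)))) (XT.nd (nat_lit 156) (nat_lit 152) (nat_lit 0) (XT.nd (nat_lit 78) (nat_lit 76) (nat_lit 0) (XT.lf (nat_lit 0) (nat_lit 299555766701) (nat_lit 152) (nat_lit 159198632246) (nat_lit 0) (nat_lit 129646494543)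 (nat_lit 32) (nat_lit 5) (nat_lit 34) (nat_lit 4) (nat_lit 32) (nat_lit 4) (nat_lit 534) (nat_lit 447) (nat_lit 219)) (XT.lf (nat_lit 0) (nat_lit 148047641251) (nat_lit 76) (nat_lit 315892924510) (nat_lit 76) (nat_lit 145983532997) (nat_lit 31) (nat_lit 4) (nat_lit 32) (nat_lit 5) (nat_lit 32) (nat_lit 4) (nat_lit 535) (nat_lit 447) (nat_lit 218))) (XT.nd (nat_lit 78) (nat_lit 76) (nat_lit 0) (XT.lf (nat_lit 0) (nat_lit 6632519340) (nat_lit 152) (nat_lit 156312840538) (nat_lit 76) (nat_lit 469437961327) (nat_lit 30) (nat_lit 5) (nat_lit 32) (nat_lit 5) (nat_lit 31) (nat_lit 4) (nat_lit 536) (nat_lit 447) (nat_lit 217)) (XT.lf (nat_lit 0) (nat_lit 164633646233) (nat_lit 152) (nat_lit 488264219353) (nat_lit 0) (nat_lit 2814966762) (nat_lit 29) (nat_lit 5) (nat_lit 31) (nat_lit 4) (nat_lit 29) (nat_lit 4) (nat_lit 537) (nat_lit 447) (nat_lit 216))))))) (XT.nd (nat_lit 55926) (nat_lit 0) (nat_lit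 7144) (XT.nd (nat_lit 546) (nat_lit 152) (nat_lit 0) (XT.nd (nat_lit 234) (nat_lit 228) (nat_lit 0) (XT.nd (nat_lit 78) (nat_lit 76) (nat_lit 0) (XT.lf (nat_lit 0) (nat_lit 335896482877) (nat_lit 152) (nat_lit 169966548290) (nat_lit 0) (nat_lit 174077705211) (nat_lit 29) (nat_lit 5) (nat_lit 31) (nat_lit 4) (nat_lit 29) (nat_lit 4) (nat_lit 538) (nat_lit 447) (nat_lit 215)) (XT.nd (nat_lit 78) (nat_lit 0) (nat_lit 0) (XT.lf (nat_lit 0) (nat_lit 169676301618) (nat_lit 76) (nat_lit 348695079594) (nat_lit 76) (nat_lit 186876208409) (nat_lit 28) (nat_lit 4) (nat_lit 29) (nat_lit 5) (nat_lit 29) (nat_lit 4) (nat_lit 539) (nat_lit 447) (nat_lit 214)) (XT.lf (nat_lit 0) (nat_lit 532201749324) (nat_lit 76) (nat_lit 180646541565) (nat_lit 76) (nat_lit 18827581315) (nat_lit 28) (nat_lit 4) (nat_lit 29) (nat_lit 5) (nat_lit 29) (nat_lit 4) (nat_lit 540) (nat_lit 447) (nat_lit 213)))) (XT.nd (nat_lit 156)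 (nat_lit 76) (nat_lit 0) (XT.nd (nat_lit 78) (nat_lit 0) (nat_lit 0) (XT.lf (nat_lit 0) (nat_lit 155028045959) (nat_lit 152) (nat_lit 603237330829) (nat_lit 0) (nat_lit 914669698) (nat_lit 26) (nat_lit 5) (nat_lit 28) (nat_lit 4) (nat_lit 26) (nat_lit 4) (nat_lit 541) (nat_lit 447) (nat_lit 212)) (XT.lf (nat_lit 0) (nat_lit 343338521420) (nat_lit 152) (nat_lit 255160667547) (nat_lit 0) (nat_lit 189225068221) (nat_lit 26) (nat_lit 5) (nat_lit 28) (nat_lit 4) (nat_lit 26) (nat_lit 4) (nat_lit 542) (nat_lit 447) (nat_lit 211))) (XT.nd (nat_lit 78) (nat_lit 0) (nat_lit 0) (XT.lf (nat_lit 0) (nat_lit 113967119819) (nat_lit 76) (nat_lit 428876563474) (nat_lit 76) (nat_lit 274763037001) (nat_lit 25) (nat_lit 4) (nat_lit 26) (nat_lit 5) (nat_lit 26) (nat_lit 4) (nat_lit 543) (nat_lit 447) (nat_lit 210)) (XT.lf (nat_lit 0) (nat_lit 510409536056) (nat_lit 76) (nat_lit 246235656156) (nat_lit 76) (nat_lit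 92122059898) (nat_lit 25) (nat_lit 4) (nat_lit 26) (nat_lit 5) (nat_lit 26) (nat_lit 4) (nat_lit 544) (nat_lit 447) (nat_lit 209))))) (XT.nd (nat_lit 55068) (nat_lit 0) (nat_lit 9500) (XT.nd (nat_lit 54912) (nat_lit 0) (nat_lit 9424) (XT.nd (nat_lit 78) (nat_lit 0) (nat_lit 0) (XT.lf (nat_lit 0) (nat_lit 45074754155) (nat_lit 76) (nat_lit 52090327247) (nat_lit 152) (nat_lit 784207759144) (nat_lit 23) (nat_lit 5) (nat_lit 24) (nat_lit 5) (nat_lit 25) (nat_lit 4) (nat_lit 545) (nat_lit 447) (nat_lit 208)) (XT.lf (nat_lit 0) (nat_lit 301014124552) (nat_lit 152) (nat_lit 459870254071) (nat_lit 0) (nat_lit 154239147393) (nat_lit 23) (nat_lit 5) (nat_lit 25) (nat_lit 4) (nat_lit 23) (nat_lit 4) (nat_lit 546) (nat_lit 447) (nat_lit 207))) (XT.nd (nat_lit 78) (nat_lit 0) (nat_lit 0) (XT.lf (nat_lit 0) (nat_lit 8533665784) (nat_lit 836) (nat_lit 6297004742) (nat_lit 836) (nat_lit 6297004742) (nat_lit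 147) (nat_lit 3) (nat_lit 158) (nat_lit 3) (nat_lit 158) (nat_lit 5) (nat_lit 448) (nat_lit 448) (nat_lit 304)) (XT.lf (nat_lit 76) (nat_lit 8639087568) (nat_lit 0) (nat_lit 9025851748) (nat_lit 836) (nat_lit 25638243184) (nat_lit 148) (nat_lit 5) (nat_lit 147) (nat_lit 3) (nat_lit 158) (nat_lit 5) (nat_lit 449) (nat_lit 448) (nat_lit 303)))) (XT.nd (nat_lit 156) (nat_lit 0) (nat_lit 76) (XT.nd (nat_lit 78) (nat_lit 0) (nat_lit 0) (XT.lf (nat_lit 0) (nat_lit 18704267428) (nat_lit 760) (nat_lit 13223916131) (nat_lit 836) (nat_lit 12454630863) (nat_lit 148) (nat_lit 5) (nat_lit 158) (nat_lit 5) (nat_lit 159) (nat_lit 5) (nat_lit 450) (nat_lit 448) (nat_lit 302)) (XT.lf (nat_lit 76) (nat_lit 9441163949) (nat_lit 0) (nat_lit 10647565783) (nat_lit 836) (nat_lit 25413040159) (nat_lit 149) (nat_lit 5) (nat_lit 148) (nat_lit 5) (nat_lit 159) (nat_lit 5) (nat_lit 451) (nat_lit 448) (nat_lit 301))) (XT.nd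 (nat_lit 78) (nat_lit 0) (nat_lit 0) (XT.lf (nat_lit 0) (nat_lit 21950561427) (nat_lit 760) (nat_lit 13154585207) (nat_lit 836) (nat_lit 11551119508) (nat_lit 149) (nat_lit 5) (nat_lit 159) (nat_lit 5) (nat_lit 160) (nat_lit 5) (nat_lit 452) (nat_lit 448) (nat_lit 300)) (XT.lf (nat_lit 76) (nat_lit 11075316379) (nat_lit 0) (nat_lit 13175632687) (nat_lit 836) (nat_lit 23600265230) (nat_lit 150) (nat_lit 5) (nat_lit 149) (nat_lit 5) (nat_lit 160) (nat_lit 5) (nat_lit 453) (nat_lit 448) (nat_lit 299)))))) (XT.nd (nat_lit 624) (nat_lit 1444) (nat_lit 0) (XT.nd (nat_lit 312) (nat_lit 1064) (nat_lit 0) (XT.nd (nat_lit 156) (nat_lit 0) (nat_lit 76) (XT.nd (nat_lit 78) (nat_lit 0) (nat_lit 0) (XT.lf (nat_lit 0) (nat_lit 27044660541) (nat_lit 760) (nat_lit 12280237674) (nat_lit 836) (nat_lit 9762096714) (nat_lit 150) (nat_lit 5) (nat_lit 160) (nat_lit 5) (nat_lit 161) (nat_lit 5) (nat_lit 454) (nat_lit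 448) (nat_lit 298)) (XT.lf (nat_lit 76) (nat_lit 13660053358) (nat_lit 0) (nat_lit 16745442675) (nat_lit 836) (nat_lit 19957696919) (nat_lit 151) (nat_lit 5) (nat_lit 150) (nat_lit 5) (nat_lit 161) (nat_lit 5) (nat_lit 455) (nat_lit 448) (nat_lit 297))) (XT.nd (nat_lit 78) (nat_lit 0) (nat_lit 0) (XT.lf (nat_lit 0) (nat_lit 34252711479) (nat_lit 760) (nat_lit 10482660406) (nat_lit 836) (nat_lit 6951912348) (nat_lit 151) (nat_lit 5) (nat_lit 161) (nat_lit 5) (nat_lit 162) (nat_lit 5) (nat_lit 456) (nat_lit 448) (nat_lit 296)) (XT.lf (nat_lit 76) (nat_lit 17327547405) (nat_lit 0) (nat_lit 21508116193) (nat_lit 836) (nat_lit 14214747939) (nat_lit 152) (nat_lit 5) (nat_lit 151) (nat_lit 5) (nat_lit 162) (nat_lit 5) (nat_lit 457) (nat_lit 448) (nat_lit 295)))) (XT.nd (nat_lit 156) (nat_lit 456) (nat_lit 0) (XT.nd (nat_lit 78) (nat_lit 760) (nat_lit 0) (XT.lf (nat_lit 0) (nat_lit 43871566824) (nat_lit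 760) (nat_lit 7629934406) (nat_lit 76) (nat_lit 2969004041) (nat_lit 152) (nat_lit 5) (nat_lit 162) (nat_lit 5) (nat_lit 153) (nat_lit 5) (nat_lit 458) (nat_lit 448) (nat_lit 294)) (XT.lf (nat_lit 0) (nat_lit 22225025021) (nat_lit 760) (nat_lit 27632295329) (nat_lit 836) (nat_lit 6069380816) (nat_lit 142) (nat_lit 5) (nat_lit 152) (nat_lit 5) (nat_lit 153) (nat_lit 5) (nat_lit 459) (nat_lit 448) (nat_lit 293))) (XT.nd (nat_lit 78) (nat_lit 456) (nat_lit 0) (XT.lf (nat_lit 0) (nat_lit 53836284205) (nat_lit 760) (nat_lit 2433814110) (nat_lit 836) (nat_lit 1179221921) (nat_lit 142) (nat_lit 5) (nat_lit 152) (nat_lit 5) (nat_lit 153) (nat_lit 5) (nat_lit 460) (nat_lit 448) (nat_lit 292)) (XT.lf (nat_lit 0) (nat_lit 4661173516) (nat_lit 456) (nat_lit 30566012286) (nat_lit 76) (nat_lit 23776180502) (nat_lit 136) (nat_lit 5) (nat_lit 142) (nat_lit 5) (nat_lit 137) (nat_lit 5) (nat_lit 461) (nat_lit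 448) (nat_lit 291))))) (XT.nd (nat_lit 312) (nat_lit 684) (nat_lit 0) (XT.nd (nat_lit 156) (nat_lit 380) (nat_lit 0) (XT.nd (nat_lit 78) (nat_lit 0) (nat_lit 0) (XT.lf (nat_lit 0) (nat_lit 1572361721) (nat_lit 380) (nat_lit 9306852988) (nat_lit 456) (nat_lit 49748670800) (nat_lit 131) (nat_lit 5) (nat_lit 136) (nat_lit 5) (nat_lit 137) (nat_lit 5) (nat_lit 462) (nat_lit 448) (nat_lit 290)) (XT.lf (nat_lit 0) (nat_lit 18212572614) (nat_lit 456) (nat_lit 26218434285) (nat_lit 76) (nat_lit 17862403223) (nat_lit 131) (nat_lit 5) (nat_lit 137) (nat_lit 5) (nat_lit 132) (nat_lit 5) (nat_lit 463) (nat_lit 448) (nat_lit 289))) (XT.nd (nat_lit 78) (nat_lit 0) (nat_lit 0) (XT.lf (nat_lit 0) (nat_lit 8374626315) (nat_lit 380) (nat_lit 17820019552) (nat_lit 456) (nat_lit 37833462899) (nat_lit 126) (nat_lit 5) (nat_lit 131) (nat_lit 5) (nat_lit 132) (nat_lit 5) (nat_lit 464) (nat_lit 448) (nat_lit 288)) (XT.lf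 (nat_lit 0) (nat_lit 35183912125) (nat_lit 456) (nat_lit 20386451752) (nat_lit 76) (nat_lit 10248774160) (nat_lit 126) (nat_lit 5) (nat_lit 132) (nat_lit 5) (nat_lit 127) (nat_lit 5) (nat_lit 465) (nat_lit 448) (nat_lit 287)))) (XT.nd (nat_lit 156) (nat_lit 380) (nat_lit 0) (XT.nd (nat_lit 78) (nat_lit 0) (nat_lit 0) (XT.lf (nat_lit 0) (nat_lit 16891094779) (nat_lit 304) (nat_lit 28286217781) (nat_lit 380) (nat_lit 22494672824) (nat_lit 122) (nat_lit 5) (nat_lit 126) (nat_lit 5) (nat_lit 127) (nat_lit 5) (nat_lit 466) (nat_lit 448) (nat_lit 286)) (XT.lf (nat_lit 0) (nat_lit 56025806602) (nat_lit 380) (nat_lit 12872594157) (nat_lit 76) (nat_lit 701303310) (nat_lit 122) (nat_lit 5) (nat_lit 127) (nat_lit 5) (nat_lit 123) (nat_lit 5) (nat_lit 467) (nat_lit 448) (nat_lit 285))) (XT.nd (nat_lit 78) (nat_lit 76) (nat_lit 0) (XT.lf (nat_lit 0) (nat_lit 27341204464) (nat_lit 304) (nat_lit 40965012002)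 (nat_lit 380) (nat_lit 3273117808) (nat_lit 118) (nat_lit 5) (nat_lit 122) (nat_lit 5) (nat_lit 123) (nat_lit 5) (nat_lit 468) (nat_lit 448) (nat_lit 284)) (XT.lf (nat_lit 0) (nat_lit 7521789118) (nat_lit 380) (nat_lit 3757090202) (nat_lit 76) (nat_lit 62362153570) (nat_lit 117) (nat_lit 5) (nat_lit 122) (nat_lit 5) (nat_lit 118) (nat_lit 5) (nat_lit 469) (nat_lit 448) (nat_lit 283))))))))
noncomputable def xc191 : XT := (XT.nd (nat_lit 2418) (nat_lit 2280) (nat_lit 0) (XT.nd (nat_lit 1170) (nat_lit 1748) (nat_lit 0) (XT.nd (nat_lit 546) (nat_lit 912) (nat_lit 0) (XT.nd (nat_lit 234) (nat_lit 760) (nat_lit 0) (XT.nd (nat_lit 78) (nat_lit 304) (nat_lit 0) (XT.lf (nat_lit 0) (nat_lit 19691171014) (nat_lit 380) (nat_lit 36121184527) (nat_lit 76) (nat_lit 19943541741) (nat_lit 113) (nat_lit 5) (nat_lit 118) (nat_lit 5) (nat_lit 114) (nat_lit 5) (nat_lit 470) (nat_lit 448) (nat_lit 282)) (XT.nd (nat_lit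 78) (nat_lit 0) (nat_lit 0) (XT.lf (nat_lit 0) (nat_lit 7402945674) (nat_lit 304) (nat_lit 25430229574) (nat_lit 380) (nat_lit 45125122103) (nat_lit 109) (nat_lit 5) (nat_lit 113) (nat_lit 5) (nat_lit 114) (nat_lit 5) (nat_lit 471) (nat_lit 448) (nat_lit 281)) (XT.lf (nat_lit 0) (nat_lit 47354093512) (nat_lit 380) (nat_lit 25995257283) (nat_lit 76) (nat_lit 6885376044) (nat_lit 109) (nat_lit 5) (nat_lit 114) (nat_lit 5) (nat_lit 110) (nat_lit 5) (nat_lit 472) (nat_lit 448) (nat_lit 280)))) (XT.nd (nat_lit 156) (nat_lit 532) (nat_lit 0) (XT.nd (nat_lit 78) (nat_lit 0) (nat_lit 0) (XT.lf (nat_lit 0) (nat_lit 21048398886) (nat_lit 228) (nat_lit 42297243963) (nat_lit 304) (nat_lit 19242105804) (nat_lit 106) (nat_lit 5) (nat_lit 109) (nat_lit 5) (nat_lit 110) (nat_lit 5) (nat_lit 473) (nat_lit 448) (nat_lit 279)) (XT.lf (nat_lit 0) (nat_lit 71345520256) (nat_lit 228) (nat_lit 9230588560) (nat_lit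 304) (nat_lit 4460345880) (nat_lit 106) (nat_lit 5) (nat_lit 109) (nat_lit 5) (nat_lit 110) (nat_lit 5) (nat_lit 474) (nat_lit 448) (nat_lit 278))) (XT.nd (nat_lit 78) (nat_lit 228) (nat_lit 0) (XT.lf (nat_lit 0) (nat_lit 11702738002) (nat_lit 304) (nat_lit 50401288628) (nat_lit 76) (nat_lit 25445123178) (nat_lit 102) (nat_lit 5) (nat_lit 106) (nat_lit 5) (nat_lit 103) (nat_lit 5) (nat_lit 475) (nat_lit 448) (nat_lit 277)) (XT.lf (nat_lit 0) (nat_lit 618373604) (nat_lit 228) (nat_lit 28301489114) (nat_lit 304) (nat_lit 61244171847) (nat_lit 99) (nat_lit 5) (nat_lit 102) (nat_lit 5) (nat_lit 103) (nat_lit 5) (nat_lit 476) (nat_lit 448) (nat_lit 276))))) (XT.nd (nat_lit 312) (nat_lit 456) (nat_lit 0) (XT.nd (nat_lit 156) (nat_lit 228) (nat_lit 0) (XT.nd (nat_lit 78) (nat_lit 228) (nat_lit 0) (XT.lf (nat_lit 0) (nat_lit 47976842226) (nat_lit 304) (nat_lit 37055635386) (nat_lit 76) (nat_lit 7828236103)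 (nat_lit 99) (nat_lit 5) (nat_lit 103) (nat_lit 5) (nat_lit 100) (nat_lit 5) (nat_lit 477) (nat_lit 448) (nat_lit 275)) (XT.lf (nat_lit 0) (nat_lit 18175499391) (nat_lit 228) (nat_lit 50558101581) (nat_lit 304) (nat_lit 26921279415) (nat_lit 96) (nat_lit 5) (nat_lit 99) (nat_lit 5) (nat_lit 100) (nat_lit 5) (nat_lit 478) (nat_lit 448) (nat_lit 274))) (XT.nd (nat_lit 78) (nat_lit 228) (nat_lit 0) (XT.lf (nat_lit 0) (nat_lit 77453534921) (nat_lit 228) (nat_lit 13701438983) (nat_lit 304) (nat_lit 7402442751) (nat_lit 96) (nat_lit 5) (nat_lit 99) (nat_lit 5) (nat_lit 100) (nat_lit 5) (nat_lit 479) (nat_lit 448) (nat_lit 273)) (XT.lf (nat_lit 0) (nat_lit 13687243718) (nat_lit 228) (nat_lit 62830482155) (nat_lit 76) (nat_lit 25026436305) (nat_lit 93) (nat_lit 5) (nat_lit 96) (nat_lit 5) (nat_lit 94) (nat_lit 5) (nat_lit 480) (nat_lit 448) (nat_lit 272)))) (XT.nd (nat_lit 156) (nat_lit 228) (nat_lit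 0) (XT.nd (nat_lit 78) (nat_lit 228) (nat_lit 0) (XT.lf (nat_lit 0) (nat_lit 36169780325) (nat_lit 228) (nat_lit 2760527834) (nat_lit 76) (nat_lit 65714512486) (nat_lit 93) (nat_lit 5) (nat_lit 96) (nat_lit 5) (nat_lit 94) (nat_lit 5) (nat_lit 481) (nat_lit 448) (nat_lit 271)) (XT.lf (nat_lit 0) (nat_lit 60772827244) (nat_lit 304) (nat_lit 45570193738) (nat_lit 76) (nat_lit 1507671940) (nat_lit 90) (nat_lit 5) (nat_lit 94) (nat_lit 5) (nat_lit 91) (nat_lit 5) (nat_lit 482) (nat_lit 448) (nat_lit 270))) (XT.nd (nat_lit 78) (nat_lit 76) (nat_lit 0) (XT.lf (nat_lit 0) (nat_lit 19436945625) (nat_lit 152) (nat_lit 68157570902) (nat_lit 228) (nat_lit 23572917845) (nat_lit 88) (nat_lit 5) (nat_lit 90) (nat_lit 5) (nat_lit 91) (nat_lit 5) (nat_lit 483) (nat_lit 448) (nat_lit 269)) (XT.lf (nat_lit 0) (nat_lit 1855553552) (nat_lit 228) (nat_lit 25365919188) (nat_lit 76) (nat_lit 87388490024) (nat_lit 87)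 (nat_lit 5) (nat_lit 90) (nat_lit 5) (nat_lit 88) (nat_lit 5) (nat_lit 484) (nat_lit 448) (nat_lit 268)))))) (XT.nd (nat_lit 624) (nat_lit 836) (nat_lit 0) (XT.nd (nat_lit 312) (nat_lit 380) (nat_lit 0) (XT.nd (nat_lit 156) (nat_lit 304) (nat_lit 0) (XT.nd (nat_lit 78) (nat_lit 0) (nat_lit 0) (XT.lf (nat_lit 0) (nat_lit 28735151007) (nat_lit 304) (nat_lit 73052022974) (nat_lit 76) (nat_lit 16369526225) (nat_lit 84) (nat_lit 5) (nat_lit 88) (nat_lit 5) (nat_lit 85) (nat_lit 5) (nat_lit 485) (nat_lit 448) (nat_lit 267)) (XT.lf (nat_lit 0) (nat_lit 57840961604) (nat_lit 304) (nat_lit 2334188611) (nat_lit 76) (nat_lit 61661512691) (nat_lit 84) (nat_lit 5) (nat_lit 88) (nat_lit 5) (nat_lit 85) (nat_lit 5) (nat_lit 486) (nat_lit 448) (nat_lit 266))) (XT.nd (nat_lit 78) (nat_lit 152) (nat_lit 0) (XT.lf (nat_lit 0) (nat_lit 74296490888) (nat_lit 152) (nat_lit 15264932221) (nat_lit 228) (nat_lit 36081232658)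 (nat_lit 82) (nat_lit 5) (nat_lit 84) (nat_lit 5) (nat_lit 85) (nat_lit 5) (nat_lit 487) (nat_lit 448) (nat_lit 265)) (XT.lf (nat_lit 0) (nat_lit 25520010961) (nat_lit 152) (nat_lit 98283810996) (nat_lit 228) (nat_lit 5788330647) (nat_lit 80) (nat_lit 5) (nat_lit 82) (nat_lit 5) (nat_lit 83) (nat_lit 5) (nat_lit 488) (nat_lit 448) (nat_lit 264)))) (XT.nd (nat_lit 156) (nat_lit 152) (nat_lit 0) (XT.nd (nat_lit 78) (nat_lit 152) (nat_lit 0) (XT.lf (nat_lit 0) (nat_lit 26319906978) (nat_lit 228) (nat_lit 26355270315) (nat_lit 76) (nat_lit 80986961986) (nat_lit 79) (nat_lit 5) (nat_lit 82) (nat_lit 5) (nat_lit 80) (nat_lit 5) (nat_lit 489) (nat_lit 448) (nat_lit 263)) (XT.lf (nat_lit 0) (nat_lit 56975152535) (nat_lit 152) (nat_lit 3752844377) (nat_lit 228) (nat_lit 77158435566) (nat_lit 77) (nat_lit 5) (nat_lit 79) (nat_lit 5) (nat_lit 80) (nat_lit 5) (nat_lit 490) (nat_lit 448) (nat_lit 262))) (XT.nd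 (nat_lit 78) (nat_lit 0) (nat_lit 0) (XT.lf (nat_lit 0) (nat_lit 2413000900) (nat_lit 152) (nat_lit 95677664609) (nat_lit 228) (nat_lit 44169566156) (nat_lit 75) (nat_lit 5) (nat_lit 77) (nat_lit 5) (nat_lit 78) (nat_lit 5) (nat_lit 491) (nat_lit 448) (nat_lit 261)) (XT.lf (nat_lit 0) (nat_lit 92648043366) (nat_lit 152) (nat_lit 46103668929) (nat_lit 228) (nat_lit 8029496313) (nat_lit 75) (nat_lit 5) (nat_lit 77) (nat_lit 5) (nat_lit 78) (nat_lit 5) (nat_lit 492) (nat_lit 448) (nat_lit 260))))) (XT.nd (nat_lit 312) (nat_lit 380) (nat_lit 0) (XT.nd (nat_lit 156) (nat_lit 228) (nat_lit 0) (XT.nd (nat_lit 78) (nat_lit 0) (nat_lit 0) (XT.lf (nat_lit 0) (nat_lit 29640325711) (nat_lit 228) (nat_lit 115017233597) (nat_lit 76) (nat_lit 6813305360) (nat_lit 72) (nat_lit 5) (nat_lit 75) (nat_lit 5) (nat_lit 73) (nat_lit 5) (nat_lit 493) (nat_lit 448) (nat_lit 259)) (XT.lf (nat_lit 0) (nat_lit 70610859926)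 (nat_lit 228) (nat_lit 23803405553) (nat_lit 76) (nat_lit 61889803288) (nat_lit 72) (nat_lit 5) (nat_lit 75) (nat_lit 5) (nat_lit 73) (nat_lit 5) (nat_lit 494) (nat_lit 448) (nat_lit 258))) (XT.nd (nat_lit 78) (nat_lit 76) (nat_lit 0) (XT.lf (nat_lit 0) (nat_lit 74349887893) (nat_lit 152) (nat_lit 40440335054) (nat_lit 228) (nat_lit 46530695046) (nat_lit 70) (nat_lit 5) (nat_lit 72) (nat_lit 5) (nat_lit 73) (nat_lit 5) (nat_lit 495) (nat_lit 448) (nat_lit 257)) (XT.lf (nat_lit 0) (nat_lit 11785056738) (nat_lit 76) (nat_lit 150240154160) (nat_lit 152) (nat_lit 4521065970) (nat_lit 69) (nat_lit 5) (nat_lit 70) (nat_lit 5) (nat_lit 71) (nat_lit 4) (nat_lit 496) (nat_lit 448) (nat_lit 256)))) (XT.nd (nat_lit 156) (nat_lit 152) (nat_lit 0) (XT.nd (nat_lit 78) (nat_lit 152) (nat_lit 0) (XT.lf (nat_lit 0) (nat_lit 40481445391) (nat_lit 152) (nat_lit 54766964951) (nat_lit 76) (nat_lit 76645613698) (nat_lit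 68) (nat_lit 5) (nat_lit 70) (nat_lit 5) (nat_lit 69) (nat_lit 5) (nat_lit 497) (nat_lit 448) (nat_lit 255)) (XT.lf (nat_lit 0) (nat_lit 51810288816) (nat_lit 152) (nat_lit 36580282574) (nat_lit 228) (nat_lit 89074460085) (nat_lit 66) (nat_lit 5) (nat_lit 68) (nat_lit 5) (nat_lit 69) (nat_lit 5) (nat_lit 498) (nat_lit 448) (nat_lit 254))) (XT.nd (nat_lit 78) (nat_lit 152) (nat_lit 0) (XT.lf (nat_lit 0) (nat_lit 140028042207) (nat_lit 228) (nat_lit 18057135302) (nat_lit 76) (nat_lit 25162767369) (nat_lit 66) (nat_lit 5) (nat_lit 69) (nat_lit 5) (nat_lit 67) (nat_lit 4) (nat_lit 499) (nat_lit 448) (nat_lit 253)) (XT.lf (nat_lit 0) (nat_lit 6924952097) (nat_lit 152) (nat_lit 91887169139) (nat_lit 76) (nat_lit 90396272399) (nat_lit 64) (nat_lit 5) (nat_lit 66) (nat_lit 5) (nat_lit 65) (nat_lit 5) (nat_lit 500) (nat_lit 448) (nat_lit 252))))))) (XT.nd (nat_lit 1248) (nat_lit 988) (nat_lit 0) (XT.nd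 (nat_lit 624) (nat_lit 532) (nat_lit 0) (XT.nd (nat_lit 312) (nat_lit 456) (nat_lit 0) (XT.nd (nat_lit 156) (nat_lit 152) (nat_lit 0) (XT.nd (nat_lit 78) (nat_lit 0) (nat_lit 0) (XT.lf (nat_lit 0) (nat_lit 23687630574) (nat_lit 152) (nat_lit 35117147578) (nat_lit 228) (nat_lit 136592650512) (nat_lit 62) (nat_lit 5) (nat_lit 64) (nat_lit 5) (nat_lit 65) (nat_lit 5) (nat_lit 501) (nat_lit 448) (nat_lit 251)) (XT.lf (nat_lit 0) (nat_lit 115355716739) (nat_lit 228) (nat_lit 54109055255) (nat_lit 76) (nat_lit 32327287406) (nat_lit 62) (nat_lit 5) (nat_lit 65) (nat_lit 5) (nat_lit 63) (nat_lit 4) (nat_lit 502) (nat_lit 448) (nat_lit 250))) (XT.nd (nat_lit 78) (nat_lit 76) (nat_lit 0) (XT.lf (nat_lit 0) (nat_lit 71069935290) (nat_lit 76) (nat_lit 105349134046) (nat_lit 152) (nat_lit 32003109002) (nat_lit 61) (nat_lit 5) (nat_lit 62) (nat_lit 5) (nat_lit 63) (nat_lit 4) (nat_lit 503) (nat_lit 448) (nat_lit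 249)) (XT.lf (nat_lit 0) (nat_lit 25277734147) (nat_lit 152) (nat_lit 11360059394) (nat_lit 76) (nat_lit 178679827101) (nat_lit 60) (nat_lit 5) (nat_lit 62) (nat_lit 5) (nat_lit 61) (nat_lit 5) (nat_lit 504) (nat_lit 448) (nat_lit 248)))) (XT.nd (nat_lit 156) (nat_lit 228) (nat_lit 0) (XT.nd (nat_lit 78) (nat_lit 76) (nat_lit 0) (XT.lf (nat_lit 0) (nat_lit 86883568647) (nat_lit 228) (nat_lit 98641824620) (nat_lit 76) (nat_lit 36879386576) (nat_lit 58) (nat_lit 5) (nat_lit 61) (nat_lit 5) (nat_lit 59) (nat_lit 4) (nat_lit 505) (nat_lit 448) (nat_lit 247)) (XT.lf (nat_lit 0) (nat_lit 36772260106) (nat_lit 76) (nat_lit 116167313701) (nat_lit 152) (nat_lit 76838229266) (nat_lit 57) (nat_lit 5) (nat_lit 58) (nat_lit 5) (nat_lit 59) (nat_lit 4) (nat_lit 506) (nat_lit 448) (nat_lit 246))) (XT.nd (nat_lit 78) (nat_lit 228) (nat_lit 0) (XT.lf (nat_lit 0) (nat_lit 182380935551) (nat_lit 76) (nat_lit 41587597638)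 (nat_lit 152) (nat_lit 13467436590) (nat_lit 57) (nat_lit 5) (nat_lit 58) (nat_lit 5) (nat_lit 59) (nat_lit 4) (nat_lit 507) (nat_lit 448) (nat_lit 245)) (XT.lf (nat_lit 0) (nat_lit 53418201992) (nat_lit 228) (nat_lit 154069081969) (nat_lit 76) (nat_lit 37846083902) (nat_lit 54) (nat_lit 5) (nat_lit 57) (nat_lit 5) (nat_lit 55) (nat_lit 4) (nat_lit 508) (nat_lit 448) (nat_lit 244))))) (XT.nd (nat_lit 312) (nat_lit 304) (nat_lit 0) (XT.nd (nat_lit 156) (nat_lit 152) (nat_lit 0) (XT.nd (nat_lit 78) (nat_lit 76) (nat_lit 0) (XT.lf (nat_lit 0) (nat_lit 124824582401) (nat_lit 228) (nat_lit 7686599291) (nat_lit 76) (nat_lit 121021962585) (nat_lit 54) (nat_lit 5) (nat_lit 57) (nat_lit 5) (nat_lit 55) (nat_lit 4) (nat_lit 509) (nat_lit 448) (nat_lit 243)) (XT.lf (nat_lit 0) (nat_lit 150842220022) (nat_lit 76) (nat_lit 51313771177) (nat_lit 152) (nat_lit 59869182854) (nat_lit 53) (nat_lit 5) (nat_lit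 54) (nat_lit 5) (nat_lit 55) (nat_lit 4) (nat_lit 510) (nat_lit 448) (nat_lit 242))) (XT.nd (nat_lit 78) (nat_lit 0) (nat_lit 0) (XT.lf (nat_lit 0) (nat_lit 13443330846) (nat_lit 152) (nat_lit 223467937080) (nat_lit 76) (nat_lit 33949426344) (nat_lit 51) (nat_lit 5) (nat_lit 53) (nat_lit 5) (nat_lit 52) (nat_lit 4) (nat_lit 511) (nat_lit 448) (nat_lit 241)) (XT.lf (nat_lit 0) (nat_lit 91164129585) (nat_lit 152) (nat_lit 64140790949) (nat_lit 76) (nat_lit 124646264046) (nat_lit 51) (nat_lit 5) (nat_lit 53) (nat_lit 5) (nat_lit 52) (nat_lit 4) (nat_lit 512) (nat_lit 448) (nat_lit 240)))) (XT.nd (nat_lit 156) (nat_lit 228) (nat_lit 0) (XT.nd (nat_lit 78) (nat_lit 0) (nat_lit 0) (XT.lf (nat_lit 0) (nat_lit 106562734843) (nat_lit 76) (nat_lit 67871635563) (nat_lit 152) (nat_lit 114978658902) (nat_lit 50) (nat_lit 5) (nat_lit 51) (nat_lit 5) (nat_lit 52) (nat_lit 4) (nat_lit 513) (nat_lit 448) (nat_lit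 239)) (XT.lf (nat_lit 0) (nat_lit 263345512837) (nat_lit 152) (nat_lit 11657518845) (nat_lit 0) (nat_lit 24271065122) (nat_lit 50) (nat_lit 5) (nat_lit 52) (nat_lit 4) (nat_lit 50) (nat_lit 4) (nat_lit 514) (nat_lit 448) (nat_lit 238))) (XT.nd (nat_lit 78) (nat_lit 76) (nat_lit 0) (XT.lf (nat_lit 0) (nat_lit 49435298034) (nat_lit 152) (nat_lit 137732490925) (nat_lit 76) (nat_lit 122230282616) (nat_lit 48) (nat_lit 5) (nat_lit 50) (nat_lit 5) (nat_lit 49) (nat_lit 4) (nat_lit 515) (nat_lit 448) (nat_lit 237)) (XT.lf (nat_lit 0) (nat_lit 45401463011) (nat_lit 76) (nat_lit 93367658863) (nat_lit 152) (nat_lit 181184214374) (nat_lit 47) (nat_lit 5) (nat_lit 48) (nat_lit 5) (nat_lit 49) (nat_lit 4) (nat_lit 516) (nat_lit 448) (nat_lit 236)))))) (XT.nd (nat_lit 624) (nat_lit 532) (nat_lit 0) (XT.nd (nat_lit 312) (nat_lit 228) (nat_lit 0) (XT.nd (nat_lit 156) (nat_lit 152) (nat_lit 0) (XT.nd (nat_lit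 78) (nat_lit 76) (nat_lit 0) (XT.lf (nat_lit 0) (nat_lit 235020096984) (nat_lit 152) (nat_lit 88564698078) (nat_lit 0) (nat_lit 7329046093) (nat_lit 47) (nat_lit 5) (nat_lit 49) (nat_lit 4) (nat_lit 47) (nat_lit 4) (nat_lit 517) (nat_lit 448) (nat_lit 235)) (XT.lf (nat_lit 0) (nat_lit 108668702329) (nat_lit 76) (nat_lit 230641852842) (nat_lit 76) (nat_lit 2950469429) (nat_lit 46) (nat_lit 4) (nat_lit 47) (nat_lit 5) (nat_lit 47) (nat_lit 4) (nat_lit 518) (nat_lit 448) (nat_lit 234))) (XT.nd (nat_lit 78) (nat_lit 76) (nat_lit 0) (XT.lf (nat_lit 0) (nat_lit 93135067814) (nat_lit 152) (nat_lit 36764811079) (nat_lit 76) (nat_lit 224125600132) (nat_lit 45) (nat_lit 5) (nat_lit 47) (nat_lit 5) (nat_lit 46) (nat_lit 4) (nat_lit 519) (nat_lit 448) (nat_lit 233)) (XT.lf (nat_lit 0) (nat_lit 175471319859) (nat_lit 76) (nat_lit 21193715050) (nat_lit 152) (nat_lit 169573737445) (nat_lit 44) (nat_lit 5) (nat_lit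 45) (nat_lit 5) (nat_lit 46) (nat_lit 4) (nat_lit 520) (nat_lit 448) (nat_lit 232)))) (XT.nd (nat_lit 156) (nat_lit 76) (nat_lit 0) (XT.nd (nat_lit 78) (nat_lit 76) (nat_lit 0) (XT.lf (nat_lit 0) (nat_lit 19733702941) (nat_lit 76) (nat_lit 288029617700) (nat_lit 76) (nat_lit 71179818700) (nat_lit 43) (nat_lit 4) (nat_lit 44) (nat_lit 5) (nat_lit 44) (nat_lit 4) (nat_lit 521) (nat_lit 448) (nat_lit 231)) (XT.lf (nat_lit 0) (nat_lit 34736164256) (nat_lit 152) (nat_lit 145640922812) (nat_lit 76) (nat_lit 211699010163) (nat_lit 42) (nat_lit 5) (nat_lit 44) (nat_lit 5) (nat_lit 43) (nat_lit 4) (nat_lit 522) (nat_lit 448) (nat_lit 230))) (XT.nd (nat_lit 78) (nat_lit 0) (nat_lit 0) (XT.lf (nat_lit 0) (nat_lit 79999063900) (nat_lit 76) (nat_lit 64805507598) (nat_lit 152) (nat_lit 260940350720) (nat_lit 41) (nat_lit 5) (nat_lit 42) (nat_lit 5) (nat_lit 43) (nat_lit 4) (nat_lit 523) (nat_lit 448) (nat_lit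 229)) (XT.lf (nat_lit 0) (nat_lit 263765878473) (nat_lit 152) (nat_lit 98920285150) (nat_lit 0) (nat_lit 57241550865) (nat_lit 41) (nat_lit 5) (nat_lit 43) (nat_lit 4) (nat_lit 41) (nat_lit 4) (nat_lit 524) (nat_lit 448) (nat_lit 228))))) (XT.nd (nat_lit 312) (nat_lit 304) (nat_lit 0) (XT.nd (nat_lit 156) (nat_lit 76) (nat_lit 0) (XT.nd (nat_lit 78) (nat_lit 76) (nat_lit 0) (XT.lf (nat_lit 0) (nat_lit 142752642407) (nat_lit 76) (nat_lit 249213500656) (nat_lit 76) (nat_lit 42688958702) (nat_lit 40) (nat_lit 4) (nat_lit 41) (nat_lit 5) (nat_lit 41) (nat_lit 4) (nat_lit 525) (nat_lit 448) (nat_lit 227)) (XT.lf (nat_lit 0) (nat_lit 75712907634) (nat_lit 152) (nat_lit 51313285443) (nat_lit 76) (nat_lit 322947856258) (nat_lit 39) (nat_lit 5) (nat_lit 41) (nat_lit 5) (nat_lit 40) (nat_lit 4) (nat_lit 526) (nat_lit 448) (nat_lit 226))) (XT.nd (nat_lit 78) (nat_lit 0) (nat_lit 0) (XT.lf (nat_lit 0) (nat_lit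 201919900817) (nat_lit 152) (nat_lit 258708588114) (nat_lit 0) (nat_lit 5229481283) (nat_lit 38) (nat_lit 5) (nat_lit 40) (nat_lit 4) (nat_lit 38) (nat_lit 4) (nat_lit 527) (nat_lit 448) (nat_lit 225)) (XT.lf (nat_lit 0) (nat_lit 337402653225) (nat_lit 152) (nat_lit 4273106090) (nat_lit 0) (nat_lit 140712057347) (nat_lit 38) (nat_lit 5) (nat_lit 40) (nat_lit 4) (nat_lit 38) (nat_lit 4) (nat_lit 528) (nat_lit 448) (nat_lit 224)))) (XT.nd (nat_lit 156) (nat_lit 76) (nat_lit 0) (XT.nd (nat_lit 78) (nat_lit 152) (nat_lit 0) (XT.lf (nat_lit 0) (nat_lit 271575803796) (nat_lit 76) (nat_lit 212323562165) (nat_lit 76) (nat_lit 15632798341) (nat_lit 37) (nat_lit 4) (nat_lit 38) (nat_lit 5) (nat_lit 38) (nat_lit 4) (nat_lit 529) (nat_lit 448) (nat_lit 223)) (XT.lf (nat_lit 0) (nat_lit 43344584827) (nat_lit 76) (nat_lit 73745907172) (nat_lit 152) (nat_lit 400311912014) (nat_lit 35) (nat_lit 5) (nat_lit 36)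 (nat_lit 5) (nat_lit 37) (nat_lit 4) (nat_lit 530) (nat_lit 448) (nat_lit 222))) (XT.nd (nat_lit 78) (nat_lit 76) (nat_lit 0) (XT.lf (nat_lit 0) (nat_lit 260968569953) (nat_lit 152) (nat_lit 201288837039) (nat_lit 0) (nat_lit 73643735568) (nat_lit 35) (nat_lit 5) (nat_lit 37) (nat_lit 4) (nat_lit 35) (nat_lit 4) (nat_lit 531) (nat_lit 448) (nat_lit 221)) (XT.lf (nat_lit 0) (nat_lit 86683615527) (nat_lit 76) (nat_lit 327919035063) (nat_lit 76) (nat_lit 140594062510) (nat_lit 34) (nat_lit 4) (nat_lit 35) (nat_lit 5) (nat_lit 35) (nat_lit 4) (nat_lit 532) (nat_lit 448) (nat_lit 220))))))))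
noncomputable def xc192 : XT := (XT.nd (nat_lit 57252) (nat_lit 0) (nat_lit 3572) (XT.nd (nat_lit 56004) (nat_lit 0) (nat_lit 7828) (XT.nd (nat_lit 546) (nat_lit 456) (nat_lit 0) (XT.nd (nat_lit 234) (nat_lit 228) (nat_lit 0) (XT.nd (nat_lit 78) (nat_lit 76) (nat_lit 0) (XT.lf (nat_lit 0) (nat_lit 3911189661) (nat_lit 152) (nat_lit 179307165337) (nat_lit 76) (nat_lit 392065117835) (nat_lit 33) (nat_lit 5) (nat_lit 35) (nat_lit 5) (nat_lit 34) (nat_lit 4) (nat_lit 533) (nat_lit 448) (nat_lit 219)) (XT.nd (nat_lit 78) (nat_lit 0) (nat_lit 0) (XT.lf (nat_lit 0) (nat_lit 126089467839) (nat_lit 76) (nat_lit 26795750359) (nat_lit 152) (nat_lit 443275691514) (nat_lit 32) (nat_lit 5) (nat_lit 33) (nat_lit 5) (nat_lit 34) (nat_lit 4) (nat_lit 534) (nat_lit 448) (nat_lit 218)) (XT.lf (nat_lit 0) (nat_lit 314540117829) (nat_lit 152) (nat_lit 167145468412) (nat_lit 0) (nat_lit 136135023711) (nat_lit 32)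 (nat_lit 5) (nat_lit 34) (nat_lit 4) (nat_lit 32) (nat_lit 4) (nat_lit 535) (nat_lit 448) (nat_lit 217)))) (XT.nd (nat_lit 156) (nat_lit 76) (nat_lit 0) (XT.nd (nat_lit 78) (nat_lit 76) (nat_lit 0) (XT.lf (nat_lit 0) (nat_lit 155462907543) (nat_lit 76) (nat_lit 331681137945) (nat_lit 76) (nat_lit 153275935568) (nat_lit 31) (nat_lit 4) (nat_lit 32) (nat_lit 5) (nat_lit 32) (nat_lit 4) (nat_lit 536) (nat_lit 448) (nat_lit 216)) (XT.lf (nat_lit 0) (nat_lit 6970390322) (nat_lit 152) (nat_lit 164116005320) (nat_lit 76) (nat_lit 492915779311) (nat_lit 30) (nat_lit 5) (nat_lit 32) (nat_lit 5) (nat_lit 31) (nat_lit 4) (nat_lit 537) (nat_lit 448) (nat_lit 215))) (XT.nd (nat_lit 78) (nat_lit 0) (nat_lit 0) (XT.lf (nat_lit 0) (nat_lit 172871563652) (nat_lit 152) (nat_lit 512664943108) (nat_lit 0) (nat_lit 2961655390) (nat_lit 29) (nat_lit 5) (nat_lit 31) (nat_lit 4) (nat_lit 29) (nat_lit 4) (nat_lit 538)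 (nat_lit 448) (nat_lit 214)) (XT.lf (nat_lit 0) (nat_lit 352697245219) (nat_lit 152) (nat_lit 178452983121) (nat_lit 0) (nat_lit 182787247891) (nat_lit 29) (nat_lit 5) (nat_lit 31) (nat_lit 4) (nat_lit 29) (nat_lit 4) (nat_lit 539) (nat_lit 448) (nat_lit 213))))) (XT.nd (nat_lit 312) (nat_lit 228) (nat_lit 0) (XT.nd (nat_lit 156) (nat_lit 152) (nat_lit 0) (XT.nd (nat_lit 78) (nat_lit 0) (nat_lit 0) (XT.lf (nat_lit 0) (nat_lit 178171817466) (nat_lit 76) (nat_lit 366123970914) (nat_lit 76) (nat_lit 196213888762) (nat_lit 28) (nat_lit 4) (nat_lit 29) (nat_lit 5) (nat_lit 29) (nat_lit 4) (nat_lit 540) (nat_lit 448) (nat_lit 212)) (XT.lf (nat_lit 0) (nat_lit 558822980379) (nat_lit 76) (nat_lit 189673285158) (nat_lit 76) (nat_lit 19763122222) (nat_lit 28) (nat_lit 4) (nat_lit 29) (nat_lit 5) (nat_lit 29) (nat_lit 4) (nat_lit 541) (nat_lit 448) (nat_lit 211))) (XT.nd (nat_lit 78) (nat_lit 0) (nat_lit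 0) (XT.lf (nat_lit 0) (nat_lit 162785091795) (nat_lit 152) (nat_lit 633387859066) (nat_lit 0) (nat_lit 965815725) (nat_lit 26) (nat_lit 5) (nat_lit 28) (nat_lit 4) (nat_lit 26) (nat_lit 4) (nat_lit 542) (nat_lit 448) (nat_lit 210)) (XT.lf (nat_lit 0) (nat_lit 360510822290) (nat_lit 152) (nat_lit 267907902539) (nat_lit 0) (nat_lit 198691476434) (nat_lit 26) (nat_lit 5) (nat_lit 28) (nat_lit 4) (nat_lit 26) (nat_lit 4) (nat_lit 543) (nat_lit 448) (nat_lit 209)))) (XT.nd (nat_lit 156) (nat_lit 152) (nat_lit 0) (XT.nd (nat_lit 78) (nat_lit 0) (nat_lit 0) (XT.lf (nat_lit 0) (nat_lit 119676100027) (nat_lit 76) (nat_lit 450315052160) (nat_lit 76) (nat_lit 288495639843) (nat_lit 25) (nat_lit 4) (nat_lit 26) (nat_lit 5) (nat_lit 26) (nat_lit 4) (nat_lit 544) (nat_lit 448) (nat_lit 208)) (XT.lf (nat_lit 0) (nat_lit 535940131161) (nat_lit 76) (nat_lit 258542353737) (nat_lit 76) (nat_lit 96722878123) (nat_lit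 25) (nat_lit 4) (nat_lit 26) (nat_lit 5) (nat_lit 26) (nat_lit 4) (nat_lit 545) (nat_lit 448) (nat_lit 207))) (XT.nd (nat_lit 54912) (nat_lit 0) (nat_lit 9424) (XT.lf (nat_lit 0) (nat_lit 47338613421) (nat_lit 76) (nat_lit 54689752099) (nat_lit 152) (nat_lit 823412865514) (nat_lit 23) (nat_lit 5) (nat_lit 24) (nat_lit 5) (nat_lit 25) (nat_lit 4) (nat_lit 546) (nat_lit 448) (nat_lit 206)) (XT.lf (nat_lit 0) (nat_lit 8995830415) (nat_lit 836) (nat_lit 6593224530) (nat_lit 836) (nat_lit 6593224530) (nat_lit 147) (nat_lit 3) (nat_lit 158) (nat_lit 3) (nat_lit 158) (nat_lit 5) (nat_lit 449) (nat_lit 449) (nat_lit 302)))))) (XT.nd (nat_lit 624) (nat_lit 1596) (nat_lit 0) (XT.nd (nat_lit 312) (nat_lit 0) (nat_lit 152) (XT.nd (nat_lit 156) (nat_lit 0) (nat_lit 76) (XT.nd (nat_lit 78) (nat_lit 0) (nat_lit 76) (XT.lf (nat_lit 76) (nat_lit 9107701862) (nat_lit 0) (nat_lit 9508640293) (nat_lit 836) (nat_lit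 26848581223) (nat_lit 148) (nat_lit 5) (nat_lit 147) (nat_lit 3) (nat_lit 158) (nat_lit 5) (nat_lit 450) (nat_lit 449) (nat_lit 301)) (XT.lf (nat_lit 0) (nat_lit 19703922831) (nat_lit 760) (nat_lit 13846473935) (nat_lit 836) (nat_lit 13048326320) (nat_lit 148) (nat_lit 5) (nat_lit 158) (nat_lit 5) (nat_lit 159) (nat_lit 5) (nat_lit 451) (nat_lit 449) (nat_lit 300))) (XT.nd (nat_lit 78) (nat_lit 0) (nat_lit 76) (XT.lf (nat_lit 76) (nat_lit 9951236956) (nat_lit 0) (nat_lit 11203896144) (nat_lit 836) (nat_lit 26618617460) (nat_lit 149) (nat_lit 5) (nat_lit 148) (nat_lit 5) (nat_lit 159) (nat_lit 5) (nat_lit 452) (nat_lit 449) (nat_lit 299)) (XT.lf (nat_lit 0) (nat_lit 23106749424) (nat_lit 760) (nat_lit 13772793902) (nat_lit 836) (nat_lit 12106594096) (nat_lit 149) (nat_lit 5) (nat_lit 159) (nat_lit 5) (nat_lit 160) (nat_lit 5) (nat_lit 453) (nat_lit 449) (nat_lit 298)))) (XT.nd (nat_lit 156) (nat_lit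 0) (nat_lit 76) (XT.nd (nat_lit 78) (nat_lit 0) (nat_lit 76) (XT.lf (nat_lit 76) (nat_lit 11667965335) (nat_lit 0) (nat_lit 13852004856) (nat_lit 836) (nat_lit 24720972537) (nat_lit 150) (nat_lit 5) (nat_lit 149) (nat_lit 5) (nat_lit 160) (nat_lit 5) (nat_lit 454) (nat_lit 449) (nat_lit 297)) (XT.lf (nat_lit 0) (nat_lit 28450416457) (nat_lit 760) (nat_lit 12854259027) (nat_lit 836) (nat_lit 10233984858) (nat_lit 150) (nat_lit 5) (nat_lit 160) (nat_lit 5) (nat_lit 161) (nat_lit 5) (nat_lit 455) (nat_lit 449) (nat_lit 296))) (XT.nd (nat_lit 78) (nat_lit 0) (nat_lit 76) (XT.lf (nat_lit 76) (nat_lit 14382401549) (nat_lit 0) (nat_lit 17594957760) (nat_lit 836) (nat_lit 20901406067) (nat_lit 151) (nat_lit 5) (nat_lit 150) (nat_lit 5) (nat_lit 161) (nat_lit 5) (nat_lit 456) (nat_lit 449) (nat_lit 295)) (XT.lf (nat_lit 0) (nat_lit 36014296888) (nat_lit 760) (nat_lit 10966675432) (nat_lit 836) (nat_lit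 7288221204) (nat_lit 151) (nat_lit 5) (nat_lit 161) (nat_lit 5) (nat_lit 162) (nat_lit 5) (nat_lit 457) (nat_lit 449) (nat_lit 294))))) (XT.nd (nat_lit 312) (nat_lit 1216) (nat_lit 0) (XT.nd (nat_lit 156) (nat_lit 684) (nat_lit 0) (XT.nd (nat_lit 78) (nat_lit 0) (nat_lit 76) (XT.lf (nat_lit 76) (nat_lit 18233395705) (nat_lit 0) (nat_lit 22591286215) (nat_lit 836) (nat_lit 14875881361) (nat_lit 152) (nat_lit 5) (nat_lit 151) (nat_lit 5) (nat_lit 162) (nat_lit 5) (nat_lit 458) (nat_lit 449) (nat_lit 293)) (XT.lf (nat_lit 0) (nat_lit 46110015567) (nat_lit 760) (nat_lit 7971468285) (nat_lit 76) (nat_lit 3110296425) (nat_lit 152) (nat_lit 5) (nat_lit 162) (nat_lit 5) (nat_lit 153) (nat_lit 5) (nat_lit 459) (nat_lit 449) (nat_lit 292))) (XT.nd (nat_lit 78) (nat_lit 0) (nat_lit 0) (XT.lf (nat_lit 0) (nat_lit 23375594552) (nat_lit 760) (nat_lit 29017939400) (nat_lit 836) (nat_lit 6327328476) (nat_lit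 142) (nat_lit 5) (nat_lit 152) (nat_lit 5) (nat_lit 153) (nat_lit 5) (nat_lit 460) (nat_lit 449) (nat_lit 291)) (XT.lf (nat_lit 0) (nat_lit 56565544396) (nat_lit 760) (nat_lit 2559342249) (nat_lit 836) (nat_lit 1194829321) (nat_lit 142) (nat_lit 5) (nat_lit 152) (nat_lit 5) (nat_lit 153) (nat_lit 5) (nat_lit 461) (nat_lit 449) (nat_lit 290)))) (XT.nd (nat_lit 156) (nat_lit 380) (nat_lit 0) (XT.nd (nat_lit 78) (nat_lit 380) (nat_lit 0) (XT.lf (nat_lit 0) (nat_lit 4934759812) (nat_lit 456) (nat_lit 32054029480) (nat_lit 76) (nat_lit 24962713402) (nat_lit 136) (nat_lit 5) (nat_lit 142) (nat_lit 5) (nat_lit 137) (nat_lit 5) (nat_lit 462) (nat_lit 449) (nat_lit 289)) (XT.lf (nat_lit 0) (nat_lit 1690613495) (nat_lit 380) (nat_lit 9771778476) (nat_lit 456) (nat_lit 52194921707) (nat_lit 131) (nat_lit 5) (nat_lit 136) (nat_lit 5) (nat_lit 137) (nat_lit 5) (nat_lit 463) (nat_lit 449) (nat_lit 288))) (XT.nd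 (nat_lit 78) (nat_lit 380) (nat_lit 0) (XT.lf (nat_lit 0) (nat_lit 19160556521) (nat_lit 456) (nat_lit 27489743351) (nat_lit 76) (nat_lit 18755907965) (nat_lit 131) (nat_lit 5) (nat_lit 137) (nat_lit 5) (nat_lit 132) (nat_lit 5) (nat_lit 464) (nat_lit 449) (nat_lit 287)) (XT.lf (nat_lit 0) (nat_lit 8832331365) (nat_lit 380) (nat_lit 18708231737) (nat_lit 456) (nat_lit 39687137065) (nat_lit 126) (nat_lit 5) (nat_lit 131) (nat_lit 5) (nat_lit 132) (nat_lit 5) (nat_lit 465) (nat_lit 449) (nat_lit 286))))))) (XT.nd (nat_lit 1170) (nat_lit 1976) (nat_lit 0) (XT.nd (nat_lit 546) (nat_lit 988) (nat_lit 0) (XT.nd (nat_lit 234) (nat_lit 988) (nat_lit 0) (XT.nd (nat_lit 78) (nat_lit 304) (nat_lit 0) (XT.lf (nat_lit 0) (nat_lit 36977611048) (nat_lit 456) (nat_lit 21366970311) (nat_lit 76) (nat_lit 10763783853) (nat_lit 126) (nat_lit 5) (nat_lit 132) (nat_lit 5) (nat_lit 127) (nat_lit 5) (nat_lit 466) (nat_lit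 449) (nat_lit 285)) (XT.nd (nat_lit 78) (nat_lit 0) (nat_lit 0) (XT.lf (nat_lit 0) (nat_lit 17773827676) (nat_lit 304) (nat_lit 29695806884) (nat_lit 380) (nat_lit 23584272933) (nat_lit 122) (nat_lit 5) (nat_lit 126) (nat_lit 5) (nat_lit 127) (nat_lit 5) (nat_lit 467) (nat_lit 449) (nat_lit 284)) (XT.lf (nat_lit 0) (nat_lit 58859030352) (nat_lit 380) (nat_lit 13478336628) (nat_lit 76) (nat_lit 740721485) (nat_lit 122) (nat_lit 5) (nat_lit 127) (nat_lit 5) (nat_lit 123) (nat_lit 5) (nat_lit 468) (nat_lit 449) (nat_lit 283)))) (XT.nd (nat_lit 156) (nat_lit 608) (nat_lit 0) (XT.nd (nat_lit 78) (nat_lit 76) (nat_lit 0) (XT.lf (nat_lit 0) (nat_lit 28745540840) (nat_lit 304) (nat_lit 43006981215) (nat_lit 380) (nat_lit 3404225254) (nat_lit 118) (nat_lit 5) (nat_lit 122) (nat_lit 5) (nat_lit 123) (nat_lit 5) (nat_lit 469) (nat_lit 449) (nat_lit 282)) (XT.lf (nat_lit 0) (nat_lit 7927884945) (nat_lit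 380) (nat_lit 3908447894) (nat_lit 76) (nat_lit 65485247802) (nat_lit 117) (nat_lit 5) (nat_lit 122) (nat_lit 5) (nat_lit 118) (nat_lit 5) (nat_lit 470) (nat_lit 449) (nat_lit 281))) (XT.nd (nat_lit 78) (nat_lit 304) (nat_lit 0) (XT.lf (nat_lit 0) (nat_lit 20704973388) (nat_lit 380) (nat_lit 37889980984) (nat_lit 76) (nat_lit 20947272180) (nat_lit 113) (nat_lit 5) (nat_lit 118) (nat_lit 5) (nat_lit 114) (nat_lit 5) (nat_lit 471) (nat_lit 449) (nat_lit 280)) (XT.lf (nat_lit 0) (nat_lit 7809754714) (nat_lit 304) (nat_lit 26693502948) (nat_lit 380) (nat_lit 47351530131) (nat_lit 109) (nat_lit 5) (nat_lit 113) (nat_lit 5) (nat_lit 114) (nat_lit 5) (nat_lit 472) (nat_lit 449) (nat_lit 279))))) (XT.nd (nat_lit 312) (nat_lit 456) (nat_lit 0) (XT.nd (nat_lit 156) (nat_lit 304) (nat_lit 0) (XT.nd (nat_lit 78) (nat_lit 228) (nat_lit 0) (XT.lf (nat_lit 0) (nat_lit 49748990829) (nat_lit 380) (nat_lit 27258870089)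 (nat_lit 76) (nat_lit 7237239545) (nat_lit 109) (nat_lit 5) (nat_lit 114) (nat_lit 5) (nat_lit 110) (nat_lit 5) (nat_lit 473) (nat_lit 449) (nat_lit 278)) (XT.lf (nat_lit 0) (nat_lit 22136385823) (nat_lit 228) (nat_lit 44402992222) (nat_lit 304) (nat_lit 20176432447) (nat_lit 106) (nat_lit 5) (nat_lit 109) (nat_lit 5) (nat_lit 110) (nat_lit 5) (nat_lit 474) (nat_lit 449) (nat_lit 277))) (XT.nd (nat_lit 78) (nat_lit 304) (nat_lit 0) (XT.lf (nat_lit 0) (nat_lit 74946669595) (nat_lit 228) (nat_lit 9683438047) (nat_lit 304) (nat_lit 4656907321) (nat_lit 106) (nat_lit 5) (nat_lit 109) (nat_lit 5) (nat_lit 110) (nat_lit 5) (nat_lit 475) (nat_lit 449) (nat_lit 276)) (XT.lf (nat_lit 0) (nat_lit 12312942155) (nat_lit 304) (nat_lit 52886085927) (nat_lit 76) (nat_lit 26726323314) (nat_lit 102) (nat_lit 5) (nat_lit 106) (nat_lit 5) (nat_lit 103) (nat_lit 5) (nat_lit 476) (nat_lit 449) (nat_lit 275)))) (XT.nd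 (nat_lit 156) (nat_lit 228) (nat_lit 0) (XT.nd (nat_lit 78) (nat_lit 0) (nat_lit 0) (XT.lf (nat_lit 0) (nat_lit 683990592) (nat_lit 228) (nat_lit 29706280574) (nat_lit 304) (nat_lit 64280741943) (nat_lit 99) (nat_lit 5) (nat_lit 102) (nat_lit 5) (nat_lit 103) (nat_lit 5) (nat_lit 477) (nat_lit 449) (nat_lit 274)) (XT.lf (nat_lit 0) (nat_lit 50399089917) (nat_lit 304) (nat_lit 38874359112) (nat_lit 76) (nat_lit 8229127789) (nat_lit 99) (nat_lit 5) (nat_lit 103) (nat_lit 5) (nat_lit 100) (nat_lit 5) (nat_lit 478) (nat_lit 449) (nat_lit 273))) (XT.nd (nat_lit 78) (nat_lit 0) (nat_lit 0) (XT.lf (nat_lit 0) (nat_lit 19117783081) (nat_lit 228) (nat_lit 53075312133) (nat_lit 304) (nat_lit 28243386289) (nat_lit 96) (nat_lit 5) (nat_lit 99) (nat_lit 5) (nat_lit 100) (nat_lit 5) (nat_lit 479) (nat_lit 449) (nat_lit 272)) (XT.lf (nat_lit 0) (nat_lit 81358124734) (nat_lit 228) (nat_lit 14376325668) (nat_lit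 304) (nat_lit 7749748606) (nat_lit 96) (nat_lit 5) (nat_lit 99) (nat_lit 5) (nat_lit 100) (nat_lit 5) (nat_lit 480) (nat_lit 449) (nat_lit 271)))))) (XT.nd (nat_lit 624) (nat_lit 912) (nat_lit 0) (XT.nd (nat_lit 312) (nat_lit 456) (nat_lit 0) (XT.nd (nat_lit 156) (nat_lit 380) (nat_lit 0) (XT.nd (nat_lit 78) (nat_lit 0) (nat_lit 0) (XT.lf (nat_lit 0) (nat_lit 14393306903) (nat_lit 228) (nat_lit 65938974027) (nat_lit 76) (nat_lit 26288002413) (nat_lit 93) (nat_lit 5) (nat_lit 96) (nat_lit 5) (nat_lit 94) (nat_lit 5) (nat_lit 481) (nat_lit 449) (nat_lit 270)) (XT.lf (nat_lit 0) (nat_lit 37998936959) (nat_lit 228) (nat_lit 2867094954) (nat_lit 76) (nat_lit 69009994580) (nat_lit 93) (nat_lit 5) (nat_lit 96) (nat_lit 5) (nat_lit 94) (nat_lit 5) (nat_lit 482) (nat_lit 449) (nat_lit 269))) (XT.nd (nat_lit 78) (nat_lit 152) (nat_lit 0) (XT.lf (nat_lit 0) (nat_lit 63831803684) (nat_lit 304) (nat_lit 47816909894)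 (nat_lit 76) (nat_lit 1593495519) (nat_lit 90) (nat_lit 5) (nat_lit 94) (nat_lit 5) (nat_lit 91) (nat_lit 5) (nat_lit 483) (nat_lit 449) (nat_lit 268)) (XT.lf (nat_lit 0) (nat_lit 20440073639) (nat_lit 152) (nat_lit 71554023835) (nat_lit 228) (nat_lit 24730714223) (nat_lit 88) (nat_lit 5) (nat_lit 90) (nat_lit 5) (nat_lit 91) (nat_lit 5) (nat_lit 484) (nat_lit 449) (nat_lit 267)))) (XT.nd (nat_lit 156) (nat_lit 152) (nat_lit 0) (XT.nd (nat_lit 78) (nat_lit 228) (nat_lit 0) (XT.lf (nat_lit 0) (nat_lit 1967552371) (nat_lit 228) (nat_lit 26603786951) (nat_lit 76) (nat_lit 91768159038) (nat_lit 87) (nat_lit 5) (nat_lit 90) (nat_lit 5) (nat_lit 88) (nat_lit 5) (nat_lit 485) (nat_lit 449) (nat_lit 266)) (XT.lf (nat_lit 0) (nat_lit 30190856118) (nat_lit 304) (nat_lit 76673920930) (nat_lit 76) (nat_lit 17198809376) (nat_lit 84) (nat_lit 5) (nat_lit 88) (nat_lit 5) (nat_lit 85) (nat_lit 5) (nat_lit 486)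 (nat_lit 449) (nat_lit 265))) (XT.nd (nat_lit 78) (nat_lit 152) (nat_lit 0) (XT.lf (nat_lit 0) (nat_lit 60751054980) (nat_lit 304) (nat_lit 2421656906) (nat_lit 76) (nat_lit 64754880554) (nat_lit 84) (nat_lit 5) (nat_lit 88) (nat_lit 5) (nat_lit 85) (nat_lit 5) (nat_lit 487) (nat_lit 449) (nat_lit 264)) (XT.lf (nat_lit 0) (nat_lit 78040084937) (nat_lit 152) (nat_lit 16017044496) (nat_lit 228) (nat_lit 37866776082) (nat_lit 82) (nat_lit 5) (nat_lit 84) (nat_lit 5) (nat_lit 85) (nat_lit 5) (nat_lit 488) (nat_lit 449) (nat_lit 263))))) (XT.nd (nat_lit 312) (nat_lit 380) (nat_lit 0) (XT.nd (nat_lit 156) (nat_lit 304) (nat_lit 0) (XT.nd (nat_lit 78) (nat_lit 76) (nat_lit 0) (XT.lf (nat_lit 0) (nat_lit 26825014753) (nat_lit 152) (nat_lit 103186412082) (nat_lit 228) (nat_lit 6059461488) (nat_lit 80) (nat_lit 5) (nat_lit 82) (nat_lit 5) (nat_lit 83) (nat_lit 5) (nat_lit 489) (nat_lit 449) (nat_lit 262))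 (XT.lf (nat_lit 0) (nat_lit 27652759884) (nat_lit 228) (nat_lit 27644853198) (nat_lit 76) (nat_lit 85046789175) (nat_lit 79) (nat_lit 5) (nat_lit 82) (nat_lit 5) (nat_lit 80) (nat_lit 5) (nat_lit 490) (nat_lit 449) (nat_lit 261))) (XT.nd (nat_lit 78) (nat_lit 152) (nat_lit 0) (XT.lf (nat_lit 0) (nat_lit 59851636268) (nat_lit 152) (nat_lit 3929248188) (nat_lit 228) (nat_lit 80999044206) (nat_lit 77) (nat_lit 5) (nat_lit 79) (nat_lit 5) (nat_lit 80) (nat_lit 5) (nat_lit 491) (nat_lit 449) (nat_lit 260)) (XT.lf (nat_lit 0) (nat_lit 2561569350) (nat_lit 152) (nat_lit 100449934997) (nat_lit 228) (nat_lit 46360922619) (nat_lit 75) (nat_lit 5) (nat_lit 77) (nat_lit 5) (nat_lit 78) (nat_lit 5) (nat_lit 492) (nat_lit 449) (nat_lit 259)))) (XT.nd (nat_lit 156) (nat_lit 152) (nat_lit 0) (XT.nd (nat_lit 78) (nat_lit 228) (nat_lit 0) (XT.lf (nat_lit 0) (nat_lit 97307034492) (nat_lit 152) (nat_lit 48397792525)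 (nat_lit 228) (nat_lit 8414664609) (nat_lit 75) (nat_lit 5) (nat_lit 77) (nat_lit 5) (nat_lit 78) (nat_lit 5) (nat_lit 493) (nat_lit 449) (nat_lit 258)) (XT.lf (nat_lit 0) (nat_lit 31137966676) (nat_lit 228) (nat_lit 120740822701) (nat_lit 76) (nat_lit 7164836423) (nat_lit 72) (nat_lit 5) (nat_lit 75) (nat_lit 5) (nat_lit 73) (nat_lit 5) (nat_lit 494) (nat_lit 449) (nat_lit 257))) (XT.nd (nat_lit 78) (nat_lit 152) (nat_lit 0) (XT.lf (nat_lit 0) (nat_lit 74156283569) (nat_lit 228) (nat_lit 24967601948) (nat_lit 76) (nat_lit 64994641829) (nat_lit 72) (nat_lit 5) (nat_lit 75) (nat_lit 5) (nat_lit 73) (nat_lit 5) (nat_lit 495) (nat_lit 449) (nat_lit 256)) (XT.lf (nat_lit 0) (nat_lit 78092937236) (nat_lit 152) (nat_lit 42451367887) (nat_lit 228) (nat_lit 48841929430) (nat_lit 70) (nat_lit 5) (nat_lit 72) (nat_lit 5) (nat_lit 73) (nat_lit 5) (nat_lit 496) (nat_lit 449) (nat_lit 255))))))))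
noncomputable def xc193 : XT := (XT.nd (nat_lit 2418) (nat_lit 1064) (nat_lit 0) (XT.nd (nat_lit 1170) (nat_lit 1064) (nat_lit 0) (XT.nd (nat_lit 546) (nat_lit 684) (nat_lit 0) (XT.nd (nat_lit 234) (nat_lit 304) (nat_lit 0) (XT.nd (nat_lit 78) (nat_lit 228) (nat_lit 0) (XT.lf (nat_lit 0) (nat_lit 12400001199) (nat_lit 76) (nat_lit 157740911857) (nat_lit 152) (nat_lit 4731954825) (nat_lit 69) (nat_lit 5) (nat_lit 70) (nat_lit 5) (nat_lit 71) (nat_lit 4) (nat_lit 497) (nat_lit 449) (nat_lit 254)) (XT.nd (nat_lit 78) (nat_lit 152) (nat_lit 0) (XT.lf (nat_lit 0) (nat_lit 42519497743) (nat_lit 152) (nat_lit 57480382060) (nat_lit 76) (nat_lit 80488145754) (nat_lit 68) (nat_lit 5) (nat_lit 70) (nat_lit 5) (nat_lit 69) (nat_lit 5) (nat_lit 498) (nat_lit 449) (nat_lit 253)) (XT.lf (nat_lit 0) (nat_lit 54425332280) (nat_lit 152) (nat_lit 38398465010) (nat_lit 228) (nat_lit 93513800244) (nat_lit 66) (nat_lit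 5) (nat_lit 68) (nat_lit 5) (nat_lit 69) (nat_lit 5) (nat_lit 499) (nat_lit 449) (nat_lit 252)))) (XT.nd (nat_lit 156) (nat_lit 152) (nat_lit 0) (XT.nd (nat_lit 78) (nat_lit 152) (nat_lit 0) (XT.lf (nat_lit 0) (nat_lit 147042650455) (nat_lit 228) (nat_lit 18936139282) (nat_lit 76) (nat_lit 26430891462) (nat_lit 66) (nat_lit 5) (nat_lit 69) (nat_lit 5) (nat_lit 67) (nat_lit 4) (nat_lit 500) (nat_lit 449) (nat_lit 251)) (XT.lf (nat_lit 0) (nat_lit 7284356138) (nat_lit 152) (nat_lit 96457623962) (nat_lit 76) (nat_lit 94926174835) (nat_lit 64) (nat_lit 5) (nat_lit 66) (nat_lit 5) (nat_lit 65) (nat_lit 5) (nat_lit 501) (nat_lit 449) (nat_lit 250))) (XT.nd (nat_lit 78) (nat_lit 0) (nat_lit 0) (XT.lf (nat_lit 0) (nat_lit 24895530194) (nat_lit 152) (nat_lit 36862383987) (nat_lit 228) (nat_lit 143408740527) (nat_lit 62) (nat_lit 5) (nat_lit 64) (nat_lit 5) (nat_lit 65) (nat_lit 5) (nat_lit 502) (nat_lit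 449) (nat_lit 249)) (XT.lf (nat_lit 0) (nat_lit 121135943476) (nat_lit 228) (nat_lit 56791653106) (nat_lit 76) (nat_lit 33953443235) (nat_lit 62) (nat_lit 5) (nat_lit 65) (nat_lit 5) (nat_lit 63) (nat_lit 4) (nat_lit 503) (nat_lit 449) (nat_lit 248))))) (XT.nd (nat_lit 312) (nat_lit 304) (nat_lit 0) (XT.nd (nat_lit 156) (nat_lit 228) (nat_lit 0) (XT.nd (nat_lit 78) (nat_lit 76) (nat_lit 0) (XT.lf (nat_lit 0) (nat_lit 74645918338) (nat_lit 76) (nat_lit 110606304014) (nat_lit 152) (nat_lit 33590454441) (nat_lit 61) (nat_lit 5) (nat_lit 62) (nat_lit 5) (nat_lit 63) (nat_lit 4) (nat_lit 504) (nat_lit 449) (nat_lit 247)) (XT.lf (nat_lit 0) (nat_lit 26553430388) (nat_lit 152) (nat_lit 11906255940) (nat_lit 76) (nat_lit 187623224431) (nat_lit 60) (nat_lit 5) (nat_lit 62) (nat_lit 5) (nat_lit 61) (nat_lit 5) (nat_lit 505) (nat_lit 449) (nat_lit 246))) (XT.nd (nat_lit 78) (nat_lit 76) (nat_lit 0) (XT.lf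 (nat_lit 0) (nat_lit 91239483361) (nat_lit 228) (nat_lit 103552035758) (nat_lit 76) (nat_lit 38732912485) (nat_lit 58) (nat_lit 5) (nat_lit 61) (nat_lit 5) (nat_lit 59) (nat_lit 4) (nat_lit 506) (nat_lit 449) (nat_lit 245)) (XT.lf (nat_lit 0) (nat_lit 38632400300) (nat_lit 76) (nat_lit 121965665709) (nat_lit 152) (nat_lit 80668051145) (nat_lit 57) (nat_lit 5) (nat_lit 58) (nat_lit 5) (nat_lit 59) (nat_lit 4) (nat_lit 507) (nat_lit 449) (nat_lit 244)))) (XT.nd (nat_lit 156) (nat_lit 76) (nat_lit 0) (XT.nd (nat_lit 78) (nat_lit 228) (nat_lit 0) (XT.lf (nat_lit 0) (nat_lit 191520484413) (nat_lit 76) (nat_lit 43657440684) (nat_lit 152) (nat_lit 14129294530) (nat_lit 57) (nat_lit 5) (nat_lit 58) (nat_lit 5) (nat_lit 59) (nat_lit 4) (nat_lit 508) (nat_lit 449) (nat_lit 243)) (XT.lf (nat_lit 0) (nat_lit 56100197200) (nat_lit 228) (nat_lit 161751604498) (nat_lit 76) (nat_lit 39747679960) (nat_lit 54)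 (nat_lit 5) (nat_lit 57) (nat_lit 5) (nat_lit 55) (nat_lit 4) (nat_lit 509) (nat_lit 449) (nat_lit 242))) (XT.nd (nat_lit 78) (nat_lit 76) (nat_lit 0) (XT.lf (nat_lit 0) (nat_lit 131076368767) (nat_lit 228) (nat_lit 8050994427) (nat_lit 76) (nat_lit 127081910107) (nat_lit 54) (nat_lit 5) (nat_lit 57) (nat_lit 5) (nat_lit 55) (nat_lit 4) (nat_lit 510) (nat_lit 449) (nat_lit 241)) (XT.lf (nat_lit 0) (nat_lit 158403944323) (nat_lit 76) (nat_lit 53870207176) (nat_lit 152) (nat_lit 62851762909) (nat_lit 53) (nat_lit 5) (nat_lit 54) (nat_lit 5) (nat_lit 55) (nat_lit 4) (nat_lit 511) (nat_lit 449) (nat_lit 240)))))) (XT.nd (nat_lit 624) (nat_lit 532) (nat_lit 0) (XT.nd (nat_lit 312) (nat_lit 304) (nat_lit 0) (XT.nd (nat_lit 156) (nat_lit 76) (nat_lit 0) (XT.nd (nat_lit 78) (nat_lit 0) (nat_lit 0) (XT.lf (nat_lit 0) (nat_lit 14125978697) (nat_lit 152) (nat_lit 234621322276) (nat_lit 76) (nat_lit 35655903661)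 (nat_lit 51) (nat_lit 5) (nat_lit 53) (nat_lit 5) (nat_lit 52) (nat_lit 4) (nat_lit 512) (nat_lit 449) (nat_lit 239)) (XT.lf (nat_lit 0) (nat_lit 95732318263) (nat_lit 152) (nat_lit 67328771775) (nat_lit 76) (nat_lit 130887154392) (nat_lit 51) (nat_lit 5) (nat_lit 53) (nat_lit 5) (nat_lit 52) (nat_lit 4) (nat_lit 513) (nat_lit 449) (nat_lit 238))) (XT.nd (nat_lit 78) (nat_lit 0) (nat_lit 0) (XT.lf (nat_lit 0) (nat_lit 111909622908) (nat_lit 76) (nat_lit 71256265635) (nat_lit 152) (nat_lit 120717301994) (nat_lit 50) (nat_lit 5) (nat_lit 51) (nat_lit 5) (nat_lit 52) (nat_lit 4) (nat_lit 514) (nat_lit 449) (nat_lit 237)) (XT.lf (nat_lit 0) (nat_lit 276522254553) (nat_lit 152) (nat_lit 12222202598) (nat_lit 0) (nat_lit 25492870945) (nat_lit 50) (nat_lit 5) (nat_lit 52) (nat_lit 4) (nat_lit 50) (nat_lit 4) (nat_lit 515) (nat_lit 449) (nat_lit 236)))) (XT.nd (nat_lit 156) (nat_lit 76) (nat_lit 0) (XT.nd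 (nat_lit 78) (nat_lit 76) (nat_lit 0) (XT.lf (nat_lit 0) (nat_lit 51916510293) (nat_lit 152) (nat_lit 144600904111) (nat_lit 76) (nat_lit 128350088161) (nat_lit 48) (nat_lit 5) (nat_lit 50) (nat_lit 5) (nat_lit 49) (nat_lit 4) (nat_lit 516) (nat_lit 449) (nat_lit 235)) (XT.lf (nat_lit 0) (nat_lit 47689453790) (nat_lit 76) (nat_lit 98027401404) (nat_lit 152) (nat_lit 190233683793) (nat_lit 47) (nat_lit 5) (nat_lit 48) (nat_lit 5) (nat_lit 49) (nat_lit 4) (nat_lit 517) (nat_lit 449) (nat_lit 234))) (XT.nd (nat_lit 78) (nat_lit 76) (nat_lit 0) (XT.lf (nat_lit 0) (nat_lit 246780065765) (nat_lit 152) (nat_lit 92975555077) (nat_lit 0) (nat_lit 7703463974) (nat_lit 47) (nat_lit 5) (nat_lit 49) (nat_lit 4) (nat_lit 47) (nat_lit 4) (nat_lit 518) (nat_lit 449) (nat_lit 233)) (XT.lf (nat_lit 0) (nat_lit 114119235062) (nat_lit 76) (nat_lit 242165651887) (nat_lit 76) (nat_lit 3088748489) (nat_lit 46) (nat_lit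 4) (nat_lit 47) (nat_lit 5) (nat_lit 47) (nat_lit 4) (nat_lit 519) (nat_lit 449) (nat_lit 232))))) (XT.nd (nat_lit 312) (nat_lit 228) (nat_lit 0) (XT.nd (nat_lit 156) (nat_lit 152) (nat_lit 0) (XT.nd (nat_lit 78) (nat_lit 76) (nat_lit 0) (XT.lf (nat_lit 0) (nat_lit 97800343617) (nat_lit 152) (nat_lit 38586486226) (nat_lit 76) (nat_lit 235339496839) (nat_lit 45) (nat_lit 5) (nat_lit 47) (nat_lit 5) (nat_lit 46) (nat_lit 4) (nat_lit 520) (nat_lit 449) (nat_lit 231)) (XT.lf (nat_lit 0) (nat_lit 184261184075) (nat_lit 76) (nat_lit 22245473623) (nat_lit 152) (nat_lit 178043634556) (nat_lit 44) (nat_lit 5) (nat_lit 45) (nat_lit 5) (nat_lit 46) (nat_lit 4) (nat_lit 521) (nat_lit 449) (nat_lit 230))) (XT.nd (nat_lit 78) (nat_lit 76) (nat_lit 0) (XT.lf (nat_lit 0) (nat_lit 20736713631) (nat_lit 76) (nat_lit 302423118224) (nat_lit 76) (nat_lit 74730047037) (nat_lit 43) (nat_lit 4) (nat_lit 44) (nat_lit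 5) (nat_lit 44) (nat_lit 4) (nat_lit 522) (nat_lit 449) (nat_lit 229)) (XT.lf (nat_lit 0) (nat_lit 36481050698) (nat_lit 152) (nat_lit 152907153571) (nat_lit 76) (nat_lit 222291293769) (nat_lit 42) (nat_lit 5) (nat_lit 44) (nat_lit 5) (nat_lit 43) (nat_lit 4) (nat_lit 523) (nat_lit 449) (nat_lit 228)))) (XT.nd (nat_lit 156) (nat_lit 152) (nat_lit 0) (XT.nd (nat_lit 78) (nat_lit 0) (nat_lit 0) (XT.lf (nat_lit 0) (nat_lit 84014577390) (nat_lit 76) (nat_lit 68038159174) (nat_lit 152) (nat_lit 273979034804) (nat_lit 41) (nat_lit 5) (nat_lit 42) (nat_lit 5) (nat_lit 43) (nat_lit 4) (nat_lit 524) (nat_lit 449) (nat_lit 227)) (XT.lf (nat_lit 0) (nat_lit 276961844321) (nat_lit 152) (nat_lit 103851215383) (nat_lit 0) (nat_lit 60110656784) (nat_lit 41) (nat_lit 5) (nat_lit 43) (nat_lit 4) (nat_lit 41) (nat_lit 4) (nat_lit 525) (nat_lit 449) (nat_lit 226))) (XT.nd (nat_lit 78) (nat_lit 76) (nat_lit 0) (XT.lf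 (nat_lit 0) (nat_lit 149905115262) (nat_lit 76) (nat_lit 261666873254) (nat_lit 76) (nat_lit 44815491299) (nat_lit 40) (nat_lit 4) (nat_lit 41) (nat_lit 5) (nat_lit 41) (nat_lit 4) (nat_lit 526) (nat_lit 449) (nat_lit 225)) (XT.lf (nat_lit 0) (nat_lit 79505850156) (nat_lit 152) (nat_lit 53864574294) (nat_lit 76) (nat_lit 339101962382) (nat_lit 39) (nat_lit 5) (nat_lit 41) (nat_lit 5) (nat_lit 40) (nat_lit 4) (nat_lit 527) (nat_lit 449) (nat_lit 224))))))) (XT.nd (nat_lit 1170) (nat_lit 228) (nat_lit 0) (XT.nd (nat_lit 546) (nat_lit 380) (nat_lit 0) (XT.nd (nat_lit 234) (nat_lit 304) (nat_lit 0) (XT.nd (nat_lit 78) (nat_lit 76) (nat_lit 0) (XT.lf (nat_lit 0) (nat_lit 212023175206) (nat_lit 152) (nat_lit 271629624199) (nat_lit 0) (nat_lit 5497705246) (nat_lit 38) (nat_lit 5) (nat_lit 40) (nat_lit 4) (nat_lit 38) (nat_lit 4) (nat_lit 528) (nat_lit 449) (nat_lit 223)) (XT.nd (nat_lit 78) (nat_lit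 76) (nat_lit 0) (XT.lf (nat_lit 0) (nat_lit 354279718598) (nat_lit 152) (nat_lit 4473053471) (nat_lit 0) (nat_lit 147754088690) (nat_lit 38) (nat_lit 5) (nat_lit 40) (nat_lit 4) (nat_lit 38) (nat_lit 4) (nat_lit 529) (nat_lit 449) (nat_lit 222)) (XT.lf (nat_lit 0) (nat_lit 285168080814) (nat_lit 76) (nat_lit 222933066595) (nat_lit 76) (nat_lit 16407284354) (nat_lit 37) (nat_lit 4) (nat_lit 38) (nat_lit 5) (nat_lit 38) (nat_lit 4) (nat_lit 530) (nat_lit 449) (nat_lit 221)))) (XT.nd (nat_lit 156) (nat_lit 152) (nat_lit 0) (XT.nd (nat_lit 78) (nat_lit 0) (nat_lit 0) (XT.lf (nat_lit 0) (nat_lit 45525308734) (nat_lit 76) (nat_lit 77426513730) (nat_lit 152) (nat_lit 420320361368) (nat_lit 35) (nat_lit 5) (nat_lit 36) (nat_lit 5) (nat_lit 37) (nat_lit 4) (nat_lit 531) (nat_lit 449) (nat_lit 220)) (XT.lf (nat_lit 0) (nat_lit 274023579685) (nat_lit 152) (nat_lit 211340202114) (nat_lit 0) (nat_lit 77332088744)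 (nat_lit 35) (nat_lit 5) (nat_lit 37) (nat_lit 4) (nat_lit 35) (nat_lit 4) (nat_lit 532) (nat_lit 449) (nat_lit 219))) (XT.nd (nat_lit 78) (nat_lit 76) (nat_lit 0) (XT.lf (nat_lit 0) (nat_lit 91030662165) (nat_lit 76) (nat_lit 344308589670) (nat_lit 76) (nat_lit 147616973405) (nat_lit 34) (nat_lit 4) (nat_lit 35) (nat_lit 5) (nat_lit 35) (nat_lit 4) (nat_lit 533) (nat_lit 449) (nat_lit 218)) (XT.lf (nat_lit 0) (nat_lit 4113010893) (nat_lit 152) (nat_lit 188260063288) (nat_lit 76) (nat_lit 411674259134) (nat_lit 33) (nat_lit 5) (nat_lit 35) (nat_lit 5) (nat_lit 34) (nat_lit 4) (nat_lit 534) (nat_lit 449) (nat_lit 217))))) (XT.nd (nat_lit 312) (nat_lit 152) (nat_lit 0) (XT.nd (nat_lit 156) (nat_lit 152) (nat_lit 0) (XT.nd (nat_lit 78) (nat_lit 0) (nat_lit 0) (XT.lf (nat_lit 0) (nat_lit 132406200574) (nat_lit 76) (nat_lit 28129433507) (nat_lit 152) (nat_lit 465433013299) (nat_lit 32) (nat_lit 5)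 (nat_lit 33) (nat_lit 5) (nat_lit 34) (nat_lit 4) (nat_lit 535) (nat_lit 449) (nat_lit 216)) (XT.lf (nat_lit 0) (nat_lit 330273076367) (nat_lit 152) (nat_lit 175490863877) (nat_lit 0) (nat_lit 142947402508) (nat_lit 32) (nat_lit 5) (nat_lit 34) (nat_lit 4) (nat_lit 32) (nat_lit 4) (nat_lit 536) (nat_lit 449) (nat_lit 215))) (XT.nd (nat_lit 78) (nat_lit 76) (nat_lit 0) (XT.lf (nat_lit 0) (nat_lit 163247739296) (nat_lit 76) (nat_lit 348259360111) (nat_lit 76) (nat_lit 160933588057) (nat_lit 31) (nat_lit 4) (nat_lit 32) (nat_lit 5) (nat_lit 32) (nat_lit 4) (nat_lit 537) (nat_lit 449) (nat_lit 214)) (XT.lf (nat_lit 0) (nat_lit 7324574251) (nat_lit 152) (nat_lit 172310488357) (nat_lit 76) (nat_lit 517566937816) (nat_lit 30) (nat_lit 5) (nat_lit 32) (nat_lit 5) (nat_lit 31) (nat_lit 4) (nat_lit 538) (nat_lit 449) (nat_lit 213)))) (XT.nd (nat_lit 156) (nat_lit 76) (nat_lit 0) (XT.nd (nat_lit 78) (nat_lit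 0) (nat_lit 0) (XT.lf (nat_lit 0) (nat_lit 181520797261) (nat_lit 152) (nat_lit 538286863993) (nat_lit 0) (nat_lit 3115126178) (nat_lit 29) (nat_lit 5) (nat_lit 31) (nat_lit 4) (nat_lit 29) (nat_lit 4) (nat_lit 539) (nat_lit 449) (nat_lit 212)) (XT.lf (nat_lit 0) (nat_lit 370337493600) (nat_lit 152) (nat_lit 187364845354) (nat_lit 0) (nat_lit 191931741732) (nat_lit 29) (nat_lit 5) (nat_lit 31) (nat_lit 4) (nat_lit 29) (nat_lit 4) (nat_lit 540) (nat_lit 449) (nat_lit 211))) (XT.nd (nat_lit 78) (nat_lit 0) (nat_lit 0) (XT.lf (nat_lit 0) (nat_lit 187091021281) (nat_lit 76) (nat_lit 384424851855) (nat_lit 76) (nat_lit 206019023049) (nat_lit 28) (nat_lit 4) (nat_lit 29) (nat_lit 5) (nat_lit 29) (nat_lit 4) (nat_lit 541) (nat_lit 449) (nat_lit 210)) (XT.lf (nat_lit 0) (nat_lit 586774236960) (nat_lit 76) (nat_lit 199151885031) (nat_lit 76) (nat_lit 20745982950) (nat_lit 28) (nat_lit 4) (nat_lit 29)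 (nat_lit 5) (nat_lit 29) (nat_lit 4) (nat_lit 542) (nat_lit 449) (nat_lit 209)))))) (XT.nd (nat_lit 55536) (nat_lit 0) (nat_lit 8892) (XT.nd (nat_lit 55224) (nat_lit 0) (nat_lit 9272) (XT.nd (nat_lit 156) (nat_lit 76) (nat_lit 0) (XT.nd (nat_lit 78) (nat_lit 0) (nat_lit 0) (XT.lf (nat_lit 0) (nat_lit 170929465241) (nat_lit 152) (nat_lit 665046967844) (nat_lit 0) (nat_lit 1019015846) (nat_lit 26) (nat_lit 5) (nat_lit 28) (nat_lit 4) (nat_lit 26) (nat_lit 4) (nat_lit 543) (nat_lit 449) (nat_lit 208)) (XT.lf (nat_lit 0) (nat_lit 378541238505) (nat_lit 152) (nat_lit 281293503213) (nat_lit 0) (nat_lit 208630725813) (nat_lit 26) (nat_lit 5) (nat_lit 28) (nat_lit 4) (nat_lit 26) (nat_lit 4) (nat_lit 544) (nat_lit 449) (nat_lit 207))) (XT.nd (nat_lit 78) (nat_lit 0) (nat_lit 0) (XT.lf (nat_lit 0) (nat_lit 125669541507) (nat_lit 76) (nat_lit 472825961696) (nat_lit 76) (nat_lit 302915388721) (nat_lit 25)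 (nat_lit 4) (nat_lit 26) (nat_lit 5) (nat_lit 26) (nat_lit 4) (nat_lit 545) (nat_lit 449) (nat_lit 206)) (XT.lf (nat_lit 0) (nat_lit 562746315317) (nat_lit 76) (nat_lit 271464858974) (nat_lit 76) (nat_lit 101554228587) (nat_lit 25) (nat_lit 4) (nat_lit 26) (nat_lit 5) (nat_lit 26) (nat_lit 4) (nat_lit 546) (nat_lit 449) (nat_lit 205)))) (XT.nd (nat_lit 156) (nat_lit 0) (nat_lit 76) (XT.nd (nat_lit 78) (nat_lit 0) (nat_lit 0) (XT.lf (nat_lit 0) (nat_lit 9477804559) (nat_lit 836) (nat_lit 6905987390) (nat_lit 836) (nat_lit 6905987390) (nat_lit 147) (nat_lit 3) (nat_lit 158) (nat_lit 3) (nat_lit 158) (nat_lit 5) (nat_lit 450) (nat_lit 450) (nat_lit 300)) (XT.lf (nat_lit 76) (nat_lit 9596338579) (nat_lit 0) (nat_lit 10012640070) (nat_lit 836) (nat_lit 28126090447) (nat_lit 148) (nat_lit 5) (nat_lit 147) (nat_lit 3) (nat_lit 158) (nat_lit 5) (nat_lit 451) (nat_lit 450) (nat_lit 299))) (XT.nd (nat_lit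 78) (nat_lit 0) (nat_lit 0) (XT.lf (nat_lit 0) (nat_lit 20747569795) (nat_lit 760) (nat_lit 14503751825) (nat_lit 836) (nat_lit 13674406050) (nat_lit 148) (nat_lit 5) (nat_lit 158) (nat_lit 5) (nat_lit 159) (nat_lit 5) (nat_lit 452) (nat_lit 450) (nat_lit 298)) (XT.lf (nat_lit 76) (nat_lit 10483279356) (nat_lit 0) (nat_lit 11785816186) (nat_lit 836) (nat_lit 27890523655) (nat_lit 149) (nat_lit 5) (nat_lit 148) (nat_lit 5) (nat_lit 159) (nat_lit 5) (nat_lit 453) (nat_lit 450) (nat_lit 297))))) (XT.nd (nat_lit 312) (nat_lit 532) (nat_lit 0) (XT.nd (nat_lit 156) (nat_lit 0) (nat_lit 76) (XT.nd (nat_lit 78) (nat_lit 0) (nat_lit 0) (XT.lf (nat_lit 0) (nat_lit 24315293177) (nat_lit 760) (nat_lit 14425587280) (nat_lit 836) (nat_lit 12691895332) (nat_lit 149) (nat_lit 5) (nat_lit 159) (nat_lit 5) (nat_lit 160) (nat_lit 5) (nat_lit 454) (nat_lit 450) (nat_lit 296)) (XT.lf (nat_lit 76) (nat_lit 12286631753)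 (nat_lit 0) (nat_lit 14560560231) (nat_lit 836) (nat_lit 25903228915) (nat_lit 150) (nat_lit 5) (nat_lit 149) (nat_lit 5) (nat_lit 160) (nat_lit 5) (nat_lit 455) (nat_lit 450) (nat_lit 295))) (XT.nd (nat_lit 78) (nat_lit 0) (nat_lit 0) (XT.lf (nat_lit 0) (nat_lit 29921484118) (nat_lit 760) (nat_lit 13460699387) (nat_lit 836) (nat_lit 10730975083) (nat_lit 150) (nat_lit 5) (nat_lit 160) (nat_lit 5) (nat_lit 161) (nat_lit 5) (nat_lit 456) (nat_lit 450) (nat_lit 294)) (XT.lf (nat_lit 76) (nat_lit 15137209176) (nat_lit 0) (nat_lit 18485810365) (nat_lit 836) (nat_lit 21897337415) (nat_lit 151) (nat_lit 5) (nat_lit 150) (nat_lit 5) (nat_lit 161) (nat_lit 5) (nat_lit 457) (nat_lit 450) (nat_lit 293)))) (XT.nd (nat_lit 156) (nat_lit 684) (nat_lit 0) (XT.nd (nat_lit 78) (nat_lit 0) (nat_lit 0) (XT.lf (nat_lit 0) (nat_lit 37859410675) (nat_lit 760) (nat_lit 11478621001) (nat_lit 836) (nat_lit 7642394838)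 (nat_lit 151) (nat_lit 5) (nat_lit 161) (nat_lit 5) (nat_lit 162) (nat_lit 5) (nat_lit 458) (nat_lit 450) (nat_lit 292)) (XT.lf (nat_lit 76) (nat_lit 19180866787) (nat_lit 0) (nat_lit 23727892895) (nat_lit 836) (nat_lit 15574683161) (nat_lit 152) (nat_lit 5) (nat_lit 151) (nat_lit 5) (nat_lit 162) (nat_lit 5) (nat_lit 459) (nat_lit 450) (nat_lit 291))) (XT.nd (nat_lit 78) (nat_lit 760) (nat_lit 0) (XT.lf (nat_lit 0) (nat_lit 48456215122) (nat_lit 760) (nat_lit 8333794224) (nat_lit 76) (nat_lit 3259318894) (nat_lit 152) (nat_lit 5) (nat_lit 162) (nat_lit 5) (nat_lit 153) (nat_lit 5) (nat_lit 460) (nat_lit 450) (nat_lit 290)) (XT.lf (nat_lit 0) (nat_lit 24580037118) (nat_lit 760) (nat_lit 30472491068) (nat_lit 836) (nat_lit 6602405666) (nat_lit 142) (nat_lit 5) (nat_lit 152) (nat_lit 5) (nat_lit 153) (nat_lit 5) (nat_lit 461) (nat_lit 450) (nat_lit 289))))))))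
noncomputable def xc194 : XT := (XT.nd (nat_lit 2418) (nat_lit 2584) (nat_lit 0) (XT.nd (nat_lit 1170) (nat_lit 2204) (nat_lit 0) (XT.nd (nat_lit 546) (nat_lit 1216) (nat_lit 0) (XT.nd (nat_lit 234) (nat_lit 684) (nat_lit 0) (XT.nd (nat_lit 78) (nat_lit 836) (nat_lit 0) (XT.lf (nat_lit 0) (nat_lit 59427786224) (nat_lit 760) (nat_lit 2690790026) (nat_lit 836) (nat_lit 1215247707) (nat_lit 142) (nat_lit 5) (nat_lit 152) (nat_lit 5) (nat_lit 153) (nat_lit 5) (nat_lit 462) (nat_lit 450) (nat_lit 288)) (XT.nd (nat_lit 78) (nat_lit 380) (nat_lit 0) (XT.lf (nat_lit 0) (nat_lit 5218257549) (nat_lit 456) (nat_lit 33620192704) (nat_lit 76) (nat_lit 26208784560) (nat_lit 136) (nat_lit 5) (nat_lit 142) (nat_lit 5) (nat_lit 137) (nat_lit 5) (nat_lit 463) (nat_lit 450) (nat_lit 287)) (XT.lf (nat_lit 0) (nat_lit 1811093093) (nat_lit 380) (nat_lit 10259989023) (nat_lit 456) (nat_lit 54767313930) (nat_lit 131)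 (nat_lit 5) (nat_lit 136) (nat_lit 5) (nat_lit 137) (nat_lit 5) (nat_lit 464) (nat_lit 450) (nat_lit 286)))) (XT.nd (nat_lit 156) (nat_lit 304) (nat_lit 0) (XT.nd (nat_lit 78) (nat_lit 380) (nat_lit 0) (XT.lf (nat_lit 0) (nat_lit 20152466683) (nat_lit 456) (nat_lit 28828300679) (nat_lit 76) (nat_lit 19694052189) (nat_lit 131) (nat_lit 5) (nat_lit 137) (nat_lit 5) (nat_lit 132) (nat_lit 5) (nat_lit 465) (nat_lit 450) (nat_lit 285)) (XT.lf (nat_lit 0) (nat_lit 9309298260) (nat_lit 380) (nat_lit 19641113807) (nat_lit 456) (nat_lit 41637027725) (nat_lit 126) (nat_lit 5) (nat_lit 131) (nat_lit 5) (nat_lit 132) (nat_lit 5) (nat_lit 466) (nat_lit 450) (nat_lit 284))) (XT.nd (nat_lit 78) (nat_lit 304) (nat_lit 0) (XT.lf (nat_lit 0) (nat_lit 38857787127) (nat_lit 456) (nat_lit 22400122429) (nat_lit 76) (nat_lit 11304305004) (nat_lit 126) (nat_lit 5) (nat_lit 132) (nat_lit 5) (nat_lit 127) (nat_lit 5)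 (nat_lit 467) (nat_lit 450) (nat_lit 283)) (XT.lf (nat_lit 0) (nat_lit 18697147773) (nat_lit 304) (nat_lit 31176314428) (nat_lit 380) (nat_lit 24731619430) (nat_lit 122) (nat_lit 5) (nat_lit 126) (nat_lit 5) (nat_lit 127) (nat_lit 5) (nat_lit 468) (nat_lit 450) (nat_lit 282))))) (XT.nd (nat_lit 312) (nat_lit 532) (nat_lit 0) (XT.nd (nat_lit 156) (nat_lit 380) (nat_lit 0) (XT.nd (nat_lit 78) (nat_lit 304) (nat_lit 0) (XT.lf (nat_lit 0) (nat_lit 61830946423) (nat_lit 380) (nat_lit 14117888618) (nat_lit 76) (nat_lit 781705868) (nat_lit 122) (nat_lit 5) (nat_lit 127) (nat_lit 5) (nat_lit 123) (nat_lit 5) (nat_lit 469) (nat_lit 450) (nat_lit 281)) (XT.lf (nat_lit 0) (nat_lit 30216628451) (nat_lit 304) (nat_lit 45151632873) (nat_lit 380) (nat_lit 3544914119) (nat_lit 118) (nat_lit 5) (nat_lit 122) (nat_lit 5) (nat_lit 123) (nat_lit 5) (nat_lit 470) (nat_lit 450) (nat_lit 280))) (XT.nd (nat_lit 78)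 (nat_lit 304) (nat_lit 0) (XT.lf (nat_lit 0) (nat_lit 8351495857) (nat_lit 380) (nat_lit 4070766600) (nat_lit 76) (nat_lit 68764033143) (nat_lit 117) (nat_lit 5) (nat_lit 122) (nat_lit 5) (nat_lit 118) (nat_lit 5) (nat_lit 471) (nat_lit 450) (nat_lit 279)) (XT.lf (nat_lit 0) (nat_lit 21766747067) (nat_lit 380) (nat_lit 39750681603) (nat_lit 76) (nat_lit 22000579872) (nat_lit 113) (nat_lit 5) (nat_lit 118) (nat_lit 5) (nat_lit 114) (nat_lit 5) (nat_lit 472) (nat_lit 450) (nat_lit 278)))) (XT.nd (nat_lit 156) (nat_lit 228) (nat_lit 0) (XT.nd (nat_lit 78) (nat_lit 0) (nat_lit 0) (XT.lf (nat_lit 0) (nat_lit 8233495744) (nat_lit 304) (nat_lit 28020705893) (nat_lit 380) (nat_lit 49692033552) (nat_lit 109) (nat_lit 5) (nat_lit 113) (nat_lit 5) (nat_lit 114) (nat_lit 5) (nat_lit 473) (nat_lit 450) (nat_lit 277)) (XT.lf (nat_lit 0) (nat_lit 52261104897) (nat_lit 380) (nat_lit 28589024426) (nat_lit 76)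 (nat_lit 7605990137) (nat_lit 109) (nat_lit 5) (nat_lit 114) (nat_lit 5) (nat_lit 110) (nat_lit 5) (nat_lit 474) (nat_lit 450) (nat_lit 276))) (XT.nd (nat_lit 78) (nat_lit 0) (nat_lit 0) (XT.lf (nat_lit 0) (nat_lit 23275465425) (nat_lit 228) (nat_lit 46614875222) (nat_lit 304) (nat_lit 21160058019) (nat_lit 106) (nat_lit 5) (nat_lit 109) (nat_lit 5) (nat_lit 110) (nat_lit 5) (nat_lit 475) (nat_lit 450) (nat_lit 275)) (XT.lf (nat_lit 0) (nat_lit 78724727181) (nat_lit 228) (nat_lit 10159736986) (nat_lit 304) (nat_lit 4865756448) (nat_lit 106) (nat_lit 5) (nat_lit 109) (nat_lit 5) (nat_lit 110) (nat_lit 5) (nat_lit 476) (nat_lit 450) (nat_lit 274)))))) (XT.nd (nat_lit 624) (nat_lit 988) (nat_lit 0) (XT.nd (nat_lit 312) (nat_lit 456) (nat_lit 0) (XT.nd (nat_lit 156) (nat_lit 228) (nat_lit 0) (XT.nd (nat_lit 78) (nat_lit 228) (nat_lit 0) (XT.lf (nat_lit 0) (nat_lit 12951326001) (nat_lit 304) (nat_lit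 55498401894) (nat_lit 76) (nat_lit 28070751931) (nat_lit 102) (nat_lit 5) (nat_lit 106) (nat_lit 5) (nat_lit 103) (nat_lit 5) (nat_lit 477) (nat_lit 450) (nat_lit 273)) (XT.lf (nat_lit 0) (nat_lit 749662510) (nat_lit 228) (nat_lit 31182267622) (nat_lit 304) (nat_lit 67471524168) (nat_lit 99) (nat_lit 5) (nat_lit 102) (nat_lit 5) (nat_lit 103) (nat_lit 5) (nat_lit 478) (nat_lit 450) (nat_lit 272))) (XT.nd (nat_lit 78) (nat_lit 228) (nat_lit 0) (XT.lf (nat_lit 0) (nat_lit 52940273963) (nat_lit 304) (nat_lit 40787185417) (nat_lit 76) (nat_lit 8649182711) (nat_lit 99) (nat_lit 5) (nat_lit 103) (nat_lit 5) (nat_lit 100) (nat_lit 5) (nat_lit 479) (nat_lit 450) (nat_lit 271)) (XT.lf (nat_lit 0) (nat_lit 20104065633) (nat_lit 228) (nat_lit 55719377488) (nat_lit 304) (nat_lit 29633825810) (nat_lit 96) (nat_lit 5) (nat_lit 99) (nat_lit 5) (nat_lit 100) (nat_lit 5) (nat_lit 480) (nat_lit 450) (nat_lit 270))))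 (XT.nd (nat_lit 156) (nat_lit 228) (nat_lit 0) (XT.nd (nat_lit 78) (nat_lit 228) (nat_lit 0) (XT.lf (nat_lit 0) (nat_lit 85454977064) (nat_lit 228) (nat_lit 15085903617) (nat_lit 304) (nat_lit 8116540995) (nat_lit 96) (nat_lit 5) (nat_lit 99) (nat_lit 5) (nat_lit 100) (nat_lit 5) (nat_lit 481) (nat_lit 450) (nat_lit 269)) (XT.lf (nat_lit 0) (nat_lit 15132655694) (nat_lit 228) (nat_lit 69205961516) (nat_lit 76) (nat_lit 27611694409) (nat_lit 93) (nat_lit 5) (nat_lit 96) (nat_lit 5) (nat_lit 94) (nat_lit 5) (nat_lit 482) (nat_lit 450) (nat_lit 268))) (XT.nd (nat_lit 78) (nat_lit 228) (nat_lit 0) (XT.lf (nat_lit 0) (nat_lit 39917629945) (nat_lit 228) (nat_lit 2981915214) (nat_lit 76) (nat_lit 72469343714) (nat_lit 93) (nat_lit 5) (nat_lit 96) (nat_lit 5) (nat_lit 94) (nat_lit 5) (nat_lit 483) (nat_lit 450) (nat_lit 267)) (XT.lf (nat_lit 0) (nat_lit 67041838383) (nat_lit 304) (nat_lit 50178917718)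 (nat_lit 76) (nat_lit 1682639665) (nat_lit 90) (nat_lit 5) (nat_lit 94) (nat_lit 5) (nat_lit 91) (nat_lit 5) (nat_lit 484) (nat_lit 450) (nat_lit 266))))) (XT.nd (nat_lit 312) (nat_lit 532) (nat_lit 0) (XT.nd (nat_lit 156) (nat_lit 228) (nat_lit 0) (XT.nd (nat_lit 78) (nat_lit 76) (nat_lit 0) (XT.lf (nat_lit 0) (nat_lit 21490449868) (nat_lit 152) (nat_lit 75121361660) (nat_lit 228) (nat_lit 25948338811) (nat_lit 88) (nat_lit 5) (nat_lit 90) (nat_lit 5) (nat_lit 91) (nat_lit 5) (nat_lit 485) (nat_lit 450) (nat_lit 265)) (XT.lf (nat_lit 0) (nat_lit 2083364132) (nat_lit 228) (nat_lit 27906377027) (nat_lit 76) (nat_lit 96365859065) (nat_lit 87) (nat_lit 5) (nat_lit 90) (nat_lit 5) (nat_lit 88) (nat_lit 5) (nat_lit 486) (nat_lit 450) (nat_lit 264))) (XT.nd (nat_lit 78) (nat_lit 0) (nat_lit 0) (XT.lf (nat_lit 0) (nat_lit 31717584920) (nat_lit 304) (nat_lit 80479768275) (nat_lit 76) (nat_lit 18068551968)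 (nat_lit 84) (nat_lit 5) (nat_lit 88) (nat_lit 5) (nat_lit 85) (nat_lit 5) (nat_lit 487) (nat_lit 450) (nat_lit 263)) (XT.lf (nat_lit 0) (nat_lit 63804975344) (nat_lit 304) (nat_lit 2516217179) (nat_lit 76) (nat_lit 68001959937) (nat_lit 84) (nat_lit 5) (nat_lit 88) (nat_lit 5) (nat_lit 85) (nat_lit 5) (nat_lit 488) (nat_lit 450) (nat_lit 262)))) (XT.nd (nat_lit 156) (nat_lit 228) (nat_lit 0) (XT.nd (nat_lit 78) (nat_lit 152) (nat_lit 0) (XT.lf (nat_lit 0) (nat_lit 81968183973) (nat_lit 152) (nat_lit 16807797550) (nat_lit 228) (nat_lit 39743318324) (nat_lit 82) (nat_lit 5) (nat_lit 84) (nat_lit 5) (nat_lit 85) (nat_lit 5) (nat_lit 489) (nat_lit 450) (nat_lit 261)) (XT.lf (nat_lit 0) (nat_lit 28192572289) (nat_lit 152) (nat_lit 108335220700) (nat_lit 228) (nat_lit 6345848901) (nat_lit 80) (nat_lit 5) (nat_lit 82) (nat_lit 5) (nat_lit 83) (nat_lit 5) (nat_lit 490) (nat_lit 450) (nat_lit 260)))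 (XT.nd (nat_lit 78) (nat_lit 152) (nat_lit 0) (XT.lf (nat_lit 0) (nat_lit 29050688179) (nat_lit 228) (nat_lit 29001535194) (nat_lit 76) (nat_lit 89308633477) (nat_lit 79) (nat_lit 5) (nat_lit 82) (nat_lit 5) (nat_lit 80) (nat_lit 5) (nat_lit 491) (nat_lit 450) (nat_lit 259)) (XT.lf (nat_lit 0) (nat_lit 62869366477) (nat_lit 152) (nat_lit 4115517031) (nat_lit 228) (nat_lit 85033292889) (nat_lit 77) (nat_lit 5) (nat_lit 79) (nat_lit 5) (nat_lit 80) (nat_lit 5) (nat_lit 492) (nat_lit 450) (nat_lit 258))))))) (XT.nd (nat_lit 1170) (nat_lit 1140) (nat_lit 0) (XT.nd (nat_lit 546) (nat_lit 760) (nat_lit 0) (XT.nd (nat_lit 234) (nat_lit 304) (nat_lit 0) (XT.nd (nat_lit 78) (nat_lit 228) (nat_lit 0) (XT.lf (nat_lit 0) (nat_lit 2714970633) (nat_lit 152) (nat_lit 105461898556) (nat_lit 228) (nat_lit 48663438731) (nat_lit 75) (nat_lit 5) (nat_lit 77) (nat_lit 5) (nat_lit 78) (nat_lit 5) (nat_lit 493) (nat_lit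 450) (nat_lit 257)) (XT.nd (nat_lit 78) (nat_lit 228) (nat_lit 0) (XT.lf (nat_lit 0) (nat_lit 102196503184) (nat_lit 152) (nat_lit 50807650542) (nat_lit 228) (nat_lit 8820607346) (nat_lit 75) (nat_lit 5) (nat_lit 77) (nat_lit 5) (nat_lit 78) (nat_lit 5) (nat_lit 494) (nat_lit 450) (nat_lit 256)) (XT.lf (nat_lit 0) (nat_lit 32709037054) (nat_lit 228) (nat_lit 126753126805) (nat_lit 76) (nat_lit 7532933841) (nat_lit 72) (nat_lit 5) (nat_lit 75) (nat_lit 5) (nat_lit 73) (nat_lit 5) (nat_lit 495) (nat_lit 450) (nat_lit 255)))) (XT.nd (nat_lit 156) (nat_lit 152) (nat_lit 0) (XT.nd (nat_lit 78) (nat_lit 152) (nat_lit 0) (XT.lf (nat_lit 0) (nat_lit 77877594932) (nat_lit 228) (nat_lit 26192422968) (nat_lit 76) (nat_lit 68253760203) (nat_lit 72) (nat_lit 5) (nat_lit 75) (nat_lit 5) (nat_lit 73) (nat_lit 5) (nat_lit 496) (nat_lit 450) (nat_lit 254)) (XT.lf (nat_lit 0) (nat_lit 82020763190) (nat_lit 152)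 (nat_lit 44563973542) (nat_lit 228) (nat_lit 51270148017) (nat_lit 70) (nat_lit 5) (nat_lit 72) (nat_lit 5) (nat_lit 73) (nat_lit 5) (nat_lit 497) (nat_lit 450) (nat_lit 253))) (XT.nd (nat_lit 78) (nat_lit 76) (nat_lit 0) (XT.lf (nat_lit 0) (nat_lit 13043304319) (nat_lit 76) (nat_lit 165617753357) (nat_lit 152) (nat_lit 4954797970) (nat_lit 69) (nat_lit 5) (nat_lit 70) (nat_lit 5) (nat_lit 71) (nat_lit 4) (nat_lit 498) (nat_lit 450) (nat_lit 252)) (XT.lf (nat_lit 0) (nat_lit 44658152976) (nat_lit 152) (nat_lit 60331787886) (nat_lit 76) (nat_lit 84521851339) (nat_lit 68) (nat_lit 5) (nat_lit 70) (nat_lit 5) (nat_lit 69) (nat_lit 5) (nat_lit 499) (nat_lit 450) (nat_lit 251))))) (XT.nd (nat_lit 312) (nat_lit 304) (nat_lit 0) (XT.nd (nat_lit 156) (nat_lit 304) (nat_lit 0) (XT.nd (nat_lit 78) (nat_lit 0) (nat_lit 0) (XT.lf (nat_lit 0) (nat_lit 57168847441) (nat_lit 152) (nat_lit 40308563597) (nat_lit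 228) (nat_lit 98176444592) (nat_lit 66) (nat_lit 5) (nat_lit 68) (nat_lit 5) (nat_lit 69) (nat_lit 5) (nat_lit 500) (nat_lit 450) (nat_lit 250)) (XT.lf (nat_lit 0) (nat_lit 154406761333) (nat_lit 228) (nat_lit 19861311067) (nat_lit 76) (nat_lit 27761493381) (nat_lit 66) (nat_lit 5) (nat_lit 69) (nat_lit 5) (nat_lit 67) (nat_lit 4) (nat_lit 501) (nat_lit 450) (nat_lit 249))) (XT.nd (nat_lit 78) (nat_lit 152) (nat_lit 0) (XT.lf (nat_lit 0) (nat_lit 7660507220) (nat_lit 152) (nat_lit 101258823860) (nat_lit 76) (nat_lit 99681634431) (nat_lit 64) (nat_lit 5) (nat_lit 66) (nat_lit 5) (nat_lit 65) (nat_lit 5) (nat_lit 502) (nat_lit 450) (nat_lit 248)) (XT.lf (nat_lit 0) (nat_lit 26161638305) (nat_lit 152) (nat_lit 38695869655) (nat_lit 228) (nat_lit 150566894096) (nat_lit 62) (nat_lit 5) (nat_lit 64) (nat_lit 5) (nat_lit 65) (nat_lit 5) (nat_lit 503) (nat_lit 450) (nat_lit 247)))) (XT.nd (nat_lit 156)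 (nat_lit 228) (nat_lit 0) (XT.nd (nat_lit 78) (nat_lit 76) (nat_lit 0) (XT.lf (nat_lit 0) (nat_lit 127204024913) (nat_lit 228) (nat_lit 59610505683) (nat_lit 76) (nat_lit 35659996539) (nat_lit 62) (nat_lit 5) (nat_lit 65) (nat_lit 5) (nat_lit 63) (nat_lit 4) (nat_lit 504) (nat_lit 450) (nat_lit 246)) (XT.lf (nat_lit 0) (nat_lit 78398609977) (nat_lit 76) (nat_lit 116127288844) (nat_lit 152) (nat_lit 35258358106) (nat_lit 61) (nat_lit 5) (nat_lit 62) (nat_lit 5) (nat_lit 63) (nat_lit 4) (nat_lit 505) (nat_lit 450) (nat_lit 245))) (XT.nd (nat_lit 78) (nat_lit 152) (nat_lit 0) (XT.lf (nat_lit 0) (nat_lit 27891813503) (nat_lit 152) (nat_lit 12481789668) (nat_lit 76) (nat_lit 197012917148) (nat_lit 60) (nat_lit 5) (nat_lit 62) (nat_lit 5) (nat_lit 61) (nat_lit 5) (nat_lit 506) (nat_lit 450) (nat_lit 244)) (XT.lf (nat_lit 0) (nat_lit 95812102683) (nat_lit 228) (nat_lit 108709791656) (nat_lit 76) (nat_lit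 40678226209) (nat_lit 58) (nat_lit 5) (nat_lit 61) (nat_lit 5) (nat_lit 59) (nat_lit 4) (nat_lit 507) (nat_lit 450) (nat_lit 243)))))) (XT.nd (nat_lit 624) (nat_lit 532) (nat_lit 0) (XT.nd (nat_lit 312) (nat_lit 304) (nat_lit 0) (XT.nd (nat_lit 156) (nat_lit 228) (nat_lit 0) (XT.nd (nat_lit 78) (nat_lit 0) (nat_lit 0) (XT.lf (nat_lit 0) (nat_lit 40583546109) (nat_lit 76) (nat_lit 128054866293) (nat_lit 152) (nat_lit 84690488093) (nat_lit 57) (nat_lit 5) (nat_lit 58) (nat_lit 5) (nat_lit 59) (nat_lit 4) (nat_lit 508) (nat_lit 450) (nat_lit 242)) (XT.lf (nat_lit 0) (nat_lit 201115104629) (nat_lit 76) (nat_lit 45831662527) (nat_lit 152) (nat_lit 14825315819) (nat_lit 57) (nat_lit 5) (nat_lit 58) (nat_lit 5) (nat_lit 59) (nat_lit 4) (nat_lit 509) (nat_lit 450) (nat_lit 241))) (XT.nd (nat_lit 78) (nat_lit 0) (nat_lit 0) (XT.lf (nat_lit 0) (nat_lit 58915261580) (nat_lit 228) (nat_lit 169820199172)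 (nat_lit 76) (nat_lit 41743491951) (nat_lit 54) (nat_lit 5) (nat_lit 57) (nat_lit 5) (nat_lit 55) (nat_lit 4) (nat_lit 510) (nat_lit 450) (nat_lit 240)) (XT.lf (nat_lit 0) (nat_lit 137639762939) (nat_lit 228) (nat_lit 8435462671) (nat_lit 76) (nat_lit 133444032272) (nat_lit 54) (nat_lit 5) (nat_lit 57) (nat_lit 5) (nat_lit 55) (nat_lit 4) (nat_lit 511) (nat_lit 450) (nat_lit 239)))) (XT.nd (nat_lit 156) (nat_lit 76) (nat_lit 0) (XT.nd (nat_lit 78) (nat_lit 152) (nat_lit 0) (XT.lf (nat_lit 0) (nat_lit 166341931379) (nat_lit 76) (nat_lit 56555325190) (nat_lit 152) (nat_lit 65984483402) (nat_lit 53) (nat_lit 5) (nat_lit 54) (nat_lit 5) (nat_lit 55) (nat_lit 4) (nat_lit 512) (nat_lit 450) (nat_lit 238)) (XT.lf (nat_lit 0) (nat_lit 14841784487) (nat_lit 152) (nat_lit 246334237227) (nat_lit 76) (nat_lit 37446867553) (nat_lit 51) (nat_lit 5) (nat_lit 53) (nat_lit 5) (nat_lit 52) (nat_lit 4) (nat_lit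 513) (nat_lit 450) (nat_lit 237))) (XT.nd (nat_lit 78) (nat_lit 76) (nat_lit 0) (XT.lf (nat_lit 0) (nat_lit 100527988325) (nat_lit 152) (nat_lit 70677923542) (nat_lit 76) (nat_lit 137439291833) (nat_lit 51) (nat_lit 5) (nat_lit 53) (nat_lit 5) (nat_lit 52) (nat_lit 4) (nat_lit 514) (nat_lit 450) (nat_lit 236)) (XT.lf (nat_lit 0) (nat_lit 117522112055) (nat_lit 76) (nat_lit 74810959456) (nat_lit 152) (nat_lit 126743833893) (nat_lit 50) (nat_lit 5) (nat_lit 51) (nat_lit 5) (nat_lit 52) (nat_lit 4) (nat_lit 515) (nat_lit 450) (nat_lit 235))))) (XT.nd (nat_lit 312) (nat_lit 304) (nat_lit 0) (XT.nd (nat_lit 156) (nat_lit 76) (nat_lit 0) (XT.nd (nat_lit 78) (nat_lit 152) (nat_lit 0) (XT.lf (nat_lit 0) (nat_lit 290356953289) (nat_lit 152) (nat_lit 12816811876) (nat_lit 0) (nat_lit 26774999814) (nat_lit 50) (nat_lit 5) (nat_lit 52) (nat_lit 4) (nat_lit 50) (nat_lit 4) (nat_lit 516) (nat_lit 450) (nat_lit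 234)) (XT.lf (nat_lit 0) (nat_lit 54520904838) (nat_lit 152) (nat_lit 151814431076) (nat_lit 76) (nat_lit 134775113127) (nat_lit 48) (nat_lit 5) (nat_lit 50) (nat_lit 5) (nat_lit 49) (nat_lit 4) (nat_lit 517) (nat_lit 450) (nat_lit 233))) (XT.nd (nat_lit 78) (nat_lit 0) (nat_lit 0) (XT.lf (nat_lit 0) (nat_lit 50090178297) (nat_lit 76) (nat_lit 102920934376) (nat_lit 152) (nat_lit 199736532337) (nat_lit 47) (nat_lit 5) (nat_lit 48) (nat_lit 5) (nat_lit 49) (nat_lit 4) (nat_lit 518) (nat_lit 450) (nat_lit 232)) (XT.lf (nat_lit 0) (nat_lit 259127199603) (nat_lit 152) (nat_lit 97608570559) (nat_lit 0) (nat_lit 8095862185) (nat_lit 47) (nat_lit 5) (nat_lit 49) (nat_lit 4) (nat_lit 47) (nat_lit 4) (nat_lit 519) (nat_lit 450) (nat_lit 231)))) (XT.nd (nat_lit 156) (nat_lit 152) (nat_lit 0) (XT.nd (nat_lit 78) (nat_lit 76) (nat_lit 0) (XT.lf (nat_lit 0) (nat_lit 119840704857) (nat_lit 76) (nat_lit 254266411944)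 (nat_lit 76) (nat_lit 3234800960) (nat_lit 46) (nat_lit 4) (nat_lit 47) (nat_lit 5) (nat_lit 47) (nat_lit 4) (nat_lit 520) (nat_lit 450) (nat_lit 230)) (XT.lf (nat_lit 0) (nat_lit 102698090876) (nat_lit 152) (nat_lit 40500785226) (nat_lit 76) (nat_lit 247113380253) (nat_lit 45) (nat_lit 5) (nat_lit 47) (nat_lit 5) (nat_lit 46) (nat_lit 4) (nat_lit 521) (nat_lit 450) (nat_lit 229))) (XT.nd (nat_lit 78) (nat_lit 76) (nat_lit 0) (XT.lf (nat_lit 0) (nat_lit 193489026247) (nat_lit 76) (nat_lit 23350557119) (nat_lit 152) (nat_lit 186937843712) (nat_lit 44) (nat_lit 5) (nat_lit 45) (nat_lit 5) (nat_lit 46) (nat_lit 4) (nat_lit 522) (nat_lit 450) (nat_lit 228)) (XT.lf (nat_lit 0) (nat_lit 21788357061) (nat_lit 76) (nat_lit 317537035713) (nat_lit 76) (nat_lit 78458601454) (nat_lit 43) (nat_lit 4) (nat_lit 44) (nat_lit 5) (nat_lit 44) (nat_lit 4) (nat_lit 523) (nat_lit 450) (nat_lit 227))))))))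
noncomputable def xc195 : XT := (XT.nd (nat_lit 57486) (nat_lit 0) (nat_lit 4256) (XT.nd (nat_lit 1170) (nat_lit 380) (nat_lit 0) (XT.nd (nat_lit 546) (nat_lit 532) (nat_lit 0) (XT.nd (nat_lit 234) (nat_lit 228) (nat_lit 0) (XT.nd (nat_lit 78) (nat_lit 76) (nat_lit 0) (XT.lf (nat_lit 0) (nat_lit 38312430425) (nat_lit 152) (nat_lit 160538166232) (nat_lit 76) (nat_lit 233412509794) (nat_lit 42) (nat_lit 5) (nat_lit 44) (nat_lit 5) (nat_lit 43) (nat_lit 4) (nat_lit 524) (nat_lit 450) (nat_lit 226)) (XT.nd (nat_lit 78) (nat_lit 0) (nat_lit 0) (XT.lf (nat_lit 0) (nat_lit 88229419905) (nat_lit 76) (nat_lit 71433152118) (nat_lit 152) (nat_lit 287670427858) (nat_lit 41) (nat_lit 5) (nat_lit 42) (nat_lit 5) (nat_lit 43) (nat_lit 4) (nat_lit 525) (nat_lit 450) (nat_lit 225)) (XT.lf (nat_lit 0) (nat_lit 290816895198) (nat_lit 152) (nat_lit 109030094496) (nat_lit 0) (nat_lit 63122564567) (nat_lit 41) (nat_lit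 5) (nat_lit 43) (nat_lit 4) (nat_lit 41) (nat_lit 4) (nat_lit 526) (nat_lit 450) (nat_lit 224)))) (XT.nd (nat_lit 156) (nat_lit 76) (nat_lit 0) (XT.nd (nat_lit 78) (nat_lit 76) (nat_lit 0) (XT.lf (nat_lit 0) (nat_lit 157413832008) (nat_lit 76) (nat_lit 274743593393) (nat_lit 76) (nat_lit 47049086419) (nat_lit 40) (nat_lit 4) (nat_lit 41) (nat_lit 5) (nat_lit 41) (nat_lit 4) (nat_lit 527) (nat_lit 450) (nat_lit 223)) (XT.lf (nat_lit 0) (nat_lit 83487761386) (nat_lit 152) (nat_lit 56544764078) (nat_lit 76) (nat_lit 356063149673) (nat_lit 39) (nat_lit 5) (nat_lit 41) (nat_lit 5) (nat_lit 40) (nat_lit 4) (nat_lit 528) (nat_lit 450) (nat_lit 222))) (XT.nd (nat_lit 78) (nat_lit 0) (nat_lit 0) (XT.lf (nat_lit 0) (nat_lit 222630936549) (nat_lit 152) (nat_lit 285198050243) (nat_lit 0) (nat_lit 5778712865) (nat_lit 38) (nat_lit 5) (nat_lit 40) (nat_lit 4) (nat_lit 38) (nat_lit 4) (nat_lit 529) (nat_lit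 450) (nat_lit 221)) (XT.lf (nat_lit 0) (nat_lit 371999992703) (nat_lit 152) (nat_lit 4684272653) (nat_lit 0) (nat_lit 155147623940) (nat_lit 38) (nat_lit 5) (nat_lit 40) (nat_lit 4) (nat_lit 38) (nat_lit 4) (nat_lit 530) (nat_lit 450) (nat_lit 220))))) (XT.nd (nat_lit 312) (nat_lit 228) (nat_lit 0) (XT.nd (nat_lit 156) (nat_lit 76) (nat_lit 0) (XT.nd (nat_lit 78) (nat_lit 152) (nat_lit 0) (XT.lf (nat_lit 0) (nat_lit 299438717806) (nat_lit 76) (nat_lit 234073666701) (nat_lit 76) (nat_lit 17221159769) (nat_lit 37) (nat_lit 4) (nat_lit 38) (nat_lit 5) (nat_lit 38) (nat_lit 4) (nat_lit 531) (nat_lit 450) (nat_lit 219)) (XT.lf (nat_lit 0) (nat_lit 47813814231) (nat_lit 76) (nat_lit 81291772477) (nat_lit 152) (nat_lit 441329897580) (nat_lit 35) (nat_lit 5) (nat_lit 36) (nat_lit 5) (nat_lit 37) (nat_lit 4) (nat_lit 532) (nat_lit 450) (nat_lit 218))) (XT.nd (nat_lit 78) (nat_lit 76) (nat_lit 0) (XT.lf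 (nat_lit 0) (nat_lit 287730728043) (nat_lit 152) (nat_lit 221895351197) (nat_lit 0) (nat_lit 81204286286) (nat_lit 35) (nat_lit 5) (nat_lit 37) (nat_lit 4) (nat_lit 35) (nat_lit 4) (nat_lit 533) (nat_lit 450) (nat_lit 217)) (XT.lf (nat_lit 0) (nat_lit 95593864989) (nat_lit 76) (nat_lit 361518216752) (nat_lit 76) (nat_lit 154991661323) (nat_lit 34) (nat_lit 4) (nat_lit 35) (nat_lit 5) (nat_lit 35) (nat_lit 4) (nat_lit 534) (nat_lit 450) (nat_lit 216)))) (XT.nd (nat_lit 156) (nat_lit 76) (nat_lit 0) (XT.nd (nat_lit 78) (nat_lit 76) (nat_lit 0) (XT.lf (nat_lit 0) (nat_lit 4324341028) (nat_lit 152) (nat_lit 197661764579) (nat_lit 76) (nat_lit 432263310329) (nat_lit 33) (nat_lit 5) (nat_lit 35) (nat_lit 5) (nat_lit 34) (nat_lit 4) (nat_lit 535) (nat_lit 450) (nat_lit 215)) (XT.lf (nat_lit 0) (nat_lit 139037630187) (nat_lit 76) (nat_lit 29530368339) (nat_lit 152) (nat_lit 488698802023) (nat_lit 32)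 (nat_lit 5) (nat_lit 33) (nat_lit 5) (nat_lit 34) (nat_lit 4) (nat_lit 536) (nat_lit 450) (nat_lit 214))) (XT.nd (nat_lit 78) (nat_lit 76) (nat_lit 0) (XT.lf (nat_lit 0) (nat_lit 346792129412) (nat_lit 152) (nat_lit 184254633415) (nat_lit 0) (nat_lit 150099877043) (nat_lit 32) (nat_lit 5) (nat_lit 34) (nat_lit 4) (nat_lit 32) (nat_lit 4) (nat_lit 537) (nat_lit 450) (nat_lit 213)) (XT.lf (nat_lit 0) (nat_lit 171420726148) (nat_lit 76) (nat_lit 365667035843) (nat_lit 76) (nat_lit 168974694409) (nat_lit 31) (nat_lit 4) (nat_lit 32) (nat_lit 5) (nat_lit 32) (nat_lit 4) (nat_lit 538) (nat_lit 450) (nat_lit 212)))))) (XT.nd (nat_lit 55692) (nat_lit 0) (nat_lit 9196) (XT.nd (nat_lit 312) (nat_lit 152) (nat_lit 0) (XT.nd (nat_lit 156) (nat_lit 76) (nat_lit 0) (XT.nd (nat_lit 78) (nat_lit 76) (nat_lit 0) (XT.lf (nat_lit 0) (nat_lit 7695940753) (nat_lit 152) (nat_lit 180915747714) (nat_lit 76) (nat_lit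 543450155037) (nat_lit 30) (nat_lit 5) (nat_lit 32) (nat_lit 5) (nat_lit 31) (nat_lit 4) (nat_lit 539) (nat_lit 450) (nat_lit 211)) (XT.lf (nat_lit 0) (nat_lit 190601966763) (nat_lit 152) (nat_lit 565190933933) (nat_lit 0) (nat_lit 3275769579) (nat_lit 29) (nat_lit 5) (nat_lit 31) (nat_lit 4) (nat_lit 29) (nat_lit 4) (nat_lit 540) (nat_lit 450) (nat_lit 210))) (XT.nd (nat_lit 78) (nat_lit 76) (nat_lit 0) (XT.lf (nat_lit 0) (nat_lit 388859253650) (nat_lit 152) (nat_lit 196723303564) (nat_lit 0) (nat_lit 201532983192) (nat_lit 29) (nat_lit 5) (nat_lit 31) (nat_lit 4) (nat_lit 29) (nat_lit 4) (nat_lit 541) (nat_lit 450) (nat_lit 209)) (XT.lf (nat_lit 0) (nat_lit 196455198595) (nat_lit 76) (nat_lit 403641271223) (nat_lit 76) (nat_lit 216314930980) (nat_lit 28) (nat_lit 4) (nat_lit 29) (nat_lit 5) (nat_lit 29) (nat_lit 4) (nat_lit 542) (nat_lit 450) (nat_lit 208)))) (XT.nd (nat_lit 156) (nat_lit 0)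 (nat_lit 0) (XT.nd (nat_lit 78) (nat_lit 152) (nat_lit 0) (XT.lf (nat_lit 0) (nat_lit 616122116666) (nat_lit 76) (nat_lit 209104885735) (nat_lit 76) (nat_lit 21778479030) (nat_lit 28) (nat_lit 4) (nat_lit 29) (nat_lit 5) (nat_lit 29) (nat_lit 4) (nat_lit 543) (nat_lit 450) (nat_lit 207)) (XT.lf (nat_lit 0) (nat_lit 179480581457) (nat_lit 152) (nat_lit 698289988185) (nat_lit 0) (nat_lit 1074419550) (nat_lit 26) (nat_lit 5) (nat_lit 28) (nat_lit 4) (nat_lit 26) (nat_lit 4) (nat_lit 544) (nat_lit 450) (nat_lit 206))) (XT.nd (nat_lit 55146) (nat_lit 0) (nat_lit 9196) (XT.lf (nat_lit 0) (nat_lit 397472722291) (nat_lit 152) (nat_lit 295349294516) (nat_lit 0) (nat_lit 219066502972) (nat_lit 26) (nat_lit 5) (nat_lit 28) (nat_lit 4) (nat_lit 26) (nat_lit 4) (nat_lit 545) (nat_lit 450) (nat_lit 205)) (XT.lf (nat_lit 0) (nat_lit 9980885376) (nat_lit 836) (nat_lit 7235959443) (nat_lit 836) (nat_lit 7235959443)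 (nat_lit 147) (nat_lit 3) (nat_lit 158) (nat_lit 3) (nat_lit 158) (nat_lit 5) (nat_lit 451) (nat_lit 451) (nat_lit 298))))) (XT.nd (nat_lit 312) (nat_lit 0) (nat_lit 152) (XT.nd (nat_lit 156) (nat_lit 0) (nat_lit 76) (XT.nd (nat_lit 78) (nat_lit 0) (nat_lit 76) (XT.lf (nat_lit 76) (nat_lit 10106315711) (nat_lit 0) (nat_lit 10539183876) (nat_lit 836) (nat_lit 29473510764) (nat_lit 148) (nat_lit 5) (nat_lit 147) (nat_lit 3) (nat_lit 158) (nat_lit 5) (nat_lit 452) (nat_lit 451) (nat_lit 297)) (XT.lf (nat_lit 0) (nat_lit 21837964903) (nat_lit 760) (nat_lit 15197151836) (nat_lit 836) (nat_lit 14334238292) (nat_lit 148) (nat_lit 5) (nat_lit 158) (nat_lit 5) (nat_lit 159) (nat_lit 5) (nat_lit 453) (nat_lit 451) (nat_lit 296))) (XT.nd (nat_lit 78) (nat_lit 0) (nat_lit 76) (XT.lf (nat_lit 76) (nat_lit 11038718201) (nat_lit 0) (nat_lit 12394812425) (nat_lit 836) (nat_lit 29231512716) (nat_lit 149) (nat_lit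 5) (nat_lit 148) (nat_lit 5) (nat_lit 159) (nat_lit 5) (nat_lit 454) (nat_lit 451) (nat_lit 295)) (XT.lf (nat_lit 0) (nat_lit 25579317502) (nat_lit 760) (nat_lit 15114352977) (nat_lit 836) (nat_lit 13308323687) (nat_lit 149) (nat_lit 5) (nat_lit 159) (nat_lit 5) (nat_lit 160) (nat_lit 5) (nat_lit 455) (nat_lit 451) (nat_lit 294)))) (XT.nd (nat_lit 156) (nat_lit 0) (nat_lit 76) (XT.nd (nat_lit 78) (nat_lit 0) (nat_lit 76) (XT.lf (nat_lit 76) (nat_lit 12932952594) (nat_lit 0) (nat_lit 15303060019) (nat_lit 836) (nat_lit 27149599205) (nat_lit 150) (nat_lit 5) (nat_lit 149) (nat_lit 5) (nat_lit 160) (nat_lit 5) (nat_lit 456) (nat_lit 451) (nat_lit 293)) (XT.lf (nat_lit 0) (nat_lit 31461591737) (nat_lit 760) (nat_lit 14100834047) (nat_lit 836) (nat_lit 11254182324) (nat_lit 150) (nat_lit 5) (nat_lit 160) (nat_lit 5) (nat_lit 161) (nat_lit 5) (nat_lit 457) (nat_lit 451) (nat_lit 292))) (XT.nd (nat_lit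 78) (nat_lit 0) (nat_lit 76) (XT.lf (nat_lit 76) (nat_lit 15926439293) (nat_lit 0) (nat_lit 19420173189) (nat_lit 836) (nat_lit 22947633805) (nat_lit 151) (nat_lit 5) (nat_lit 150) (nat_lit 5) (nat_lit 161) (nat_lit 5) (nat_lit 458) (nat_lit 451) (nat_lit 291)) (XT.lf (nat_lit 0) (nat_lit 39792652360) (nat_lit 760) (nat_lit 12019546878) (nat_lit 836) (nat_lit 8015228933) (nat_lit 151) (nat_lit 5) (nat_lit 161) (nat_lit 5) (nat_lit 162) (nat_lit 5) (nat_lit 459) (nat_lit 451) (nat_lit 290))))))) (XT.nd (nat_lit 1170) (nat_lit 2052) (nat_lit 0) (XT.nd (nat_lit 546) (nat_lit 1672) (nat_lit 0) (XT.nd (nat_lit 234) (nat_lit 836) (nat_lit 0) (XT.nd (nat_lit 78) (nat_lit 684) (nat_lit 0) (XT.lf (nat_lit 76) (nat_lit 20172382958) (nat_lit 0) (nat_lit 24920675177) (nat_lit 836) (nat_lit 16312608006) (nat_lit 152) (nat_lit 5) (nat_lit 151) (nat_lit 5) (nat_lit 162) (nat_lit 5) (nat_lit 460) (nat_lit 451)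 (nat_lit 289)) (XT.nd (nat_lit 78) (nat_lit 760) (nat_lit 0) (XT.lf (nat_lit 0) (nat_lit 50915940868) (nat_lit 760) (nat_lit 8717606406) (nat_lit 76) (nat_lit 3416396084) (nat_lit 152) (nat_lit 5) (nat_lit 162) (nat_lit 5) (nat_lit 153) (nat_lit 5) (nat_lit 461) (nat_lit 451) (nat_lit 288)) (XT.lf (nat_lit 0) (nat_lit 25841386220) (nat_lit 760) (nat_lit 31999430540) (nat_lit 836) (nat_lit 6895075396) (nat_lit 142) (nat_lit 5) (nat_lit 152) (nat_lit 5) (nat_lit 153) (nat_lit 5) (nat_lit 462) (nat_lit 451) (nat_lit 287)))) (XT.nd (nat_lit 156) (nat_lit 380) (nat_lit 0) (XT.nd (nat_lit 78) (nat_lit 456) (nat_lit 0) (XT.lf (nat_lit 0) (nat_lit 62429982436) (nat_lit 760) (nat_lit 2828486593) (nat_lit 836) (nat_lit 1240342899) (nat_lit 142) (nat_lit 5) (nat_lit 152) (nat_lit 5) (nat_lit 153) (nat_lit 5) (nat_lit 463) (nat_lit 451) (nat_lit 286)) (XT.lf (nat_lit 0) (nat_lit 5512512600) (nat_lit 456)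 (nat_lit 35268061069) (nat_lit 76) (nat_lit 27517351215) (nat_lit 136) (nat_lit 5) (nat_lit 142) (nat_lit 5) (nat_lit 137) (nat_lit 5) (nat_lit 464) (nat_lit 451) (nat_lit 285))) (XT.nd (nat_lit 78) (nat_lit 0) (nat_lit 0) (XT.lf (nat_lit 0) (nat_lit 1934254481) (nat_lit 380) (nat_lit 10772645274) (nat_lit 456) (nat_lit 57471798573) (nat_lit 131) (nat_lit 5) (nat_lit 136) (nat_lit 5) (nat_lit 137) (nat_lit 5) (nat_lit 465) (nat_lit 451) (nat_lit 284)) (XT.lf (nat_lit 0) (nat_lit 21190822295) (nat_lit 456) (nat_lit 30237126289) (nat_lit 76) (nat_lit 20679071194) (nat_lit 131) (nat_lit 5) (nat_lit 137) (nat_lit 5) (nat_lit 132) (nat_lit 5) (nat_lit 466) (nat_lit 451) (nat_lit 283))))) (XT.nd (nat_lit 312) (nat_lit 988) (nat_lit 0) (XT.nd (nat_lit 156) (nat_lit 304) (nat_lit 0) (XT.nd (nat_lit 78) (nat_lit 0) (nat_lit 0) (XT.lf (nat_lit 0) (nat_lit 9806826961) (nat_lit 380) (nat_lit 20620875151)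 (nat_lit 456) (nat_lit 43687617258) (nat_lit 126) (nat_lit 5) (nat_lit 131) (nat_lit 5) (nat_lit 132) (nat_lit 5) (nat_lit 467) (nat_lit 451) (nat_lit 282)) (XT.lf (nat_lit 0) (nat_lit 40829062448) (nat_lit 456) (nat_lit 23488204380) (nat_lit 76) (nat_lit 11871635409) (nat_lit 126) (nat_lit 5) (nat_lit 132) (nat_lit 5) (nat_lit 127) (nat_lit 5) (nat_lit 468) (nat_lit 451) (nat_lit 281))) (XT.nd (nat_lit 78) (nat_lit 0) (nat_lit 0) (XT.lf (nat_lit 0) (nat_lit 19663414426) (nat_lit 304) (nat_lit 32731245524) (nat_lit 380) (nat_lit 25939295957) (nat_lit 122) (nat_lit 5) (nat_lit 126) (nat_lit 5) (nat_lit 127) (nat_lit 5) (nat_lit 469) (nat_lit 451) (nat_lit 280)) (XT.lf (nat_lit 0) (nat_lit 64948765448) (nat_lit 380) (nat_lit 14792613125) (nat_lit 76) (nat_lit 824372393) (nat_lit 122) (nat_lit 5) (nat_lit 127) (nat_lit 5) (nat_lit 123) (nat_lit 5) (nat_lit 470) (nat_lit 451) (nat_lit 279)))) (XT.nd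 (nat_lit 156) (nat_lit 608) (nat_lit 0) (XT.nd (nat_lit 78) (nat_lit 76) (nat_lit 0) (XT.lf (nat_lit 0) (nat_lit 31758127056) (nat_lit 304) (nat_lit 47404046804) (nat_lit 380) (nat_lit 3695382139) (nat_lit 118) (nat_lit 5) (nat_lit 122) (nat_lit 5) (nat_lit 123) (nat_lit 5) (nat_lit 471) (nat_lit 451) (nat_lit 278)) (XT.lf (nat_lit 0) (nat_lit 8793756966) (nat_lit 380) (nat_lit 4244278908) (nat_lit 76) (nat_lit 72206337250) (nat_lit 117) (nat_lit 5) (nat_lit 122) (nat_lit 5) (nat_lit 118) (nat_lit 5) (nat_lit 472) (nat_lit 451) (nat_lit 277))) (XT.nd (nat_lit 78) (nat_lit 304) (nat_lit 0) (XT.lf (nat_lit 0) (nat_lit 22879143386) (nat_lit 380) (nat_lit 41707559511) (nat_lit 76) (nat_lit 23106000325) (nat_lit 113) (nat_lit 5) (nat_lit 118) (nat_lit 5) (nat_lit 114) (nat_lit 5) (nat_lit 473) (nat_lit 451) (nat_lit 276)) (XT.lf (nat_lit 0) (nat_lit 8675332250) (nat_lit 304) (nat_lit 29414963679)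 (nat_lit 380) (nat_lit 52152079142) (nat_lit 109) (nat_lit 5) (nat_lit 113) (nat_lit 5) (nat_lit 114) (nat_lit 5) (nat_lit 474) (nat_lit 451) (nat_lit 275)))))) (XT.nd (nat_lit 624) (nat_lit 1064) (nat_lit 0) (XT.nd (nat_lit 312) (nat_lit 456) (nat_lit 0) (XT.nd (nat_lit 156) (nat_lit 304) (nat_lit 0) (XT.nd (nat_lit 78) (nat_lit 228) (nat_lit 0) (XT.lf (nat_lit 0) (nat_lit 54896531595) (nat_lit 380) (nat_lit 29988734905) (nat_lit 76) (nat_lit 7992537821) (nat_lit 109) (nat_lit 5) (nat_lit 114) (nat_lit 5) (nat_lit 110) (nat_lit 5) (nat_lit 475) (nat_lit 451) (nat_lit 274)) (XT.lf (nat_lit 0) (nat_lit 24468499749) (nat_lit 228) (nat_lit 48938120923) (nat_lit 304) (nat_lit 22195207359) (nat_lit 106) (nat_lit 5) (nat_lit 109) (nat_lit 5) (nat_lit 110) (nat_lit 5) (nat_lit 476) (nat_lit 451) (nat_lit 273))) (XT.nd (nat_lit 78) (nat_lit 304) (nat_lit 0) (XT.lf (nat_lit 0) (nat_lit 82688831209) (nat_lit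 228) (nat_lit 10660582825) (nat_lit 304) (nat_lit 5087278974) (nat_lit 106) (nat_lit 5) (nat_lit 109) (nat_lit 5) (nat_lit 110) (nat_lit 5) (nat_lit 477) (nat_lit 451) (nat_lit 272)) (XT.lf (nat_lit 0) (nat_lit 13619515192) (nat_lit 304) (nat_lit 58244307631) (nat_lit 76) (nat_lit 29481647760) (nat_lit 102) (nat_lit 5) (nat_lit 106) (nat_lit 5) (nat_lit 103) (nat_lit 5) (nat_lit 478) (nat_lit 451) (nat_lit 271)))) (XT.nd (nat_lit 156) (nat_lit 228) (nat_lit 0) (XT.nd (nat_lit 78) (nat_lit 0) (nat_lit 0) (XT.lf (nat_lit 0) (nat_lit 815692020) (nat_lit 228) (nat_lit 32732921157) (nat_lit 304) (nat_lit 70824007521) (nat_lit 99) (nat_lit 5) (nat_lit 102) (nat_lit 5) (nat_lit 103) (nat_lit 5) (nat_lit 479) (nat_lit 451) (nat_lit 270)) (XT.lf (nat_lit 0) (nat_lit 55606543490) (nat_lit 304) (nat_lit 42798525051) (nat_lit 76) (nat_lit 9089440969) (nat_lit 99) (nat_lit 5) (nat_lit 103) (nat_lit 5) (nat_lit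 100) (nat_lit 5) (nat_lit 480) (nat_lit 451) (nat_lit 269))) (XT.nd (nat_lit 78) (nat_lit 0) (nat_lit 0) (XT.lf (nat_lit 0) (nat_lit 21136836622) (nat_lit 228) (nat_lit 58496547948) (nat_lit 304) (nat_lit 31095807538) (nat_lit 96) (nat_lit 5) (nat_lit 99) (nat_lit 5) (nat_lit 100) (nat_lit 5) (nat_lit 481) (nat_lit 451) (nat_lit 268)) (XT.lf (nat_lit 0) (nat_lit 89753980877) (nat_lit 228) (nat_lit 15831819356) (nat_lit 304) (nat_lit 8503597033) (nat_lit 96) (nat_lit 5) (nat_lit 99) (nat_lit 5) (nat_lit 100) (nat_lit 5) (nat_lit 482) (nat_lit 451) (nat_lit 267))))) (XT.nd (nat_lit 312) (nat_lit 456) (nat_lit 0) (XT.nd (nat_lit 156) (nat_lit 380) (nat_lit 0) (XT.nd (nat_lit 78) (nat_lit 0) (nat_lit 0) (XT.lf (nat_lit 0) (nat_lit 15907141944) (nat_lit 228) (nat_lit 72639083889) (nat_lit 76) (nat_lit 29000707134) (nat_lit 93) (nat_lit 5) (nat_lit 96) (nat_lit 5) (nat_lit 94) (nat_lit 5) (nat_lit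 483) (nat_lit 451) (nat_lit 266)) (XT.lf (nat_lit 0) (nat_lit 41930514743) (nat_lit 228) (nat_lit 3105129353) (nat_lit 76) (nat_lit 76100837571) (nat_lit 93) (nat_lit 5) (nat_lit 96) (nat_lit 5) (nat_lit 94) (nat_lit 5) (nat_lit 484) (nat_lit 451) (nat_lit 265))) (XT.nd (nat_lit 78) (nat_lit 152) (nat_lit 0) (XT.lf (nat_lit 0) (nat_lit 70410660021) (nat_lit 304) (nat_lit 52661706986) (nat_lit 76) (nat_lit 1775360647) (nat_lit 90) (nat_lit 5) (nat_lit 94) (nat_lit 5) (nat_lit 91) (nat_lit 5) (nat_lit 485) (nat_lit 451) (nat_lit 264)) (XT.lf (nat_lit 0) (nat_lit 22590707098) (nat_lit 152) (nat_lit 78868029863) (nat_lit 228) (nat_lit 27228602805) (nat_lit 88) (nat_lit 5) (nat_lit 90) (nat_lit 5) (nat_lit 91) (nat_lit 5) (nat_lit 486) (nat_lit 451) (nat_lit 263)))) (XT.nd (nat_lit 156) (nat_lit 152) (nat_lit 0) (XT.nd (nat_lit 78) (nat_lit 228) (nat_lit 0) (XT.lf (nat_lit 0) (nat_lit 2203345620)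 (nat_lit 228) (nat_lit 29276662525) (nat_lit 76) (nat_lit 101192580204) (nat_lit 87) (nat_lit 5) (nat_lit 90) (nat_lit 5) (nat_lit 88) (nat_lit 5) (nat_lit 487) (nat_lit 451) (nat_lit 262)) (XT.lf (nat_lit 0) (nat_lit 33319052371) (nat_lit 304) (nat_lit 84478497097) (nat_lit 76) (nat_lit 18980870380) (nat_lit 84) (nat_lit 5) (nat_lit 88) (nat_lit 5) (nat_lit 85) (nat_lit 5) (nat_lit 488) (nat_lit 451) (nat_lit 261))) (XT.nd (nat_lit 78) (nat_lit 152) (nat_lit 0) (XT.lf (nat_lit 0) (nat_lit 67010070020) (nat_lit 304) (nat_lit 2617971283) (nat_lit 76) (nat_lit 71410525376) (nat_lit 84) (nat_lit 5) (nat_lit 88) (nat_lit 5) (nat_lit 85) (nat_lit 5) (nat_lit 489) (nat_lit 451) (nat_lit 260)) (XT.lf (nat_lit 0) (nat_lit 86090261914) (nat_lit 152) (nat_lit 17639027182) (nat_lit 228) (nat_lit 41715249263) (nat_lit 82) (nat_lit 5) (nat_lit 84) (nat_lit 5) (nat_lit 85) (nat_lit 5) (nat_lit 490) (nat_lit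 451) (nat_lit 259))))))))
noncomputable def xc196 : XT := (XT.nd (nat_lit 2418) (nat_lit 1520) (nat_lit 0) (XT.nd (nat_lit 1170) (nat_lit 1216) (nat_lit 0) (XT.nd (nat_lit 546) (nat_lit 760) (nat_lit 0) (XT.nd (nat_lit 234) (nat_lit 380) (nat_lit 0) (XT.nd (nat_lit 78) (nat_lit 228) (nat_lit 0) (XT.lf (nat_lit 0) (nat_lit 29626061944) (nat_lit 152) (nat_lit 113742447055) (nat_lit 228) (nat_lit 6648097663) (nat_lit 80) (nat_lit 5) (nat_lit 82) (nat_lit 5) (nat_lit 83) (nat_lit 5) (nat_lit 491) (nat_lit 451) (nat_lit 258)) (XT.nd (nat_lit 78) (nat_lit 152) (nat_lit 0) (XT.lf (nat_lit 0) (nat_lit 30517091342) (nat_lit 228) (nat_lit 30428427677) (nat_lit 76) (nat_lit 93782686324) (nat_lit 79) (nat_lit 5) (nat_lit 82) (nat_lit 5) (nat_lit 80) (nat_lit 5) (nat_lit 492) (nat_lit 451) (nat_lit 257)) (XT.lf (nat_lit 0) (nat_lit 66035645137) (nat_lit 152) (nat_lit 4312047016) (nat_lit 228) (nat_lit 89270713971)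 (nat_lit 77) (nat_lit 5) (nat_lit 79) (nat_lit 5) (nat_lit 80) (nat_lit 5) (nat_lit 493) (nat_lit 451) (nat_lit 256)))) (XT.nd (nat_lit 156) (nat_lit 228) (nat_lit 0) (XT.nd (nat_lit 78) (nat_lit 0) (nat_lit 0) (XT.lf (nat_lit 0) (nat_lit 2873687706) (nat_lit 152) (nat_lit 110725439570) (nat_lit 228) (nat_lit 51082524483) (nat_lit 75) (nat_lit 5) (nat_lit 77) (nat_lit 5) (nat_lit 78) (nat_lit 5) (nat_lit 494) (nat_lit 451) (nat_lit 255)) (XT.lf (nat_lit 0) (nat_lit 107328203144) (nat_lit 152) (nat_lit 53338934103) (nat_lit 228) (nat_lit 9248222299) (nat_lit 75) (nat_lit 5) (nat_lit 77) (nat_lit 5) (nat_lit 78) (nat_lit 5) (nat_lit 495) (nat_lit 451) (nat_lit 254))) (XT.nd (nat_lit 78) (nat_lit 0) (nat_lit 0) (XT.lf (nat_lit 0) (nat_lit 34357343369) (nat_lit 228) (nat_lit 133068345928) (nat_lit 76) (nat_lit 7918519850) (nat_lit 72) (nat_lit 5) (nat_lit 75) (nat_lit 5) (nat_lit 73) (nat_lit 5)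 (nat_lit 496) (nat_lit 451) (nat_lit 253)) (XT.lf (nat_lit 0) (nat_lit 81783717024) (nat_lit 228) (nat_lit 27480675339) (nat_lit 76) (nat_lit 71674961848) (nat_lit 72) (nat_lit 5) (nat_lit 75) (nat_lit 5) (nat_lit 73) (nat_lit 5) (nat_lit 497) (nat_lit 451) (nat_lit 252))))) (XT.nd (nat_lit 312) (nat_lit 304) (nat_lit 0) (XT.nd (nat_lit 156) (nat_lit 228) (nat_lit 0) (XT.nd (nat_lit 78) (nat_lit 76) (nat_lit 0) (XT.lf (nat_lit 0) (nat_lit 86142825470) (nat_lit 152) (nat_lit 46783135721) (nat_lit 228) (nat_lit 53821067767) (nat_lit 70) (nat_lit 5) (nat_lit 72) (nat_lit 5) (nat_lit 73) (nat_lit 5) (nat_lit 498) (nat_lit 451) (nat_lit 251)) (XT.lf (nat_lit 0) (nat_lit 13716606098) (nat_lit 76) (nat_lit 173889385613) (nat_lit 152) (nat_lit 5190062044) (nat_lit 69) (nat_lit 5) (nat_lit 70) (nat_lit 5) (nat_lit 71) (nat_lit 4) (nat_lit 499) (nat_lit 451) (nat_lit 250))) (XT.nd (nat_lit 78) (nat_lit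 152) (nat_lit 0) (XT.lf (nat_lit 0) (nat_lit 46902562073) (nat_lit 152) (nat_lit 63327866371) (nat_lit 76) (nat_lit 88756377735) (nat_lit 68) (nat_lit 5) (nat_lit 70) (nat_lit 5) (nat_lit 69) (nat_lit 5) (nat_lit 500) (nat_lit 451) (nat_lit 249)) (XT.lf (nat_lit 0) (nat_lit 60047469901) (nat_lit 152) (nat_lit 42315080516) (nat_lit 228) (nat_lit 103073434020) (nat_lit 66) (nat_lit 5) (nat_lit 68) (nat_lit 5) (nat_lit 69) (nat_lit 5) (nat_lit 501) (nat_lit 451) (nat_lit 248)))) (XT.nd (nat_lit 156) (nat_lit 152) (nat_lit 0) (XT.nd (nat_lit 78) (nat_lit 152) (nat_lit 0) (XT.lf (nat_lit 0) (nat_lit 162137964121) (nat_lit 228) (nat_lit 20834752875) (nat_lit 76) (nat_lit 29157783331) (nat_lit 66) (nat_lit 5) (nat_lit 69) (nat_lit 5) (nat_lit 67) (nat_lit 4) (nat_lit 502) (nat_lit 451) (nat_lit 247)) (XT.lf (nat_lit 0) (nat_lit 8054356413) (nat_lit 152) (nat_lit 106302099474) (nat_lit 76) (nat_lit 104674016247)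 (nat_lit 64) (nat_lit 5) (nat_lit 66) (nat_lit 5) (nat_lit 65) (nat_lit 5) (nat_lit 503) (nat_lit 451) (nat_lit 246))) (XT.nd (nat_lit 78) (nat_lit 0) (nat_lit 0) (XT.lf (nat_lit 0) (nat_lit 27489068612) (nat_lit 152) (nat_lit 40621925240) (nat_lit 228) (nat_lit 158084097344) (nat_lit 62) (nat_lit 5) (nat_lit 64) (nat_lit 5) (nat_lit 65) (nat_lit 5) (nat_lit 504) (nat_lit 451) (nat_lit 245)) (XT.lf (nat_lit 0) (nat_lit 133574461318) (nat_lit 228) (nat_lit 62572228175) (nat_lit 76) (nat_lit 37451051824) (nat_lit 62) (nat_lit 5) (nat_lit 65) (nat_lit 5) (nat_lit 63) (nat_lit 4) (nat_lit 505) (nat_lit 451) (nat_lit 244)))))) (XT.nd (nat_lit 624) (nat_lit 532) (nat_lit 0) (XT.nd (nat_lit 312) (nat_lit 304) (nat_lit 0) (XT.nd (nat_lit 156) (nat_lit 228) (nat_lit 0) (XT.nd (nat_lit 78) (nat_lit 76) (nat_lit 0) (XT.lf (nat_lit 0) (nat_lit 82337039998) (nat_lit 76) (nat_lit 121925190365) (nat_lit 152)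 (nat_lit 37010737183) (nat_lit 61) (nat_lit 5) (nat_lit 62) (nat_lit 5) (nat_lit 63) (nat_lit 4) (nat_lit 506) (nat_lit 451) (nat_lit 243)) (XT.lf (nat_lit 0) (nat_lit 29296119911) (nat_lit 152) (nat_lit 13087938953) (nat_lit 76) (nat_lit 206871301324) (nat_lit 60) (nat_lit 5) (nat_lit 62) (nat_lit 5) (nat_lit 61) (nat_lit 5) (nat_lit 507) (nat_lit 451) (nat_lit 242))) (XT.nd (nat_lit 78) (nat_lit 76) (nat_lit 0) (XT.lf (nat_lit 0) (nat_lit 100612363285) (nat_lit 228) (nat_lit 114127280432) (nat_lit 76) (nat_lit 42719999741) (nat_lit 58) (nat_lit 5) (nat_lit 61) (nat_lit 5) (nat_lit 59) (nat_lit 4) (nat_lit 508) (nat_lit 451) (nat_lit 241)) (XT.lf (nat_lit 0) (nat_lit 42630433886) (nat_lit 76) (nat_lit 134449371331) (nat_lit 152) (nat_lit 88915066367) (nat_lit 57) (nat_lit 5) (nat_lit 58) (nat_lit 5) (nat_lit 59) (nat_lit 4) (nat_lit 509) (nat_lit 451) (nat_lit 240)))) (XT.nd (nat_lit 156) (nat_lit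 76) (nat_lit 0) (XT.nd (nat_lit 78) (nat_lit 228) (nat_lit 0) (XT.lf (nat_lit 0) (nat_lit 211187726976) (nat_lit 76) (nat_lit 48115399675) (nat_lit 152) (nat_lit 15557109105) (nat_lit 57) (nat_lit 5) (nat_lit 58) (nat_lit 5) (nat_lit 59) (nat_lit 4) (nat_lit 510) (nat_lit 451) (nat_lit 239)) (XT.lf (nat_lit 0) (nat_lit 61870144406) (nat_lit 228) (nat_lit 178293988676) (nat_lit 76) (nat_lit 43838310987) (nat_lit 54) (nat_lit 5) (nat_lit 57) (nat_lit 5) (nat_lit 55) (nat_lit 4) (nat_lit 511) (nat_lit 451) (nat_lit 238))) (XT.nd (nat_lit 78) (nat_lit 76) (nat_lit 0) (XT.lf (nat_lit 0) (nat_lit 144530436559) (nat_lit 228) (nat_lit 8840835372) (nat_lit 76) (nat_lit 140123514303) (nat_lit 54) (nat_lit 5) (nat_lit 57) (nat_lit 5) (nat_lit 55) (nat_lit 4) (nat_lit 512) (nat_lit 451) (nat_lit 237)) (XT.lf (nat_lit 0) (nat_lit 174675163858) (nat_lit 76) (nat_lit 59375479345) (nat_lit 152) (nat_lit 69274757320)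 (nat_lit 53) (nat_lit 5) (nat_lit 54) (nat_lit 5) (nat_lit 55) (nat_lit 4) (nat_lit 513) (nat_lit 451) (nat_lit 236))))) (XT.nd (nat_lit 312) (nat_lit 304) (nat_lit 0) (XT.nd (nat_lit 156) (nat_lit 76) (nat_lit 0) (XT.nd (nat_lit 78) (nat_lit 0) (nat_lit 0) (XT.lf (nat_lit 0) (nat_lit 15592496710) (nat_lit 152) (nat_lit 258634485449) (nat_lit 76) (nat_lit 39326620189) (nat_lit 51) (nat_lit 5) (nat_lit 53) (nat_lit 5) (nat_lit 52) (nat_lit 4) (nat_lit 514) (nat_lit 451) (nat_lit 235)) (XT.lf (nat_lit 0) (nat_lit 105562600121) (nat_lit 152) (nat_lit 74196140062) (nat_lit 76) (nat_lit 144318312862) (nat_lit 51) (nat_lit 5) (nat_lit 53) (nat_lit 5) (nat_lit 52) (nat_lit 4) (nat_lit 515) (nat_lit 451) (nat_lit 234))) (XT.nd (nat_lit 78) (nat_lit 0) (nat_lit 0) (XT.lf (nat_lit 0) (nat_lit 123413644418) (nat_lit 76) (nat_lit 78544142838) (nat_lit 152) (nat_lit 133072560099) (nat_lit 50) (nat_lit 5)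 (nat_lit 51) (nat_lit 5) (nat_lit 52) (nat_lit 4) (nat_lit 516) (nat_lit 451) (nat_lit 233)) (XT.lf (nat_lit 0) (nat_lit 304882588716) (nat_lit 152) (nat_lit 13442685711) (nat_lit 0) (nat_lit 28120539212) (nat_lit 50) (nat_lit 5) (nat_lit 52) (nat_lit 4) (nat_lit 50) (nat_lit 4) (nat_lit 517) (nat_lit 451) (nat_lit 232)))) (XT.nd (nat_lit 156) (nat_lit 76) (nat_lit 0) (XT.nd (nat_lit 78) (nat_lit 76) (nat_lit 0) (XT.lf (nat_lit 0) (nat_lit 57254722444) (nat_lit 152) (nat_lit 159390170099) (nat_lit 76) (nat_lit 141520690150) (nat_lit 48) (nat_lit 5) (nat_lit 50) (nat_lit 5) (nat_lit 49) (nat_lit 4) (nat_lit 518) (nat_lit 451) (nat_lit 231)) (XT.lf (nat_lit 0) (nat_lit 52609428089) (nat_lit 76) (nat_lit 108059872614) (nat_lit 152) (nat_lit 209715344763) (nat_lit 47) (nat_lit 5) (nat_lit 48) (nat_lit 5) (nat_lit 49) (nat_lit 4) (nat_lit 519) (nat_lit 451) (nat_lit 230))) (XT.nd (nat_lit 78) (nat_lit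 76) (nat_lit 0) (XT.lf (nat_lit 0) (nat_lit 272090934232) (nat_lit 152) (nat_lit 102474702242) (nat_lit 0) (nat_lit 8507208593) (nat_lit 47) (nat_lit 5) (nat_lit 49) (nat_lit 4) (nat_lit 47) (nat_lit 4) (nat_lit 520) (nat_lit 451) (nat_lit 229)) (XT.lf (nat_lit 0) (nat_lit 125846806351) (nat_lit 76) (nat_lit 266972909379) (nat_lit 76) (nat_lit 3388935608) (nat_lit 46) (nat_lit 4) (nat_lit 47) (nat_lit 5) (nat_lit 47) (nat_lit 4) (nat_lit 521) (nat_lit 451) (nat_lit 228))))))) (XT.nd (nat_lit 1170) (nat_lit 532) (nat_lit 0) (XT.nd (nat_lit 546) (nat_lit 532) (nat_lit 0) (XT.nd (nat_lit 234) (nat_lit 228) (nat_lit 0) (XT.nd (nat_lit 78) (nat_lit 152) (nat_lit 0) (XT.lf (nat_lit 0) (nat_lit 107840006829) (nat_lit 152) (nat_lit 42512196086) (nat_lit 76) (nat_lit 259475315545) (nat_lit 45) (nat_lit 5) (nat_lit 47) (nat_lit 5) (nat_lit 46) (nat_lit 4) (nat_lit 522) (nat_lit 451) (nat_lit 227)) (XT.nd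 (nat_lit 78) (nat_lit 76) (nat_lit 0) (XT.lf (nat_lit 0) (nat_lit 203176886148) (nat_lit 76) (nat_lit 24511563265) (nat_lit 152) (nat_lit 196277504539) (nat_lit 44) (nat_lit 5) (nat_lit 45) (nat_lit 5) (nat_lit 46) (nat_lit 4) (nat_lit 523) (nat_lit 451) (nat_lit 226)) (XT.lf (nat_lit 0) (nat_lit 22891205979) (nat_lit 76) (nat_lit 333407322036) (nat_lit 76) (nat_lit 82374322515) (nat_lit 43) (nat_lit 4) (nat_lit 44) (nat_lit 5) (nat_lit 44) (nat_lit 4) (nat_lit 524) (nat_lit 451) (nat_lit 225)))) (XT.nd (nat_lit 156) (nat_lit 76) (nat_lit 0) (XT.nd (nat_lit 78) (nat_lit 76) (nat_lit 0) (XT.lf (nat_lit 0) (nat_lit 40234697926) (nat_lit 152) (nat_lit 168552063190) (nat_lit 76) (nat_lit 245089168242) (nat_lit 42) (nat_lit 5) (nat_lit 44) (nat_lit 5) (nat_lit 43) (nat_lit 4) (nat_lit 525) (nat_lit 451) (nat_lit 224)) (XT.lf (nat_lit 0) (nat_lit 92653692393) (nat_lit 76) (nat_lit 74998537602) (nat_lit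 152) (nat_lit 302047093299) (nat_lit 41) (nat_lit 5) (nat_lit 42) (nat_lit 5) (nat_lit 43) (nat_lit 4) (nat_lit 526) (nat_lit 451) (nat_lit 223))) (XT.nd (nat_lit 78) (nat_lit 76) (nat_lit 0) (XT.lf (nat_lit 0) (nat_lit 305364051669) (nat_lit 152) (nat_lit 114469189556) (nat_lit 0) (nat_lit 66284475057) (nat_lit 41) (nat_lit 5) (nat_lit 43) (nat_lit 4) (nat_lit 41) (nat_lit 4) (nat_lit 527) (nat_lit 451) (nat_lit 222)) (XT.lf (nat_lit 0) (nat_lit 165296733118) (nat_lit 76) (nat_lit 288474765332) (nat_lit 76) (nat_lit 49395028771) (nat_lit 40) (nat_lit 4) (nat_lit 41) (nat_lit 5) (nat_lit 41) (nat_lit 4) (nat_lit 528) (nat_lit 451) (nat_lit 221))))) (XT.nd (nat_lit 312) (nat_lit 304) (nat_lit 0) (XT.nd (nat_lit 156) (nat_lit 76) (nat_lit 0) (XT.nd (nat_lit 78) (nat_lit 76) (nat_lit 0) (XT.lf (nat_lit 0) (nat_lit 87668152831) (nat_lit 152) (nat_lit 59360175587) (nat_lit 76) (nat_lit 373871830214)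 (nat_lit 39) (nat_lit 5) (nat_lit 41) (nat_lit 5) (nat_lit 40) (nat_lit 4) (nat_lit 529) (nat_lit 451) (nat_lit 220)) (XT.lf (nat_lit 0) (nat_lit 233768472114) (nat_lit 152) (nat_lit 299446111334) (nat_lit 0) (nat_lit 6073201667) (nat_lit 38) (nat_lit 5) (nat_lit 40) (nat_lit 4) (nat_lit 38) (nat_lit 4) (nat_lit 530) (nat_lit 451) (nat_lit 219))) (XT.nd (nat_lit 78) (nat_lit 76) (nat_lit 0) (XT.lf (nat_lit 0) (nat_lit 390605695897) (nat_lit 152) (nat_lit 4907208742) (nat_lit 0) (nat_lit 162910293860) (nat_lit 38) (nat_lit 5) (nat_lit 40) (nat_lit 4) (nat_lit 38) (nat_lit 4) (nat_lit 531) (nat_lit 451) (nat_lit 218)) (XT.lf (nat_lit 0) (nat_lit 314421749344) (nat_lit 76) (nat_lit 245771859584) (nat_lit 76) (nat_lit 18076332223) (nat_lit 37) (nat_lit 4) (nat_lit 38) (nat_lit 5) (nat_lit 38) (nat_lit 4) (nat_lit 532) (nat_lit 451) (nat_lit 217)))) (XT.nd (nat_lit 156) (nat_lit 152) (nat_lit 0) (XT.nd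 (nat_lit 78) (nat_lit 0) (nat_lit 0) (XT.lf (nat_lit 0) (nat_lit 50215607038) (nat_lit 76) (nat_lit 85350858208) (nat_lit 152) (nat_lit 463390513224) (nat_lit 35) (nat_lit 5) (nat_lit 36) (nat_lit 5) (nat_lit 37) (nat_lit 4) (nat_lit 533) (nat_lit 451) (nat_lit 216)) (XT.lf (nat_lit 0) (nat_lit 302122678844) (nat_lit 152) (nat_lit 232979360459) (nat_lit 0) (nat_lit 85269573711) (nat_lit 35) (nat_lit 5) (nat_lit 37) (nat_lit 4) (nat_lit 35) (nat_lit 4) (nat_lit 534) (nat_lit 451) (nat_lit 215))) (XT.nd (nat_lit 78) (nat_lit 76) (nat_lit 0) (XT.lf (nat_lit 0) (nat_lit 100384143015) (nat_lit 76) (nat_lit 379588864641) (nat_lit 76) (nat_lit 162735656404) (nat_lit 34) (nat_lit 4) (nat_lit 35) (nat_lit 5) (nat_lit 35) (nat_lit 4) (nat_lit 535) (nat_lit 451) (nat_lit 214)) (XT.lf (nat_lit 0) (nat_lit 4545709636) (nat_lit 152) (nat_lit 207534601676) (nat_lit 76) (nat_lit 453881317784) (nat_lit 33) (nat_lit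 5) (nat_lit 35) (nat_lit 5) (nat_lit 34) (nat_lit 4) (nat_lit 536) (nat_lit 451) (nat_lit 213)))))) (XT.nd (nat_lit 624) (nat_lit 152) (nat_lit 0) (XT.nd (nat_lit 312) (nat_lit 152) (nat_lit 0) (XT.nd (nat_lit 156) (nat_lit 152) (nat_lit 0) (XT.nd (nat_lit 78) (nat_lit 0) (nat_lit 0) (XT.lf (nat_lit 0) (nat_lit 145999597488) (nat_lit 76) (nat_lit 31001864676) (nat_lit 152) (nat_lit 513128425171) (nat_lit 32) (nat_lit 5) (nat_lit 33) (nat_lit 5) (nat_lit 34) (nat_lit 4) (nat_lit 537) (nat_lit 451) (nat_lit 212)) (XT.lf (nat_lit 0) (nat_lit 364136633140) (nat_lit 152) (nat_lit 193457593062) (nat_lit 0) (nat_lit 157609500745) (nat_lit 32) (nat_lit 5) (nat_lit 34) (nat_lit 4) (nat_lit 32) (nat_lit 4) (nat_lit 538) (nat_lit 451) (nat_lit 211))) (XT.nd (nat_lit 78) (nat_lit 76) (nat_lit 0) (XT.lf (nat_lit 0) (nat_lit 180001376866) (nat_lit 76) (nat_lit 383945587388) (nat_lit 76) (nat_lit 177418374207)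 (nat_lit 31) (nat_lit 4) (nat_lit 32) (nat_lit 5) (nat_lit 32) (nat_lit 4) (nat_lit 539) (nat_lit 451) (nat_lit 210)) (XT.lf (nat_lit 0) (nat_lit 8085397917) (nat_lit 152) (nat_lit 189952224387) (nat_lit 76) (nat_lit 570627080322) (nat_lit 30) (nat_lit 5) (nat_lit 32) (nat_lit 5) (nat_lit 31) (nat_lit 4) (nat_lit 540) (nat_lit 451) (nat_lit 209)))) (XT.nd (nat_lit 156) (nat_lit 76) (nat_lit 0) (XT.nd (nat_lit 78) (nat_lit 0) (nat_lit 0) (XT.lf (nat_lit 0) (nat_lit 200136717834) (nat_lit 152) (nat_lit 593441162479) (nat_lit 0) (nat_lit 3443990794) (nat_lit 29) (nat_lit 5) (nat_lit 31) (nat_lit 4) (nat_lit 29) (nat_lit 4) (nat_lit 541) (nat_lit 451) (nat_lit 208)) (XT.lf (nat_lit 0) (nat_lit 408306647507) (nat_lit 152) (nat_lit 206550594313) (nat_lit 0) (nat_lit 211613854005) (nat_lit 29) (nat_lit 5) (nat_lit 31) (nat_lit 4) (nat_lit 29) (nat_lit 4) (nat_lit 542) (nat_lit 451) (nat_lit 207))) (XT.nd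 (nat_lit 78) (nat_lit 0) (nat_lit 0) (XT.lf (nat_lit 0) (nat_lit 206286689818) (nat_lit 76) (nat_lit 423818959977) (nat_lit 76) (nat_lit 227126103178) (nat_lit 28) (nat_lit 4) (nat_lit 29) (nat_lit 5) (nat_lit 29) (nat_lit 4) (nat_lit 543) (nat_lit 451) (nat_lit 206)) (XT.lf (nat_lit 0) (nat_lit 646936538016) (nat_lit 76) (nat_lit 219555963539) (nat_lit 76) (nat_lit 22863046457) (nat_lit 28) (nat_lit 4) (nat_lit 29) (nat_lit 5) (nat_lit 29) (nat_lit 4) (nat_lit 544) (nat_lit 451) (nat_lit 205))))) (XT.nd (nat_lit 55458) (nat_lit 0) (nat_lit 9272) (XT.nd (nat_lit 55302) (nat_lit 0) (nat_lit 9196) (XT.nd (nat_lit 55224) (nat_lit 0) (nat_lit 9196) (XT.lf (nat_lit 0) (nat_lit 188458821825) (nat_lit 152) (nat_lit 733196026778) (nat_lit 0) (nat_lit 1132179449) (nat_lit 26) (nat_lit 5) (nat_lit 28) (nat_lit 4) (nat_lit 26) (nat_lit 4) (nat_lit 545) (nat_lit 451) (nat_lit 204)) (XT.lf (nat_lit 0) (nat_lit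 10506406368) (nat_lit 836) (nat_lit 7583855088) (nat_lit 836) (nat_lit 7583855088) (nat_lit 147) (nat_lit 3) (nat_lit 158) (nat_lit 3) (nat_lit 158) (nat_lit 5) (nat_lit 452) (nat_lit 452) (nat_lit 296))) (XT.nd (nat_lit 78) (nat_lit 0) (nat_lit 76) (XT.lf (nat_lit 76) (nat_lit 10638987690) (nat_lit 0) (nat_lit 11089645839) (nat_lit 836) (nat_lit 30893776591) (nat_lit 148) (nat_lit 5) (nat_lit 147) (nat_lit 3) (nat_lit 158) (nat_lit 5) (nat_lit 453) (nat_lit 452) (nat_lit 295)) (XT.lf (nat_lit 0) (nat_lit 22977950785) (nat_lit 760) (nat_lit 15928177155) (nat_lit 836) (nat_lit 15029283032) (nat_lit 148) (nat_lit 5) (nat_lit 158) (nat_lit 5) (nat_lit 159) (nat_lit 5) (nat_lit 454) (nat_lit 452) (nat_lit 294)))) (XT.nd (nat_lit 156) (nat_lit 0) (nat_lit 76) (XT.nd (nat_lit 78) (nat_lit 0) (nat_lit 76) (XT.lf (nat_lit 76) (nat_lit 11619021347) (nat_lit 0) (nat_lit 13032426451) (nat_lit 836) (nat_lit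 30644528604) (nat_lit 149) (nat_lit 5) (nat_lit 148) (nat_lit 5) (nat_lit 159) (nat_lit 5) (nat_lit 455) (nat_lit 452) (nat_lit 293)) (XT.lf (nat_lit 0) (nat_lit 26902056317) (nat_lit 760) (nat_lit 15840579771) (nat_lit 836) (nat_lit 13957262401) (nat_lit 149) (nat_lit 5) (nat_lit 159) (nat_lit 5) (nat_lit 160) (nat_lit 5) (nat_lit 456) (nat_lit 452) (nat_lit 292))) (XT.nd (nat_lit 78) (nat_lit 0) (nat_lit 76) (XT.lf (nat_lit 76) (nat_lit 13608615419) (nat_lit 0) (nat_lit 16081339347) (nat_lit 836) (nat_lit 28462824149) (nat_lit 150) (nat_lit 5) (nat_lit 149) (nat_lit 5) (nat_lit 160) (nat_lit 5) (nat_lit 457) (nat_lit 452) (nat_lit 291)) (XT.lf (nat_lit 0) (nat_lit 33074610927) (nat_lit 760) (nat_lit 14776034199) (nat_lit 836) (nat_lit 11804790295) (nat_lit 150) (nat_lit 5) (nat_lit 160) (nat_lit 5) (nat_lit 161) (nat_lit 5) (nat_lit 458) (nat_lit 452) (nat_lit 290))))))))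
noncomputable def xc197 : XT := (XT.nd (nat_lit 2418) (nat_lit 2812) (nat_lit 0) (XT.nd (nat_lit 1170) (nat_lit 2508) (nat_lit 0) (XT.nd (nat_lit 546) (nat_lit 1444) (nat_lit 0) (XT.nd (nat_lit 234) (nat_lit 1064) (nat_lit 0) (XT.nd (nat_lit 78) (nat_lit 0) (nat_lit 76) (XT.lf (nat_lit 76) (nat_lit 16752121493) (nat_lit 0) (nat_lit 20400317727) (nat_lit 836) (nat_lit 24054588755) (nat_lit 151) (nat_lit 5) (nat_lit 150) (nat_lit 5) (nat_lit 161) (nat_lit 5) (nat_lit 459) (nat_lit 452) (nat_lit 289)) (XT.nd (nat_lit 78) (nat_lit 0) (nat_lit 0) (XT.lf (nat_lit 0) (nat_lit 41818812098) (nat_lit 760) (nat_lit 12590587556) (nat_lit 836) (nat_lit 8407568025) (nat_lit 151) (nat_lit 5) (nat_lit 161) (nat_lit 5) (nat_lit 162) (nat_lit 5) (nat_lit 460) (nat_lit 452) (nat_lit 288)) (XT.lf (nat_lit 76) (nat_lit 21210455922) (nat_lit 0) (nat_lit 26172502711) (nat_lit 836) (nat_lit 17091223157) (nat_lit 152)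 (nat_lit 5) (nat_lit 151) (nat_lit 5) (nat_lit 162) (nat_lit 5) (nat_lit 461) (nat_lit 452) (nat_lit 287)))) (XT.nd (nat_lit 156) (nat_lit 456) (nat_lit 0) (XT.nd (nat_lit 78) (nat_lit 760) (nat_lit 0) (XT.lf (nat_lit 0) (nat_lit 53495220896) (nat_lit 760) (nat_lit 9123665839) (nat_lit 76) (nat_lit 3581874614) (nat_lit 152) (nat_lit 5) (nat_lit 162) (nat_lit 5) (nat_lit 153) (nat_lit 5) (nat_lit 462) (nat_lit 452) (nat_lit 286)) (XT.lf (nat_lit 0) (nat_lit 27162795436) (nat_lit 760) (nat_lit 33602408796) (nat_lit 836) (nat_lit 7205860411) (nat_lit 142) (nat_lit 5) (nat_lit 152) (nat_lit 5) (nat_lit 153) (nat_lit 5) (nat_lit 463) (nat_lit 452) (nat_lit 285))) (XT.nd (nat_lit 78) (nat_lit 456) (nat_lit 0) (XT.lf (nat_lit 0) (nat_lit 65579424325) (nat_lit 760) (nat_lit 2972774474) (nat_lit 836) (nat_lit 1270008849) (nat_lit 142) (nat_lit 5) (nat_lit 152) (nat_lit 5) (nat_lit 153) (nat_lit 5) (nat_lit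 464) (nat_lit 452) (nat_lit 284)) (XT.lf (nat_lit 0) (nat_lit 5818380565) (nat_lit 456) (nat_lit 37001404014) (nat_lit 76) (nat_lit 28891520296) (nat_lit 136) (nat_lit 5) (nat_lit 142) (nat_lit 5) (nat_lit 137) (nat_lit 5) (nat_lit 465) (nat_lit 452) (nat_lit 283))))) (XT.nd (nat_lit 312) (nat_lit 684) (nat_lit 0) (XT.nd (nat_lit 156) (nat_lit 380) (nat_lit 0) (XT.nd (nat_lit 78) (nat_lit 0) (nat_lit 0) (XT.lf (nat_lit 0) (nat_lit 2060542473) (nat_lit 380) (nat_lit 11310966246) (nat_lit 456) (nat_lit 60314657387) (nat_lit 131) (nat_lit 5) (nat_lit 136) (nat_lit 5) (nat_lit 137) (nat_lit 5) (nat_lit 466) (nat_lit 452) (nat_lit 282)) (XT.lf (nat_lit 0) (nat_lit 22278238492) (nat_lit 456) (nat_lit 31719423035) (nat_lit 76) (nat_lit 21713311733) (nat_lit 131) (nat_lit 5) (nat_lit 137) (nat_lit 5) (nat_lit 132) (nat_lit 5) (nat_lit 467) (nat_lit 452) (nat_lit 281))) (XT.nd (nat_lit 78) (nat_lit 0)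 (nat_lit 0) (XT.lf (nat_lit 0) (nat_lit 10326251110) (nat_lit 380) (nat_lit 21649837869) (nat_lit 456) (nat_lit 45843642698) (nat_lit 126) (nat_lit 5) (nat_lit 131) (nat_lit 5) (nat_lit 132) (nat_lit 5) (nat_lit 468) (nat_lit 452) (nat_lit 280)) (XT.lf (nat_lit 0) (nat_lit 42896262477) (nat_lit 456) (nat_lit 24633658436) (nat_lit 76) (nat_lit 12467135688) (nat_lit 126) (nat_lit 5) (nat_lit 132) (nat_lit 5) (nat_lit 127) (nat_lit 5) (nat_lit 469) (nat_lit 452) (nat_lit 279)))) (XT.nd (nat_lit 156) (nat_lit 380) (nat_lit 0) (XT.nd (nat_lit 78) (nat_lit 0) (nat_lit 0) (XT.lf (nat_lit 0) (nat_lit 20675074276) (nat_lit 304) (nat_lit 34364284330) (nat_lit 380) (nat_lit 27210043572) (nat_lit 122) (nat_lit 5) (nat_lit 126) (nat_lit 5) (nat_lit 127) (nat_lit 5) (nat_lit 470) (nat_lit 452) (nat_lit 278)) (XT.lf (nat_lit 0) (nat_lit 68220032929) (nat_lit 380) (nat_lit 15503971742) (nat_lit 76) (nat_lit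 868839295) (nat_lit 122) (nat_lit 5) (nat_lit 127) (nat_lit 5) (nat_lit 123) (nat_lit 5) (nat_lit 471) (nat_lit 452) (nat_lit 277))) (XT.nd (nat_lit 78) (nat_lit 76) (nat_lit 0) (XT.lf (nat_lit 0) (nat_lit 33373849448) (nat_lit 304) (nat_lit 49769561877) (nat_lit 380) (nat_lit 3855863096) (nat_lit 118) (nat_lit 5) (nat_lit 122) (nat_lit 5) (nat_lit 123) (nat_lit 5) (nat_lit 472) (nat_lit 452) (nat_lit 276)) (XT.lf (nat_lit 0) (nat_lit 9255836031) (nat_lit 380) (nat_lit 4429258366) (nat_lit 76) (nat_lit 75820375155) (nat_lit 117) (nat_lit 5) (nat_lit 122) (nat_lit 5) (nat_lit 118) (nat_lit 5) (nat_lit 473) (nat_lit 452) (nat_lit 275)))))) (XT.nd (nat_lit 624) (nat_lit 1140) (nat_lit 0) (XT.nd (nat_lit 312) (nat_lit 532) (nat_lit 0) (XT.nd (nat_lit 156) (nat_lit 228) (nat_lit 0) (XT.nd (nat_lit 78) (nat_lit 304) (nat_lit 0) (XT.lf (nat_lit 0) (nat_lit 24044922747) (nat_lit 380) (nat_lit 43765131434)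 (nat_lit 76) (nat_lit 24266190553) (nat_lit 113) (nat_lit 5) (nat_lit 118) (nat_lit 5) (nat_lit 114) (nat_lit 5) (nat_lit 474) (nat_lit 452) (nat_lit 274)) (XT.lf (nat_lit 0) (nat_lit 9136456430) (nat_lit 304) (nat_lit 30879564463) (nat_lit 380) (nat_lit 54737410005) (nat_lit 109) (nat_lit 5) (nat_lit 113) (nat_lit 5) (nat_lit 114) (nat_lit 5) (nat_lit 475) (nat_lit 452) (nat_lit 273))) (XT.nd (nat_lit 78) (nat_lit 228) (nat_lit 0) (XT.lf (nat_lit 0) (nat_lit 57661649742) (nat_lit 380) (nat_lit 31461195920) (nat_lit 76) (nat_lit 8397831993) (nat_lit 109) (nat_lit 5) (nat_lit 114) (nat_lit 5) (nat_lit 110) (nat_lit 5) (nat_lit 476) (nat_lit 452) (nat_lit 272)) (XT.lf (nat_lit 0) (nat_lit 25718465374) (nat_lit 228) (nat_lit 51378226007) (nat_lit 304) (nat_lit 23284238873) (nat_lit 106) (nat_lit 5) (nat_lit 109) (nat_lit 5) (nat_lit 110) (nat_lit 5) (nat_lit 477) (nat_lit 452) (nat_lit 271)))) (XT.nd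 (nat_lit 156) (nat_lit 228) (nat_lit 0) (XT.nd (nat_lit 78) (nat_lit 304) (nat_lit 0) (XT.lf (nat_lit 0) (nat_lit 86848549567) (nat_lit 228) (nat_lit 11187134860) (nat_lit 304) (nat_lit 5321901157) (nat_lit 106) (nat_lit 5) (nat_lit 109) (nat_lit 5) (nat_lit 110) (nat_lit 5) (nat_lit 478) (nat_lit 452) (nat_lit 270)) (XT.lf (nat_lit 0) (nat_lit 14319196522) (nat_lit 304) (nat_lit 61130206135) (nat_lit 76) (nat_lit 30962404282) (nat_lit 102) (nat_lit 5) (nat_lit 106) (nat_lit 5) (nat_lit 103) (nat_lit 5) (nat_lit 479) (nat_lit 452) (nat_lit 269))) (XT.nd (nat_lit 78) (nat_lit 0) (nat_lit 0) (XT.lf (nat_lit 0) (nat_lit 882369033) (nat_lit 228) (nat_lit 34361893885) (nat_lit 304) (nat_lit 74346076056) (nat_lit 99) (nat_lit 5) (nat_lit 102) (nat_lit 5) (nat_lit 103) (nat_lit 5) (nat_lit 480) (nat_lit 452) (nat_lit 268)) (XT.lf (nat_lit 0) (nat_lit 58404336269) (nat_lit 304) (nat_lit 44913036667)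 (nat_lit 76) (nat_lit 9550987051) (nat_lit 99) (nat_lit 5) (nat_lit 103) (nat_lit 5) (nat_lit 100) (nat_lit 5) (nat_lit 481) (nat_lit 452) (nat_lit 267))))) (XT.nd (nat_lit 312) (nat_lit 684) (nat_lit 0) (XT.nd (nat_lit 156) (nat_lit 228) (nat_lit 0) (XT.nd (nat_lit 78) (nat_lit 0) (nat_lit 0) (XT.lf (nat_lit 0) (nat_lit 22218683176) (nat_lit 228) (nat_lit 61413394925) (nat_lit 304) (nat_lit 32632720760) (nat_lit 96) (nat_lit 5) (nat_lit 99) (nat_lit 5) (nat_lit 100) (nat_lit 5) (nat_lit 482) (nat_lit 452) (nat_lit 266)) (XT.lf (nat_lit 0) (nat_lit 94265493943) (nat_lit 228) (nat_lit 16615809923) (nat_lit 304) (nat_lit 8911751023) (nat_lit 96) (nat_lit 5) (nat_lit 99) (nat_lit 5) (nat_lit 100) (nat_lit 5) (nat_lit 483) (nat_lit 452) (nat_lit 265))) (XT.nd (nat_lit 78) (nat_lit 0) (nat_lit 0) (XT.lf (nat_lit 0) (nat_lit 16718692661) (nat_lit 228) (nat_lit 76246388920) (nat_lit 76) (nat_lit 30458386940)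 (nat_lit 93) (nat_lit 5) (nat_lit 96) (nat_lit 5) (nat_lit 94) (nat_lit 5) (nat_lit 484) (nat_lit 452) (nat_lit 264)) (XT.lf (nat_lit 0) (nat_lit 44042462975) (nat_lit 228) (nat_lit 3236910427) (nat_lit 76) (nat_lit 79913159877) (nat_lit 93) (nat_lit 5) (nat_lit 96) (nat_lit 5) (nat_lit 94) (nat_lit 5) (nat_lit 485) (nat_lit 452) (nat_lit 263)))) (XT.nd (nat_lit 156) (nat_lit 304) (nat_lit 0) (XT.nd (nat_lit 78) (nat_lit 152) (nat_lit 0) (XT.lf (nat_lit 0) (nat_lit 73946367371) (nat_lit 304) (nat_lit 55271067513) (nat_lit 76) (nat_lit 1871919154) (nat_lit 90) (nat_lit 5) (nat_lit 94) (nat_lit 5) (nat_lit 91) (nat_lit 5) (nat_lit 486) (nat_lit 452) (nat_lit 262)) (XT.lf (nat_lit 0) (nat_lit 23743584617) (nat_lit 152) (nat_lit 82802905389) (nat_lit 228) (nat_lit 28574474717) (nat_lit 88) (nat_lit 5) (nat_lit 90) (nat_lit 5) (nat_lit 91) (nat_lit 5) (nat_lit 487) (nat_lit 452) (nat_lit 261))) (XT.nd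 (nat_lit 78) (nat_lit 228) (nat_lit 0) (XT.lf (nat_lit 0) (nat_lit 2327856013) (nat_lit 228) (nat_lit 30717789663) (nat_lit 76) (nat_lit 106259853828) (nat_lit 87) (nat_lit 5) (nat_lit 90) (nat_lit 5) (nat_lit 88) (nat_lit 5) (nat_lit 488) (nat_lit 452) (nat_lit 260)) (XT.lf (nat_lit 0) (nat_lit 34999143951) (nat_lit 304) (nat_lit 88679510757) (nat_lit 76) (nat_lit 19937978130) (nat_lit 84) (nat_lit 5) (nat_lit 88) (nat_lit 5) (nat_lit 85) (nat_lit 5) (nat_lit 489) (nat_lit 452) (nat_lit 259))))))) (XT.nd (nat_lit 1170) (nat_lit 1292) (nat_lit 0) (XT.nd (nat_lit 546) (nat_lit 836) (nat_lit 0) (XT.nd (nat_lit 234) (nat_lit 380) (nat_lit 0) (XT.nd (nat_lit 78) (nat_lit 304) (nat_lit 0) (XT.lf (nat_lit 0) (nat_lit 70374039199) (nat_lit 304) (nat_lit 2727049661) (nat_lit 76) (nat_lit 74988731864) (nat_lit 84) (nat_lit 5) (nat_lit 88) (nat_lit 5) (nat_lit 85) (nat_lit 5) (nat_lit 490) (nat_lit 452)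 (nat_lit 258)) (XT.nd (nat_lit 78) (nat_lit 152) (nat_lit 0) (XT.lf (nat_lit 0) (nat_lit 90416243257) (nat_lit 152) (nat_lit 18512669928) (nat_lit 228) (nat_lit 43787193153) (nat_lit 82) (nat_lit 5) (nat_lit 84) (nat_lit 5) (nat_lit 85) (nat_lit 5) (nat_lit 491) (nat_lit 452) (nat_lit 257)) (XT.lf (nat_lit 0) (nat_lit 31129007709) (nat_lit 152) (nat_lit 119420921171) (nat_lit 228) (nat_lit 6966857482) (nat_lit 80) (nat_lit 5) (nat_lit 82) (nat_lit 5) (nat_lit 83) (nat_lit 5) (nat_lit 492) (nat_lit 452) (nat_lit 256)))) (XT.nd (nat_lit 156) (nat_lit 152) (nat_lit 0) (XT.nd (nat_lit 78) (nat_lit 152) (nat_lit 0) (XT.lf (nat_lit 0) (nat_lit 32055525278) (nat_lit 228) (nat_lit 31928820239) (nat_lit 76) (nat_lit 98479640298) (nat_lit 79) (nat_lit 5) (nat_lit 82) (nat_lit 5) (nat_lit 80) (nat_lit 5) (nat_lit 493) (nat_lit 452) (nat_lit 255)) (XT.lf (nat_lit 0) (nat_lit 69358117042) (nat_lit 152) (nat_lit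 4519263094) (nat_lit 228) (nat_lit 93721330339) (nat_lit 77) (nat_lit 5) (nat_lit 79) (nat_lit 5) (nat_lit 80) (nat_lit 5) (nat_lit 494) (nat_lit 452) (nat_lit 254))) (XT.nd (nat_lit 78) (nat_lit 0) (nat_lit 0) (XT.lf (nat_lit 0) (nat_lit 3038205234) (nat_lit 152) (nat_lit 116253045867) (nat_lit 228) (nat_lit 53623874123) (nat_lit 75) (nat_lit 5) (nat_lit 77) (nat_lit 5) (nat_lit 78) (nat_lit 5) (nat_lit 495) (nat_lit 452) (nat_lit 253)) (XT.lf (nat_lit 0) (nat_lit 112714454390) (nat_lit 152) (nat_lit 55997627778) (nat_lit 228) (nat_lit 9698465239) (nat_lit 75) (nat_lit 5) (nat_lit 77) (nat_lit 5) (nat_lit 78) (nat_lit 5) (nat_lit 496) (nat_lit 452) (nat_lit 252))))) (XT.nd (nat_lit 312) (nat_lit 380) (nat_lit 0) (XT.nd (nat_lit 156) (nat_lit 228) (nat_lit 0) (XT.nd (nat_lit 78) (nat_lit 0) (nat_lit 0) (XT.lf (nat_lit 0) (nat_lit 36086869914) (nat_lit 228) (nat_lit 139701412008) (nat_lit 76)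 (nat_lit 8322554067) (nat_lit 72) (nat_lit 5) (nat_lit 75) (nat_lit 5) (nat_lit 73) (nat_lit 5) (nat_lit 497) (nat_lit 452) (nat_lit 251)) (XT.lf (nat_lit 0) (nat_lit 85884007043) (nat_lit 228) (nat_lit 28835326995) (nat_lit 76) (nat_lit 75266432059) (nat_lit 72) (nat_lit 5) (nat_lit 75) (nat_lit 5) (nat_lit 73) (nat_lit 5) (nat_lit 498) (nat_lit 452) (nat_lit 250))) (XT.nd (nat_lit 78) (nat_lit 76) (nat_lit 0) (XT.lf (nat_lit 0) (nat_lit 90469036239) (nat_lit 152) (nat_lit 49114096137) (nat_lit 228) (nat_lit 56500703786) (nat_lit 70) (nat_lit 5) (nat_lit 72) (nat_lit 5) (nat_lit 73) (nat_lit 5) (nat_lit 499) (nat_lit 452) (nat_lit 249)) (XT.lf (nat_lit 0) (nat_lit 14421607888) (nat_lit 76) (nat_lit 182575459962) (nat_lit 152) (nat_lit 5438249205) (nat_lit 69) (nat_lit 5) (nat_lit 70) (nat_lit 5) (nat_lit 71) (nat_lit 4) (nat_lit 500) (nat_lit 452) (nat_lit 248)))) (XT.nd (nat_lit 156) (nat_lit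 152) (nat_lit 0) (XT.nd (nat_lit 78) (nat_lit 152) (nat_lit 0) (XT.lf (nat_lit 0) (nat_lit 49258122329) (nat_lit 152) (nat_lit 66475655691) (nat_lit 76) (nat_lit 93201846353) (nat_lit 68) (nat_lit 5) (nat_lit 70) (nat_lit 5) (nat_lit 69) (nat_lit 5) (nat_lit 501) (nat_lit 452) (nat_lit 247)) (XT.lf (nat_lit 0) (nat_lit 63068147331) (nat_lit 152) (nat_lit 44422751766) (nat_lit 228) (nat_lit 108216373020) (nat_lit 66) (nat_lit 5) (nat_lit 68) (nat_lit 5) (nat_lit 69) (nat_lit 5) (nat_lit 502) (nat_lit 452) (nat_lit 246))) (XT.nd (nat_lit 78) (nat_lit 152) (nat_lit 0) (XT.lf (nat_lit 0) (nat_lit 170254716949) (nat_lit 228) (nat_lit 21858691204) (nat_lit 76) (nat_lit 30623123999) (nat_lit 66) (nat_lit 5) (nat_lit 69) (nat_lit 5) (nat_lit 67) (nat_lit 4) (nat_lit 503) (nat_lit 452) (nat_lit 245)) (XT.lf (nat_lit 0) (nat_lit 8466891768) (nat_lit 152) (nat_lit 111599367189) (nat_lit 76) (nat_lit 109915245490)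 (nat_lit 64) (nat_lit 5) (nat_lit 66) (nat_lit 5) (nat_lit 65) (nat_lit 5) (nat_lit 504) (nat_lit 452) (nat_lit 244)))))) (XT.nd (nat_lit 624) (nat_lit 532) (nat_lit 0) (XT.nd (nat_lit 312) (nat_lit 456) (nat_lit 0) (XT.nd (nat_lit 156) (nat_lit 152) (nat_lit 0) (XT.nd (nat_lit 78) (nat_lit 0) (nat_lit 0) (XT.lf (nat_lit 0) (nat_lit 28881071604) (nat_lit 152) (nat_lit 42645095971) (nat_lit 228) (nat_lit 165978196581) (nat_lit 62) (nat_lit 5) (nat_lit 64) (nat_lit 5) (nat_lit 65) (nat_lit 5) (nat_lit 505) (nat_lit 452) (nat_lit 243)) (XT.lf (nat_lit 0) (nat_lit 140262467975) (nat_lit 228) (nat_lit 65683784897) (nat_lit 76) (nat_lit 39330910952) (nat_lit 62) (nat_lit 5) (nat_lit 65) (nat_lit 5) (nat_lit 63) (nat_lit 4) (nat_lit 506) (nat_lit 452) (nat_lit 242))) (XT.nd (nat_lit 78) (nat_lit 76) (nat_lit 0) (XT.lf (nat_lit 0) (nat_lit 86470671609) (nat_lit 76) (nat_lit 128013773764) (nat_lit 152)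 (nat_lit 38851715015) (nat_lit 61) (nat_lit 5) (nat_lit 62) (nat_lit 5) (nat_lit 63) (nat_lit 4) (nat_lit 507) (nat_lit 452) (nat_lit 241)) (XT.lf (nat_lit 0) (nat_lit 30769738363) (nat_lit 152) (nat_lit 13726063612) (nat_lit 76) (nat_lit 217221885273) (nat_lit 60) (nat_lit 5) (nat_lit 62) (nat_lit 5) (nat_lit 61) (nat_lit 5) (nat_lit 508) (nat_lit 452) (nat_lit 240)))) (XT.nd (nat_lit 156) (nat_lit 228) (nat_lit 0) (XT.nd (nat_lit 78) (nat_lit 76) (nat_lit 0) (XT.lf (nat_lit 0) (nat_lit 105651739243) (nat_lit 228) (nat_lit 119817317191) (nat_lit 76) (nat_lit 44863130996) (nat_lit 58) (nat_lit 5) (nat_lit 61) (nat_lit 5) (nat_lit 59) (nat_lit 4) (nat_lit 509) (nat_lit 452) (nat_lit 239)) (XT.lf (nat_lit 0) (nat_lit 44778019500) (nat_lit 76) (nat_lit 141164367537) (nat_lit 152) (nat_lit 93351798252) (nat_lit 57) (nat_lit 5) (nat_lit 58) (nat_lit 5) (nat_lit 59) (nat_lit 4) (nat_lit 510) (nat_lit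 452) (nat_lit 238))) (XT.nd (nat_lit 78) (nat_lit 228) (nat_lit 0) (XT.lf (nat_lit 0) (nat_lit 221762412296) (nat_lit 76) (nat_lit 50514053125) (nat_lit 152) (nat_lit 16326372718) (nat_lit 57) (nat_lit 5) (nat_lit 58) (nat_lit 5) (nat_lit 59) (nat_lit 4) (nat_lit 511) (nat_lit 452) (nat_lit 237)) (XT.lf (nat_lit 0) (nat_lit 64971923505) (nat_lit 228) (nat_lit 187193068650) (nat_lit 76) (nat_lit 46037160267) (nat_lit 54) (nat_lit 5) (nat_lit 57) (nat_lit 5) (nat_lit 55) (nat_lit 4) (nat_lit 512) (nat_lit 452) (nat_lit 236))))) (XT.nd (nat_lit 312) (nat_lit 304) (nat_lit 0) (XT.nd (nat_lit 156) (nat_lit 152) (nat_lit 0) (XT.nd (nat_lit 78) (nat_lit 76) (nat_lit 0) (XT.lf (nat_lit 0) (nat_lit 151764836366) (nat_lit 228) (nat_lit 9268001465) (nat_lit 76) (nat_lit 147136293572) (nat_lit 54) (nat_lit 5) (nat_lit 57) (nat_lit 5) (nat_lit 55) (nat_lit 4) (nat_lit 513) (nat_lit 452) (nat_lit 235)) (XT.lf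 (nat_lit 0) (nat_lit 183423557796) (nat_lit 76) (nat_lit 62337348910) (nat_lit 152) (nat_lit 72730377043) (nat_lit 53) (nat_lit 5) (nat_lit 54) (nat_lit 5) (nat_lit 55) (nat_lit 4) (nat_lit 514) (nat_lit 452) (nat_lit 234))) (XT.nd (nat_lit 78) (nat_lit 0) (nat_lit 0) (XT.lf (nat_lit 0) (nat_lit 16379942860) (nat_lit 152) (nat_lit 271551276714) (nat_lit 76) (nat_lit 41299671615) (nat_lit 51) (nat_lit 5) (nat_lit 53) (nat_lit 5) (nat_lit 52) (nat_lit 4) (nat_lit 515) (nat_lit 452) (nat_lit 233)) (XT.lf (nat_lit 0) (nat_lit 110848178997) (nat_lit 152) (nat_lit 77891725154) (nat_lit 76) (nat_lit 151540628901) (nat_lit 51) (nat_lit 5) (nat_lit 53) (nat_lit 5) (nat_lit 52) (nat_lit 4) (nat_lit 516) (nat_lit 452) (nat_lit 232)))) (XT.nd (nat_lit 156) (nat_lit 228) (nat_lit 0) (XT.nd (nat_lit 78) (nat_lit 0) (nat_lit 0) (XT.lf (nat_lit 0) (nat_lit 129598319164) (nat_lit 76) (nat_lit 82464670079) (nat_lit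 152) (nat_lit 139718509657) (nat_lit 50) (nat_lit 5) (nat_lit 51) (nat_lit 5) (nat_lit 52) (nat_lit 4) (nat_lit 517) (nat_lit 452) (nat_lit 231)) (XT.lf (nat_lit 0) (nat_lit 320133781882) (nat_lit 152) (nat_lit 14101244705) (nat_lit 0) (nat_lit 29532724365) (nat_lit 50) (nat_lit 5) (nat_lit 52) (nat_lit 4) (nat_lit 50) (nat_lit 4) (nat_lit 518) (nat_lit 452) (nat_lit 230))) (XT.nd (nat_lit 78) (nat_lit 76) (nat_lit 0) (XT.lf (nat_lit 0) (nat_lit 60124508329) (nat_lit 152) (nat_lit 167346089006) (nat_lit 76) (nat_lit 148602911839) (nat_lit 48) (nat_lit 5) (nat_lit 50) (nat_lit 5) (nat_lit 49) (nat_lit 4) (nat_lit 519) (nat_lit 452) (nat_lit 229)) (XT.lf (nat_lit 0) (nat_lit 55253269904) (nat_lit 76) (nat_lit 113456418644) (nat_lit 152) (nat_lit 220193842894) (nat_lit 47) (nat_lit 5) (nat_lit 48) (nat_lit 5) (nat_lit 49) (nat_lit 4) (nat_lit 520) (nat_lit 452) (nat_lit 228))))))))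
noncomputable def xc198 : XT := (XT.nd (nat_lit 57642) (nat_lit 0) (nat_lit 4484) (XT.nd (nat_lit 1170) (nat_lit 532) (nat_lit 0) (XT.nd (nat_lit 546) (nat_lit 456) (nat_lit 0) (XT.nd (nat_lit 234) (nat_lit 304) (nat_lit 0) (XT.nd (nat_lit 78) (nat_lit 152) (nat_lit 0) (XT.lf (nat_lit 0) (nat_lit 285702169967) (nat_lit 152) (nat_lit 107585469694) (nat_lit 0) (nat_lit 8938513058) (nat_lit 47) (nat_lit 5) (nat_lit 49) (nat_lit 4) (nat_lit 47) (nat_lit 4) (nat_lit 521) (nat_lit 452) (nat_lit 227)) (XT.nd (nat_lit 78) (nat_lit 76) (nat_lit 0) (XT.lf (nat_lit 0) (nat_lit 132151905172) (nat_lit 76) (nat_lit 280315366038) (nat_lit 76) (nat_lit 3551484066) (nat_lit 46) (nat_lit 4) (nat_lit 47) (nat_lit 5) (nat_lit 47) (nat_lit 4) (nat_lit 522) (nat_lit 452) (nat_lit 226)) (XT.lf (nat_lit 0) (nat_lit 113238366726) (nat_lit 152) (nat_lit 44625444528) (nat_lit 76) (nat_lit 272454765021) (nat_lit 45) (nat_lit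 5) (nat_lit 47) (nat_lit 5) (nat_lit 46) (nat_lit 4) (nat_lit 523) (nat_lit 452) (nat_lit 225)))) (XT.nd (nat_lit 156) (nat_lit 152) (nat_lit 0) (XT.nd (nat_lit 78) (nat_lit 76) (nat_lit 0) (XT.lf (nat_lit 0) (nat_lit 213347892440) (nat_lit 76) (nat_lit 25731226046) (nat_lit 152) (nat_lit 206084820711) (nat_lit 44) (nat_lit 5) (nat_lit 45) (nat_lit 5) (nat_lit 46) (nat_lit 4) (nat_lit 524) (nat_lit 452) (nat_lit 224)) (XT.lf (nat_lit 0) (nat_lit 24047948649) (nat_lit 76) (nat_lit 350071733070) (nat_lit 76) (nat_lit 86486499855) (nat_lit 43) (nat_lit 4) (nat_lit 44) (nat_lit 5) (nat_lit 44) (nat_lit 4) (nat_lit 525) (nat_lit 452) (nat_lit 223))) (XT.nd (nat_lit 78) (nat_lit 76) (nat_lit 0) (XT.lf (nat_lit 0) (nat_lit 42252460921) (nat_lit 152) (nat_lit 176967864669) (nat_lit 76) (nat_lit 257349098725) (nat_lit 42) (nat_lit 5) (nat_lit 44) (nat_lit 5) (nat_lit 43) (nat_lit 4) (nat_lit 526) (nat_lit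 452) (nat_lit 222)) (XT.lf (nat_lit 0) (nat_lit 97297988345) (nat_lit 76) (nat_lit 78742775483) (nat_lit 152) (nat_lit 317143229414) (nat_lit 41) (nat_lit 5) (nat_lit 42) (nat_lit 5) (nat_lit 43) (nat_lit 4) (nat_lit 527) (nat_lit 452) (nat_lit 221))))) (XT.nd (nat_lit 312) (nat_lit 228) (nat_lit 0) (XT.nd (nat_lit 156) (nat_lit 152) (nat_lit 0) (XT.nd (nat_lit 78) (nat_lit 76) (nat_lit 0) (XT.lf (nat_lit 0) (nat_lit 320637979160) (nat_lit 152) (nat_lit 120181393102) (nat_lit 0) (nat_lit 69603943492) (nat_lit 41) (nat_lit 5) (nat_lit 43) (nat_lit 4) (nat_lit 41) (nat_lit 4) (nat_lit 528) (nat_lit 452) (nat_lit 220)) (XT.lf (nat_lit 0) (nat_lit 173572644158) (nat_lit 76) (nat_lit 302893054409) (nat_lit 76) (nat_lit 51858873663) (nat_lit 40) (nat_lit 4) (nat_lit 41) (nat_lit 5) (nat_lit 41) (nat_lit 4) (nat_lit 529) (nat_lit 452) (nat_lit 219))) (XT.nd (nat_lit 78) (nat_lit 76) (nat_lit 0) (XT.lf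 (nat_lit 0) (nat_lit 92057005711) (nat_lit 152) (nat_lit 62317457206) (nat_lit 76) (nat_lit 392570431301) (nat_lit 39) (nat_lit 5) (nat_lit 41) (nat_lit 5) (nat_lit 40) (nat_lit 4) (nat_lit 530) (nat_lit 452) (nat_lit 218)) (XT.lf (nat_lit 0) (nat_lit 245462327682) (nat_lit 152) (nat_lit 314407676384) (nat_lit 0) (nat_lit 6381898629) (nat_lit 38) (nat_lit 5) (nat_lit 40) (nat_lit 4) (nat_lit 38) (nat_lit 4) (nat_lit 531) (nat_lit 452) (nat_lit 217)))) (XT.nd (nat_lit 156) (nat_lit 152) (nat_lit 0) (XT.nd (nat_lit 78) (nat_lit 76) (nat_lit 0) (XT.lf (nat_lit 0) (nat_lit 410141153989) (nat_lit 152) (nat_lit 5142340115) (nat_lit 0) (nat_lit 171060605580) (nat_lit 38) (nat_lit 5) (nat_lit 40) (nat_lit 4) (nat_lit 38) (nat_lit 4) (nat_lit 532) (nat_lit 452) (nat_lit 216)) (XT.lf (nat_lit 0) (nat_lit 330152900890) (nat_lit 76) (nat_lit 258055472562) (nat_lit 76) (nat_lit 18974810481) (nat_lit 37) (nat_lit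 4) (nat_lit 38) (nat_lit 5) (nat_lit 38) (nat_lit 4) (nat_lit 533) (nat_lit 452) (nat_lit 215))) (XT.nd (nat_lit 78) (nat_lit 0) (nat_lit 0) (XT.lf (nat_lit 0) (nat_lit 52736457318) (nat_lit 76) (nat_lit 89613409832) (nat_lit 152) (nat_lit 486554706247) (nat_lit 35) (nat_lit 5) (nat_lit 36) (nat_lit 5) (nat_lit 37) (nat_lit 4) (nat_lit 534) (nat_lit 452) (nat_lit 214)) (XT.lf (nat_lit 0) (nat_lit 317233723805) (nat_lit 152) (nat_lit 244618570390) (nat_lit 0) (nat_lit 89537653857) (nat_lit 35) (nat_lit 5) (nat_lit 37) (nat_lit 4) (nat_lit 35) (nat_lit 4) (nat_lit 535) (nat_lit 452) (nat_lit 213)))))) (XT.nd (nat_lit 624) (nat_lit 76) (nat_lit 0) (XT.nd (nat_lit 312) (nat_lit 228) (nat_lit 0) (XT.nd (nat_lit 156) (nat_lit 76) (nat_lit 0) (XT.nd (nat_lit 78) (nat_lit 76) (nat_lit 0) (XT.lf (nat_lit 0) (nat_lit 105412950870) (nat_lit 76) (nat_lit 398563534224) (nat_lit 76) (nat_lit 170867370758)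 (nat_lit 34) (nat_lit 4) (nat_lit 35) (nat_lit 5) (nat_lit 35) (nat_lit 4) (nat_lit 536) (nat_lit 452) (nat_lit 212)) (XT.lf (nat_lit 0) (nat_lit 4777667731) (nat_lit 152) (nat_lit 217902033680) (nat_lit 76) (nat_lit 476579775455) (nat_lit 33) (nat_lit 5) (nat_lit 35) (nat_lit 5) (nat_lit 34) (nat_lit 4) (nat_lit 537) (nat_lit 452) (nat_lit 211))) (XT.nd (nat_lit 78) (nat_lit 0) (nat_lit 0) (XT.lf (nat_lit 0) (nat_lit 153308725473) (nat_lit 76) (nat_lit 32547402735) (nat_lit 152) (nat_lit 538780023795) (nat_lit 32) (nat_lit 5) (nat_lit 33) (nat_lit 5) (nat_lit 34) (nat_lit 4) (nat_lit 538) (nat_lit 452) (nat_lit 210)) (XT.lf (nat_lit 0) (nat_lit 382347906754) (nat_lit 152) (nat_lit 203121609201) (nat_lit 0) (nat_lit 165494175192) (nat_lit 32) (nat_lit 5) (nat_lit 34) (nat_lit 4) (nat_lit 32) (nat_lit 4) (nat_lit 539) (nat_lit 452) (nat_lit 209)))) (XT.nd (nat_lit 156) (nat_lit 76) (nat_lit 0)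 (XT.nd (nat_lit 78) (nat_lit 76) (nat_lit 0) (XT.lf (nat_lit 0) (nat_lit 189010166263) (nat_lit 76) (nat_lit 403138512791) (nat_lit 76) (nat_lit 186284707955) (nat_lit 31) (nat_lit 4) (nat_lit 32) (nat_lit 5) (nat_lit 32) (nat_lit 4) (nat_lit 540) (nat_lit 452) (nat_lit 208)) (XT.lf (nat_lit 0) (nat_lit 8493894685) (nat_lit 152) (nat_lit 199441390515) (nat_lit 76) (nat_lit 599162441171) (nat_lit 30) (nat_lit 5) (nat_lit 32) (nat_lit 5) (nat_lit 31) (nat_lit 4) (nat_lit 541) (nat_lit 452) (nat_lit 207))) (XT.nd (nat_lit 78) (nat_lit 0) (nat_lit 0) (XT.lf (nat_lit 0) (nat_lit 210147773892) (nat_lit 152) (nat_lit 623104768766) (nat_lit 0) (nat_lit 3620210956) (nat_lit 29) (nat_lit 5) (nat_lit 31) (nat_lit 4) (nat_lit 29) (nat_lit 4) (nat_lit 542) (nat_lit 452) (nat_lit 206)) (XT.lf (nat_lit 0) (nat_lit 428725999088) (nat_lit 152) (nat_lit 216870074660) (nat_lit 0) (nat_lit 222198375869) (nat_lit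 29) (nat_lit 5) (nat_lit 31) (nat_lit 4) (nat_lit 29) (nat_lit 4) (nat_lit 543) (nat_lit 452) (nat_lit 205))))) (XT.nd (nat_lit 55536) (nat_lit 0) (nat_lit 9120) (XT.nd (nat_lit 55380) (nat_lit 0) (nat_lit 9044) (XT.nd (nat_lit 78) (nat_lit 0) (nat_lit 0) (XT.lf (nat_lit 0) (nat_lit 216608943849) (nat_lit 76) (nat_lit 445005939898) (nat_lit 76) (nat_lit 238478259266) (nat_lit 28) (nat_lit 4) (nat_lit 29) (nat_lit 5) (nat_lit 29) (nat_lit 4) (nat_lit 544) (nat_lit 452) (nat_lit 204)) (XT.lf (nat_lit 0) (nat_lit 679290907336) (nat_lit 76) (nat_lit 230529982594) (nat_lit 76) (nat_lit 24002247284) (nat_lit 28) (nat_lit 4) (nat_lit 29) (nat_lit 5) (nat_lit 29) (nat_lit 4) (nat_lit 545) (nat_lit 452) (nat_lit 203))) (XT.nd (nat_lit 78) (nat_lit 0) (nat_lit 0) (XT.lf (nat_lit 0) (nat_lit 11055741856) (nat_lit 836) (nat_lit 7950438021) (nat_lit 836) (nat_lit 7950438021) (nat_lit 147) (nat_lit 3) (nat_lit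 158) (nat_lit 3) (nat_lit 158) (nat_lit 5) (nat_lit 453) (nat_lit 453) (nat_lit 294)) (XT.lf (nat_lit 76) (nat_lit 11195749948) (nat_lit 0) (nat_lit 11665445835) (nat_lit 836) (nat_lit 32390021239) (nat_lit 148) (nat_lit 5) (nat_lit 147) (nat_lit 3) (nat_lit 158) (nat_lit 5) (nat_lit 454) (nat_lit 453) (nat_lit 293)))) (XT.nd (nat_lit 156) (nat_lit 0) (nat_lit 76) (XT.nd (nat_lit 78) (nat_lit 0) (nat_lit 0) (XT.lf (nat_lit 0) (nat_lit 24170465227) (nat_lit 760) (nat_lit 16698434292) (nat_lit 836) (nat_lit 15761094418) (nat_lit 148) (nat_lit 5) (nat_lit 158) (nat_lit 5) (nat_lit 159) (nat_lit 5) (nat_lit 455) (nat_lit 453) (nat_lit 292)) (XT.lf (nat_lit 76) (nat_lit 12225702334) (nat_lit 0) (nat_lit 13700259479) (nat_lit 836) (nat_lit 32132709911) (nat_lit 149) (nat_lit 5) (nat_lit 148) (nat_lit 5) (nat_lit 159) (nat_lit 5) (nat_lit 456) (nat_lit 453) (nat_lit 291))) (XT.nd (nat_lit 78) (nat_lit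 0) (nat_lit 0) (XT.lf (nat_lit 0) (nat_lit 28286862480) (nat_lit 760) (nat_lit 16605859686) (nat_lit 836) (nat_lit 14640179969) (nat_lit 149) (nat_lit 5) (nat_lit 159) (nat_lit 5) (nat_lit 160) (nat_lit 5) (nat_lit 457) (nat_lit 453) (nat_lit 290)) (XT.lf (nat_lit 76) (nat_lit 14315363828) (nat_lit 0) (nat_lit 16897312280) (nat_lit 836) (nat_lit 29845824752) (nat_lit 150) (nat_lit 5) (nat_lit 149) (nat_lit 5) (nat_lit 160) (nat_lit 5) (nat_lit 458) (nat_lit 453) (nat_lit 289))))))) (XT.nd (nat_lit 1170) (nat_lit 2356) (nat_lit 0) (XT.nd (nat_lit 546) (nat_lit 1824) (nat_lit 0) (XT.nd (nat_lit 234) (nat_lit 608) (nat_lit 0) (XT.nd (nat_lit 78) (nat_lit 0) (nat_lit 0) (XT.lf (nat_lit 0) (nat_lit 34764567872) (nat_lit 760) (nat_lit 15487768743) (nat_lit 836) (nat_lit 12384053714) (nat_lit 150) (nat_lit 5) (nat_lit 160) (nat_lit 5) (nat_lit 161) (nat_lit 5) (nat_lit 459) (nat_lit 453) (nat_lit 288))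 (XT.nd (nat_lit 78) (nat_lit 0) (nat_lit 76) (XT.lf (nat_lit 76) (nat_lit 17616358167) (nat_lit 0) (nat_lit 21428620124) (nat_lit 836) (nat_lit 25220649948) (nat_lit 151) (nat_lit 5) (nat_lit 150) (nat_lit 5) (nat_lit 161) (nat_lit 5) (nat_lit 460) (nat_lit 453) (nat_lit 287)) (XT.lf (nat_lit 0) (nat_lit 43942883879) (nat_lit 760) (nat_lit 13192963497) (nat_lit 836) (nat_lit 8820307101) (nat_lit 151) (nat_lit 5) (nat_lit 161) (nat_lit 5) (nat_lit 162) (nat_lit 5) (nat_lit 461) (nat_lit 453) (nat_lit 286)))) (XT.nd (nat_lit 156) (nat_lit 684) (nat_lit 0) (XT.nd (nat_lit 78) (nat_lit 0) (nat_lit 76) (XT.lf (nat_lit 76) (nat_lit 22297694197) (nat_lit 0) (nat_lit 27486382971) (nat_lit 836) (nat_lit 17912210392) (nat_lit 152) (nat_lit 5) (nat_lit 151) (nat_lit 5) (nat_lit 162) (nat_lit 5) (nat_lit 462) (nat_lit 453) (nat_lit 285)) (XT.lf (nat_lit 0) (nat_lit 56200351994) (nat_lit 760) (nat_lit 9552800707)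 (nat_lit 76) (nat_lit 3756123651) (nat_lit 152) (nat_lit 5) (nat_lit 162) (nat_lit 5) (nat_lit 153) (nat_lit 5) (nat_lit 463) (nat_lit 453) (nat_lit 284))) (XT.nd (nat_lit 78) (nat_lit 0) (nat_lit 0) (XT.lf (nat_lit 0) (nat_lit 28547547367) (nat_lit 760) (nat_lit 35285256428) (nat_lit 836) (nat_lit 7535342769) (nat_lit 142) (nat_lit 5) (nat_lit 152) (nat_lit 5) (nat_lit 153) (nat_lit 5) (nat_lit 464) (nat_lit 453) (nat_lit 283)) (XT.lf (nat_lit 0) (nat_lit 68883740454) (nat_lit 760) (nat_lit 3124010524) (nat_lit 836) (nat_lit 1304165804) (nat_lit 142) (nat_lit 5) (nat_lit 152) (nat_lit 5) (nat_lit 153) (nat_lit 5) (nat_lit 465) (nat_lit 453) (nat_lit 282))))) (XT.nd (nat_lit 312) (nat_lit 608) (nat_lit 0) (XT.nd (nat_lit 156) (nat_lit 380) (nat_lit 0) (XT.nd (nat_lit 78) (nat_lit 380) (nat_lit 0) (XT.lf (nat_lit 0) (nat_lit 6136730282) (nat_lit 456) (nat_lit 38824208810) (nat_lit 76) (nat_lit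 30334555740) (nat_lit 136) (nat_lit 5) (nat_lit 142) (nat_lit 5) (nat_lit 137) (nat_lit 5) (nat_lit 466) (nat_lit 453) (nat_lit 281)) (XT.lf (nat_lit 0) (nat_lit 2190395237) (nat_lit 380) (nat_lit 11876232207) (nat_lit 456) (nat_lit 63302516230) (nat_lit 131) (nat_lit 5) (nat_lit 136) (nat_lit 5) (nat_lit 137) (nat_lit 5) (nat_lit 467) (nat_lit 453) (nat_lit 280))) (XT.nd (nat_lit 78) (nat_lit 380) (nat_lit 0) (XT.lf (nat_lit 0) (nat_lit 23417433938) (nat_lit 456) (nat_lit 33278582787) (nat_lit 76) (nat_lit 22799237619) (nat_lit 131) (nat_lit 5) (nat_lit 137) (nat_lit 5) (nat_lit 132) (nat_lit 5) (nat_lit 468) (nat_lit 453) (nat_lit 279)) (XT.lf (nat_lit 0) (nat_lit 10868942624) (nat_lit 380) (nat_lit 22730442198) (nat_lit 456) (nat_lit 48110105628) (nat_lit 126) (nat_lit 5) (nat_lit 131) (nat_lit 5) (nat_lit 132) (nat_lit 5) (nat_lit 469) (nat_lit 453) (nat_lit 278)))) (XT.nd (nat_lit 156) (nat_lit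 304) (nat_lit 0) (XT.nd (nat_lit 78) (nat_lit 304) (nat_lit 0) (XT.lf (nat_lit 0) (nat_lit 45064428804) (nat_lit 456) (nat_lit 25839077264) (nat_lit 76) (nat_lit 13092232616) (nat_lit 126) (nat_lit 5) (nat_lit 132) (nat_lit 5) (nat_lit 127) (nat_lit 5) (nat_lit 470) (nat_lit 453) (nat_lit 277)) (XT.lf (nat_lit 0) (nat_lit 21734668470) (nat_lit 304) (nat_lit 36079302656) (nat_lit 380) (nat_lit 28546765993) (nat_lit 122) (nat_lit 5) (nat_lit 126) (nat_lit 5) (nat_lit 127) (nat_lit 5) (nat_lit 471) (nat_lit 453) (nat_lit 276))) (XT.nd (nat_lit 78) (nat_lit 304) (nat_lit 0) (XT.lf (nat_lit 0) (nat_lit 71652648371) (nat_lit 380) (nat_lit 16253526756) (nat_lit 76) (nat_lit 915227548) (nat_lit 122) (nat_lit 5) (nat_lit 127) (nat_lit 5) (nat_lit 123) (nat_lit 5) (nat_lit 472) (nat_lit 453) (nat_lit 275)) (XT.lf (nat_lit 0) (nat_lit 35067771888) (nat_lit 304) (nat_lit 52253788481) (nat_lit 380) (nat_lit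 4026626183) (nat_lit 118) (nat_lit 5) (nat_lit 122) (nat_lit 5) (nat_lit 123) (nat_lit 5) (nat_lit 473) (nat_lit 453) (nat_lit 274)))))) (XT.nd (nat_lit 624) (nat_lit 912) (nat_lit 0) (XT.nd (nat_lit 312) (nat_lit 760) (nat_lit 0) (XT.nd (nat_lit 156) (nat_lit 304) (nat_lit 0) (XT.nd (nat_lit 78) (nat_lit 304) (nat_lit 0) (XT.lf (nat_lit 0) (nat_lit 9738937326) (nat_lit 380) (nat_lit 4626018802) (nat_lit 76) (nat_lit 79614769009) (nat_lit 117) (nat_lit 5) (nat_lit 122) (nat_lit 5) (nat_lit 118) (nat_lit 5) (nat_lit 474) (nat_lit 453) (nat_lit 273)) (XT.lf (nat_lit 0) (nat_lit 25266962255) (nat_lit 380) (nat_lit 45928167097) (nat_lit 76) (nat_lit 25483935647) (nat_lit 113) (nat_lit 5) (nat_lit 118) (nat_lit 5) (nat_lit 114) (nat_lit 5) (nat_lit 475) (nat_lit 453) (nat_lit 272))) (XT.nd (nat_lit 78) (nat_lit 0) (nat_lit 0) (XT.lf (nat_lit 0) (nat_lit 9618093372) (nat_lit 304) (nat_lit 32417966813)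 (nat_lit 380) (nat_lit 57454078152) (nat_lit 109) (nat_lit 5) (nat_lit 113) (nat_lit 5) (nat_lit 114) (nat_lit 5) (nat_lit 476) (nat_lit 453) (nat_lit 271)) (XT.lf (nat_lit 0) (nat_lit 60563137279) (nat_lit 380) (nat_lit 33009787933) (nat_lit 76) (nat_lit 8822863983) (nat_lit 109) (nat_lit 5) (nat_lit 114) (nat_lit 5) (nat_lit 110) (nat_lit 5) (nat_lit 477) (nat_lit 453) (nat_lit 270)))) (XT.nd (nat_lit 156) (nat_lit 532) (nat_lit 0) (XT.nd (nat_lit 78) (nat_lit 0) (nat_lit 0) (XT.lf (nat_lit 0) (nat_lit 27028461783) (nat_lit 228) (nat_lit 53940968635) (nat_lit 304) (nat_lit 24429649135) (nat_lit 106) (nat_lit 5) (nat_lit 109) (nat_lit 5) (nat_lit 110) (nat_lit 5) (nat_lit 478) (nat_lit 453) (nat_lit 269)) (XT.lf (nat_lit 0) (nat_lit 91213903846) (nat_lit 228) (nat_lit 11740616677) (nat_lit 304) (nat_lit 5570089852) (nat_lit 106) (nat_lit 5) (nat_lit 109) (nat_lit 5) (nat_lit 110) (nat_lit 5)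 (nat_lit 479) (nat_lit 453) (nat_lit 268))) (XT.nd (nat_lit 78) (nat_lit 228) (nat_lit 0) (XT.lf (nat_lit 0) (nat_lit 15052122852) (nat_lit 304) (nat_lit 64162846258) (nat_lit 76) (nat_lit 32516578132) (nat_lit 102) (nat_lit 5) (nat_lit 106) (nat_lit 5) (nat_lit 103) (nat_lit 5) (nat_lit 480) (nat_lit 453) (nat_lit 267)) (XT.lf (nat_lit 0) (nat_lit 949972665) (nat_lit 228) (nat_lit 36073028643) (nat_lit 304) (nat_lit 78046026716) (nat_lit 99) (nat_lit 5) (nat_lit 102) (nat_lit 5) (nat_lit 103) (nat_lit 5) (nat_lit 481) (nat_lit 453) (nat_lit 266))))) (XT.nd (nat_lit 312) (nat_lit 456) (nat_lit 0) (XT.nd (nat_lit 156) (nat_lit 228) (nat_lit 0) (XT.nd (nat_lit 78) (nat_lit 228) (nat_lit 0) (XT.lf (nat_lit 0) (nat_lit 61340394900) (nat_lit 304) (nat_lit 47135636675) (nat_lit 76) (nat_lit 10034952761) (nat_lit 99) (nat_lit 5) (nat_lit 103) (nat_lit 5) (nat_lit 100) (nat_lit 5) (nat_lit 482) (nat_lit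 453) (nat_lit 265)) (XT.lf (nat_lit 0) (nat_lit 23352297356) (nat_lit 228) (nat_lit 64476826194) (nat_lit 304) (nat_lit 34248141692) (nat_lit 96) (nat_lit 5) (nat_lit 99) (nat_lit 5) (nat_lit 100) (nat_lit 5) (nat_lit 483) (nat_lit 453) (nat_lit 264))) (XT.nd (nat_lit 78) (nat_lit 228) (nat_lit 0) (XT.lf (nat_lit 0) (nat_lit 99000368660) (nat_lit 228) (nat_lit 17439706631) (nat_lit 304) (nat_lit 9341895616) (nat_lit 96) (nat_lit 5) (nat_lit 99) (nat_lit 5) (nat_lit 100) (nat_lit 5) (nat_lit 484) (nat_lit 453) (nat_lit 263)) (XT.lf (nat_lit 0) (nat_lit 17569315384) (nat_lit 228) (nat_lit 80036350849) (nat_lit 76) (nat_lit 31988240027) (nat_lit 93) (nat_lit 5) (nat_lit 96) (nat_lit 5) (nat_lit 94) (nat_lit 5) (nat_lit 485) (nat_lit 453) (nat_lit 262)))) (XT.nd (nat_lit 156) (nat_lit 228) (nat_lit 0) (XT.nd (nat_lit 78) (nat_lit 228) (nat_lit 0) (XT.lf (nat_lit 0) (nat_lit 46258574781) (nat_lit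 228) (nat_lit 3377463074) (nat_lit 76) (nat_lit 83915421433) (nat_lit 93) (nat_lit 5) (nat_lit 96) (nat_lit 5) (nat_lit 94) (nat_lit 5) (nat_lit 486) (nat_lit 453) (nat_lit 261)) (XT.lf (nat_lit 0) (nat_lit 77657449320) (nat_lit 304) (nat_lit 58013101775) (nat_lit 76) (nat_lit 1972581302) (nat_lit 90) (nat_lit 5) (nat_lit 94) (nat_lit 5) (nat_lit 91) (nat_lit 5) (nat_lit 487) (nat_lit 453) (nat_lit 260))) (XT.nd (nat_lit 78) (nat_lit 76) (nat_lit 0) (XT.lf (nat_lit 0) (nat_lit 24951935879) (nat_lit 152) (nat_lit 86935317354) (nat_lit 228) (nat_lit 29989086681) (nat_lit 88) (nat_lit 5) (nat_lit 90) (nat_lit 5) (nat_lit 91) (nat_lit 5) (nat_lit 488) (nat_lit 453) (nat_lit 259)) (XT.lf (nat_lit 0) (nat_lit 2457258439) (nat_lit 228) (nat_lit 32233084144) (nat_lit 76) (nat_lit 111579780409) (nat_lit 87) (nat_lit 5) (nat_lit 90) (nat_lit 5) (nat_lit 88) (nat_lit 5) (nat_lit 489) (nat_lit 453) (nat_lit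 258))))))))
noncomputable def xc199 : XT := (XT.nd (nat_lit 2418) (nat_lit 1520) (nat_lit 0) (XT.nd (nat_lit 1170) (nat_lit 1368) (nat_lit 0) (XT.nd (nat_lit 546) (nat_lit 684) (nat_lit 0) (XT.nd (nat_lit 234) (nat_lit 532) (nat_lit 0) (XT.nd (nat_lit 78) (nat_lit 152) (nat_lit 0) (XT.lf (nat_lit 0) (nat_lit 36761925603) (nat_lit 304) (nat_lit 93092705165) (nat_lit 76) (nat_lit 20942191531) (nat_lit 84) (nat_lit 5) (nat_lit 88) (nat_lit 5) (nat_lit 85) (nat_lit 5) (nat_lit 490) (nat_lit 453) (nat_lit 257)) (XT.nd (nat_lit 78) (nat_lit 152) (nat_lit 0) (XT.lf (nat_lit 0) (nat_lit 73904954925) (nat_lit 304) (nat_lit 2843610593) (nat_lit 76) (nat_lit 78745134642) (nat_lit 84) (nat_lit 5) (nat_lit 88) (nat_lit 5) (nat_lit 85) (nat_lit 5) (nat_lit 491) (nat_lit 453) (nat_lit 256)) (XT.lf (nat_lit 0) (nat_lit 94956527753) (nat_lit 152) (nat_lit 19430767267) (nat_lit 228) (nat_lit 45964018958) (nat_lit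 82) (nat_lit 5) (nat_lit 84) (nat_lit 5) (nat_lit 85) (nat_lit 5) (nat_lit 492) (nat_lit 453) (nat_lit 255)))) (XT.nd (nat_lit 156) (nat_lit 304) (nat_lit 0) (XT.nd (nat_lit 78) (nat_lit 76) (nat_lit 0) (XT.lf (nat_lit 0) (nat_lit 32705088632) (nat_lit 152) (nat_lit 125384123025) (nat_lit 228) (nat_lit 7302823880) (nat_lit 80) (nat_lit 5) (nat_lit 82) (nat_lit 5) (nat_lit 83) (nat_lit 5) (nat_lit 493) (nat_lit 453) (nat_lit 254)) (XT.lf (nat_lit 0) (nat_lit 33669711400) (nat_lit 228) (nat_lit 33506187490) (nat_lit 76) (nat_lit 103410714973) (nat_lit 79) (nat_lit 5) (nat_lit 82) (nat_lit 5) (nat_lit 80) (nat_lit 5) (nat_lit 494) (nat_lit 453) (nat_lit 253))) (XT.nd (nat_lit 78) (nat_lit 152) (nat_lit 0) (XT.lf (nat_lit 0) (nat_lit 72844789014) (nat_lit 152) (nat_lit 4737619652) (nat_lit 228) (nat_lit 98395678642) (nat_lit 77) (nat_lit 5) (nat_lit 79) (nat_lit 5) (nat_lit 80) (nat_lit 5) (nat_lit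 495) (nat_lit 453) (nat_lit 252)) (XT.lf (nat_lit 0) (nat_lit 3209011771) (nat_lit 152) (nat_lit 122057838131) (nat_lit 228) (nat_lit 56293479090) (nat_lit 75) (nat_lit 5) (nat_lit 77) (nat_lit 5) (nat_lit 78) (nat_lit 5) (nat_lit 496) (nat_lit 453) (nat_lit 251))))) (XT.nd (nat_lit 312) (nat_lit 304) (nat_lit 0) (XT.nd (nat_lit 156) (nat_lit 152) (nat_lit 0) (XT.nd (nat_lit 78) (nat_lit 228) (nat_lit 0) (XT.lf (nat_lit 0) (nat_lit 118368173562) (nat_lit 152) (nat_lit 58790023425) (nat_lit 228) (nat_lit 10172351606) (nat_lit 75) (nat_lit 5) (nat_lit 77) (nat_lit 5) (nat_lit 78) (nat_lit 5) (nat_lit 497) (nat_lit 453) (nat_lit 250)) (XT.lf (nat_lit 0) (nat_lit 37901788808) (nat_lit 228) (nat_lit 146668023455) (nat_lit 76) (nat_lit 8746036168) (nat_lit 72) (nat_lit 5) (nat_lit 75) (nat_lit 5) (nat_lit 73) (nat_lit 5) (nat_lit 498) (nat_lit 453) (nat_lit 249))) (XT.nd (nat_lit 78) (nat_lit 152)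 (nat_lit 0) (XT.lf (nat_lit 0) (nat_lit 90188279203) (nat_lit 228) (nat_lit 30259513198) (nat_lit 76) (nat_lit 79036757850) (nat_lit 72) (nat_lit 5) (nat_lit 75) (nat_lit 5) (nat_lit 73) (nat_lit 5) (nat_lit 499) (nat_lit 453) (nat_lit 248)) (XT.lf (nat_lit 0) (nat_lit 95009784647) (nat_lit 152) (nat_lit 51562366594) (nat_lit 228) (nat_lit 59315383084) (nat_lit 70) (nat_lit 5) (nat_lit 72) (nat_lit 5) (nat_lit 73) (nat_lit 5) (nat_lit 500) (nat_lit 453) (nat_lit 247)))) (XT.nd (nat_lit 156) (nat_lit 152) (nat_lit 0) (XT.nd (nat_lit 78) (nat_lit 76) (nat_lit 0) (XT.lf (nat_lit 0) (nat_lit 15160077385) (nat_lit 76) (nat_lit 191696618509) (nat_lit 152) (nat_lit 5699897773) (nat_lit 69) (nat_lit 5) (nat_lit 70) (nat_lit 5) (nat_lit 71) (nat_lit 4) (nat_lit 501) (nat_lit 453) (nat_lit 246)) (XT.lf (nat_lit 0) (nat_lit 51730490715) (nat_lit 152) (nat_lit 69782564100) (nat_lit 76) (nat_lit 97868877203)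 (nat_lit 68) (nat_lit 5) (nat_lit 70) (nat_lit 5) (nat_lit 69) (nat_lit 5) (nat_lit 502) (nat_lit 453) (nat_lit 245))) (XT.nd (nat_lit 78) (nat_lit 0) (nat_lit 0) (XT.lf (nat_lit 0) (nat_lit 66238156905) (nat_lit 152) (nat_lit 46636558039) (nat_lit 228) (nat_lit 113617456796) (nat_lit 66) (nat_lit 5) (nat_lit 68) (nat_lit 5) (nat_lit 69) (nat_lit 5) (nat_lit 503) (nat_lit 453) (nat_lit 244)) (XT.lf (nat_lit 0) (nat_lit 178776391230) (nat_lit 228) (nat_lit 22935481260) (nat_lit 76) (nat_lit 32161038930) (nat_lit 66) (nat_lit 5) (nat_lit 69) (nat_lit 5) (nat_lit 67) (nat_lit 4) (nat_lit 504) (nat_lit 453) (nat_lit 243)))))) (XT.nd (nat_lit 624) (nat_lit 684) (nat_lit 0) (XT.nd (nat_lit 312) (nat_lit 304) (nat_lit 0) (XT.nd (nat_lit 156) (nat_lit 76) (nat_lit 0) (XT.nd (nat_lit 78) (nat_lit 152) (nat_lit 0) (XT.lf (nat_lit 0) (nat_lit 8899141150) (nat_lit 152) (nat_lit 117163156628) (nat_lit 76)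 (nat_lit 115417836272) (nat_lit 64) (nat_lit 5) (nat_lit 66) (nat_lit 5) (nat_lit 65) (nat_lit 5) (nat_lit 505) (nat_lit 453) (nat_lit 242)) (XT.lf (nat_lit 0) (nat_lit 30341043154) (nat_lit 152) (nat_lit 44770162080) (nat_lit 228) (nat_lit 174267940305) (nat_lit 62) (nat_lit 5) (nat_lit 64) (nat_lit 5) (nat_lit 65) (nat_lit 5) (nat_lit 506) (nat_lit 453) (nat_lit 241))) (XT.nd (nat_lit 78) (nat_lit 76) (nat_lit 0) (XT.lf (nat_lit 0) (nat_lit 147284011865) (nat_lit 228) (nat_lit 68952505038) (nat_lit 76) (nat_lit 41304083745) (nat_lit 62) (nat_lit 5) (nat_lit 65) (nat_lit 5) (nat_lit 63) (nat_lit 4) (nat_lit 507) (nat_lit 453) (nat_lit 240)) (XT.lf (nat_lit 0) (nat_lit 90809424791) (nat_lit 76) (nat_lit 134407499986) (nat_lit 152) (nat_lit 40785630446) (nat_lit 61) (nat_lit 5) (nat_lit 62) (nat_lit 5) (nat_lit 63) (nat_lit 4) (nat_lit 508) (nat_lit 453) (nat_lit 239)))) (XT.nd (nat_lit 156) (nat_lit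 76) (nat_lit 0) (XT.nd (nat_lit 78) (nat_lit 152) (nat_lit 0) (XT.lf (nat_lit 0) (nat_lit 32316218438) (nat_lit 152) (nat_lit 14397607347) (nat_lit 76) (nat_lit 228089345870) (nat_lit 60) (nat_lit 5) (nat_lit 62) (nat_lit 5) (nat_lit 61) (nat_lit 5) (nat_lit 509) (nat_lit 453) (nat_lit 238)) (XT.lf (nat_lit 0) (nat_lit 110942269783) (nat_lit 228) (nat_lit 125793373742) (nat_lit 76) (nat_lit 47112755815) (nat_lit 58) (nat_lit 5) (nat_lit 61) (nat_lit 5) (nat_lit 59) (nat_lit 4) (nat_lit 510) (nat_lit 453) (nat_lit 237))) (XT.nd (nat_lit 78) (nat_lit 0) (nat_lit 0) (XT.lf (nat_lit 0) (nat_lit 47031490924) (nat_lit 76) (nat_lit 148215808262) (nat_lit 152) (nat_lit 98011205458) (nat_lit 57) (nat_lit 5) (nat_lit 58) (nat_lit 5) (nat_lit 59) (nat_lit 4) (nat_lit 511) (nat_lit 453) (nat_lit 236)) (XT.lf (nat_lit 0) (nat_lit 232864409528) (nat_lit 76) (nat_lit 53033300875) (nat_lit 152) (nat_lit 17134898301)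 (nat_lit 57) (nat_lit 5) (nat_lit 58) (nat_lit 5) (nat_lit 59) (nat_lit 4) (nat_lit 512) (nat_lit 453) (nat_lit 235))))) (XT.nd (nat_lit 312) (nat_lit 228) (nat_lit 0) (XT.nd (nat_lit 156) (nat_lit 228) (nat_lit 0) (XT.nd (nat_lit 78) (nat_lit 0) (nat_lit 0) (XT.lf (nat_lit 0) (nat_lit 68228022518) (nat_lit 228) (nat_lit 196538554772) (nat_lit 76) (nat_lit 48345307378) (nat_lit 54) (nat_lit 5) (nat_lit 57) (nat_lit 5) (nat_lit 55) (nat_lit 4) (nat_lit 513) (nat_lit 453) (nat_lit 234)) (XT.lf (nat_lit 0) (nat_lit 159360223745) (nat_lit 228) (nat_lit 9717908861) (nat_lit 76) (nat_lit 154499097868) (nat_lit 54) (nat_lit 5) (nat_lit 57) (nat_lit 5) (nat_lit 55) (nat_lit 4) (nat_lit 514) (nat_lit 453) (nat_lit 233))) (XT.nd (nat_lit 78) (nat_lit 152) (nat_lit 0) (XT.lf (nat_lit 0) (nat_lit 192608010739) (nat_lit 76) (nat_lit 65447953858) (nat_lit 152) (nat_lit 76359532501) (nat_lit 53) (nat_lit 5)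 (nat_lit 54) (nat_lit 5) (nat_lit 55) (nat_lit 4) (nat_lit 515) (nat_lit 453) (nat_lit 232)) (XT.lf (nat_lit 0) (nat_lit 17206034165) (nat_lit 152) (nat_lit 285115295873) (nat_lit 76) (nat_lit 43370750811) (nat_lit 51) (nat_lit 5) (nat_lit 53) (nat_lit 5) (nat_lit 52) (nat_lit 4) (nat_lit 516) (nat_lit 453) (nat_lit 231)))) (XT.nd (nat_lit 156) (nat_lit 152) (nat_lit 0) (XT.nd (nat_lit 78) (nat_lit 76) (nat_lit 0) (XT.lf (nat_lit 0) (nat_lit 116397344292) (nat_lit 152) (nat_lit 81773411719) (nat_lit 76) (nat_lit 159123465695) (nat_lit 51) (nat_lit 5) (nat_lit 53) (nat_lit 5) (nat_lit 52) (nat_lit 4) (nat_lit 517) (nat_lit 453) (nat_lit 230)) (XT.lf (nat_lit 0) (nat_lit 136090926755) (nat_lit 76) (nat_lit 86581844716) (nat_lit 152) (nat_lit 146697470562) (nat_lit 50) (nat_lit 5) (nat_lit 51) (nat_lit 5) (nat_lit 52) (nat_lit 4) (nat_lit 518) (nat_lit 453) (nat_lit 229))) (XT.nd (nat_lit 78) (nat_lit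 152) (nat_lit 0) (XT.lf (nat_lit 0) (nat_lit 336146877987) (nat_lit 152) (nat_lit 14793993751) (nat_lit 0) (nat_lit 31014946246) (nat_lit 50) (nat_lit 5) (nat_lit 52) (nat_lit 4) (nat_lit 50) (nat_lit 4) (nat_lit 519) (nat_lit 453) (nat_lit 228)) (XT.lf (nat_lit 0) (nat_lit 63137128089) (nat_lit 152) (nat_lit 175701067291) (nat_lit 76) (nat_lit 156038669386) (nat_lit 48) (nat_lit 5) (nat_lit 50) (nat_lit 5) (nat_lit 49) (nat_lit 4) (nat_lit 520) (nat_lit 453) (nat_lit 227))))))) (XT.nd (nat_lit 1248) (nat_lit 532) (nat_lit 0) (XT.nd (nat_lit 624) (nat_lit 456) (nat_lit 0) (XT.nd (nat_lit 312) (nat_lit 304) (nat_lit 0) (XT.nd (nat_lit 156) (nat_lit 152) (nat_lit 0) (XT.nd (nat_lit 78) (nat_lit 0) (nat_lit 0) (XT.lf (nat_lit 0) (nat_lit 58028060755) (nat_lit 76) (nat_lit 119123391413) (nat_lit 152) (nat_lit 231196941744) (nat_lit 47) (nat_lit 5) (nat_lit 48) (nat_lit 5) (nat_lit 49) (nat_lit 4)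 (nat_lit 521) (nat_lit 453) (nat_lit 226)) (XT.lf (nat_lit 0) (nat_lit 299993345607) (nat_lit 152) (nat_lit 112952981128) (nat_lit 0) (nat_lit 9390830127) (nat_lit 47) (nat_lit 5) (nat_lit 49) (nat_lit 4) (nat_lit 47) (nat_lit 4) (nat_lit 522) (nat_lit 453) (nat_lit 225))) (XT.nd (nat_lit 78) (nat_lit 76) (nat_lit 0) (XT.lf (nat_lit 0) (nat_lit 138771072771) (nat_lit 76) (nat_lit 294325520907) (nat_lit 76) (nat_lit 3722801288) (nat_lit 46) (nat_lit 4) (nat_lit 47) (nat_lit 5) (nat_lit 47) (nat_lit 4) (nat_lit 523) (nat_lit 453) (nat_lit 224)) (XT.lf (nat_lit 0) (nat_lit 118906053366) (nat_lit 152) (nat_lit 46845504635) (nat_lit 76) (nat_lit 286082658555) (nat_lit 45) (nat_lit 5) (nat_lit 47) (nat_lit 5) (nat_lit 46) (nat_lit 4) (nat_lit 524) (nat_lit 453) (nat_lit 223)))) (XT.nd (nat_lit 156) (nat_lit 152) (nat_lit 0) (XT.nd (nat_lit 78) (nat_lit 76) (nat_lit 0) (XT.lf (nat_lit 0) (nat_lit 224026318341)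 (nat_lit 76) (nat_lit 27012421921) (nat_lit 152) (nat_lit 216383112490) (nat_lit 44) (nat_lit 5) (nat_lit 45) (nat_lit 5) (nat_lit 46) (nat_lit 4) (nat_lit 525) (nat_lit 453) (nat_lit 222)) (XT.lf (nat_lit 0) (nat_lit 25261395852) (nat_lit 76) (nat_lit 367569918301) (nat_lit 76) (nat_lit 90804893976) (nat_lit 43) (nat_lit 4) (nat_lit 44) (nat_lit 5) (nat_lit 44) (nat_lit 4) (nat_lit 526) (nat_lit 453) (nat_lit 221))) (XT.nd (nat_lit 78) (nat_lit 76) (nat_lit 0) (XT.lf (nat_lit 0) (nat_lit 44370551630) (nat_lit 152) (nat_lit 185805553429) (nat_lit 76) (nat_lit 270221516991) (nat_lit 42) (nat_lit 5) (nat_lit 44) (nat_lit 5) (nat_lit 43) (nat_lit 4) (nat_lit 527) (nat_lit 453) (nat_lit 220)) (XT.lf (nat_lit 0) (nat_lit 102173419582) (nat_lit 76) (nat_lit 82674754167) (nat_lit 152) (nat_lit 332994750476) (nat_lit 41) (nat_lit 5) (nat_lit 42) (nat_lit 5) (nat_lit 43) (nat_lit 4) (nat_lit 528) (nat_lit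 453) (nat_lit 219))))) (XT.nd (nat_lit 312) (nat_lit 228) (nat_lit 0) (XT.nd (nat_lit 156) (nat_lit 152) (nat_lit 0) (XT.nd (nat_lit 78) (nat_lit 76) (nat_lit 0) (XT.lf (nat_lit 0) (nat_lit 336675070778) (nat_lit 152) (nat_lit 126180253296) (nat_lit 0) (nat_lit 73088897747) (nat_lit 41) (nat_lit 5) (nat_lit 43) (nat_lit 4) (nat_lit 41) (nat_lit 4) (nat_lit 529) (nat_lit 453) (nat_lit 218)) (XT.lf (nat_lit 0) (nat_lit 182261321159) (nat_lit 76) (nat_lit 318032764554) (nat_lit 76) (nat_lit 54446459934) (nat_lit 40) (nat_lit 4) (nat_lit 41) (nat_lit 5) (nat_lit 41) (nat_lit 4) (nat_lit 530) (nat_lit 453) (nat_lit 217))) (XT.nd (nat_lit 78) (nat_lit 76) (nat_lit 0) (XT.lf (nat_lit 0) (nat_lit 96664794989) (nat_lit 152) (nat_lit 65423600215) (nat_lit 76) (nat_lit 412203496700) (nat_lit 39) (nat_lit 5) (nat_lit 41) (nat_lit 5) (nat_lit 40) (nat_lit 4) (nat_lit 531) (nat_lit 453) (nat_lit 216)) (XT.lf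 (nat_lit 0) (nat_lit 257740371015) (nat_lit 152) (nat_lit 330118318237) (nat_lit 0) (nat_lit 6705562157) (nat_lit 38) (nat_lit 5) (nat_lit 40) (nat_lit 4) (nat_lit 38) (nat_lit 4) (nat_lit 532) (nat_lit 453) (nat_lit 215)))) (XT.nd (nat_lit 156) (nat_lit 152) (nat_lit 0) (XT.nd (nat_lit 78) (nat_lit 76) (nat_lit 0) (XT.lf (nat_lit 0) (nat_lit 430652904021) (nat_lit 152) (nat_lit 5390179058) (nat_lit 0) (nat_lit 179617986904) (nat_lit 38) (nat_lit 5) (nat_lit 40) (nat_lit 4) (nat_lit 38) (nat_lit 4) (nat_lit 533) (nat_lit 453) (nat_lit 214)) (XT.lf (nat_lit 0) (nat_lit 346669674352) (nat_lit 76) (nat_lit 270953729182) (nat_lit 76) (nat_lit 19918708961) (nat_lit 37) (nat_lit 4) (nat_lit 38) (nat_lit 5) (nat_lit 38) (nat_lit 4) (nat_lit 534) (nat_lit 453) (nat_lit 213))) (XT.nd (nat_lit 78) (nat_lit 0) (nat_lit 0) (XT.lf (nat_lit 0) (nat_lit 55382413905) (nat_lit 76) (nat_lit 94089553080) (nat_lit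 152) (nat_lit 510877604698) (nat_lit 35) (nat_lit 5) (nat_lit 36) (nat_lit 5) (nat_lit 37) (nat_lit 4) (nat_lit 535) (nat_lit 453) (nat_lit 212)) (XT.lf (nat_lit 0) (nat_lit 333099864434) (nat_lit 152) (nat_lit 256840648032) (nat_lit 0) (nat_lit 94018710211) (nat_lit 35) (nat_lit 5) (nat_lit 37) (nat_lit 4) (nat_lit 35) (nat_lit 4) (nat_lit 536) (nat_lit 453) (nat_lit 211)))))) (XT.nd (nat_lit 624) (nat_lit 76) (nat_lit 0) (XT.nd (nat_lit 312) (nat_lit 228) (nat_lit 0) (XT.nd (nat_lit 156) (nat_lit 76) (nat_lit 0) (XT.nd (nat_lit 78) (nat_lit 76) (nat_lit 0) (XT.lf (nat_lit 0) (nat_lit 110692306535) (nat_lit 76) (nat_lit 418487381094) (nat_lit 76) (nat_lit 179406142047) (nat_lit 34) (nat_lit 4) (nat_lit 35) (nat_lit 5) (nat_lit 35) (nat_lit 4) (nat_lit 537) (nat_lit 453) (nat_lit 210)) (XT.lf (nat_lit 0) (nat_lit 5020789316) (nat_lit 152) (nat_lit 228788701733) (nat_lit 76) (nat_lit 500412747703)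 (nat_lit 33) (nat_lit 5) (nat_lit 35) (nat_lit 5) (nat_lit 34) (nat_lit 4) (nat_lit 538) (nat_lit 453) (nat_lit 209))) (XT.nd (nat_lit 78) (nat_lit 0) (nat_lit 0) (XT.lf (nat_lit 0) (nat_lit 160982459352) (nat_lit 76) (nat_lit 34170641194) (nat_lit 152) (nat_lit 565714650714) (nat_lit 32) (nat_lit 5) (nat_lit 33) (nat_lit 5) (nat_lit 34) (nat_lit 4) (nat_lit 539) (nat_lit 453) (nat_lit 208)) (XT.lf (nat_lit 0) (nat_lit 401469331077) (nat_lit 152) (nat_lit 213269650193) (nat_lit 0) (nat_lit 173772692940) (nat_lit 32) (nat_lit 5) (nat_lit 34) (nat_lit 4) (nat_lit 32) (nat_lit 4) (nat_lit 540) (nat_lit 453) (nat_lit 207)))) (XT.nd (nat_lit 156) (nat_lit 76) (nat_lit 0) (XT.nd (nat_lit 78) (nat_lit 76) (nat_lit 0) (XT.lf (nat_lit 0) (nat_lit 198468584375) (nat_lit 76) (nat_lit 423291489254) (nat_lit 76) (nat_lit 195594784656) (nat_lit 31) (nat_lit 4) (nat_lit 32) (nat_lit 5) (nat_lit 32) (nat_lit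 4) (nat_lit 541) (nat_lit 453) (nat_lit 206)) (XT.lf (nat_lit 0) (nat_lit 8922423317) (nat_lit 152) (nat_lit 209405800095) (nat_lit 76) (nat_lit 629124197546) (nat_lit 30) (nat_lit 5) (nat_lit 32) (nat_lit 5) (nat_lit 31) (nat_lit 4) (nat_lit 542) (nat_lit 453) (nat_lit 205))) (XT.nd (nat_lit 78) (nat_lit 0) (nat_lit 0) (XT.lf (nat_lit 0) (nat_lit 220658990402) (nat_lit 152) (nat_lit 654252341139) (nat_lit 0) (nat_lit 3804868327) (nat_lit 29) (nat_lit 5) (nat_lit 31) (nat_lit 4) (nat_lit 29) (nat_lit 4) (nat_lit 543) (nat_lit 453) (nat_lit 204)) (XT.lf (nat_lit 0) (nat_lit 450165944581) (nat_lit 152) (nat_lit 227706277379) (nat_lit 0) (nat_lit 233311767827) (nat_lit 29) (nat_lit 5) (nat_lit 31) (nat_lit 4) (nat_lit 29) (nat_lit 4) (nat_lit 544) (nat_lit 453) (nat_lit 203))))) (XT.nd (nat_lit 55614) (nat_lit 0) (nat_lit 9120) (XT.nd (nat_lit 55458) (nat_lit 0) (nat_lit 9044) (XT.nd (nat_lit 55380)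 (nat_lit 0) (nat_lit 9044) (XT.lf (nat_lit 0) (nat_lit 227446574297) (nat_lit 76) (nat_lit 467252637728) (nat_lit 76) (nat_lit 250398408900) (nat_lit 28) (nat_lit 4) (nat_lit 29) (nat_lit 5) (nat_lit 29) (nat_lit 4) (nat_lit 545) (nat_lit 453) (nat_lit 202)) (XT.lf (nat_lit 0) (nat_lit 11630311415) (nat_lit 836) (nat_lit 8336522443) (nat_lit 836) (nat_lit 8336522443) (nat_lit 147) (nat_lit 3) (nat_lit 158) (nat_lit 3) (nat_lit 158) (nat_lit 5) (nat_lit 454) (nat_lit 454) (nat_lit 292))) (XT.nd (nat_lit 78) (nat_lit 0) (nat_lit 76) (XT.lf (nat_lit 76) (nat_lit 11778043454) (nat_lit 0) (nat_lit 12268053912) (nat_lit 836) (nat_lit 33965581999) (nat_lit 148) (nat_lit 5) (nat_lit 147) (nat_lit 3) (nat_lit 158) (nat_lit 5) (nat_lit 455) (nat_lit 454) (nat_lit 291)) (XT.lf (nat_lit 0) (nat_lit 25418550306) (nat_lit 760) (nat_lit 17509635624) (nat_lit 836) (nat_lit 16531323501) (nat_lit 148) (nat_lit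 5) (nat_lit 158) (nat_lit 5) (nat_lit 159) (nat_lit 5) (nat_lit 456) (nat_lit 454) (nat_lit 290)))) (XT.nd (nat_lit 156) (nat_lit 0) (nat_lit 76) (XT.nd (nat_lit 78) (nat_lit 0) (nat_lit 76) (XT.lf (nat_lit 76) (nat_lit 12860325245) (nat_lit 0) (nat_lit 14399976947) (nat_lit 836) (nat_lit 33699395181) (nat_lit 149) (nat_lit 5) (nat_lit 148) (nat_lit 5) (nat_lit 159) (nat_lit 5) (nat_lit 457) (nat_lit 454) (nat_lit 289)) (XT.lf (nat_lit 0) (nat_lit 29737217710) (nat_lit 760) (nat_lit 17411890471) (nat_lit 836) (nat_lit 15358632912) (nat_lit 149) (nat_lit 5) (nat_lit 159) (nat_lit 5) (nat_lit 160) (nat_lit 5) (nat_lit 458) (nat_lit 454) (nat_lit 288))) (XT.nd (nat_lit 78) (nat_lit 0) (nat_lit 76) (XT.lf (nat_lit 76) (nat_lit 15055002892) (nat_lit 0) (nat_lit 17752976956) (nat_lit 836) (nat_lit 31301707279) (nat_lit 150) (nat_lit 5) (nat_lit 149) (nat_lit 5) (nat_lit 160) (nat_lit 5) (nat_lit 459)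 (nat_lit 454) (nat_lit 287)) (XT.lf (nat_lit 0) (nat_lit 36535654676) (nat_lit 760) (nat_lit 16237606463) (nat_lit 836) (nat_lit 12993300757) (nat_lit 150) (nat_lit 5) (nat_lit 160) (nat_lit 5) (nat_lit 161) (nat_lit 5) (nat_lit 460) (nat_lit 454) (nat_lit 286))))))))
noncomputable def xc200 : XT := (XT.nd (nat_lit 2418) (nat_lit 2812) (nat_lit 0) (XT.nd (nat_lit 1170) (nat_lit 2508) (nat_lit 0) (XT.nd (nat_lit 546) (nat_lit 1444) (nat_lit 0) (XT.nd (nat_lit 234) (nat_lit 1064) (nat_lit 0) (XT.nd (nat_lit 78) (nat_lit 0) (nat_lit 76) (XT.lf (nat_lit 76) (nat_lit 18521330813) (nat_lit 0) (nat_lit 22507567240) (nat_lit 836) (nat_lit 26448423267) (nat_lit 151) (nat_lit 5) (nat_lit 150) (nat_lit 5) (nat_lit 161) (nat_lit 5) (nat_lit 461) (nat_lit 454) (nat_lit 285)) (XT.nd (nat_lit 78) (nat_lit 0) (nat_lit 0) (XT.lf (nat_lit 0) (nat_lit 46170079025) (nat_lit 760) (nat_lit 13827982703) (nat_lit 836)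 (nat_lit 9254393364) (nat_lit 151) (nat_lit 5) (nat_lit 161) (nat_lit 5) (nat_lit 162) (nat_lit 5) (nat_lit 462) (nat_lit 454) (nat_lit 284)) (XT.lf (nat_lit 76) (nat_lit 23436810634) (nat_lit 0) (nat_lit 28865468673) (nat_lit 836) (nat_lit 18777368374) (nat_lit 152) (nat_lit 5) (nat_lit 151) (nat_lit 5) (nat_lit 162) (nat_lit 5) (nat_lit 463) (nat_lit 454) (nat_lit 283)))) (XT.nd (nat_lit 156) (nat_lit 456) (nat_lit 0) (XT.nd (nat_lit 78) (nat_lit 760) (nat_lit 0) (XT.lf (nat_lit 0) (nat_lit 59037916128) (nat_lit 760) (nat_lit 10005907025) (nat_lit 76) (nat_lit 3939535554) (nat_lit 152) (nat_lit 5) (nat_lit 162) (nat_lit 5) (nat_lit 153) (nat_lit 5) (nat_lit 464) (nat_lit 454) (nat_lit 282)) (XT.lf (nat_lit 0) (nat_lit 29999062748) (nat_lit 760) (nat_lit 37051992893) (nat_lit 836) (nat_lit 7884163729) (nat_lit 142) (nat_lit 5) (nat_lit 152) (nat_lit 5) (nat_lit 153) (nat_lit 5) (nat_lit 465)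 (nat_lit 454) (nat_lit 281))) (XT.nd (nat_lit 78) (nat_lit 456) (nat_lit 0) (XT.lf (nat_lit 0) (nat_lit 72350916061) (nat_lit 760) (nat_lit 3282566901) (nat_lit 836) (nat_lit 1342758685) (nat_lit 142) (nat_lit 5) (nat_lit 152) (nat_lit 5) (nat_lit 153) (nat_lit 5) (nat_lit 466) (nat_lit 454) (nat_lit 280)) (XT.lf (nat_lit 0) (nat_lit 6468447239) (nat_lit 456) (nat_lit 40740688725) (nat_lit 76) (nat_lit 31849886184) (nat_lit 136) (nat_lit 5) (nat_lit 142) (nat_lit 5) (nat_lit 137) (nat_lit 5) (nat_lit 467) (nat_lit 454) (nat_lit 279))))) (XT.nd (nat_lit 312) (nat_lit 684) (nat_lit 0) (XT.nd (nat_lit 156) (nat_lit 380) (nat_lit 0) (XT.nd (nat_lit 78) (nat_lit 0) (nat_lit 0) (XT.lf (nat_lit 0) (nat_lit 2324246645) (nat_lit 380) (nat_lit 12469787716) (nat_lit 456) (nat_lit 66442359477) (nat_lit 131) (nat_lit 5) (nat_lit 136) (nat_lit 5) (nat_lit 137) (nat_lit 5) (nat_lit 468) (nat_lit 454) (nat_lit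 278)) (XT.lf (nat_lit 0) (nat_lit 24611238534) (nat_lit 456) (nat_lit 34918193197) (nat_lit 76) (nat_lit 23939435599) (nat_lit 131) (nat_lit 5) (nat_lit 137) (nat_lit 5) (nat_lit 132) (nat_lit 5) (nat_lit 469) (nat_lit 454) (nat_lit 277))) (XT.nd (nat_lit 78) (nat_lit 0) (nat_lit 0) (XT.lf (nat_lit 0) (nat_lit 11436316247) (nat_lit 380) (nat_lit 23865252231) (nat_lit 456) (nat_lit 50492282833) (nat_lit 126) (nat_lit 5) (nat_lit 131) (nat_lit 5) (nat_lit 132) (nat_lit 5) (nat_lit 470) (nat_lit 454) (nat_lit 276)) (XT.lf (nat_lit 0) (nat_lit 47338832289) (nat_lit 456) (nat_lit 27107208820) (nat_lit 76) (nat_lit 13748422608) (nat_lit 126) (nat_lit 5) (nat_lit 132) (nat_lit 5) (nat_lit 127) (nat_lit 5) (nat_lit 471) (nat_lit 454) (nat_lit 275)))) (XT.nd (nat_lit 156) (nat_lit 380) (nat_lit 0) (XT.nd (nat_lit 78) (nat_lit 0) (nat_lit 0) (XT.lf (nat_lit 0) (nat_lit 22844839970) (nat_lit 304) (nat_lit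 37880369021) (nat_lit 380) (nat_lit 29952535351) (nat_lit 122) (nat_lit 5) (nat_lit 126) (nat_lit 5) (nat_lit 127) (nat_lit 5) (nat_lit 472) (nat_lit 454) (nat_lit 274)) (XT.lf (nat_lit 0) (nat_lit 75254885140) (nat_lit 380) (nat_lit 17042943616) (nat_lit 76) (nat_lit 963661296) (nat_lit 122) (nat_lit 5) (nat_lit 127) (nat_lit 5) (nat_lit 123) (nat_lit 5) (nat_lit 473) (nat_lit 454) (nat_lit 273))) (XT.nd (nat_lit 78) (nat_lit 76) (nat_lit 0) (XT.lf (nat_lit 0) (nat_lit 36844044807) (nat_lit 304) (nat_lit 54862621678) (nat_lit 380) (nat_lit 4207975571) (nat_lit 118) (nat_lit 5) (nat_lit 122) (nat_lit 5) (nat_lit 123) (nat_lit 5) (nat_lit 474) (nat_lit 454) (nat_lit 272)) (XT.lf (nat_lit 0) (nat_lit 10244305502) (nat_lit 380) (nat_lit 4834913862) (nat_lit 76) (nat_lit 83598568770) (nat_lit 117) (nat_lit 5) (nat_lit 122) (nat_lit 5) (nat_lit 118) (nat_lit 5) (nat_lit 475) (nat_lit 454) (nat_lit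 271)))))) (XT.nd (nat_lit 624) (nat_lit 1140) (nat_lit 0) (XT.nd (nat_lit 312) (nat_lit 532) (nat_lit 0) (XT.nd (nat_lit 156) (nat_lit 228) (nat_lit 0) (XT.nd (nat_lit 78) (nat_lit 304) (nat_lit 0) (XT.lf (nat_lit 0) (nat_lit 26548263538) (nat_lit 380) (nat_lit 48201699344) (nat_lit 76) (nat_lit 26762155618) (nat_lit 113) (nat_lit 5) (nat_lit 118) (nat_lit 5) (nat_lit 114) (nat_lit 5) (nat_lit 476) (nat_lit 454) (nat_lit 270)) (XT.lf (nat_lit 0) (nat_lit 10121505179) (nat_lit 304) (nat_lit 34033807672) (nat_lit 380) (nat_lit 60308457929) (nat_lit 109) (nat_lit 5) (nat_lit 113) (nat_lit 5) (nat_lit 114) (nat_lit 5) (nat_lit 477) (nat_lit 454) (nat_lit 269))) (XT.nd (nat_lit 78) (nat_lit 228) (nat_lit 0) (XT.lf (nat_lit 0) (nat_lit 63607988065) (nat_lit 380) (nat_lit 34638084330) (nat_lit 76) (nat_lit 9268669669) (nat_lit 109) (nat_lit 5) (nat_lit 114) (nat_lit 5) (nat_lit 110) (nat_lit 5) (nat_lit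 478) (nat_lit 454) (nat_lit 268)) (XT.lf (nat_lit 0) (nat_lit 28401719921) (nat_lit 228) (nat_lit 56632421899) (nat_lit 304) (nat_lit 25634077913) (nat_lit 106) (nat_lit 5) (nat_lit 109) (nat_lit 5) (nat_lit 110) (nat_lit 5) (nat_lit 479) (nat_lit 454) (nat_lit 267)))) (XT.nd (nat_lit 156) (nat_lit 228) (nat_lit 0) (XT.nd (nat_lit 78) (nat_lit 304) (nat_lit 0) (XT.lf (nat_lit 0) (nat_lit 95795394323) (nat_lit 228) (nat_lit 12322318779) (nat_lit 304) (nat_lit 5832352745) (nat_lit 106) (nat_lit 5) (nat_lit 109) (nat_lit 5) (nat_lit 110) (nat_lit 5) (nat_lit 480) (nat_lit 454) (nat_lit 266)) (XT.lf (nat_lit 0) (nat_lit 15820118113) (nat_lit 304) (nat_lit 67349337611) (nat_lit 76) (nat_lit 34147897865) (nat_lit 102) (nat_lit 5) (nat_lit 106) (nat_lit 5) (nat_lit 103) (nat_lit 5) (nat_lit 481) (nat_lit 454) (nat_lit 265))) (XT.nd (nat_lit 78) (nat_lit 0) (nat_lit 0) (XT.lf (nat_lit 0) (nat_lit 1018773050)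 (nat_lit 228) (nat_lit 37870367208) (nat_lit 304) (nat_lit 81932588238) (nat_lit 99) (nat_lit 5) (nat_lit 102) (nat_lit 5) (nat_lit 103) (nat_lit 5) (nat_lit 482) (nat_lit 454) (nat_lit 264)) (XT.lf (nat_lit 0) (nat_lit 64421783640) (nat_lit 304) (nat_lit 49471509825) (nat_lit 76) (nat_lit 10542520224) (nat_lit 99) (nat_lit 5) (nat_lit 103) (nat_lit 5) (nat_lit 100) (nat_lit 5) (nat_lit 483) (nat_lit 454) (nat_lit 263))))) (XT.nd (nat_lit 312) (nat_lit 684) (nat_lit 0) (XT.nd (nat_lit 156) (nat_lit 228) (nat_lit 0) (XT.nd (nat_lit 78) (nat_lit 0) (nat_lit 0) (XT.lf (nat_lit 0) (nat_lit 24540483672) (nat_lit 228) (nat_lit 67694101991) (nat_lit 304) (nat_lit 35945841198) (nat_lit 96) (nat_lit 5) (nat_lit 99) (nat_lit 5) (nat_lit 100) (nat_lit 5) (nat_lit 484) (nat_lit 454) (nat_lit 262)) (XT.lf (nat_lit 0) (nat_lit 103969978948) (nat_lit 228) (nat_lit 18305439094) (nat_lit 304) (nat_lit 9794983178)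 (nat_lit 96) (nat_lit 5) (nat_lit 99) (nat_lit 5) (nat_lit 100) (nat_lit 5) (nat_lit 485) (nat_lit 454) (nat_lit 261))) (XT.nd (nat_lit 78) (nat_lit 0) (nat_lit 0) (XT.lf (nat_lit 0) (nat_lit 18461103684) (nat_lit 228) (nat_lit 84017889463) (nat_lit 76) (nat_lit 33593941135) (nat_lit 93) (nat_lit 5) (nat_lit 96) (nat_lit 5) (nat_lit 94) (nat_lit 5) (nat_lit 486) (nat_lit 454) (nat_lit 260)) (XT.lf (nat_lit 0) (nat_lit 48584191645) (nat_lit 228) (nat_lit 3527022963) (nat_lit 76) (nat_lit 88117182130) (nat_lit 93) (nat_lit 5) (nat_lit 96) (nat_lit 5) (nat_lit 94) (nat_lit 5) (nat_lit 487) (nat_lit 454) (nat_lit 259)))) (XT.nd (nat_lit 156) (nat_lit 304) (nat_lit 0) (XT.nd (nat_lit 78) (nat_lit 152) (nat_lit 0) (XT.lf (nat_lit 0) (nat_lit 81552805760) (nat_lit 304) (nat_lit 60894238393) (nat_lit 76) (nat_lit 2077619610) (nat_lit 90) (nat_lit 5) (nat_lit 94) (nat_lit 5) (nat_lit 91) (nat_lit 5) (nat_lit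 488) (nat_lit 454) (nat_lit 258)) (XT.lf (nat_lit 0) (nat_lit 26218736330) (nat_lit 152) (nat_lit 91275068887) (nat_lit 228) (nat_lit 31475741223) (nat_lit 88) (nat_lit 5) (nat_lit 90) (nat_lit 5) (nat_lit 91) (nat_lit 5) (nat_lit 489) (nat_lit 454) (nat_lit 257))) (XT.nd (nat_lit 78) (nat_lit 228) (nat_lit 0) (XT.lf (nat_lit 0) (nat_lit 2591921475) (nat_lit 228) (nat_lit 33826058078) (nat_lit 76) (nat_lit 117165058671) (nat_lit 87) (nat_lit 5) (nat_lit 90) (nat_lit 5) (nat_lit 88) (nat_lit 5) (nat_lit 490) (nat_lit 454) (nat_lit 256)) (XT.lf (nat_lit 0) (nat_lit 38611654042) (nat_lit 304) (nat_lit 97728491327) (nat_lit 76) (nat_lit 21995935570) (nat_lit 84) (nat_lit 5) (nat_lit 88) (nat_lit 5) (nat_lit 85) (nat_lit 5) (nat_lit 491) (nat_lit 454) (nat_lit 255))))))) (XT.nd (nat_lit 1170) (nat_lit 1292) (nat_lit 0) (XT.nd (nat_lit 546) (nat_lit 836) (nat_lit 0) (XT.nd (nat_lit 234) (nat_lit 380)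 (nat_lit 0) (XT.nd (nat_lit 78) (nat_lit 304) (nat_lit 0) (XT.lf (nat_lit 0) (nat_lit 77611280918) (nat_lit 304) (nat_lit 2967839602) (nat_lit 76) (nat_lit 82688709910) (nat_lit 84) (nat_lit 5) (nat_lit 88) (nat_lit 5) (nat_lit 85) (nat_lit 5) (nat_lit 492) (nat_lit 454) (nat_lit 254)) (XT.nd (nat_lit 78) (nat_lit 152) (nat_lit 0) (XT.lf (nat_lit 0) (nat_lit 99722016121) (nat_lit 152) (nat_lit 20395470114) (nat_lit 228) (nat_lit 48250851331) (nat_lit 82) (nat_lit 5) (nat_lit 84) (nat_lit 5) (nat_lit 85) (nat_lit 5) (nat_lit 493) (nat_lit 454) (nat_lit 253)) (XT.lf (nat_lit 0) (nat_lit 34358148539) (nat_lit 152) (nat_lit 131646214250) (nat_lit 228) (nat_lit 7656739246) (nat_lit 80) (nat_lit 5) (nat_lit 82) (nat_lit 5) (nat_lit 83) (nat_lit 5) (nat_lit 494) (nat_lit 454) (nat_lit 252)))) (XT.nd (nat_lit 156) (nat_lit 152) (nat_lit 0) (XT.nd (nat_lit 78) (nat_lit 152) (nat_lit 0) (XT.lf (nat_lit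 0) (nat_lit 35363546048) (nat_lit 228) (nat_lit 35164196401) (nat_lit 76) (nat_lit 108587683974) (nat_lit 79) (nat_lit 5) (nat_lit 82) (nat_lit 5) (nat_lit 80) (nat_lit 5) (nat_lit 495) (nat_lit 454) (nat_lit 251)) (XT.lf (nat_lit 0) (nat_lit 76504049889) (nat_lit 152) (nat_lit 4967601227) (nat_lit 228) (nat_lit 103304833809) (nat_lit 77) (nat_lit 5) (nat_lit 79) (nat_lit 5) (nat_lit 80) (nat_lit 5) (nat_lit 496) (nat_lit 454) (nat_lit 250))) (XT.nd (nat_lit 78) (nat_lit 0) (nat_lit 0) (XT.lf (nat_lit 0) (nat_lit 3386601839) (nat_lit 152) (nat_lit 128153600760) (nat_lit 228) (nat_lit 59097641717) (nat_lit 75) (nat_lit 5) (nat_lit 77) (nat_lit 5) (nat_lit 78) (nat_lit 5) (nat_lit 497) (nat_lit 454) (nat_lit 249)) (XT.lf (nat_lit 0) (nat_lit 124302905553) (nat_lit 152) (nat_lit 61722734808) (nat_lit 228) (nat_lit 10670958398) (nat_lit 75) (nat_lit 5) (nat_lit 77) (nat_lit 5) (nat_lit 78) (nat_lit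 5) (nat_lit 498) (nat_lit 454) (nat_lit 248))))) (XT.nd (nat_lit 312) (nat_lit 380) (nat_lit 0) (XT.nd (nat_lit 156) (nat_lit 228) (nat_lit 0) (XT.nd (nat_lit 78) (nat_lit 0) (nat_lit 0) (XT.lf (nat_lit 0) (nat_lit 39806470446) (nat_lit 228) (nat_lit 153984681632) (nat_lit 76) (nat_lit 9190008632) (nat_lit 72) (nat_lit 5) (nat_lit 75) (nat_lit 5) (nat_lit 73) (nat_lit 5) (nat_lit 499) (nat_lit 454) (nat_lit 247)) (XT.lf (nat_lit 0) (nat_lit 94706828589) (nat_lit 228) (nat_lit 31756543148) (nat_lit 76) (nat_lit 82994948748) (nat_lit 72) (nat_lit 5) (nat_lit 75) (nat_lit 5) (nat_lit 73) (nat_lit 5) (nat_lit 500) (nat_lit 454) (nat_lit 246))) (XT.nd (nat_lit 78) (nat_lit 76) (nat_lit 0) (XT.lf (nat_lit 0) (nat_lit 99775962401) (nat_lit 152) (nat_lit 54133741750) (nat_lit 228) (nat_lit 62271759139) (nat_lit 70) (nat_lit 5) (nat_lit 72) (nat_lit 5) (nat_lit 73) (nat_lit 5) (nat_lit 501) (nat_lit 454)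 (nat_lit 245)) (XT.lf (nat_lit 0) (nat_lit 15933853682) (nat_lit 76) (nat_lit 201274542903) (nat_lit 152) (nat_lit 5975583010) (nat_lit 69) (nat_lit 5) (nat_lit 70) (nat_lit 5) (nat_lit 71) (nat_lit 4) (nat_lit 502) (nat_lit 454) (nat_lit 244)))) (XT.nd (nat_lit 156) (nat_lit 152) (nat_lit 0) (XT.nd (nat_lit 78) (nat_lit 152) (nat_lit 0) (XT.lf (nat_lit 0) (nat_lit 54325597809) (nat_lit 152) (nat_lit 73256386749) (nat_lit 76) (nat_lit 102768614516) (nat_lit 68) (nat_lit 5) (nat_lit 70) (nat_lit 5) (nat_lit 69) (nat_lit 5) (nat_lit 503) (nat_lit 454) (nat_lit 243)) (XT.lf (nat_lit 0) (nat_lit 69565123443) (nat_lit 152) (nat_lit 48961736221) (nat_lit 228) (nat_lit 119289499817) (nat_lit 66) (nat_lit 5) (nat_lit 68) (nat_lit 5) (nat_lit 69) (nat_lit 5) (nat_lit 504) (nat_lit 454) (nat_lit 242))) (XT.nd (nat_lit 78) (nat_lit 152) (nat_lit 0) (XT.lf (nat_lit 0) (nat_lit 187723318214) (nat_lit 228)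 (nat_lit 24067611782) (nat_lit 76) (nat_lit 33775221245) (nat_lit 66) (nat_lit 5) (nat_lit 69) (nat_lit 5) (nat_lit 67) (nat_lit 4) (nat_lit 505) (nat_lit 454) (nat_lit 241)) (XT.lf (nat_lit 0) (nat_lit 9352175118) (nat_lit 152) (nat_lit 123006639702) (nat_lit 76) (nat_lit 121194921744) (nat_lit 64) (nat_lit 5) (nat_lit 66) (nat_lit 5) (nat_lit 65) (nat_lit 5) (nat_lit 506) (nat_lit 454) (nat_lit 240)))))) (XT.nd (nat_lit 624) (nat_lit 532) (nat_lit 0) (XT.nd (nat_lit 312) (nat_lit 456) (nat_lit 0) (XT.nd (nat_lit 156) (nat_lit 152) (nat_lit 0) (XT.nd (nat_lit 78) (nat_lit 0) (nat_lit 0) (XT.lf (nat_lit 0) (nat_lit 31872533380) (nat_lit 152) (nat_lit 47002149830) (nat_lit 228) (nat_lit 182973023394) (nat_lit 62) (nat_lit 5) (nat_lit 64) (nat_lit 5) (nat_lit 65) (nat_lit 5) (nat_lit 507) (nat_lit 454) (nat_lit 239)) (XT.lf (nat_lit 0) (nat_lit 154655850091) (nat_lit 228) (nat_lit 72386099357)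 (nat_lit 76) (nat_lit 43375299038) (nat_lit 62) (nat_lit 5) (nat_lit 65) (nat_lit 5) (nat_lit 63) (nat_lit 4) (nat_lit 508) (nat_lit 454) (nat_lit 238))) (XT.nd (nat_lit 78) (nat_lit 76) (nat_lit 0) (XT.lf (nat_lit 0) (nat_lit 95363700659) (nat_lit 76) (nat_lit 141121559823) (nat_lit 152) (nat_lit 42817047733) (nat_lit 61) (nat_lit 5) (nat_lit 62) (nat_lit 5) (nat_lit 63) (nat_lit 4) (nat_lit 509) (nat_lit 454) (nat_lit 237)) (XT.lf (nat_lit 0) (nat_lit 33939279390) (nat_lit 152) (nat_lit 15104100461) (nat_lit 76) (nat_lit 239499587616) (nat_lit 60) (nat_lit 5) (nat_lit 62) (nat_lit 5) (nat_lit 61) (nat_lit 5) (nat_lit 510) (nat_lit 454) (nat_lit 236)))) (XT.nd (nat_lit 156) (nat_lit 228) (nat_lit 0) (XT.nd (nat_lit 78) (nat_lit 76) (nat_lit 0) (XT.lf (nat_lit 0) (nat_lit 116496588331) (nat_lit 228) (nat_lit 132069609950) (nat_lit 76) (nat_lit 49474260517) (nat_lit 58) (nat_lit 5) (nat_lit 61)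 (nat_lit 5) (nat_lit 59) (nat_lit 4) (nat_lit 511) (nat_lit 454) (nat_lit 235)) (XT.lf (nat_lit 0) (nat_lit 49396281296) (nat_lit 76) (nat_lit 155620451146) (nat_lit 152) (nat_lit 102904343775) (nat_lit 57) (nat_lit 5) (nat_lit 58) (nat_lit 5) (nat_lit 59) (nat_lit 4) (nat_lit 512) (nat_lit 454) (nat_lit 234))) (XT.nd (nat_lit 78) (nat_lit 228) (nat_lit 0) (XT.lf (nat_lit 0) (nat_lit 244520216506) (nat_lit 76) (nat_lit 55679111129) (nat_lit 152) (nat_lit 17984574686) (nat_lit 57) (nat_lit 5) (nat_lit 58) (nat_lit 5) (nat_lit 59) (nat_lit 4) (nat_lit 513) (nat_lit 454) (nat_lit 233)) (XT.lf (nat_lit 0) (nat_lit 71646228939) (nat_lit 228) (nat_lit 206352632342) (nat_lit 76) (nat_lit 50768277145) (nat_lit 54) (nat_lit 5) (nat_lit 57) (nat_lit 5) (nat_lit 55) (nat_lit 4) (nat_lit 514) (nat_lit 454) (nat_lit 232))))) (XT.nd (nat_lit 312) (nat_lit 304) (nat_lit 0) (XT.nd (nat_lit 156) (nat_lit 152)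 (nat_lit 0) (XT.nd (nat_lit 78) (nat_lit 76) (nat_lit 0) (XT.lf (nat_lit 0) (nat_lit 167334716165) (nat_lit 228) (nat_lit 10191566049) (nat_lit 76) (nat_lit 162229485521) (nat_lit 54) (nat_lit 5) (nat_lit 57) (nat_lit 5) (nat_lit 55) (nat_lit 4) (nat_lit 515) (nat_lit 454) (nat_lit 231)) (XT.lf (nat_lit 0) (nat_lit 202250452140) (nat_lit 76) (nat_lit 68714671282) (nat_lit 152) (nat_lit 80170830310) (nat_lit 53) (nat_lit 5) (nat_lit 54) (nat_lit 5) (nat_lit 55) (nat_lit 4) (nat_lit 516) (nat_lit 454) (nat_lit 230))) (XT.nd (nat_lit 78) (nat_lit 0) (nat_lit 0) (XT.lf (nat_lit 0) (nat_lit 18072770487) (nat_lit 152) (nat_lit 299358775245) (nat_lit 76) (nat_lit 45544817255) (nat_lit 51) (nat_lit 5) (nat_lit 53) (nat_lit 5) (nat_lit 52) (nat_lit 4) (nat_lit 517) (nat_lit 454) (nat_lit 229)) (XT.lf (nat_lit 0) (nat_lit 122223339710) (nat_lit 152) (nat_lit 85850381904) (nat_lit 76) (nat_lit 167084904602)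 (nat_lit 51) (nat_lit 5) (nat_lit 53) (nat_lit 5) (nat_lit 52) (nat_lit 4) (nat_lit 518) (nat_lit 454) (nat_lit 228)))) (XT.nd (nat_lit 156) (nat_lit 228) (nat_lit 0) (XT.nd (nat_lit 78) (nat_lit 0) (nat_lit 0) (XT.lf (nat_lit 0) (nat_lit 142906984778) (nat_lit 76) (nat_lit 90905441381) (nat_lit 152) (nat_lit 154026027012) (nat_lit 50) (nat_lit 5) (nat_lit 51) (nat_lit 5) (nat_lit 52) (nat_lit 4) (nat_lit 519) (nat_lit 454) (nat_lit 227)) (XT.lf (nat_lit 0) (nat_lit 352960033235) (nat_lit 152) (nat_lit 15522525012) (nat_lit 0) (nat_lit 32570759918) (nat_lit 50) (nat_lit 5) (nat_lit 52) (nat_lit 4) (nat_lit 50) (nat_lit 4) (nat_lit 520) (nat_lit 454) (nat_lit 226))) (XT.nd (nat_lit 78) (nat_lit 76) (nat_lit 0) (XT.lf (nat_lit 0) (nat_lit 66299784351) (nat_lit 152) (nat_lit 184474940460) (nat_lit 76) (nat_lit 163845693065) (nat_lit 48) (nat_lit 5) (nat_lit 50) (nat_lit 5) (nat_lit 49) (nat_lit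 4) (nat_lit 521) (nat_lit 454) (nat_lit 225)) (XT.lf (nat_lit 0) (nat_lit 60940463663) (nat_lit 76) (nat_lit 125074256526) (nat_lit 152) (nat_lit 242750808518) (nat_lit 47) (nat_lit 5) (nat_lit 48) (nat_lit 5) (nat_lit 49) (nat_lit 4) (nat_lit 522) (nat_lit 454) (nat_lit 224))))))))
noncomputable def xc201 : XT := (XT.nd (nat_lit 57798) (nat_lit 0) (nat_lit 4180) (XT.nd (nat_lit 1170) (nat_lit 456) (nat_lit 0) (XT.nd (nat_lit 546) (nat_lit 456) (nat_lit 0) (XT.nd (nat_lit 234) (nat_lit 304) (nat_lit 0) (XT.nd (nat_lit 78) (nat_lit 152) (nat_lit 0) (XT.lf (nat_lit 0) (nat_lit 314998515964) (nat_lit 152) (nat_lit 118589961659) (nat_lit 0) (nat_lit 9865261806) (nat_lit 47) (nat_lit 5) (nat_lit 49) (nat_lit 4) (nat_lit 47) (nat_lit 4) (nat_lit 523) (nat_lit 454) (nat_lit 223)) (XT.nd (nat_lit 78) (nat_lit 76) (nat_lit 0) (XT.lf (nat_lit 0) (nat_lit 145720122862) (nat_lit 76) (nat_lit 309036705404)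 (nat_lit 76) (nat_lit 3903266086) (nat_lit 46) (nat_lit 4) (nat_lit 47) (nat_lit 5) (nat_lit 47) (nat_lit 4) (nat_lit 524) (nat_lit 454) (nat_lit 222)) (XT.lf (nat_lit 0) (nat_lit 124856588056) (nat_lit 152) (nat_lit 49177610144) (nat_lit 76) (nat_lit 300391467476) (nat_lit 45) (nat_lit 5) (nat_lit 47) (nat_lit 5) (nat_lit 46) (nat_lit 4) (nat_lit 525) (nat_lit 454) (nat_lit 221)))) (XT.nd (nat_lit 156) (nat_lit 152) (nat_lit 0) (XT.nd (nat_lit 78) (nat_lit 76) (nat_lit 0) (XT.lf (nat_lit 0) (nat_lit 235237639953) (nat_lit 76) (nat_lit 28358176417) (nat_lit 152) (nat_lit 227196871964) (nat_lit 44) (nat_lit 5) (nat_lit 45) (nat_lit 5) (nat_lit 46) (nat_lit 4) (nat_lit 526) (nat_lit 454) (nat_lit 220)) (XT.lf (nat_lit 0) (nat_lit 26534488112) (nat_lit 76) (nat_lit 385943514966) (nat_lit 76) (nat_lit 95339759200) (nat_lit 43) (nat_lit 4) (nat_lit 44) (nat_lit 5) (nat_lit 44) (nat_lit 4) (nat_lit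 527) (nat_lit 454) (nat_lit 219))) (XT.nd (nat_lit 78) (nat_lit 76) (nat_lit 0) (XT.lf (nat_lit 0) (nat_lit 46594038544) (nat_lit 152) (nat_lit 195086121829) (nat_lit 76) (nat_lit 283737094727) (nat_lit 42) (nat_lit 5) (nat_lit 44) (nat_lit 5) (nat_lit 43) (nat_lit 4) (nat_lit 528) (nat_lit 454) (nat_lit 218)) (XT.lf (nat_lit 0) (nat_lit 107291643232) (nat_lit 76) (nat_lit 86803811521) (nat_lit 152) (nat_lit 349639371984) (nat_lit 41) (nat_lit 5) (nat_lit 42) (nat_lit 5) (nat_lit 43) (nat_lit 4) (nat_lit 529) (nat_lit 454) (nat_lit 217))))) (XT.nd (nat_lit 312) (nat_lit 228) (nat_lit 0) (XT.nd (nat_lit 156) (nat_lit 152) (nat_lit 0) (XT.nd (nat_lit 78) (nat_lit 76) (nat_lit 0) (XT.lf (nat_lit 0) (nat_lit 353513534213) (nat_lit 152) (nat_lit 132480005677) (nat_lit 0) (nat_lit 76747657448) (nat_lit 41) (nat_lit 5) (nat_lit 43) (nat_lit 4) (nat_lit 41) (nat_lit 4) (nat_lit 530) (nat_lit 454) (nat_lit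 216)) (XT.lf (nat_lit 0) (nat_lit 191383498141) (nat_lit 76) (nat_lit 333929919721) (nat_lit 76) (nat_lit 57163923599) (nat_lit 40) (nat_lit 4) (nat_lit 41) (nat_lit 5) (nat_lit 41) (nat_lit 4) (nat_lit 531) (nat_lit 454) (nat_lit 215))) (XT.nd (nat_lit 78) (nat_lit 76) (nat_lit 0) (XT.lf (nat_lit 0) (nat_lit 101502514550) (nat_lit 152) (nat_lit 68685954965) (nat_lit 76) (nat_lit 432817792926) (nat_lit 39) (nat_lit 5) (nat_lit 41) (nat_lit 5) (nat_lit 40) (nat_lit 4) (nat_lit 532) (nat_lit 454) (nat_lit 214)) (XT.lf (nat_lit 0) (nat_lit 270631858454) (nat_lit 152) (nat_lit 346615397899) (nat_lit 0) (nat_lit 7044984117) (nat_lit 38) (nat_lit 5) (nat_lit 40) (nat_lit 4) (nat_lit 38) (nat_lit 4) (nat_lit 533) (nat_lit 454) (nat_lit 213)))) (XT.nd (nat_lit 156) (nat_lit 152) (nat_lit 0) (XT.nd (nat_lit 78) (nat_lit 76) (nat_lit 0) (XT.lf (nat_lit 0) (nat_lit 452189805306) (nat_lit 152) (nat_lit 5651272535)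 (nat_lit 0) (nat_lit 188602832775) (nat_lit 38) (nat_lit 5) (nat_lit 40) (nat_lit 4) (nat_lit 38) (nat_lit 4) (nat_lit 534) (nat_lit 454) (nat_lit 212)) (XT.lf (nat_lit 0) (nat_lit 364011437812) (nat_lit 76) (nat_lit 284497318581) (nat_lit 76) (nat_lit 20910252532) (nat_lit 37) (nat_lit 4) (nat_lit 38) (nat_lit 5) (nat_lit 38) (nat_lit 4) (nat_lit 535) (nat_lit 454) (nat_lit 211))) (XT.nd (nat_lit 78) (nat_lit 0) (nat_lit 0) (XT.lf (nat_lit 0) (nat_lit 58159819155) (nat_lit 76) (nat_lit 98789924390) (nat_lit 152) (nat_lit 536417097758) (nat_lit 35) (nat_lit 5) (nat_lit 36) (nat_lit 5) (nat_lit 37) (nat_lit 4) (nat_lit 536) (nat_lit 454) (nat_lit 210)) (XT.lf (nat_lit 0) (nat_lit 349758897963) (nat_lit 152) (nat_lit 269674652426) (nat_lit 0) (nat_lit 98723431354) (nat_lit 35) (nat_lit 5) (nat_lit 37) (nat_lit 4) (nat_lit 35) (nat_lit 4) (nat_lit 537) (nat_lit 454) (nat_lit 209)))))) (XT.nd (nat_lit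 56004) (nat_lit 0) (nat_lit 8968) (XT.nd (nat_lit 312) (nat_lit 228) (nat_lit 0) (XT.nd (nat_lit 156) (nat_lit 76) (nat_lit 0) (XT.nd (nat_lit 78) (nat_lit 76) (nat_lit 0) (XT.lf (nat_lit 0) (nat_lit 116234820385) (nat_lit 76) (nat_lit 439407822856) (nat_lit 76) (nat_lit 188372279310) (nat_lit 34) (nat_lit 4) (nat_lit 35) (nat_lit 5) (nat_lit 35) (nat_lit 4) (nat_lit 538) (nat_lit 454) (nat_lit 208)) (XT.lf (nat_lit 0) (nat_lit 5275672952) (nat_lit 152) (nat_lit 240220487266) (nat_lit 76) (nat_lit 525436998217) (nat_lit 33) (nat_lit 5) (nat_lit 35) (nat_lit 5) (nat_lit 34) (nat_lit 4) (nat_lit 539) (nat_lit 454) (nat_lit 207))) (XT.nd (nat_lit 78) (nat_lit 0) (nat_lit 0) (XT.lf (nat_lit 0) (nat_lit 169039108493) (nat_lit 76) (nat_lit 35875425701) (nat_lit 152) (nat_lit 593996415658) (nat_lit 32) (nat_lit 5) (nat_lit 33) (nat_lit 5) (nat_lit 34) (nat_lit 4) (nat_lit 540) (nat_lit 454) (nat_lit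 206)) (XT.lf (nat_lit 0) (nat_lit 421546452040) (nat_lit 152) (nat_lit 223925840669) (nat_lit 0) (nat_lit 182464782452) (nat_lit 32) (nat_lit 5) (nat_lit 34) (nat_lit 4) (nat_lit 32) (nat_lit 4) (nat_lit 541) (nat_lit 454) (nat_lit 205)))) (XT.nd (nat_lit 156) (nat_lit 76) (nat_lit 0) (XT.nd (nat_lit 78) (nat_lit 76) (nat_lit 0) (XT.lf (nat_lit 0) (nat_lit 208399188015) (nat_lit 76) (nat_lit 444452481698) (nat_lit 76) (nat_lit 205370751828) (nat_lit 31) (nat_lit 4) (nat_lit 32) (nat_lit 5) (nat_lit 32) (nat_lit 4) (nat_lit 542) (nat_lit 454) (nat_lit 204)) (XT.lf (nat_lit 0) (nat_lit 9372021941) (nat_lit 152) (nat_lit 219869142303) (nat_lit 76) (nat_lit 660583703854) (nat_lit 30) (nat_lit 5) (nat_lit 32) (nat_lit 5) (nat_lit 31) (nat_lit 4) (nat_lit 543) (nat_lit 454) (nat_lit 203))) (XT.nd (nat_lit 78) (nat_lit 0) (nat_lit 0) (XT.lf (nat_lit 0) (nat_lit 231695411863) (nat_lit 152) (nat_lit 686958004849)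 (nat_lit 0) (nat_lit 3998419519) (nat_lit 29) (nat_lit 5) (nat_lit 31) (nat_lit 4) (nat_lit 29) (nat_lit 4) (nat_lit 544) (nat_lit 454) (nat_lit 202)) (XT.lf (nat_lit 0) (nat_lit 472677548420) (nat_lit 152) (nat_lit 239084969012) (nat_lit 0) (nat_lit 244980506482) (nat_lit 29) (nat_lit 5) (nat_lit 31) (nat_lit 4) (nat_lit 29) (nat_lit 4) (nat_lit 545) (nat_lit 454) (nat_lit 201))))) (XT.nd (nat_lit 312) (nat_lit 0) (nat_lit 152) (XT.nd (nat_lit 156) (nat_lit 0) (nat_lit 76) (XT.nd (nat_lit 78) (nat_lit 0) (nat_lit 0) (XT.lf (nat_lit 0) (nat_lit 12231584325) (nat_lit 836) (nat_lit 8742974434) (nat_lit 836) (nat_lit 8742974434) (nat_lit 147) (nat_lit 3) (nat_lit 158) (nat_lit 3) (nat_lit 158) (nat_lit 5) (nat_lit 455) (nat_lit 455) (nat_lit 290)) (XT.lf (nat_lit 76) (nat_lit 12387359239) (nat_lit 0) (nat_lit 12898994736) (nat_lit 836) (nat_lit 35624005951) (nat_lit 148) (nat_lit 5) (nat_lit 147)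 (nat_lit 3) (nat_lit 158) (nat_lit 5) (nat_lit 456) (nat_lit 455) (nat_lit 289))) (XT.nd (nat_lit 78) (nat_lit 0) (nat_lit 0) (XT.lf (nat_lit 0) (nat_lit 26725361556) (nat_lit 760) (nat_lit 18363602320) (nat_lit 836) (nat_lit 17341721296) (nat_lit 148) (nat_lit 5) (nat_lit 158) (nat_lit 5) (nat_lit 159) (nat_lit 5) (nat_lit 457) (nat_lit 455) (nat_lit 288)) (XT.lf (nat_lit 76) (nat_lit 13524509576) (nat_lit 0) (nat_lit 15133313205) (nat_lit 836) (nat_lit 35348128909) (nat_lit 149) (nat_lit 5) (nat_lit 148) (nat_lit 5) (nat_lit 159) (nat_lit 5) (nat_lit 458) (nat_lit 455) (nat_lit 287)))) (XT.nd (nat_lit 156) (nat_lit 0) (nat_lit 76) (XT.nd (nat_lit 78) (nat_lit 0) (nat_lit 0) (XT.lf (nat_lit 0) (nat_lit 31256742637) (nat_lit 760) (nat_lit 18260478465) (nat_lit 836) (nat_lit 16114268815) (nat_lit 149) (nat_lit 5) (nat_lit 159) (nat_lit 5) (nat_lit 160) (nat_lit 5) (nat_lit 459) (nat_lit 455) (nat_lit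 286)) (XT.lf (nat_lit 76) (nat_lit 15829404622) (nat_lit 0) (nat_lit 18650420871) (nat_lit 836) (nat_lit 32833768868) (nat_lit 150) (nat_lit 5) (nat_lit 149) (nat_lit 5) (nat_lit 160) (nat_lit 5) (nat_lit 460) (nat_lit 455) (nat_lit 285))) (XT.nd (nat_lit 78) (nat_lit 0) (nat_lit 0) (XT.lf (nat_lit 0) (nat_lit 38392240957) (nat_lit 760) (nat_lit 17027218562) (nat_lit 836) (nat_lit 13633935734) (nat_lit 150) (nat_lit 5) (nat_lit 160) (nat_lit 5) (nat_lit 161) (nat_lit 5) (nat_lit 461) (nat_lit 455) (nat_lit 284)) (XT.lf (nat_lit 76) (nat_lit 19469306413) (nat_lit 0) (nat_lit 23639762935) (nat_lit 836) (nat_lit 27740677374) (nat_lit 151) (nat_lit 5) (nat_lit 150) (nat_lit 5) (nat_lit 161) (nat_lit 5) (nat_lit 462) (nat_lit 455) (nat_lit 283))))))) (XT.nd (nat_lit 1170) (nat_lit 2204) (nat_lit 0) (XT.nd (nat_lit 546) (nat_lit 1368) (nat_lit 0) (XT.nd (nat_lit 234) (nat_lit 1520) (nat_lit 0) (XT.nd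 (nat_lit 78) (nat_lit 0) (nat_lit 0) (XT.lf (nat_lit 0) (nat_lit 48505840076) (nat_lit 760) (nat_lit 14497042638) (nat_lit 836) (nat_lit 9710828141) (nat_lit 151) (nat_lit 5) (nat_lit 161) (nat_lit 5) (nat_lit 162) (nat_lit 5) (nat_lit 463) (nat_lit 455) (nat_lit 282)) (XT.nd (nat_lit 78) (nat_lit 0) (nat_lit 76) (XT.lf (nat_lit 76) (nat_lit 24630630056) (nat_lit 0) (nat_lit 30313065511) (nat_lit 836) (nat_lit 19688615443) (nat_lit 152) (nat_lit 5) (nat_lit 151) (nat_lit 5) (nat_lit 162) (nat_lit 5) (nat_lit 464) (nat_lit 455) (nat_lit 281)) (XT.lf (nat_lit 0) (nat_lit 62014797453) (nat_lit 760) (nat_lit 10483949570) (nat_lit 76) (nat_lit 4132526591) (nat_lit 152) (nat_lit 5) (nat_lit 162) (nat_lit 5) (nat_lit 153) (nat_lit 5) (nat_lit 465) (nat_lit 455) (nat_lit 280)))) (XT.nd (nat_lit 156) (nat_lit 836) (nat_lit 0) (XT.nd (nat_lit 78) (nat_lit 0) (nat_lit 0) (XT.lf (nat_lit 0) (nat_lit 31520909775)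 (nat_lit 760) (nat_lit 38906836205) (nat_lit 836) (nat_lit 8253023907) (nat_lit 142) (nat_lit 5) (nat_lit 152) (nat_lit 5) (nat_lit 153) (nat_lit 5) (nat_lit 466) (nat_lit 455) (nat_lit 279)) (XT.lf (nat_lit 0) (nat_lit 75989313187) (nat_lit 760) (nat_lit 3448832072) (nat_lit 836) (nat_lit 1385755659) (nat_lit 142) (nat_lit 5) (nat_lit 152) (nat_lit 5) (nat_lit 153) (nat_lit 5) (nat_lit 467) (nat_lit 455) (nat_lit 278))) (XT.nd (nat_lit 78) (nat_lit 380) (nat_lit 0) (XT.lf (nat_lit 0) (nat_lit 6814436897) (nat_lit 456) (nat_lit 42755291845) (nat_lit 76) (nat_lit 33441113062) (nat_lit 136) (nat_lit 5) (nat_lit 142) (nat_lit 5) (nat_lit 137) (nat_lit 5) (nat_lit 468) (nat_lit 455) (nat_lit 277)) (XT.lf (nat_lit 0) (nat_lit 2462528498) (nat_lit 380) (nat_lit 13093044811) (nat_lit 456) (nat_lit 69741545420) (nat_lit 131) (nat_lit 5) (nat_lit 136) (nat_lit 5) (nat_lit 137) (nat_lit 5) (nat_lit 469)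 (nat_lit 455) (nat_lit 276))))) (XT.nd (nat_lit 312) (nat_lit 684) (nat_lit 0) (XT.nd (nat_lit 156) (nat_lit 304) (nat_lit 0) (XT.nd (nat_lit 78) (nat_lit 380) (nat_lit 0) (XT.lf (nat_lit 0) (nat_lit 25862601276) (nat_lit 456) (nat_lit 36642045052) (nat_lit 76) (nat_lit 25136621528) (nat_lit 131) (nat_lit 5) (nat_lit 137) (nat_lit 5) (nat_lit 132) (nat_lit 5) (nat_lit 470) (nat_lit 455) (nat_lit 275)) (XT.lf (nat_lit 0) (nat_lit 12029834093) (nat_lit 380) (nat_lit 25056961939) (nat_lit 456) (nat_lit 52995737722) (nat_lit 126) (nat_lit 5) (nat_lit 131) (nat_lit 5) (nat_lit 132) (nat_lit 5) (nat_lit 471) (nat_lit 455) (nat_lit 274))) (XT.nd (nat_lit 78) (nat_lit 304) (nat_lit 0) (XT.lf (nat_lit 0) (nat_lit 49724986641) (nat_lit 456) (nat_lit 28440961726) (nat_lit 76) (nat_lit 14437275359) (nat_lit 126) (nat_lit 5) (nat_lit 132) (nat_lit 5) (nat_lit 127) (nat_lit 5) (nat_lit 472) (nat_lit 455) (nat_lit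 273)) (XT.lf (nat_lit 0) (nat_lit 24008340995) (nat_lit 304) (nat_lit 39771758205) (nat_lit 380) (nat_lit 31430598453) (nat_lit 122) (nat_lit 5) (nat_lit 126) (nat_lit 5) (nat_lit 127) (nat_lit 5) (nat_lit 473) (nat_lit 455) (nat_lit 272)))) (XT.nd (nat_lit 156) (nat_lit 380) (nat_lit 0) (XT.nd (nat_lit 78) (nat_lit 304) (nat_lit 0) (XT.lf (nat_lit 0) (nat_lit 79035411120) (nat_lit 380) (nat_lit 17873993766) (nat_lit 76) (nat_lit 1014268279) (nat_lit 122) (nat_lit 5) (nat_lit 127) (nat_lit 5) (nat_lit 123) (nat_lit 5) (nat_lit 474) (nat_lit 455) (nat_lit 271)) (XT.lf (nat_lit 0) (nat_lit 38707003804) (nat_lit 304) (nat_lit 57602255051) (nat_lit 380) (nat_lit 4400250158) (nat_lit 118) (nat_lit 5) (nat_lit 122) (nat_lit 5) (nat_lit 123) (nat_lit 5) (nat_lit 475) (nat_lit 455) (nat_lit 270))) (XT.nd (nat_lit 78) (nat_lit 304) (nat_lit 0) (XT.lf (nat_lit 0) (nat_lit 10773229448) (nat_lit 380) (nat_lit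 5056336761) (nat_lit 76) (nat_lit 87781273908) (nat_lit 117) (nat_lit 5) (nat_lit 122) (nat_lit 5) (nat_lit 118) (nat_lit 5) (nat_lit 476) (nat_lit 455) (nat_lit 269)) (XT.lf (nat_lit 0) (nat_lit 27891960770) (nat_lit 380) (nat_lit 50591035006) (nat_lit 76) (nat_lit 28103912551) (nat_lit 113) (nat_lit 5) (nat_lit 118) (nat_lit 5) (nat_lit 114) (nat_lit 5) (nat_lit 477) (nat_lit 455) (nat_lit 268)))))) (XT.nd (nat_lit 624) (nat_lit 912) (nat_lit 0) (XT.nd (nat_lit 312) (nat_lit 760) (nat_lit 0) (XT.nd (nat_lit 156) (nat_lit 228) (nat_lit 0) (XT.nd (nat_lit 78) (nat_lit 0) (nat_lit 0) (XT.lf (nat_lit 0) (nat_lit 10647995076) (nat_lit 304) (nat_lit 35730910771) (nat_lit 380) (nat_lit 63307260300) (nat_lit 109) (nat_lit 5) (nat_lit 113) (nat_lit 5) (nat_lit 114) (nat_lit 5) (nat_lit 478) (nat_lit 455) (nat_lit 267)) (XT.lf (nat_lit 0) (nat_lit 66803529349) (nat_lit 380) (nat_lit 36349858842) (nat_lit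 76) (nat_lit 9736332164) (nat_lit 109) (nat_lit 5) (nat_lit 114) (nat_lit 5) (nat_lit 110) (nat_lit 5) (nat_lit 479) (nat_lit 455) (nat_lit 266))) (XT.nd (nat_lit 78) (nat_lit 0) (nat_lit 0) (XT.lf (nat_lit 0) (nat_lit 29841610949) (nat_lit 228) (nat_lit 59458968011) (nat_lit 304) (nat_lit 26900313619) (nat_lit 106) (nat_lit 5) (nat_lit 109) (nat_lit 5) (nat_lit 110) (nat_lit 5) (nat_lit 480) (nat_lit 455) (nat_lit 265)) (XT.lf (nat_lit 0) (nat_lit 100604025975) (nat_lit 228) (nat_lit 12933601402) (nat_lit 304) (nat_lit 6109238773) (nat_lit 106) (nat_lit 5) (nat_lit 109) (nat_lit 5) (nat_lit 110) (nat_lit 5) (nat_lit 481) (nat_lit 455) (nat_lit 264)))) (XT.nd (nat_lit 156) (nat_lit 228) (nat_lit 0) (XT.nd (nat_lit 78) (nat_lit 228) (nat_lit 0) (XT.lf (nat_lit 0) (nat_lit 16625082404) (nat_lit 304) (nat_lit 70697166432) (nat_lit 76) (nat_lit 35860273099) (nat_lit 102) (nat_lit 5) (nat_lit 106)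 (nat_lit 5) (nat_lit 103) (nat_lit 5) (nat_lit 482) (nat_lit 455) (nat_lit 263)) (XT.lf (nat_lit 0) (nat_lit 1089033019) (nat_lit 228) (nat_lit 39758159612) (nat_lit 304) (nat_lit 86014941176) (nat_lit 99) (nat_lit 5) (nat_lit 102) (nat_lit 5) (nat_lit 103) (nat_lit 5) (nat_lit 483) (nat_lit 455) (nat_lit 262))) (XT.nd (nat_lit 78) (nat_lit 228) (nat_lit 0) (XT.lf (nat_lit 0) (nat_lit 67655905925) (nat_lit 304) (nat_lit 51926120522) (nat_lit 76) (nat_lit 11074924988) (nat_lit 99) (nat_lit 5) (nat_lit 103) (nat_lit 5) (nat_lit 100) (nat_lit 5) (nat_lit 484) (nat_lit 455) (nat_lit 261)) (XT.lf (nat_lit 0) (nat_lit 25786166765) (nat_lit 228) (nat_lit 71072851978) (nat_lit 304) (nat_lit 37729793049) (nat_lit 96) (nat_lit 5) (nat_lit 99) (nat_lit 5) (nat_lit 100) (nat_lit 5) (nat_lit 485) (nat_lit 455) (nat_lit 260))))) (XT.nd (nat_lit 312) (nat_lit 456) (nat_lit 0) (XT.nd (nat_lit 156) (nat_lit 228)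 (nat_lit 0) (XT.nd (nat_lit 78) (nat_lit 228) (nat_lit 0) (XT.lf (nat_lit 0) (nat_lit 109186248286) (nat_lit 228) (nat_lit 19215039513) (nat_lit 304) (nat_lit 10272027377) (nat_lit 96) (nat_lit 5) (nat_lit 99) (nat_lit 5) (nat_lit 100) (nat_lit 5) (nat_lit 486) (nat_lit 455) (nat_lit 259)) (XT.lf (nat_lit 0) (nat_lit 19396242796) (nat_lit 228) (nat_lit 88200390351) (nat_lit 76) (nat_lit 35279342598) (nat_lit 93) (nat_lit 5) (nat_lit 96) (nat_lit 5) (nat_lit 94) (nat_lit 5) (nat_lit 487) (nat_lit 455) (nat_lit 258))) (XT.nd (nat_lit 78) (nat_lit 228) (nat_lit 0) (XT.lf (nat_lit 0) (nat_lit 51024909730) (nat_lit 228) (nat_lit 3685856411) (nat_lit 76) (nat_lit 92528474004) (nat_lit 93) (nat_lit 5) (nat_lit 96) (nat_lit 5) (nat_lit 94) (nat_lit 5) (nat_lit 488) (nat_lit 455) (nat_lit 257)) (XT.lf (nat_lit 0) (nat_lit 85641769380) (nat_lit 304) (nat_lit 63921246484) (nat_lit 76) (nat_lit 2187313962)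 (nat_lit 90) (nat_lit 5) (nat_lit 94) (nat_lit 5) (nat_lit 91) (nat_lit 5) (nat_lit 489) (nat_lit 455) (nat_lit 256)))) (XT.nd (nat_lit 156) (nat_lit 228) (nat_lit 0) (XT.nd (nat_lit 78) (nat_lit 76) (nat_lit 0) (XT.lf (nat_lit 0) (nat_lit 27547091429) (nat_lit 152) (nat_lit 95832460123) (nat_lit 228) (nat_lit 33037918494) (nat_lit 88) (nat_lit 5) (nat_lit 90) (nat_lit 5) (nat_lit 91) (nat_lit 5) (nat_lit 490) (nat_lit 455) (nat_lit 255)) (XT.lf (nat_lit 0) (nat_lit 2732220600) (nat_lit 228) (nat_lit 35500417424) (nat_lit 76) (nat_lit 123029016133) (nat_lit 87) (nat_lit 5) (nat_lit 90) (nat_lit 5) (nat_lit 88) (nat_lit 5) (nat_lit 491) (nat_lit 455) (nat_lit 254))) (XT.nd (nat_lit 78) (nat_lit 0) (nat_lit 0) (XT.lf (nat_lit 0) (nat_lit 40552787454) (nat_lit 304) (nat_lit 102597819207) (nat_lit 76) (nat_lit 23101750001) (nat_lit 84) (nat_lit 5) (nat_lit 88) (nat_lit 5) (nat_lit 85) (nat_lit 5)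 (nat_lit 492) (nat_lit 455) (nat_lit 253)) (XT.lf (nat_lit 0) (nat_lit 81501893259) (nat_lit 304) (nat_lit 3099949023) (nat_lit 76) (nat_lit 86828876504) (nat_lit 84) (nat_lit 5) (nat_lit 88) (nat_lit 5) (nat_lit 85) (nat_lit 5) (nat_lit 493) (nat_lit 455) (nat_lit 252))))))))
noncomputable def xc202 : XT := (XT.nd (nat_lit 2418) (nat_lit 1368) (nat_lit 0) (XT.nd (nat_lit 1170) (nat_lit 1140) (nat_lit 0) (XT.nd (nat_lit 546) (nat_lit 760) (nat_lit 0) (XT.nd (nat_lit 234) (nat_lit 532) (nat_lit 0) (XT.nd (nat_lit 78) (nat_lit 228) (nat_lit 0) (XT.lf (nat_lit 0) (nat_lit 104724136863) (nat_lit 152) (nat_lit 21409043605) (nat_lit 228) (nat_lit 50653082266) (nat_lit 82) (nat_lit 5) (nat_lit 84) (nat_lit 5) (nat_lit 85) (nat_lit 5) (nat_lit 494) (nat_lit 455) (nat_lit 251)) (XT.nd (nat_lit 78) (nat_lit 76) (nat_lit 0) (XT.lf (nat_lit 0) (nat_lit 36092206058) (nat_lit 152) (nat_lit 138222071516) (nat_lit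 228) (nat_lit 8029394051) (nat_lit 80) (nat_lit 5) (nat_lit 82) (nat_lit 5) (nat_lit 83) (nat_lit 5) (nat_lit 495) (nat_lit 455) (nat_lit 250)) (XT.lf (nat_lit 0) (nat_lit 37141110269) (nat_lit 228) (nat_lit 36906714190) (nat_lit 76) (nat_lit 114022903322) (nat_lit 79) (nat_lit 5) (nat_lit 82) (nat_lit 5) (nat_lit 80) (nat_lit 5) (nat_lit 496) (nat_lit 455) (nat_lit 249)))) (XT.nd (nat_lit 156) (nat_lit 228) (nat_lit 0) (XT.nd (nat_lit 78) (nat_lit 152) (nat_lit 0) (XT.lf (nat_lit 0) (nat_lit 80344691316) (nat_lit 152) (nat_lit 5209723323) (nat_lit 228) (nat_lit 108460434896) (nat_lit 77) (nat_lit 5) (nat_lit 79) (nat_lit 5) (nat_lit 80) (nat_lit 5) (nat_lit 497) (nat_lit 455) (nat_lit 248)) (XT.lf (nat_lit 0) (nat_lit 3571477943) (nat_lit 152) (nat_lit 134554814332) (nat_lit 228) (nat_lit 62042989719) (nat_lit 75) (nat_lit 5) (nat_lit 77) (nat_lit 5) (nat_lit 78) (nat_lit 5) (nat_lit 498) (nat_lit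 455) (nat_lit 247))) (XT.nd (nat_lit 78) (nat_lit 228) (nat_lit 0) (XT.lf (nat_lit 0) (nat_lit 130532856557) (nat_lit 152) (nat_lit 64802713010) (nat_lit 228) (nat_lit 11195426238) (nat_lit 75) (nat_lit 5) (nat_lit 77) (nat_lit 5) (nat_lit 78) (nat_lit 5) (nat_lit 499) (nat_lit 455) (nat_lit 246)) (XT.lf (nat_lit 0) (nat_lit 41805494374) (nat_lit 228) (nat_lit 161668729322) (nat_lit 76) (nat_lit 9655559545) (nat_lit 72) (nat_lit 5) (nat_lit 75) (nat_lit 5) (nat_lit 73) (nat_lit 5) (nat_lit 500) (nat_lit 455) (nat_lit 245))))) (XT.nd (nat_lit 312) (nat_lit 456) (nat_lit 0) (XT.nd (nat_lit 156) (nat_lit 152) (nat_lit 0) (XT.nd (nat_lit 78) (nat_lit 152) (nat_lit 0) (XT.lf (nat_lit 0) (nat_lit 99450456120) (nat_lit 228) (nat_lit 33329907075) (nat_lit 76) (nat_lit 87150458549) (nat_lit 72) (nat_lit 5) (nat_lit 75) (nat_lit 5) (nat_lit 73) (nat_lit 5) (nat_lit 501) (nat_lit 455) (nat_lit 244)) (XT.lf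 (nat_lit 0) (nat_lit 104778990473) (nat_lit 152) (nat_lit 56834312580) (nat_lit 228) (nat_lit 65376827279) (nat_lit 70) (nat_lit 5) (nat_lit 72) (nat_lit 5) (nat_lit 73) (nat_lit 5) (nat_lit 502) (nat_lit 455) (nat_lit 243))) (XT.nd (nat_lit 78) (nat_lit 76) (nat_lit 0) (XT.lf (nat_lit 0) (nat_lit 16744852424) (nat_lit 76) (nat_lit 211332005621) (nat_lit 152) (nat_lit 6265918031) (nat_lit 69) (nat_lit 5) (nat_lit 70) (nat_lit 5) (nat_lit 71) (nat_lit 4) (nat_lit 503) (nat_lit 455) (nat_lit 242)) (XT.lf (nat_lit 0) (nat_lit 57049662332) (nat_lit 152) (nat_lit 76905323495) (nat_lit 76) (nat_lit 107912753589) (nat_lit 68) (nat_lit 5) (nat_lit 70) (nat_lit 5) (nat_lit 69) (nat_lit 5) (nat_lit 504) (nat_lit 455) (nat_lit 241)))) (XT.nd (nat_lit 156) (nat_lit 304) (nat_lit 0) (XT.nd (nat_lit 78) (nat_lit 0) (nat_lit 0) (XT.lf (nat_lit 0) (nat_lit 73057038293) (nat_lit 152) (nat_lit 51403791541) (nat_lit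 228) (nat_lit 125245965901) (nat_lit 66) (nat_lit 5) (nat_lit 68) (nat_lit 5) (nat_lit 69) (nat_lit 5) (nat_lit 505) (nat_lit 455) (nat_lit 240)) (XT.lf (nat_lit 0) (nat_lit 197116837796) (nat_lit 228) (nat_lit 25257710248) (nat_lit 76) (nat_lit 35469542733) (nat_lit 66) (nat_lit 5) (nat_lit 69) (nat_lit 5) (nat_lit 67) (nat_lit 4) (nat_lit 506) (nat_lit 455) (nat_lit 239))) (XT.nd (nat_lit 78) (nat_lit 152) (nat_lit 0) (XT.lf (nat_lit 0) (nat_lit 9827109869) (nat_lit 152) (nat_lit 129143661250) (nat_lit 76) (nat_lit 127260285662) (nat_lit 64) (nat_lit 5) (nat_lit 66) (nat_lit 5) (nat_lit 65) (nat_lit 5) (nat_lit 507) (nat_lit 455) (nat_lit 238)) (XT.lf (nat_lit 0) (nat_lit 33479255802) (nat_lit 152) (nat_lit 49346343169) (nat_lit 228) (nat_lit 192114133587) (nat_lit 62) (nat_lit 5) (nat_lit 64) (nat_lit 5) (nat_lit 65) (nat_lit 5) (nat_lit 508) (nat_lit 455) (nat_lit 237)))))) (XT.nd (nat_lit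 624) (nat_lit 532) (nat_lit 0) (XT.nd (nat_lit 312) (nat_lit 304) (nat_lit 0) (XT.nd (nat_lit 156) (nat_lit 228) (nat_lit 0) (XT.nd (nat_lit 78) (nat_lit 76) (nat_lit 0) (XT.lf (nat_lit 0) (nat_lit 162395570155) (nat_lit 228) (nat_lit 75992677855) (nat_lit 76) (nat_lit 45549516241) (nat_lit 62) (nat_lit 5) (nat_lit 65) (nat_lit 5) (nat_lit 63) (nat_lit 4) (nat_lit 509) (nat_lit 455) (nat_lit 236)) (XT.lf (nat_lit 0) (nat_lit 100144406896) (nat_lit 76) (nat_lit 148171909776) (nat_lit 152) (nat_lit 44950767026) (nat_lit 61) (nat_lit 5) (nat_lit 62) (nat_lit 5) (nat_lit 63) (nat_lit 4) (nat_lit 510) (nat_lit 455) (nat_lit 235))) (XT.nd (nat_lit 78) (nat_lit 152) (nat_lit 0) (XT.lf (nat_lit 0) (nat_lit 35642819350) (nat_lit 152) (nat_lit 15847162852) (nat_lit 76) (nat_lit 251479804595) (nat_lit 60) (nat_lit 5) (nat_lit 62) (nat_lit 5) (nat_lit 61) (nat_lit 5) (nat_lit 511) (nat_lit 455) (nat_lit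 234)) (XT.lf (nat_lit 0) (nat_lit 122327952948) (nat_lit 228) (nat_lit 138660906793) (nat_lit 76) (nat_lit 51953295004) (nat_lit 58) (nat_lit 5) (nat_lit 61) (nat_lit 5) (nat_lit 59) (nat_lit 4) (nat_lit 512) (nat_lit 455) (nat_lit 233)))) (XT.nd (nat_lit 156) (nat_lit 228) (nat_lit 0) (XT.nd (nat_lit 78) (nat_lit 0) (nat_lit 0) (XT.lf (nat_lit 0) (nat_lit 51878082505) (nat_lit 76) (nat_lit 163395897713) (nat_lit 152) (nat_lit 108042829031) (nat_lit 57) (nat_lit 5) (nat_lit 58) (nat_lit 5) (nat_lit 59) (nat_lit 4) (nat_lit 513) (nat_lit 455) (nat_lit 232)) (XT.lf (nat_lit 0) (nat_lit 256757643659) (nat_lit 76) (nat_lit 58457756218) (nat_lit 152) (nat_lit 18877392056) (nat_lit 57) (nat_lit 5) (nat_lit 58) (nat_lit 5) (nat_lit 59) (nat_lit 4) (nat_lit 514) (nat_lit 455) (nat_lit 231))) (XT.nd (nat_lit 78) (nat_lit 0) (nat_lit 0) (XT.lf (nat_lit 0) (nat_lit 75234712989) (nat_lit 228) (nat_lit 216658608478)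 (nat_lit 76) (nat_lit 53311865059) (nat_lit 54) (nat_lit 5) (nat_lit 57) (nat_lit 5) (nat_lit 55) (nat_lit 4) (nat_lit 515) (nat_lit 455) (nat_lit 230)) (XT.lf (nat_lit 0) (nat_lit 175707330643) (nat_lit 228) (nat_lit 10690043893) (nat_lit 76) (nat_lit 170345887470) (nat_lit 54) (nat_lit 5) (nat_lit 57) (nat_lit 5) (nat_lit 55) (nat_lit 4) (nat_lit 516) (nat_lit 455) (nat_lit 229))))) (XT.nd (nat_lit 312) (nat_lit 228) (nat_lit 0) (XT.nd (nat_lit 156) (nat_lit 76) (nat_lit 0) (XT.nd (nat_lit 78) (nat_lit 152) (nat_lit 0) (XT.lf (nat_lit 0) (nat_lit 212373896166) (nat_lit 76) (nat_lit 72145252674) (nat_lit 152) (nat_lit 84173313943) (nat_lit 53) (nat_lit 5) (nat_lit 54) (nat_lit 5) (nat_lit 55) (nat_lit 4) (nat_lit 517) (nat_lit 455) (nat_lit 228)) (XT.lf (nat_lit 0) (nat_lit 18982245396) (nat_lit 152) (nat_lit 314315570768) (nat_lit 76) (nat_lit 47827072996) (nat_lit 51) (nat_lit 5) (nat_lit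 53) (nat_lit 5) (nat_lit 52) (nat_lit 4) (nat_lit 518) (nat_lit 455) (nat_lit 227))) (XT.nd (nat_lit 78) (nat_lit 76) (nat_lit 0) (XT.lf (nat_lit 0) (nat_lit 128340065158) (nat_lit 152) (nat_lit 90132288390) (nat_lit 76) (nat_lit 175443925906) (nat_lit 51) (nat_lit 5) (nat_lit 53) (nat_lit 5) (nat_lit 52) (nat_lit 4) (nat_lit 519) (nat_lit 455) (nat_lit 226)) (XT.lf (nat_lit 0) (nat_lit 150062775455) (nat_lit 76) (nat_lit 95445728805) (nat_lit 152) (nat_lit 161721598587) (nat_lit 50) (nat_lit 5) (nat_lit 51) (nat_lit 5) (nat_lit 52) (nat_lit 4) (nat_lit 520) (nat_lit 455) (nat_lit 225)))) (XT.nd (nat_lit 156) (nat_lit 76) (nat_lit 0) (XT.nd (nat_lit 78) (nat_lit 152) (nat_lit 0) (XT.lf (nat_lit 0) (nat_lit 370613305961) (nat_lit 152) (nat_lit 16288521172) (nat_lit 0) (nat_lit 34203893252) (nat_lit 50) (nat_lit 5) (nat_lit 52) (nat_lit 4) (nat_lit 50) (nat_lit 4) (nat_lit 521) (nat_lit 455) (nat_lit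 224)) (XT.lf (nat_lit 0) (nat_lit 69620034210) (nat_lit 152) (nat_lit 193688546716) (nat_lit 76) (nat_lit 172042594688) (nat_lit 48) (nat_lit 5) (nat_lit 50) (nat_lit 5) (nat_lit 49) (nat_lit 4) (nat_lit 522) (nat_lit 455) (nat_lit 223))) (XT.nd (nat_lit 78) (nat_lit 0) (nat_lit 0) (XT.lf (nat_lit 0) (nat_lit 63997464052) (nat_lit 76) (nat_lit 131323158054) (nat_lit 152) (nat_lit 254882924624) (nat_lit 47) (nat_lit 5) (nat_lit 48) (nat_lit 5) (nat_lit 49) (nat_lit 4) (nat_lit 523) (nat_lit 455) (nat_lit 222)) (XT.lf (nat_lit 0) (nat_lit 330753433214) (nat_lit 152) (nat_lit 124509783074) (nat_lit 0) (nat_lit 10362960427) (nat_lit 47) (nat_lit 5) (nat_lit 49) (nat_lit 4) (nat_lit 47) (nat_lit 4) (nat_lit 524) (nat_lit 455) (nat_lit 221))))))) (XT.nd (nat_lit 1170) (nat_lit 380) (nat_lit 0) (XT.nd (nat_lit 546) (nat_lit 532) (nat_lit 0) (XT.nd (nat_lit 234) (nat_lit 228) (nat_lit 0) (XT.nd (nat_lit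 78) (nat_lit 152) (nat_lit 0) (XT.lf (nat_lit 0) (nat_lit 153015649598) (nat_lit 76) (nat_lit 324483922489) (nat_lit 76) (nat_lit 4093281756) (nat_lit 46) (nat_lit 4) (nat_lit 47) (nat_lit 5) (nat_lit 47) (nat_lit 4) (nat_lit 525) (nat_lit 455) (nat_lit 220)) (XT.nd (nat_lit 78) (nat_lit 76) (nat_lit 0) (XT.lf (nat_lit 0) (nat_lit 131104163057) (nat_lit 152) (nat_lit 51627266413) (nat_lit 76) (nat_lit 315415282114) (nat_lit 45) (nat_lit 5) (nat_lit 47) (nat_lit 5) (nat_lit 46) (nat_lit 4) (nat_lit 526) (nat_lit 455) (nat_lit 219)) (XT.lf (nat_lit 0) (nat_lit 247008597411) (nat_lit 76) (nat_lit 29771671088) (nat_lit 152) (nat_lit 238551821094) (nat_lit 44) (nat_lit 5) (nat_lit 45) (nat_lit 5) (nat_lit 46) (nat_lit 4) (nat_lit 527) (nat_lit 455) (nat_lit 218)))) (XT.nd (nat_lit 156) (nat_lit 76) (nat_lit 0) (XT.nd (nat_lit 78) (nat_lit 76) (nat_lit 0) (XT.lf (nat_lit 0) (nat_lit 27870303190) (nat_lit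 76) (nat_lit 405236246951) (nat_lit 76) (nat_lit 100101867817) (nat_lit 43) (nat_lit 4) (nat_lit 44) (nat_lit 5) (nat_lit 44) (nat_lit 4) (nat_lit 528) (nat_lit 455) (nat_lit 217)) (XT.lf (nat_lit 0) (nat_lit 48928238731) (nat_lit 152) (nat_lit 204831621324) (nat_lit 76) (nat_lit 297928032807) (nat_lit 42) (nat_lit 5) (nat_lit 44) (nat_lit 5) (nat_lit 43) (nat_lit 4) (nat_lit 529) (nat_lit 455) (nat_lit 216))) (XT.nd (nat_lit 78) (nat_lit 0) (nat_lit 0) (XT.lf (nat_lit 0) (nat_lit 112664889948) (nat_lit 76) (nat_lit 91139756878) (nat_lit 152) (nat_lit 367116700205) (nat_lit 41) (nat_lit 5) (nat_lit 42) (nat_lit 5) (nat_lit 43) (nat_lit 4) (nat_lit 530) (nat_lit 455) (nat_lit 215)) (XT.lf (nat_lit 0) (nat_lit 371193482938) (nat_lit 152) (nat_lit 139095606612) (nat_lit 0) (nat_lit 80588953982) (nat_lit 41) (nat_lit 5) (nat_lit 43) (nat_lit 4) (nat_lit 41) (nat_lit 4) (nat_lit 531) (nat_lit 455)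 (nat_lit 214))))) (XT.nd (nat_lit 312) (nat_lit 304) (nat_lit 0) (XT.nd (nat_lit 156) (nat_lit 76) (nat_lit 0) (XT.nd (nat_lit 78) (nat_lit 76) (nat_lit 0) (XT.lf (nat_lit 0) (nat_lit 200960936924) (nat_lit 76) (nat_lit 350622349438) (nat_lit 76) (nat_lit 60017712223) (nat_lit 40) (nat_lit 4) (nat_lit 41) (nat_lit 5) (nat_lit 41) (nat_lit 4) (nat_lit 532) (nat_lit 455) (nat_lit 213)) (XT.lf (nat_lit 0) (nat_lit 106581703599) (nat_lit 152) (nat_lit 72112247941) (nat_lit 76) (nat_lit 454462420795) (nat_lit 39) (nat_lit 5) (nat_lit 41) (nat_lit 5) (nat_lit 40) (nat_lit 4) (nat_lit 533) (nat_lit 455) (nat_lit 212))) (XT.nd (nat_lit 78) (nat_lit 0) (nat_lit 0) (XT.lf (nat_lit 0) (nat_lit 284167504790) (nat_lit 152) (nat_lit 363938153054) (nat_lit 0) (nat_lit 7400991920) (nat_lit 38) (nat_lit 5) (nat_lit 40) (nat_lit 4) (nat_lit 38) (nat_lit 4) (nat_lit 534) (nat_lit 455) (nat_lit 211)) (XT.lf (nat_lit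 0) (nat_lit 474803155965) (nat_lit 152) (nat_lit 5926203076) (nat_lit 0) (nat_lit 198036554029) (nat_lit 38) (nat_lit 5) (nat_lit 40) (nat_lit 4) (nat_lit 38) (nat_lit 4) (nat_lit 535) (nat_lit 455) (nat_lit 210)))) (XT.nd (nat_lit 156) (nat_lit 76) (nat_lit 0) (XT.nd (nat_lit 78) (nat_lit 152) (nat_lit 0) (XT.lf (nat_lit 0) (nat_lit 382219519674) (nat_lit 76) (nat_lit 298718468356) (nat_lit 76) (nat_lit 21951781597) (nat_lit 37) (nat_lit 4) (nat_lit 38) (nat_lit 5) (nat_lit 38) (nat_lit 4) (nat_lit 536) (nat_lit 455) (nat_lit 209)) (XT.lf (nat_lit 0) (nat_lit 61075324448) (nat_lit 76) (nat_lit 103725696035) (nat_lit 152) (nat_lit 563233973348) (nat_lit 35) (nat_lit 5) (nat_lit 36) (nat_lit 5) (nat_lit 37) (nat_lit 4) (nat_lit 537) (nat_lit 455) (nat_lit 208))) (XT.nd (nat_lit 78) (nat_lit 76) (nat_lit 0) (XT.lf (nat_lit 0) (nat_lit 367250507539) (nat_lit 152) (nat_lit 283151103408) (nat_lit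 0) (nat_lit 103663036603) (nat_lit 35) (nat_lit 5) (nat_lit 37) (nat_lit 4) (nat_lit 35) (nat_lit 4) (nat_lit 538) (nat_lit 455) (nat_lit 207)) (XT.lf (nat_lit 0) (nat_lit 122053725597) (nat_lit 76) (nat_lit 461374651828) (nat_lit 76) (nat_lit 197787111107) (nat_lit 34) (nat_lit 4) (nat_lit 35) (nat_lit 5) (nat_lit 35) (nat_lit 4) (nat_lit 539) (nat_lit 455) (nat_lit 206)))))) (XT.nd (nat_lit 56082) (nat_lit 0) (nat_lit 9044) (XT.nd (nat_lit 312) (nat_lit 152) (nat_lit 0) (XT.nd (nat_lit 156) (nat_lit 76) (nat_lit 0) (XT.nd (nat_lit 78) (nat_lit 76) (nat_lit 0) (XT.lf (nat_lit 0) (nat_lit 5542943376) (nat_lit 152) (nat_lit 252224573260) (nat_lit 76) (nat_lit 551712125343) (nat_lit 33) (nat_lit 5) (nat_lit 35) (nat_lit 5) (nat_lit 34) (nat_lit 4) (nat_lit 540) (nat_lit 455) (nat_lit 205)) (XT.lf (nat_lit 0) (nat_lit 177497890378) (nat_lit 76) (nat_lit 37665797844) (nat_lit 152) (nat_lit 623692637717)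 (nat_lit 32) (nat_lit 5) (nat_lit 33) (nat_lit 5) (nat_lit 34) (nat_lit 4) (nat_lit 541) (nat_lit 455) (nat_lit 204))) (XT.nd (nat_lit 78) (nat_lit 76) (nat_lit 0) (XT.lf (nat_lit 0) (nat_lit 442627089299) (nat_lit 152) (nat_lit 235115518612) (nat_lit 0) (nat_lit 191591155239) (nat_lit 32) (nat_lit 5) (nat_lit 34) (nat_lit 4) (nat_lit 32) (nat_lit 4) (nat_lit 542) (nat_lit 455) (nat_lit 203)) (XT.lf (nat_lit 0) (nat_lit 218825654827) (nat_lit 76) (nat_lit 466671856787) (nat_lit 76) (nat_lit 215635868049) (nat_lit 31) (nat_lit 4) (nat_lit 32) (nat_lit 5) (nat_lit 32) (nat_lit 4) (nat_lit 543) (nat_lit 455) (nat_lit 202)))) (XT.nd (nat_lit 55614) (nat_lit 0) (nat_lit 8968) (XT.nd (nat_lit 78) (nat_lit 76) (nat_lit 0) (XT.lf (nat_lit 0) (nat_lit 9843777195) (nat_lit 152) (nat_lit 230856297561) (nat_lit 76) (nat_lit 693615879007) (nat_lit 30) (nat_lit 5) (nat_lit 32) (nat_lit 5) (nat_lit 31) (nat_lit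 4) (nat_lit 544) (nat_lit 455) (nat_lit 201)) (XT.lf (nat_lit 0) (nat_lit 243283331609) (nat_lit 152) (nat_lit 721299598200) (nat_lit 0) (nat_lit 4201340745) (nat_lit 29) (nat_lit 5) (nat_lit 31) (nat_lit 4) (nat_lit 29) (nat_lit 4) (nat_lit 545) (nat_lit 455) (nat_lit 200))) (XT.nd (nat_lit 78) (nat_lit 0) (nat_lit 0) (XT.lf (nat_lit 0) (nat_lit 12861084030) (nat_lit 836) (nat_lit 9170713513) (nat_lit 836) (nat_lit 9170713513) (nat_lit 147) (nat_lit 3) (nat_lit 158) (nat_lit 3) (nat_lit 158) (nat_lit 5) (nat_lit 456) (nat_lit 456) (nat_lit 288)) (XT.lf (nat_lit 76) (nat_lit 13025242950) (nat_lit 0) (nat_lit 13559852072) (nat_lit 836) (nat_lit 37369056454) (nat_lit 148) (nat_lit 5) (nat_lit 147) (nat_lit 3) (nat_lit 158) (nat_lit 5) (nat_lit 457) (nat_lit 456) (nat_lit 287))))) (XT.nd (nat_lit 312) (nat_lit 0) (nat_lit 152) (XT.nd (nat_lit 156) (nat_lit 0) (nat_lit 76) (XT.nd (nat_lit 78) (nat_lit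 0) (nat_lit 0) (XT.lf (nat_lit 0) (nat_lit 28094177239) (nat_lit 760) (nat_lit 19262267619) (nat_lit 836) (nat_lit 18194142165) (nat_lit 148) (nat_lit 5) (nat_lit 158) (nat_lit 5) (nat_lit 159) (nat_lit 5) (nat_lit 458) (nat_lit 456) (nat_lit 286)) (XT.lf (nat_lit 76) (nat_lit 14219935116) (nat_lit 0) (nat_lit 15902076289) (nat_lit 836) (nat_lit 37082668205) (nat_lit 149) (nat_lit 5) (nat_lit 148) (nat_lit 5) (nat_lit 159) (nat_lit 5) (nat_lit 459) (nat_lit 456) (nat_lit 285))) (XT.nd (nat_lit 78) (nat_lit 0) (nat_lit 0) (XT.lf (nat_lit 0) (nat_lit 32849207017) (nat_lit 760) (nat_lit 19153541817) (nat_lit 836) (nat_lit 16908829655) (nat_lit 149) (nat_lit 5) (nat_lit 159) (nat_lit 5) (nat_lit 160) (nat_lit 5) (nat_lit 460) (nat_lit 456) (nat_lit 284)) (XT.lf (nat_lit 76) (nat_lit 16640513480) (nat_lit 0) (nat_lit 19591826329) (nat_lit 836) (nat_lit 34445503774) (nat_lit 150) (nat_lit 5) (nat_lit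 149) (nat_lit 5) (nat_lit 160) (nat_lit 5) (nat_lit 461) (nat_lit 456) (nat_lit 283)))) (XT.nd (nat_lit 156) (nat_lit 0) (nat_lit 76) (XT.nd (nat_lit 78) (nat_lit 0) (nat_lit 0) (XT.lf (nat_lit 0) (nat_lit 40338885701) (nat_lit 760) (nat_lit 17858381554) (nat_lit 836) (nat_lit 14307441989) (nat_lit 150) (nat_lit 5) (nat_lit 160) (nat_lit 5) (nat_lit 161) (nat_lit 5) (nat_lit 462) (nat_lit 456) (nat_lit 282)) (XT.lf (nat_lit 76) (nat_lit 20462643896) (nat_lit 0) (nat_lit 24827934604) (nat_lit 836) (nat_lit 29100348834) (nat_lit 151) (nat_lit 5) (nat_lit 150) (nat_lit 5) (nat_lit 161) (nat_lit 5) (nat_lit 463) (nat_lit 456) (nat_lit 281))) (XT.nd (nat_lit 78) (nat_lit 0) (nat_lit 0) (XT.lf (nat_lit 0) (nat_lit 50955855073) (nat_lit 760) (nat_lit 15201632457) (nat_lit 836) (nat_lit 10190668966) (nat_lit 151) (nat_lit 5) (nat_lit 161) (nat_lit 5) (nat_lit 162) (nat_lit 5) (nat_lit 464) (nat_lit 456)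 (nat_lit 280)) (XT.lf (nat_lit 76) (nat_lit 25882097061) (nat_lit 0) (nat_lit 31832640241) (nat_lit 836) (nat_lit 20647992838) (nat_lit 152) (nat_lit 5) (nat_lit 151) (nat_lit 5) (nat_lit 162) (nat_lit 5) (nat_lit 465) (nat_lit 456) (nat_lit 279))))))))
noncomputable def xc203 : XT := (XT.nd (nat_lit 2418) (nat_lit 2736) (nat_lit 0) (XT.nd (nat_lit 1170) (nat_lit 2204) (nat_lit 0) (XT.nd (nat_lit 546) (nat_lit 1292) (nat_lit 0) (XT.nd (nat_lit 234) (nat_lit 1216) (nat_lit 0) (XT.nd (nat_lit 78) (nat_lit 760) (nat_lit 0) (XT.lf (nat_lit 0) (nat_lit 65138199927) (nat_lit 760) (nat_lit 10987963099) (nat_lit 76) (nat_lit 4335537736) (nat_lit 152) (nat_lit 5) (nat_lit 162) (nat_lit 5) (nat_lit 153) (nat_lit 5) (nat_lit 466) (nat_lit 456) (nat_lit 278)) (XT.nd (nat_lit 78) (nat_lit 0) (nat_lit 0) (XT.lf (nat_lit 0) (nat_lit 33116813667) (nat_lit 760) (nat_lit 40854213088) (nat_lit 836) (nat_lit 8642683712)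 (nat_lit 142) (nat_lit 5) (nat_lit 152) (nat_lit 5) (nat_lit 153) (nat_lit 5) (nat_lit 467) (nat_lit 456) (nat_lit 277)) (XT.lf (nat_lit 0) (nat_lit 79807691611) (nat_lit 760) (nat_lit 3623211840) (nat_lit 836) (nat_lit 1433146880) (nat_lit 142) (nat_lit 5) (nat_lit 152) (nat_lit 5) (nat_lit 153) (nat_lit 5) (nat_lit 468) (nat_lit 456) (nat_lit 276)))) (XT.nd (nat_lit 156) (nat_lit 380) (nat_lit 0) (XT.nd (nat_lit 78) (nat_lit 380) (nat_lit 0) (XT.lf (nat_lit 0) (nat_lit 7175627944) (nat_lit 456) (nat_lit 44872710573) (nat_lit 76) (nat_lit 35112019118) (nat_lit 136) (nat_lit 5) (nat_lit 142) (nat_lit 5) (nat_lit 137) (nat_lit 5) (nat_lit 469) (nat_lit 456) (nat_lit 275)) (XT.lf (nat_lit 0) (nat_lit 2605672629) (nat_lit 380) (nat_lit 13747486357) (nat_lit 456) (nat_lit 73207822663) (nat_lit 131) (nat_lit 5) (nat_lit 136) (nat_lit 5) (nat_lit 137) (nat_lit 5) (nat_lit 470) (nat_lit 456) (nat_lit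 274))) (XT.nd (nat_lit 78) (nat_lit 380) (nat_lit 0) (XT.lf (nat_lit 0) (nat_lit 27174598292) (nat_lit 456) (nat_lit 38454140225) (nat_lit 76) (nat_lit 26393646844) (nat_lit 131) (nat_lit 5) (nat_lit 137) (nat_lit 5) (nat_lit 132) (nat_lit 5) (nat_lit 471) (nat_lit 456) (nat_lit 273)) (XT.lf (nat_lit 0) (nat_lit 12651010183) (nat_lit 380) (nat_lit 26308401506) (nat_lit 456) (nat_lit 55626332542) (nat_lit 126) (nat_lit 5) (nat_lit 131) (nat_lit 5) (nat_lit 132) (nat_lit 5) (nat_lit 472) (nat_lit 456) (nat_lit 272))))) (XT.nd (nat_lit 312) (nat_lit 684) (nat_lit 0) (XT.nd (nat_lit 156) (nat_lit 304) (nat_lit 0) (XT.nd (nat_lit 78) (nat_lit 304) (nat_lit 0) (XT.lf (nat_lit 0) (nat_lit 52228662493) (nat_lit 456) (nat_lit 29843411141) (nat_lit 76) (nat_lit 15160437648) (nat_lit 126) (nat_lit 5) (nat_lit 132) (nat_lit 5) (nat_lit 127) (nat_lit 5) (nat_lit 473) (nat_lit 456) (nat_lit 271)) (XT.lf (nat_lit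 0) (nat_lit 25228040608) (nat_lit 304) (nat_lit 41757961292) (nat_lit 380) (nat_lit 32984383555) (nat_lit 122) (nat_lit 5) (nat_lit 126) (nat_lit 5) (nat_lit 127) (nat_lit 5) (nat_lit 474) (nat_lit 456) (nat_lit 270))) (XT.nd (nat_lit 78) (nat_lit 304) (nat_lit 0) (XT.lf (nat_lit 0) (nat_lit 83003310223) (nat_lit 380) (nat_lit 18748557825) (nat_lit 76) (nat_lit 1067180259) (nat_lit 122) (nat_lit 5) (nat_lit 127) (nat_lit 5) (nat_lit 123) (nat_lit 5) (nat_lit 475) (nat_lit 456) (nat_lit 269)) (XT.lf (nat_lit 0) (nat_lit 40661180984) (nat_lit 304) (nat_lit 60479195277) (nat_lit 380) (nat_lit 4603823490) (nat_lit 118) (nat_lit 5) (nat_lit 122) (nat_lit 5) (nat_lit 123) (nat_lit 5) (nat_lit 476) (nat_lit 456) (nat_lit 268)))) (XT.nd (nat_lit 156) (nat_lit 304) (nat_lit 0) (XT.nd (nat_lit 78) (nat_lit 304) (nat_lit 0) (XT.lf (nat_lit 0) (nat_lit 11327046177) (nat_lit 380) (nat_lit 5290720227) (nat_lit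 76) (nat_lit 92172856152) (nat_lit 117) (nat_lit 5) (nat_lit 122) (nat_lit 5) (nat_lit 118) (nat_lit 5) (nat_lit 477) (nat_lit 456) (nat_lit 267)) (XT.lf (nat_lit 0) (nat_lit 29301328927) (nat_lit 380) (nat_lit 53101766526) (nat_lit 76) (nat_lit 29512418066) (nat_lit 113) (nat_lit 5) (nat_lit 118) (nat_lit 5) (nat_lit 114) (nat_lit 5) (nat_lit 478) (nat_lit 456) (nat_lit 266))) (XT.nd (nat_lit 78) (nat_lit 0) (nat_lit 0) (XT.lf (nat_lit 0) (nat_lit 11198911508) (nat_lit 304) (nat_lit 37513295508) (nat_lit 380) (nat_lit 66457548007) (nat_lit 109) (nat_lit 5) (nat_lit 113) (nat_lit 5) (nat_lit 114) (nat_lit 5) (nat_lit 479) (nat_lit 456) (nat_lit 265)) (XT.lf (nat_lit 0) (nat_lit 70157439948) (nat_lit 380) (nat_lit 38149093548) (nat_lit 76) (nat_lit 10226984611) (nat_lit 109) (nat_lit 5) (nat_lit 114) (nat_lit 5) (nat_lit 110) (nat_lit 5) (nat_lit 480) (nat_lit 456) (nat_lit 264)))))) (XT.nd (nat_lit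 624) (nat_lit 988) (nat_lit 0) (XT.nd (nat_lit 312) (nat_lit 456) (nat_lit 0) (XT.nd (nat_lit 156) (nat_lit 532) (nat_lit 0) (XT.nd (nat_lit 78) (nat_lit 0) (nat_lit 0) (XT.lf (nat_lit 0) (nat_lit 31351655245) (nat_lit 228) (nat_lit 62427313253) (nat_lit 304) (nat_lit 28231299196) (nat_lit 106) (nat_lit 5) (nat_lit 109) (nat_lit 5) (nat_lit 110) (nat_lit 5) (nat_lit 481) (nat_lit 456) (nat_lit 263)) (XT.lf (nat_lit 0) (nat_lit 105651335605) (nat_lit 228) (nat_lit 13575897511) (nat_lit 304) (nat_lit 6401338708) (nat_lit 106) (nat_lit 5) (nat_lit 109) (nat_lit 5) (nat_lit 110) (nat_lit 5) (nat_lit 482) (nat_lit 456) (nat_lit 262))) (XT.nd (nat_lit 78) (nat_lit 228) (nat_lit 0) (XT.lf (nat_lit 0) (nat_lit 17468997190) (nat_lit 304) (nat_lit 74214212455) (nat_lit 76) (nat_lit 37657804070) (nat_lit 102) (nat_lit 5) (nat_lit 106) (nat_lit 5) (nat_lit 103) (nat_lit 5) (nat_lit 483) (nat_lit 456) (nat_lit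 261)) (XT.lf (nat_lit 0) (nat_lit 1161009673) (nat_lit 228) (nat_lit 41740873980) (nat_lit 304) (nat_lit 90302739052) (nat_lit 99) (nat_lit 5) (nat_lit 102) (nat_lit 5) (nat_lit 103) (nat_lit 5) (nat_lit 484) (nat_lit 456) (nat_lit 260)))) (XT.nd (nat_lit 156) (nat_lit 228) (nat_lit 0) (XT.nd (nat_lit 78) (nat_lit 228) (nat_lit 0) (XT.lf (nat_lit 0) (nat_lit 71050522630) (nat_lit 304) (nat_lit 54505224922) (nat_lit 76) (nat_lit 11633459222) (nat_lit 99) (nat_lit 5) (nat_lit 103) (nat_lit 5) (nat_lit 100) (nat_lit 5) (nat_lit 485) (nat_lit 456) (nat_lit 259)) (XT.lf (nat_lit 0) (nat_lit 27092399284) (nat_lit 228) (nat_lit 74621093114) (nat_lit 304) (nat_lit 39604182740) (nat_lit 96) (nat_lit 5) (nat_lit 99) (nat_lit 5) (nat_lit 100) (nat_lit 5) (nat_lit 486) (nat_lit 456) (nat_lit 258))) (XT.nd (nat_lit 78) (nat_lit 228) (nat_lit 0) (XT.lf (nat_lit 0) (nat_lit 114661678968) (nat_lit 228) (nat_lit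 20170647238) (nat_lit 304) (nat_lit 10774104973) (nat_lit 96) (nat_lit 5) (nat_lit 99) (nat_lit 5) (nat_lit 100) (nat_lit 5) (nat_lit 487) (nat_lit 456) (nat_lit 257)) (XT.lf (nat_lit 0) (nat_lit 20377015415) (nat_lit 228) (nat_lit 92593726345) (nat_lit 76) (nat_lit 37048483791) (nat_lit 93) (nat_lit 5) (nat_lit 96) (nat_lit 5) (nat_lit 94) (nat_lit 5) (nat_lit 488) (nat_lit 456) (nat_lit 256))))) (XT.nd (nat_lit 312) (nat_lit 532) (nat_lit 0) (XT.nd (nat_lit 156) (nat_lit 228) (nat_lit 0) (XT.nd (nat_lit 78) (nat_lit 228) (nat_lit 0) (XT.lf (nat_lit 0) (nat_lit 53586593768) (nat_lit 228) (nat_lit 3854260161) (nat_lit 76) (nat_lit 97159825384) (nat_lit 93) (nat_lit 5) (nat_lit 96) (nat_lit 5) (nat_lit 94) (nat_lit 5) (nat_lit 489) (nat_lit 456) (nat_lit 255)) (XT.lf (nat_lit 0) (nat_lit 89934128445) (nat_lit 304) (nat_lit 67101250915) (nat_lit 76) (nat_lit 2301952561) (nat_lit 90) (nat_lit 5)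 (nat_lit 94) (nat_lit 5) (nat_lit 91) (nat_lit 5) (nat_lit 490) (nat_lit 456) (nat_lit 254))) (XT.nd (nat_lit 78) (nat_lit 76) (nat_lit 0) (XT.lf (nat_lit 0) (nat_lit 28940244896) (nat_lit 152) (nat_lit 100618312418) (nat_lit 228) (nat_lit 34679283998) (nat_lit 88) (nat_lit 5) (nat_lit 90) (nat_lit 5) (nat_lit 91) (nat_lit 5) (nat_lit 491) (nat_lit 456) (nat_lit 253)) (XT.lf (nat_lit 0) (nat_lit 2878539613) (nat_lit 228) (nat_lit 37260069988) (nat_lit 76) (nat_lit 129185641115) (nat_lit 87) (nat_lit 5) (nat_lit 90) (nat_lit 5) (nat_lit 88) (nat_lit 5) (nat_lit 492) (nat_lit 456) (nat_lit 252)))) (XT.nd (nat_lit 156) (nat_lit 304) (nat_lit 0) (XT.nd (nat_lit 78) (nat_lit 0) (nat_lit 0) (XT.lf (nat_lit 0) (nat_lit 42589996633) (nat_lit 304) (nat_lit 107712202968) (nat_lit 76) (nat_lit 24262295690) (nat_lit 84) (nat_lit 5) (nat_lit 88) (nat_lit 5) (nat_lit 85) (nat_lit 5) (nat_lit 493) (nat_lit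 456) (nat_lit 251)) (XT.lf (nat_lit 0) (nat_lit 85586102023) (nat_lit 304) (nat_lit 3240177714) (nat_lit 76) (nat_lit 91175518604) (nat_lit 84) (nat_lit 5) (nat_lit 88) (nat_lit 5) (nat_lit 85) (nat_lit 5) (nat_lit 494) (nat_lit 456) (nat_lit 250))) (XT.nd (nat_lit 78) (nat_lit 152) (nat_lit 0) (XT.lf (nat_lit 0) (nat_lit 109974874261) (nat_lit 152) (nat_lit 22473872189) (nat_lit 228) (nat_lit 53176383425) (nat_lit 82) (nat_lit 5) (nat_lit 84) (nat_lit 5) (nat_lit 85) (nat_lit 5) (nat_lit 495) (nat_lit 456) (nat_lit 249)) (XT.lf (nat_lit 0) (nat_lit 37911464970) (nat_lit 152) (nat_lit 145127321625) (nat_lit 228) (nat_lit 8421628237) (nat_lit 80) (nat_lit 5) (nat_lit 82) (nat_lit 5) (nat_lit 83) (nat_lit 5) (nat_lit 496) (nat_lit 456) (nat_lit 248))))))) (XT.nd (nat_lit 1248) (nat_lit 1216) (nat_lit 0) (XT.nd (nat_lit 624) (nat_lit 684) (nat_lit 0) (XT.nd (nat_lit 312) (nat_lit 456) (nat_lit 0)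 (XT.nd (nat_lit 156) (nat_lit 152) (nat_lit 0) (XT.nd (nat_lit 78) (nat_lit 152) (nat_lit 0) (XT.lf (nat_lit 0) (nat_lit 39006679994) (nat_lit 228) (nat_lit 38737816765) (nat_lit 76) (nat_lit 119729341140) (nat_lit 79) (nat_lit 5) (nat_lit 82) (nat_lit 5) (nat_lit 80) (nat_lit 5) (nat_lit 497) (nat_lit 456) (nat_lit 247)) (XT.lf (nat_lit 0) (nat_lit 84375929450) (nat_lit 152) (nat_lit 5464533329) (nat_lit 228) (nat_lit 113874712330) (nat_lit 77) (nat_lit 5) (nat_lit 79) (nat_lit 5) (nat_lit 80) (nat_lit 5) (nat_lit 498) (nat_lit 456) (nat_lit 246))) (XT.nd (nat_lit 78) (nat_lit 0) (nat_lit 0) (XT.lf (nat_lit 0) (nat_lit 3764152531) (nat_lit 152) (nat_lit 141276689775) (nat_lit 228) (nat_lit 65136491510) (nat_lit 75) (nat_lit 5) (nat_lit 77) (nat_lit 5) (nat_lit 78) (nat_lit 5) (nat_lit 499) (nat_lit 456) (nat_lit 245)) (XT.lf (nat_lit 0) (nat_lit 137072928614) (nat_lit 152) (nat_lit 68037262685)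 (nat_lit 228) (nat_lit 11746961650) (nat_lit 75) (nat_lit 5) (nat_lit 77) (nat_lit 5) (nat_lit 78) (nat_lit 5) (nat_lit 500) (nat_lit 456) (nat_lit 244)))) (XT.nd (nat_lit 156) (nat_lit 228) (nat_lit 0) (XT.nd (nat_lit 78) (nat_lit 0) (nat_lit 0) (XT.lf (nat_lit 0) (nat_lit 43903660617) (nat_lit 228) (nat_lit 169738391284) (nat_lit 76) (nat_lit 10143825488) (nat_lit 72) (nat_lit 5) (nat_lit 75) (nat_lit 5) (nat_lit 73) (nat_lit 5) (nat_lit 501) (nat_lit 456) (nat_lit 243)) (XT.lf (nat_lit 0) (nat_lit 104430494664) (nat_lit 228) (nat_lit 34983283853) (nat_lit 76) (nat_lit 91513208110) (nat_lit 72) (nat_lit 5) (nat_lit 75) (nat_lit 5) (nat_lit 73) (nat_lit 5) (nat_lit 502) (nat_lit 456) (nat_lit 242))) (XT.nd (nat_lit 78) (nat_lit 76) (nat_lit 0) (XT.lf (nat_lit 0) (nat_lit 110030846982) (nat_lit 152) (nat_lit 59670480583) (nat_lit 228) (nat_lit 68637940917) (nat_lit 70) (nat_lit 5) (nat_lit 72)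 (nat_lit 5) (nat_lit 73) (nat_lit 5) (nat_lit 503) (nat_lit 456) (nat_lit 241)) (XT.lf (nat_lit 0) (nat_lit 17595071061) (nat_lit 76) (nat_lit 221892923882) (nat_lit 152) (nat_lit 6571554858) (nat_lit 69) (nat_lit 5) (nat_lit 70) (nat_lit 5) (nat_lit 71) (nat_lit 4) (nat_lit 504) (nat_lit 456) (nat_lit 240))))) (XT.nd (nat_lit 312) (nat_lit 304) (nat_lit 0) (XT.nd (nat_lit 156) (nat_lit 152) (nat_lit 0) (XT.nd (nat_lit 78) (nat_lit 152) (nat_lit 0) (XT.lf (nat_lit 0) (nat_lit 59909206340) (nat_lit 152) (nat_lit 80737997751) (nat_lit 76) (nat_lit 113313568908) (nat_lit 68) (nat_lit 5) (nat_lit 70) (nat_lit 5) (nat_lit 69) (nat_lit 5) (nat_lit 505) (nat_lit 456) (nat_lit 239)) (XT.lf (nat_lit 0) (nat_lit 76722279031) (nat_lit 152) (nat_lit 53968510377) (nat_lit 228) (nat_lit 131500999882) (nat_lit 66) (nat_lit 5) (nat_lit 68) (nat_lit 5) (nat_lit 69) (nat_lit 5) (nat_lit 506) (nat_lit 456) (nat_lit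 238))) (XT.nd (nat_lit 78) (nat_lit 152) (nat_lit 0) (XT.lf (nat_lit 0) (nat_lit 206979349682) (nat_lit 228) (nat_lit 26508548483) (nat_lit 76) (nat_lit 37248063339) (nat_lit 66) (nat_lit 5) (nat_lit 69) (nat_lit 5) (nat_lit 67) (nat_lit 4) (nat_lit 507) (nat_lit 456) (nat_lit 237)) (XT.lf (nat_lit 0) (nat_lit 10325110257) (nat_lit 152) (nat_lit 135588771353) (nat_lit 76) (nat_lit 133628395483) (nat_lit 64) (nat_lit 5) (nat_lit 66) (nat_lit 5) (nat_lit 65) (nat_lit 5) (nat_lit 508) (nat_lit 456) (nat_lit 236)))) (XT.nd (nat_lit 156) (nat_lit 152) (nat_lit 0) (XT.nd (nat_lit 78) (nat_lit 0) (nat_lit 0) (XT.lf (nat_lit 0) (nat_lit 35165096826) (nat_lit 152) (nat_lit 51808296016) (nat_lit 228) (nat_lit 201713000378) (nat_lit 62) (nat_lit 5) (nat_lit 64) (nat_lit 5) (nat_lit 65) (nat_lit 5) (nat_lit 509) (nat_lit 456) (nat_lit 235)) (XT.lf (nat_lit 0) (nat_lit 170521632162) (nat_lit 228) (nat_lit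 79780768465) (nat_lit 76) (nat_lit 47831937405) (nat_lit 62) (nat_lit 5) (nat_lit 65) (nat_lit 5) (nat_lit 63) (nat_lit 4) (nat_lit 510) (nat_lit 456) (nat_lit 234))) (XT.nd (nat_lit 78) (nat_lit 76) (nat_lit 0) (XT.lf (nat_lit 0) (nat_lit 105162984342) (nat_lit 76) (nat_lit 155575309766) (nat_lit 152) (nat_lit 47191835451) (nat_lit 61) (nat_lit 5) (nat_lit 62) (nat_lit 5) (nat_lit 63) (nat_lit 4) (nat_lit 511) (nat_lit 456) (nat_lit 233)) (XT.lf (nat_lit 0) (nat_lit 37430924934) (nat_lit 152) (nat_lit 16628507269) (nat_lit 76) (nat_lit 264058545481) (nat_lit 60) (nat_lit 5) (nat_lit 62) (nat_lit 5) (nat_lit 61) (nat_lit 5) (nat_lit 512) (nat_lit 456) (nat_lit 232)))))) (XT.nd (nat_lit 624) (nat_lit 532) (nat_lit 0) (XT.nd (nat_lit 312) (nat_lit 228) (nat_lit 0) (XT.nd (nat_lit 156) (nat_lit 228) (nat_lit 0) (XT.nd (nat_lit 78) (nat_lit 76) (nat_lit 0) (XT.lf (nat_lit 0) (nat_lit 128450278216)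 (nat_lit 228) (nat_lit 145582901199) (nat_lit 76) (nat_lit 54555786476) (nat_lit 58) (nat_lit 5) (nat_lit 61) (nat_lit 5) (nat_lit 59) (nat_lit 4) (nat_lit 513) (nat_lit 456) (nat_lit 231)) (XT.lf (nat_lit 0) (nat_lit 54482859324) (nat_lit 76) (nat_lit 171560635011) (nat_lit 152) (nat_lit 113438864421) (nat_lit 57) (nat_lit 5) (nat_lit 58) (nat_lit 5) (nat_lit 59) (nat_lit 4) (nat_lit 514) (nat_lit 456) (nat_lit 230))) (XT.nd (nat_lit 78) (nat_lit 228) (nat_lit 0) (XT.lf (nat_lit 0) (nat_lit 269605880788) (nat_lit 76) (nat_lit 61375827279) (nat_lit 152) (nat_lit 19815446362) (nat_lit 57) (nat_lit 5) (nat_lit 58) (nat_lit 5) (nat_lit 59) (nat_lit 4) (nat_lit 515) (nat_lit 456) (nat_lit 229)) (XT.lf (nat_lit 0) (nat_lit 79002047371) (nat_lit 228) (nat_lit 227480967037) (nat_lit 76) (nat_lit 55982151334) (nat_lit 54) (nat_lit 5) (nat_lit 57) (nat_lit 5) (nat_lit 55) (nat_lit 4) (nat_lit 516) (nat_lit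 456) (nat_lit 228)))) (XT.nd (nat_lit 156) (nat_lit 152) (nat_lit 0) (XT.nd (nat_lit 78) (nat_lit 76) (nat_lit 0) (XT.lf (nat_lit 0) (nat_lit 184498029302) (nat_lit 228) (nat_lit 11214477645) (nat_lit 76) (nat_lit 178867651388) (nat_lit 54) (nat_lit 5) (nat_lit 57) (nat_lit 5) (nat_lit 55) (nat_lit 4) (nat_lit 517) (nat_lit 456) (nat_lit 227)) (XT.lf (nat_lit 0) (nat_lit 223002497023) (nat_lit 76) (nat_lit 75747842136) (nat_lit 152) (nat_lit 88376484962) (nat_lit 53) (nat_lit 5) (nat_lit 54) (nat_lit 5) (nat_lit 55) (nat_lit 4) (nat_lit 518) (nat_lit 456) (nat_lit 226))) (XT.nd (nat_lit 78) (nat_lit 0) (nat_lit 0) (XT.lf (nat_lit 0) (nat_lit 19936651439) (nat_lit 152) (nat_lit 330021242059) (nat_lit 76) (nat_lit 50222975288) (nat_lit 51) (nat_lit 5) (nat_lit 53) (nat_lit 5) (nat_lit 52) (nat_lit 4) (nat_lit 519) (nat_lit 456) (nat_lit 225)) (XT.lf (nat_lit 0) (nat_lit 134762110104) (nat_lit 152)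 (nat_lit 94629276860) (nat_lit 76) (nat_lit 184220454242) (nat_lit 51) (nat_lit 5) (nat_lit 53) (nat_lit 5) (nat_lit 52) (nat_lit 4) (nat_lit 520) (nat_lit 456) (nat_lit 224))))) (XT.nd (nat_lit 312) (nat_lit 228) (nat_lit 0) (XT.nd (nat_lit 156) (nat_lit 228) (nat_lit 0) (XT.nd (nat_lit 78) (nat_lit 0) (nat_lit 0) (XT.lf (nat_lit 0) (nat_lit 157575384920) (nat_lit 76) (nat_lit 100213494026) (nat_lit 152) (nat_lit 169802481442) (nat_lit 50) (nat_lit 5) (nat_lit 51) (nat_lit 5) (nat_lit 52) (nat_lit 4) (nat_lit 521) (nat_lit 456) (nat_lit 223)) (XT.lf (nat_lit 0) (nat_lit 389148752270) (nat_lit 152) (nat_lit 17093758939) (nat_lit 0) (nat_lit 35918256022) (nat_lit 50) (nat_lit 5) (nat_lit 52) (nat_lit 4) (nat_lit 50) (nat_lit 4) (nat_lit 522) (nat_lit 456) (nat_lit 222))) (XT.nd (nat_lit 78) (nat_lit 76) (nat_lit 0) (XT.lf (nat_lit 0) (nat_lit 73105807477) (nat_lit 152) (nat_lit 203363776078) (nat_lit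 76) (nat_lit 180648912150) (nat_lit 48) (nat_lit 5) (nat_lit 50) (nat_lit 5) (nat_lit 49) (nat_lit 4) (nat_lit 523) (nat_lit 456) (nat_lit 221)) (XT.lf (nat_lit 0) (nat_lit 67206386875) (nat_lit 76) (nat_lit 137884951966) (nat_lit 152) (nat_lit 267622150838) (nat_lit 47) (nat_lit 5) (nat_lit 48) (nat_lit 5) (nat_lit 49) (nat_lit 4) (nat_lit 524) (nat_lit 456) (nat_lit 220)))) (XT.nd (nat_lit 156) (nat_lit 152) (nat_lit 0) (XT.nd (nat_lit 78) (nat_lit 76) (nat_lit 0) (XT.lf (nat_lit 0) (nat_lit 347295632269) (nat_lit 152) (nat_lit 130726495205) (nat_lit 0) (nat_lit 10885131606) (nat_lit 47) (nat_lit 5) (nat_lit 49) (nat_lit 4) (nat_lit 47) (nat_lit 4) (nat_lit 525) (nat_lit 456) (nat_lit 219)) (XT.lf (nat_lit 0) (nat_lit 160675067536) (nat_lit 76) (nat_lit 340703929783) (nat_lit 76) (nat_lit 4293276788) (nat_lit 46) (nat_lit 4) (nat_lit 47) (nat_lit 5) (nat_lit 47) (nat_lit 4) (nat_lit 526) (nat_lit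 456) (nat_lit 218))) (XT.nd (nat_lit 78) (nat_lit 76) (nat_lit 0) (XT.lf (nat_lit 0) (nat_lit 137663675607) (nat_lit 152) (nat_lit 54200263078) (nat_lit 76) (nat_lit 331189893172) (nat_lit 45) (nat_lit 5) (nat_lit 47) (nat_lit 5) (nat_lit 46) (nat_lit 4) (nat_lit 527) (nat_lit 456) (nat_lit 217)) (XT.lf (nat_lit 0) (nat_lit 259367258992) (nat_lit 76) (nat_lit 31256250878) (nat_lit 152) (nat_lit 250474972722) (nat_lit 44) (nat_lit 5) (nat_lit 45) (nat_lit 5) (nat_lit 46) (nat_lit 4) (nat_lit 528) (nat_lit 456) (nat_lit 216))))))))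
noncomputable def xc204 : XT := (XT.nd (nat_lit 57954) (nat_lit 0) (nat_lit 3420) (XT.nd (nat_lit 1170) (nat_lit 152) (nat_lit 0) (XT.nd (nat_lit 546) (nat_lit 456) (nat_lit 0) (XT.nd (nat_lit 234) (nat_lit 228) (nat_lit 0) (XT.nd (nat_lit 78) (nat_lit 152) (nat_lit 0) (XT.lf (nat_lit 0) (nat_lit 29272063858) (nat_lit 76) (nat_lit 425494028674) (nat_lit 76) (nat_lit 105102535500) (nat_lit 43) (nat_lit 4) (nat_lit 44) (nat_lit 5) (nat_lit 44) (nat_lit 4) (nat_lit 529) (nat_lit 456) (nat_lit 215)) (XT.nd (nat_lit 78) (nat_lit 76) (nat_lit 0) (XT.lf (nat_lit 0) (nat_lit 51378730722) (nat_lit 152) (nat_lit 215065214548) (nat_lit 76) (nat_lit 312828138160) (nat_lit 42) (nat_lit 5) (nat_lit 44) (nat_lit 5) (nat_lit 43) (nat_lit 4) (nat_lit 530) (nat_lit 456) (nat_lit 214)) (XT.lf (nat_lit 0) (nat_lit 118305993452) (nat_lit 76) (nat_lit 95692894183) (nat_lit 152) (nat_lit 385468326256) (nat_lit 41)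 (nat_lit 5) (nat_lit 42) (nat_lit 5) (nat_lit 43) (nat_lit 4) (nat_lit 531) (nat_lit 456) (nat_lit 213)))) (XT.nd (nat_lit 156) (nat_lit 152) (nat_lit 0) (XT.nd (nat_lit 78) (nat_lit 76) (nat_lit 0) (XT.lf (nat_lit 0) (nat_lit 389757031928) (nat_lit 152) (nat_lit 146042768485) (nat_lit 0) (nat_lit 84621951489) (nat_lit 41) (nat_lit 5) (nat_lit 43) (nat_lit 4) (nat_lit 41) (nat_lit 4) (nat_lit 532) (nat_lit 456) (nat_lit 212)) (XT.lf (nat_lit 0) (nat_lit 211016479350) (nat_lit 76) (nat_lit 368149778684) (nat_lit 76) (nat_lit 63014600050) (nat_lit 40) (nat_lit 4) (nat_lit 41) (nat_lit 5) (nat_lit 41) (nat_lit 4) (nat_lit 533) (nat_lit 456) (nat_lit 211))) (XT.nd (nat_lit 78) (nat_lit 76) (nat_lit 0) (XT.lf (nat_lit 0) (nat_lit 111914474331) (nat_lit 152) (nat_lit 75710599773) (nat_lit 76) (nat_lit 477188932513) (nat_lit 39) (nat_lit 5) (nat_lit 41) (nat_lit 5) (nat_lit 40) (nat_lit 4) (nat_lit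 534) (nat_lit 456) (nat_lit 210)) (XT.lf (nat_lit 0) (nat_lit 298379556595) (nat_lit 152) (nat_lit 382127791102) (nat_lit 0) (nat_lit 7774450673) (nat_lit 38) (nat_lit 5) (nat_lit 40) (nat_lit 4) (nat_lit 38) (nat_lit 4) (nat_lit 535) (nat_lit 456) (nat_lit 209))))) (XT.nd (nat_lit 312) (nat_lit 228) (nat_lit 0) (XT.nd (nat_lit 156) (nat_lit 152) (nat_lit 0) (XT.nd (nat_lit 78) (nat_lit 76) (nat_lit 0) (XT.lf (nat_lit 0) (nat_lit 498546815254) (nat_lit 152) (nat_lit 6215589797) (nat_lit 0) (nat_lit 207941628547) (nat_lit 38) (nat_lit 5) (nat_lit 40) (nat_lit 4) (nat_lit 38) (nat_lit 4) (nat_lit 536) (nat_lit 456) (nat_lit 208)) (XT.lf (nat_lit 0) (nat_lit 401337307422) (nat_lit 76) (nat_lit 313651021113) (nat_lit 76) (nat_lit 23045757469) (nat_lit 37) (nat_lit 4) (nat_lit 38) (nat_lit 5) (nat_lit 38) (nat_lit 4) (nat_lit 537) (nat_lit 456) (nat_lit 207))) (XT.nd (nat_lit 78) (nat_lit 0) (nat_lit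 0) (XT.lf (nat_lit 0) (nat_lit 64135906394) (nat_lit 76) (nat_lit 108908602538) (nat_lit 152) (nat_lit 591392062675) (nat_lit 35) (nat_lit 5) (nat_lit 36) (nat_lit 5) (nat_lit 37) (nat_lit 4) (nat_lit 538) (nat_lit 456) (nat_lit 206)) (XT.lf (nat_lit 0) (nat_lit 385616356886) (nat_lit 152) (nat_lit 297302053918) (nat_lit 0) (nat_lit 108849302883) (nat_lit 35) (nat_lit 5) (nat_lit 37) (nat_lit 4) (nat_lit 35) (nat_lit 4) (nat_lit 539) (nat_lit 456) (nat_lit 205)))) (XT.nd (nat_lit 156) (nat_lit 76) (nat_lit 0) (XT.nd (nat_lit 78) (nat_lit 76) (nat_lit 0) (XT.lf (nat_lit 0) (nat_lit 128162910012) (nat_lit 76) (nat_lit 484440153425) (nat_lit 76) (nat_lit 207673036125) (nat_lit 34) (nat_lit 4) (nat_lit 35) (nat_lit 5) (nat_lit 35) (nat_lit 4) (nat_lit 540) (nat_lit 456) (nat_lit 204)) (XT.lf (nat_lit 0) (nat_lit 5823253154) (nat_lit 152) (nat_lit 264829508617) (nat_lit 76) (nat_lit 579300704141)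 (nat_lit 33) (nat_lit 5) (nat_lit 35) (nat_lit 5) (nat_lit 34) (nat_lit 4) (nat_lit 541) (nat_lit 456) (nat_lit 203))) (XT.nd (nat_lit 78) (nat_lit 0) (nat_lit 0) (XT.lf (nat_lit 0) (nat_lit 186378976698) (nat_lit 76) (nat_lit 39546004615) (nat_lit 152) (nat_lit 654874005455) (nat_lit 32) (nat_lit 5) (nat_lit 33) (nat_lit 5) (nat_lit 34) (nat_lit 4) (nat_lit 542) (nat_lit 456) (nat_lit 202)) (XT.lf (nat_lit 0) (nat_lit 464761450255) (nat_lit 152) (nat_lit 246865295367) (nat_lit 0) (nat_lit 201173555327) (nat_lit 32) (nat_lit 5) (nat_lit 34) (nat_lit 4) (nat_lit 32) (nat_lit 4) (nat_lit 543) (nat_lit 456) (nat_lit 201)))))) (XT.nd (nat_lit 56160) (nat_lit 0) (nat_lit 8056) (XT.nd (nat_lit 55848) (nat_lit 0) (nat_lit 8968) (XT.nd (nat_lit 55692) (nat_lit 0) (nat_lit 8892) (XT.nd (nat_lit 78) (nat_lit 76) (nat_lit 0) (XT.lf (nat_lit 0) (nat_lit 229772839982) (nat_lit 76) (nat_lit 490002502690) (nat_lit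 76) (nat_lit 226414558168) (nat_lit 31) (nat_lit 4) (nat_lit 32) (nat_lit 5) (nat_lit 32) (nat_lit 4) (nat_lit 544) (nat_lit 456) (nat_lit 200)) (XT.lf (nat_lit 0) (nat_lit 10338826968) (nat_lit 152) (nat_lit 242393396469) (nat_lit 76) (nat_lit 728299384940) (nat_lit 30) (nat_lit 5) (nat_lit 32) (nat_lit 5) (nat_lit 31) (nat_lit 4) (nat_lit 545) (nat_lit 456) (nat_lit 199))) (XT.nd (nat_lit 78) (nat_lit 0) (nat_lit 0) (XT.lf (nat_lit 0) (nat_lit 13520392643) (nat_lit 836) (nat_lit 9620714366) (nat_lit 836) (nat_lit 9620714366) (nat_lit 147) (nat_lit 3) (nat_lit 158) (nat_lit 3) (nat_lit 158) (nat_lit 5) (nat_lit 457) (nat_lit 457) (nat_lit 286)) (XT.lf (nat_lit 76) (nat_lit 13693299427) (nat_lit 0) (nat_lit 14252273337) (nat_lit 836) (nat_lit 39204720348) (nat_lit 148) (nat_lit 5) (nat_lit 147) (nat_lit 3) (nat_lit 158) (nat_lit 5) (nat_lit 458) (nat_lit 457) (nat_lit 285)))) (XT.nd (nat_lit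 156) (nat_lit 0) (nat_lit 76) (XT.nd (nat_lit 78) (nat_lit 0) (nat_lit 0) (XT.lf (nat_lit 0) (nat_lit 29528407738) (nat_lit 760) (nat_lit 20207680486) (nat_lit 836) (nat_lit 19090547507) (nat_lit 148) (nat_lit 5) (nat_lit 158) (nat_lit 5) (nat_lit 159) (nat_lit 5) (nat_lit 459) (nat_lit 457) (nat_lit 284)) (XT.lf (nat_lit 76) (nat_lit 14948346894) (nat_lit 0) (nat_lit 16708152824) (nat_lit 836) (nat_lit 38906990143) (nat_lit 149) (nat_lit 5) (nat_lit 148) (nat_lit 5) (nat_lit 159) (nat_lit 5) (nat_lit 460) (nat_lit 457) (nat_lit 283))) (XT.nd (nat_lit 78) (nat_lit 0) (nat_lit 0) (XT.lf (nat_lit 0) (nat_lit 34518540156) (nat_lit 760) (nat_lit 20093114082) (nat_lit 836) (nat_lit 17744155400) (nat_lit 149) (nat_lit 5) (nat_lit 159) (nat_lit 5) (nat_lit 160) (nat_lit 5) (nat_lit 461) (nat_lit 457) (nat_lit 282)) (XT.lf (nat_lit 76) (nat_lit 17490351967) (nat_lit 0) (nat_lit 20579476072) (nat_lit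 836) (nat_lit 36140610222) (nat_lit 150) (nat_lit 5) (nat_lit 149) (nat_lit 5) (nat_lit 160) (nat_lit 5) (nat_lit 462) (nat_lit 457) (nat_lit 281))))) (XT.nd (nat_lit 312) (nat_lit 1064) (nat_lit 0) (XT.nd (nat_lit 156) (nat_lit 0) (nat_lit 76) (XT.nd (nat_lit 78) (nat_lit 0) (nat_lit 0) (XT.lf (nat_lit 0) (nat_lit 42380349438) (nat_lit 760) (nat_lit 18732980509) (nat_lit 836) (nat_lit 15015385035) (nat_lit 150) (nat_lit 5) (nat_lit 160) (nat_lit 5) (nat_lit 161) (nat_lit 5) (nat_lit 463) (nat_lit 457) (nat_lit 280)) (XT.lf (nat_lit 76) (nat_lit 21503800729) (nat_lit 0) (nat_lit 26074939971) (nat_lit 836) (nat_lit 30530547765) (nat_lit 151) (nat_lit 5) (nat_lit 150) (nat_lit 5) (nat_lit 161) (nat_lit 5) (nat_lit 464) (nat_lit 457) (nat_lit 279))) (XT.nd (nat_lit 78) (nat_lit 0) (nat_lit 0) (XT.lf (nat_lit 0) (nat_lit 53526072310) (nat_lit 760) (nat_lit 15943335564) (nat_lit 836) (nat_lit 10695031819)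 (nat_lit 151) (nat_lit 5) (nat_lit 161) (nat_lit 5) (nat_lit 162) (nat_lit 5) (nat_lit 465) (nat_lit 457) (nat_lit 278)) (XT.lf (nat_lit 76) (nat_lit 27194284002) (nat_lit 0) (nat_lit 33427829128) (nat_lit 836) (nat_lit 21657668327) (nat_lit 152) (nat_lit 5) (nat_lit 151) (nat_lit 5) (nat_lit 162) (nat_lit 5) (nat_lit 466) (nat_lit 457) (nat_lit 277)))) (XT.nd (nat_lit 156) (nat_lit 456) (nat_lit 0) (XT.nd (nat_lit 78) (nat_lit 760) (nat_lit 0) (XT.lf (nat_lit 0) (nat_lit 68415665572) (nat_lit 760) (nat_lit 11519053815) (nat_lit 76) (nat_lit 4549035543) (nat_lit 152) (nat_lit 5) (nat_lit 162) (nat_lit 5) (nat_lit 153) (nat_lit 5) (nat_lit 467) (nat_lit 457) (nat_lit 276)) (XT.lf (nat_lit 0) (nat_lit 34790666507) (nat_lit 760) (nat_lit 42898769613) (nat_lit 836) (nat_lit 9053964029) (nat_lit 142) (nat_lit 5) (nat_lit 152) (nat_lit 5) (nat_lit 153) (nat_lit 5) (nat_lit 468) (nat_lit 457) (nat_lit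 275))) (XT.nd (nat_lit 78) (nat_lit 456) (nat_lit 0) (XT.lf (nat_lit 0) (nat_lit 83815230626) (nat_lit 760) (nat_lit 3806130405) (nat_lit 836) (nat_lit 1484943396) (nat_lit 142) (nat_lit 5) (nat_lit 152) (nat_lit 5) (nat_lit 153) (nat_lit 5) (nat_lit 469) (nat_lit 457) (nat_lit 274)) (XT.lf (nat_lit 0) (nat_lit 7552975511) (nat_lit 456) (nat_lit 47097891803) (nat_lit 76) (nat_lit 36866577355) (nat_lit 136) (nat_lit 5) (nat_lit 142) (nat_lit 5) (nat_lit 137) (nat_lit 5) (nat_lit 470) (nat_lit 457) (nat_lit 273))))))) (XT.nd (nat_lit 1170) (nat_lit 1824) (nat_lit 0) (XT.nd (nat_lit 546) (nat_lit 1444) (nat_lit 0) (XT.nd (nat_lit 234) (nat_lit 608) (nat_lit 0) (XT.nd (nat_lit 78) (nat_lit 380) (nat_lit 0) (XT.lf (nat_lit 0) (nat_lit 2754112909) (nat_lit 380) (nat_lit 14434669569) (nat_lit 456) (nat_lit 76849347558) (nat_lit 131) (nat_lit 5) (nat_lit 136) (nat_lit 5) (nat_lit 137) (nat_lit 5) (nat_lit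 471) (nat_lit 457) (nat_lit 272)) (XT.nd (nat_lit 78) (nat_lit 380) (nat_lit 0) (XT.lf (nat_lit 0) (nat_lit 28550441089) (nat_lit 456) (nat_lit 40358700225) (nat_lit 76) (nat_lit 27713505367) (nat_lit 131) (nat_lit 5) (nat_lit 137) (nat_lit 5) (nat_lit 132) (nat_lit 5) (nat_lit 472) (nat_lit 457) (nat_lit 271)) (XT.lf (nat_lit 0) (nat_lit 13301415009) (nat_lit 380) (nat_lit 27622544004) (nat_lit 456) (nat_lit 58390241399) (nat_lit 126) (nat_lit 5) (nat_lit 131) (nat_lit 5) (nat_lit 132) (nat_lit 5) (nat_lit 473) (nat_lit 457) (nat_lit 270)))) (XT.nd (nat_lit 156) (nat_lit 304) (nat_lit 0) (XT.nd (nat_lit 78) (nat_lit 304) (nat_lit 0) (XT.lf (nat_lit 0) (nat_lit 54855901985) (nat_lit 456) (nat_lit 31317805125) (nat_lit 76) (nat_lit 15919637328) (nat_lit 126) (nat_lit 5) (nat_lit 132) (nat_lit 5) (nat_lit 127) (nat_lit 5) (nat_lit 474) (nat_lit 457) (nat_lit 269)) (XT.lf (nat_lit 0) (nat_lit 26506932492)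 (nat_lit 304) (nat_lit 43843696252) (nat_lit 380) (nat_lit 34617507656) (nat_lit 122) (nat_lit 5) (nat_lit 126) (nat_lit 5) (nat_lit 127) (nat_lit 5) (nat_lit 475) (nat_lit 457) (nat_lit 268))) (XT.nd (nat_lit 78) (nat_lit 304) (nat_lit 0) (XT.lf (nat_lit 0) (nat_lit 87168104801) (nat_lit 380) (nat_lit 19668629136) (nat_lit 76) (nat_lit 1122533436) (nat_lit 122) (nat_lit 5) (nat_lit 127) (nat_lit 5) (nat_lit 123) (nat_lit 5) (nat_lit 476) (nat_lit 457) (nat_lit 267)) (XT.lf (nat_lit 0) (nat_lit 42711316668) (nat_lit 304) (nat_lit 63500277465) (nat_lit 380) (nat_lit 4819103847) (nat_lit 118) (nat_lit 5) (nat_lit 122) (nat_lit 5) (nat_lit 123) (nat_lit 5) (nat_lit 477) (nat_lit 457) (nat_lit 266))))) (XT.nd (nat_lit 312) (nat_lit 760) (nat_lit 0) (XT.nd (nat_lit 156) (nat_lit 304) (nat_lit 0) (XT.nd (nat_lit 78) (nat_lit 304) (nat_lit 0) (XT.lf (nat_lit 0) (nat_lit 11907144751) (nat_lit 380) (nat_lit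 5538536625) (nat_lit 76) (nat_lit 96783783357) (nat_lit 117) (nat_lit 5) (nat_lit 122) (nat_lit 5) (nat_lit 118) (nat_lit 5) (nat_lit 478) (nat_lit 457) (nat_lit 265)) (XT.lf (nat_lit 0) (nat_lit 30779792306) (nat_lit 380) (nat_lit 55739784348) (nat_lit 76) (nat_lit 30991041135) (nat_lit 113) (nat_lit 5) (nat_lit 118) (nat_lit 5) (nat_lit 114) (nat_lit 5) (nat_lit 479) (nat_lit 457) (nat_lit 264))) (XT.nd (nat_lit 78) (nat_lit 0) (nat_lit 0) (XT.lf (nat_lit 0) (nat_lit 11775652257) (nat_lit 304) (nat_lit 39385186313) (nat_lit 380) (nat_lit 69766751660) (nat_lit 109) (nat_lit 5) (nat_lit 113) (nat_lit 5) (nat_lit 114) (nat_lit 5) (nat_lit 480) (nat_lit 457) (nat_lit 263)) (XT.lf (nat_lit 0) (nat_lit 73677769207) (nat_lit 380) (nat_lit 40039987467) (nat_lit 76) (nat_lit 10741813061) (nat_lit 109) (nat_lit 5) (nat_lit 114) (nat_lit 5) (nat_lit 110) (nat_lit 5) (nat_lit 481) (nat_lit 457) (nat_lit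 262)))) (XT.nd (nat_lit 156) (nat_lit 532) (nat_lit 0) (XT.nd (nat_lit 78) (nat_lit 0) (nat_lit 0) (XT.lf (nat_lit 0) (nat_lit 32935531656) (nat_lit 228) (nat_lit 65544503716) (nat_lit 304) (nat_lit 29630138438) (nat_lit 106) (nat_lit 5) (nat_lit 109) (nat_lit 5) (nat_lit 110) (nat_lit 5) (nat_lit 482) (nat_lit 457) (nat_lit 261)) (XT.lf (nat_lit 0) (nat_lit 110949420146) (nat_lit 228) (nat_lit 14250716006) (nat_lit 304) (nat_lit 6709285912) (nat_lit 106) (nat_lit 5) (nat_lit 109) (nat_lit 5) (nat_lit 110) (nat_lit 5) (nat_lit 483) (nat_lit 457) (nat_lit 260))) (XT.nd (nat_lit 78) (nat_lit 228) (nat_lit 0) (XT.lf (nat_lit 0) (nat_lit 18353930647) (nat_lit 304) (nat_lit 77908766798) (nat_lit 76) (nat_lit 39544791613) (nat_lit 102) (nat_lit 5) (nat_lit 106) (nat_lit 5) (nat_lit 103) (nat_lit 5) (nat_lit 484) (nat_lit 457) (nat_lit 259)) (XT.lf (nat_lit 0) (nat_lit 1234955852) (nat_lit 228) (nat_lit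 43823206921) (nat_lit 304) (nat_lit 94806130714) (nat_lit 99) (nat_lit 5) (nat_lit 102) (nat_lit 5) (nat_lit 103) (nat_lit 5) (nat_lit 485) (nat_lit 457) (nat_lit 258)))))) (XT.nd (nat_lit 624) (nat_lit 912) (nat_lit 0) (XT.nd (nat_lit 312) (nat_lit 456) (nat_lit 0) (XT.nd (nat_lit 156) (nat_lit 228) (nat_lit 0) (XT.nd (nat_lit 78) (nat_lit 228) (nat_lit 0) (XT.lf (nat_lit 0) (nat_lit 74613771127) (nat_lit 304) (nat_lit 57214883786) (nat_lit 76) (nat_lit 12219475026) (nat_lit 99) (nat_lit 5) (nat_lit 103) (nat_lit 5) (nat_lit 100) (nat_lit 5) (nat_lit 486) (nat_lit 457) (nat_lit 257)) (XT.lf (nat_lit 0) (nat_lit 28462369980) (nat_lit 228) (nat_lit 78347248484) (nat_lit 304) (nat_lit 41573416855) (nat_lit 96) (nat_lit 5) (nat_lit 99) (nat_lit 5) (nat_lit 100) (nat_lit 5) (nat_lit 487) (nat_lit 457) (nat_lit 256))) (XT.nd (nat_lit 78) (nat_lit 228) (nat_lit 0) (XT.lf (nat_lit 0) (nat_lit 120409382660)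 (nat_lit 228) (nat_lit 21174513613) (nat_lit 304) (nat_lit 11302357820) (nat_lit 96) (nat_lit 5) (nat_lit 99) (nat_lit 5) (nat_lit 100) (nat_lit 5) (nat_lit 488) (nat_lit 457) (nat_lit 255)) (XT.lf (nat_lit 0) (nat_lit 21405807663) (nat_lit 228) (nat_lit 97208280214) (nat_lit 76) (nat_lit 38905601009) (nat_lit 93) (nat_lit 5) (nat_lit 96) (nat_lit 5) (nat_lit 94) (nat_lit 5) (nat_lit 489) (nat_lit 457) (nat_lit 254)))) (XT.nd (nat_lit 156) (nat_lit 228) (nat_lit 0) (XT.nd (nat_lit 78) (nat_lit 228) (nat_lit 0) (XT.lf (nat_lit 0) (nat_lit 56275391530) (nat_lit 228) (nat_lit 4032561314) (nat_lit 76) (nat_lit 102022286204) (nat_lit 93) (nat_lit 5) (nat_lit 96) (nat_lit 5) (nat_lit 94) (nat_lit 5) (nat_lit 490) (nat_lit 457) (nat_lit 253)) (XT.lf (nat_lit 0) (nat_lit 94440150601) (nat_lit 304) (nat_lit 70441748477) (nat_lit 76) (nat_lit 2421832864) (nat_lit 90) (nat_lit 5) (nat_lit 94) (nat_lit 5)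 (nat_lit 91) (nat_lit 5) (nat_lit 491) (nat_lit 457) (nat_lit 252))) (XT.nd (nat_lit 78) (nat_lit 76) (nat_lit 0) (XT.lf (nat_lit 0) (nat_lit 30401587205) (nat_lit 152) (nat_lit 105643993835) (nat_lit 228) (nat_lit 36403696795) (nat_lit 88) (nat_lit 5) (nat_lit 90) (nat_lit 5) (nat_lit 91) (nat_lit 5) (nat_lit 492) (nat_lit 457) (nat_lit 251)) (XT.lf (nat_lit 0) (nat_lit 3031272020) (nat_lit 228) (nat_lit 39109133980) (nat_lit 76) (nat_lit 135649616300) (nat_lit 87) (nat_lit 5) (nat_lit 90) (nat_lit 5) (nat_lit 88) (nat_lit 5) (nat_lit 493) (nat_lit 457) (nat_lit 250))))) (XT.nd (nat_lit 312) (nat_lit 380) (nat_lit 0) (XT.nd (nat_lit 156) (nat_lit 304) (nat_lit 0) (XT.nd (nat_lit 78) (nat_lit 0) (nat_lit 0) (XT.lf (nat_lit 0) (nat_lit 44728176560) (nat_lit 304) (nat_lit 113083747630) (nat_lit 76) (nat_lit 25480361212) (nat_lit 84) (nat_lit 5) (nat_lit 88) (nat_lit 5) (nat_lit 85) (nat_lit 5)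 (nat_lit 494) (nat_lit 457) (nat_lit 249)) (XT.lf (nat_lit 0) (nat_lit 89873673882) (nat_lit 304) (nat_lit 3388790898) (nat_lit 76) (nat_lit 95739009522) (nat_lit 84) (nat_lit 5) (nat_lit 88) (nat_lit 5) (nat_lit 85) (nat_lit 5) (nat_lit 495) (nat_lit 457) (nat_lit 248))) (XT.nd (nat_lit 78) (nat_lit 152) (nat_lit 0) (XT.lf (nat_lit 0) (nat_lit 115486797616) (nat_lit 152) (nat_lit 23592465031) (nat_lit 228) (nat_lit 55826719191) (nat_lit 82) (nat_lit 5) (nat_lit 84) (nat_lit 5) (nat_lit 85) (nat_lit 5) (nat_lit 496) (nat_lit 457) (nat_lit 247)) (XT.lf (nat_lit 0) (nat_lit 39820324939) (nat_lit 152) (nat_lit 152378378439) (nat_lit 228) (nat_lit 8834332763) (nat_lit 80) (nat_lit 5) (nat_lit 82) (nat_lit 5) (nat_lit 83) (nat_lit 5) (nat_lit 497) (nat_lit 457) (nat_lit 246)))) (XT.nd (nat_lit 156) (nat_lit 152) (nat_lit 0) (XT.nd (nat_lit 78) (nat_lit 152) (nat_lit 0) (XT.lf (nat_lit 0) (nat_lit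 40964736635) (nat_lit 228) (nat_lit 40661797731) (nat_lit 76) (nat_lit 125720608789) (nat_lit 79) (nat_lit 5) (nat_lit 82) (nat_lit 5) (nat_lit 80) (nat_lit 5) (nat_lit 498) (nat_lit 457) (nat_lit 245)) (XT.lf (nat_lit 0) (nat_lit 88607427571) (nat_lit 152) (nat_lit 5732611552) (nat_lit 228) (nat_lit 119560516598) (nat_lit 77) (nat_lit 5) (nat_lit 79) (nat_lit 5) (nat_lit 80) (nat_lit 5) (nat_lit 499) (nat_lit 457) (nat_lit 244))) (XT.nd (nat_lit 78) (nat_lit 0) (nat_lit 0) (XT.lf (nat_lit 0) (nat_lit 3965149901) (nat_lit 152) (nat_lit 148335204286) (nat_lit 228) (nat_lit 68385472370) (nat_lit 75) (nat_lit 5) (nat_lit 77) (nat_lit 5) (nat_lit 78) (nat_lit 5) (nat_lit 500) (nat_lit 457) (nat_lit 243)) (XT.lf (nat_lit 0) (nat_lit 143938755753) (nat_lit 152) (nat_lit 71434059174) (nat_lit 228) (nat_lit 12326839528) (nat_lit 75) (nat_lit 5) (nat_lit 77) (nat_lit 5) (nat_lit 78) (nat_lit 5) (nat_lit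 501) (nat_lit 457) (nat_lit 242))))))))
noncomputable def xc205 : XT := (XT.nd (nat_lit 2418) (nat_lit 684) (nat_lit 0) (XT.nd (nat_lit 1170) (nat_lit 1216) (nat_lit 0) (XT.nd (nat_lit 546) (nat_lit 684) (nat_lit 0) (XT.nd (nat_lit 234) (nat_lit 304) (nat_lit 0) (XT.nd (nat_lit 78) (nat_lit 152) (nat_lit 0) (XT.lf (nat_lit 0) (nat_lit 46106001494) (nat_lit 228) (nat_lit 178212816966) (nat_lit 76) (nat_lit 10655994508) (nat_lit 72) (nat_lit 5) (nat_lit 75) (nat_lit 5) (nat_lit 73) (nat_lit 5) (nat_lit 502) (nat_lit 457) (nat_lit 241)) (XT.nd (nat_lit 78) (nat_lit 152) (nat_lit 0) (XT.lf (nat_lit 0) (nat_lit 109658836393) (nat_lit 228) (nat_lit 36720549111) (nat_lit 76) (nat_lit 96093609226) (nat_lit 72) (nat_lit 5) (nat_lit 75) (nat_lit 5) (nat_lit 73) (nat_lit 5) (nat_lit 503) (nat_lit 457) (nat_lit 240)) (XT.lf (nat_lit 0) (nat_lit 115544096348) (nat_lit 152) (nat_lit 62648972751) (nat_lit 228)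 (nat_lit 72062828688) (nat_lit 70) (nat_lit 5) (nat_lit 72) (nat_lit 5) (nat_lit 73) (nat_lit 5) (nat_lit 504) (nat_lit 457) (nat_lit 239)))) (XT.nd (nat_lit 156) (nat_lit 152) (nat_lit 0) (XT.nd (nat_lit 78) (nat_lit 76) (nat_lit 0) (XT.lf (nat_lit 0) (nat_lit 18486594243) (nat_lit 76) (nat_lit 232982416316) (nat_lit 152) (nat_lit 6893185595) (nat_lit 69) (nat_lit 5) (nat_lit 70) (nat_lit 5) (nat_lit 71) (nat_lit 4) (nat_lit 505) (nat_lit 457) (nat_lit 238)) (XT.lf (nat_lit 0) (nat_lit 62911071093) (nat_lit 152) (nat_lit 84763476397) (nat_lit 76) (nat_lit 118983943625) (nat_lit 68) (nat_lit 5) (nat_lit 70) (nat_lit 5) (nat_lit 69) (nat_lit 5) (nat_lit 506) (nat_lit 457) (nat_lit 237))) (XT.nd (nat_lit 78) (nat_lit 0) (nat_lit 0) (XT.lf (nat_lit 0) (nat_lit 80569630011) (nat_lit 152) (nat_lit 56661973773) (nat_lit 228) (nat_lit 138069460930) (nat_lit 66) (nat_lit 5) (nat_lit 68) (nat_lit 5) (nat_lit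 69) (nat_lit 5) (nat_lit 507) (nat_lit 457) (nat_lit 236)) (XT.lf (nat_lit 0) (nat_lit 217334367050) (nat_lit 228) (nat_lit 27823048671) (nat_lit 76) (nat_lit 39115041081) (nat_lit 66) (nat_lit 5) (nat_lit 69) (nat_lit 5) (nat_lit 67) (nat_lit 4) (nat_lit 508) (nat_lit 457) (nat_lit 235))))) (XT.nd (nat_lit 312) (nat_lit 304) (nat_lit 0) (XT.nd (nat_lit 156) (nat_lit 76) (nat_lit 0) (XT.nd (nat_lit 78) (nat_lit 152) (nat_lit 0) (XT.lf (nat_lit 0) (nat_lit 10847392884) (nat_lit 152) (nat_lit 142357259390) (nat_lit 76) (nat_lit 140314437060) (nat_lit 64) (nat_lit 5) (nat_lit 66) (nat_lit 5) (nat_lit 65) (nat_lit 5) (nat_lit 509) (nat_lit 457) (nat_lit 234)) (XT.lf (nat_lit 0) (nat_lit 36934125576) (nat_lit 152) (nat_lit 54393845228) (nat_lit 228) (nat_lit 211792446416) (nat_lit 62) (nat_lit 5) (nat_lit 64) (nat_lit 5) (nat_lit 65) (nat_lit 5) (nat_lit 510) (nat_lit 457) (nat_lit 233))) (XT.nd (nat_lit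 78) (nat_lit 76) (nat_lit 0) (XT.lf (nat_lit 0) (nat_lit 179053413090) (nat_lit 228) (nat_lit 83759336790) (nat_lit 76) (nat_lit 50228019855) (nat_lit 62) (nat_lit 5) (nat_lit 65) (nat_lit 5) (nat_lit 63) (nat_lit 4) (nat_lit 511) (nat_lit 457) (nat_lit 232)) (XT.lf (nat_lit 0) (nat_lit 110431434785) (nat_lit 76) (nat_lit 163349362783) (nat_lit 152) (nat_lit 49545558810) (nat_lit 61) (nat_lit 5) (nat_lit 62) (nat_lit 5) (nat_lit 63) (nat_lit 4) (nat_lit 512) (nat_lit 457) (nat_lit 231)))) (XT.nd (nat_lit 156) (nat_lit 76) (nat_lit 0) (XT.nd (nat_lit 78) (nat_lit 152) (nat_lit 0) (XT.lf (nat_lit 0) (nat_lit 39307881265) (nat_lit 152) (nat_lit 17449942859) (nat_lit 76) (nat_lit 277265781741) (nat_lit 60) (nat_lit 5) (nat_lit 62) (nat_lit 5) (nat_lit 61) (nat_lit 5) (nat_lit 513) (nat_lit 457) (nat_lit 230)) (XT.lf (nat_lit 0) (nat_lit 134878168652) (nat_lit 228) (nat_lit 152852022736) (nat_lit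 76) (nat_lit 57287953780) (nat_lit 58) (nat_lit 5) (nat_lit 61) (nat_lit 5) (nat_lit 59) (nat_lit 4) (nat_lit 514) (nat_lit 457) (nat_lit 229))) (XT.nd (nat_lit 78) (nat_lit 0) (nat_lit 0) (XT.lf (nat_lit 0) (nat_lit 57216864143) (nat_lit 76) (nat_lit 180134079380) (nat_lit 152) (nat_lit 119105269264) (nat_lit 57) (nat_lit 5) (nat_lit 58) (nat_lit 5) (nat_lit 59) (nat_lit 4) (nat_lit 515) (nat_lit 457) (nat_lit 228)) (XT.lf (nat_lit 0) (nat_lit 283095567068) (nat_lit 76) (nat_lit 64440249708) (nat_lit 152) (nat_lit 20800944035) (nat_lit 57) (nat_lit 5) (nat_lit 58) (nat_lit 5) (nat_lit 59) (nat_lit 4) (nat_lit 516) (nat_lit 457) (nat_lit 227)))))) (XT.nd (nat_lit 624) (nat_lit 532) (nat_lit 0) (XT.nd (nat_lit 312) (nat_lit 228) (nat_lit 0) (XT.nd (nat_lit 156) (nat_lit 228) (nat_lit 0) (XT.nd (nat_lit 78) (nat_lit 0) (nat_lit 0) (XT.lf (nat_lit 0) (nat_lit 82957227956) (nat_lit 228) (nat_lit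 238845426396) (nat_lit 76) (nat_lit 58785515610) (nat_lit 54) (nat_lit 5) (nat_lit 57) (nat_lit 5) (nat_lit 55) (nat_lit 4) (nat_lit 517) (nat_lit 457) (nat_lit 226)) (XT.lf (nat_lit 0) (nat_lit 193727767163) (nat_lit 228) (nat_lit 11766069152) (nat_lit 76) (nat_lit 187815087966) (nat_lit 54) (nat_lit 5) (nat_lit 57) (nat_lit 5) (nat_lit 55) (nat_lit 4) (nat_lit 518) (nat_lit 457) (nat_lit 225))) (XT.nd (nat_lit 78) (nat_lit 152) (nat_lit 0) (XT.lf (nat_lit 0) (nat_lit 234161606953) (nat_lit 76) (nat_lit 79530995538) (nat_lit 152) (nat_lit 92790325375) (nat_lit 53) (nat_lit 5) (nat_lit 54) (nat_lit 5) (nat_lit 55) (nat_lit 4) (nat_lit 519) (nat_lit 457) (nat_lit 224)) (XT.lf (nat_lit 0) (nat_lit 20938285619) (nat_lit 152) (nat_lit 346513136592) (nat_lit 76) (nat_lit 52738249805) (nat_lit 51) (nat_lit 5) (nat_lit 53) (nat_lit 5) (nat_lit 52) (nat_lit 4) (nat_lit 520) (nat_lit 457) (nat_lit 223))))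 (XT.nd (nat_lit 156) (nat_lit 152) (nat_lit 0) (XT.nd (nat_lit 78) (nat_lit 76) (nat_lit 0) (XT.lf (nat_lit 0) (nat_lit 141504788570) (nat_lit 152) (nat_lit 99352009683) (nat_lit 76) (nat_lit 193435406242) (nat_lit 51) (nat_lit 5) (nat_lit 53) (nat_lit 5) (nat_lit 52) (nat_lit 4) (nat_lit 521) (nat_lit 457) (nat_lit 222)) (XT.lf (nat_lit 0) (nat_lit 165462744363) (nat_lit 76) (nat_lit 105220067848) (nat_lit 152) (nat_lit 178287891613) (nat_lit 50) (nat_lit 5) (nat_lit 51) (nat_lit 5) (nat_lit 52) (nat_lit 4) (nat_lit 522) (nat_lit 457) (nat_lit 221))) (XT.nd (nat_lit 78) (nat_lit 152) (nat_lit 0) (XT.lf (nat_lit 0) (nat_lit 408610526401) (nat_lit 152) (nat_lit 17940112834) (nat_lit 0) (nat_lit 37717949419) (nat_lit 50) (nat_lit 5) (nat_lit 52) (nat_lit 4) (nat_lit 50) (nat_lit 4) (nat_lit 523) (nat_lit 457) (nat_lit 220)) (XT.lf (nat_lit 0) (nat_lit 76765425794) (nat_lit 152) (nat_lit 213523622048)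 (nat_lit 76) (nat_lit 189685156150) (nat_lit 48) (nat_lit 5) (nat_lit 50) (nat_lit 5) (nat_lit 49) (nat_lit 4) (nat_lit 524) (nat_lit 457) (nat_lit 219))))) (XT.nd (nat_lit 312) (nat_lit 304) (nat_lit 0) (XT.nd (nat_lit 156) (nat_lit 152) (nat_lit 0) (XT.nd (nat_lit 78) (nat_lit 0) (nat_lit 0) (XT.lf (nat_lit 0) (nat_lit 70574914491) (nat_lit 76) (nat_lit 144775241297) (nat_lit 152) (nat_lit 280998795778) (nat_lit 47) (nat_lit 5) (nat_lit 48) (nat_lit 5) (nat_lit 49) (nat_lit 4) (nat_lit 525) (nat_lit 457) (nat_lit 218)) (XT.lf (nat_lit 0) (nat_lit 364664520363) (nat_lit 152) (nat_lit 137254858947) (nat_lit 0) (nat_lit 11433037308) (nat_lit 47) (nat_lit 5) (nat_lit 49) (nat_lit 4) (nat_lit 47) (nat_lit 4) (nat_lit 526) (nat_lit 457) (nat_lit 217))) (XT.nd (nat_lit 78) (nat_lit 76) (nat_lit 0) (XT.lf (nat_lit 0) (nat_lit 168716653527) (nat_lit 76) (nat_lit 357735326880) (nat_lit 76) (nat_lit 4503705656)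 (nat_lit 46) (nat_lit 4) (nat_lit 47) (nat_lit 5) (nat_lit 47) (nat_lit 4) (nat_lit 527) (nat_lit 457) (nat_lit 216)) (XT.lf (nat_lit 0) (nat_lit 144550763602) (nat_lit 152) (nat_lit 56902687428) (nat_lit 76) (nat_lit 347752877129) (nat_lit 45) (nat_lit 5) (nat_lit 47) (nat_lit 5) (nat_lit 46) (nat_lit 4) (nat_lit 528) (nat_lit 457) (nat_lit 215)))) (XT.nd (nat_lit 156) (nat_lit 152) (nat_lit 0) (XT.nd (nat_lit 78) (nat_lit 76) (nat_lit 0) (XT.lf (nat_lit 0) (nat_lit 272343088345) (nat_lit 76) (nat_lit 32815431890) (nat_lit 152) (nat_lit 262994694668) (nat_lit 44) (nat_lit 5) (nat_lit 45) (nat_lit 5) (nat_lit 46) (nat_lit 4) (nat_lit 529) (nat_lit 457) (nat_lit 214)) (XT.lf (nat_lit 0) (nat_lit 30743145971) (nat_lit 76) (nat_lit 446765074212) (nat_lit 76) (nat_lit 110353648028) (nat_lit 43) (nat_lit 4) (nat_lit 44) (nat_lit 5) (nat_lit 44) (nat_lit 4) (nat_lit 530) (nat_lit 457) (nat_lit 213)))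 (XT.nd (nat_lit 78) (nat_lit 76) (nat_lit 0) (XT.lf (nat_lit 0) (nat_lit 53951367988) (nat_lit 152) (nat_lit 225811230066) (nat_lit 76) (nat_lit 328472904445) (nat_lit 42) (nat_lit 5) (nat_lit 44) (nat_lit 5) (nat_lit 43) (nat_lit 4) (nat_lit 531) (nat_lit 457) (nat_lit 212)) (XT.lf (nat_lit 0) (nat_lit 124228421475) (nat_lit 76) (nat_lit 100474046340) (nat_lit 152) (nat_lit 404737924918) (nat_lit 41) (nat_lit 5) (nat_lit 42) (nat_lit 5) (nat_lit 43) (nat_lit 4) (nat_lit 532) (nat_lit 457) (nat_lit 211))))))) (XT.nd (nat_lit 56862) (nat_lit 0) (nat_lit 6840) (XT.nd (nat_lit 546) (nat_lit 228) (nat_lit 0) (XT.nd (nat_lit 234) (nat_lit 304) (nat_lit 0) (XT.nd (nat_lit 78) (nat_lit 152) (nat_lit 0) (XT.lf (nat_lit 0) (nat_lit 409248398121) (nat_lit 152) (nat_lit 153337996743) (nat_lit 0) (nat_lit 88856268843) (nat_lit 41) (nat_lit 5) (nat_lit 43) (nat_lit 4) (nat_lit 41) (nat_lit 4) (nat_lit 533)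 (nat_lit 457) (nat_lit 210)) (XT.nd (nat_lit 78) (nat_lit 76) (nat_lit 0) (XT.lf (nat_lit 0) (nat_lit 221574102028) (nat_lit 76) (nat_lit 386553922289) (nat_lit 76) (nat_lit 66161703945) (nat_lit 40) (nat_lit 4) (nat_lit 41) (nat_lit 5) (nat_lit 41) (nat_lit 4) (nat_lit 534) (nat_lit 457) (nat_lit 209)) (XT.lf (nat_lit 0) (nat_lit 117513540951) (nat_lit 152) (nat_lit 79489544216) (nat_lit 76) (nat_lit 501051454584) (nat_lit 39) (nat_lit 5) (nat_lit 41) (nat_lit 5) (nat_lit 40) (nat_lit 4) (nat_lit 535) (nat_lit 457) (nat_lit 208)))) (XT.nd (nat_lit 156) (nat_lit 228) (nat_lit 0) (XT.nd (nat_lit 78) (nat_lit 0) (nat_lit 0) (XT.lf (nat_lit 0) (nat_lit 313301869178) (nat_lit 152) (nat_lit 401227586911) (nat_lit 0) (nat_lit 8166265413) (nat_lit 38) (nat_lit 5) (nat_lit 40) (nat_lit 4) (nat_lit 38) (nat_lit 4) (nat_lit 536) (nat_lit 457) (nat_lit 207)) (XT.lf (nat_lit 0) (nat_lit 523477331972) (nat_lit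 152) (nat_lit 6520089528) (nat_lit 0) (nat_lit 218341654933) (nat_lit 38) (nat_lit 5) (nat_lit 40) (nat_lit 4) (nat_lit 38) (nat_lit 4) (nat_lit 537) (nat_lit 457) (nat_lit 206))) (XT.nd (nat_lit 78) (nat_lit 152) (nat_lit 0) (XT.lf (nat_lit 0) (nat_lit 421410351265) (nat_lit 76) (nat_lit 329330514880) (nat_lit 76) (nat_lit 24194768056) (nat_lit 37) (nat_lit 4) (nat_lit 38) (nat_lit 5) (nat_lit 38) (nat_lit 4) (nat_lit 538) (nat_lit 457) (nat_lit 205)) (XT.lf (nat_lit 0) (nat_lit 67348883776) (nat_lit 76) (nat_lit 114350968448) (nat_lit 152) (nat_lit 620958392031) (nat_lit 35) (nat_lit 5) (nat_lit 36) (nat_lit 5) (nat_lit 37) (nat_lit 4) (nat_lit 539) (nat_lit 457) (nat_lit 204))))) (XT.nd (nat_lit 312) (nat_lit 0) (nat_lit 0) (XT.nd (nat_lit 156) (nat_lit 152) (nat_lit 0) (XT.nd (nat_lit 78) (nat_lit 76) (nat_lit 0) (XT.lf (nat_lit 0) (nat_lit 404900189670) (nat_lit 152) (nat_lit 312161165991)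 (nat_lit 0) (nat_lit 114294592925) (nat_lit 35) (nat_lit 5) (nat_lit 37) (nat_lit 4) (nat_lit 35) (nat_lit 4) (nat_lit 540) (nat_lit 457) (nat_lit 203)) (XT.lf (nat_lit 0) (nat_lit 134576949512) (nat_lit 76) (nat_lit 508659230490) (nat_lit 76) (nat_lit 218053576332) (nat_lit 34) (nat_lit 4) (nat_lit 35) (nat_lit 5) (nat_lit 35) (nat_lit 4) (nat_lit 541) (nat_lit 457) (nat_lit 202))) (XT.nd (nat_lit 78) (nat_lit 76) (nat_lit 0) (XT.lf (nat_lit 0) (nat_lit 6117284390) (nat_lit 152) (nat_lit 278065275834) (nat_lit 76) (nat_lit 608268435520) (nat_lit 33) (nat_lit 5) (nat_lit 35) (nat_lit 5) (nat_lit 34) (nat_lit 4) (nat_lit 542) (nat_lit 457) (nat_lit 201)) (XT.lf (nat_lit 0) (nat_lit 195703541679) (nat_lit 76) (nat_lit 41520508364) (nat_lit 152) (nat_lit 687614745049) (nat_lit 32) (nat_lit 5) (nat_lit 33) (nat_lit 5) (nat_lit 34) (nat_lit 4) (nat_lit 543) (nat_lit 457) (nat_lit 200)))) (XT.nd (nat_lit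 55848) (nat_lit 0) (nat_lit 8740) (XT.nd (nat_lit 55770) (nat_lit 0) (nat_lit 8740) (XT.lf (nat_lit 0) (nat_lit 488002249744) (nat_lit 152) (nat_lit 259203118707) (nat_lit 0) (nat_lit 211234811167) (nat_lit 32) (nat_lit 5) (nat_lit 34) (nat_lit 4) (nat_lit 32) (nat_lit 4) (nat_lit 544) (nat_lit 457) (nat_lit 199)) (XT.lf (nat_lit 0) (nat_lit 14211155506) (nat_lit 836) (nat_lit 10094008748) (nat_lit 836) (nat_lit 10094008748) (nat_lit 147) (nat_lit 3) (nat_lit 158) (nat_lit 3) (nat_lit 158) (nat_lit 5) (nat_lit 458) (nat_lit 458) (nat_lit 284))) (XT.nd (nat_lit 78) (nat_lit 0) (nat_lit 76) (XT.lf (nat_lit 76) (nat_lit 14393197350) (nat_lit 0) (nat_lit 14977974224) (nat_lit 836) (nat_lit 41135215840) (nat_lit 148) (nat_lit 5) (nat_lit 147) (nat_lit 3) (nat_lit 158) (nat_lit 5) (nat_lit 459) (nat_lit 458) (nat_lit 283)) (XT.lf (nat_lit 0) (nat_lit 31031605120) (nat_lit 760) (nat_lit 21202009622)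 (nat_lit 836) (nat_lit 20033009789) (nat_lit 148) (nat_lit 5) (nat_lit 158) (nat_lit 5) (nat_lit 159) (nat_lit 5) (nat_lit 460) (nat_lit 458) (nat_lit 282)))))) (XT.nd (nat_lit 624) (nat_lit 1976) (nat_lit 0) (XT.nd (nat_lit 312) (nat_lit 0) (nat_lit 152) (XT.nd (nat_lit 156) (nat_lit 0) (nat_lit 76) (XT.nd (nat_lit 78) (nat_lit 0) (nat_lit 76) (XT.lf (nat_lit 76) (nat_lit 15711560177) (nat_lit 0) (nat_lit 17553513046) (nat_lit 836) (nat_lit 40825299765) (nat_lit 149) (nat_lit 5) (nat_lit 148) (nat_lit 5) (nat_lit 159) (nat_lit 5) (nat_lit 461) (nat_lit 458) (nat_lit 281)) (XT.lf (nat_lit 0) (nat_lit 36268841575) (nat_lit 760) (nat_lit 21081348175) (nat_lit 836) (nat_lit 18622187897) (nat_lit 149) (nat_lit 5) (nat_lit 159) (nat_lit 5) (nat_lit 160) (nat_lit 5) (nat_lit 462) (nat_lit 458) (nat_lit 280))) (XT.nd (nat_lit 78) (nat_lit 0) (nat_lit 76) (XT.lf (nat_lit 76) (nat_lit 18381026312) (nat_lit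 0) (nat_lit 21615759106) (nat_lit 836) (nat_lit 37922997884) (nat_lit 150) (nat_lit 5) (nat_lit 149) (nat_lit 5) (nat_lit 160) (nat_lit 5) (nat_lit 463) (nat_lit 458) (nat_lit 279)) (XT.lf (nat_lit 0) (nat_lit 44521606776) (nat_lit 760) (nat_lit 19653012643) (nat_lit 836) (nat_lit 15759415916) (nat_lit 150) (nat_lit 5) (nat_lit 160) (nat_lit 5) (nat_lit 161) (nat_lit 5) (nat_lit 464) (nat_lit 458) (nat_lit 278)))) (XT.nd (nat_lit 156) (nat_lit 0) (nat_lit 76) (XT.nd (nat_lit 78) (nat_lit 0) (nat_lit 76) (XT.lf (nat_lit 76) (nat_lit 22595339642) (nat_lit 0) (nat_lit 27383774169) (nat_lit 836) (nat_lit 32034564031) (nat_lit 151) (nat_lit 5) (nat_lit 150) (nat_lit 5) (nat_lit 161) (nat_lit 5) (nat_lit 465) (nat_lit 458) (nat_lit 277)) (XT.lf (nat_lit 0) (nat_lit 56222715593) (nat_lit 760) (nat_lit 16723832487) (nat_lit 836) (nat_lit 11225093527) (nat_lit 151) (nat_lit 5) (nat_lit 161) (nat_lit 5)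 (nat_lit 162) (nat_lit 5) (nat_lit 466) (nat_lit 458) (nat_lit 276))) (XT.nd (nat_lit 78) (nat_lit 0) (nat_lit 76) (XT.lf (nat_lit 76) (nat_lit 28570399188) (nat_lit 0) (nat_lit 35102446776) (nat_lit 836) (nat_lit 22719940267) (nat_lit 152) (nat_lit 5) (nat_lit 151) (nat_lit 5) (nat_lit 162) (nat_lit 5) (nat_lit 467) (nat_lit 458) (nat_lit 275)) (XT.lf (nat_lit 0) (nat_lit 71855093429) (nat_lit 760) (nat_lit 12078401120) (nat_lit 76) (nat_lit 4773513099) (nat_lit 152) (nat_lit 5) (nat_lit 162) (nat_lit 5) (nat_lit 153) (nat_lit 5) (nat_lit 468) (nat_lit 458) (nat_lit 274))))) (XT.nd (nat_lit 312) (nat_lit 684) (nat_lit 0) (XT.nd (nat_lit 156) (nat_lit 836) (nat_lit 0) (XT.nd (nat_lit 78) (nat_lit 0) (nat_lit 0) (XT.lf (nat_lit 0) (nat_lit 36546537389) (nat_lit 760) (nat_lit 45045382353) (nat_lit 836) (nat_lit 9487747156) (nat_lit 142) (nat_lit 5) (nat_lit 152) (nat_lit 5) (nat_lit 153) (nat_lit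 5) (nat_lit 469) (nat_lit 458) (nat_lit 273)) (XT.lf (nat_lit 0) (nat_lit 88021551736) (nat_lit 760) (nat_lit 3998031458) (nat_lit 836) (nat_lit 1541176210) (nat_lit 142) (nat_lit 5) (nat_lit 152) (nat_lit 5) (nat_lit 153) (nat_lit 5) (nat_lit 470) (nat_lit 458) (nat_lit 272))) (XT.nd (nat_lit 78) (nat_lit 380) (nat_lit 0) (XT.lf (nat_lit 0) (nat_lit 7947464350) (nat_lit 456) (nat_lit 49436047799) (nat_lit 76) (nat_lit 38708960446) (nat_lit 136) (nat_lit 5) (nat_lit 142) (nat_lit 5) (nat_lit 137) (nat_lit 5) (nat_lit 471) (nat_lit 458) (nat_lit 271)) (XT.lf (nat_lit 0) (nat_lit 2908287171) (nat_lit 380) (nat_lit 15156229708) (nat_lit 456) (nat_lit 80674702701) (nat_lit 131) (nat_lit 5) (nat_lit 136) (nat_lit 5) (nat_lit 137) (nat_lit 5) (nat_lit 472) (nat_lit 458) (nat_lit 270)))) (XT.nd (nat_lit 156) (nat_lit 304) (nat_lit 0) (XT.nd (nat_lit 78) (nat_lit 380) (nat_lit 0) (XT.lf (nat_lit 0) (nat_lit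 29993485033) (nat_lit 456) (nat_lit 42360175363) (nat_lit 76) (nat_lit 29099340436) (nat_lit 131) (nat_lit 5) (nat_lit 137) (nat_lit 5) (nat_lit 132) (nat_lit 5) (nat_lit 473) (nat_lit 458) (nat_lit 269)) (XT.lf (nat_lit 0) (nat_lit 13982680151) (nat_lit 380) (nat_lit 29002512403) (nat_lit 456) (nat_lit 61293964109) (nat_lit 126) (nat_lit 5) (nat_lit 131) (nat_lit 5) (nat_lit 132) (nat_lit 5) (nat_lit 474) (nat_lit 458) (nat_lit 268))) (XT.nd (nat_lit 78) (nat_lit 304) (nat_lit 0) (XT.lf (nat_lit 0) (nat_lit 57613033926) (nat_lit 456) (nat_lit 32867571506) (nat_lit 76) (nat_lit 16716687492) (nat_lit 126) (nat_lit 5) (nat_lit 132) (nat_lit 5) (nat_lit 127) (nat_lit 5) (nat_lit 475) (nat_lit 458) (nat_lit 267)) (XT.lf (nat_lit 0) (nat_lit 27848142930) (nat_lit 304) (nat_lit 46033919064) (nat_lit 380) (nat_lit 36333784331) (nat_lit 122) (nat_lit 5) (nat_lit 126) (nat_lit 5) (nat_lit 127) (nat_lit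 5) (nat_lit 476) (nat_lit 458) (nat_lit 266))))))))
noncomputable def xc206 : XT := (XT.nd (nat_lit 2418) (nat_lit 2280) (nat_lit 0) (XT.nd (nat_lit 1170) (nat_lit 1900) (nat_lit 0) (XT.nd (nat_lit 546) (nat_lit 988) (nat_lit 0) (XT.nd (nat_lit 234) (nat_lit 836) (nat_lit 0) (XT.nd (nat_lit 78) (nat_lit 380) (nat_lit 0) (XT.lf (nat_lit 0) (nat_lit 91539779037) (nat_lit 380) (nat_lit 20636317664) (nat_lit 76) (nat_lit 1180468873) (nat_lit 122) (nat_lit 5) (nat_lit 127) (nat_lit 5) (nat_lit 123) (nat_lit 5) (nat_lit 477) (nat_lit 458) (nat_lit 265)) (XT.nd (nat_lit 78) (nat_lit 76) (nat_lit 0) (XT.lf (nat_lit 0) (nat_lit 44862371513) (nat_lit 304) (nat_lit 66672681292) (nat_lit 380) (nat_lit 5046534489) (nat_lit 118) (nat_lit 5) (nat_lit 122) (nat_lit 5) (nat_lit 123) (nat_lit 5) (nat_lit 478) (nat_lit 458) (nat_lit 264)) (XT.lf (nat_lit 0) (nat_lit 12514970256) (nat_lit 380) (nat_lit 5800298275)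 (nat_lit 76) (nat_lit 101625044541) (nat_lit 117) (nat_lit 5) (nat_lit 122) (nat_lit 5) (nat_lit 118) (nat_lit 5) (nat_lit 479) (nat_lit 458) (nat_lit 263)))) (XT.nd (nat_lit 156) (nat_lit 228) (nat_lit 0) (XT.nd (nat_lit 78) (nat_lit 304) (nat_lit 0) (XT.lf (nat_lit 0) (nat_lit 32330933334) (nat_lit 380) (nat_lit 58511290115) (nat_lit 76) (nat_lit 32543316245) (nat_lit 113) (nat_lit 5) (nat_lit 118) (nat_lit 5) (nat_lit 114) (nat_lit 5) (nat_lit 480) (nat_lit 458) (nat_lit 262)) (XT.lf (nat_lit 0) (nat_lit 12379668587) (nat_lit 304) (nat_lit 41351022526) (nat_lit 380) (nat_lit 73242686750) (nat_lit 109) (nat_lit 5) (nat_lit 113) (nat_lit 5) (nat_lit 114) (nat_lit 5) (nat_lit 481) (nat_lit 458) (nat_lit 261))) (XT.nd (nat_lit 78) (nat_lit 228) (nat_lit 0) (XT.lf (nat_lit 0) (nat_lit 77372956772) (nat_lit 380) (nat_lit 42026965745) (nat_lit 76) (nat_lit 11282059468) (nat_lit 109) (nat_lit 5) (nat_lit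 114) (nat_lit 5) (nat_lit 110) (nat_lit 5) (nat_lit 482) (nat_lit 458) (nat_lit 260)) (XT.lf (nat_lit 0) (nat_lit 34597087059) (nat_lit 228) (nat_lit 68817941871) (nat_lit 304) (nat_lit 31100102759) (nat_lit 106) (nat_lit 5) (nat_lit 109) (nat_lit 5) (nat_lit 110) (nat_lit 5) (nat_lit 483) (nat_lit 458) (nat_lit 259))))) (XT.nd (nat_lit 312) (nat_lit 456) (nat_lit 0) (XT.nd (nat_lit 156) (nat_lit 228) (nat_lit 0) (XT.nd (nat_lit 78) (nat_lit 304) (nat_lit 0) (XT.lf (nat_lit 0) (nat_lit 116510966220) (nat_lit 228) (nat_lit 14959645111) (nat_lit 304) (nat_lit 7033757254) (nat_lit 106) (nat_lit 5) (nat_lit 109) (nat_lit 5) (nat_lit 110) (nat_lit 5) (nat_lit 484) (nat_lit 458) (nat_lit 258)) (XT.lf (nat_lit 0) (nat_lit 19282043141) (nat_lit 304) (nat_lit 81789550915) (nat_lit 76) (nat_lit 41525747601) (nat_lit 102) (nat_lit 5) (nat_lit 106) (nat_lit 5) (nat_lit 103) (nat_lit 5) (nat_lit 485) (nat_lit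 458) (nat_lit 257))) (XT.nd (nat_lit 78) (nat_lit 0) (nat_lit 0) (XT.lf (nat_lit 0) (nat_lit 1311121508) (nat_lit 228) (nat_lit 46010094469) (nat_lit 304) (nat_lit 99535783924) (nat_lit 99) (nat_lit 5) (nat_lit 102) (nat_lit 5) (nat_lit 103) (nat_lit 5) (nat_lit 486) (nat_lit 458) (nat_lit 256)) (XT.lf (nat_lit 0) (nat_lit 78354185185) (nat_lit 304) (nat_lit 60061476154) (nat_lit 76) (nat_lit 12834387864) (nat_lit 99) (nat_lit 5) (nat_lit 103) (nat_lit 5) (nat_lit 100) (nat_lit 5) (nat_lit 487) (nat_lit 458) (nat_lit 255)))) (XT.nd (nat_lit 156) (nat_lit 228) (nat_lit 0) (XT.nd (nat_lit 78) (nat_lit 0) (nat_lit 0) (XT.lf (nat_lit 0) (nat_lit 29899412044) (nat_lit 228) (nat_lit 82260167111) (nat_lit 304) (nat_lit 43642133029) (nat_lit 96) (nat_lit 5) (nat_lit 99) (nat_lit 5) (nat_lit 100) (nat_lit 5) (nat_lit 488) (nat_lit 458) (nat_lit 254)) (XT.lf (nat_lit 0) (nat_lit 126443112331) (nat_lit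 228) (nat_lit 22229007106) (nat_lit 304) (nat_lit 11857995074) (nat_lit 96) (nat_lit 5) (nat_lit 99) (nat_lit 5) (nat_lit 100) (nat_lit 5) (nat_lit 489) (nat_lit 458) (nat_lit 253))) (XT.nd (nat_lit 78) (nat_lit 0) (nat_lit 0) (XT.lf (nat_lit 0) (nat_lit 22485115260) (nat_lit 228) (nat_lit 102054968648) (nat_lit 76) (nat_lit 40855137775) (nat_lit 93) (nat_lit 5) (nat_lit 96) (nat_lit 5) (nat_lit 94) (nat_lit 5) (nat_lit 490) (nat_lit 458) (nat_lit 252)) (XT.lf (nat_lit 0) (nat_lit 59097748929) (nat_lit 228) (nat_lit 4221117402) (nat_lit 76) (nat_lit 107127454529) (nat_lit 93) (nat_lit 5) (nat_lit 96) (nat_lit 5) (nat_lit 94) (nat_lit 5) (nat_lit 491) (nat_lit 458) (nat_lit 251)))))) (XT.nd (nat_lit 624) (nat_lit 836) (nat_lit 0) (XT.nd (nat_lit 312) (nat_lit 380) (nat_lit 0) (XT.nd (nat_lit 156) (nat_lit 304) (nat_lit 0) (XT.nd (nat_lit 78) (nat_lit 152) (nat_lit 0) (XT.lf (nat_lit 0) (nat_lit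 99170607776) (nat_lit 304) (nat_lit 73950625032) (nat_lit 76) (nat_lit 2547262535) (nat_lit 90) (nat_lit 5) (nat_lit 94) (nat_lit 5) (nat_lit 91) (nat_lit 5) (nat_lit 492) (nat_lit 458) (nat_lit 250)) (XT.lf (nat_lit 0) (nat_lit 31934664356) (nat_lit 152) (nat_lit 110921445949) (nat_lit 228) (nat_lit 38215218232) (nat_lit 88) (nat_lit 5) (nat_lit 90) (nat_lit 5) (nat_lit 91) (nat_lit 5) (nat_lit 493) (nat_lit 458) (nat_lit 249))) (XT.nd (nat_lit 78) (nat_lit 228) (nat_lit 0) (XT.lf (nat_lit 0) (nat_lit 3190822402) (nat_lit 228) (nat_lit 41051947135) (nat_lit 76) (nat_lit 142436353922) (nat_lit 87) (nat_lit 5) (nat_lit 90) (nat_lit 5) (nat_lit 88) (nat_lit 5) (nat_lit 494) (nat_lit 458) (nat_lit 248)) (XT.lf (nat_lit 0) (nat_lit 46972458491) (nat_lit 304) (nat_lit 118725177201) (nat_lit 76) (nat_lit 26758869738) (nat_lit 84) (nat_lit 5) (nat_lit 88) (nat_lit 5) (nat_lit 85) (nat_lit 5) (nat_lit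 495) (nat_lit 458) (nat_lit 247)))) (XT.nd (nat_lit 156) (nat_lit 228) (nat_lit 0) (XT.nd (nat_lit 78) (nat_lit 152) (nat_lit 0) (XT.lf (nat_lit 0) (nat_lit 94374855769) (nat_lit 304) (nat_lit 3546080147) (nat_lit 76) (nat_lit 100530236632) (nat_lit 84) (nat_lit 5) (nat_lit 88) (nat_lit 5) (nat_lit 85) (nat_lit 5) (nat_lit 496) (nat_lit 458) (nat_lit 246)) (XT.lf (nat_lit 0) (nat_lit 121273091820) (nat_lit 152) (nat_lit 24767461736) (nat_lit 228) (nat_lit 58610360452) (nat_lit 82) (nat_lit 5) (nat_lit 84) (nat_lit 5) (nat_lit 85) (nat_lit 5) (nat_lit 497) (nat_lit 458) (nat_lit 245))) (XT.nd (nat_lit 78) (nat_lit 76) (nat_lit 0) (XT.lf (nat_lit 0) (nat_lit 41823392634) (nat_lit 152) (nat_lit 159992481700) (nat_lit 228) (nat_lit 9268451319) (nat_lit 80) (nat_lit 5) (nat_lit 82) (nat_lit 5) (nat_lit 83) (nat_lit 5) (nat_lit 498) (nat_lit 458) (nat_lit 244)) (XT.lf (nat_lit 0) (nat_lit 43019978130)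 (nat_lit 228) (nat_lit 42683177982) (nat_lit 76) (nat_lit 132010993507) (nat_lit 79) (nat_lit 5) (nat_lit 82) (nat_lit 5) (nat_lit 80) (nat_lit 5) (nat_lit 499) (nat_lit 458) (nat_lit 243))))) (XT.nd (nat_lit 312) (nat_lit 304) (nat_lit 0) (XT.nd (nat_lit 156) (nat_lit 228) (nat_lit 0) (XT.nd (nat_lit 78) (nat_lit 152) (nat_lit 0) (XT.lf (nat_lit 0) (nat_lit 93049319720) (nat_lit 152) (nat_lit 6014572339) (nat_lit 228) (nat_lit 125531348461) (nat_lit 77) (nat_lit 5) (nat_lit 79) (nat_lit 5) (nat_lit 80) (nat_lit 5) (nat_lit 500) (nat_lit 458) (nat_lit 242)) (XT.lf (nat_lit 0) (nat_lit 4175008070) (nat_lit 152) (nat_lit 155747139125) (nat_lit 228) (nat_lit 71797631509) (nat_lit 75) (nat_lit 5) (nat_lit 77) (nat_lit 5) (nat_lit 78) (nat_lit 5) (nat_lit 501) (nat_lit 458) (nat_lit 241))) (XT.nd (nat_lit 78) (nat_lit 228) (nat_lit 0) (XT.lf (nat_lit 0) (nat_lit 151146741801) (nat_lit 152) (nat_lit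 75001166537) (nat_lit 228) (nat_lit 12936405809) (nat_lit 75) (nat_lit 5) (nat_lit 77) (nat_lit 5) (nat_lit 78) (nat_lit 5) (nat_lit 502) (nat_lit 458) (nat_lit 240)) (XT.lf (nat_lit 0) (nat_lit 48417793945) (nat_lit 228) (nat_lit 187112125496) (nat_lit 76) (nat_lit 11193309196) (nat_lit 72) (nat_lit 5) (nat_lit 75) (nat_lit 5) (nat_lit 73) (nat_lit 5) (nat_lit 503) (nat_lit 458) (nat_lit 239)))) (XT.nd (nat_lit 156) (nat_lit 152) (nat_lit 0) (XT.nd (nat_lit 78) (nat_lit 152) (nat_lit 0) (XT.lf (nat_lit 0) (nat_lit 115147961428) (nat_lit 228) (nat_lit 38545783882) (nat_lit 76) (nat_lit 100902589651) (nat_lit 72) (nat_lit 5) (nat_lit 75) (nat_lit 5) (nat_lit 73) (nat_lit 5) (nat_lit 504) (nat_lit 458) (nat_lit 238)) (XT.lf (nat_lit 0) (nat_lit 121331919775) (nat_lit 152) (nat_lit 65776857343) (nat_lit 228) (nat_lit 75659612504) (nat_lit 70) (nat_lit 5) (nat_lit 72) (nat_lit 5) (nat_lit 73) (nat_lit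 5) (nat_lit 505) (nat_lit 458) (nat_lit 237))) (XT.nd (nat_lit 78) (nat_lit 76) (nat_lit 0) (XT.lf (nat_lit 0) (nat_lit 19421599356) (nat_lit 76) (nat_lit 244626862519) (nat_lit 152) (nat_lit 7231543736) (nat_lit 69) (nat_lit 5) (nat_lit 70) (nat_lit 5) (nat_lit 71) (nat_lit 4) (nat_lit 506) (nat_lit 458) (nat_lit 236)) (XT.lf (nat_lit 0) (nat_lit 66062433661) (nat_lit 152) (nat_lit 88991290814) (nat_lit 76) (nat_lit 124937400463) (nat_lit 68) (nat_lit 5) (nat_lit 70) (nat_lit 5) (nat_lit 69) (nat_lit 5) (nat_lit 507) (nat_lit 458) (nat_lit 235))))))) (XT.nd (nat_lit 1170) (nat_lit 988) (nat_lit 0) (XT.nd (nat_lit 546) (nat_lit 684) (nat_lit 0) (XT.nd (nat_lit 234) (nat_lit 304) (nat_lit 0) (XT.nd (nat_lit 78) (nat_lit 152) (nat_lit 0) (XT.lf (nat_lit 0) (nat_lit 84608303827) (nat_lit 152) (nat_lit 59490571669) (nat_lit 228) (nat_lit 144966957607) (nat_lit 66) (nat_lit 5) (nat_lit 68) (nat_lit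 5) (nat_lit 69) (nat_lit 5) (nat_lit 508) (nat_lit 458) (nat_lit 234)) (XT.nd (nat_lit 78) (nat_lit 152) (nat_lit 0) (XT.lf (nat_lit 0) (nat_lit 228206572825) (nat_lit 228) (nat_lit 29204289780) (nat_lit 76) (nat_lit 41074942410) (nat_lit 66) (nat_lit 5) (nat_lit 69) (nat_lit 5) (nat_lit 67) (nat_lit 4) (nat_lit 509) (nat_lit 458) (nat_lit 233)) (XT.lf (nat_lit 0) (nat_lit 11395229299) (nat_lit 152) (nat_lit 149465189907) (nat_lit 76) (nat_lit 147334351025) (nat_lit 64) (nat_lit 5) (nat_lit 66) (nat_lit 5) (nat_lit 65) (nat_lit 5) (nat_lit 510) (nat_lit 458) (nat_lit 232)))) (XT.nd (nat_lit 156) (nat_lit 152) (nat_lit 0) (XT.nd (nat_lit 78) (nat_lit 0) (nat_lit 0) (XT.lf (nat_lit 0) (nat_lit 38790604108) (nat_lit 152) (nat_lit 57109124258) (nat_lit 228) (nat_lit 222376441544) (nat_lit 62) (nat_lit 5) (nat_lit 64) (nat_lit 5) (nat_lit 65) (nat_lit 5) (nat_lit 511) (nat_lit 458) (nat_lit 231))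 (XT.lf (nat_lit 0) (nat_lit 188011253196) (nat_lit 228) (nat_lit 87937806941) (nat_lit 76) (nat_lit 52743489402) (nat_lit 62) (nat_lit 5) (nat_lit 65) (nat_lit 5) (nat_lit 63) (nat_lit 4) (nat_lit 512) (nat_lit 458) (nat_lit 230))) (XT.nd (nat_lit 78) (nat_lit 76) (nat_lit 0) (XT.lf (nat_lit 0) (nat_lit 115962350040) (nat_lit 76) (nat_lit 171512556572) (nat_lit 152) (nat_lit 52017513927) (nat_lit 61) (nat_lit 5) (nat_lit 62) (nat_lit 5) (nat_lit 63) (nat_lit 4) (nat_lit 513) (nat_lit 458) (nat_lit 229)) (XT.lf (nat_lit 0) (nat_lit 41278182433) (nat_lit 152) (nat_lit 18313378982) (nat_lit 76) (nat_lit 291132979204) (nat_lit 60) (nat_lit 5) (nat_lit 62) (nat_lit 5) (nat_lit 61) (nat_lit 5) (nat_lit 514) (nat_lit 458) (nat_lit 228))))) (XT.nd (nat_lit 312) (nat_lit 228) (nat_lit 0) (XT.nd (nat_lit 156) (nat_lit 228) (nat_lit 0) (XT.nd (nat_lit 78) (nat_lit 76) (nat_lit 0) (XT.lf (nat_lit 0) (nat_lit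 141626953753) (nat_lit 228) (nat_lit 160485532242) (nat_lit 76) (nat_lit 60156322425) (nat_lit 58) (nat_lit 5) (nat_lit 61) (nat_lit 5) (nat_lit 59) (nat_lit 4) (nat_lit 515) (nat_lit 458) (nat_lit 227)) (XT.lf (nat_lit 0) (nat_lit 60086652342) (nat_lit 76) (nat_lit 189136622460) (nat_lit 152) (nat_lit 125055509255) (nat_lit 57) (nat_lit 5) (nat_lit 58) (nat_lit 5) (nat_lit 59) (nat_lit 4) (nat_lit 516) (nat_lit 458) (nat_lit 226))) (XT.nd (nat_lit 78) (nat_lit 228) (nat_lit 0) (XT.lf (nat_lit 0) (nat_lit 297258864461) (nat_lit 76) (nat_lit 67658299442) (nat_lit 152) (nat_lit 21836206977) (nat_lit 57) (nat_lit 5) (nat_lit 58) (nat_lit 5) (nat_lit 59) (nat_lit 4) (nat_lit 517) (nat_lit 458) (nat_lit 225)) (XT.lf (nat_lit 0) (nat_lit 87109695445) (nat_lit 228) (nat_lit 250779000216) (nat_lit 76) (nat_lit 61728652351) (nat_lit 54) (nat_lit 5) (nat_lit 57) (nat_lit 5) (nat_lit 55) (nat_lit 4) (nat_lit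 518) (nat_lit 458) (nat_lit 224)))) (XT.nd (nat_lit 156) (nat_lit 152) (nat_lit 0) (XT.nd (nat_lit 78) (nat_lit 76) (nat_lit 0) (XT.lf (nat_lit 0) (nat_lit 203418542275) (nat_lit 228) (nat_lit 12346089277) (nat_lit 76) (nat_lit 197209519470) (nat_lit 54) (nat_lit 5) (nat_lit 57) (nat_lit 5) (nat_lit 55) (nat_lit 4) (nat_lit 519) (nat_lit 458) (nat_lit 223)) (XT.lf (nat_lit 0) (nat_lit 245877837031) (nat_lit 76) (nat_lit 83503700685) (nat_lit 152) (nat_lit 97425321158) (nat_lit 53) (nat_lit 5) (nat_lit 54) (nat_lit 5) (nat_lit 55) (nat_lit 4) (nat_lit 520) (nat_lit 458) (nat_lit 222))) (XT.nd (nat_lit 78) (nat_lit 0) (nat_lit 0) (XT.lf (nat_lit 0) (nat_lit 21989555101) (nat_lit 152) (nat_lit 363830478164) (nat_lit 76) (nat_lit 55378904475) (nat_lit 51) (nat_lit 5) (nat_lit 53) (nat_lit 5) (nat_lit 52) (nat_lit 4) (nat_lit 521) (nat_lit 458) (nat_lit 221)) (XT.lf (nat_lit 0) (nat_lit 148584175808)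 (nat_lit 152) (nat_lit 104311690875) (nat_lit 76) (nat_lit 203110740534) (nat_lit 51) (nat_lit 5) (nat_lit 53) (nat_lit 5) (nat_lit 52) (nat_lit 4) (nat_lit 522) (nat_lit 458) (nat_lit 220)))))) (XT.nd (nat_lit 624) (nat_lit 456) (nat_lit 0) (XT.nd (nat_lit 312) (nat_lit 228) (nat_lit 0) (XT.nd (nat_lit 156) (nat_lit 228) (nat_lit 0) (XT.nd (nat_lit 78) (nat_lit 0) (nat_lit 0) (XT.lf (nat_lit 0) (nat_lit 173743673143) (nat_lit 76) (nat_lit 110477351621) (nat_lit 152) (nat_lit 187198010547) (nat_lit 50) (nat_lit 5) (nat_lit 51) (nat_lit 5) (nat_lit 52) (nat_lit 4) (nat_lit 523) (nat_lit 458) (nat_lit 219)) (XT.lf (nat_lit 0) (nat_lit 429044986070) (nat_lit 152) (nat_lit 18829559246) (nat_lit 0) (nat_lit 39607276002) (nat_lit 50) (nat_lit 5) (nat_lit 52) (nat_lit 4) (nat_lit 50) (nat_lit 4) (nat_lit 524) (nat_lit 458) (nat_lit 218))) (XT.nd (nat_lit 78) (nat_lit 76) (nat_lit 0) (XT.lf (nat_lit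 0) (nat_lit 80607622656) (nat_lit 152) (nat_lit 224192235954) (nat_lit 76) (nat_lit 199172859211) (nat_lit 48) (nat_lit 5) (nat_lit 50) (nat_lit 5) (nat_lit 49) (nat_lit 4) (nat_lit 525) (nat_lit 458) (nat_lit 217)) (XT.lf (nat_lit 0) (nat_lit 74111105360) (nat_lit 76) (nat_lit 152010413097) (nat_lit 152) (nat_lit 295044687856) (nat_lit 47) (nat_lit 5) (nat_lit 48) (nat_lit 5) (nat_lit 49) (nat_lit 4) (nat_lit 526) (nat_lit 458) (nat_lit 216)))) (XT.nd (nat_lit 156) (nat_lit 152) (nat_lit 0) (XT.nd (nat_lit 78) (nat_lit 76) (nat_lit 0) (XT.lf (nat_lit 0) (nat_lit 382901471080) (nat_lit 152) (nat_lit 144110381016) (nat_lit 0) (nat_lit 12007999035) (nat_lit 47) (nat_lit 5) (nat_lit 49) (nat_lit 4) (nat_lit 47) (nat_lit 4) (nat_lit 527) (nat_lit 458) (nat_lit 215)) (XT.lf (nat_lit 0) (nat_lit 177159590616) (nat_lit 76) (nat_lit 375618647063) (nat_lit 76) (nat_lit 4725049695) (nat_lit 46) (nat_lit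 4) (nat_lit 47) (nat_lit 5) (nat_lit 47) (nat_lit 4) (nat_lit 528) (nat_lit 458) (nat_lit 214))) (XT.nd (nat_lit 78) (nat_lit 76) (nat_lit 0) (XT.lf (nat_lit 0) (nat_lit 151781843020) (nat_lit 152) (nat_lit 59740938531) (nat_lit 76) (nat_lit 365143685881) (nat_lit 45) (nat_lit 5) (nat_lit 47) (nat_lit 5) (nat_lit 46) (nat_lit 4) (nat_lit 529) (nat_lit 458) (nat_lit 213)) (XT.lf (nat_lit 0) (nat_lit 285967015010) (nat_lit 76) (nat_lit 34452909578) (nat_lit 152) (nat_lit 276140777074) (nat_lit 44) (nat_lit 5) (nat_lit 45) (nat_lit 5) (nat_lit 46) (nat_lit 4) (nat_lit 530) (nat_lit 458) (nat_lit 212))))) (XT.nd (nat_lit 312) (nat_lit 228) (nat_lit 0) (XT.nd (nat_lit 156) (nat_lit 76) (nat_lit 0) (XT.nd (nat_lit 78) (nat_lit 76) (nat_lit 0) (XT.lf (nat_lit 0) (nat_lit 32287086870) (nat_lit 76) (nat_lit 469100011918) (nat_lit 76) (nat_lit 115867689389) (nat_lit 43) (nat_lit 4) (nat_lit 44) (nat_lit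 5) (nat_lit 44) (nat_lit 4) (nat_lit 531) (nat_lit 458) (nat_lit 211)) (XT.lf (nat_lit 0) (nat_lit 56652293059) (nat_lit 152) (nat_lit 237095219952) (nat_lit 76) (nat_lit 344899596721) (nat_lit 42) (nat_lit 5) (nat_lit 44) (nat_lit 5) (nat_lit 43) (nat_lit 4) (nat_lit 532) (nat_lit 458) (nat_lit 210))) (XT.nd (nat_lit 78) (nat_lit 0) (nat_lit 0) (XT.lf (nat_lit 0) (nat_lit 130446308173) (nat_lit 76) (nat_lit 105494580810) (nat_lit 152) (nat_lit 424971358443) (nat_lit 41) (nat_lit 5) (nat_lit 42) (nat_lit 5) (nat_lit 43) (nat_lit 4) (nat_lit 533) (nat_lit 458) (nat_lit 209)) (XT.lf (nat_lit 0) (nat_lit 429714005870) (nat_lit 152) (nat_lit 160998628856) (nat_lit 0) (nat_lit 93302002720) (nat_lit 41) (nat_lit 5) (nat_lit 43) (nat_lit 4) (nat_lit 41) (nat_lit 4) (nat_lit 534) (nat_lit 458) (nat_lit 208)))) (XT.nd (nat_lit 156) (nat_lit 76) (nat_lit 0) (XT.nd (nat_lit 78) (nat_lit 76) (nat_lit 0)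 (XT.lf (nat_lit 0) (nat_lit 232658973762) (nat_lit 76) (nat_lit 405878584091) (nat_lit 76) (nat_lit 69466500156) (nat_lit 40) (nat_lit 4) (nat_lit 41) (nat_lit 5) (nat_lit 41) (nat_lit 4) (nat_lit 535) (nat_lit 458) (nat_lit 207)) (XT.lf (nat_lit 0) (nat_lit 123392250112) (nat_lit 152) (nat_lit 83458048142) (nat_lit 76) (nat_lit 526106816833) (nat_lit 39) (nat_lit 5) (nat_lit 41) (nat_lit 5) (nat_lit 40) (nat_lit 4) (nat_lit 536) (nat_lit 458) (nat_lit 206))) (XT.nd (nat_lit 78) (nat_lit 0) (nat_lit 0) (XT.lf (nat_lit 0) (nat_lit 328969987356) (nat_lit 152) (nat_lit 421282985535) (nat_lit 0) (nat_lit 8577383406) (nat_lit 38) (nat_lit 5) (nat_lit 40) (nat_lit 4) (nat_lit 38) (nat_lit 4) (nat_lit 537) (nat_lit 458) (nat_lit 205)) (XT.lf (nat_lit 0) (nat_lit 549654079256) (nat_lit 152) (nat_lit 6840398079) (nat_lit 0) (nat_lit 229261408844) (nat_lit 38) (nat_lit 5) (nat_lit 40) (nat_lit 4) (nat_lit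 38) (nat_lit 4) (nat_lit 538) (nat_lit 458) (nat_lit 204))))))))
noncomputable def xc207 : XT := (XT.nd (nat_lit 58188) (nat_lit 0) (nat_lit 2128) (XT.nd (nat_lit 56940) (nat_lit 0) (nat_lit 5852) (XT.nd (nat_lit 56316) (nat_lit 0) (nat_lit 8740) (XT.nd (nat_lit 234) (nat_lit 228) (nat_lit 0) (XT.nd (nat_lit 78) (nat_lit 152) (nat_lit 0) (XT.lf (nat_lit 0) (nat_lit 442486472884) (nat_lit 76) (nat_lit 345794267573) (nat_lit 76) (nat_lit 25401533864) (nat_lit 37) (nat_lit 4) (nat_lit 38) (nat_lit 5) (nat_lit 38) (nat_lit 4) (nat_lit 539) (nat_lit 458) (nat_lit 203)) (XT.nd (nat_lit 78) (nat_lit 0) (nat_lit 0) (XT.lf (nat_lit 0) (nat_lit 70721935277) (nat_lit 76) (nat_lit 120065737536) (nat_lit 152) (nat_lit 652003342220) (nat_lit 35) (nat_lit 5) (nat_lit 36) (nat_lit 5) (nat_lit 37) (nat_lit 4) (nat_lit 540) (nat_lit 458) (nat_lit 202)) (XT.lf (nat_lit 0) (nat_lit 425147933793) (nat_lit 152) (nat_lit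 327763790620) (nat_lit 0) (nat_lit 120011884837) (nat_lit 35) (nat_lit 5) (nat_lit 37) (nat_lit 4) (nat_lit 35) (nat_lit 4) (nat_lit 541) (nat_lit 458) (nat_lit 201)))) (XT.nd (nat_lit 156) (nat_lit 76) (nat_lit 0) (XT.nd (nat_lit 78) (nat_lit 76) (nat_lit 0) (XT.lf (nat_lit 0) (nat_lit 141311143019) (nat_lit 76) (nat_lit 534089533868) (nat_lit 76) (nat_lit 228953432837) (nat_lit 34) (nat_lit 4) (nat_lit 35) (nat_lit 5) (nat_lit 35) (nat_lit 4) (nat_lit 542) (nat_lit 458) (nat_lit 200)) (XT.lf (nat_lit 0) (nat_lit 6425750496) (nat_lit 152) (nat_lit 291963362107) (nat_lit 76) (nat_lit 638684302805) (nat_lit 33) (nat_lit 5) (nat_lit 35) (nat_lit 5) (nat_lit 34) (nat_lit 4) (nat_lit 543) (nat_lit 458) (nat_lit 199))) (XT.nd (nat_lit 55848) (nat_lit 0) (nat_lit 8740) (XT.lf (nat_lit 0) (nat_lit 205493812773) (nat_lit 76) (nat_lit 43593997290) (nat_lit 152) (nat_lit 721992796878) (nat_lit 32) (nat_lit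 5) (nat_lit 33) (nat_lit 5) (nat_lit 34) (nat_lit 4) (nat_lit 544) (nat_lit 458) (nat_lit 198)) (XT.lf (nat_lit 0) (nat_lit 14935085826) (nat_lit 836) (nat_lit 10591687565) (nat_lit 836) (nat_lit 10591687565) (nat_lit 147) (nat_lit 3) (nat_lit 158) (nat_lit 3) (nat_lit 158) (nat_lit 5) (nat_lit 459) (nat_lit 459) (nat_lit 282))))) (XT.nd (nat_lit 312) (nat_lit 0) (nat_lit 152) (XT.nd (nat_lit 156) (nat_lit 0) (nat_lit 76) (XT.nd (nat_lit 78) (nat_lit 0) (nat_lit 76) (XT.lf (nat_lit 76) (nat_lit 15126673954) (nat_lit 0) (nat_lit 15738743431) (nat_lit 836) (nat_lit 43165001098) (nat_lit 148) (nat_lit 5) (nat_lit 147) (nat_lit 3) (nat_lit 158) (nat_lit 5) (nat_lit 460) (nat_lit 459) (nat_lit 281)) (XT.lf (nat_lit 0) (nat_lit 32607472900) (nat_lit 760) (nat_lit 22247547847) (nat_lit 836) (nat_lit 21023716883) (nat_lit 148) (nat_lit 5) (nat_lit 158) (nat_lit 5) (nat_lit 159) (nat_lit 5) (nat_lit 461)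 (nat_lit 459) (nat_lit 280))) (XT.nd (nat_lit 78) (nat_lit 0) (nat_lit 76) (XT.lf (nat_lit 76) (nat_lit 16511465568) (nat_lit 0) (nat_lit 18440215982) (nat_lit 836) (nat_lit 42842038781) (nat_lit 149) (nat_lit 5) (nat_lit 148) (nat_lit 5) (nat_lit 159) (nat_lit 5) (nat_lit 462) (nat_lit 459) (nat_lit 279)) (XT.lf (nat_lit 0) (nat_lit 38104391963) (nat_lit 760) (nat_lit 22120520698) (nat_lit 836) (nat_lit 19544975050) (nat_lit 149) (nat_lit 5) (nat_lit 159) (nat_lit 5) (nat_lit 160) (nat_lit 5) (nat_lit 463) (nat_lit 459) (nat_lit 278)))) (XT.nd (nat_lit 156) (nat_lit 0) (nat_lit 76) (XT.nd (nat_lit 78) (nat_lit 0) (nat_lit 76) (XT.lf (nat_lit 76) (nat_lit 19314732273) (nat_lit 0) (nat_lit 22703176748) (nat_lit 836) (nat_lit 39796795988) (nat_lit 150) (nat_lit 5) (nat_lit 149) (nat_lit 5) (nat_lit 160) (nat_lit 5) (nat_lit 464) (nat_lit 459) (nat_lit 277)) (XT.lf (nat_lit 0) (nat_lit 46767859328)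 (nat_lit 760) (nat_lit 20620591264) (nat_lit 836) (nat_lit 16541274811) (nat_lit 150) (nat_lit 5) (nat_lit 160) (nat_lit 5) (nat_lit 161) (nat_lit 5) (nat_lit 465) (nat_lit 459) (nat_lit 276))) (XT.nd (nat_lit 78) (nat_lit 0) (nat_lit 76) (XT.lf (nat_lit 76) (nat_lit 23739935538) (nat_lit 0) (nat_lit 28757577117) (nat_lit 836) (nat_lit 33615873982) (nat_lit 151) (nat_lit 5) (nat_lit 150) (nat_lit 5) (nat_lit 161) (nat_lit 5) (nat_lit 466) (nat_lit 459) (nat_lit 275)) (XT.lf (nat_lit 0) (nat_lit 59052300051) (nat_lit 760) (nat_lit 17544904061) (nat_lit 836) (nat_lit 11782094342) (nat_lit 151) (nat_lit 5) (nat_lit 161) (nat_lit 5) (nat_lit 162) (nat_lit 5) (nat_lit 467) (nat_lit 459) (nat_lit 274)))))) (XT.nd (nat_lit 624) (nat_lit 1292) (nat_lit 0) (XT.nd (nat_lit 312) (nat_lit 1216) (nat_lit 0) (XT.nd (nat_lit 156) (nat_lit 684) (nat_lit 0) (XT.nd (nat_lit 78) (nat_lit 0) (nat_lit 76) (XT.lf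 (nat_lit 76) (nat_lit 30013795326) (nat_lit 0) (nat_lit 36860495364) (nat_lit 836) (nat_lit 23837242064) (nat_lit 152) (nat_lit 5) (nat_lit 151) (nat_lit 5) (nat_lit 162) (nat_lit 5) (nat_lit 468) (nat_lit 459) (nat_lit 273)) (XT.lf (nat_lit 0) (nat_lit 75464759283) (nat_lit 760) (nat_lit 12667259602) (nat_lit 76) (nat_lit 5009491048) (nat_lit 152) (nat_lit 5) (nat_lit 162) (nat_lit 5) (nat_lit 153) (nat_lit 5) (nat_lit 469) (nat_lit 459) (nat_lit 272))) (XT.nd (nat_lit 78) (nat_lit 0) (nat_lit 0) (XT.lf (nat_lit 0) (nat_lit 38388682905) (nat_lit 760) (nat_lit 47299170074) (nat_lit 836) (nat_lit 9944977984) (nat_lit 142) (nat_lit 5) (nat_lit 152) (nat_lit 5) (nat_lit 153) (nat_lit 5) (nat_lit 470) (nat_lit 459) (nat_lit 271)) (XT.lf (nat_lit 0) (nat_lit 92436742319) (nat_lit 760) (nat_lit 4199379319) (nat_lit 836) (nat_lit 1601895468) (nat_lit 142) (nat_lit 5) (nat_lit 152) (nat_lit 5) (nat_lit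 153) (nat_lit 5) (nat_lit 471) (nat_lit 459) (nat_lit 270)))) (XT.nd (nat_lit 156) (nat_lit 380) (nat_lit 0) (XT.nd (nat_lit 78) (nat_lit 380) (nat_lit 0) (XT.lf (nat_lit 0) (nat_lit 8360112001) (nat_lit 456) (nat_lit 51892667792) (nat_lit 76) (nat_lit 40643550621) (nat_lit 136) (nat_lit 5) (nat_lit 142) (nat_lit 5) (nat_lit 137) (nat_lit 5) (nat_lit 472) (nat_lit 459) (nat_lit 269)) (XT.lf (nat_lit 0) (nat_lit 3068639049) (nat_lit 380) (nat_lit 15913883970) (nat_lit 456) (nat_lit 84692916535) (nat_lit 131) (nat_lit 5) (nat_lit 136) (nat_lit 5) (nat_lit 137) (nat_lit 5) (nat_lit 473) (nat_lit 459) (nat_lit 268))) (XT.nd (nat_lit 78) (nat_lit 380) (nat_lit 0) (XT.lf (nat_lit 0) (nat_lit 31507238095) (nat_lit 456) (nat_lit 44463254541) (nat_lit 76) (nat_lit 30554452402) (nat_lit 131) (nat_lit 5) (nat_lit 137) (nat_lit 5) (nat_lit 132) (nat_lit 5) (nat_lit 474) (nat_lit 459) (nat_lit 267)) (XT.lf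 (nat_lit 0) (nat_lit 14696502949) (nat_lit 380) (nat_lit 30451586957) (nat_lit 456) (nat_lit 64344340899) (nat_lit 126) (nat_lit 5) (nat_lit 131) (nat_lit 5) (nat_lit 132) (nat_lit 5) (nat_lit 475) (nat_lit 459) (nat_lit 266))))) (XT.nd (nat_lit 312) (nat_lit 684) (nat_lit 0) (XT.nd (nat_lit 156) (nat_lit 304) (nat_lit 0) (XT.nd (nat_lit 78) (nat_lit 304) (nat_lit 0) (XT.lf (nat_lit 0) (nat_lit 60506689559) (nat_lit 456) (nat_lit 34496325251) (nat_lit 76) (nat_lit 17553490844) (nat_lit 126) (nat_lit 5) (nat_lit 132) (nat_lit 5) (nat_lit 127) (nat_lit 5) (nat_lit 476) (nat_lit 459) (nat_lit 265)) (XT.lf (nat_lit 0) (nat_lit 29254939022) (nat_lit 304) (nat_lit 48333835426) (nat_lit 380) (nat_lit 38137232088) (nat_lit 122) (nat_lit 5) (nat_lit 126) (nat_lit 5) (nat_lit 127) (nat_lit 5) (nat_lit 477) (nat_lit 459) (nat_lit 264))) (XT.nd (nat_lit 78) (nat_lit 304) (nat_lit 0) (XT.lf (nat_lit 0) (nat_lit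 96128803359) (nat_lit 380) (nat_lit 21653854246) (nat_lit 76) (nat_lit 1241132920) (nat_lit 122) (nat_lit 5) (nat_lit 127) (nat_lit 5) (nat_lit 123) (nat_lit 5) (nat_lit 478) (nat_lit 459) (nat_lit 263)) (XT.lf (nat_lit 0) (nat_lit 47119539079) (nat_lit 304) (nat_lit 70003947968) (nat_lit 380) (nat_lit 5286594047) (nat_lit 118) (nat_lit 5) (nat_lit 122) (nat_lit 5) (nat_lit 123) (nat_lit 5) (nat_lit 479) (nat_lit 459) (nat_lit 262)))) (XT.nd (nat_lit 156) (nat_lit 304) (nat_lit 0) (XT.nd (nat_lit 78) (nat_lit 304) (nat_lit 0) (XT.lf (nat_lit 0) (nat_lit 13152027854) (nat_lit 380) (nat_lit 6076557922) (nat_lit 76) (nat_lit 106708176148) (nat_lit 117) (nat_lit 5) (nat_lit 122) (nat_lit 5) (nat_lit 118) (nat_lit 5) (nat_lit 480) (nat_lit 459) (nat_lit 261)) (XT.lf (nat_lit 0) (nat_lit 33958501690) (nat_lit 380) (nat_lit 61422810675) (nat_lit 76) (nat_lit 34172951947) (nat_lit 113) (nat_lit 5) (nat_lit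 118) (nat_lit 5) (nat_lit 114) (nat_lit 5) (nat_lit 481) (nat_lit 459) (nat_lit 260))) (XT.nd (nat_lit 78) (nat_lit 0) (nat_lit 0) (XT.lf (nat_lit 0) (nat_lit 13012469447) (nat_lit 304) (nat_lit 43415468798) (nat_lit 380) (nat_lit 76893571662) (nat_lit 109) (nat_lit 5) (nat_lit 113) (nat_lit 5) (nat_lit 114) (nat_lit 5) (nat_lit 482) (nat_lit 459) (nat_lit 259)) (XT.lf (nat_lit 0) (nat_lit 81251853231) (nat_lit 380) (nat_lit 44114689455) (nat_lit 76) (nat_lit 11849024803) (nat_lit 109) (nat_lit 5) (nat_lit 114) (nat_lit 5) (nat_lit 110) (nat_lit 5) (nat_lit 483) (nat_lit 459) (nat_lit 258))))))) (XT.nd (nat_lit 1248) (nat_lit 1520) (nat_lit 0) (XT.nd (nat_lit 624) (nat_lit 988) (nat_lit 0) (XT.nd (nat_lit 312) (nat_lit 456) (nat_lit 0) (XT.nd (nat_lit 156) (nat_lit 532) (nat_lit 0) (XT.nd (nat_lit 78) (nat_lit 0) (nat_lit 0) (XT.lf (nat_lit 0) (nat_lit 36340346238) (nat_lit 228) (nat_lit 72255404017)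 (nat_lit 304) (nat_lit 32644638417) (nat_lit 106) (nat_lit 5) (nat_lit 109) (nat_lit 5) (nat_lit 110) (nat_lit 5) (nat_lit 484) (nat_lit 459) (nat_lit 257)) (XT.lf (nat_lit 0) (nat_lit 122349281032) (nat_lit 228) (nat_lit 15704355988) (nat_lit 304) (nat_lit 7375474184) (nat_lit 106) (nat_lit 5) (nat_lit 109) (nat_lit 5) (nat_lit 110) (nat_lit 5) (nat_lit 485) (nat_lit 459) (nat_lit 256))) (XT.nd (nat_lit 78) (nat_lit 228) (nat_lit 0) (XT.lf (nat_lit 0) (nat_lit 20255592882) (nat_lit 304) (nat_lit 85865736650) (nat_lit 76) (nat_lit 43605405872) (nat_lit 102) (nat_lit 5) (nat_lit 106) (nat_lit 5) (nat_lit 103) (nat_lit 5) (nat_lit 486) (nat_lit 459) (nat_lit 255)) (XT.lf (nat_lit 0) (nat_lit 1389755011) (nat_lit 228) (nat_lit 48306723640) (nat_lit 304) (nat_lit 104502910241) (nat_lit 99) (nat_lit 5) (nat_lit 102) (nat_lit 5) (nat_lit 103) (nat_lit 5) (nat_lit 487) (nat_lit 459) (nat_lit 254))))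 (XT.nd (nat_lit 156) (nat_lit 228) (nat_lit 0) (XT.nd (nat_lit 78) (nat_lit 228) (nat_lit 0) (XT.lf (nat_lit 0) (nat_lit 82280715761) (nat_lit 304) (nat_lit 63051713843) (nat_lit 76) (nat_lit 13479680125) (nat_lit 99) (nat_lit 5) (nat_lit 103) (nat_lit 5) (nat_lit 100) (nat_lit 5) (nat_lit 488) (nat_lit 459) (nat_lit 253)) (XT.lf (nat_lit 0) (nat_lit 31407011731) (nat_lit 228) (nat_lit 86369144811) (nat_lit 304) (nat_lit 45815210503) (nat_lit 96) (nat_lit 5) (nat_lit 99) (nat_lit 5) (nat_lit 100) (nat_lit 5) (nat_lit 489) (nat_lit 459) (nat_lit 252))) (XT.nd (nat_lit 78) (nat_lit 228) (nat_lit 0) (XT.lf (nat_lit 0) (nat_lit 132777295648) (nat_lit 228) (nat_lit 23336618743) (nat_lit 304) (nat_lit 12442295610) (nat_lit 96) (nat_lit 5) (nat_lit 99) (nat_lit 5) (nat_lit 100) (nat_lit 5) (nat_lit 490) (nat_lit 459) (nat_lit 251)) (XT.lf (nat_lit 0) (nat_lit 23617549901) (nat_lit 228) (nat_lit 107145267578)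 (nat_lit 76) (nat_lit 42901755630) (nat_lit 93) (nat_lit 5) (nat_lit 96) (nat_lit 5) (nat_lit 94) (nat_lit 5) (nat_lit 491) (nat_lit 459) (nat_lit 250))))) (XT.nd (nat_lit 312) (nat_lit 532) (nat_lit 0) (XT.nd (nat_lit 156) (nat_lit 228) (nat_lit 0) (XT.nd (nat_lit 78) (nat_lit 228) (nat_lit 0) (XT.lf (nat_lit 0) (nat_lit 62060425783) (nat_lit 228) (nat_lit 4420316603) (nat_lit 76) (nat_lit 112487504366) (nat_lit 93) (nat_lit 5) (nat_lit 96) (nat_lit 5) (nat_lit 94) (nat_lit 5) (nat_lit 492) (nat_lit 459) (nat_lit 249)) (XT.lf (nat_lit 0) (nat_lit 104136802242) (nat_lit 304) (nat_lit 77636173636) (nat_lit 76) (nat_lit 2678560381) (nat_lit 90) (nat_lit 5) (nat_lit 94) (nat_lit 5) (nat_lit 91) (nat_lit 5) (nat_lit 493) (nat_lit 459) (nat_lit 248))) (XT.nd (nat_lit 78) (nat_lit 76) (nat_lit 0) (XT.lf (nat_lit 0) (nat_lit 33543186953) (nat_lit 152) (nat_lit 116463212053) (nat_lit 228) (nat_lit 40118121181)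 (nat_lit 88) (nat_lit 5) (nat_lit 90) (nat_lit 5) (nat_lit 91) (nat_lit 5) (nat_lit 494) (nat_lit 459) (nat_lit 247)) (XT.lf (nat_lit 0) (nat_lit 3357607769) (nat_lit 228) (nat_lit 43093076424) (nat_lit 76) (nat_lit 149562032667) (nat_lit 87) (nat_lit 5) (nat_lit 90) (nat_lit 5) (nat_lit 88) (nat_lit 5) (nat_lit 495) (nat_lit 459) (nat_lit 246)))) (XT.nd (nat_lit 156) (nat_lit 304) (nat_lit 0) (XT.nd (nat_lit 78) (nat_lit 0) (nat_lit 0) (XT.lf (nat_lit 0) (nat_lit 49328222552) (nat_lit 304) (nat_lit 124649864351) (nat_lit 76) (nat_lit 28100886209) (nat_lit 84) (nat_lit 5) (nat_lit 88) (nat_lit 5) (nat_lit 85) (nat_lit 5) (nat_lit 496) (nat_lit 459) (nat_lit 245)) (XT.lf (nat_lit 0) (nat_lit 99100399640) (nat_lit 304) (nat_lit 3712363478) (nat_lit 76) (nat_lit 105560627496) (nat_lit 84) (nat_lit 5) (nat_lit 88) (nat_lit 5) (nat_lit 85) (nat_lit 5) (nat_lit 497) (nat_lit 459) (nat_lit 244))) (XT.nd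 (nat_lit 78) (nat_lit 152) (nat_lit 0) (XT.lf (nat_lit 0) (nat_lit 127347589335) (nat_lit 152) (nat_lit 26001638408) (nat_lit 228) (nat_lit 61533899157) (nat_lit 82) (nat_lit 5) (nat_lit 84) (nat_lit 5) (nat_lit 85) (nat_lit 5) (nat_lit 498) (nat_lit 459) (nat_lit 243)) (XT.lf (nat_lit 0) (nat_lit 43925493283) (nat_lit 152) (nat_lit 167987737838) (nat_lit 228) (nat_lit 9724982200) (nat_lit 80) (nat_lit 5) (nat_lit 82) (nat_lit 5) (nat_lit 83) (nat_lit 5) (nat_lit 499) (nat_lit 459) (nat_lit 242)))))) (XT.nd (nat_lit 624) (nat_lit 684) (nat_lit 0) (XT.nd (nat_lit 312) (nat_lit 456) (nat_lit 0) (XT.nd (nat_lit 156) (nat_lit 152) (nat_lit 0) (XT.nd (nat_lit 78) (nat_lit 152) (nat_lit 0) (XT.lf (nat_lit 0) (nat_lit 45177330472) (nat_lit 228) (nat_lit 44806715898) (nat_lit 76) (nat_lit 138615492641) (nat_lit 79) (nat_lit 5) (nat_lit 82) (nat_lit 5) (nat_lit 80) (nat_lit 5) (nat_lit 500) (nat_lit 459)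 (nat_lit 241)) (XT.lf (nat_lit 0) (nat_lit 97712235383) (nat_lit 152) (nat_lit 6311065318) (nat_lit 228) (nat_lit 131801390744) (nat_lit 77) (nat_lit 5) (nat_lit 79) (nat_lit 5) (nat_lit 80) (nat_lit 5) (nat_lit 501) (nat_lit 459) (nat_lit 240))) (XT.nd (nat_lit 78) (nat_lit 0) (nat_lit 0) (XT.lf (nat_lit 0) (nat_lit 4394280626) (nat_lit 152) (nat_lit 163530119323) (nat_lit 228) (nat_lit 75381060041) (nat_lit 75) (nat_lit 5) (nat_lit 77) (nat_lit 5) (nat_lit 78) (nat_lit 5) (nat_lit 502) (nat_lit 459) (nat_lit 239)) (XT.lf (nat_lit 0) (nat_lit 158714099989) (nat_lit 152) (nat_lit 78747056522) (nat_lit 228) (nat_lit 13577080344) (nat_lit 75) (nat_lit 5) (nat_lit 77) (nat_lit 5) (nat_lit 78) (nat_lit 5) (nat_lit 503) (nat_lit 459) (nat_lit 238)))) (XT.nd (nat_lit 156) (nat_lit 228) (nat_lit 0) (XT.nd (nat_lit 78) (nat_lit 0) (nat_lit 0) (XT.lf (nat_lit 0) (nat_lit 50844572420) (nat_lit 228) (nat_lit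 196457453023) (nat_lit 76) (nat_lit 11757069860) (nat_lit 72) (nat_lit 5) (nat_lit 75) (nat_lit 5) (nat_lit 73) (nat_lit 5) (nat_lit 504) (nat_lit 459) (nat_lit 237)) (XT.lf (nat_lit 0) (nat_lit 120910967859) (nat_lit 228) (nat_lit 40463283793) (nat_lit 76) (nat_lit 105951619328) (nat_lit 72) (nat_lit 5) (nat_lit 75) (nat_lit 5) (nat_lit 73) (nat_lit 5) (nat_lit 505) (nat_lit 459) (nat_lit 236))) (XT.nd (nat_lit 78) (nat_lit 76) (nat_lit 0) (XT.lf (nat_lit 0) (nat_lit 127408147155) (nat_lit 152) (nat_lit 69061560487) (nat_lit 228) (nat_lit 79436826581) (nat_lit 70) (nat_lit 5) (nat_lit 72) (nat_lit 5) (nat_lit 73) (nat_lit 5) (nat_lit 506) (nat_lit 459) (nat_lit 235)) (XT.lf (nat_lit 0) (nat_lit 20402362227) (nat_lit 76) (nat_lit 256853965634) (nat_lit 152) (nat_lit 7587405604) (nat_lit 69) (nat_lit 5) (nat_lit 70) (nat_lit 5) (nat_lit 71) (nat_lit 4) (nat_lit 507) (nat_lit 459) (nat_lit 234)))))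 (XT.nd (nat_lit 312) (nat_lit 304) (nat_lit 0) (XT.nd (nat_lit 156) (nat_lit 152) (nat_lit 0) (XT.nd (nat_lit 78) (nat_lit 152) (nat_lit 0) (XT.lf (nat_lit 0) (nat_lit 69370824290) (nat_lit 152) (nat_lit 93431459071) (nat_lit 76) (nat_lit 131188134121) (nat_lit 68) (nat_lit 5) (nat_lit 70) (nat_lit 5) (nat_lit 69) (nat_lit 5) (nat_lit 508) (nat_lit 459) (nat_lit 233)) (XT.lf (nat_lit 0) (nat_lit 88847963749) (nat_lit 152) (nat_lit 62461017902) (nat_lit 228) (nat_lit 152209884744) (nat_lit 66) (nat_lit 5) (nat_lit 68) (nat_lit 5) (nat_lit 69) (nat_lit 5) (nat_lit 509) (nat_lit 459) (nat_lit 232))) (XT.nd (nat_lit 78) (nat_lit 152) (nat_lit 0) (XT.lf (nat_lit 0) (nat_lit 239621878720) (nat_lit 228) (nat_lit 30655514405) (nat_lit 76) (nat_lit 43132453045) (nat_lit 66) (nat_lit 5) (nat_lit 69) (nat_lit 5) (nat_lit 67) (nat_lit 4) (nat_lit 510) (nat_lit 459) (nat_lit 231)) (XT.lf (nat_lit 0) (nat_lit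 11969949286) (nat_lit 152) (nat_lit 156929440374) (nat_lit 76) (nat_lit 154704870945) (nat_lit 64) (nat_lit 5) (nat_lit 66) (nat_lit 5) (nat_lit 65) (nat_lit 5) (nat_lit 511) (nat_lit 459) (nat_lit 230)))) (XT.nd (nat_lit 156) (nat_lit 152) (nat_lit 0) (XT.nd (nat_lit 78) (nat_lit 0) (nat_lit 0) (XT.lf (nat_lit 0) (nat_lit 40738998034) (nat_lit 152) (nat_lit 59960577539) (nat_lit 228) (nat_lit 233490159591) (nat_lit 62) (nat_lit 5) (nat_lit 64) (nat_lit 5) (nat_lit 65) (nat_lit 5) (nat_lit 512) (nat_lit 459) (nat_lit 229)) (XT.lf (nat_lit 0) (nat_lit 197416504700) (nat_lit 228) (nat_lit 92326083513) (nat_lit 76) (nat_lit 55384354169) (nat_lit 62) (nat_lit 5) (nat_lit 65) (nat_lit 5) (nat_lit 63) (nat_lit 4) (nat_lit 513) (nat_lit 459) (nat_lit 228))) (XT.nd (nat_lit 78) (nat_lit 76) (nat_lit 0) (XT.lf (nat_lit 0) (nat_lit 121768942386) (nat_lit 76) (nat_lit 180084307438) (nat_lit 152) (nat_lit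 54613561665) (nat_lit 61) (nat_lit 5) (nat_lit 62) (nat_lit 5) (nat_lit 63) (nat_lit 4) (nat_lit 514) (nat_lit 459) (nat_lit 227)) (XT.lf (nat_lit 0) (nat_lit 43346542444) (nat_lit 152) (nat_lit 19220829320) (nat_lit 76) (nat_lit 305693173177) (nat_lit 60) (nat_lit 5) (nat_lit 62) (nat_lit 5) (nat_lit 61) (nat_lit 5) (nat_lit 515) (nat_lit 459) (nat_lit 226))))))))
noncomputable def xc208 : XT := (XT.nd (nat_lit 58266) (nat_lit 0) (nat_lit 4560) (XT.nd (nat_lit 1170) (nat_lit 912) (nat_lit 0) (XT.nd (nat_lit 546) (nat_lit 456) (nat_lit 0) (XT.nd (nat_lit 234) (nat_lit 456) (nat_lit 0) (XT.nd (nat_lit 78) (nat_lit 76) (nat_lit 0) (XT.lf (nat_lit 0) (nat_lit 148712724721) (nat_lit 228) (nat_lit 168501562477) (nat_lit 76) (nat_lit 63167740321) (nat_lit 58) (nat_lit 5) (nat_lit 61) (nat_lit 5) (nat_lit 59) (nat_lit 4) (nat_lit 516) (nat_lit 459) (nat_lit 225)) (XT.nd (nat_lit 78) (nat_lit 0) (nat_lit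 0) (XT.lf (nat_lit 0) (nat_lit 63099098330) (nat_lit 76) (nat_lit 198589679533) (nat_lit 152) (nat_lit 131303728281) (nat_lit 57) (nat_lit 5) (nat_lit 58) (nat_lit 5) (nat_lit 59) (nat_lit 4) (nat_lit 517) (nat_lit 459) (nat_lit 224)) (XT.lf (nat_lit 0) (nat_lit 312129534704) (nat_lit 76) (nat_lit 71037620081) (nat_lit 152) (nat_lit 22923677862) (nat_lit 57) (nat_lit 5) (nat_lit 58) (nat_lit 5) (nat_lit 59) (nat_lit 4) (nat_lit 518) (nat_lit 459) (nat_lit 223)))) (XT.nd (nat_lit 156) (nat_lit 228) (nat_lit 0) (XT.nd (nat_lit 78) (nat_lit 0) (nat_lit 0) (XT.lf (nat_lit 0) (nat_lit 91469358078) (nat_lit 228) (nat_lit 263310061338) (nat_lit 76) (nat_lit 64818586974) (nat_lit 54) (nat_lit 5) (nat_lit 57) (nat_lit 5) (nat_lit 55) (nat_lit 4) (nat_lit 519) (nat_lit 459) (nat_lit 222)) (XT.lf (nat_lit 0) (nat_lit 213593448304) (nat_lit 228) (nat_lit 12955880514) (nat_lit 76) (nat_lit 207073330687) (nat_lit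 54) (nat_lit 5) (nat_lit 57) (nat_lit 5) (nat_lit 55) (nat_lit 4) (nat_lit 520) (nat_lit 459) (nat_lit 221))) (XT.nd (nat_lit 78) (nat_lit 152) (nat_lit 0) (XT.lf (nat_lit 0) (nat_lit 258179120929) (nat_lit 76) (nat_lit 87675398527) (nat_lit 152) (nat_lit 102292487002) (nat_lit 53) (nat_lit 5) (nat_lit 54) (nat_lit 5) (nat_lit 55) (nat_lit 4) (nat_lit 521) (nat_lit 459) (nat_lit 220)) (XT.lf (nat_lit 0) (nat_lit 23092983151) (nat_lit 152) (nat_lit 382014459889) (nat_lit 76) (nat_lit 58151243965) (nat_lit 51) (nat_lit 5) (nat_lit 53) (nat_lit 5) (nat_lit 52) (nat_lit 4) (nat_lit 522) (nat_lit 459) (nat_lit 219))))) (XT.nd (nat_lit 312) (nat_lit 228) (nat_lit 0) (XT.nd (nat_lit 156) (nat_lit 152) (nat_lit 0) (XT.nd (nat_lit 78) (nat_lit 76) (nat_lit 0) (XT.lf (nat_lit 0) (nat_lit 156017146784) (nat_lit 152) (nat_lit 109520092387) (nat_lit 76) (nat_lit 213269510196) (nat_lit 51) (nat_lit 5) (nat_lit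 53) (nat_lit 5) (nat_lit 52) (nat_lit 4) (nat_lit 523) (nat_lit 459) (nat_lit 218)) (XT.lf (nat_lit 0) (nat_lit 182437923976) (nat_lit 76) (nat_lit 115997845399) (nat_lit 152) (nat_lit 196554032937) (nat_lit 50) (nat_lit 5) (nat_lit 51) (nat_lit 5) (nat_lit 52) (nat_lit 4) (nat_lit 524) (nat_lit 459) (nat_lit 217))) (XT.nd (nat_lit 78) (nat_lit 152) (nat_lit 0) (XT.lf (nat_lit 0) (nat_lit 450500803038) (nat_lit 152) (nat_lit 19764180763) (nat_lit 0) (nat_lit 41590750108) (nat_lit 50) (nat_lit 5) (nat_lit 52) (nat_lit 4) (nat_lit 50) (nat_lit 4) (nat_lit 525) (nat_lit 459) (nat_lit 216)) (XT.lf (nat_lit 0) (nat_lit 84641564398) (nat_lit 152) (nat_lit 235394984081) (nat_lit 76) (nat_lit 209134627119) (nat_lit 48) (nat_lit 5) (nat_lit 50) (nat_lit 5) (nat_lit 49) (nat_lit 4) (nat_lit 526) (nat_lit 459) (nat_lit 215)))) (XT.nd (nat_lit 156) (nat_lit 152) (nat_lit 0) (XT.nd (nat_lit 78) (nat_lit 0)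 (nat_lit 0) (XT.lf (nat_lit 0) (nat_lit 77823413594) (nat_lit 76) (nat_lit 159607677275) (nat_lit 152) (nat_lit 309793250856) (nat_lit 47) (nat_lit 5) (nat_lit 48) (nat_lit 5) (nat_lit 49) (nat_lit 4) (nat_lit 527) (nat_lit 459) (nat_lit 214)) (XT.lf (nat_lit 0) (nat_lit 402049923045) (nat_lit 152) (nat_lit 151309350517) (nat_lit 0) (nat_lit 12611401129) (nat_lit 47) (nat_lit 5) (nat_lit 49) (nat_lit 4) (nat_lit 47) (nat_lit 4) (nat_lit 528) (nat_lit 459) (nat_lit 213))) (XT.nd (nat_lit 78) (nat_lit 76) (nat_lit 0) (XT.lf (nat_lit 0) (nat_lit 186024014059) (nat_lit 76) (nat_lit 394396453647) (nat_lit 76) (nat_lit 4957818058) (nat_lit 46) (nat_lit 4) (nat_lit 47) (nat_lit 5) (nat_lit 47) (nat_lit 4) (nat_lit 529) (nat_lit 459) (nat_lit 212)) (XT.lf (nat_lit 0) (nat_lit 159374147179) (nat_lit 152) (nat_lit 62721742130) (nat_lit 76) (nat_lit 383403740830) (nat_lit 45) (nat_lit 5) (nat_lit 47) (nat_lit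 5) (nat_lit 46) (nat_lit 4) (nat_lit 530) (nat_lit 459) (nat_lit 211)))))) (XT.nd (nat_lit 624) (nat_lit 380) (nat_lit 0) (XT.nd (nat_lit 312) (nat_lit 228) (nat_lit 0) (XT.nd (nat_lit 156) (nat_lit 152) (nat_lit 0) (XT.nd (nat_lit 78) (nat_lit 76) (nat_lit 0) (XT.lf (nat_lit 0) (nat_lit 300271508390) (nat_lit 76) (nat_lit 36172567386) (nat_lit 152) (nat_lit 289944503159) (nat_lit 44) (nat_lit 5) (nat_lit 45) (nat_lit 5) (nat_lit 46) (nat_lit 4) (nat_lit 531) (nat_lit 459) (nat_lit 210)) (XT.lf (nat_lit 0) (nat_lit 33907594138) (nat_lit 76) (nat_lit 492552004800) (nat_lit 76) (nat_lit 121657771327) (nat_lit 43) (nat_lit 4) (nat_lit 44) (nat_lit 5) (nat_lit 44) (nat_lit 4) (nat_lit 532) (nat_lit 459) (nat_lit 209))) (XT.nd (nat_lit 78) (nat_lit 76) (nat_lit 0) (XT.lf (nat_lit 0) (nat_lit 59487952311) (nat_lit 152) (nat_lit 248944020299) (nat_lit 76) (nat_lit 362147340325) (nat_lit 42) (nat_lit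 5) (nat_lit 44) (nat_lit 5) (nat_lit 43) (nat_lit 4) (nat_lit 533) (nat_lit 459) (nat_lit 208)) (XT.lf (nat_lit 0) (nat_lit 136974488093) (nat_lit 76) (nat_lit 110766436519) (nat_lit 152) (nat_lit 446216785575) (nat_lit 41) (nat_lit 5) (nat_lit 42) (nat_lit 5) (nat_lit 43) (nat_lit 4) (nat_lit 534) (nat_lit 459) (nat_lit 207)))) (XT.nd (nat_lit 156) (nat_lit 152) (nat_lit 0) (XT.nd (nat_lit 78) (nat_lit 76) (nat_lit 0) (XT.lf (nat_lit 0) (nat_lit 451202597631) (nat_lit 152) (nat_lit 169042875289) (nat_lit 0) (nat_lit 97969751777) (nat_lit 41) (nat_lit 5) (nat_lit 43) (nat_lit 4) (nat_lit 41) (nat_lit 4) (nat_lit 535) (nat_lit 459) (nat_lit 206)) (XT.lf (nat_lit 0) (nat_lit 244297515766) (nat_lit 76) (nat_lit 426169761085) (nat_lit 76) (nat_lit 72936841956) (nat_lit 40) (nat_lit 4) (nat_lit 41) (nat_lit 5) (nat_lit 41) (nat_lit 4) (nat_lit 536) (nat_lit 459) (nat_lit 205))) (XT.nd (nat_lit 78)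 (nat_lit 76) (nat_lit 0) (XT.lf (nat_lit 0) (nat_lit 129564612833) (nat_lit 152) (nat_lit 87625532604) (nat_lit 76) (nat_lit 552414687851) (nat_lit 39) (nat_lit 5) (nat_lit 41) (nat_lit 5) (nat_lit 40) (nat_lit 4) (nat_lit 537) (nat_lit 459) (nat_lit 204)) (XT.lf (nat_lit 0) (nat_lit 345421230233) (nat_lit 152) (nat_lit 442341710120) (nat_lit 0) (nat_lit 9008796542) (nat_lit 38) (nat_lit 5) (nat_lit 40) (nat_lit 4) (nat_lit 38) (nat_lit 4) (nat_lit 538) (nat_lit 459) (nat_lit 203))))) (XT.nd (nat_lit 312) (nat_lit 152) (nat_lit 0) (XT.nd (nat_lit 156) (nat_lit 152) (nat_lit 0) (XT.nd (nat_lit 78) (nat_lit 76) (nat_lit 0) (XT.lf (nat_lit 0) (nat_lit 577139396085) (nat_lit 152) (nat_lit 7177251611) (nat_lit 0) (nat_lit 240726902111) (nat_lit 38) (nat_lit 5) (nat_lit 40) (nat_lit 4) (nat_lit 38) (nat_lit 4) (nat_lit 539) (nat_lit 459) (nat_lit 202)) (XT.lf (nat_lit 0) (nat_lit 464615879573) (nat_lit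 76) (nat_lit 363081465712) (nat_lit 76) (nat_lit 26668914326) (nat_lit 37) (nat_lit 4) (nat_lit 38) (nat_lit 5) (nat_lit 38) (nat_lit 4) (nat_lit 540) (nat_lit 459) (nat_lit 201))) (XT.nd (nat_lit 78) (nat_lit 0) (nat_lit 0) (XT.lf (nat_lit 0) (nat_lit 74263118039) (nat_lit 76) (nat_lit 126066503474) (nat_lit 152) (nat_lit 684600815986) (nat_lit 35) (nat_lit 5) (nat_lit 36) (nat_lit 5) (nat_lit 37) (nat_lit 4) (nat_lit 541) (nat_lit 459) (nat_lit 200)) (XT.lf (nat_lit 0) (nat_lit 446407810880) (nat_lit 152) (nat_lit 344147051651) (nat_lit 0) (nat_lit 126014803129) (nat_lit 35) (nat_lit 5) (nat_lit 37) (nat_lit 4) (nat_lit 35) (nat_lit 4) (nat_lit 542) (nat_lit 459) (nat_lit 199)))) (XT.nd (nat_lit 56004) (nat_lit 0) (nat_lit 8664) (XT.nd (nat_lit 78) (nat_lit 76) (nat_lit 0) (XT.lf (nat_lit 0) (nat_lit 148381549177) (nat_lit 76) (nat_lit 560791599544) (nat_lit 76) (nat_lit 240398544559) (nat_lit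 34) (nat_lit 4) (nat_lit 35) (nat_lit 5) (nat_lit 35) (nat_lit 4) (nat_lit 543) (nat_lit 459) (nat_lit 198)) (XT.lf (nat_lit 0) (nat_lit 6749398008) (nat_lit 152) (nat_lit 306556834050) (nat_lit 76) (nat_lit 670620736093) (nat_lit 33) (nat_lit 5) (nat_lit 35) (nat_lit 5) (nat_lit 34) (nat_lit 4) (nat_lit 544) (nat_lit 459) (nat_lit 197))) (XT.nd (nat_lit 78) (nat_lit 0) (nat_lit 0) (XT.lf (nat_lit 0) (nat_lit 15693969410) (nat_lit 836) (nat_lit 11114903127) (nat_lit 836) (nat_lit 11114903127) (nat_lit 147) (nat_lit 3) (nat_lit 158) (nat_lit 3) (nat_lit 158) (nat_lit 5) (nat_lit 460) (nat_lit 460) (nat_lit 280)) (XT.lf (nat_lit 76) (nat_lit 15895539839) (nat_lit 0) (nat_lit 16536447492) (nat_lit 836) (nat_lit 45298783549) (nat_lit 148) (nat_lit 5) (nat_lit 147) (nat_lit 3) (nat_lit 158) (nat_lit 5) (nat_lit 461) (nat_lit 460) (nat_lit 279))))))) (XT.nd (nat_lit 1170) (nat_lit 2508) (nat_lit 0)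 (XT.nd (nat_lit 546) (nat_lit 1672) (nat_lit 0) (XT.nd (nat_lit 234) (nat_lit 0) (nat_lit 76) (XT.nd (nat_lit 78) (nat_lit 0) (nat_lit 0) (XT.lf (nat_lit 0) (nat_lit 34259876045) (nat_lit 760) (nat_lit 23346716843) (nat_lit 836) (nat_lit 22064976745) (nat_lit 148) (nat_lit 5) (nat_lit 158) (nat_lit 5) (nat_lit 159) (nat_lit 5) (nat_lit 462) (nat_lit 460) (nat_lit 278)) (XT.nd (nat_lit 78) (nat_lit 0) (nat_lit 76) (XT.lf (nat_lit 76) (nat_lit 17350034204) (nat_lit 0) (nat_lit 19370414794) (nat_lit 836) (nat_lit 44961894940) (nat_lit 149) (nat_lit 5) (nat_lit 148) (nat_lit 5) (nat_lit 159) (nat_lit 5) (nat_lit 463) (nat_lit 460) (nat_lit 277)) (XT.lf (nat_lit 0) (nat_lit 40029664449) (nat_lit 760) (nat_lit 23213036633) (nat_lit 836) (nat_lit 20514675283) (nat_lit 149) (nat_lit 5) (nat_lit 159) (nat_lit 5) (nat_lit 160) (nat_lit 5) (nat_lit 464) (nat_lit 460) (nat_lit 276)))) (XT.nd (nat_lit 156)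 (nat_lit 0) (nat_lit 76) (XT.nd (nat_lit 78) (nat_lit 0) (nat_lit 76) (XT.lf (nat_lit 76) (nat_lit 20293761082) (nat_lit 0) (nat_lit 23844348908) (nat_lit 836) (nat_lit 41766362055) (nat_lit 150) (nat_lit 5) (nat_lit 149) (nat_lit 5) (nat_lit 160) (nat_lit 5) (nat_lit 465) (nat_lit 460) (nat_lit 275)) (XT.lf (nat_lit 0) (nat_lit 49124549087) (nat_lit 760) (nat_lit 21637950069) (nat_lit 836) (nat_lit 17362794877) (nat_lit 150) (nat_lit 5) (nat_lit 160) (nat_lit 5) (nat_lit 161) (nat_lit 5) (nat_lit 466) (nat_lit 460) (nat_lit 274))) (XT.nd (nat_lit 78) (nat_lit 0) (nat_lit 76) (XT.lf (nat_lit 76) (nat_lit 24940382577) (nat_lit 0) (nat_lit 30199641224) (nat_lit 836) (nat_lit 35278147726) (nat_lit 151) (nat_lit 5) (nat_lit 150) (nat_lit 5) (nat_lit 161) (nat_lit 5) (nat_lit 467) (nat_lit 460) (nat_lit 273)) (XT.lf (nat_lit 0) (nat_lit 62021648548) (nat_lit 760) (nat_lit 18408434933) (nat_lit 836)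 (nat_lit 12367340681) (nat_lit 151) (nat_lit 5) (nat_lit 161) (nat_lit 5) (nat_lit 162) (nat_lit 5) (nat_lit 468) (nat_lit 460) (nat_lit 272))))) (XT.nd (nat_lit 312) (nat_lit 1216) (nat_lit 0) (XT.nd (nat_lit 156) (nat_lit 684) (nat_lit 0) (XT.nd (nat_lit 78) (nat_lit 0) (nat_lit 76) (XT.lf (nat_lit 76) (nat_lit 31527978225) (nat_lit 0) (nat_lit 38706174328) (nat_lit 836) (nat_lit 25012147055) (nat_lit 152) (nat_lit 5) (nat_lit 151) (nat_lit 5) (nat_lit 162) (nat_lit 5) (nat_lit 469) (nat_lit 460) (nat_lit 271)) (XT.lf (nat_lit 0) (nat_lit 79253336188) (nat_lit 760) (nat_lit 13286961290) (nat_lit 76) (nat_lit 5257518701) (nat_lit 152) (nat_lit 5) (nat_lit 162) (nat_lit 5) (nat_lit 153) (nat_lit 5) (nat_lit 470) (nat_lit 460) (nat_lit 270))) (XT.nd (nat_lit 78) (nat_lit 0) (nat_lit 0) (XT.lf (nat_lit 0) (nat_lit 40321557999) (nat_lit 760) (nat_lit 49665505995) (nat_lit 836) (nat_lit 10426665405)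 (nat_lit 142) (nat_lit 5) (nat_lit 152) (nat_lit 5) (nat_lit 153) (nat_lit 5) (nat_lit 471) (nat_lit 460) (nat_lit 269)) (XT.lf (nat_lit 0) (nat_lit 97071380339) (nat_lit 760) (nat_lit 4410660111) (nat_lit 836) (nat_lit 1667169786) (nat_lit 142) (nat_lit 5) (nat_lit 152) (nat_lit 5) (nat_lit 153) (nat_lit 5) (nat_lit 472) (nat_lit 460) (nat_lit 268)))) (XT.nd (nat_lit 156) (nat_lit 380) (nat_lit 0) (XT.nd (nat_lit 78) (nat_lit 380) (nat_lit 0) (XT.lf (nat_lit 0) (nat_lit 8791971963) (nat_lit 456) (nat_lit 54473530299) (nat_lit 76) (nat_lit 42674950059) (nat_lit 136) (nat_lit 5) (nat_lit 142) (nat_lit 5) (nat_lit 137) (nat_lit 5) (nat_lit 473) (nat_lit 460) (nat_lit 267)) (XT.lf (nat_lit 0) (nat_lit 3235619773) (nat_lit 380) (nat_lit 16709435562) (nat_lit 456) (nat_lit 88913484084) (nat_lit 131) (nat_lit 5) (nat_lit 136) (nat_lit 5) (nat_lit 137) (nat_lit 5) (nat_lit 474) (nat_lit 460) (nat_lit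 266))) (XT.nd (nat_lit 78) (nat_lit 380) (nat_lit 0) (XT.lf (nat_lit 0) (nat_lit 33095369896) (nat_lit 456) (nat_lit 46672875689) (nat_lit 76) (nat_lit 32082306491) (nat_lit 131) (nat_lit 5) (nat_lit 137) (nat_lit 5) (nat_lit 132) (nat_lit 5) (nat_lit 475) (nat_lit 460) (nat_lit 265)) (XT.lf (nat_lit 0) (nat_lit 15444651263) (nat_lit 380) (nat_lit 31973212957) (nat_lit 456) (nat_lit 67548567998) (nat_lit 126) (nat_lit 5) (nat_lit 131) (nat_lit 5) (nat_lit 132) (nat_lit 5) (nat_lit 476) (nat_lit 460) (nat_lit 264)))))) (XT.nd (nat_lit 624) (nat_lit 1216) (nat_lit 0) (XT.nd (nat_lit 312) (nat_lit 684) (nat_lit 0) (XT.nd (nat_lit 156) (nat_lit 304) (nat_lit 0) (XT.nd (nat_lit 78) (nat_lit 304) (nat_lit 0) (XT.lf (nat_lit 0) (nat_lit 63543818992) (nat_lit 456) (nat_lit 36207876362) (nat_lit 76) (nat_lit 18432044276) (nat_lit 126) (nat_lit 5) (nat_lit 132) (nat_lit 5) (nat_lit 127) (nat_lit 5) (nat_lit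 477) (nat_lit 460) (nat_lit 263)) (XT.lf (nat_lit 0) (nat_lit 30730737171) (nat_lit 304) (nat_lit 50748913055) (nat_lit 380) (nat_lit 40032083299) (nat_lit 122) (nat_lit 5) (nat_lit 126) (nat_lit 5) (nat_lit 127) (nat_lit 5) (nat_lit 478) (nat_lit 460) (nat_lit 262))) (XT.nd (nat_lit 78) (nat_lit 304) (nat_lit 0) (XT.lf (nat_lit 0) (nat_lit 100946159962) (nat_lit 380) (nat_lit 22723595211) (nat_lit 76) (nat_lit 1304677642) (nat_lit 122) (nat_lit 5) (nat_lit 127) (nat_lit 5) (nat_lit 123) (nat_lit 5) (nat_lit 479) (nat_lit 460) (nat_lit 261)) (XT.lf (nat_lit 0) (nat_lit 49488258880) (nat_lit 304) (nat_lit 73501998075) (nat_lit 380) (nat_lit 5539797068) (nat_lit 118) (nat_lit 5) (nat_lit 122) (nat_lit 5) (nat_lit 123) (nat_lit 5) (nat_lit 480) (nat_lit 460) (nat_lit 260)))) (XT.nd (nat_lit 156) (nat_lit 304) (nat_lit 0) (XT.nd (nat_lit 78) (nat_lit 304) (nat_lit 0) (XT.lf (nat_lit 0) (nat_lit 13819886922)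 (nat_lit 380) (nat_lit 6367909386) (nat_lit 76) (nat_lit 112045289608) (nat_lit 117) (nat_lit 5) (nat_lit 122) (nat_lit 5) (nat_lit 118) (nat_lit 5) (nat_lit 481) (nat_lit 460) (nat_lit 259)) (XT.lf (nat_lit 0) (nat_lit 35666423771) (nat_lit 380) (nat_lit 64481212936) (nat_lit 76) (nat_lit 35883839806) (nat_lit 113) (nat_lit 5) (nat_lit 118) (nat_lit 5) (nat_lit 114) (nat_lit 5) (nat_lit 482) (nat_lit 460) (nat_lit 258))) (XT.nd (nat_lit 78) (nat_lit 0) (nat_lit 0) (XT.lf (nat_lit 0) (nat_lit 13675625737) (nat_lit 304) (nat_lit 45583426043) (nat_lit 380) (nat_lit 80728046683) (nat_lit 109) (nat_lit 5) (nat_lit 113) (nat_lit 5) (nat_lit 114) (nat_lit 5) (nat_lit 483) (nat_lit 460) (nat_lit 257)) (XT.lf (nat_lit 0) (nat_lit 85323741693) (nat_lit 380) (nat_lit 46308066035) (nat_lit 76) (nat_lit 12444072290) (nat_lit 109) (nat_lit 5) (nat_lit 114) (nat_lit 5) (nat_lit 110) (nat_lit 5) (nat_lit 484)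 (nat_lit 460) (nat_lit 256))))) (XT.nd (nat_lit 312) (nat_lit 456) (nat_lit 0) (XT.nd (nat_lit 156) (nat_lit 532) (nat_lit 0) (XT.nd (nat_lit 78) (nat_lit 0) (nat_lit 0) (XT.lf (nat_lit 0) (nat_lit 38169522121) (nat_lit 228) (nat_lit 75865058619) (nat_lit 304) (nat_lit 34267374211) (nat_lit 106) (nat_lit 5) (nat_lit 109) (nat_lit 5) (nat_lit 110) (nat_lit 5) (nat_lit 485) (nat_lit 460) (nat_lit 255)) (XT.lf (nat_lit 0) (nat_lit 128478324676) (nat_lit 228) (nat_lit 16486606550) (nat_lit 304) (nat_lit 7735203963) (nat_lit 106) (nat_lit 5) (nat_lit 109) (nat_lit 5) (nat_lit 110) (nat_lit 5) (nat_lit 486) (nat_lit 460) (nat_lit 254))) (XT.nd (nat_lit 78) (nat_lit 228) (nat_lit 0) (XT.lf (nat_lit 0) (nat_lit 21276941764) (nat_lit 304) (nat_lit 90146967417) (nat_lit 76) (nat_lit 45788733663) (nat_lit 102) (nat_lit 5) (nat_lit 106) (nat_lit 5) (nat_lit 103) (nat_lit 5) (nat_lit 487) (nat_lit 460) (nat_lit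 253)) (XT.lf (nat_lit 0) (nat_lit 1471104374) (nat_lit 228) (nat_lit 50718544581) (nat_lit 304) (nat_lit 109719291236) (nat_lit 99) (nat_lit 5) (nat_lit 102) (nat_lit 5) (nat_lit 103) (nat_lit 5) (nat_lit 488) (nat_lit 460) (nat_lit 252)))) (XT.nd (nat_lit 156) (nat_lit 228) (nat_lit 0) (XT.nd (nat_lit 78) (nat_lit 228) (nat_lit 0) (XT.lf (nat_lit 0) (nat_lit 86402752744) (nat_lit 304) (nat_lit 66192656798) (nat_lit 76) (nat_lit 14156904827) (nat_lit 99) (nat_lit 5) (nat_lit 103) (nat_lit 5) (nat_lit 100) (nat_lit 5) (nat_lit 489) (nat_lit 460) (nat_lit 251)) (XT.lf (nat_lit 0) (nat_lit 32988817269) (nat_lit 228) (nat_lit 90683946129) (nat_lit 304) (nat_lit 48097781297) (nat_lit 96) (nat_lit 5) (nat_lit 99) (nat_lit 5) (nat_lit 100) (nat_lit 5) (nat_lit 490) (nat_lit 460) (nat_lit 250))) (XT.nd (nat_lit 78) (nat_lit 228) (nat_lit 0) (XT.lf (nat_lit 0) (nat_lit 139427069908) (nat_lit 228) (nat_lit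 24499967848) (nat_lit 304) (nat_lit 13056610648) (nat_lit 96) (nat_lit 5) (nat_lit 99) (nat_lit 5) (nat_lit 100) (nat_lit 5) (nat_lit 491) (nat_lit 460) (nat_lit 249)) (XT.lf (nat_lit 0) (nat_lit 24805845880) (nat_lit 228) (nat_lit 112491238892) (nat_lit 76) (nat_lit 45050345421) (nat_lit 93) (nat_lit 5) (nat_lit 96) (nat_lit 5) (nat_lit 94) (nat_lit 5) (nat_lit 492) (nat_lit 460) (nat_lit 248))))))))
noncomputable def xc209 : XT := (XT.nd (nat_lit 2418) (nat_lit 1292) (nat_lit 0) (XT.nd (nat_lit 1170) (nat_lit 1444) (nat_lit 0) (XT.nd (nat_lit 546) (nat_lit 912) (nat_lit 0) (XT.nd (nat_lit 234) (nat_lit 456) (nat_lit 0) (XT.nd (nat_lit 78) (nat_lit 380) (nat_lit 0) (XT.lf (nat_lit 0) (nat_lit 65170512295) (nat_lit 228) (nat_lit 4630578085) (nat_lit 76) (nat_lit 118115214832) (nat_lit 93) (nat_lit 5) (nat_lit 96) (nat_lit 5) (nat_lit 94) (nat_lit 5) (nat_lit 493) (nat_lit 460) (nat_lit 247))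 (XT.nd (nat_lit 78) (nat_lit 152) (nat_lit 0) (XT.lf (nat_lit 0) (nat_lit 109350593898) (nat_lit 304) (nat_lit 81507113703) (nat_lit 76) (nat_lit 2816057306) (nat_lit 90) (nat_lit 5) (nat_lit 94) (nat_lit 5) (nat_lit 91) (nat_lit 5) (nat_lit 494) (nat_lit 460) (nat_lit 246)) (XT.lf (nat_lit 0) (nat_lit 35231039615) (nat_lit 152) (nat_lit 122282466812) (nat_lit 228) (nat_lit 42116899836) (nat_lit 88) (nat_lit 5) (nat_lit 90) (nat_lit 5) (nat_lit 91) (nat_lit 5) (nat_lit 495) (nat_lit 460) (nat_lit 245)))) (XT.nd (nat_lit 156) (nat_lit 152) (nat_lit 0) (XT.nd (nat_lit 78) (nat_lit 228) (nat_lit 0) (XT.lf (nat_lit 0) (nat_lit 3532058902) (nat_lit 228) (nat_lit 45237328370) (nat_lit 76) (nat_lit 157043636386) (nat_lit 87) (nat_lit 5) (nat_lit 90) (nat_lit 5) (nat_lit 88) (nat_lit 5) (nat_lit 496) (nat_lit 460) (nat_lit 244)) (XT.lf (nat_lit 0) (nat_lit 51801110900) (nat_lit 304) (nat_lit 130871861686)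 (nat_lit 76) (nat_lit 29509624836) (nat_lit 84) (nat_lit 5) (nat_lit 88) (nat_lit 5) (nat_lit 85) (nat_lit 5) (nat_lit 497) (nat_lit 460) (nat_lit 243))) (XT.nd (nat_lit 78) (nat_lit 152) (nat_lit 0) (XT.lf (nat_lit 0) (nat_lit 104061588404) (nat_lit 304) (nat_lit 3887985574) (nat_lit 76) (nat_lit 110842177268) (nat_lit 84) (nat_lit 5) (nat_lit 88) (nat_lit 5) (nat_lit 85) (nat_lit 5) (nat_lit 498) (nat_lit 460) (nat_lit 242)) (XT.lf (nat_lit 0) (nat_lit 133724803653) (nat_lit 152) (nat_lit 27297914057) (nat_lit 228) (nat_lit 64604263667) (nat_lit 82) (nat_lit 5) (nat_lit 84) (nat_lit 5) (nat_lit 85) (nat_lit 5) (nat_lit 499) (nat_lit 460) (nat_lit 241))))) (XT.nd (nat_lit 312) (nat_lit 380) (nat_lit 0) (XT.nd (nat_lit 156) (nat_lit 304) (nat_lit 0) (XT.nd (nat_lit 78) (nat_lit 76) (nat_lit 0) (XT.lf (nat_lit 0) (nat_lit 46131682703) (nat_lit 152) (nat_lit 176383162873) (nat_lit 228) (nat_lit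 10204980349) (nat_lit 80) (nat_lit 5) (nat_lit 82) (nat_lit 5) (nat_lit 83) (nat_lit 5) (nat_lit 500) (nat_lit 460) (nat_lit 240)) (XT.lf (nat_lit 0) (nat_lit 47441959750) (nat_lit 228) (nat_lit 47037418147) (nat_lit 76) (nat_lit 145549849548) (nat_lit 79) (nat_lit 5) (nat_lit 82) (nat_lit 5) (nat_lit 80) (nat_lit 5) (nat_lit 501) (nat_lit 460) (nat_lit 239))) (XT.nd (nat_lit 78) (nat_lit 152) (nat_lit 0) (XT.lf (nat_lit 0) (nat_lit 102607325318) (nat_lit 152) (nat_lit 6622776736) (nat_lit 228) (nat_lit 138385541787) (nat_lit 77) (nat_lit 5) (nat_lit 79) (nat_lit 5) (nat_lit 80) (nat_lit 5) (nat_lit 502) (nat_lit 460) (nat_lit 238)) (XT.lf (nat_lit 0) (nat_lit 4623538561) (nat_lit 152) (nat_lit 171702655440) (nat_lit 228) (nat_lit 79144259942) (nat_lit 75) (nat_lit 5) (nat_lit 77) (nat_lit 5) (nat_lit 78) (nat_lit 5) (nat_lit 503) (nat_lit 460) (nat_lit 237)))) (XT.nd (nat_lit 156) (nat_lit 152)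 (nat_lit 0) (XT.nd (nat_lit 78) (nat_lit 228) (nat_lit 0) (XT.lf (nat_lit 0) (nat_lit 166658894420) (nat_lit 152) (nat_lit 82680628540) (nat_lit 228) (nat_lit 14250359979) (nat_lit 75) (nat_lit 5) (nat_lit 77) (nat_lit 5) (nat_lit 78) (nat_lit 5) (nat_lit 504) (nat_lit 460) (nat_lit 236)) (XT.lf (nat_lit 0) (nat_lit 53392142336) (nat_lit 228) (nat_lit 206271002548) (nat_lit 76) (nat_lit 12348637823) (nat_lit 72) (nat_lit 5) (nat_lit 75) (nat_lit 5) (nat_lit 73) (nat_lit 5) (nat_lit 505) (nat_lit 460) (nat_lit 235))) (XT.nd (nat_lit 78) (nat_lit 152) (nat_lit 0) (XT.lf (nat_lit 0) (nat_lit 126961603199) (nat_lit 228) (nat_lit 42477568814) (nat_lit 76) (nat_lit 111252737886) (nat_lit 72) (nat_lit 5) (nat_lit 75) (nat_lit 5) (nat_lit 73) (nat_lit 5) (nat_lit 506) (nat_lit 460) (nat_lit 234)) (XT.lf (nat_lit 0) (nat_lit 133787290469) (nat_lit 152) (nat_lit 72510883659) (nat_lit 228) (nat_lit 83403437482)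 (nat_lit 70) (nat_lit 5) (nat_lit 72) (nat_lit 5) (nat_lit 73) (nat_lit 5) (nat_lit 507) (nat_lit 460) (nat_lit 233)))))) (XT.nd (nat_lit 624) (nat_lit 760) (nat_lit 0) (XT.nd (nat_lit 312) (nat_lit 380) (nat_lit 0) (XT.nd (nat_lit 156) (nat_lit 152) (nat_lit 0) (XT.nd (nat_lit 78) (nat_lit 76) (nat_lit 0) (XT.lf (nat_lit 0) (nat_lit 21431263016) (nat_lit 76) (nat_lit 269692818101) (nat_lit 152) (nat_lit 7961591921) (nat_lit 69) (nat_lit 5) (nat_lit 70) (nat_lit 5) (nat_lit 71) (nat_lit 4) (nat_lit 508) (nat_lit 460) (nat_lit 232)) (XT.lf (nat_lit 0) (nat_lit 72844144594) (nat_lit 152) (nat_lit 98094509318) (nat_lit 76) (nat_lit 137751045257) (nat_lit 68) (nat_lit 5) (nat_lit 70) (nat_lit 5) (nat_lit 69) (nat_lit 5) (nat_lit 509) (nat_lit 460) (nat_lit 231))) (XT.nd (nat_lit 78) (nat_lit 0) (nat_lit 0) (XT.lf (nat_lit 0) (nat_lit 93298747180) (nat_lit 152) (nat_lit 65580365984) (nat_lit 228)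 (nat_lit 159815462208) (nat_lit 66) (nat_lit 5) (nat_lit 68) (nat_lit 5) (nat_lit 69) (nat_lit 5) (nat_lit 510) (nat_lit 460) (nat_lit 230)) (XT.lf (nat_lit 0) (nat_lit 251607487172) (nat_lit 228) (nat_lit 32180136054) (nat_lit 76) (nat_lit 45292489316) (nat_lit 66) (nat_lit 5) (nat_lit 69) (nat_lit 5) (nat_lit 67) (nat_lit 4) (nat_lit 511) (nat_lit 460) (nat_lit 229)))) (XT.nd (nat_lit 156) (nat_lit 76) (nat_lit 0) (XT.nd (nat_lit 78) (nat_lit 152) (nat_lit 0) (XT.lf (nat_lit 0) (nat_lit 12572944277) (nat_lit 152) (nat_lit 164767740938) (nat_lit 76) (nat_lit 162443563353) (nat_lit 64) (nat_lit 5) (nat_lit 66) (nat_lit 5) (nat_lit 65) (nat_lit 5) (nat_lit 512) (nat_lit 460) (nat_lit 228)) (XT.lf (nat_lit 0) (nat_lit 42783987592) (nat_lit 152) (nat_lit 62954975639) (nat_lit 228) (nat_lit 245160038065) (nat_lit 62) (nat_lit 5) (nat_lit 64) (nat_lit 5) (nat_lit 65) (nat_lit 5) (nat_lit 513) (nat_lit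 460) (nat_lit 227))) (XT.nd (nat_lit 78) (nat_lit 76) (nat_lit 0) (XT.lf (nat_lit 0) (nat_lit 207291582855) (nat_lit 228) (nat_lit 96934574740) (nat_lit 76) (nat_lit 58156919087) (nat_lit 62) (nat_lit 5) (nat_lit 65) (nat_lit 5) (nat_lit 63) (nat_lit 4) (nat_lit 514) (nat_lit 460) (nat_lit 226)) (XT.lf (nat_lit 0) (nat_lit 127865076438) (nat_lit 76) (nat_lit 189085006292) (nat_lit 152) (nat_lit 57339860647) (nat_lit 61) (nat_lit 5) (nat_lit 62) (nat_lit 5) (nat_lit 63) (nat_lit 4) (nat_lit 515) (nat_lit 460) (nat_lit 225))))) (XT.nd (nat_lit 312) (nat_lit 456) (nat_lit 0) (XT.nd (nat_lit 156) (nat_lit 76) (nat_lit 0) (XT.nd (nat_lit 78) (nat_lit 152) (nat_lit 0) (XT.lf (nat_lit 0) (nat_lit 45517906654) (nat_lit 152) (nat_lit 20174416263) (nat_lit 76) (nat_lit 320981047267) (nat_lit 60) (nat_lit 5) (nat_lit 62) (nat_lit 5) (nat_lit 61) (nat_lit 5) (nat_lit 516) (nat_lit 460) (nat_lit 224)) (XT.lf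 (nat_lit 0) (nat_lit 156152373004) (nat_lit 228) (nat_lit 176919160894) (nat_lit 76) (nat_lit 66329394252) (nat_lit 58) (nat_lit 5) (nat_lit 61) (nat_lit 5) (nat_lit 59) (nat_lit 4) (nat_lit 517) (nat_lit 460) (nat_lit 223))) (XT.nd (nat_lit 78) (nat_lit 0) (nat_lit 0) (XT.lf (nat_lit 0) (nat_lit 66261412313) (nat_lit 76) (nat_lit 208515740335) (nat_lit 152) (nat_lit 137864781872) (nat_lit 57) (nat_lit 5) (nat_lit 58) (nat_lit 5) (nat_lit 59) (nat_lit 4) (nat_lit 518) (nat_lit 460) (nat_lit 222)) (XT.lf (nat_lit 0) (nat_lit 327743020075) (nat_lit 76) (nat_lit 74586240919) (nat_lit 152) (nat_lit 24065925734) (nat_lit 57) (nat_lit 5) (nat_lit 58) (nat_lit 5) (nat_lit 59) (nat_lit 4) (nat_lit 519) (nat_lit 460) (nat_lit 221)))) (XT.nd (nat_lit 156) (nat_lit 228) (nat_lit 0) (XT.nd (nat_lit 78) (nat_lit 0) (nat_lit 0) (XT.lf (nat_lit 0) (nat_lit 96046615425) (nat_lit 228) (nat_lit 276468408950) (nat_lit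 76) (nat_lit 68062692744) (nat_lit 54) (nat_lit 5) (nat_lit 57) (nat_lit 5) (nat_lit 55) (nat_lit 4) (nat_lit 520) (nat_lit 460) (nat_lit 220)) (XT.lf (nat_lit 0) (nat_lit 224276729713) (nat_lit 228) (nat_lit 13596859821) (nat_lit 76) (nat_lit 217430022385) (nat_lit 54) (nat_lit 5) (nat_lit 57) (nat_lit 5) (nat_lit 55) (nat_lit 4) (nat_lit 521) (nat_lit 460) (nat_lit 219))) (XT.nd (nat_lit 78) (nat_lit 152) (nat_lit 0) (XT.lf (nat_lit 0) (nat_lit 271094781779) (nat_lit 76) (nat_lit 92056005467) (nat_lit 152) (nat_lit 107403392338) (nat_lit 53) (nat_lit 5) (nat_lit 54) (nat_lit 5) (nat_lit 55) (nat_lit 4) (nat_lit 522) (nat_lit 460) (nat_lit 218)) (XT.lf (nat_lit 0) (nat_lit 24251215342) (nat_lit 152) (nat_lit 401108341902) (nat_lit 76) (nat_lit 61061884864) (nat_lit 51) (nat_lit 5) (nat_lit 53) (nat_lit 5) (nat_lit 52) (nat_lit 4) (nat_lit 523) (nat_lit 460) (nat_lit 217))))))) (XT.nd (nat_lit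 1170) (nat_lit 380) (nat_lit 0) (XT.nd (nat_lit 546) (nat_lit 532) (nat_lit 0) (XT.nd (nat_lit 234) (nat_lit 304) (nat_lit 0) (XT.nd (nat_lit 78) (nat_lit 76) (nat_lit 0) (XT.lf (nat_lit 0) (nat_lit 163821416536) (nat_lit 152) (nat_lit 114989581785) (nat_lit 76) (nat_lit 223935917802) (nat_lit 51) (nat_lit 5) (nat_lit 53) (nat_lit 5) (nat_lit 52) (nat_lit 4) (nat_lit 524) (nat_lit 460) (nat_lit 216)) (XT.nd (nat_lit 78) (nat_lit 0) (nat_lit 0) (XT.lf (nat_lit 0) (nat_lit 191566230312) (nat_lit 76) (nat_lit 121794677529) (nat_lit 152) (nat_lit 206378216998) (nat_lit 50) (nat_lit 5) (nat_lit 51) (nat_lit 5) (nat_lit 52) (nat_lit 4) (nat_lit 525) (nat_lit 460) (nat_lit 215)) (XT.lf (nat_lit 0) (nat_lit 473029079166) (nat_lit 152) (nat_lit 20746170804) (nat_lit 0) (nat_lit 43673108753) (nat_lit 50) (nat_lit 5) (nat_lit 52) (nat_lit 4) (nat_lit 50) (nat_lit 4) (nat_lit 526) (nat_lit 460) (nat_lit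 214)))) (XT.nd (nat_lit 156) (nat_lit 76) (nat_lit 0) (XT.nd (nat_lit 78) (nat_lit 76) (nat_lit 0) (XT.lf (nat_lit 0) (nat_lit 88876872196) (nat_lit 152) (nat_lit 247158507734) (nat_lit 76) (nat_lit 219594192893) (nat_lit 48) (nat_lit 5) (nat_lit 50) (nat_lit 5) (nat_lit 49) (nat_lit 4) (nat_lit 527) (nat_lit 460) (nat_lit 213)) (XT.lf (nat_lit 0) (nat_lit 81720709413) (nat_lit 76) (nat_lit 167585107418) (nat_lit 152) (nat_lit 325279583336) (nat_lit 47) (nat_lit 5) (nat_lit 48) (nat_lit 5) (nat_lit 49) (nat_lit 4) (nat_lit 528) (nat_lit 460) (nat_lit 212))) (XT.nd (nat_lit 78) (nat_lit 76) (nat_lit 0) (XT.lf (nat_lit 0) (nat_lit 422155483516) (nat_lit 152) (nat_lit 158868877408) (nat_lit 0) (nat_lit 13244694216) (nat_lit 47) (nat_lit 5) (nat_lit 49) (nat_lit 4) (nat_lit 47) (nat_lit 4) (nat_lit 529) (nat_lit 460) (nat_lit 211)) (XT.lf (nat_lit 0) (nat_lit 195331059580) (nat_lit 76) (nat_lit 414113441164)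 (nat_lit 76) (nat_lit 5202548760) (nat_lit 46) (nat_lit 4) (nat_lit 47) (nat_lit 5) (nat_lit 47) (nat_lit 4) (nat_lit 530) (nat_lit 460) (nat_lit 210))))) (XT.nd (nat_lit 312) (nat_lit 228) (nat_lit 0) (XT.nd (nat_lit 156) (nat_lit 152) (nat_lit 0) (XT.nd (nat_lit 78) (nat_lit 76) (nat_lit 0) (XT.lf (nat_lit 0) (nat_lit 167345767923) (nat_lit 152) (nat_lit 65852166354) (nat_lit 76) (nat_lit 402576531640) (nat_lit 45) (nat_lit 5) (nat_lit 47) (nat_lit 5) (nat_lit 46) (nat_lit 4) (nat_lit 531) (nat_lit 460) (nat_lit 209)) (XT.lf (nat_lit 0) (nat_lit 315290655354) (nat_lit 76) (nat_lit 37978485850) (nat_lit 152) (nat_lit 304438723538) (nat_lit 44) (nat_lit 5) (nat_lit 45) (nat_lit 5) (nat_lit 46) (nat_lit 4) (nat_lit 532) (nat_lit 460) (nat_lit 208))) (XT.nd (nat_lit 78) (nat_lit 76) (nat_lit 0) (XT.lf (nat_lit 0) (nat_lit 35608554730) (nat_lit 76) (nat_lit 517176876955) (nat_lit 76) (nat_lit 127737664400)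 (nat_lit 43) (nat_lit 4) (nat_lit 44) (nat_lit 5) (nat_lit 44) (nat_lit 4) (nat_lit 533) (nat_lit 460) (nat_lit 207)) (XT.lf (nat_lit 0) (nat_lit 62465111468) (nat_lit 152) (nat_lit 261385814827) (nat_lit 76) (nat_lit 380257214160) (nat_lit 42) (nat_lit 5) (nat_lit 44) (nat_lit 5) (nat_lit 43) (nat_lit 4) (nat_lit 534) (nat_lit 460) (nat_lit 206)))) (XT.nd (nat_lit 156) (nat_lit 152) (nat_lit 0) (XT.nd (nat_lit 78) (nat_lit 0) (nat_lit 0) (XT.lf (nat_lit 0) (nat_lit 143828531782) (nat_lit 76) (nat_lit 116302152148) (nat_lit 152) (nat_lit 468524776064) (nat_lit 41) (nat_lit 5) (nat_lit 42) (nat_lit 5) (nat_lit 43) (nat_lit 4) (nat_lit 535) (nat_lit 460) (nat_lit 205)) (XT.lf (nat_lit 0) (nat_lit 473765350159) (nat_lit 152) (nat_lit 177489862581) (nat_lit 0) (nat_lit 102870642015) (nat_lit 41) (nat_lit 5) (nat_lit 43) (nat_lit 4) (nat_lit 41) (nat_lit 4) (nat_lit 536) (nat_lit 460) (nat_lit 204)))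 (XT.nd (nat_lit 78) (nat_lit 76) (nat_lit 0) (XT.lf (nat_lit 0) (nat_lit 256517464858) (nat_lit 76) (nat_lit 447475752803) (nat_lit 76) (nat_lit 76580978197) (nat_lit 40) (nat_lit 4) (nat_lit 41) (nat_lit 5) (nat_lit 41) (nat_lit 4) (nat_lit 537) (nat_lit 460) (nat_lit 203)) (XT.lf (nat_lit 0) (nat_lit 136045338001) (nat_lit 152) (nat_lit 92001894999) (nat_lit 76) (nat_lit 580037717188) (nat_lit 39) (nat_lit 5) (nat_lit 41) (nat_lit 5) (nat_lit 40) (nat_lit 4) (nat_lit 538) (nat_lit 460) (nat_lit 202)))))) (XT.nd (nat_lit 56550) (nat_lit 0) (nat_lit 8664) (XT.nd (nat_lit 312) (nat_lit 76) (nat_lit 0) (XT.nd (nat_lit 156) (nat_lit 228) (nat_lit 0) (XT.nd (nat_lit 78) (nat_lit 0) (nat_lit 0) (XT.lf (nat_lit 0) (nat_lit 362694780189) (nat_lit 152) (nat_lit 464453875272) (nat_lit 0) (nat_lit 9461543822) (nat_lit 38) (nat_lit 5) (nat_lit 40) (nat_lit 4) (nat_lit 38) (nat_lit 4) (nat_lit 539) (nat_lit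 460) (nat_lit 201)) (XT.lf (nat_lit 0) (nat_lit 605998735836) (nat_lit 152) (nat_lit 7531428139) (nat_lit 0) (nat_lit 252765444790) (nat_lit 38) (nat_lit 5) (nat_lit 40) (nat_lit 4) (nat_lit 38) (nat_lit 4) (nat_lit 540) (nat_lit 460) (nat_lit 200))) (XT.nd (nat_lit 78) (nat_lit 152) (nat_lit 0) (XT.lf (nat_lit 0) (nat_lit 487851284022) (nat_lit 76) (nat_lit 381233257601) (nat_lit 76) (nat_lit 27999914481) (nat_lit 37) (nat_lit 4) (nat_lit 38) (nat_lit 5) (nat_lit 38) (nat_lit 4) (nat_lit 541) (nat_lit 460) (nat_lit 199)) (XT.lf (nat_lit 0) (nat_lit 77980887091) (nat_lit 76) (nat_lit 132367542082) (nat_lit 152) (nat_lit 718828413842) (nat_lit 35) (nat_lit 5) (nat_lit 36) (nat_lit 5) (nat_lit 37) (nat_lit 4) (nat_lit 542) (nat_lit 460) (nat_lit 198)))) (XT.nd (nat_lit 56082) (nat_lit 0) (nat_lit 8588) (XT.nd (nat_lit 78) (nat_lit 76) (nat_lit 0) (XT.lf (nat_lit 0) (nat_lit 468730451219) (nat_lit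 152) (nat_lit 361349933938) (nat_lit 0) (nat_lit 132317651268) (nat_lit 35) (nat_lit 5) (nat_lit 37) (nat_lit 4) (nat_lit 35) (nat_lit 4) (nat_lit 543) (nat_lit 460) (nat_lit 197)) (XT.lf (nat_lit 0) (nat_lit 155805024830) (nat_lit 76) (nat_lit 588828992657) (nat_lit 76) (nat_lit 252416149864) (nat_lit 34) (nat_lit 4) (nat_lit 35) (nat_lit 5) (nat_lit 35) (nat_lit 4) (nat_lit 544) (nat_lit 460) (nat_lit 196))) (XT.nd (nat_lit 78) (nat_lit 0) (nat_lit 0) (XT.lf (nat_lit 0) (nat_lit 16489669506) (nat_lit 836) (nat_lit 11664871579) (nat_lit 836) (nat_lit 11664871579) (nat_lit 147) (nat_lit 3) (nat_lit 158) (nat_lit 3) (nat_lit 158) (nat_lit 5) (nat_lit 461) (nat_lit 461) (nat_lit 278)) (XT.lf (nat_lit 76) (nat_lit 16701683895) (nat_lit 0) (nat_lit 17373035752) (nat_lit 836) (nat_lit 47541529889) (nat_lit 148) (nat_lit 5) (nat_lit 147) (nat_lit 3) (nat_lit 158) (nat_lit 5) (nat_lit 462) (nat_lit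 461) (nat_lit 277))))) (XT.nd (nat_lit 312) (nat_lit 0) (nat_lit 152) (XT.nd (nat_lit 156) (nat_lit 0) (nat_lit 76) (XT.nd (nat_lit 78) (nat_lit 0) (nat_lit 0) (XT.lf (nat_lit 0) (nat_lit 35992851253) (nat_lit 760) (nat_lit 24502072280) (nat_lit 836) (nat_lit 23159222423) (nat_lit 148) (nat_lit 5) (nat_lit 158) (nat_lit 5) (nat_lit 159) (nat_lit 5) (nat_lit 463) (nat_lit 461) (nat_lit 276)) (XT.lf (nat_lit 76) (nat_lit 18229323086) (nat_lit 0) (nat_lit 20346362302) (nat_lit 836) (nat_lit 47189812108) (nat_lit 149) (nat_lit 5) (nat_lit 148) (nat_lit 5) (nat_lit 159) (nat_lit 5) (nat_lit 464) (nat_lit 461) (nat_lit 275))) (XT.nd (nat_lit 78) (nat_lit 0) (nat_lit 0) (XT.lf (nat_lit 0) (nat_lit 42049336232) (nat_lit 760) (nat_lit 24361434406) (nat_lit 836) (nat_lit 21533562318) (nat_lit 149) (nat_lit 5) (nat_lit 159) (nat_lit 5) (nat_lit 160) (nat_lit 5) (nat_lit 465) (nat_lit 461) (nat_lit 274))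 (XT.lf (nat_lit 76) (nat_lit 21320505549) (nat_lit 0) (nat_lit 25042020613) (nat_lit 836) (nat_lit 43836291284) (nat_lit 150) (nat_lit 5) (nat_lit 149) (nat_lit 5) (nat_lit 160) (nat_lit 5) (nat_lit 466) (nat_lit 461) (nat_lit 273)))) (XT.nd (nat_lit 156) (nat_lit 0) (nat_lit 76) (XT.nd (nat_lit 78) (nat_lit 0) (nat_lit 0) (XT.lf (nat_lit 0) (nat_lit 51597372272) (nat_lit 760) (nat_lit 22707447792) (nat_lit 836) (nat_lit 18225906345) (nat_lit 150) (nat_lit 5) (nat_lit 160) (nat_lit 5) (nat_lit 161) (nat_lit 5) (nat_lit 467) (nat_lit 461) (nat_lit 272)) (XT.lf (nat_lit 76) (nat_lit 26199601490) (nat_lit 0) (nat_lit 31713419431) (nat_lit 836) (nat_lit 37025256967) (nat_lit 151) (nat_lit 5) (nat_lit 150) (nat_lit 5) (nat_lit 161) (nat_lit 5) (nat_lit 468) (nat_lit 461) (nat_lit 271))) (XT.nd (nat_lit 78) (nat_lit 0) (nat_lit 0) (XT.lf (nat_lit 0) (nat_lit 65137908749) (nat_lit 760) (nat_lit 19316417377)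 (nat_lit 836) (nat_lit 12982208052) (nat_lit 151) (nat_lit 5) (nat_lit 161) (nat_lit 5) (nat_lit 162) (nat_lit 5) (nat_lit 469) (nat_lit 461) (nat_lit 270)) (XT.lf (nat_lit 76) (nat_lit 33116615805) (nat_lit 0) (nat_lit 40643890477) (nat_lit 836) (nat_lit 26247373807) (nat_lit 152) (nat_lit 5) (nat_lit 151) (nat_lit 5) (nat_lit 162) (nat_lit 5) (nat_lit 470) (nat_lit 461) (nat_lit 269))))))))
noncomputable def xc210 : XT := (XT.nd (nat_lit 2418) (nat_lit 2660) (nat_lit 0) (XT.nd (nat_lit 1170) (nat_lit 2204) (nat_lit 0) (XT.nd (nat_lit 546) (nat_lit 1292) (nat_lit 0) (XT.nd (nat_lit 234) (nat_lit 1216) (nat_lit 0) (XT.nd (nat_lit 78) (nat_lit 760) (nat_lit 0) (XT.lf (nat_lit 0) (nat_lit 83229915869) (nat_lit 760) (nat_lit 13938918159) (nat_lit 76) (nat_lit 5518175226) (nat_lit 152) (nat_lit 5) (nat_lit 162) (nat_lit 5) (nat_lit 153) (nat_lit 5) (nat_lit 471) (nat_lit 461) (nat_lit 268)) (XT.nd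 (nat_lit 78) (nat_lit 0) (nat_lit 0) (XT.lf (nat_lit 0) (nat_lit 42349827235) (nat_lit 760) (nat_lit 52150030653) (nat_lit 836) (nat_lit 10933883956) (nat_lit 142) (nat_lit 5) (nat_lit 152) (nat_lit 5) (nat_lit 153) (nat_lit 5) (nat_lit 472) (nat_lit 461) (nat_lit 267)) (XT.lf (nat_lit 0) (nat_lit 101936560152) (nat_lit 760) (nat_lit 4632382981) (nat_lit 836) (nat_lit 1737085686) (nat_lit 142) (nat_lit 5) (nat_lit 152) (nat_lit 5) (nat_lit 153) (nat_lit 5) (nat_lit 473) (nat_lit 461) (nat_lit 266)))) (XT.nd (nat_lit 156) (nat_lit 380) (nat_lit 0) (XT.nd (nat_lit 78) (nat_lit 380) (nat_lit 0) (XT.lf (nat_lit 0) (nat_lit 9244136876) (nat_lit 456) (nat_lit 57184716218) (nat_lit 76) (nat_lit 44807991808) (nat_lit 136) (nat_lit 5) (nat_lit 142) (nat_lit 5) (nat_lit 137) (nat_lit 5) (nat_lit 474) (nat_lit 461) (nat_lit 265)) (XT.lf (nat_lit 0) (nat_lit 3409689897) (nat_lit 380) (nat_lit 17544777991)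 (nat_lit 456) (nat_lit 93346388875) (nat_lit 131) (nat_lit 5) (nat_lit 136) (nat_lit 5) (nat_lit 137) (nat_lit 5) (nat_lit 475) (nat_lit 461) (nat_lit 264))) (XT.nd (nat_lit 78) (nat_lit 380) (nat_lit 0) (XT.lf (nat_lit 0) (nat_lit 34761721063) (nat_lit 456) (nat_lit 48994236862) (nat_lit 76) (nat_lit 33686541062) (nat_lit 131) (nat_lit 5) (nat_lit 137) (nat_lit 5) (nat_lit 132) (nat_lit 5) (nat_lit 476) (nat_lit 461) (nat_lit 263)) (XT.lf (nat_lit 0) (nat_lit 16228968331) (nat_lit 380) (nat_lit 33571008889) (nat_lit 456) (nat_lit 70914214134) (nat_lit 126) (nat_lit 5) (nat_lit 131) (nat_lit 5) (nat_lit 132) (nat_lit 5) (nat_lit 477) (nat_lit 461) (nat_lit 262))))) (XT.nd (nat_lit 312) (nat_lit 684) (nat_lit 0) (XT.nd (nat_lit 156) (nat_lit 304) (nat_lit 0) (XT.nd (nat_lit 78) (nat_lit 304) (nat_lit 0) (XT.lf (nat_lit 0) (nat_lit 66731708313) (nat_lit 456) (nat_lit 38006238296) (nat_lit 76) (nat_lit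 19354443670) (nat_lit 126) (nat_lit 5) (nat_lit 132) (nat_lit 5) (nat_lit 127) (nat_lit 5) (nat_lit 478) (nat_lit 461) (nat_lit 261)) (XT.lf (nat_lit 0) (nat_lit 32279111851) (nat_lit 304) (nat_lit 53284894633) (nat_lit 380) (nat_lit 42022793683) (nat_lit 122) (nat_lit 5) (nat_lit 126) (nat_lit 5) (nat_lit 127) (nat_lit 5) (nat_lit 479) (nat_lit 461) (nat_lit 260))) (XT.nd (nat_lit 78) (nat_lit 304) (nat_lit 0) (XT.lf (nat_lit 0) (nat_lit 106003369489) (nat_lit 380) (nat_lit 23848027355) (nat_lit 76) (nat_lit 1371261252) (nat_lit 122) (nat_lit 5) (nat_lit 127) (nat_lit 5) (nat_lit 123) (nat_lit 5) (nat_lit 480) (nat_lit 461) (nat_lit 259)) (XT.lf (nat_lit 0) (nat_lit 51974229963) (nat_lit 304) (nat_lit 77175150323) (nat_lit 380) (nat_lit 5806694693) (nat_lit 118) (nat_lit 5) (nat_lit 122) (nat_lit 5) (nat_lit 123) (nat_lit 5) (nat_lit 481) (nat_lit 461) (nat_lit 258)))) (XT.nd (nat_lit 156) (nat_lit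 304) (nat_lit 0) (XT.nd (nat_lit 78) (nat_lit 304) (nat_lit 0) (XT.lf (nat_lit 0) (nat_lit 14520185281) (nat_lit 380) (nat_lit 6674988364) (nat_lit 76) (nat_lit 117649100258) (nat_lit 117) (nat_lit 5) (nat_lit 122) (nat_lit 5) (nat_lit 118) (nat_lit 5) (nat_lit 482) (nat_lit 461) (nat_lit 257)) (XT.lf (nat_lit 0) (nat_lit 37458812531) (nat_lit 380) (nat_lit 67693719594) (nat_lit 76) (nat_lit 37680063781) (nat_lit 113) (nat_lit 5) (nat_lit 118) (nat_lit 5) (nat_lit 114) (nat_lit 5) (nat_lit 483) (nat_lit 461) (nat_lit 256))) (XT.nd (nat_lit 78) (nat_lit 0) (nat_lit 0) (XT.lf (nat_lit 0) (nat_lit 14370774658) (nat_lit 304) (nat_lit 47860042973) (nat_lit 380) (nat_lit 84755194087) (nat_lit 109) (nat_lit 5) (nat_lit 113) (nat_lit 5) (nat_lit 114) (nat_lit 5) (nat_lit 484) (nat_lit 461) (nat_lit 255)) (XT.lf (nat_lit 0) (nat_lit 89598360343) (nat_lit 380) (nat_lit 48612260364) (nat_lit 76) (nat_lit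 13068630776) (nat_lit 109) (nat_lit 5) (nat_lit 114) (nat_lit 5) (nat_lit 110) (nat_lit 5) (nat_lit 485) (nat_lit 461) (nat_lit 254)))))) (XT.nd (nat_lit 624) (nat_lit 988) (nat_lit 0) (XT.nd (nat_lit 312) (nat_lit 456) (nat_lit 0) (XT.nd (nat_lit 156) (nat_lit 532) (nat_lit 0) (XT.nd (nat_lit 78) (nat_lit 0) (nat_lit 0) (XT.lf (nat_lit 0) (nat_lit 40089026411) (nat_lit 228) (nat_lit 79655485610) (nat_lit 304) (nat_lit 35972129655) (nat_lit 106) (nat_lit 5) (nat_lit 109) (nat_lit 5) (nat_lit 110) (nat_lit 5) (nat_lit 486) (nat_lit 461) (nat_lit 253)) (XT.lf (nat_lit 0) (nat_lit 134912743941) (nat_lit 228) (nat_lit 17308245506) (nat_lit 304) (nat_lit 8113761050) (nat_lit 106) (nat_lit 5) (nat_lit 109) (nat_lit 5) (nat_lit 110) (nat_lit 5) (nat_lit 487) (nat_lit 461) (nat_lit 252))) (XT.nd (nat_lit 78) (nat_lit 228) (nat_lit 0) (XT.lf (nat_lit 0) (nat_lit 22348561403) (nat_lit 304) (nat_lit 94643380582)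 (nat_lit 76) (nat_lit 48080943587) (nat_lit 102) (nat_lit 5) (nat_lit 106) (nat_lit 5) (nat_lit 103) (nat_lit 5) (nat_lit 488) (nat_lit 461) (nat_lit 251)) (XT.lf (nat_lit 0) (nat_lit 1555418425) (nat_lit 228) (nat_lit 53251283383) (nat_lit 304) (nat_lit 115197306123) (nat_lit 99) (nat_lit 5) (nat_lit 102) (nat_lit 5) (nat_lit 103) (nat_lit 5) (nat_lit 489) (nat_lit 461) (nat_lit 250)))) (XT.nd (nat_lit 156) (nat_lit 228) (nat_lit 0) (XT.nd (nat_lit 78) (nat_lit 228) (nat_lit 0) (XT.lf (nat_lit 0) (nat_lit 90730147700) (nat_lit 304) (nat_lit 69491729331) (nat_lit 76) (nat_lit 14867689476) (nat_lit 99) (nat_lit 5) (nat_lit 103) (nat_lit 5) (nat_lit 100) (nat_lit 5) (nat_lit 490) (nat_lit 461) (nat_lit 249)) (XT.lf (nat_lit 0) (nat_lit 34648648112) (nat_lit 228) (nat_lit 95214827406) (nat_lit 304) (nat_lit 50495242035) (nat_lit 96) (nat_lit 5) (nat_lit 99) (nat_lit 5) (nat_lit 100) (nat_lit 5)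 (nat_lit 491) (nat_lit 461) (nat_lit 248))) (XT.nd (nat_lit 78) (nat_lit 228) (nat_lit 0) (XT.lf (nat_lit 0) (nat_lit 146408318621) (nat_lit 228) (nat_lit 25721808117) (nat_lit 304) (nat_lit 13702366583) (nat_lit 96) (nat_lit 5) (nat_lit 99) (nat_lit 5) (nat_lit 100) (nat_lit 5) (nat_lit 492) (nat_lit 461) (nat_lit 247)) (XT.lf (nat_lit 0) (nat_lit 26052866957) (nat_lit 228) (nat_lit 118105558600) (nat_lit 76) (nat_lit 47306039119) (nat_lit 93) (nat_lit 5) (nat_lit 96) (nat_lit 5) (nat_lit 94) (nat_lit 5) (nat_lit 493) (nat_lit 461) (nat_lit 246))))) (XT.nd (nat_lit 312) (nat_lit 532) (nat_lit 0) (XT.nd (nat_lit 156) (nat_lit 228) (nat_lit 0) (XT.nd (nat_lit 78) (nat_lit 228) (nat_lit 0) (XT.lf (nat_lit 0) (nat_lit 68435446275) (nat_lit 228) (nat_lit 4852352479) (nat_lit 76) (nat_lit 124024000741) (nat_lit 93) (nat_lit 5) (nat_lit 96) (nat_lit 5) (nat_lit 94) (nat_lit 5) (nat_lit 494) (nat_lit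 461) (nat_lit 245)) (XT.lf (nat_lit 0) (nat_lit 114824428848) (nat_lit 304) (nat_lit 85572611234) (nat_lit 76) (nat_lit 2960097275) (nat_lit 90) (nat_lit 5) (nat_lit 94) (nat_lit 5) (nat_lit 91) (nat_lit 5) (nat_lit 495) (nat_lit 461) (nat_lit 244))) (XT.nd (nat_lit 78) (nat_lit 76) (nat_lit 0) (XT.lf (nat_lit 0) (nat_lit 37002290748) (nat_lit 152) (nat_lit 128393047436) (nat_lit 228) (nat_lit 44216280063) (nat_lit 88) (nat_lit 5) (nat_lit 90) (nat_lit 5) (nat_lit 91) (nat_lit 5) (nat_lit 496) (nat_lit 461) (nat_lit 243)) (XT.lf (nat_lit 0) (nat_lit 3714621707) (nat_lit 228) (nat_lit 47489759981) (nat_lit 76) (nat_lit 164898994700) (nat_lit 87) (nat_lit 5) (nat_lit 90) (nat_lit 5) (nat_lit 88) (nat_lit 5) (nat_lit 497) (nat_lit 461) (nat_lit 242)))) (XT.nd (nat_lit 156) (nat_lit 304) (nat_lit 0) (XT.nd (nat_lit 78) (nat_lit 0) (nat_lit 0) (XT.lf (nat_lit 0) (nat_lit 54397041476) (nat_lit 304)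 (nat_lit 137405934696) (nat_lit 76) (nat_lit 30988456932) (nat_lit 84) (nat_lit 5) (nat_lit 88) (nat_lit 5) (nat_lit 85) (nat_lit 5) (nat_lit 498) (nat_lit 461) (nat_lit 241)) (XT.lf (nat_lit 0) (nat_lit 109270263091) (nat_lit 304) (nat_lit 4073318115) (nat_lit 76) (nat_lit 116387477421) (nat_lit 84) (nat_lit 5) (nat_lit 88) (nat_lit 5) (nat_lit 85) (nat_lit 5) (nat_lit 499) (nat_lit 461) (nat_lit 240))) (XT.nd (nat_lit 78) (nat_lit 152) (nat_lit 0) (XT.lf (nat_lit 0) (nat_lit 140419964336) (nat_lit 152) (nat_lit 28659357360) (nat_lit 228) (nat_lit 67828734948) (nat_lit 82) (nat_lit 5) (nat_lit 84) (nat_lit 5) (nat_lit 85) (nat_lit 5) (nat_lit 500) (nat_lit 461) (nat_lit 239)) (XT.lf (nat_lit 0) (nat_lit 48447259813) (nat_lit 152) (nat_lit 185198727496) (nat_lit 228) (nat_lit 10709559561) (nat_lit 80) (nat_lit 5) (nat_lit 82) (nat_lit 5) (nat_lit 83) (nat_lit 5) (nat_lit 501) (nat_lit 461) (nat_lit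 238))))))) (XT.nd (nat_lit 1170) (nat_lit 1216) (nat_lit 0) (XT.nd (nat_lit 546) (nat_lit 684) (nat_lit 0) (XT.nd (nat_lit 234) (nat_lit 380) (nat_lit 0) (XT.nd (nat_lit 78) (nat_lit 304) (nat_lit 0) (XT.lf (nat_lit 0) (nat_lit 49819284725) (nat_lit 228) (nat_lit 49380551144) (nat_lit 76) (nat_lit 152830591255) (nat_lit 79) (nat_lit 5) (nat_lit 82) (nat_lit 5) (nat_lit 80) (nat_lit 5) (nat_lit 502) (nat_lit 461) (nat_lit 237)) (XT.nd (nat_lit 78) (nat_lit 152) (nat_lit 0) (XT.lf (nat_lit 0) (nat_lit 107746288560) (nat_lit 152) (nat_lit 6950430903) (nat_lit 228) (nat_lit 145299450628) (nat_lit 77) (nat_lit 5) (nat_lit 79) (nat_lit 5) (nat_lit 80) (nat_lit 5) (nat_lit 503) (nat_lit 461) (nat_lit 236)) (XT.lf (nat_lit 0) (nat_lit 4863372090) (nat_lit 152) (nat_lit 180284187443) (nat_lit 228) (nat_lit 83096164004) (nat_lit 75) (nat_lit 5) (nat_lit 77) (nat_lit 5) (nat_lit 78) (nat_lit 5) (nat_lit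 504) (nat_lit 461) (nat_lit 235)))) (XT.nd (nat_lit 156) (nat_lit 152) (nat_lit 0) (XT.nd (nat_lit 78) (nat_lit 228) (nat_lit 0) (XT.lf (nat_lit 0) (nat_lit 175000083523) (nat_lit 152) (nat_lit 86811230663) (nat_lit 228) (nat_lit 14957821850) (nat_lit 75) (nat_lit 5) (nat_lit 77) (nat_lit 5) (nat_lit 78) (nat_lit 5) (nat_lit 505) (nat_lit 461) (nat_lit 234)) (XT.lf (nat_lit 0) (nat_lit 56066594164) (nat_lit 228) (nat_lit 216576096324) (nat_lit 76) (nat_lit 12969438849) (nat_lit 72) (nat_lit 5) (nat_lit 75) (nat_lit 5) (nat_lit 73) (nat_lit 5) (nat_lit 506) (nat_lit 461) (nat_lit 233))) (XT.nd (nat_lit 78) (nat_lit 152) (nat_lit 0) (XT.lf (nat_lit 0) (nat_lit 133314297370) (nat_lit 228) (nat_lit 44593393588) (nat_lit 76) (nat_lit 116818583480) (nat_lit 72) (nat_lit 5) (nat_lit 75) (nat_lit 5) (nat_lit 73) (nat_lit 5) (nat_lit 507) (nat_lit 461) (nat_lit 232)) (XT.lf (nat_lit 0) (nat_lit 140484578762)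 (nat_lit 152) (nat_lit 76133022081) (nat_lit 228) (nat_lit 87568865203) (nat_lit 70) (nat_lit 5) (nat_lit 72) (nat_lit 5) (nat_lit 73) (nat_lit 5) (nat_lit 508) (nat_lit 461) (nat_lit 231))))) (XT.nd (nat_lit 312) (nat_lit 380) (nat_lit 0) (XT.nd (nat_lit 156) (nat_lit 152) (nat_lit 0) (XT.nd (nat_lit 78) (nat_lit 76) (nat_lit 0) (XT.lf (nat_lit 0) (nat_lit 22510792315) (nat_lit 76) (nat_lit 283173970738) (nat_lit 152) (nat_lit 8354969510) (nat_lit 69) (nat_lit 5) (nat_lit 70) (nat_lit 5) (nat_lit 71) (nat_lit 4) (nat_lit 509) (nat_lit 461) (nat_lit 230)) (XT.lf (nat_lit 0) (nat_lit 76490686598) (nat_lit 152) (nat_lit 102991504439) (nat_lit 76) (nat_lit 144641776141) (nat_lit 68) (nat_lit 5) (nat_lit 70) (nat_lit 5) (nat_lit 69) (nat_lit 5) (nat_lit 510) (nat_lit 461) (nat_lit 229))) (XT.nd (nat_lit 78) (nat_lit 0) (nat_lit 0) (XT.lf (nat_lit 0) (nat_lit 97971290202) (nat_lit 152) (nat_lit 68856025723)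 (nat_lit 228) (nat_lit 167801775660) (nat_lit 66) (nat_lit 5) (nat_lit 68) (nat_lit 5) (nat_lit 69) (nat_lit 5) (nat_lit 511) (nat_lit 461) (nat_lit 228)) (XT.lf (nat_lit 0) (nat_lit 264191956330) (nat_lit 228) (nat_lit 33781746874) (nat_lit 76) (nat_lit 47560210034) (nat_lit 66) (nat_lit 5) (nat_lit 69) (nat_lit 5) (nat_lit 67) (nat_lit 4) (nat_lit 512) (nat_lit 461) (nat_lit 227)))) (XT.nd (nat_lit 156) (nat_lit 76) (nat_lit 0) (XT.nd (nat_lit 78) (nat_lit 152) (nat_lit 0) (XT.lf (nat_lit 0) (nat_lit 13205670879) (nat_lit 152) (nat_lit 172998716236) (nat_lit 76) (nat_lit 170568869739) (nat_lit 64) (nat_lit 5) (nat_lit 66) (nat_lit 5) (nat_lit 65) (nat_lit 5) (nat_lit 513) (nat_lit 461) (nat_lit 226)) (XT.lf (nat_lit 0) (nat_lit 44930479177) (nat_lit 152) (nat_lit 66099431199) (nat_lit 228) (nat_lit 257413840870) (nat_lit 62) (nat_lit 5) (nat_lit 64) (nat_lit 5) (nat_lit 65) (nat_lit 5) (nat_lit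 514) (nat_lit 461) (nat_lit 225))) (XT.nd (nat_lit 78) (nat_lit 76) (nat_lit 0) (XT.lf (nat_lit 0) (nat_lit 217660019521) (nat_lit 228) (nat_lit 101774216902) (nat_lit 76) (nat_lit 61067801058) (nat_lit 62) (nat_lit 5) (nat_lit 65) (nat_lit 5) (nat_lit 63) (nat_lit 4) (nat_lit 515) (nat_lit 461) (nat_lit 224)) (XT.lf (nat_lit 0) (nat_lit 134265302535) (nat_lit 76) (nat_lit 198536067020) (nat_lit 152) (nat_lit 60202881706) (nat_lit 61) (nat_lit 5) (nat_lit 62) (nat_lit 5) (nat_lit 63) (nat_lit 4) (nat_lit 516) (nat_lit 461) (nat_lit 223)))))) (XT.nd (nat_lit 624) (nat_lit 456) (nat_lit 0) (XT.nd (nat_lit 312) (nat_lit 456) (nat_lit 0) (XT.nd (nat_lit 156) (nat_lit 76) (nat_lit 0) (XT.nd (nat_lit 78) (nat_lit 152) (nat_lit 0) (XT.lf (nat_lit 0) (nat_lit 47797463744) (nat_lit 152) (nat_lit 21176375604) (nat_lit 76) (nat_lit 337033016122) (nat_lit 60) (nat_lit 5) (nat_lit 62) (nat_lit 5) (nat_lit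 61) (nat_lit 5) (nat_lit 517) (nat_lit 461) (nat_lit 222)) (XT.lf (nat_lit 0) (nat_lit 163963630698) (nat_lit 228) (nat_lit 185758334624) (nat_lit 76) (nat_lit 69648827154) (nat_lit 58) (nat_lit 5) (nat_lit 61) (nat_lit 5) (nat_lit 59) (nat_lit 4) (nat_lit 518) (nat_lit 461) (nat_lit 221))) (XT.nd (nat_lit 78) (nat_lit 0) (nat_lit 0) (XT.lf (nat_lit 0) (nat_lit 69581157819) (nat_lit 76) (nat_lit 218938422432) (nat_lit 152) (nat_lit 144754272374) (nat_lit 57) (nat_lit 5) (nat_lit 58) (nat_lit 5) (nat_lit 59) (nat_lit 4) (nat_lit 519) (nat_lit 461) (nat_lit 220)) (XT.lf (nat_lit 0) (nat_lit 344136528117) (nat_lit 76) (nat_lit 78312595898) (nat_lit 152) (nat_lit 25265651933) (nat_lit 57) (nat_lit 5) (nat_lit 58) (nat_lit 5) (nat_lit 59) (nat_lit 4) (nat_lit 520) (nat_lit 461) (nat_lit 219)))) (XT.nd (nat_lit 156) (nat_lit 228) (nat_lit 0) (XT.nd (nat_lit 78) (nat_lit 0) (nat_lit 0) (XT.lf (nat_lit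 0) (nat_lit 100852383333) (nat_lit 228) (nat_lit 290285339190) (nat_lit 76) (nat_lit 71468708490) (nat_lit 54) (nat_lit 5) (nat_lit 57) (nat_lit 5) (nat_lit 55) (nat_lit 4) (nat_lit 521) (nat_lit 461) (nat_lit 218)) (XT.lf (nat_lit 0) (nat_lit 235493839662) (nat_lit 228) (nat_lit 14270521661) (nat_lit 76) (nat_lit 228304267417) (nat_lit 54) (nat_lit 5) (nat_lit 57) (nat_lit 5) (nat_lit 55) (nat_lit 4) (nat_lit 522) (nat_lit 461) (nat_lit 217))) (XT.nd (nat_lit 78) (nat_lit 152) (nat_lit 0) (XT.lf (nat_lit 0) (nat_lit 284655602323) (nat_lit 76) (nat_lit 96655936818) (nat_lit 152) (nat_lit 112770188699) (nat_lit 53) (nat_lit 5) (nat_lit 54) (nat_lit 5) (nat_lit 55) (nat_lit 4) (nat_lit 523) (nat_lit 461) (nat_lit 216)) (XT.lf (nat_lit 0) (nat_lit 25467026027) (nat_lit 152) (nat_lit 421157554024) (nat_lit 76) (nat_lit 64117771579) (nat_lit 51) (nat_lit 5) (nat_lit 53) (nat_lit 5) (nat_lit 52) (nat_lit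 4) (nat_lit 524) (nat_lit 461) (nat_lit 215))))) (XT.nd (nat_lit 312) (nat_lit 228) (nat_lit 0) (XT.nd (nat_lit 156) (nat_lit 152) (nat_lit 0) (XT.nd (nat_lit 78) (nat_lit 76) (nat_lit 0) (XT.lf (nat_lit 0) (nat_lit 172015582523) (nat_lit 152) (nat_lit 120733151377) (nat_lit 76) (nat_lit 235135373189) (nat_lit 51) (nat_lit 5) (nat_lit 53) (nat_lit 5) (nat_lit 52) (nat_lit 4) (nat_lit 525) (nat_lit 461) (nat_lit 214)) (XT.lf (nat_lit 0) (nat_lit 201150356011) (nat_lit 76) (nat_lit 127881635769) (nat_lit 152) (nat_lit 216693937295) (nat_lit 50) (nat_lit 5) (nat_lit 51) (nat_lit 5) (nat_lit 52) (nat_lit 4) (nat_lit 526) (nat_lit 461) (nat_lit 213))) (XT.nd (nat_lit 78) (nat_lit 152) (nat_lit 0) (XT.lf (nat_lit 0) (nat_lit 496683468250) (nat_lit 152) (nat_lit 21777838530) (nat_lit 0) (nat_lit 45859323047) (nat_lit 50) (nat_lit 5) (nat_lit 52) (nat_lit 4) (nat_lit 50) (nat_lit 4) (nat_lit 527) (nat_lit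 461) (nat_lit 212)) (XT.lf (nat_lit 0) (nat_lit 93323645128) (nat_lit 152) (nat_lit 259510786362) (nat_lit 76) (nat_lit 230576473440) (nat_lit 48) (nat_lit 5) (nat_lit 50) (nat_lit 5) (nat_lit 49) (nat_lit 4) (nat_lit 528) (nat_lit 461) (nat_lit 211)))) (XT.nd (nat_lit 156) (nat_lit 152) (nat_lit 0) (XT.nd (nat_lit 78) (nat_lit 0) (nat_lit 0) (XT.lf (nat_lit 0) (nat_lit 85812300565) (nat_lit 76) (nat_lit 175961683678) (nat_lit 152) (nat_lit 341540542039) (nat_lit 47) (nat_lit 5) (nat_lit 48) (nat_lit 5) (nat_lit 49) (nat_lit 4) (nat_lit 529) (nat_lit 461) (nat_lit 210)) (XT.lf (nat_lit 0) (nat_lit 443266037119) (nat_lit 152) (nat_lit 166806932948) (nat_lit 0) (nat_lit 13909398797) (nat_lit 47) (nat_lit 5) (nat_lit 49) (nat_lit 4) (nat_lit 47) (nat_lit 4) (nat_lit 530) (nat_lit 461) (nat_lit 209))) (XT.nd (nat_lit 78) (nat_lit 76) (nat_lit 0) (XT.lf (nat_lit 0) (nat_lit 205102913981) (nat_lit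 76) (nat_lit 434816541644) (nat_lit 76) (nat_lit 5459809803) (nat_lit 46) (nat_lit 4) (nat_lit 47) (nat_lit 5) (nat_lit 47) (nat_lit 4) (nat_lit 531) (nat_lit 461) (nat_lit 208)) (XT.lf (nat_lit 0) (nat_lit 175715698846) (nat_lit 152) (nat_lit 69139638271) (nat_lit 76) (nat_lit 422707719916) (nat_lit 45) (nat_lit 5) (nat_lit 47) (nat_lit 5) (nat_lit 46) (nat_lit 4) (nat_lit 532) (nat_lit 461) (nat_lit 207))))))))
noncomputable def xc211 : XT := (XT.nd (nat_lit 58422) (nat_lit 0) (nat_lit 2508) (XT.nd (nat_lit 57174) (nat_lit 0) (nat_lit 6612) (XT.nd (nat_lit 546) (nat_lit 304) (nat_lit 0) (XT.nd (nat_lit 234) (nat_lit 228) (nat_lit 0) (XT.nd (nat_lit 78) (nat_lit 152) (nat_lit 0) (XT.lf (nat_lit 0) (nat_lit 331060241678) (nat_lit 76) (nat_lit 39874952179) (nat_lit 152) (nat_lit 319657934292) (nat_lit 44) (nat_lit 5) (nat_lit 45) (nat_lit 5) (nat_lit 46) (nat_lit 4) (nat_lit 533) (nat_lit 461)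 (nat_lit 206)) (XT.nd (nat_lit 78) (nat_lit 76) (nat_lit 0) (XT.lf (nat_lit 0) (nat_lit 37394044494) (nat_lit 76) (nat_lit 543033246349) (nat_lit 76) (nat_lit 134121830620) (nat_lit 43) (nat_lit 4) (nat_lit 44) (nat_lit 5) (nat_lit 44) (nat_lit 4) (nat_lit 534) (nat_lit 461) (nat_lit 205)) (XT.lf (nat_lit 0) (nat_lit 65590871842) (nat_lit 152) (nat_lit 274450201727) (nat_lit 76) (nat_lit 399272348626) (nat_lit 42) (nat_lit 5) (nat_lit 44) (nat_lit 5) (nat_lit 43) (nat_lit 4) (nat_lit 535) (nat_lit 461) (nat_lit 204)))) (XT.nd (nat_lit 156) (nat_lit 152) (nat_lit 0) (XT.nd (nat_lit 78) (nat_lit 0) (nat_lit 0) (XT.lf (nat_lit 0) (nat_lit 151024783120) (nat_lit 76) (nat_lit 122114895859) (nat_lit 152) (nat_lit 491948430931) (nat_lit 41) (nat_lit 5) (nat_lit 42) (nat_lit 5) (nat_lit 43) (nat_lit 4) (nat_lit 536) (nat_lit 461) (nat_lit 203)) (XT.lf (nat_lit 0) (nat_lit 497455996485) (nat_lit 152)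 (nat_lit 186359678638) (nat_lit 0) (nat_lit 108016353390) (nat_lit 41) (nat_lit 5) (nat_lit 43) (nat_lit 4) (nat_lit 41) (nat_lit 4) (nat_lit 537) (nat_lit 461) (nat_lit 202))) (XT.nd (nat_lit 78) (nat_lit 76) (nat_lit 0) (XT.lf (nat_lit 0) (nat_lit 269347939736) (nat_lit 76) (nat_lit 469847276192) (nat_lit 76) (nat_lit 80407572814) (nat_lit 40) (nat_lit 4) (nat_lit 41) (nat_lit 5) (nat_lit 41) (nat_lit 4) (nat_lit 538) (nat_lit 461) (nat_lit 201)) (XT.lf (nat_lit 0) (nat_lit 142849867511) (nat_lit 152) (nat_lit 96597532392) (nat_lit 76) (nat_lit 609041684630) (nat_lit 39) (nat_lit 5) (nat_lit 41) (nat_lit 5) (nat_lit 40) (nat_lit 4) (nat_lit 539) (nat_lit 461) (nat_lit 200))))) (XT.nd (nat_lit 312) (nat_lit 0) (nat_lit 0) (XT.nd (nat_lit 156) (nat_lit 228) (nat_lit 0) (XT.nd (nat_lit 78) (nat_lit 0) (nat_lit 0) (XT.lf (nat_lit 0) (nat_lit 380831776291) (nat_lit 152) (nat_lit 487672106129) (nat_lit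 0) (nat_lit 9936713940) (nat_lit 38) (nat_lit 5) (nat_lit 40) (nat_lit 4) (nat_lit 38) (nat_lit 4) (nat_lit 540) (nat_lit 461) (nat_lit 199)) (XT.lf (nat_lit 0) (nat_lit 636300822239) (nat_lit 152) (nat_lit 7903749159) (nat_lit 0) (nat_lit 265405710293) (nat_lit 38) (nat_lit 5) (nat_lit 40) (nat_lit 4) (nat_lit 38) (nat_lit 4) (nat_lit 541) (nat_lit 461) (nat_lit 198))) (XT.nd (nat_lit 78) (nat_lit 152) (nat_lit 0) (XT.lf (nat_lit 0) (nat_lit 512248030056) (nat_lit 76) (nat_lit 400292851188) (nat_lit 76) (nat_lit 29397692009) (nat_lit 37) (nat_lit 4) (nat_lit 38) (nat_lit 5) (nat_lit 38) (nat_lit 4) (nat_lit 542) (nat_lit 461) (nat_lit 197)) (XT.lf (nat_lit 0) (nat_lit 81884115709) (nat_lit 76) (nat_lit 138983845204) (nat_lit 152) (nat_lit 754767618712) (nat_lit 35) (nat_lit 5) (nat_lit 36) (nat_lit 5) (nat_lit 37) (nat_lit 4) (nat_lit 543) (nat_lit 461) (nat_lit 196)))) (XT.nd (nat_lit 56160)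 (nat_lit 0) (nat_lit 8512) (XT.nd (nat_lit 56082) (nat_lit 0) (nat_lit 8512) (XT.lf (nat_lit 0) (nat_lit 492169014409) (nat_lit 152) (nat_lit 379413375946) (nat_lit 0) (nat_lit 138935445833) (nat_lit 35) (nat_lit 5) (nat_lit 37) (nat_lit 4) (nat_lit 35) (nat_lit 4) (nat_lit 544) (nat_lit 461) (nat_lit 195)) (XT.lf (nat_lit 0) (nat_lit 17324131780) (nat_lit 836) (nat_lit 12242875516) (nat_lit 836) (nat_lit 12242875516) (nat_lit 147) (nat_lit 3) (nat_lit 158) (nat_lit 3) (nat_lit 158) (nat_lit 5) (nat_lit 462) (nat_lit 462) (nat_lit 276))) (XT.nd (nat_lit 78) (nat_lit 0) (nat_lit 76) (XT.lf (nat_lit 76) (nat_lit 17547078351) (nat_lit 0) (nat_lit 18250545486) (nat_lit 836) (nat_lit 49898476825) (nat_lit 148) (nat_lit 5) (nat_lit 147) (nat_lit 3) (nat_lit 158) (nat_lit 5) (nat_lit 463) (nat_lit 462) (nat_lit 275)) (XT.lf (nat_lit 0) (nat_lit 37810617540) (nat_lit 760) (nat_lit 25716309314) (nat_lit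 836) (nat_lit 24309017414) (nat_lit 148) (nat_lit 5) (nat_lit 158) (nat_lit 5) (nat_lit 159) (nat_lit 5) (nat_lit 464) (nat_lit 462) (nat_lit 274)))))) (XT.nd (nat_lit 624) (nat_lit 1976) (nat_lit 0) (XT.nd (nat_lit 312) (nat_lit 0) (nat_lit 152) (XT.nd (nat_lit 156) (nat_lit 0) (nat_lit 76) (XT.nd (nat_lit 78) (nat_lit 0) (nat_lit 76) (XT.lf (nat_lit 76) (nat_lit 19151480553) (nat_lit 0) (nat_lit 21370416716) (nat_lit 836) (nat_lit 49531001055) (nat_lit 149) (nat_lit 5) (nat_lit 148) (nat_lit 5) (nat_lit 159) (nat_lit 5) (nat_lit 465) (nat_lit 462) (nat_lit 273)) (XT.lf (nat_lit 0) (nat_lit 44168300604) (nat_lit 760) (nat_lit 25568391333) (nat_lit 836) (nat_lit 22604030248) (nat_lit 149) (nat_lit 5) (nat_lit 159) (nat_lit 5) (nat_lit 160) (nat_lit 5) (nat_lit 466) (nat_lit 462) (nat_lit 272))) (XT.nd (nat_lit 78) (nat_lit 0) (nat_lit 76) (XT.lf (nat_lit 76) (nat_lit 22397466348) (nat_lit 0)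 (nat_lit 26299068819) (nat_lit 836) (nat_lit 46011426598) (nat_lit 150) (nat_lit 5) (nat_lit 149) (nat_lit 5) (nat_lit 160) (nat_lit 5) (nat_lit 467) (nat_lit 462) (nat_lit 271)) (XT.lf (nat_lit 0) (nat_lit 54192293702) (nat_lit 760) (nat_lit 23831573215) (nat_lit 836) (nat_lit 19132640868) (nat_lit 150) (nat_lit 5) (nat_lit 160) (nat_lit 5) (nat_lit 161) (nat_lit 5) (nat_lit 468) (nat_lit 462) (nat_lit 270)))) (XT.nd (nat_lit 156) (nat_lit 0) (nat_lit 76) (XT.nd (nat_lit 78) (nat_lit 0) (nat_lit 76) (XT.lf (nat_lit 76) (nat_lit 27520647129) (nat_lit 0) (nat_lit 33302533619) (nat_lit 836) (nat_lit 38861283402) (nat_lit 151) (nat_lit 5) (nat_lit 150) (nat_lit 5) (nat_lit 161) (nat_lit 5) (nat_lit 469) (nat_lit 462) (nat_lit 269)) (XT.lf (nat_lit 0) (nat_lit 68408570874) (nat_lit 760) (nat_lit 20270955432) (nat_lit 836) (nat_lit 13628144158) (nat_lit 151) (nat_lit 5) (nat_lit 161) (nat_lit 5) (nat_lit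 162) (nat_lit 5) (nat_lit 470) (nat_lit 462) (nat_lit 268))) (XT.nd (nat_lit 78) (nat_lit 0) (nat_lit 76) (XT.lf (nat_lit 76) (nat_lit 34783547428) (nat_lit 0) (nat_lit 42678268614) (nat_lit 836) (nat_lit 27545791839) (nat_lit 152) (nat_lit 5) (nat_lit 151) (nat_lit 5) (nat_lit 162) (nat_lit 5) (nat_lit 471) (nat_lit 462) (nat_lit 267)) (XT.lf (nat_lit 0) (nat_lit 87404031047) (nat_lit 760) (nat_lit 14624624888) (nat_lit 76) (nat_lit 5792070917) (nat_lit 152) (nat_lit 5) (nat_lit 162) (nat_lit 5) (nat_lit 153) (nat_lit 5) (nat_lit 472) (nat_lit 462) (nat_lit 266))))) (XT.nd (nat_lit 312) (nat_lit 684) (nat_lit 0) (XT.nd (nat_lit 156) (nat_lit 836) (nat_lit 0) (XT.nd (nat_lit 78) (nat_lit 0) (nat_lit 0) (XT.lf (nat_lit 0) (nat_lit 44478376499) (nat_lit 760) (nat_lit 54758665390) (nat_lit 836) (nat_lit 11467775687) (nat_lit 142) (nat_lit 5) (nat_lit 152) (nat_lit 5) (nat_lit 153) (nat_lit 5) (nat_lit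 473) (nat_lit 462) (nat_lit 265)) (XT.lf (nat_lit 0) (nat_lit 107043919495) (nat_lit 760) (nat_lit 4865081372) (nat_lit 836) (nat_lit 1811747145) (nat_lit 142) (nat_lit 5) (nat_lit 152) (nat_lit 5) (nat_lit 153) (nat_lit 5) (nat_lit 474) (nat_lit 462) (nat_lit 264))) (XT.nd (nat_lit 78) (nat_lit 380) (nat_lit 0) (XT.lf (nat_lit 0) (nat_lit 9717741738) (nat_lit 456) (nat_lit 60032622691) (nat_lit 76) (nat_lit 47047751260) (nat_lit 136) (nat_lit 5) (nat_lit 142) (nat_lit 5) (nat_lit 137) (nat_lit 5) (nat_lit 475) (nat_lit 462) (nat_lit 263)) (XT.lf (nat_lit 0) (nat_lit 3591320999) (nat_lit 380) (nat_lit 18421899568) (nat_lit 456) (nat_lit 98002126085) (nat_lit 131) (nat_lit 5) (nat_lit 136) (nat_lit 5) (nat_lit 137) (nat_lit 5) (nat_lit 476) (nat_lit 462) (nat_lit 262)))) (XT.nd (nat_lit 156) (nat_lit 304) (nat_lit 0) (XT.nd (nat_lit 78) (nat_lit 380) (nat_lit 0) (XT.lf (nat_lit 0) (nat_lit 36510312942)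 (nat_lit 456) (nat_lit 51432808015) (nat_lit 76) (nat_lit 35370976275) (nat_lit 131) (nat_lit 5) (nat_lit 137) (nat_lit 5) (nat_lit 132) (nat_lit 5) (nat_lit 477) (nat_lit 462) (nat_lit 261)) (XT.lf (nat_lit 0) (nat_lit 17051377749) (nat_lit 380) (nat_lit 35248775012) (nat_lit 456) (nat_lit 74449237980) (nat_lit 126) (nat_lit 5) (nat_lit 131) (nat_lit 5) (nat_lit 132) (nat_lit 5) (nat_lit 478) (nat_lit 462) (nat_lit 260))) (XT.nd (nat_lit 78) (nat_lit 304) (nat_lit 0) (XT.lf (nat_lit 0) (nat_lit 70077997467) (nat_lit 456) (nat_lit 39895636937) (nat_lit 76) (nat_lit 20322888919) (nat_lit 126) (nat_lit 5) (nat_lit 132) (nat_lit 5) (nat_lit 127) (nat_lit 5) (nat_lit 479) (nat_lit 462) (nat_lit 259)) (XT.lf (nat_lit 0) (nat_lit 33903804697) (nat_lit 304) (nat_lit 55947811406) (nat_lit 380) (nat_lit 44114052387) (nat_lit 122) (nat_lit 5) (nat_lit 126) (nat_lit 5) (nat_lit 127) (nat_lit 5) (nat_lit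 480) (nat_lit 462) (nat_lit 258))))))) (XT.nd (nat_lit 1170) (nat_lit 1900) (nat_lit 0) (XT.nd (nat_lit 546) (nat_lit 988) (nat_lit 0) (XT.nd (nat_lit 234) (nat_lit 836) (nat_lit 0) (XT.nd (nat_lit 78) (nat_lit 380) (nat_lit 0) (XT.lf (nat_lit 0) (nat_lit 111312518942) (nat_lit 380) (nat_lit 25029773288) (nat_lit 76) (nat_lit 1441048559) (nat_lit 122) (nat_lit 5) (nat_lit 127) (nat_lit 5) (nat_lit 123) (nat_lit 5) (nat_lit 481) (nat_lit 462) (nat_lit 257)) (XT.nd (nat_lit 78) (nat_lit 76) (nat_lit 0) (XT.lf (nat_lit 0) (nat_lit 54583425034) (nat_lit 304) (nat_lit 81032141257) (nat_lit 380) (nat_lit 6087875480) (nat_lit 118) (nat_lit 5) (nat_lit 122) (nat_lit 5) (nat_lit 123) (nat_lit 5) (nat_lit 482) (nat_lit 462) (nat_lit 256)) (XT.lf (nat_lit 0) (nat_lit 15254633559) (nat_lit 380) (nat_lit 6998473390) (nat_lit 76) (nat_lit 123532957693) (nat_lit 117) (nat_lit 5) (nat_lit 122) (nat_lit 5) (nat_lit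 118) (nat_lit 5) (nat_lit 483) (nat_lit 462) (nat_lit 255)))) (XT.nd (nat_lit 156) (nat_lit 228) (nat_lit 0) (XT.nd (nat_lit 78) (nat_lit 304) (nat_lit 0) (XT.lf (nat_lit 0) (nat_lit 39339977712) (nat_lit 380) (nat_lit 71067925765) (nat_lit 76) (nat_lit 39565910039) (nat_lit 113) (nat_lit 5) (nat_lit 118) (nat_lit 5) (nat_lit 114) (nat_lit 5) (nat_lit 484) (nat_lit 462) (nat_lit 254)) (XT.lf (nat_lit 0) (nat_lit 15099624170) (nat_lit 304) (nat_lit 50250728231) (nat_lit 380) (nat_lit 88984559296) (nat_lit 109) (nat_lit 5) (nat_lit 113) (nat_lit 5) (nat_lit 114) (nat_lit 5) (nat_lit 485) (nat_lit 462) (nat_lit 253))) (XT.nd (nat_lit 78) (nat_lit 228) (nat_lit 0) (XT.lf (nat_lit 0) (nat_lit 94085926038) (nat_lit 380) (nat_lit 51032706514) (nat_lit 76) (nat_lit 13724198254) (nat_lit 109) (nat_lit 5) (nat_lit 114) (nat_lit 5) (nat_lit 110) (nat_lit 5) (nat_lit 486) (nat_lit 462) (nat_lit 252)) (XT.lf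 (nat_lit 0) (nat_lit 42103480618) (nat_lit 228) (nat_lit 83635696680) (nat_lit 304) (nat_lit 37762923651) (nat_lit 106) (nat_lit 5) (nat_lit 109) (nat_lit 5) (nat_lit 110) (nat_lit 5) (nat_lit 487) (nat_lit 462) (nat_lit 251))))) (XT.nd (nat_lit 312) (nat_lit 456) (nat_lit 0) (XT.nd (nat_lit 156) (nat_lit 228) (nat_lit 0) (XT.nd (nat_lit 78) (nat_lit 304) (nat_lit 0) (XT.lf (nat_lit 0) (nat_lit 141667907698) (nat_lit 228) (nat_lit 18171216628) (nat_lit 304) (nat_lit 8512008639) (nat_lit 106) (nat_lit 5) (nat_lit 109) (nat_lit 5) (nat_lit 110) (nat_lit 5) (nat_lit 488) (nat_lit 462) (nat_lit 250)) (XT.lf (nat_lit 0) (nat_lit 23473039406) (nat_lit 304) (nat_lit 99365631057) (nat_lit 76) (nat_lit 50487506177) (nat_lit 102) (nat_lit 5) (nat_lit 106) (nat_lit 5) (nat_lit 103) (nat_lit 5) (nat_lit 489) (nat_lit 462) (nat_lit 249))) (XT.nd (nat_lit 78) (nat_lit 0) (nat_lit 0) (XT.lf (nat_lit 0) (nat_lit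 1642947924) (nat_lit 228) (nat_lit 55910955555) (nat_lit 304) (nat_lit 120949960839) (nat_lit 99) (nat_lit 5) (nat_lit 102) (nat_lit 5) (nat_lit 103) (nat_lit 5) (nat_lit 490) (nat_lit 462) (nat_lit 248)) (XT.lf (nat_lit 0) (nat_lit 95273237688) (nat_lit 304) (nat_lit 72956737288) (nat_lit 76) (nat_lit 15613740078) (nat_lit 99) (nat_lit 5) (nat_lit 103) (nat_lit 5) (nat_lit 100) (nat_lit 5) (nat_lit 491) (nat_lit 462) (nat_lit 247)))) (XT.nd (nat_lit 156) (nat_lit 228) (nat_lit 0) (XT.nd (nat_lit 78) (nat_lit 0) (nat_lit 0) (XT.lf (nat_lit 0) (nat_lit 36390504535) (nat_lit 228) (nat_lit 99972561040) (nat_lit 304) (nat_lit 53013266426) (nat_lit 96) (nat_lit 5) (nat_lit 99) (nat_lit 5) (nat_lit 100) (nat_lit 5) (nat_lit 492) (nat_lit 462) (nat_lit 246)) (XT.lf (nat_lit 0) (nat_lit 153737709807) (nat_lit 228) (nat_lit 27005034012) (nat_lit 304) (nat_lit 14381068044) (nat_lit 96) (nat_lit 5) (nat_lit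 99) (nat_lit 5) (nat_lit 100) (nat_lit 5) (nat_lit 493) (nat_lit 462) (nat_lit 245))) (XT.nd (nat_lit 78) (nat_lit 0) (nat_lit 0) (XT.lf (nat_lit 0) (nat_lit 27361613510) (nat_lit 228) (nat_lit 124001546519) (nat_lit 76) (nat_lit 49674222187) (nat_lit 93) (nat_lit 5) (nat_lit 96) (nat_lit 5) (nat_lit 94) (nat_lit 5) (nat_lit 494) (nat_lit 462) (nat_lit 244)) (XT.lf (nat_lit 0) (nat_lit 71863031164) (nat_lit 228) (nat_lit 5086122474) (nat_lit 76) (nat_lit 130227944695) (nat_lit 93) (nat_lit 5) (nat_lit 96) (nat_lit 5) (nat_lit 94) (nat_lit 5) (nat_lit 495) (nat_lit 462) (nat_lit 243)))))) (XT.nd (nat_lit 624) (nat_lit 836) (nat_lit 0) (XT.nd (nat_lit 312) (nat_lit 380) (nat_lit 0) (XT.nd (nat_lit 156) (nat_lit 304) (nat_lit 0) (XT.nd (nat_lit 78) (nat_lit 152) (nat_lit 0) (XT.lf (nat_lit 0) (nat_lit 120571369342) (nat_lit 304) (nat_lit 89842300160) (nat_lit 76) (nat_lit 3111038287) (nat_lit 90)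 (nat_lit 5) (nat_lit 94) (nat_lit 5) (nat_lit 91) (nat_lit 5) (nat_lit 496) (nat_lit 462) (nat_lit 242)) (XT.lf (nat_lit 0) (nat_lit 38861202701) (nat_lit 152) (nat_lit 134809486461) (nat_lit 228) (nat_lit 46421230334) (nat_lit 88) (nat_lit 5) (nat_lit 90) (nat_lit 5) (nat_lit 91) (nat_lit 5) (nat_lit 497) (nat_lit 462) (nat_lit 241))) (XT.nd (nat_lit 78) (nat_lit 228) (nat_lit 0) (XT.lf (nat_lit 0) (nat_lit 3905758560) (nat_lit 228) (nat_lit 49855690332) (nat_lit 76) (nat_lit 173146825609) (nat_lit 87) (nat_lit 5) (nat_lit 90) (nat_lit 5) (nat_lit 88) (nat_lit 5) (nat_lit 498) (nat_lit 462) (nat_lit 240)) (XT.lf (nat_lit 0) (nat_lit 57122222375) (nat_lit 304) (nat_lit 144267596442) (nat_lit 76) (nat_lit 32540919103) (nat_lit 84) (nat_lit 5) (nat_lit 88) (nat_lit 5) (nat_lit 85) (nat_lit 5) (nat_lit 499) (nat_lit 462) (nat_lit 239)))) (XT.nd (nat_lit 156) (nat_lit 228) (nat_lit 0) (XT.nd (nat_lit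 78) (nat_lit 152) (nat_lit 0) (XT.lf (nat_lit 0) (nat_lit 114738851318) (nat_lit 304) (nat_lit 4268760222) (nat_lit 76) (nat_lit 122209745886) (nat_lit 84) (nat_lit 5) (nat_lit 88) (nat_lit 5) (nat_lit 85) (nat_lit 5) (nat_lit 500) (nat_lit 462) (nat_lit 238)) (XT.lf (nat_lit 0) (nat_lit 147449053709) (nat_lit 152) (nat_lit 30089193799) (nat_lit 228) (nat_lit 71214963620) (nat_lit 82) (nat_lit 5) (nat_lit 84) (nat_lit 5) (nat_lit 85) (nat_lit 5) (nat_lit 501) (nat_lit 462) (nat_lit 237))) (XT.nd (nat_lit 78) (nat_lit 76) (nat_lit 0) (XT.lf (nat_lit 0) (nat_lit 50877779698) (nat_lit 152) (nat_lit 194455404441) (nat_lit 228) (nat_lit 11239894857) (nat_lit 80) (nat_lit 5) (nat_lit 82) (nat_lit 5) (nat_lit 83) (nat_lit 5) (nat_lit 502) (nat_lit 462) (nat_lit 236)) (XT.lf (nat_lit 0) (nat_lit 52314989993) (nat_lit 228) (nat_lit 51841653160) (nat_lit 76) (nat_lit 160475067965) (nat_lit 79) (nat_lit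 5) (nat_lit 82) (nat_lit 5) (nat_lit 80) (nat_lit 5) (nat_lit 503) (nat_lit 462) (nat_lit 235))))) (XT.nd (nat_lit 312) (nat_lit 304) (nat_lit 0) (XT.nd (nat_lit 156) (nat_lit 228) (nat_lit 0) (XT.nd (nat_lit 78) (nat_lit 152) (nat_lit 0) (XT.lf (nat_lit 0) (nat_lit 113141400699) (nat_lit 152) (nat_lit 7294791750) (nat_lit 228) (nat_lit 152559553999) (nat_lit 77) (nat_lit 5) (nat_lit 79) (nat_lit 5) (nat_lit 80) (nat_lit 5) (nat_lit 504) (nat_lit 462) (nat_lit 234)) (XT.lf (nat_lit 0) (nat_lit 5114392487) (nat_lit 152) (nat_lit 189295130810) (nat_lit 228) (nat_lit 87246156844) (nat_lit 75) (nat_lit 5) (nat_lit 77) (nat_lit 5) (nat_lit 78) (nat_lit 5) (nat_lit 505) (nat_lit 462) (nat_lit 233))) (XT.nd (nat_lit 78) (nat_lit 228) (nat_lit 0) (XT.lf (nat_lit 0) (nat_lit 183757565597) (nat_lit 152) (nat_lit 91148681716) (nat_lit 228) (nat_lit 15701126885) (nat_lit 75) (nat_lit 5) (nat_lit 77) (nat_lit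 5) (nat_lit 78) (nat_lit 5) (nat_lit 506) (nat_lit 462) (nat_lit 232)) (XT.lf (nat_lit 0) (nat_lit 58874318169) (nat_lit 228) (nat_lit 227397230981) (nat_lit 76) (nat_lit 13620966696) (nat_lit 72) (nat_lit 5) (nat_lit 75) (nat_lit 5) (nat_lit 73) (nat_lit 5) (nat_lit 507) (nat_lit 462) (nat_lit 231)))) (XT.nd (nat_lit 156) (nat_lit 152) (nat_lit 0) (XT.nd (nat_lit 78) (nat_lit 152) (nat_lit 0) (XT.lf (nat_lit 0) (nat_lit 139984197283) (nat_lit 228) (nat_lit 46815758353) (nat_lit 76) (nat_lit 122662423039) (nat_lit 72) (nat_lit 5) (nat_lit 75) (nat_lit 5) (nat_lit 73) (nat_lit 5) (nat_lit 508) (nat_lit 462) (nat_lit 230)) (XT.lf (nat_lit 0) (nat_lit 147515994793) (nat_lit 152) (nat_lit 79936584060) (nat_lit 228) (nat_lit 91943005376) (nat_lit 70) (nat_lit 5) (nat_lit 72) (nat_lit 5) (nat_lit 73) (nat_lit 5) (nat_lit 509) (nat_lit 462) (nat_lit 229))) (XT.nd (nat_lit 78) (nat_lit 76) (nat_lit 0)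 (XT.lf (nat_lit 0) (nat_lit 23643557462) (nat_lit 76) (nat_lit 297329505314) (nat_lit 152) (nat_lit 8768453126) (nat_lit 69) (nat_lit 5) (nat_lit 70) (nat_lit 5) (nat_lit 71) (nat_lit 4) (nat_lit 510) (nat_lit 462) (nat_lit 228)) (XT.lf (nat_lit 0) (nat_lit 80319152697) (nat_lit 152) (nat_lit 108134068009) (nat_lit 76) (nat_lit 151876748052) (nat_lit 68) (nat_lit 5) (nat_lit 70) (nat_lit 5) (nat_lit 69) (nat_lit 5) (nat_lit 511) (nat_lit 462) (nat_lit 227))))))))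
noncomputable def xc212 : XT := (XT.nd (nat_lit 2418) (nat_lit 228) (nat_lit 0) (XT.nd (nat_lit 1170) (nat_lit 988) (nat_lit 0) (XT.nd (nat_lit 546) (nat_lit 684) (nat_lit 0) (XT.nd (nat_lit 234) (nat_lit 304) (nat_lit 0) (XT.nd (nat_lit 78) (nat_lit 152) (nat_lit 0) (XT.lf (nat_lit 0) (nat_lit 102876753273) (nat_lit 152) (nat_lit 72295780696) (nat_lit 228) (nat_lit 176187819401) (nat_lit 66) (nat_lit 5) (nat_lit 68) (nat_lit 5) (nat_lit 69) (nat_lit 5) (nat_lit 512) (nat_lit 462) (nat_lit 226)) (XT.nd (nat_lit 78) (nat_lit 152) (nat_lit 0) (XT.lf (nat_lit 0) (nat_lit 277405268250) (nat_lit 228) (nat_lit 35464125843) (nat_lit 76) (nat_lit 49941028929) (nat_lit 66) (nat_lit 5) (nat_lit 69) (nat_lit 5) (nat_lit 67) (nat_lit 4) (nat_lit 513) (nat_lit 462) (nat_lit 225)) (XT.lf (nat_lit 0) (nat_lit 13869654548) (nat_lit 152) (nat_lit 181641929372) (nat_lit 76) (nat_lit 179100150612) (nat_lit 64)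 (nat_lit 5) (nat_lit 66) (nat_lit 5) (nat_lit 65) (nat_lit 5) (nat_lit 514) (nat_lit 462) (nat_lit 224)))) (XT.nd (nat_lit 156) (nat_lit 152) (nat_lit 0) (XT.nd (nat_lit 78) (nat_lit 0) (nat_lit 0) (XT.lf (nat_lit 0) (nat_lit 47183617382) (nat_lit 152) (nat_lit 69401415710) (nat_lit 228) (nat_lit 270280724208) (nat_lit 62) (nat_lit 5) (nat_lit 64) (nat_lit 5) (nat_lit 65) (nat_lit 5) (nat_lit 515) (nat_lit 462) (nat_lit 223)) (XT.lf (nat_lit 0) (nat_lit 228546519385) (nat_lit 228) (nat_lit 106856500015) (nat_lit 76) (nat_lit 64123944869) (nat_lit 62) (nat_lit 5) (nat_lit 65) (nat_lit 5) (nat_lit 63) (nat_lit 4) (nat_lit 516) (nat_lit 462) (nat_lit 222))) (XT.nd (nat_lit 78) (nat_lit 76) (nat_lit 0) (XT.lf (nat_lit 0) (nat_lit 140984891721) (nat_lit 76) (nat_lit 208459977323) (nat_lit 152) (nat_lit 63209423095) (nat_lit 61) (nat_lit 5) (nat_lit 62) (nat_lit 5) (nat_lit 63) (nat_lit 4) (nat_lit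 517) (nat_lit 462) (nat_lit 221)) (XT.lf (nat_lit 0) (nat_lit 50190658253) (nat_lit 152) (nat_lit 22229061529) (nat_lit 76) (nat_lit 353887312271) (nat_lit 60) (nat_lit 5) (nat_lit 62) (nat_lit 5) (nat_lit 61) (nat_lit 5) (nat_lit 518) (nat_lit 462) (nat_lit 220))))) (XT.nd (nat_lit 312) (nat_lit 228) (nat_lit 0) (XT.nd (nat_lit 156) (nat_lit 228) (nat_lit 0) (XT.nd (nat_lit 78) (nat_lit 76) (nat_lit 0) (XT.lf (nat_lit 0) (nat_lit 172165112954) (nat_lit 228) (nat_lit 195040097782) (nat_lit 76) (nat_lit 73133956211) (nat_lit 58) (nat_lit 5) (nat_lit 61) (nat_lit 5) (nat_lit 59) (nat_lit 4) (nat_lit 519) (nat_lit 462) (nat_lit 219)) (XT.lf (nat_lit 0) (nat_lit 73066270032) (nat_lit 76) (nat_lit 229882527299) (nat_lit 152) (nat_lit 151988585909) (nat_lit 57) (nat_lit 5) (nat_lit 58) (nat_lit 5) (nat_lit 59) (nat_lit 4) (nat_lit 520) (nat_lit 462) (nat_lit 218))) (XT.nd (nat_lit 78) (nat_lit 228)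 (nat_lit 0) (XT.lf (nat_lit 0) (nat_lit 361349120544) (nat_lit 76) (nat_lit 82225543546) (nat_lit 152) (nat_lit 26525696355) (nat_lit 57) (nat_lit 5) (nat_lit 58) (nat_lit 5) (nat_lit 59) (nat_lit 4) (nat_lit 521) (nat_lit 462) (nat_lit 217)) (XT.lf (nat_lit 0) (nat_lit 105898120083) (nat_lit 228) (nat_lit 304793719339) (nat_lit 76) (nat_lit 75044757165) (nat_lit 54) (nat_lit 5) (nat_lit 57) (nat_lit 5) (nat_lit 55) (nat_lit 4) (nat_lit 522) (nat_lit 462) (nat_lit 216)))) (XT.nd (nat_lit 156) (nat_lit 152) (nat_lit 0) (XT.nd (nat_lit 78) (nat_lit 76) (nat_lit 0) (XT.lf (nat_lit 0) (nat_lit 247271500772) (nat_lit 228) (nat_lit 14978441259) (nat_lit 76) (nat_lit 239721969597) (nat_lit 54) (nat_lit 5) (nat_lit 57) (nat_lit 5) (nat_lit 55) (nat_lit 4) (nat_lit 523) (nat_lit 462) (nat_lit 215)) (XT.lf (nat_lit 0) (nat_lit 298893898497) (nat_lit 76) (nat_lit 101486131462) (nat_lit 152) (nat_lit 118405638491)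 (nat_lit 53) (nat_lit 5) (nat_lit 54) (nat_lit 5) (nat_lit 55) (nat_lit 4) (nat_lit 524) (nat_lit 462) (nat_lit 214))) (XT.nd (nat_lit 78) (nat_lit 0) (nat_lit 0) (XT.lf (nat_lit 0) (nat_lit 26743325099) (nat_lit 152) (nat_lit 442209803632) (nat_lit 76) (nat_lit 67326193012) (nat_lit 51) (nat_lit 5) (nat_lit 53) (nat_lit 5) (nat_lit 52) (nat_lit 4) (nat_lit 525) (nat_lit 462) (nat_lit 213)) (XT.lf (nat_lit 0) (nat_lit 180619169050) (nat_lit 152) (nat_lit 126764448857) (nat_lit 76) (nat_lit 246894554090) (nat_lit 51) (nat_lit 5) (nat_lit 53) (nat_lit 5) (nat_lit 52) (nat_lit 4) (nat_lit 526) (nat_lit 462) (nat_lit 212)))))) (XT.nd (nat_lit 624) (nat_lit 456) (nat_lit 0) (XT.nd (nat_lit 312) (nat_lit 228) (nat_lit 0) (XT.nd (nat_lit 156) (nat_lit 228) (nat_lit 0) (XT.nd (nat_lit 78) (nat_lit 0) (nat_lit 0) (XT.lf (nat_lit 0) (nat_lit 211213147448) (nat_lit 76) (nat_lit 134273199973) (nat_lit 152)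 (nat_lit 227525740234) (nat_lit 50) (nat_lit 5) (nat_lit 51) (nat_lit 5) (nat_lit 52) (nat_lit 4) (nat_lit 527) (nat_lit 462) (nat_lit 211)) (XT.lf (nat_lit 0) (nat_lit 521520303908) (nat_lit 152) (nat_lit 22861614072) (nat_lit 0) (nat_lit 48154610157) (nat_lit 50) (nat_lit 5) (nat_lit 52) (nat_lit 4) (nat_lit 50) (nat_lit 4) (nat_lit 528) (nat_lit 462) (nat_lit 210))) (XT.nd (nat_lit 78) (nat_lit 76) (nat_lit 0) (XT.lf (nat_lit 0) (nat_lit 97992484366) (nat_lit 152) (nat_lit 272481203904) (nat_lit 76) (nat_lit 242107628995) (nat_lit 48) (nat_lit 5) (nat_lit 50) (nat_lit 5) (nat_lit 49) (nat_lit 4) (nat_lit 529) (nat_lit 462) (nat_lit 209)) (XT.lf (nat_lit 0) (nat_lit 90107954760) (nat_lit 76) (nat_lit 184757337829) (nat_lit 152) (nat_lit 358614829491) (nat_lit 47) (nat_lit 5) (nat_lit 48) (nat_lit 5) (nat_lit 49) (nat_lit 4) (nat_lit 530) (nat_lit 462) (nat_lit 208)))) (XT.nd (nat_lit 156) (nat_lit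 152) (nat_lit 0) (XT.nd (nat_lit 78) (nat_lit 76) (nat_lit 0) (XT.lf (nat_lit 0) (nat_lit 465431859998) (nat_lit 152) (nat_lit 175142392221) (nat_lit 0) (nat_lit 14607108981) (nat_lit 47) (nat_lit 5) (nat_lit 49) (nat_lit 4) (nat_lit 47) (nat_lit 4) (nat_lit 531) (nat_lit 462) (nat_lit 207)) (XT.lf (nat_lit 0) (nat_lit 215362868226) (nat_lit 76) (nat_lit 456555036229) (nat_lit 76) (nat_lit 5730200388) (nat_lit 46) (nat_lit 4) (nat_lit 47) (nat_lit 5) (nat_lit 47) (nat_lit 4) (nat_lit 532) (nat_lit 462) (nat_lit 206))) (XT.nd (nat_lit 78) (nat_lit 76) (nat_lit 0) (XT.lf (nat_lit 0) (nat_lit 184503880638) (nat_lit 152) (nat_lit 72591961317) (nat_lit 76) (nat_lit 443845248039) (nat_lit 45) (nat_lit 5) (nat_lit 47) (nat_lit 5) (nat_lit 46) (nat_lit 4) (nat_lit 533) (nat_lit 462) (nat_lit 205)) (XT.lf (nat_lit 0) (nat_lit 347617837486) (nat_lit 76) (nat_lit 41866470342) (nat_lit 152) (nat_lit 335638358968)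 (nat_lit 44) (nat_lit 5) (nat_lit 45) (nat_lit 5) (nat_lit 46) (nat_lit 4) (nat_lit 534) (nat_lit 462) (nat_lit 204))))) (XT.nd (nat_lit 312) (nat_lit 228) (nat_lit 0) (XT.nd (nat_lit 156) (nat_lit 76) (nat_lit 0) (XT.nd (nat_lit 78) (nat_lit 76) (nat_lit 0) (XT.lf (nat_lit 0) (nat_lit 39268338126) (nat_lit 76) (nat_lit 570182664263) (nat_lit 76) (nat_lit 140825457751) (nat_lit 43) (nat_lit 4) (nat_lit 44) (nat_lit 5) (nat_lit 44) (nat_lit 4) (nat_lit 535) (nat_lit 462) (nat_lit 203)) (XT.lf (nat_lit 0) (nat_lit 68872687361) (nat_lit 152) (nat_lit 288168263883) (nat_lit 76) (nat_lit 419238028423) (nat_lit 42) (nat_lit 5) (nat_lit 44) (nat_lit 5) (nat_lit 43) (nat_lit 4) (nat_lit 536) (nat_lit 462) (nat_lit 202))) (XT.nd (nat_lit 78) (nat_lit 0) (nat_lit 0) (XT.lf (nat_lit 0) (nat_lit 158580398464) (nat_lit 76) (nat_lit 128218496528) (nat_lit 152) (nat_lit 516543508772) (nat_lit 41) (nat_lit 5)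 (nat_lit 42) (nat_lit 5) (nat_lit 43) (nat_lit 4) (nat_lit 537) (nat_lit 462) (nat_lit 201)) (XT.lf (nat_lit 0) (nat_lit 522330953967) (nat_lit 152) (nat_lit 195673420328) (nat_lit 0) (nat_lit 113419147725) (nat_lit 41) (nat_lit 5) (nat_lit 43) (nat_lit 4) (nat_lit 41) (nat_lit 4) (nat_lit 538) (nat_lit 462) (nat_lit 200)))) (XT.nd (nat_lit 156) (nat_lit 76) (nat_lit 0) (XT.nd (nat_lit 78) (nat_lit 76) (nat_lit 0) (XT.lf (nat_lit 0) (nat_lit 282819510542) (nat_lit 76) (nat_lit 493337586260) (nat_lit 76) (nat_lit 84425725340) (nat_lit 40) (nat_lit 4) (nat_lit 41) (nat_lit 5) (nat_lit 41) (nat_lit 4) (nat_lit 539) (nat_lit 462) (nat_lit 199)) (XT.lf (nat_lit 0) (nat_lit 149994413139) (nat_lit 152) (nat_lit 101423366058) (nat_lit 76) (nat_lit 639495656918) (nat_lit 39) (nat_lit 5) (nat_lit 41) (nat_lit 5) (nat_lit 40) (nat_lit 4) (nat_lit 540) (nat_lit 462) (nat_lit 198))) (XT.nd (nat_lit 78) (nat_lit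 0) (nat_lit 0) (XT.lf (nat_lit 0) (nat_lit 399875412354) (nat_lit 152) (nat_lit 512051663447) (nat_lit 0) (nat_lit 10435447983) (nat_lit 38) (nat_lit 5) (nat_lit 40) (nat_lit 4) (nat_lit 38) (nat_lit 4) (nat_lit 541) (nat_lit 462) (nat_lit 197)) (XT.lf (nat_lit 0) (nat_lit 668117813112) (nat_lit 152) (nat_lit 8295081390) (nat_lit 0) (nat_lit 278677803757) (nat_lit 38) (nat_lit 5) (nat_lit 40) (nat_lit 4) (nat_lit 38) (nat_lit 4) (nat_lit 542) (nat_lit 462) (nat_lit 196))))))) (XT.nd (nat_lit 57252) (nat_lit 0) (nat_lit 4864) (XT.nd (nat_lit 56628) (nat_lit 0) (nat_lit 8132) (XT.nd (nat_lit 56316) (nat_lit 0) (nat_lit 8512) (XT.nd (nat_lit 78) (nat_lit 152) (nat_lit 0) (XT.lf (nat_lit 0) (nat_lit 537864224604) (nat_lit 76) (nat_lit 420305616837) (nat_lit 76) (nat_lit 30865564640) (nat_lit 37) (nat_lit 4) (nat_lit 38) (nat_lit 5) (nat_lit 38) (nat_lit 4) (nat_lit 543) (nat_lit 462) (nat_lit 195))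 (XT.nd (nat_lit 56160) (nat_lit 0) (nat_lit 8512) (XT.lf (nat_lit 0) (nat_lit 85982116744) (nat_lit 76) (nat_lit 145931156301) (nat_lit 152) (nat_lit 792503989832) (nat_lit 35) (nat_lit 5) (nat_lit 36) (nat_lit 5) (nat_lit 37) (nat_lit 4) (nat_lit 544) (nat_lit 462) (nat_lit 194)) (XT.lf (nat_lit 0) (nat_lit 18199389434) (nat_lit 836) (nat_lit 12850266783) (nat_lit 836) (nat_lit 12850266783) (nat_lit 147) (nat_lit 3) (nat_lit 158) (nat_lit 3) (nat_lit 158) (nat_lit 5) (nat_lit 463) (nat_lit 463) (nat_lit 274)))) (XT.nd (nat_lit 156) (nat_lit 0) (nat_lit 76) (XT.nd (nat_lit 78) (nat_lit 0) (nat_lit 76) (XT.lf (nat_lit 76) (nat_lit 18433783980) (nat_lit 0) (nat_lit 19171107179) (nat_lit 836) (nat_lit 52375142564) (nat_lit 148) (nat_lit 5) (nat_lit 147) (nat_lit 3) (nat_lit 158) (nat_lit 5) (nat_lit 464) (nat_lit 463) (nat_lit 273)) (XT.lf (nat_lit 0) (nat_lit 39717587170) (nat_lit 760) (nat_lit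 26992268471) (nat_lit 836) (nat_lit 25517061364) (nat_lit 148) (nat_lit 5) (nat_lit 158) (nat_lit 5) (nat_lit 159) (nat_lit 5) (nat_lit 465) (nat_lit 463) (nat_lit 272))) (XT.nd (nat_lit 78) (nat_lit 0) (nat_lit 76) (XT.lf (nat_lit 76) (nat_lit 20118751917) (nat_lit 0) (nat_lit 22445047573) (nat_lit 836) (nat_lit 51990950965) (nat_lit 149) (nat_lit 5) (nat_lit 148) (nat_lit 5) (nat_lit 159) (nat_lit 5) (nat_lit 466) (nat_lit 463) (nat_lit 271)) (XT.lf (nat_lit 0) (nat_lit 46391679408) (nat_lit 760) (nat_lit 26836729455) (nat_lit 836) (nat_lit 23728598939) (nat_lit 149) (nat_lit 5) (nat_lit 159) (nat_lit 5) (nat_lit 160) (nat_lit 5) (nat_lit 467) (nat_lit 463) (nat_lit 270))))) (XT.nd (nat_lit 312) (nat_lit 532) (nat_lit 0) (XT.nd (nat_lit 156) (nat_lit 0) (nat_lit 76) (XT.nd (nat_lit 78) (nat_lit 0) (nat_lit 76) (XT.lf (nat_lit 76) (nat_lit 23527258507) (nat_lit 0) (nat_lit 27618509493) (nat_lit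 836) (nat_lit 48296869356) (nat_lit 150) (nat_lit 5) (nat_lit 149) (nat_lit 5) (nat_lit 160) (nat_lit 5) (nat_lit 468) (nat_lit 463) (nat_lit 269)) (XT.lf (nat_lit 0) (nat_lit 56915561736) (nat_lit 760) (nat_lit 25012950546) (nat_lit 836) (nat_lit 20085136137) (nat_lit 150) (nat_lit 5) (nat_lit 160) (nat_lit 5) (nat_lit 161) (nat_lit 5) (nat_lit 469) (nat_lit 463) (nat_lit 268))) (XT.nd (nat_lit 78) (nat_lit 0) (nat_lit 76) (XT.lf (nat_lit 76) (nat_lit 28906716278) (nat_lit 0) (nat_lit 34970783399) (nat_lit 836) (nat_lit 40790527696) (nat_lit 151) (nat_lit 5) (nat_lit 150) (nat_lit 5) (nat_lit 161) (nat_lit 5) (nat_lit 470) (nat_lit 463) (nat_lit 267)) (XT.lf (nat_lit 0) (nat_lit 71841486209) (nat_lit 760) (nat_lit 21274269359) (nat_lit 836) (nat_lit 14306672184) (nat_lit 151) (nat_lit 5) (nat_lit 161) (nat_lit 5) (nat_lit 162) (nat_lit 5) (nat_lit 471) (nat_lit 463) (nat_lit 266)))) (XT.nd (nat_lit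 156) (nat_lit 684) (nat_lit 0) (XT.nd (nat_lit 78) (nat_lit 0) (nat_lit 76) (XT.lf (nat_lit 76) (nat_lit 36532793583) (nat_lit 0) (nat_lit 44814162646) (nat_lit 836) (nat_lit 28910427772) (nat_lit 152) (nat_lit 5) (nat_lit 151) (nat_lit 5) (nat_lit 162) (nat_lit 5) (nat_lit 472) (nat_lit 463) (nat_lit 265)) (XT.lf (nat_lit 0) (nat_lit 91785678753) (nat_lit 760) (nat_lit 15345661866) (nat_lit 76) (nat_lit 6079848549) (nat_lit 152) (nat_lit 5) (nat_lit 162) (nat_lit 5) (nat_lit 153) (nat_lit 5) (nat_lit 473) (nat_lit 463) (nat_lit 264))) (XT.nd (nat_lit 78) (nat_lit 0) (nat_lit 0) (XT.lf (nat_lit 0) (nat_lit 46712325167) (nat_lit 760) (nat_lit 57497626509) (nat_lit 836) (nat_lit 12029552257) (nat_lit 142) (nat_lit 5) (nat_lit 152) (nat_lit 5) (nat_lit 153) (nat_lit 5) (nat_lit 474) (nat_lit 463) (nat_lit 263)) (XT.lf (nat_lit 0) (nat_lit 112405667701) (nat_lit 760) (nat_lit 5109314346) (nat_lit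 836) (nat_lit 1891275250) (nat_lit 142) (nat_lit 5) (nat_lit 152) (nat_lit 5) (nat_lit 153) (nat_lit 5) (nat_lit 475) (nat_lit 463) (nat_lit 262)))))) (XT.nd (nat_lit 624) (nat_lit 1444) (nat_lit 0) (XT.nd (nat_lit 312) (nat_lit 608) (nat_lit 0) (XT.nd (nat_lit 156) (nat_lit 380) (nat_lit 0) (XT.nd (nat_lit 78) (nat_lit 380) (nat_lit 0) (XT.lf (nat_lit 0) (nat_lit 10213967163) (nat_lit 456) (nat_lit 63023977781) (nat_lit 76) (nat_lit 49399558198) (nat_lit 136) (nat_lit 5) (nat_lit 142) (nat_lit 5) (nat_lit 137) (nat_lit 5) (nat_lit 476) (nat_lit 463) (nat_lit 261)) (XT.lf (nat_lit 0) (nat_lit 3780997350) (nat_lit 380) (nat_lit 19342888132) (nat_lit 456) (nat_lit 102891726962) (nat_lit 131) (nat_lit 5) (nat_lit 136) (nat_lit 5) (nat_lit 137) (nat_lit 5) (nat_lit 477) (nat_lit 463) (nat_lit 260))) (XT.nd (nat_lit 78) (nat_lit 380) (nat_lit 0) (XT.lf (nat_lit 0) (nat_lit 38345357682) (nat_lit 456)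 (nat_lit 53994343481) (nat_lit 76) (nat_lit 37139623192) (nat_lit 131) (nat_lit 5) (nat_lit 137) (nat_lit 5) (nat_lit 132) (nat_lit 5) (nat_lit 478) (nat_lit 463) (nat_lit 259)) (XT.lf (nat_lit 0) (nat_lit 17913888588) (nat_lit 380) (nat_lit 37010502359) (nat_lit 456) (nat_lit 78162006581) (nat_lit 126) (nat_lit 5) (nat_lit 131) (nat_lit 5) (nat_lit 132) (nat_lit 5) (nat_lit 479) (nat_lit 463) (nat_lit 258)))) (XT.nd (nat_lit 156) (nat_lit 304) (nat_lit 0) (XT.nd (nat_lit 78) (nat_lit 304) (nat_lit 0) (XT.lf (nat_lit 0) (nat_lit 73590698918) (nat_lit 456) (nat_lit 41880520123) (nat_lit 76) (nat_lit 21339689207) (nat_lit 126) (nat_lit 5) (nat_lit 132) (nat_lit 5) (nat_lit 127) (nat_lit 5) (nat_lit 480) (nat_lit 463) (nat_lit 257)) (XT.lf (nat_lit 0) (nat_lit 35608733937) (nat_lit 304) (nat_lit 58743997479) (nat_lit 380) (nat_lit 46310792666) (nat_lit 122) (nat_lit 5) (nat_lit 126) (nat_lit 5)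 (nat_lit 127) (nat_lit 5) (nat_lit 481) (nat_lit 463) (nat_lit 256))) (XT.nd (nat_lit 78) (nat_lit 304) (nat_lit 0) (XT.lf (nat_lit 0) (nat_lit 116886290901) (nat_lit 380) (nat_lit 26271597160) (nat_lit 76) (nat_lit 1514211412) (nat_lit 122) (nat_lit 5) (nat_lit 127) (nat_lit 5) (nat_lit 123) (nat_lit 5) (nat_lit 482) (nat_lit 463) (nat_lit 255)) (XT.lf (nat_lit 0) (nat_lit 57322105195) (nat_lit 304) (nat_lit 85082145978) (nat_lit 380) (nat_lit 6383966353) (nat_lit 118) (nat_lit 5) (nat_lit 122) (nat_lit 5) (nat_lit 123) (nat_lit 5) (nat_lit 483) (nat_lit 463) (nat_lit 254))))) (XT.nd (nat_lit 312) (nat_lit 760) (nat_lit 0) (XT.nd (nat_lit 156) (nat_lit 304) (nat_lit 0) (XT.nd (nat_lit 78) (nat_lit 304) (nat_lit 0) (XT.lf (nat_lit 0) (nat_lit 16025019671) (nat_lit 380) (nat_lit 7339086954) (nat_lit 76) (nat_lit 129710877616) (nat_lit 117) (nat_lit 5) (nat_lit 122) (nat_lit 5) (nat_lit 118) (nat_lit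 5) (nat_lit 484) (nat_lit 463) (nat_lit 253)) (XT.lf (nat_lit 0) (nat_lit 41314436511) (nat_lit 380) (nat_lit 74611816558) (nat_lit 76) (nat_lit 41545877260) (nat_lit 113) (nat_lit 5) (nat_lit 118) (nat_lit 5) (nat_lit 114) (nat_lit 5) (nat_lit 485) (nat_lit 463) (nat_lit 252))) (XT.nd (nat_lit 78) (nat_lit 0) (nat_lit 0) (XT.lf (nat_lit 0) (nat_lit 15863957560) (nat_lit 304) (nat_lit 52761163155) (nat_lit 380) (nat_lit 93426173206) (nat_lit 109) (nat_lit 5) (nat_lit 113) (nat_lit 5) (nat_lit 114) (nat_lit 5) (nat_lit 486) (nat_lit 463) (nat_lit 251)) (XT.lf (nat_lit 0) (nat_lit 98797159010) (nat_lit 380) (nat_lit 53575120189) (nat_lit 76) (nat_lit 14412345526) (nat_lit 109) (nat_lit 5) (nat_lit 114) (nat_lit 5) (nat_lit 110) (nat_lit 5) (nat_lit 487) (nat_lit 463) (nat_lit 250)))) (XT.nd (nat_lit 156) (nat_lit 532) (nat_lit 0) (XT.nd (nat_lit 78) (nat_lit 0) (nat_lit 0) (XT.lf (nat_lit 0) (nat_lit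 44217727563) (nat_lit 228) (nat_lit 87815156606) (nat_lit 304) (nat_lit 39643983677) (nat_lit 106) (nat_lit 5) (nat_lit 109) (nat_lit 5) (nat_lit 110) (nat_lit 5) (nat_lit 488) (nat_lit 463) (nat_lit 249)) (XT.lf (nat_lit 0) (nat_lit 148759943952) (nat_lit 228) (nat_lit 19077563261) (nat_lit 304) (nat_lit 8930860351) (nat_lit 106) (nat_lit 5) (nat_lit 109) (nat_lit 5) (nat_lit 110) (nat_lit 5) (nat_lit 489) (nat_lit 463) (nat_lit 248))) (XT.nd (nat_lit 78) (nat_lit 228) (nat_lit 0) (XT.lf (nat_lit 0) (nat_lit 24653085873) (nat_lit 304) (nat_lit 104324916188) (nat_lit 76) (nat_lit 53014163038) (nat_lit 102) (nat_lit 5) (nat_lit 106) (nat_lit 5) (nat_lit 103) (nat_lit 5) (nat_lit 490) (nat_lit 463) (nat_lit 247)) (XT.lf (nat_lit 0) (nat_lit 1733946637) (nat_lit 228) (nat_lit 58703880206) (nat_lit 304) (nat_lit 126990918664) (nat_lit 99) (nat_lit 5) (nat_lit 102) (nat_lit 5) (nat_lit 103) (nat_lit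 5) (nat_lit 491) (nat_lit 463) (nat_lit 246))))))))
noncomputable def xc213 : XT := (XT.nd (nat_lit 2418) (nat_lit 1444) (nat_lit 0) (XT.nd (nat_lit 1170) (nat_lit 1368) (nat_lit 0) (XT.nd (nat_lit 546) (nat_lit 988) (nat_lit 0) (XT.nd (nat_lit 234) (nat_lit 608) (nat_lit 0) (XT.nd (nat_lit 78) (nat_lit 228) (nat_lit 0) (XT.lf (nat_lit 0) (nat_lit 100042870187) (nat_lit 304) (nat_lit 76595886162) (nat_lit 76) (nat_lit 16396845340) (nat_lit 99) (nat_lit 5) (nat_lit 103) (nat_lit 5) (nat_lit 100) (nat_lit 5) (nat_lit 492) (nat_lit 463) (nat_lit 245)) (XT.nd (nat_lit 78) (nat_lit 0) (nat_lit 0) (XT.lf (nat_lit 0) (nat_lit 38218577623) (nat_lit 228) (nat_lit 104968460986) (nat_lit 304) (nat_lit 55657818444) (nat_lit 96) (nat_lit 5) (nat_lit 99) (nat_lit 5) (nat_lit 100) (nat_lit 5) (nat_lit 493) (nat_lit 463) (nat_lit 244)) (XT.lf (nat_lit 0) (nat_lit 161432736118) (nat_lit 228) (nat_lit 28352687517)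 (nat_lit 304) (nat_lit 15094301158) (nat_lit 96) (nat_lit 5) (nat_lit 99) (nat_lit 5) (nat_lit 100) (nat_lit 5) (nat_lit 494) (nat_lit 463) (nat_lit 243)))) (XT.nd (nat_lit 156) (nat_lit 380) (nat_lit 0) (XT.nd (nat_lit 78) (nat_lit 0) (nat_lit 0) (XT.lf (nat_lit 0) (nat_lit 28735229972) (nat_lit 228) (nat_lit 130193197532) (nat_lit 76) (nat_lit 52160546550) (nat_lit 93) (nat_lit 5) (nat_lit 96) (nat_lit 5) (nat_lit 94) (nat_lit 5) (nat_lit 495) (nat_lit 463) (nat_lit 242)) (XT.lf (nat_lit 0) (nat_lit 75461454900) (nat_lit 228) (nat_lit 5332403537) (nat_lit 76) (nat_lit 136741830743) (nat_lit 93) (nat_lit 5) (nat_lit 96) (nat_lit 5) (nat_lit 94) (nat_lit 5) (nat_lit 496) (nat_lit 463) (nat_lit 241))) (XT.nd (nat_lit 78) (nat_lit 152) (nat_lit 0) (XT.lf (nat_lit 0) (nat_lit 126605125158) (nat_lit 304) (nat_lit 94326304840) (nat_lit 76) (nat_lit 3269253374) (nat_lit 90) (nat_lit 5) (nat_lit 94)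 (nat_lit 5) (nat_lit 91) (nat_lit 5) (nat_lit 497) (nat_lit 463) (nat_lit 240)) (XT.lf (nat_lit 0) (nat_lit 40812242352) (nat_lit 152) (nat_lit 141547046183) (nat_lit 228) (nat_lit 48736973272) (nat_lit 88) (nat_lit 5) (nat_lit 90) (nat_lit 5) (nat_lit 91) (nat_lit 5) (nat_lit 498) (nat_lit 463) (nat_lit 239))))) (XT.nd (nat_lit 312) (nat_lit 532) (nat_lit 0) (XT.nd (nat_lit 156) (nat_lit 152) (nat_lit 0) (XT.nd (nat_lit 78) (nat_lit 228) (nat_lit 0) (XT.lf (nat_lit 0) (nat_lit 4105949679) (nat_lit 228) (nat_lit 52340712809) (nat_lit 76) (nat_lit 181806780200) (nat_lit 87) (nat_lit 5) (nat_lit 90) (nat_lit 5) (nat_lit 88) (nat_lit 5) (nat_lit 499) (nat_lit 463) (nat_lit 238)) (XT.lf (nat_lit 0) (nat_lit 59983166896) (nat_lit 304) (nat_lit 151473144075) (nat_lit 76) (nat_lit 34170721814) (nat_lit 84) (nat_lit 5) (nat_lit 88) (nat_lit 5) (nat_lit 85) (nat_lit 5) (nat_lit 500) (nat_lit 463) (nat_lit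 237))) (XT.nd (nat_lit 78) (nat_lit 152) (nat_lit 0) (XT.lf (nat_lit 0) (nat_lit 120480397124) (nat_lit 304) (nat_lit 4474739005) (nat_lit 76) (nat_lit 128322858663) (nat_lit 84) (nat_lit 5) (nat_lit 88) (nat_lit 5) (nat_lit 85) (nat_lit 5) (nat_lit 501) (nat_lit 463) (nat_lit 236)) (XT.lf (nat_lit 0) (nat_lit 154828845312) (nat_lit 152) (nat_lit 31590813191) (nat_lit 228) (nat_lit 74770987924) (nat_lit 82) (nat_lit 5) (nat_lit 84) (nat_lit 5) (nat_lit 85) (nat_lit 5) (nat_lit 502) (nat_lit 463) (nat_lit 235)))) (XT.nd (nat_lit 156) (nat_lit 304) (nat_lit 0) (XT.nd (nat_lit 78) (nat_lit 76) (nat_lit 0) (XT.lf (nat_lit 0) (nat_lit 53429067226) (nat_lit 152) (nat_lit 204175218265) (nat_lit 228) (nat_lit 11797225037) (nat_lit 80) (nat_lit 5) (nat_lit 82) (nat_lit 5) (nat_lit 83) (nat_lit 5) (nat_lit 503) (nat_lit 463) (nat_lit 234)) (XT.lf (nat_lit 0) (nat_lit 54935039748) (nat_lit 228) (nat_lit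 54426547118) (nat_lit 76) (nat_lit 168501494512) (nat_lit 79) (nat_lit 5) (nat_lit 82) (nat_lit 5) (nat_lit 80) (nat_lit 5) (nat_lit 504) (nat_lit 463) (nat_lit 233))) (XT.nd (nat_lit 78) (nat_lit 152) (nat_lit 0) (XT.lf (nat_lit 0) (nat_lit 118805543487) (nat_lit 152) (nat_lit 7656664491) (nat_lit 228) (nat_lit 160183115228) (nat_lit 77) (nat_lit 5) (nat_lit 79) (nat_lit 5) (nat_lit 80) (nat_lit 5) (nat_lit 505) (nat_lit 463) (nat_lit 232)) (XT.lf (nat_lit 0) (nat_lit 5377233919) (nat_lit 152) (nat_lit 198756924989) (nat_lit 228) (nat_lit 91604097013) (nat_lit 75) (nat_lit 5) (nat_lit 77) (nat_lit 5) (nat_lit 78) (nat_lit 5) (nat_lit 506) (nat_lit 463) (nat_lit 231)))))) (XT.nd (nat_lit 624) (nat_lit 684) (nat_lit 0) (XT.nd (nat_lit 312) (nat_lit 304) (nat_lit 0) (XT.nd (nat_lit 156) (nat_lit 152) (nat_lit 0) (XT.nd (nat_lit 78) (nat_lit 228) (nat_lit 0) (XT.lf (nat_lit 0) (nat_lit 192952226551)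 (nat_lit 152) (nat_lit 95703294504) (nat_lit 228) (nat_lit 16482023540) (nat_lit 75) (nat_lit 5) (nat_lit 77) (nat_lit 5) (nat_lit 78) (nat_lit 5) (nat_lit 507) (nat_lit 463) (nat_lit 230)) (XT.lf (nat_lit 0) (nat_lit 61822019833) (nat_lit 228) (nat_lit 238760135469) (nat_lit 76) (nat_lit 14304786826) (nat_lit 72) (nat_lit 5) (nat_lit 75) (nat_lit 5) (nat_lit 73) (nat_lit 5) (nat_lit 508) (nat_lit 463) (nat_lit 229))) (XT.nd (nat_lit 78) (nat_lit 152) (nat_lit 0) (XT.lf (nat_lit 0) (nat_lit 146987203106) (nat_lit 228) (nat_lit 49149920499) (nat_lit 76) (nat_lit 128798183996) (nat_lit 72) (nat_lit 5) (nat_lit 75) (nat_lit 5) (nat_lit 73) (nat_lit 5) (nat_lit 509) (nat_lit 463) (nat_lit 228)) (XT.lf (nat_lit 0) (nat_lit 154898313437) (nat_lit 152) (nat_lit 83930611335) (nat_lit 228) (nat_lit 96536252618) (nat_lit 70) (nat_lit 5) (nat_lit 72) (nat_lit 5) (nat_lit 73) (nat_lit 5) (nat_lit 510) (nat_lit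 463) (nat_lit 227)))) (XT.nd (nat_lit 156) (nat_lit 152) (nat_lit 0) (XT.nd (nat_lit 78) (nat_lit 76) (nat_lit 0) (XT.lf (nat_lit 0) (nat_lit 24832289105) (nat_lit 76) (nat_lit 312193110773) (nat_lit 152) (nat_lit 9203007430) (nat_lit 69) (nat_lit 5) (nat_lit 70) (nat_lit 5) (nat_lit 71) (nat_lit 4) (nat_lit 511) (nat_lit 463) (nat_lit 226)) (XT.lf (nat_lit 0) (nat_lit 84338676561) (nat_lit 152) (nat_lit 113534411635) (nat_lit 76) (nat_lit 159473200514) (nat_lit 68) (nat_lit 5) (nat_lit 70) (nat_lit 5) (nat_lit 69) (nat_lit 5) (nat_lit 512) (nat_lit 463) (nat_lit 225))) (XT.nd (nat_lit 78) (nat_lit 0) (nat_lit 0) (XT.lf (nat_lit 0) (nat_lit 108026848134) (nat_lit 152) (nat_lit 75907806635) (nat_lit 228) (nat_lit 184993541399) (nat_lit 66) (nat_lit 5) (nat_lit 68) (nat_lit 5) (nat_lit 69) (nat_lit 5) (nat_lit 513) (nat_lit 463) (nat_lit 224)) (XT.lf (nat_lit 0) (nat_lit 291278900464) (nat_lit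 228) (nat_lit 37231247441) (nat_lit 76) (nat_lit 52440627670) (nat_lit 66) (nat_lit 5) (nat_lit 69) (nat_lit 5) (nat_lit 67) (nat_lit 4) (nat_lit 514) (nat_lit 463) (nat_lit 223))))) (XT.nd (nat_lit 312) (nat_lit 304) (nat_lit 0) (XT.nd (nat_lit 156) (nat_lit 76) (nat_lit 0) (XT.nd (nat_lit 78) (nat_lit 152) (nat_lit 0) (XT.lf (nat_lit 0) (nat_lit 14566493399) (nat_lit 152) (nat_lit 190717928176) (nat_lit 76) (nat_lit 188057731736) (nat_lit 64) (nat_lit 5) (nat_lit 66) (nat_lit 5) (nat_lit 65) (nat_lit 5) (nat_lit 515) (nat_lit 463) (nat_lit 222)) (XT.lf (nat_lit 0) (nat_lit 49548797566) (nat_lit 152) (nat_lit 72868777154) (nat_lit 228) (nat_lit 283791305810) (nat_lit 62) (nat_lit 5) (nat_lit 64) (nat_lit 5) (nat_lit 65) (nat_lit 5) (nat_lit 516) (nat_lit 463) (nat_lit 221))) (XT.nd (nat_lit 78) (nat_lit 76) (nat_lit 0) (XT.lf (nat_lit 0) (nat_lit 239977018949) (nat_lit 228) (nat_lit 112193494873)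 (nat_lit 76) (nat_lit 67332639851) (nat_lit 62) (nat_lit 5) (nat_lit 65) (nat_lit 5) (nat_lit 63) (nat_lit 4) (nat_lit 517) (nat_lit 463) (nat_lit 220)) (XT.lf (nat_lit 0) (nat_lit 148039872415) (nat_lit 76) (nat_lit 218880352109) (nat_lit 152) (nat_lit 66366626497) (nat_lit 61) (nat_lit 5) (nat_lit 62) (nat_lit 5) (nat_lit 63) (nat_lit 4) (nat_lit 518) (nat_lit 463) (nat_lit 219)))) (XT.nd (nat_lit 156) (nat_lit 76) (nat_lit 0) (XT.nd (nat_lit 78) (nat_lit 152) (nat_lit 0) (XT.lf (nat_lit 0) (nat_lit 52703203703) (nat_lit 152) (nat_lit 23334951926) (nat_lit 76) (nat_lit 371584077289) (nat_lit 60) (nat_lit 5) (nat_lit 62) (nat_lit 5) (nat_lit 61) (nat_lit 5) (nat_lit 519) (nat_lit 463) (nat_lit 218)) (XT.lf (nat_lit 0) (nat_lit 180776362452) (nat_lit 228) (nat_lit 204786521198) (nat_lit 76) (nat_lit 76793091844) (nat_lit 58) (nat_lit 5) (nat_lit 61) (nat_lit 5) (nat_lit 59) (nat_lit 4) (nat_lit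 520) (nat_lit 463) (nat_lit 217))) (XT.nd (nat_lit 78) (nat_lit 0) (nat_lit 0) (XT.lf (nat_lit 0) (nat_lit 76725074983) (nat_lit 76) (nat_lit 241374099239) (nat_lit 152) (nat_lit 159584931228) (nat_lit 57) (nat_lit 5) (nat_lit 58) (nat_lit 5) (nat_lit 59) (nat_lit 4) (nat_lit 521) (nat_lit 463) (nat_lit 216)) (XT.lf (nat_lit 0) (nat_lit 379421806522) (nat_lit 76) (nat_lit 86334387937) (nat_lit 152) (nat_lit 27849044052) (nat_lit 57) (nat_lit 5) (nat_lit 58) (nat_lit 5) (nat_lit 59) (nat_lit 4) (nat_lit 522) (nat_lit 463) (nat_lit 215))))))) (XT.nd (nat_lit 1170) (nat_lit 304) (nat_lit 0) (XT.nd (nat_lit 546) (nat_lit 608) (nat_lit 0) (XT.nd (nat_lit 234) (nat_lit 228) (nat_lit 0) (XT.nd (nat_lit 78) (nat_lit 76) (nat_lit 0) (XT.lf (nat_lit 0) (nat_lit 111195853828) (nat_lit 228) (nat_lit 320028065796) (nat_lit 76) (nat_lit 78799365318) (nat_lit 54) (nat_lit 5) (nat_lit 57) (nat_lit 5) (nat_lit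 55) (nat_lit 4) (nat_lit 523) (nat_lit 463) (nat_lit 214)) (XT.nd (nat_lit 78) (nat_lit 76) (nat_lit 0) (XT.lf (nat_lit 0) (nat_lit 259637768897) (nat_lit 228) (nat_lit 15722278074) (nat_lit 76) (nat_lit 251710325501) (nat_lit 54) (nat_lit 5) (nat_lit 57) (nat_lit 5) (nat_lit 55) (nat_lit 4) (nat_lit 524) (nat_lit 463) (nat_lit 213)) (XT.lf (nat_lit 0) (nat_lit 313843596650) (nat_lit 76) (nat_lit 106558077766) (nat_lit 152) (nat_lit 124323145230) (nat_lit 53) (nat_lit 5) (nat_lit 54) (nat_lit 5) (nat_lit 55) (nat_lit 4) (nat_lit 525) (nat_lit 463) (nat_lit 212)))) (XT.nd (nat_lit 156) (nat_lit 76) (nat_lit 0) (XT.nd (nat_lit 78) (nat_lit 0) (nat_lit 0) (XT.lf (nat_lit 0) (nat_lit 28083165069) (nat_lit 152) (nat_lit 464315188967) (nat_lit 76) (nat_lit 70694800036) (nat_lit 51) (nat_lit 5) (nat_lit 53) (nat_lit 5) (nat_lit 52) (nat_lit 4) (nat_lit 526) (nat_lit 463) (nat_lit 211)) (XT.lf (nat_lit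 0) (nat_lit 189652673898) (nat_lit 152) (nat_lit 133097809541) (nat_lit 76) (nat_lit 259241469769) (nat_lit 51) (nat_lit 5) (nat_lit 53) (nat_lit 5) (nat_lit 52) (nat_lit 4) (nat_lit 527) (nat_lit 463) (nat_lit 210))) (XT.nd (nat_lit 78) (nat_lit 0) (nat_lit 0) (XT.lf (nat_lit 0) (nat_lit 221778588163) (nat_lit 76) (nat_lit 140984576448) (nat_lit 152) (nat_lit 238899402369) (nat_lit 50) (nat_lit 5) (nat_lit 51) (nat_lit 5) (nat_lit 52) (nat_lit 4) (nat_lit 528) (nat_lit 463) (nat_lit 209)) (XT.lf (nat_lit 0) (nat_lit 547598733839) (nat_lit 152) (nat_lit 24000054064) (nat_lit 0) (nat_lit 50564445842) (nat_lit 50) (nat_lit 5) (nat_lit 52) (nat_lit 4) (nat_lit 50) (nat_lit 4) (nat_lit 529) (nat_lit 463) (nat_lit 208))))) (XT.nd (nat_lit 312) (nat_lit 304) (nat_lit 0) (XT.nd (nat_lit 156) (nat_lit 76) (nat_lit 0) (XT.nd (nat_lit 78) (nat_lit 76) (nat_lit 0) (XT.lf (nat_lit 0) (nat_lit 102894518544)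 (nat_lit 152) (nat_lit 286100618497) (nat_lit 76) (nat_lit 254215125532) (nat_lit 48) (nat_lit 5) (nat_lit 50) (nat_lit 5) (nat_lit 49) (nat_lit 4) (nat_lit 530) (nat_lit 463) (nat_lit 207)) (XT.lf (nat_lit 0) (nat_lit 94617923172) (nat_lit 76) (nat_lit 193993000609) (nat_lit 152) (nat_lit 376543086022) (nat_lit 47) (nat_lit 5) (nat_lit 48) (nat_lit 5) (nat_lit 49) (nat_lit 4) (nat_lit 531) (nat_lit 463) (nat_lit 206))) (XT.nd (nat_lit 78) (nat_lit 76) (nat_lit 0) (XT.lf (nat_lit 0) (nat_lit 488705739640) (nat_lit 152) (nat_lit 183895078839) (nat_lit 0) (nat_lit 15339496398) (nat_lit 47) (nat_lit 5) (nat_lit 49) (nat_lit 4) (nat_lit 47) (nat_lit 4) (nat_lit 532) (nat_lit 463) (nat_lit 205)) (XT.lf (nat_lit 0) (nat_lit 226135373130) (nat_lit 76) (nat_lit 479380672397) (nat_lit 76) (nat_lit 6014352217) (nat_lit 46) (nat_lit 4) (nat_lit 47) (nat_lit 5) (nat_lit 47) (nat_lit 4) (nat_lit 533) (nat_lit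 463) (nat_lit 204)))) (XT.nd (nat_lit 156) (nat_lit 152) (nat_lit 0) (XT.nd (nat_lit 78) (nat_lit 76) (nat_lit 0) (XT.lf (nat_lit 0) (nat_lit 193731248683) (nat_lit 152) (nat_lit 76217333653) (nat_lit 76) (nat_lit 466039453412) (nat_lit 45) (nat_lit 5) (nat_lit 47) (nat_lit 5) (nat_lit 46) (nat_lit 4) (nat_lit 534) (nat_lit 463) (nat_lit 203)) (XT.lf (nat_lit 0) (nat_lit 365002886933) (nat_lit 76) (nat_lit 43957771687) (nat_lit 152) (nat_lit 352418034704) (nat_lit 44) (nat_lit 5) (nat_lit 45) (nat_lit 5) (nat_lit 46) (nat_lit 4) (nat_lit 535) (nat_lit 463) (nat_lit 202))) (XT.nd (nat_lit 78) (nat_lit 76) (nat_lit 0) (XT.lf (nat_lit 0) (nat_lit 41235919575) (nat_lit 76) (nat_lit 598689761737) (nat_lit 76) (nat_lit 147864495356) (nat_lit 43) (nat_lit 4) (nat_lit 44) (nat_lit 5) (nat_lit 44) (nat_lit 4) (nat_lit 536) (nat_lit 463) (nat_lit 201)) (XT.lf (nat_lit 0) (nat_lit 72318382434) (nat_lit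 152) (nat_lit 302572642674) (nat_lit 76) (nat_lit 440201800471) (nat_lit 42) (nat_lit 5) (nat_lit 44) (nat_lit 5) (nat_lit 43) (nat_lit 4) (nat_lit 537) (nat_lit 463) (nat_lit 200)))))) (XT.nd (nat_lit 56862) (nat_lit 0) (nat_lit 8360) (XT.nd (nat_lit 312) (nat_lit 76) (nat_lit 0) (XT.nd (nat_lit 156) (nat_lit 152) (nat_lit 0) (XT.nd (nat_lit 78) (nat_lit 0) (nat_lit 0) (XT.lf (nat_lit 0) (nat_lit 166513387720) (nat_lit 76) (nat_lit 134627476571) (nat_lit 152) (nat_lit 542368558400) (nat_lit 41) (nat_lit 5) (nat_lit 42) (nat_lit 5) (nat_lit 43) (nat_lit 4) (nat_lit 538) (nat_lit 463) (nat_lit 199)) (XT.lf (nat_lit 0) (nat_lit 548449458724) (nat_lit 152) (nat_lit 205453243505) (nat_lit 0) (nat_lit 119091898005) (nat_lit 41) (nat_lit 5) (nat_lit 43) (nat_lit 4) (nat_lit 41) (nat_lit 4) (nat_lit 539) (nat_lit 463) (nat_lit 198))) (XT.nd (nat_lit 78) (nat_lit 76) (nat_lit 0) (XT.lf (nat_lit 0) (nat_lit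 296964271846) (nat_lit 76) (nat_lit 518002602768) (nat_lit 76) (nat_lit 88644992454) (nat_lit 40) (nat_lit 4) (nat_lit 41) (nat_lit 5) (nat_lit 41) (nat_lit 4) (nat_lit 540) (nat_lit 463) (nat_lit 197)) (XT.lf (nat_lit 0) (nat_lit 157495995251) (nat_lit 152) (nat_lit 106490867282) (nat_lit 76) (nat_lit 671472152287) (nat_lit 39) (nat_lit 5) (nat_lit 41) (nat_lit 5) (nat_lit 40) (nat_lit 4) (nat_lit 541) (nat_lit 463) (nat_lit 196)))) (XT.nd (nat_lit 56394) (nat_lit 0) (nat_lit 8284) (XT.nd (nat_lit 78) (nat_lit 0) (nat_lit 0) (XT.lf (nat_lit 0) (nat_lit 419871039887) (nat_lit 152) (nat_lit 537650574975) (nat_lit 0) (nat_lit 10958942239) (nat_lit 38) (nat_lit 5) (nat_lit 40) (nat_lit 4) (nat_lit 38) (nat_lit 4) (nat_lit 542) (nat_lit 463) (nat_lit 195)) (XT.lf (nat_lit 0) (nat_lit 701525472259) (nat_lit 152) (nat_lit 8706338655) (nat_lit 0) (nat_lit 292613333808) (nat_lit 38) (nat_lit 5) (nat_lit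 40) (nat_lit 4) (nat_lit 38) (nat_lit 4) (nat_lit 543) (nat_lit 463) (nat_lit 194))) (XT.nd (nat_lit 78) (nat_lit 0) (nat_lit 0) (XT.lf (nat_lit 0) (nat_lit 19117568488) (nat_lit 836) (nat_lit 13488469457) (nat_lit 836) (nat_lit 13488469457) (nat_lit 147) (nat_lit 3) (nat_lit 158) (nat_lit 3) (nat_lit 158) (nat_lit 5) (nat_lit 464) (nat_lit 464) (nat_lit 272)) (XT.lf (nat_lit 76) (nat_lit 19363955456) (nat_lit 0) (nat_lit 20136949992) (nat_lit 836) (nat_lit 54977339055) (nat_lit 148) (nat_lit 5) (nat_lit 147) (nat_lit 3) (nat_lit 158) (nat_lit 5) (nat_lit 465) (nat_lit 464) (nat_lit 271))))) (XT.nd (nat_lit 312) (nat_lit 0) (nat_lit 152) (XT.nd (nat_lit 156) (nat_lit 0) (nat_lit 76) (XT.nd (nat_lit 78) (nat_lit 0) (nat_lit 0) (XT.lf (nat_lit 0) (nat_lit 41718376961) (nat_lit 760) (nat_lit 28332941932) (nat_lit 836) (nat_lit 26786196137) (nat_lit 148) (nat_lit 5) (nat_lit 158) (nat_lit 5) (nat_lit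 159) (nat_lit 5) (nat_lit 466) (nat_lit 464) (nat_lit 270)) (XT.lf (nat_lit 76) (nat_lit 21133485282) (nat_lit 0) (nat_lit 23572841921) (nat_lit 836) (nat_lit 54575441693) (nat_lit 149) (nat_lit 5) (nat_lit 148) (nat_lit 5) (nat_lit 159) (nat_lit 5) (nat_lit 467) (nat_lit 464) (nat_lit 269))) (XT.nd (nat_lit 78) (nat_lit 0) (nat_lit 0) (XT.lf (nat_lit 0) (nat_lit 48724835963) (nat_lit 760) (nat_lit 28169421760) (nat_lit 836) (nat_lit 24909919751) (nat_lit 149) (nat_lit 5) (nat_lit 159) (nat_lit 5) (nat_lit 160) (nat_lit 5) (nat_lit 468) (nat_lit 464) (nat_lit 268)) (XT.lf (nat_lit 76) (nat_lit 24712618113) (nat_lit 0) (nat_lit 29003505020) (nat_lit 836) (nat_lit 50697990764) (nat_lit 150) (nat_lit 5) (nat_lit 149) (nat_lit 5) (nat_lit 160) (nat_lit 5) (nat_lit 469) (nat_lit 464) (nat_lit 267)))) (XT.nd (nat_lit 156) (nat_lit 0) (nat_lit 76) (XT.nd (nat_lit 78) (nat_lit 0) (nat_lit 0) (XT.lf (nat_lit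 0) (nat_lit 59773723812) (nat_lit 760) (nat_lit 26254345166) (nat_lit 836) (nat_lit 21085640767) (nat_lit 150) (nat_lit 5) (nat_lit 160) (nat_lit 5) (nat_lit 161) (nat_lit 5) (nat_lit 470) (nat_lit 464) (nat_lit 266)) (XT.lf (nat_lit 76) (nat_lit 30361155758) (nat_lit 0) (nat_lit 36722155312) (nat_lit 836) (nat_lit 42817519047) (nat_lit 151) (nat_lit 5) (nat_lit 150) (nat_lit 5) (nat_lit 161) (nat_lit 5) (nat_lit 471) (nat_lit 464) (nat_lit 265))) (XT.nd (nat_lit 78) (nat_lit 0) (nat_lit 0) (XT.lf (nat_lit 0) (nat_lit 75444886408) (nat_lit 760) (nat_lit 22328700427) (nat_lit 836) (nat_lit 15019394292) (nat_lit 151) (nat_lit 5) (nat_lit 161) (nat_lit 5) (nat_lit 162) (nat_lit 5) (nat_lit 472) (nat_lit 464) (nat_lit 264)) (XT.lf (nat_lit 76) (nat_lit 38368565945) (nat_lit 0) (nat_lit 47056667242) (nat_lit 836) (nat_lit 30344471920) (nat_lit 152) (nat_lit 5) (nat_lit 151) (nat_lit 5) (nat_lit 162)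 (nat_lit 5) (nat_lit 473) (nat_lit 464) (nat_lit 263))))))))
noncomputable def xc214 : XT := (XT.nd (nat_lit 2418) (nat_lit 2660) (nat_lit 0) (XT.nd (nat_lit 1170) (nat_lit 2204) (nat_lit 0) (XT.nd (nat_lit 546) (nat_lit 1292) (nat_lit 0) (XT.nd (nat_lit 234) (nat_lit 1216) (nat_lit 0) (XT.nd (nat_lit 78) (nat_lit 760) (nat_lit 0) (XT.lf (nat_lit 0) (nat_lit 96385344689) (nat_lit 760) (nat_lit 16103698459) (nat_lit 76) (nat_lit 6382184819) (nat_lit 152) (nat_lit 5) (nat_lit 162) (nat_lit 5) (nat_lit 153) (nat_lit 5) (nat_lit 474) (nat_lit 464) (nat_lit 262)) (XT.nd (nat_lit 78) (nat_lit 0) (nat_lit 0) (XT.lf (nat_lit 0) (nat_lit 49057038788) (nat_lit 760) (nat_lit 60373440125) (nat_lit 836) (nat_lit 12620497249) (nat_lit 142) (nat_lit 5) (nat_lit 152) (nat_lit 5) (nat_lit 153) (nat_lit 5) (nat_lit 475) (nat_lit 464) (nat_lit 261)) (XT.lf (nat_lit 0) (nat_lit 118034615242) (nat_lit 760) (nat_lit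 5365667959) (nat_lit 836) (nat_lit 1975807945) (nat_lit 142) (nat_lit 5) (nat_lit 152) (nat_lit 5) (nat_lit 153) (nat_lit 5) (nat_lit 476) (nat_lit 464) (nat_lit 260)))) (XT.nd (nat_lit 156) (nat_lit 380) (nat_lit 0) (XT.nd (nat_lit 78) (nat_lit 380) (nat_lit 0) (XT.lf (nat_lit 0) (nat_lit 10734042698) (nat_lit 456) (nat_lit 66165855995) (nat_lit 76) (nat_lit 51869009464) (nat_lit 136) (nat_lit 5) (nat_lit 142) (nat_lit 5) (nat_lit 137) (nat_lit 5) (nat_lit 477) (nat_lit 464) (nat_lit 259)) (XT.lf (nat_lit 0) (nat_lit 3979217560) (nat_lit 380) (nat_lit 20309936016) (nat_lit 456) (nat_lit 108026784578) (nat_lit 131) (nat_lit 5) (nat_lit 136) (nat_lit 5) (nat_lit 137) (nat_lit 5) (nat_lit 478) (nat_lit 464) (nat_lit 258))) (XT.nd (nat_lit 78) (nat_lit 380) (nat_lit 0) (XT.lf (nat_lit 0) (nat_lit 40271268734) (nat_lit 456) (nat_lit 56684895182) (nat_lit 76) (nat_lit 38996693335) (nat_lit 131) (nat_lit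 5) (nat_lit 137) (nat_lit 5) (nat_lit 132) (nat_lit 5) (nat_lit 479) (nat_lit 464) (nat_lit 257)) (XT.lf (nat_lit 0) (nat_lit 18818600661) (nat_lit 380) (nat_lit 38860382214) (nat_lit 456) (nat_lit 82061314804) (nat_lit 126) (nat_lit 5) (nat_lit 131) (nat_lit 5) (nat_lit 132) (nat_lit 5) (nat_lit 480) (nat_lit 464) (nat_lit 256))))) (XT.nd (nat_lit 312) (nat_lit 684) (nat_lit 0) (XT.nd (nat_lit 156) (nat_lit 304) (nat_lit 0) (XT.nd (nat_lit 78) (nat_lit 304) (nat_lit 0) (XT.lf (nat_lit 0) (nat_lit 77278217153) (nat_lit 456) (nat_lit 43965567752) (nat_lit 76) (nat_lit 22407268535) (nat_lit 126) (nat_lit 5) (nat_lit 132) (nat_lit 5) (nat_lit 127) (nat_lit 5) (nat_lit 481) (nat_lit 464) (nat_lit 255)) (XT.lf (nat_lit 0) (nat_lit 37398004198) (nat_lit 304) (nat_lit 61680104838) (nat_lit 380) (nat_lit 48618203192) (nat_lit 122) (nat_lit 5) (nat_lit 126) (nat_lit 5) (nat_lit 127) (nat_lit 5) (nat_lit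 482) (nat_lit 464) (nat_lit 254))) (XT.nd (nat_lit 78) (nat_lit 304) (nat_lit 0) (XT.lf (nat_lit 0) (nat_lit 122737994119) (nat_lit 380) (nat_lit 27576410766) (nat_lit 76) (nat_lit 1590929171) (nat_lit 122) (nat_lit 5) (nat_lit 127) (nat_lit 5) (nat_lit 123) (nat_lit 5) (nat_lit 483) (nat_lit 464) (nat_lit 253)) (XT.lf (nat_lit 0) (nat_lit 60196835316) (nat_lit 304) (nat_lit 89334799906) (nat_lit 380) (nat_lit 6695633694) (nat_lit 118) (nat_lit 5) (nat_lit 122) (nat_lit 5) (nat_lit 123) (nat_lit 5) (nat_lit 484) (nat_lit 464) (nat_lit 252)))) (XT.nd (nat_lit 156) (nat_lit 304) (nat_lit 0) (XT.nd (nat_lit 78) (nat_lit 304) (nat_lit 0) (XT.lf (nat_lit 0) (nat_lit 16833213453) (nat_lit 380) (nat_lit 7697596761) (nat_lit 76) (nat_lit 136197575273) (nat_lit 117) (nat_lit 5) (nat_lit 122) (nat_lit 5) (nat_lit 118) (nat_lit 5) (nat_lit 485) (nat_lit 464) (nat_lit 251)) (XT.lf (nat_lit 0) (nat_lit 43386924698)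 (nat_lit 380) (nat_lit 78333785621) (nat_lit 76) (nat_lit 43624687420) (nat_lit 113) (nat_lit 5) (nat_lit 118) (nat_lit 5) (nat_lit 114) (nat_lit 5) (nat_lit 486) (nat_lit 464) (nat_lit 250))) (XT.nd (nat_lit 78) (nat_lit 0) (nat_lit 0) (XT.lf (nat_lit 0) (nat_lit 16665638142) (nat_lit 304) (nat_lit 55397315201) (nat_lit 380) (nat_lit 98090575695) (nat_lit 109) (nat_lit 5) (nat_lit 113) (nat_lit 5) (nat_lit 114) (nat_lit 5) (nat_lit 487) (nat_lit 464) (nat_lit 249)) (XT.lf (nat_lit 0) (nat_lit 103743308724) (nat_lit 380) (nat_lit 56245511891) (nat_lit 76) (nat_lit 15134720044) (nat_lit 109) (nat_lit 5) (nat_lit 114) (nat_lit 5) (nat_lit 110) (nat_lit 5) (nat_lit 488) (nat_lit 464) (nat_lit 248)))))) (XT.nd (nat_lit 624) (nat_lit 988) (nat_lit 0) (XT.nd (nat_lit 312) (nat_lit 456) (nat_lit 0) (XT.nd (nat_lit 156) (nat_lit 532) (nat_lit 0) (XT.nd (nat_lit 78) (nat_lit 0) (nat_lit 0) (XT.lf (nat_lit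 0) (nat_lit 46436843341) (nat_lit 228) (nat_lit 92203805676) (nat_lit 304) (nat_lit 41619755509) (nat_lit 106) (nat_lit 5) (nat_lit 109) (nat_lit 5) (nat_lit 110) (nat_lit 5) (nat_lit 489) (nat_lit 464) (nat_lit 247)) (XT.lf (nat_lit 0) (nat_lit 156205778674) (nat_lit 228) (nat_lit 20029433082) (nat_lit 304) (nat_lit 9371282081) (nat_lit 106) (nat_lit 5) (nat_lit 109) (nat_lit 5) (nat_lit 110) (nat_lit 5) (nat_lit 490) (nat_lit 464) (nat_lit 246))) (XT.nd (nat_lit 78) (nat_lit 228) (nat_lit 0) (XT.lf (nat_lit 0) (nat_lit 25891540164) (nat_lit 304) (nat_lit 109533001979) (nat_lit 76) (nat_lit 55666940624) (nat_lit 102) (nat_lit 5) (nat_lit 106) (nat_lit 5) (nat_lit 103) (nat_lit 5) (nat_lit 491) (nat_lit 464) (nat_lit 245)) (XT.lf (nat_lit 0) (nat_lit 1828672375) (nat_lit 228) (nat_lit 61636694963) (nat_lit 304) (nat_lit 133334532427) (nat_lit 99) (nat_lit 5) (nat_lit 102) (nat_lit 5) (nat_lit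 103) (nat_lit 5) (nat_lit 492) (nat_lit 464) (nat_lit 244)))) (XT.nd (nat_lit 156) (nat_lit 228) (nat_lit 0) (XT.nd (nat_lit 78) (nat_lit 228) (nat_lit 0) (XT.lf (nat_lit 0) (nat_lit 105050429219) (nat_lit 304) (nat_lit 80417800207) (nat_lit 76) (nat_lit 17218881038) (nat_lit 99) (nat_lit 5) (nat_lit 103) (nat_lit 5) (nat_lit 100) (nat_lit 5) (nat_lit 493) (nat_lit 464) (nat_lit 243)) (XT.lf (nat_lit 0) (nat_lit 40137259666) (nat_lit 228) (nat_lit 110214409563) (nat_lit 304) (nat_lit 58435166234) (nat_lit 96) (nat_lit 5) (nat_lit 99) (nat_lit 5) (nat_lit 100) (nat_lit 5) (nat_lit 494) (nat_lit 464) (nat_lit 242))) (XT.nd (nat_lit 78) (nat_lit 228) (nat_lit 0) (XT.lf (nat_lit 0) (nat_lit 169511756888) (nat_lit 228) (nat_lit 29767965252) (nat_lit 304) (nat_lit 15843737042) (nat_lit 96) (nat_lit 5) (nat_lit 99) (nat_lit 5) (nat_lit 100) (nat_lit 5) (nat_lit 495) (nat_lit 464) (nat_lit 241)) (XT.lf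 (nat_lit 0) (nat_lit 30177012593) (nat_lit 228) (nat_lit 136695214494) (nat_lit 76) (nat_lit 54770944176) (nat_lit 93) (nat_lit 5) (nat_lit 96) (nat_lit 5) (nat_lit 94) (nat_lit 5) (nat_lit 496) (nat_lit 464) (nat_lit 240))))) (XT.nd (nat_lit 312) (nat_lit 532) (nat_lit 0) (XT.nd (nat_lit 156) (nat_lit 228) (nat_lit 0) (XT.nd (nat_lit 78) (nat_lit 228) (nat_lit 0) (XT.lf (nat_lit 0) (nat_lit 79239309666) (nat_lit 228) (nat_lit 5591744748) (nat_lit 76) (nat_lit 143581179707) (nat_lit 93) (nat_lit 5) (nat_lit 96) (nat_lit 5) (nat_lit 94) (nat_lit 5) (nat_lit 497) (nat_lit 464) (nat_lit 239)) (XT.lf (nat_lit 0) (nat_lit 132940086495) (nat_lit 304) (nat_lit 99035263776) (nat_lit 76) (nat_lit 3435131619) (nat_lit 90) (nat_lit 5) (nat_lit 94) (nat_lit 5) (nat_lit 91) (nat_lit 5) (nat_lit 498) (nat_lit 464) (nat_lit 238))) (XT.nd (nat_lit 78) (nat_lit 76) (nat_lit 0) (XT.lf (nat_lit 0) (nat_lit 42860092126)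 (nat_lit 152) (nat_lit 148621754863) (nat_lit 228) (nat_lit 51168997828) (nat_lit 88) (nat_lit 5) (nat_lit 90) (nat_lit 5) (nat_lit 91) (nat_lit 5) (nat_lit 499) (nat_lit 464) (nat_lit 237)) (XT.lf (nat_lit 0) (nat_lit 4315694502) (nat_lit 228) (nat_lit 54950708051) (nat_lit 76) (nat_lit 190899489559) (nat_lit 87) (nat_lit 5) (nat_lit 90) (nat_lit 5) (nat_lit 88) (nat_lit 5) (nat_lit 500) (nat_lit 464) (nat_lit 236)))) (XT.nd (nat_lit 156) (nat_lit 304) (nat_lit 0) (XT.nd (nat_lit 78) (nat_lit 0) (nat_lit 0) (XT.lf (nat_lit 0) (nat_lit 62986709279) (nat_lit 304) (nat_lit 159039697253) (nat_lit 76) (nat_lit 35881758364) (nat_lit 84) (nat_lit 5) (nat_lit 88) (nat_lit 5) (nat_lit 85) (nat_lit 5) (nat_lit 501) (nat_lit 464) (nat_lit 235)) (XT.lf (nat_lit 0) (nat_lit 126508592255) (nat_lit 304) (nat_lit 4691710216) (nat_lit 76) (nat_lit 134741382985) (nat_lit 84) (nat_lit 5) (nat_lit 88) (nat_lit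 5) (nat_lit 85) (nat_lit 5) (nat_lit 502) (nat_lit 464) (nat_lit 234))) (XT.nd (nat_lit 78) (nat_lit 152) (nat_lit 0) (XT.lf (nat_lit 0) (nat_lit 162576944193) (nat_lit 152) (nat_lit 33167777616) (nat_lit 228) (nat_lit 78505252624) (nat_lit 82) (nat_lit 5) (nat_lit 84) (nat_lit 5) (nat_lit 85) (nat_lit 5) (nat_lit 503) (nat_lit 464) (nat_lit 233)) (XT.lf (nat_lit 0) (nat_lit 56107231284) (nat_lit 152) (nat_lit 214381297637) (nat_lit 228) (nat_lit 12382855392) (nat_lit 80) (nat_lit 5) (nat_lit 82) (nat_lit 5) (nat_lit 83) (nat_lit 5) (nat_lit 504) (nat_lit 464) (nat_lit 232))))))) (XT.nd (nat_lit 1170) (nat_lit 1216) (nat_lit 0) (XT.nd (nat_lit 546) (nat_lit 684) (nat_lit 0) (XT.nd (nat_lit 234) (nat_lit 380) (nat_lit 0) (XT.nd (nat_lit 78) (nat_lit 304) (nat_lit 0) (XT.lf (nat_lit 0) (nat_lit 57685692194) (nat_lit 228) (nat_lit 57141354111) (nat_lit 76) (nat_lit 176928993862) (nat_lit 79) (nat_lit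 5) (nat_lit 82) (nat_lit 5) (nat_lit 80) (nat_lit 5) (nat_lit 505) (nat_lit 464) (nat_lit 231)) (XT.nd (nat_lit 78) (nat_lit 152) (nat_lit 0) (XT.lf (nat_lit 0) (nat_lit 124752235857) (nat_lit 152) (nat_lit 8036897402) (nat_lit 228) (nat_lit 168188265120) (nat_lit 77) (nat_lit 5) (nat_lit 79) (nat_lit 5) (nat_lit 80) (nat_lit 5) (nat_lit 506) (nat_lit 464) (nat_lit 230)) (XT.lf (nat_lit 0) (nat_lit 5652555304) (nat_lit 152) (nat_lit 208692084288) (nat_lit 228) (nat_lit 96180340255) (nat_lit 75) (nat_lit 5) (nat_lit 77) (nat_lit 5) (nat_lit 78) (nat_lit 5) (nat_lit 507) (nat_lit 464) (nat_lit 229)))) (XT.nd (nat_lit 156) (nat_lit 152) (nat_lit 0) (XT.nd (nat_lit 78) (nat_lit 228) (nat_lit 0) (XT.lf (nat_lit 0) (nat_lit 202605989964) (nat_lit 152) (nat_lit 100485900229) (nat_lit 228) (nat_lit 17302351756) (nat_lit 75) (nat_lit 5) (nat_lit 77) (nat_lit 5) (nat_lit 78) (nat_lit 5) (nat_lit 508) (nat_lit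 464) (nat_lit 228)) (XT.lf (nat_lit 0) (nat_lit 64916736023) (nat_lit 228) (nat_lit 250691831983) (nat_lit 76) (nat_lit 15022540267) (nat_lit 72) (nat_lit 5) (nat_lit 75) (nat_lit 5) (nat_lit 73) (nat_lit 5) (nat_lit 509) (nat_lit 464) (nat_lit 227))) (XT.nd (nat_lit 78) (nat_lit 152) (nat_lit 0) (XT.lf (nat_lit 0) (nat_lit 154340006307) (nat_lit 228) (nat_lit 51601406753) (nat_lit 76) (nat_lit 135240487577) (nat_lit 72) (nat_lit 5) (nat_lit 75) (nat_lit 5) (nat_lit 73) (nat_lit 5) (nat_lit 510) (nat_lit 464) (nat_lit 226)) (XT.lf (nat_lit 0) (nat_lit 162649141948) (nat_lit 152) (nat_lit 88124600470) (nat_lit 228) (nat_lit 101359525089) (nat_lit 70) (nat_lit 5) (nat_lit 72) (nat_lit 5) (nat_lit 73) (nat_lit 5) (nat_lit 511) (nat_lit 464) (nat_lit 225))))) (XT.nd (nat_lit 312) (nat_lit 380) (nat_lit 0) (XT.nd (nat_lit 156) (nat_lit 152) (nat_lit 0) (XT.nd (nat_lit 78) (nat_lit 76) (nat_lit 0)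 (XT.lf (nat_lit 0) (nat_lit 26079848023) (nat_lit 76) (nat_lit 327800163313) (nat_lit 152) (nat_lit 9659649091) (nat_lit 69) (nat_lit 5) (nat_lit 70) (nat_lit 5) (nat_lit 71) (nat_lit 4) (nat_lit 512) (nat_lit 464) (nat_lit 224)) (XT.lf (nat_lit 0) (nat_lit 88558845065) (nat_lit 152) (nat_lit 119205363713) (nat_lit 76) (nat_lit 167449232476) (nat_lit 68) (nat_lit 5) (nat_lit 70) (nat_lit 5) (nat_lit 69) (nat_lit 5) (nat_lit 513) (nat_lit 464) (nat_lit 223))) (XT.nd (nat_lit 78) (nat_lit 0) (nat_lit 0) (XT.lf (nat_lit 0) (nat_lit 113433866004) (nat_lit 152) (nat_lit 79700690757) (nat_lit 228) (nat_lit 194239890603) (nat_lit 66) (nat_lit 5) (nat_lit 68) (nat_lit 5) (nat_lit 69) (nat_lit 5) (nat_lit 514) (nat_lit 464) (nat_lit 222)) (XT.lf (nat_lit 0) (nat_lit 305845901090) (nat_lit 228) (nat_lit 39087290817) (nat_lit 76) (nat_lit 55064969525) (nat_lit 66) (nat_lit 5) (nat_lit 69) (nat_lit 5) (nat_lit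 67) (nat_lit 4) (nat_lit 515) (nat_lit 464) (nat_lit 221)))) (XT.nd (nat_lit 156) (nat_lit 76) (nat_lit 0) (XT.nd (nat_lit 78) (nat_lit 152) (nat_lit 0) (XT.lf (nat_lit 0) (nat_lit 15297862171) (nat_lit 152) (nat_lit 200248293823) (nat_lit 76) (nat_lit 197462952647) (nat_lit 64) (nat_lit 5) (nat_lit 66) (nat_lit 5) (nat_lit 65) (nat_lit 5) (nat_lit 516) (nat_lit 464) (nat_lit 220)) (XT.lf (nat_lit 0) (nat_lit 52031679000) (nat_lit 152) (nat_lit 76509758559) (nat_lit 228) (nat_lit 297977737669) (nat_lit 62) (nat_lit 5) (nat_lit 64) (nat_lit 5) (nat_lit 65) (nat_lit 5) (nat_lit 517) (nat_lit 464) (nat_lit 219))) (XT.nd (nat_lit 78) (nat_lit 76) (nat_lit 0) (XT.lf (nat_lit 0) (nat_lit 251978748440) (nat_lit 228) (nat_lit 117797881506) (nat_lit 76) (nat_lit 70701537366) (nat_lit 62) (nat_lit 5) (nat_lit 65) (nat_lit 5) (nat_lit 63) (nat_lit 4) (nat_lit 518) (nat_lit 464) (nat_lit 218)) (XT.lf (nat_lit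 0) (nat_lit 155447068855) (nat_lit 76) (nat_lit 229821989596) (nat_lit 152) (nat_lit 69681993874) (nat_lit 61) (nat_lit 5) (nat_lit 62) (nat_lit 5) (nat_lit 63) (nat_lit 4) (nat_lit 519) (nat_lit 464) (nat_lit 217)))))) (XT.nd (nat_lit 624) (nat_lit 456) (nat_lit 0) (XT.nd (nat_lit 312) (nat_lit 456) (nat_lit 0) (XT.nd (nat_lit 156) (nat_lit 76) (nat_lit 0) (XT.nd (nat_lit 78) (nat_lit 152) (nat_lit 0) (XT.lf (nat_lit 0) (nat_lit 55341096348) (nat_lit 152) (nat_lit 24496654008) (nat_lit 76) (nat_lit 390165457483) (nat_lit 60) (nat_lit 5) (nat_lit 62) (nat_lit 5) (nat_lit 61) (nat_lit 5) (nat_lit 520) (nat_lit 464) (nat_lit 216)) (XT.lf (nat_lit 0) (nat_lit 189817896086) (nat_lit 228) (nat_lit 215020784698) (nat_lit 76) (nat_lit 80634957614) (nat_lit 58) (nat_lit 5) (nat_lit 61) (nat_lit 5) (nat_lit 59) (nat_lit 4) (nat_lit 521) (nat_lit 464) (nat_lit 215))) (XT.nd (nat_lit 78) (nat_lit 0) (nat_lit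 0) (XT.lf (nat_lit 0) (nat_lit 80566309638) (nat_lit 76) (nat_lit 253440487261) (nat_lit 152) (nat_lit 167561380533) (nat_lit 57) (nat_lit 5) (nat_lit 58) (nat_lit 5) (nat_lit 59) (nat_lit 4) (nat_lit 522) (nat_lit 464) (nat_lit 214)) (XT.lf (nat_lit 0) (nat_lit 398397640569) (nat_lit 76) (nat_lit 90648900725) (nat_lit 152) (nat_lit 29238832201) (nat_lit 57) (nat_lit 5) (nat_lit 58) (nat_lit 5) (nat_lit 59) (nat_lit 4) (nat_lit 523) (nat_lit 464) (nat_lit 213)))) (XT.nd (nat_lit 156) (nat_lit 228) (nat_lit 0) (XT.nd (nat_lit 78) (nat_lit 0) (nat_lit 0) (XT.lf (nat_lit 0) (nat_lit 116758211364) (nat_lit 228) (nat_lit 336024625993) (nat_lit 76) (nat_lit 82741483511) (nat_lit 54) (nat_lit 5) (nat_lit 57) (nat_lit 5) (nat_lit 55) (nat_lit 4) (nat_lit 524) (nat_lit 464) (nat_lit 212)) (XT.lf (nat_lit 0) (nat_lit 272622100051) (nat_lit 228) (nat_lit 16503779508) (nat_lit 76) (nat_lit 264297889326)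 (nat_lit 54) (nat_lit 5) (nat_lit 57) (nat_lit 5) (nat_lit 55) (nat_lit 4) (nat_lit 525) (nat_lit 464) (nat_lit 211))) (XT.nd (nat_lit 78) (nat_lit 152) (nat_lit 0) (XT.lf (nat_lit 0) (nat_lit 329540314558) (nat_lit 76) (nat_lit 111883840821) (nat_lit 152) (nat_lit 130536785316) (nat_lit 53) (nat_lit 5) (nat_lit 54) (nat_lit 5) (nat_lit 55) (nat_lit 4) (nat_lit 526) (nat_lit 464) (nat_lit 210)) (XT.lf (nat_lit 0) (nat_lit 29489748461) (nat_lit 152) (nat_lit 487526318169) (nat_lit 76) (nat_lit 74231623823) (nat_lit 51) (nat_lit 5) (nat_lit 53) (nat_lit 5) (nat_lit 52) (nat_lit 4) (nat_lit 527) (nat_lit 464) (nat_lit 209))))) (XT.nd (nat_lit 312) (nat_lit 228) (nat_lit 0) (XT.nd (nat_lit 156) (nat_lit 152) (nat_lit 0) (XT.nd (nat_lit 78) (nat_lit 76) (nat_lit 0) (XT.lf (nat_lit 0) (nat_lit 199137617248) (nat_lit 152) (nat_lit 139748290260) (nat_lit 76) (nat_lit 272205527815) (nat_lit 51) (nat_lit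 5) (nat_lit 53) (nat_lit 5) (nat_lit 52) (nat_lit 4) (nat_lit 528) (nat_lit 464) (nat_lit 208)) (XT.lf (nat_lit 0) (nat_lit 232871856204) (nat_lit 76) (nat_lit 148031734048) (nat_lit 152) (nat_lit 250841991648) (nat_lit 50) (nat_lit 5) (nat_lit 51) (nat_lit 5) (nat_lit 52) (nat_lit 4) (nat_lit 529) (nat_lit 464) (nat_lit 207))) (XT.nd (nat_lit 78) (nat_lit 152) (nat_lit 0) (XT.lf (nat_lit 0) (nat_lit 574980860767) (nat_lit 152) (nat_lit 25195847505) (nat_lit 0) (nat_lit 53094577592) (nat_lit 50) (nat_lit 5) (nat_lit 52) (nat_lit 4) (nat_lit 50) (nat_lit 4) (nat_lit 530) (nat_lit 464) (nat_lit 206)) (XT.lf (nat_lit 0) (nat_lit 108041430377) (nat_lit 152) (nat_lit 300401435724) (nat_lit 76) (nat_lit 266927800255) (nat_lit 48) (nat_lit 5) (nat_lit 50) (nat_lit 5) (nat_lit 49) (nat_lit 4) (nat_lit 531) (nat_lit 464) (nat_lit 205)))) (XT.nd (nat_lit 156) (nat_lit 152) (nat_lit 0) (XT.nd (nat_lit 78)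 (nat_lit 0) (nat_lit 0) (XT.lf (nat_lit 0) (nat_lit 99352965065) (nat_lit 76) (nat_lit 203690651445) (nat_lit 152) (nat_lit 395367986406) (nat_lit 47) (nat_lit 5) (nat_lit 48) (nat_lit 5) (nat_lit 49) (nat_lit 4) (nat_lit 532) (nat_lit 464) (nat_lit 204)) (XT.lf (nat_lit 0) (nat_lit 513143100673) (nat_lit 152) (nat_lit 193085811926) (nat_lit 0) (nat_lit 16108314272) (nat_lit 47) (nat_lit 5) (nat_lit 49) (nat_lit 4) (nat_lit 47) (nat_lit 4) (nat_lit 533) (nat_lit 464) (nat_lit 203))) (XT.nd (nat_lit 78) (nat_lit 76) (nat_lit 0) (XT.lf (nat_lit 0) (nat_lit 237446097789) (nat_lit 76) (nat_lit 503347787065) (nat_lit 76) (nat_lit 6312930879) (nat_lit 46) (nat_lit 4) (nat_lit 47) (nat_lit 5) (nat_lit 47) (nat_lit 4) (nat_lit 534) (nat_lit 464) (nat_lit 202)) (XT.lf (nat_lit 0) (nat_lit 203419783011) (nat_lit 152) (nat_lit 80024367474) (nat_lit 76) (nat_lit 489343188416) (nat_lit 45) (nat_lit 5) (nat_lit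 47) (nat_lit 5) (nat_lit 46) (nat_lit 4) (nat_lit 535) (nat_lit 464) (nat_lit 201))))))))
noncomputable def xc215 : XT := (XT.nd (nat_lit 58734) (nat_lit 0) (nat_lit 1824) (XT.nd (nat_lit 57486) (nat_lit 0) (nat_lit 5700) (XT.nd (nat_lit 546) (nat_lit 76) (nat_lit 0) (XT.nd (nat_lit 234) (nat_lit 228) (nat_lit 0) (XT.nd (nat_lit 78) (nat_lit 152) (nat_lit 0) (XT.lf (nat_lit 0) (nat_lit 383256802321) (nat_lit 76) (nat_lit 46153826100) (nat_lit 152) (nat_lit 370036902687) (nat_lit 44) (nat_lit 5) (nat_lit 45) (nat_lit 5) (nat_lit 46) (nat_lit 4) (nat_lit 536) (nat_lit 464) (nat_lit 200)) (XT.nd (nat_lit 78) (nat_lit 76) (nat_lit 0) (XT.lf (nat_lit 0) (nat_lit 43301492916) (nat_lit 76) (nat_lit 628622403349) (nat_lit 76) (nat_lit 155255692656) (nat_lit 43) (nat_lit 4) (nat_lit 44) (nat_lit 5) (nat_lit 44) (nat_lit 4) (nat_lit 537) (nat_lit 464) (nat_lit 199)) (XT.lf (nat_lit 0) (nat_lit 75936170675)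 (nat_lit 152) (nat_lit 317697615485) (nat_lit 76) (nat_lit 462213587208) (nat_lit 42) (nat_lit 5) (nat_lit 44) (nat_lit 5) (nat_lit 43) (nat_lit 4) (nat_lit 538) (nat_lit 464) (nat_lit 198)))) (XT.nd (nat_lit 156) (nat_lit 152) (nat_lit 0) (XT.nd (nat_lit 78) (nat_lit 0) (nat_lit 0) (XT.lf (nat_lit 0) (nat_lit 174842657407) (nat_lit 76) (nat_lit 141357086423) (nat_lit 152) (nat_lit 569485058147) (nat_lit 41) (nat_lit 5) (nat_lit 42) (nat_lit 5) (nat_lit 43) (nat_lit 4) (nat_lit 539) (nat_lit 464) (nat_lit 197)) (XT.lf (nat_lit 0) (nat_lit 575873706770) (nat_lit 152) (nat_lit 215722415577) (nat_lit 0) (nat_lit 125048119112) (nat_lit 41) (nat_lit 5) (nat_lit 43) (nat_lit 4) (nat_lit 41) (nat_lit 4) (nat_lit 540) (nat_lit 464) (nat_lit 196))) (XT.nd (nat_lit 78) (nat_lit 76) (nat_lit 0) (XT.lf (nat_lit 0) (nat_lit 311815919250) (nat_lit 76) (nat_lit 543901043288) (nat_lit 76) (nat_lit 93075410646)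 (nat_lit 40) (nat_lit 4) (nat_lit 41) (nat_lit 5) (nat_lit 41) (nat_lit 4) (nat_lit 541) (nat_lit 464) (nat_lit 195)) (XT.lf (nat_lit 0) (nat_lit 165372483407) (nat_lit 152) (nat_lit 111812084498) (nat_lit 76) (nat_lit 705047313210) (nat_lit 39) (nat_lit 5) (nat_lit 41) (nat_lit 5) (nat_lit 40) (nat_lit 4) (nat_lit 542) (nat_lit 464) (nat_lit 194))))) (XT.nd (nat_lit 56628) (nat_lit 0) (nat_lit 8360) (XT.nd (nat_lit 56472) (nat_lit 0) (nat_lit 8284) (XT.nd (nat_lit 56394) (nat_lit 0) (nat_lit 8284) (XT.lf (nat_lit 0) (nat_lit 440866276159) (nat_lit 152) (nat_lit 564529773434) (nat_lit 0) (nat_lit 11508451125) (nat_lit 38) (nat_lit 5) (nat_lit 40) (nat_lit 4) (nat_lit 38) (nat_lit 4) (nat_lit 543) (nat_lit 464) (nat_lit 193)) (XT.lf (nat_lit 0) (nat_lit 20080893246) (nat_lit 836) (nat_lit 14158983029) (nat_lit 836) (nat_lit 14158983029) (nat_lit 147) (nat_lit 3) (nat_lit 158) (nat_lit 3) (nat_lit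 158) (nat_lit 5) (nat_lit 465) (nat_lit 465) (nat_lit 270))) (XT.nd (nat_lit 78) (nat_lit 0) (nat_lit 76) (XT.lf (nat_lit 76) (nat_lit 20339846905) (nat_lit 0) (nat_lit 21150407428) (nat_lit 836) (nat_lit 57711185021) (nat_lit 148) (nat_lit 5) (nat_lit 147) (nat_lit 3) (nat_lit 158) (nat_lit 5) (nat_lit 466) (nat_lit 465) (nat_lit 269)) (XT.lf (nat_lit 0) (nat_lit 43817820011) (nat_lit 760) (nat_lit 29741480219) (nat_lit 836) (nat_lit 28119412252) (nat_lit 148) (nat_lit 5) (nat_lit 158) (nat_lit 5) (nat_lit 159) (nat_lit 5) (nat_lit 467) (nat_lit 465) (nat_lit 268)))) (XT.nd (nat_lit 156) (nat_lit 0) (nat_lit 76) (XT.nd (nat_lit 78) (nat_lit 0) (nat_lit 76) (XT.lf (nat_lit 76) (nat_lit 22198137569) (nat_lit 0) (nat_lit 24756510747) (nat_lit 836) (nat_lit 57290556799) (nat_lit 149) (nat_lit 5) (nat_lit 148) (nat_lit 5) (nat_lit 159) (nat_lit 5) (nat_lit 468) (nat_lit 465) (nat_lit 267)) (XT.lf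 (nat_lit 0) (nat_lit 51173388495) (nat_lit 760) (nat_lit 29569598819) (nat_lit 836) (nat_lit 26150781603) (nat_lit 149) (nat_lit 5) (nat_lit 159) (nat_lit 5) (nat_lit 160) (nat_lit 5) (nat_lit 469) (nat_lit 465) (nat_lit 266))) (XT.nd (nat_lit 78) (nat_lit 0) (nat_lit 76) (XT.lf (nat_lit 76) (nat_lit 25956409273) (nat_lit 0) (nat_lit 30457371929) (nat_lit 836) (nat_lit 53220443989) (nat_lit 150) (nat_lit 5) (nat_lit 149) (nat_lit 5) (nat_lit 160) (nat_lit 5) (nat_lit 470) (nat_lit 465) (nat_lit 265)) (XT.lf (nat_lit 0) (nat_lit 62773642646) (nat_lit 760) (nat_lit 27558669765) (nat_lit 836) (nat_lit 22136519470) (nat_lit 150) (nat_lit 5) (nat_lit 160) (nat_lit 5) (nat_lit 161) (nat_lit 5) (nat_lit 471) (nat_lit 465) (nat_lit 264)))))) (XT.nd (nat_lit 624) (nat_lit 1368) (nat_lit 0) (XT.nd (nat_lit 312) (nat_lit 1444) (nat_lit 0) (XT.nd (nat_lit 156) (nat_lit 0) (nat_lit 76) (XT.nd (nat_lit 78)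 (nat_lit 0) (nat_lit 76) (XT.lf (nat_lit 76) (nat_lit 31887470840) (nat_lit 0) (nat_lit 38560832458) (nat_lit 836) (nat_lit 44947025353) (nat_lit 151) (nat_lit 5) (nat_lit 150) (nat_lit 5) (nat_lit 161) (nat_lit 5) (nat_lit 472) (nat_lit 465) (nat_lit 263)) (XT.lf (nat_lit 0) (nat_lit 79227403642) (nat_lit 760) (nat_lit 23436716039) (nat_lit 836) (nat_lit 15767995297) (nat_lit 151) (nat_lit 5) (nat_lit 161) (nat_lit 5) (nat_lit 162) (nat_lit 5) (nat_lit 473) (nat_lit 465) (nat_lit 262))) (XT.nd (nat_lit 78) (nat_lit 0) (nat_lit 76) (XT.lf (nat_lit 76) (nat_lit 40295277855) (nat_lit 0) (nat_lit 49411130050) (nat_lit 836) (nat_lit 31851285320) (nat_lit 152) (nat_lit 5) (nat_lit 151) (nat_lit 5) (nat_lit 162) (nat_lit 5) (nat_lit 474) (nat_lit 465) (nat_lit 261)) (XT.lf (nat_lit 0) (nat_lit 101214028703) (nat_lit 760) (nat_lit 16900496534) (nat_lit 76) (nat_lit 6699791876) (nat_lit 152) (nat_lit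 5) (nat_lit 162) (nat_lit 5) (nat_lit 153) (nat_lit 5) (nat_lit 475) (nat_lit 465) (nat_lit 260)))) (XT.nd (nat_lit 156) (nat_lit 836) (nat_lit 0) (XT.nd (nat_lit 78) (nat_lit 0) (nat_lit 0) (XT.lf (nat_lit 0) (nat_lit 51518142304) (nat_lit 760) (nat_lit 63392957746) (nat_lit 836) (nat_lit 13241968714) (nat_lit 142) (nat_lit 5) (nat_lit 152) (nat_lit 5) (nat_lit 153) (nat_lit 5) (nat_lit 476) (nat_lit 465) (nat_lit 259)) (XT.lf (nat_lit 0) (nat_lit 123944204648) (nat_lit 760) (nat_lit 5634756704) (nat_lit 836) (nat_lit 2065499868) (nat_lit 142) (nat_lit 5) (nat_lit 152) (nat_lit 5) (nat_lit 153) (nat_lit 5) (nat_lit 477) (nat_lit 465) (nat_lit 258))) (XT.nd (nat_lit 78) (nat_lit 380) (nat_lit 0) (XT.lf (nat_lit 0) (nat_lit 11279250209) (nat_lit 456) (nat_lit 69465694668) (nat_lit 76) (nat_lit 54461982256) (nat_lit 136) (nat_lit 5) (nat_lit 142) (nat_lit 5) (nat_lit 137) (nat_lit 5) (nat_lit 478)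 (nat_lit 465) (nat_lit 257)) (XT.lf (nat_lit 0) (nat_lit 4186496208) (nat_lit 380) (nat_lit 21325345269) (nat_lit 456) (nat_lit 113419480965) (nat_lit 131) (nat_lit 5) (nat_lit 136) (nat_lit 5) (nat_lit 137) (nat_lit 5) (nat_lit 479) (nat_lit 465) (nat_lit 256))))) (XT.nd (nat_lit 312) (nat_lit 684) (nat_lit 0) (XT.nd (nat_lit 156) (nat_lit 304) (nat_lit 0) (XT.nd (nat_lit 78) (nat_lit 380) (nat_lit 0) (XT.lf (nat_lit 0) (nat_lit 42292671780) (nat_lit 456) (nat_lit 59510826586) (nat_lit 76) (nat_lit 40946608712) (nat_lit 131) (nat_lit 5) (nat_lit 137) (nat_lit 5) (nat_lit 132) (nat_lit 5) (nat_lit 480) (nat_lit 465) (nat_lit 255)) (XT.lf (nat_lit 0) (nat_lit 19767709963) (nat_lit 380) (nat_lit 40802816051) (nat_lit 456) (nat_lit 86156405844) (nat_lit 126) (nat_lit 5) (nat_lit 131) (nat_lit 5) (nat_lit 132) (nat_lit 5) (nat_lit 481) (nat_lit 465) (nat_lit 254))) (XT.nd (nat_lit 78) (nat_lit 304)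 (nat_lit 0) (XT.lf (nat_lit 0) (nat_lit 81149369090) (nat_lit 456) (nat_lit 46155702487) (nat_lit 76) (nat_lit 23528171524) (nat_lit 126) (nat_lit 5) (nat_lit 132) (nat_lit 5) (nat_lit 127) (nat_lit 5) (nat_lit 482) (nat_lit 465) (nat_lit 253)) (XT.lf (nat_lit 0) (nat_lit 39275916712) (nat_lit 304) (nat_lit 64763119136) (nat_lit 380) (nat_lit 51041740012) (nat_lit 122) (nat_lit 5) (nat_lit 126) (nat_lit 5) (nat_lit 127) (nat_lit 5) (nat_lit 483) (nat_lit 465) (nat_lit 252)))) (XT.nd (nat_lit 156) (nat_lit 380) (nat_lit 0) (XT.nd (nat_lit 78) (nat_lit 304) (nat_lit 0) (XT.lf (nat_lit 0) (nat_lit 128881595570) (nat_lit 380) (nat_lit 28947280055) (nat_lit 76) (nat_lit 1671389179) (nat_lit 122) (nat_lit 5) (nat_lit 127) (nat_lit 5) (nat_lit 123) (nat_lit 5) (nat_lit 484) (nat_lit 465) (nat_lit 251)) (XT.lf (nat_lit 0) (nat_lit 63214500085) (nat_lit 304) (nat_lit 93800221651) (nat_lit 380) (nat_lit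 7023584562) (nat_lit 118) (nat_lit 5) (nat_lit 122) (nat_lit 5) (nat_lit 123) (nat_lit 5) (nat_lit 485) (nat_lit 465) (nat_lit 250))) (XT.nd (nat_lit 78) (nat_lit 304) (nat_lit 0) (XT.lf (nat_lit 0) (nat_lit 17681171448) (nat_lit 380) (nat_lit 8074817152) (nat_lit 76) (nat_lit 143008500545) (nat_lit 117) (nat_lit 5) (nat_lit 122) (nat_lit 5) (nat_lit 118) (nat_lit 5) (nat_lit 486) (nat_lit 465) (nat_lit 249)) (XT.lf (nat_lit 0) (nat_lit 45562408222) (nat_lit 380) (nat_lit 82242654708) (nat_lit 76) (nat_lit 45807297118) (nat_lit 113) (nat_lit 5) (nat_lit 118) (nat_lit 5) (nat_lit 114) (nat_lit 5) (nat_lit 487) (nat_lit 465) (nat_lit 248))))))) (XT.nd (nat_lit 1248) (nat_lit 1672) (nat_lit 0) (XT.nd (nat_lit 624) (nat_lit 912) (nat_lit 0) (XT.nd (nat_lit 312) (nat_lit 760) (nat_lit 0) (XT.nd (nat_lit 156) (nat_lit 228) (nat_lit 0) (XT.nd (nat_lit 78) (nat_lit 0) (nat_lit 0) (XT.lf (nat_lit 0) (nat_lit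 17506614111) (nat_lit 304) (nat_lit 58165452062) (nat_lit 380) (nat_lit 102988840378) (nat_lit 109) (nat_lit 5) (nat_lit 113) (nat_lit 5) (nat_lit 114) (nat_lit 5) (nat_lit 488) (nat_lit 465) (nat_lit 247)) (XT.lf (nat_lit 0) (nat_lit 108936180976) (nat_lit 380) (nat_lit 59050200811) (nat_lit 76) (nat_lit 15893049916) (nat_lit 109) (nat_lit 5) (nat_lit 114) (nat_lit 5) (nat_lit 110) (nat_lit 5) (nat_lit 489) (nat_lit 465) (nat_lit 246))) (XT.nd (nat_lit 78) (nat_lit 0) (nat_lit 0) (XT.lf (nat_lit 0) (nat_lit 48766149816) (nat_lit 228) (nat_lit 96812083253) (nat_lit 304) (nat_lit 43694913486) (nat_lit 106) (nat_lit 5) (nat_lit 109) (nat_lit 5) (nat_lit 110) (nat_lit 5) (nat_lit 490) (nat_lit 465) (nat_lit 245)) (XT.lf (nat_lit 0) (nat_lit 164023176473) (nat_lit 228) (nat_lit 21029083110) (nat_lit 304) (nat_lit 9834293996) (nat_lit 106) (nat_lit 5) (nat_lit 109) (nat_lit 5) (nat_lit 110) (nat_lit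 5) (nat_lit 491) (nat_lit 465) (nat_lit 244)))) (XT.nd (nat_lit 156) (nat_lit 228) (nat_lit 0) (XT.nd (nat_lit 78) (nat_lit 228) (nat_lit 0) (XT.lf (nat_lit 0) (nat_lit 27191377940) (nat_lit 304) (nat_lit 115002250699) (nat_lit 76) (nat_lit 58452164694) (nat_lit 102) (nat_lit 5) (nat_lit 106) (nat_lit 5) (nat_lit 103) (nat_lit 5) (nat_lit 492) (nat_lit 465) (nat_lit 243)) (XT.lf (nat_lit 0) (nat_lit 1927387995) (nat_lit 228) (nat_lit 64716371658) (nat_lit 304) (nat_lit 139995878396) (nat_lit 99) (nat_lit 5) (nat_lit 102) (nat_lit 5) (nat_lit 103) (nat_lit 5) (nat_lit 493) (nat_lit 465) (nat_lit 242))) (XT.nd (nat_lit 78) (nat_lit 228) (nat_lit 0) (XT.lf (nat_lit 0) (nat_lit 110307862720) (nat_lit 304) (nat_lit 84431542587) (nat_lit 76) (nat_lit 18081814596) (nat_lit 99) (nat_lit 5) (nat_lit 103) (nat_lit 5) (nat_lit 100) (nat_lit 5) (nat_lit 494) (nat_lit 465) (nat_lit 241)) (XT.lf (nat_lit 0)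 (nat_lit 42151154996) (nat_lit 228) (nat_lit 115722885621) (nat_lit 304) (nat_lit 61351896762) (nat_lit 96) (nat_lit 5) (nat_lit 99) (nat_lit 5) (nat_lit 100) (nat_lit 5) (nat_lit 495) (nat_lit 465) (nat_lit 240))))) (XT.nd (nat_lit 312) (nat_lit 456) (nat_lit 0) (XT.nd (nat_lit 156) (nat_lit 228) (nat_lit 0) (XT.nd (nat_lit 78) (nat_lit 228) (nat_lit 0) (XT.lf (nat_lit 0) (nat_lit 177994042205) (nat_lit 228) (nat_lit 31254225972) (nat_lit 304) (nat_lit 16631135529) (nat_lit 96) (nat_lit 5) (nat_lit 99) (nat_lit 5) (nat_lit 100) (nat_lit 5) (nat_lit 496) (nat_lit 465) (nat_lit 239)) (XT.lf (nat_lit 0) (nat_lit 31690417528) (nat_lit 228) (nat_lit 143523042870) (nat_lit 76) (nat_lit 57511641315) (nat_lit 93) (nat_lit 5) (nat_lit 96) (nat_lit 5) (nat_lit 94) (nat_lit 5) (nat_lit 497) (nat_lit 465) (nat_lit 238))) (XT.nd (nat_lit 78) (nat_lit 228) (nat_lit 0) (XT.lf (nat_lit 0) (nat_lit 83205612583)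 (nat_lit 228) (nat_lit 5864729748) (nat_lit 76) (nat_lit 150762286245) (nat_lit 93) (nat_lit 5) (nat_lit 96) (nat_lit 5) (nat_lit 94) (nat_lit 5) (nat_lit 498) (nat_lit 465) (nat_lit 237)) (XT.lf (nat_lit 0) (nat_lit 139591358464) (nat_lit 304) (nat_lit 103980354578) (nat_lit 76) (nat_lit 3609079199) (nat_lit 90) (nat_lit 5) (nat_lit 94) (nat_lit 5) (nat_lit 91) (nat_lit 5) (nat_lit 499) (nat_lit 465) (nat_lit 236)))) (XT.nd (nat_lit 156) (nat_lit 228) (nat_lit 0) (XT.nd (nat_lit 78) (nat_lit 76) (nat_lit 0) (XT.lf (nat_lit 0) (nat_lit 45009661500) (nat_lit 152) (nat_lit 156050444757) (nat_lit 228) (nat_lit 53723072112) (nat_lit 88) (nat_lit 5) (nat_lit 90) (nat_lit 5) (nat_lit 91) (nat_lit 5) (nat_lit 500) (nat_lit 465) (nat_lit 235)) (XT.lf (nat_lit 0) (nat_lit 4535513095) (nat_lit 228) (nat_lit 57691857605) (nat_lit 76) (nat_lit 200446614013) (nat_lit 87) (nat_lit 5) (nat_lit 90) (nat_lit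 5) (nat_lit 88) (nat_lit 5) (nat_lit 501) (nat_lit 465) (nat_lit 234))) (XT.nd (nat_lit 78) (nat_lit 0) (nat_lit 0) (XT.lf (nat_lit 0) (nat_lit 66140021195) (nat_lit 304) (nat_lit 166985238554) (nat_lit 76) (nat_lit 37678114272) (nat_lit 84) (nat_lit 5) (nat_lit 88) (nat_lit 5) (nat_lit 85) (nat_lit 5) (nat_lit 502) (nat_lit 465) (nat_lit 233)) (XT.lf (nat_lit 0) (nat_lit 132837808964) (nat_lit 304) (nat_lit 4920159002) (nat_lit 76) (nat_lit 141480612125) (nat_lit 84) (nat_lit 5) (nat_lit 88) (nat_lit 5) (nat_lit 85) (nat_lit 5) (nat_lit 503) (nat_lit 465) (nat_lit 232)))))) (XT.nd (nat_lit 624) (nat_lit 760) (nat_lit 0) (XT.nd (nat_lit 312) (nat_lit 380) (nat_lit 0) (XT.nd (nat_lit 156) (nat_lit 228) (nat_lit 0) (XT.nd (nat_lit 78) (nat_lit 152) (nat_lit 0) (XT.lf (nat_lit 0) (nat_lit 170711829148) (nat_lit 152) (nat_lit 34823829776) (nat_lit 228) (nat_lit 82426628910) (nat_lit 82) (nat_lit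 5) (nat_lit 84) (nat_lit 5) (nat_lit 85) (nat_lit 5) (nat_lit 504) (nat_lit 465) (nat_lit 231)) (XT.lf (nat_lit 0) (nat_lit 58918679648) (nat_lit 152) (nat_lit 225097930283) (nat_lit 228) (nat_lit 12998160614) (nat_lit 80) (nat_lit 5) (nat_lit 82) (nat_lit 5) (nat_lit 83) (nat_lit 5) (nat_lit 505) (nat_lit 465) (nat_lit 230))) (XT.nd (nat_lit 78) (nat_lit 152) (nat_lit 0) (XT.lf (nat_lit 0) (nat_lit 60573514635) (nat_lit 228) (nat_lit 59992507655) (nat_lit 76) (nat_lit 185777642762) (nat_lit 79) (nat_lit 5) (nat_lit 82) (nat_lit 5) (nat_lit 80) (nat_lit 5) (nat_lit 506) (nat_lit 465) (nat_lit 229)) (XT.lf (nat_lit 0) (nat_lit 130995666422) (nat_lit 152) (nat_lit 8436383710) (nat_lit 228) (nat_lit 176594044933) (nat_lit 77) (nat_lit 5) (nat_lit 79) (nat_lit 5) (nat_lit 80) (nat_lit 5) (nat_lit 507) (nat_lit 465) (nat_lit 228)))) (XT.nd (nat_lit 156) (nat_lit 228) (nat_lit 0) (XT.nd (nat_lit 78)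 (nat_lit 0) (nat_lit 0) (XT.lf (nat_lit 0) (nat_lit 5941042198) (nat_lit 152) (nat_lit 219124251360) (nat_lit 228) (nat_lit 100985763971) (nat_lit 75) (nat_lit 5) (nat_lit 77) (nat_lit 5) (nat_lit 78) (nat_lit 5) (nat_lit 508) (nat_lit 465) (nat_lit 227)) (XT.lf (nat_lit 0) (nat_lit 212741869584) (nat_lit 152) (nat_lit 105507874153) (nat_lit 228) (nat_lit 18164047157) (nat_lit 75) (nat_lit 5) (nat_lit 77) (nat_lit 5) (nat_lit 78) (nat_lit 5) (nat_lit 509) (nat_lit 465) (nat_lit 226))) (XT.nd (nat_lit 78) (nat_lit 0) (nat_lit 0) (XT.lf (nat_lit 0) (nat_lit 68165851916) (nat_lit 228) (nat_lit 263220699992) (nat_lit 76) (nat_lit 15775947644) (nat_lit 72) (nat_lit 5) (nat_lit 75) (nat_lit 5) (nat_lit 73) (nat_lit 5) (nat_lit 510) (nat_lit 465) (nat_lit 225)) (XT.lf (nat_lit 0) (nat_lit 162060129567) (nat_lit 228) (nat_lit 54176026051) (nat_lit 76) (nat_lit 142004683730) (nat_lit 72) (nat_lit 5) (nat_lit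 75) (nat_lit 5) (nat_lit 73) (nat_lit 5) (nat_lit 511) (nat_lit 465) (nat_lit 224))))) (XT.nd (nat_lit 312) (nat_lit 304) (nat_lit 0) (XT.nd (nat_lit 156) (nat_lit 228) (nat_lit 0) (XT.nd (nat_lit 78) (nat_lit 76) (nat_lit 0) (XT.lf (nat_lit 0) (nat_lit 170786962165) (nat_lit 152) (nat_lit 92528525340) (nat_lit 228) (nat_lit 106424290314) (nat_lit 70) (nat_lit 5) (nat_lit 72) (nat_lit 5) (nat_lit 73) (nat_lit 5) (nat_lit 512) (nat_lit 465) (nat_lit 223)) (XT.lf (nat_lit 0) (nat_lit 27389232227) (nat_lit 76) (nat_lit 344187810482) (nat_lit 152) (nat_lit 10139449042) (nat_lit 69) (nat_lit 5) (nat_lit 70) (nat_lit 5) (nat_lit 71) (nat_lit 4) (nat_lit 513) (nat_lit 465) (nat_lit 222))) (XT.nd (nat_lit 78) (nat_lit 152) (nat_lit 0) (XT.lf (nat_lit 0) (nat_lit 92989721265) (nat_lit 152) (nat_lit 125160399696) (nat_lit 76) (nat_lit 175823845516) (nat_lit 68) (nat_lit 5) (nat_lit 70) (nat_lit 5) (nat_lit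 69) (nat_lit 5) (nat_lit 514) (nat_lit 465) (nat_lit 221)) (XT.lf (nat_lit 0) (nat_lit 119110707116) (nat_lit 152) (nat_lit 83683452090) (nat_lit 228) (nat_lit 203948866660) (nat_lit 66) (nat_lit 5) (nat_lit 68) (nat_lit 5) (nat_lit 69) (nat_lit 5) (nat_lit 515) (nat_lit 465) (nat_lit 220)))) (XT.nd (nat_lit 156) (nat_lit 152) (nat_lit 0) (XT.nd (nat_lit 78) (nat_lit 152) (nat_lit 0) (XT.lf (nat_lit 0) (nat_lit 321140967665) (nat_lit 228) (nat_lit 41036649465) (nat_lit 76) (nat_lit 57820313667) (nat_lit 66) (nat_lit 5) (nat_lit 69) (nat_lit 5) (nat_lit 67) (nat_lit 4) (nat_lit 516) (nat_lit 465) (nat_lit 219)) (XT.lf (nat_lit 0) (nat_lit 16065516371) (nat_lit 152) (nat_lit 210255691950) (nat_lit 76) (nat_lit 207338217581) (nat_lit 64) (nat_lit 5) (nat_lit 66) (nat_lit 5) (nat_lit 65) (nat_lit 5) (nat_lit 517) (nat_lit 465) (nat_lit 218))) (XT.nd (nat_lit 78) (nat_lit 0) (nat_lit 0) (XT.lf (nat_lit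 0) (nat_lit 54638198602) (nat_lit 152) (nat_lit 80333017505) (nat_lit 228) (nat_lit 312873782438) (nat_lit 62) (nat_lit 5) (nat_lit 64) (nat_lit 5) (nat_lit 65) (nat_lit 5) (nat_lit 518) (nat_lit 465) (nat_lit 217)) (XT.lf (nat_lit 0) (nat_lit 264580296786) (nat_lit 228) (nat_lit 123682979109) (nat_lit 76) (nat_lit 74238669130) (nat_lit 62) (nat_lit 5) (nat_lit 65) (nat_lit 5) (nat_lit 63) (nat_lit 4) (nat_lit 519) (nat_lit 465) (nat_lit 216))))))))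
noncomputable def xc216 : XT := (XT.nd (nat_lit 58812) (nat_lit 0) (nat_lit 3420) (XT.nd (nat_lit 1170) (nat_lit 608) (nat_lit 0) (XT.nd (nat_lit 546) (nat_lit 532) (nat_lit 0) (XT.nd (nat_lit 234) (nat_lit 304) (nat_lit 0) (XT.nd (nat_lit 78) (nat_lit 228) (nat_lit 0) (XT.lf (nat_lit 0) (nat_lit 163224141408) (nat_lit 76) (nat_lit 241310930238) (nat_lit 152) (nat_lit 73163405180) (nat_lit 61) (nat_lit 5) (nat_lit 62) (nat_lit 5) (nat_lit 63) (nat_lit 4) (nat_lit 520) (nat_lit 465) (nat_lit 215)) (XT.nd (nat_lit 78) (nat_lit 152) (nat_lit 0) (XT.lf (nat_lit 0) (nat_lit 58110629587) (nat_lit 152) (nat_lit 25716910277) (nat_lit 76) (nat_lit 409675704353) (nat_lit 60) (nat_lit 5) (nat_lit 62) (nat_lit 5) (nat_lit 61) (nat_lit 5) (nat_lit 521) (nat_lit 465) (nat_lit 214)) (XT.lf (nat_lit 0) (nat_lit 199311253939) (nat_lit 228) (nat_lit 225767232041) (nat_lit 76) (nat_lit 84668711097) (nat_lit 58)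 (nat_lit 5) (nat_lit 61) (nat_lit 5) (nat_lit 59) (nat_lit 4) (nat_lit 522) (nat_lit 465) (nat_lit 213)))) (XT.nd (nat_lit 156) (nat_lit 228) (nat_lit 0) (XT.nd (nat_lit 78) (nat_lit 0) (nat_lit 0) (XT.lf (nat_lit 0) (nat_lit 84599142948) (nat_lit 76) (nat_lit 266110410092) (nat_lit 152) (nat_lit 175936912365) (nat_lit 57) (nat_lit 5) (nat_lit 58) (nat_lit 5) (nat_lit 59) (nat_lit 4) (nat_lit 523) (nat_lit 465) (nat_lit 212)) (XT.lf (nat_lit 0) (nat_lit 418321825291) (nat_lit 76) (nat_lit 95179344302) (nat_lit 152) (nat_lit 30698357435) (nat_lit 57) (nat_lit 5) (nat_lit 58) (nat_lit 5) (nat_lit 59) (nat_lit 4) (nat_lit 524) (nat_lit 465) (nat_lit 211))) (XT.nd (nat_lit 78) (nat_lit 0) (nat_lit 0) (XT.lf (nat_lit 0) (nat_lit 122598448321) (nat_lit 228) (nat_lit 352821464464) (nat_lit 76) (nat_lit 86880507735) (nat_lit 54) (nat_lit 5) (nat_lit 57) (nat_lit 5) (nat_lit 55) (nat_lit 4) (nat_lit 525)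 (nat_lit 465) (nat_lit 210)) (XT.lf (nat_lit 0) (nat_lit 286255420662) (nat_lit 228) (nat_lit 17324784837) (nat_lit 76) (nat_lit 277514640981) (nat_lit 54) (nat_lit 5) (nat_lit 57) (nat_lit 5) (nat_lit 55) (nat_lit 4) (nat_lit 526) (nat_lit 465) (nat_lit 209))))) (XT.nd (nat_lit 312) (nat_lit 228) (nat_lit 0) (XT.nd (nat_lit 156) (nat_lit 76) (nat_lit 0) (XT.nd (nat_lit 78) (nat_lit 152) (nat_lit 0) (XT.lf (nat_lit 0) (nat_lit 346021446453) (nat_lit 76) (nat_lit 117476091062) (nat_lit 152) (nat_lit 137061341430) (nat_lit 53) (nat_lit 5) (nat_lit 54) (nat_lit 5) (nat_lit 55) (nat_lit 4) (nat_lit 527) (nat_lit 465) (nat_lit 208)) (XT.lf (nat_lit 0) (nat_lit 30966435556) (nat_lit 152) (nat_lit 511898434308) (nat_lit 76) (nat_lit 77945095069) (nat_lit 51) (nat_lit 5) (nat_lit 53) (nat_lit 5) (nat_lit 52) (nat_lit 4) (nat_lit 528) (nat_lit 465) (nat_lit 207))) (XT.nd (nat_lit 78) (nat_lit 76) (nat_lit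 0) (XT.lf (nat_lit 0) (nat_lit 209096593036) (nat_lit 152) (nat_lit 146731704992) (nat_lit 76) (nat_lit 285817604258) (nat_lit 51) (nat_lit 5) (nat_lit 53) (nat_lit 5) (nat_lit 52) (nat_lit 4) (nat_lit 529) (nat_lit 465) (nat_lit 206)) (XT.lf (nat_lit 0) (nat_lit 244519384283) (nat_lit 76) (nat_lit 155431442090) (nat_lit 152) (nat_lit 263381931738) (nat_lit 50) (nat_lit 5) (nat_lit 51) (nat_lit 5) (nat_lit 52) (nat_lit 4) (nat_lit 530) (nat_lit 465) (nat_lit 205)))) (XT.nd (nat_lit 156) (nat_lit 76) (nat_lit 0) (XT.nd (nat_lit 78) (nat_lit 152) (nat_lit 0) (XT.lf (nat_lit 0) (nat_lit 603731890414) (nat_lit 152) (nat_lit 26451821955) (nat_lit 0) (nat_lit 55751038407) (nat_lit 50) (nat_lit 5) (nat_lit 52) (nat_lit 4) (nat_lit 50) (nat_lit 4) (nat_lit 531) (nat_lit 465) (nat_lit 204)) (XT.lf (nat_lit 0) (nat_lit 113445484576) (nat_lit 152) (nat_lit 315417685562) (nat_lit 76) (nat_lit 280275930355)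 (nat_lit 48) (nat_lit 5) (nat_lit 50) (nat_lit 5) (nat_lit 49) (nat_lit 4) (nat_lit 532) (nat_lit 465) (nat_lit 203))) (XT.nd (nat_lit 78) (nat_lit 0) (nat_lit 0) (XT.lf (nat_lit 0) (nat_lit 104324373623) (nat_lit 76) (nat_lit 213873370690) (nat_lit 152) (nat_lit 415134341357) (nat_lit 47) (nat_lit 5) (nat_lit 48) (nat_lit 5) (nat_lit 49) (nat_lit 4) (nat_lit 533) (nat_lit 465) (nat_lit 202)) (XT.lf (nat_lit 0) (nat_lit 538802136933) (nat_lit 152) (nat_lit 202736455488) (nat_lit 0) (nat_lit 16915401691) (nat_lit 47) (nat_lit 5) (nat_lit 49) (nat_lit 4) (nat_lit 47) (nat_lit 4) (nat_lit 534) (nat_lit 465) (nat_lit 201)))))) (XT.nd (nat_lit 624) (nat_lit 76) (nat_lit 0) (XT.nd (nat_lit 312) (nat_lit 228) (nat_lit 0) (XT.nd (nat_lit 156) (nat_lit 152) (nat_lit 0) (XT.nd (nat_lit 78) (nat_lit 76) (nat_lit 0) (XT.lf (nat_lit 0) (nat_lit 249321990890) (nat_lit 76) (nat_lit 528513435873) (nat_lit 76)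 (nat_lit 6626637334) (nat_lit 46) (nat_lit 4) (nat_lit 47) (nat_lit 5) (nat_lit 47) (nat_lit 4) (nat_lit 535) (nat_lit 465) (nat_lit 200)) (XT.lf (nat_lit 0) (nat_lit 213592560727) (nat_lit 152) (nat_lit 84022109330) (nat_lit 76) (nat_lit 513811946324) (nat_lit 45) (nat_lit 5) (nat_lit 47) (nat_lit 5) (nat_lit 46) (nat_lit 4) (nat_lit 536) (nat_lit 465) (nat_lit 199))) (XT.nd (nat_lit 78) (nat_lit 76) (nat_lit 0) (XT.lf (nat_lit 0) (nat_lit 402423062883) (nat_lit 76) (nat_lit 48459853759) (nat_lit 152) (nat_lit 388536903148) (nat_lit 44) (nat_lit 5) (nat_lit 45) (nat_lit 5) (nat_lit 46) (nat_lit 4) (nat_lit 537) (nat_lit 465) (nat_lit 198)) (XT.lf (nat_lit 0) (nat_lit 45469993741) (nat_lit 76) (nat_lit 660051848708) (nat_lit 76) (nat_lit 163016638316) (nat_lit 43) (nat_lit 4) (nat_lit 44) (nat_lit 5) (nat_lit 44) (nat_lit 4) (nat_lit 538) (nat_lit 465) (nat_lit 197)))) (XT.nd (nat_lit 156) (nat_lit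 76) (nat_lit 0) (XT.nd (nat_lit 78) (nat_lit 76) (nat_lit 0) (XT.lf (nat_lit 0) (nat_lit 79734674556) (nat_lit 152) (nat_lit 333579177146) (nat_lit 76) (nat_lit 485325805538) (nat_lit 42) (nat_lit 5) (nat_lit 44) (nat_lit 5) (nat_lit 43) (nat_lit 4) (nat_lit 539) (nat_lit 465) (nat_lit 196)) (XT.lf (nat_lit 0) (nat_lit 183588055857) (nat_lit 76) (nat_lit 148423340766) (nat_lit 152) (nat_lit 597957562145) (nat_lit 41) (nat_lit 5) (nat_lit 42) (nat_lit 5) (nat_lit 43) (nat_lit 4) (nat_lit 540) (nat_lit 465) (nat_lit 195))) (XT.nd (nat_lit 78) (nat_lit 76) (nat_lit 0) (XT.lf (nat_lit 0) (nat_lit 604669002186) (nat_lit 152) (nat_lit 226505370730) (nat_lit 0) (nat_lit 131302000086) (nat_lit 41) (nat_lit 5) (nat_lit 43) (nat_lit 4) (nat_lit 41) (nat_lit 4) (nat_lit 541) (nat_lit 465) (nat_lit 194)) (XT.lf (nat_lit 0) (nat_lit 327409829780) (nat_lit 76) (nat_lit 571094562919) (nat_lit 76) (nat_lit 97727520017)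 (nat_lit 40) (nat_lit 4) (nat_lit 41) (nat_lit 5) (nat_lit 41) (nat_lit 4) (nat_lit 542) (nat_lit 465) (nat_lit 193))))) (XT.nd (nat_lit 56706) (nat_lit 0) (nat_lit 8284) (XT.nd (nat_lit 56550) (nat_lit 0) (nat_lit 8208) (XT.nd (nat_lit 56472) (nat_lit 0) (nat_lit 8208) (XT.lf (nat_lit 0) (nat_lit 173642639000) (nat_lit 152) (nat_lit 117399671808) (nat_lit 76) (nat_lit 740301087768) (nat_lit 39) (nat_lit 5) (nat_lit 41) (nat_lit 5) (nat_lit 40) (nat_lit 4) (nat_lit 543) (nat_lit 465) (nat_lit 192)) (XT.lf (nat_lit 0) (nat_lit 21091691952) (nat_lit 836) (nat_lit 14863385785) (nat_lit 836) (nat_lit 14863385785) (nat_lit 147) (nat_lit 3) (nat_lit 158) (nat_lit 3) (nat_lit 158) (nat_lit 5) (nat_lit 466) (nat_lit 466) (nat_lit 268))) (XT.nd (nat_lit 78) (nat_lit 0) (nat_lit 76) (XT.lf (nat_lit 76) (nat_lit 21363817641) (nat_lit 0) (nat_lit 22213923206) (nat_lit 836) (nat_lit 60583119795) (nat_lit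 148) (nat_lit 5) (nat_lit 147) (nat_lit 3) (nat_lit 158) (nat_lit 5) (nat_lit 467) (nat_lit 466) (nat_lit 267)) (XT.lf (nat_lit 0) (nat_lit 46020977862) (nat_lit 760) (nat_lit 31221199301) (nat_lit 836) (nat_lit 29519855706) (nat_lit 148) (nat_lit 5) (nat_lit 158) (nat_lit 5) (nat_lit 159) (nat_lit 5) (nat_lit 468) (nat_lit 466) (nat_lit 266)))) (XT.nd (nat_lit 156) (nat_lit 0) (nat_lit 76) (XT.nd (nat_lit 78) (nat_lit 0) (nat_lit 76) (XT.lf (nat_lit 76) (nat_lit 23315280749) (nat_lit 0) (nat_lit 25998895676) (nat_lit 836) (nat_lit 60142697356) (nat_lit 149) (nat_lit 5) (nat_lit 148) (nat_lit 5) (nat_lit 159) (nat_lit 5) (nat_lit 469) (nat_lit 466) (nat_lit 265)) (XT.lf (nat_lit 0) (nat_lit 53743224118) (nat_lit 760) (nat_lit 31040555830) (nat_lit 836) (nat_lit 27454117385) (nat_lit 149) (nat_lit 5) (nat_lit 159) (nat_lit 5) (nat_lit 160) (nat_lit 5) (nat_lit 470) (nat_lit 466) (nat_lit 264)))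 (XT.nd (nat_lit 78) (nat_lit 0) (nat_lit 76) (XT.lf (nat_lit 76) (nat_lit 27261631329) (nat_lit 0) (nat_lit 31983588968) (nat_lit 836) (nat_lit 55870177015) (nat_lit 150) (nat_lit 5) (nat_lit 149) (nat_lit 5) (nat_lit 160) (nat_lit 5) (nat_lit 471) (nat_lit 466) (nat_lit 263)) (XT.lf (nat_lit 0) (nat_lit 65922513117) (nat_lit 760) (nat_lit 28928990864) (nat_lit 836) (nat_lit 23240258518) (nat_lit 150) (nat_lit 5) (nat_lit 160) (nat_lit 5) (nat_lit 161) (nat_lit 5) (nat_lit 472) (nat_lit 466) (nat_lit 262))))))) (XT.nd (nat_lit 1170) (nat_lit 2508) (nat_lit 0) (XT.nd (nat_lit 546) (nat_lit 1444) (nat_lit 0) (XT.nd (nat_lit 234) (nat_lit 1064) (nat_lit 0) (XT.nd (nat_lit 78) (nat_lit 0) (nat_lit 76) (XT.lf (nat_lit 76) (nat_lit 33489333991) (nat_lit 0) (nat_lit 40491204586) (nat_lit 836) (nat_lit 47184064016) (nat_lit 151) (nat_lit 5) (nat_lit 150) (nat_lit 5) (nat_lit 161) (nat_lit 5) (nat_lit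 473) (nat_lit 466) (nat_lit 261)) (XT.nd (nat_lit 78) (nat_lit 0) (nat_lit 0) (XT.lf (nat_lit 0) (nat_lit 83198091661) (nat_lit 760) (nat_lit 24600915188) (nat_lit 836) (nat_lit 16554246572) (nat_lit 151) (nat_lit 5) (nat_lit 161) (nat_lit 5) (nat_lit 162) (nat_lit 5) (nat_lit 474) (nat_lit 466) (nat_lit 260)) (XT.lf (nat_lit 76) (nat_lit 42317555229) (nat_lit 0) (nat_lit 51883164507) (nat_lit 836) (nat_lit 33434407231) (nat_lit 152) (nat_lit 5) (nat_lit 151) (nat_lit 5) (nat_lit 162) (nat_lit 5) (nat_lit 475) (nat_lit 466) (nat_lit 259)))) (XT.nd (nat_lit 156) (nat_lit 456) (nat_lit 0) (XT.nd (nat_lit 78) (nat_lit 760) (nat_lit 0) (XT.lf (nat_lit 0) (nat_lit 106283271434) (nat_lit 760) (nat_lit 17737914242) (nat_lit 76) (nat_lit 7033418945) (nat_lit 152) (nat_lit 5) (nat_lit 162) (nat_lit 5) (nat_lit 153) (nat_lit 5) (nat_lit 476) (nat_lit 466) (nat_lit 258)) (XT.lf (nat_lit 0) (nat_lit 54101533843)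 (nat_lit 760) (nat_lit 66563372631) (nat_lit 836) (nat_lit 13895401936) (nat_lit 142) (nat_lit 5) (nat_lit 152) (nat_lit 5) (nat_lit 153) (nat_lit 5) (nat_lit 477) (nat_lit 466) (nat_lit 257))) (XT.nd (nat_lit 78) (nat_lit 456) (nat_lit 0) (XT.lf (nat_lit 0) (nat_lit 130148542903) (nat_lit 760) (nat_lit 5917225013) (nat_lit 836) (nat_lit 2160522278) (nat_lit 142) (nat_lit 5) (nat_lit 152) (nat_lit 5) (nat_lit 153) (nat_lit 5) (nat_lit 478) (nat_lit 466) (nat_lit 256)) (XT.lf (nat_lit 0) (nat_lit 11850927347) (nat_lit 456) (nat_lit 72931311259) (nat_lit 76) (nat_lit 57184648097) (nat_lit 136) (nat_lit 5) (nat_lit 142) (nat_lit 5) (nat_lit 137) (nat_lit 5) (nat_lit 479) (nat_lit 466) (nat_lit 255))))) (XT.nd (nat_lit 312) (nat_lit 684) (nat_lit 0) (XT.nd (nat_lit 156) (nat_lit 380) (nat_lit 0) (XT.nd (nat_lit 78) (nat_lit 0) (nat_lit 0) (XT.lf (nat_lit 0) (nat_lit 4403365481) (nat_lit 380) (nat_lit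 22391533124) (nat_lit 456) (nat_lit 119082615702) (nat_lit 131) (nat_lit 5) (nat_lit 136) (nat_lit 5) (nat_lit 137) (nat_lit 5) (nat_lit 480) (nat_lit 466) (nat_lit 254)) (XT.lf (nat_lit 0) (nat_lit 44414416125) (nat_lit 456) (nat_lit 62478827458) (nat_lit 76) (nat_lit 42994012355) (nat_lit 131) (nat_lit 5) (nat_lit 137) (nat_lit 5) (nat_lit 132) (nat_lit 5) (nat_lit 481) (nat_lit 466) (nat_lit 253))) (XT.nd (nat_lit 78) (nat_lit 0) (nat_lit 0) (XT.lf (nat_lit 0) (nat_lit 20763514298) (nat_lit 380) (nat_lit 42842425994) (nat_lit 456) (nat_lit 90456992848) (nat_lit 126) (nat_lit 5) (nat_lit 131) (nat_lit 5) (nat_lit 132) (nat_lit 5) (nat_lit 482) (nat_lit 466) (nat_lit 252)) (XT.lf (nat_lit 0) (nat_lit 85213405416) (nat_lit 456) (nat_lit 48456101078) (nat_lit 76) (nat_lit 24705069500) (nat_lit 126) (nat_lit 5) (nat_lit 132) (nat_lit 5) (nat_lit 127) (nat_lit 5) (nat_lit 483) (nat_lit 466) (nat_lit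 251)))) (XT.nd (nat_lit 156) (nat_lit 380) (nat_lit 0) (XT.nd (nat_lit 78) (nat_lit 0) (nat_lit 0) (XT.lf (nat_lit 0) (nat_lit 41246979943) (nat_lit 304) (nat_lit 68000376279) (nat_lit 380) (nat_lit 53587139176) (nat_lit 122) (nat_lit 5) (nat_lit 126) (nat_lit 5) (nat_lit 127) (nat_lit 5) (nat_lit 484) (nat_lit 466) (nat_lit 250)) (XT.lf (nat_lit 0) (nat_lit 135331754028) (nat_lit 380) (nat_lit 30387432040) (nat_lit 76) (nat_lit 1755787254) (nat_lit 122) (nat_lit 5) (nat_lit 127) (nat_lit 5) (nat_lit 123) (nat_lit 5) (nat_lit 485) (nat_lit 466) (nat_lit 249))) (XT.nd (nat_lit 78) (nat_lit 76) (nat_lit 0) (XT.lf (nat_lit 0) (nat_lit 66382320784) (nat_lit 304) (nat_lit 98489037041) (nat_lit 380) (nat_lit 7368568038) (nat_lit 118) (nat_lit 5) (nat_lit 122) (nat_lit 5) (nat_lit 123) (nat_lit 5) (nat_lit 486) (nat_lit 466) (nat_lit 248)) (XT.lf (nat_lit 0) (nat_lit 18570941877) (nat_lit 380) (nat_lit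 8471610665) (nat_lit 76) (nat_lit 150159874787) (nat_lit 117) (nat_lit 5) (nat_lit 122) (nat_lit 5) (nat_lit 118) (nat_lit 5) (nat_lit 487) (nat_lit 466) (nat_lit 247)))))) (XT.nd (nat_lit 624) (nat_lit 1140) (nat_lit 0) (XT.nd (nat_lit 312) (nat_lit 532) (nat_lit 0) (XT.nd (nat_lit 156) (nat_lit 228) (nat_lit 0) (XT.nd (nat_lit 78) (nat_lit 304) (nat_lit 0) (XT.lf (nat_lit 0) (nat_lit 47846095335) (nat_lit 380) (nat_lit 86347694296) (nat_lit 76) (nat_lit 48098909436) (nat_lit 113) (nat_lit 5) (nat_lit 118) (nat_lit 5) (nat_lit 114) (nat_lit 5) (nat_lit 488) (nat_lit 466) (nat_lit 246)) (XT.lf (nat_lit 0) (nat_lit 18388923558) (nat_lit 304) (nat_lit 61072156503) (nat_lit 380) (nat_lit 108132600672) (nat_lit 109) (nat_lit 5) (nat_lit 113) (nat_lit 5) (nat_lit 114) (nat_lit 5) (nat_lit 489) (nat_lit 466) (nat_lit 245))) (XT.nd (nat_lit 78) (nat_lit 228) (nat_lit 0) (XT.lf (nat_lit 0) (nat_lit 114388166274)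 (nat_lit 380) (nat_lit 61995829515) (nat_lit 76) (nat_lit 16689148099) (nat_lit 109) (nat_lit 5) (nat_lit 114) (nat_lit 5) (nat_lit 110) (nat_lit 5) (nat_lit 490) (nat_lit 466) (nat_lit 244)) (XT.lf (nat_lit 0) (nat_lit 51211227655) (nat_lit 228) (nat_lit 101650952533) (nat_lit 304) (nat_lit 45874371362) (nat_lit 106) (nat_lit 5) (nat_lit 109) (nat_lit 5) (nat_lit 110) (nat_lit 5) (nat_lit 491) (nat_lit 466) (nat_lit 243)))) (XT.nd (nat_lit 156) (nat_lit 228) (nat_lit 0) (XT.nd (nat_lit 78) (nat_lit 304) (nat_lit 0) (XT.lf (nat_lit 0) (nat_lit 172230783247) (nat_lit 228) (nat_lit 22078884997) (nat_lit 304) (nat_lit 10320972697) (nat_lit 106) (nat_lit 5) (nat_lit 109) (nat_lit 5) (nat_lit 110) (nat_lit 5) (nat_lit 492) (nat_lit 466) (nat_lit 242)) (XT.lf (nat_lit 0) (nat_lit 28555718509) (nat_lit 304) (nat_lit 120745649966) (nat_lit 76) (nat_lit 61376475458) (nat_lit 102) (nat_lit 5) (nat_lit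 106) (nat_lit 5) (nat_lit 103) (nat_lit 5) (nat_lit 493) (nat_lit 466) (nat_lit 241))) (XT.nd (nat_lit 78) (nat_lit 0) (nat_lit 0) (XT.lf (nat_lit 0) (nat_lit 2030362384) (nat_lit 228) (nat_lit 67950232824) (nat_lit 304) (nat_lit 146990791904) (nat_lit 99) (nat_lit 5) (nat_lit 102) (nat_lit 5) (nat_lit 103) (nat_lit 5) (nat_lit 494) (nat_lit 466) (nat_lit 240)) (XT.lf (nat_lit 0) (nat_lit 115827711220) (nat_lit 304) (nat_lit 88646636604) (nat_lit 76) (nat_lit 18987709867) (nat_lit 99) (nat_lit 5) (nat_lit 103) (nat_lit 5) (nat_lit 100) (nat_lit 5) (nat_lit 495) (nat_lit 466) (nat_lit 239))))) (XT.nd (nat_lit 312) (nat_lit 684) (nat_lit 0) (XT.nd (nat_lit 156) (nat_lit 228) (nat_lit 0) (XT.nd (nat_lit 78) (nat_lit 0) (nat_lit 0) (XT.lf (nat_lit 0) (nat_lit 44265091292) (nat_lit 228) (nat_lit 121506994148) (nat_lit 304) (nat_lit 64414931251) (nat_lit 96) (nat_lit 5) (nat_lit 99) (nat_lit 5) (nat_lit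 100) (nat_lit 5) (nat_lit 496) (nat_lit 466) (nat_lit 238)) (XT.lf (nat_lit 0) (nat_lit 186899819121) (nat_lit 228) (nat_lit 32814998457) (nat_lit 304) (nat_lit 17458349116) (nat_lit 96) (nat_lit 5) (nat_lit 99) (nat_lit 5) (nat_lit 100) (nat_lit 5) (nat_lit 497) (nat_lit 466) (nat_lit 237))) (XT.nd (nat_lit 78) (nat_lit 0) (nat_lit 0) (XT.lf (nat_lit 0) (nat_lit 33279069293) (nat_lit 228) (nat_lit 150692907169) (nat_lit 76) (nat_lit 60389173431) (nat_lit 93) (nat_lit 5) (nat_lit 96) (nat_lit 5) (nat_lit 94) (nat_lit 5) (nat_lit 498) (nat_lit 466) (nat_lit 236)) (XT.lf (nat_lit 0) (nat_lit 87369827393) (nat_lit 228) (nat_lit 6151977812) (nat_lit 76) (nat_lit 158302257748) (nat_lit 93) (nat_lit 5) (nat_lit 96) (nat_lit 5) (nat_lit 94) (nat_lit 5) (nat_lit 499) (nat_lit 466) (nat_lit 235)))) (XT.nd (nat_lit 156) (nat_lit 304) (nat_lit 0) (XT.nd (nat_lit 78) (nat_lit 152) (nat_lit 0) (XT.lf (nat_lit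 0) (nat_lit 146574797267) (nat_lit 304) (nat_lit 109173320255) (nat_lit 76) (nat_lit 3791520459) (nat_lit 90) (nat_lit 5) (nat_lit 94) (nat_lit 5) (nat_lit 91) (nat_lit 5) (nat_lit 500) (nat_lit 466) (nat_lit 234)) (XT.lf (nat_lit 0) (nat_lit 47266099013) (nat_lit 152) (nat_lit 163850792074) (nat_lit 228) (nat_lit 56405256913) (nat_lit 88) (nat_lit 5) (nat_lit 90) (nat_lit 5) (nat_lit 91) (nat_lit 5) (nat_lit 501) (nat_lit 466) (nat_lit 233))) (XT.nd (nat_lit 78) (nat_lit 228) (nat_lit 0) (XT.lf (nat_lit 0) (nat_lit 4765947586) (nat_lit 228) (nat_lit 60570658332) (nat_lit 76) (nat_lit 210470894806) (nat_lit 87) (nat_lit 5) (nat_lit 90) (nat_lit 5) (nat_lit 88) (nat_lit 5) (nat_lit 502) (nat_lit 466) (nat_lit 232)) (XT.lf (nat_lit 0) (nat_lit 69450629014) (nat_lit 304) (nat_lit 175328655982) (nat_lit 76) (nat_lit 39564077120) (nat_lit 84) (nat_lit 5) (nat_lit 88) (nat_lit 5) (nat_lit 85) (nat_lit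 5) (nat_lit 503) (nat_lit 466) (nat_lit 231))))))))
noncomputable def xc217 : XT := (XT.nd (nat_lit 2418) (nat_lit 532) (nat_lit 0) (XT.nd (nat_lit 1170) (nat_lit 1292) (nat_lit 0) (XT.nd (nat_lit 546) (nat_lit 836) (nat_lit 0) (XT.nd (nat_lit 234) (nat_lit 380) (nat_lit 0) (XT.nd (nat_lit 78) (nat_lit 304) (nat_lit 0) (XT.lf (nat_lit 0) (nat_lit 139483134421) (nat_lit 304) (nat_lit 5160600762) (nat_lit 76) (nat_lit 148556601907) (nat_lit 84) (nat_lit 5) (nat_lit 88) (nat_lit 5) (nat_lit 85) (nat_lit 5) (nat_lit 504) (nat_lit 466) (nat_lit 230)) (XT.nd (nat_lit 78) (nat_lit 152) (nat_lit 0) (XT.lf (nat_lit 0) (nat_lit 179252897019) (nat_lit 152) (nat_lit 36562901791) (nat_lit 228) (nat_lit 86544435325) (nat_lit 82) (nat_lit 5) (nat_lit 84) (nat_lit 5) (nat_lit 85) (nat_lit 5) (nat_lit 505) (nat_lit 466) (nat_lit 229)) (XT.lf (nat_lit 0) (nat_lit 61870134537) (nat_lit 152) (nat_lit 236350620687)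 (nat_lit 228) (nat_lit 13644587875) (nat_lit 80) (nat_lit 5) (nat_lit 82) (nat_lit 5) (nat_lit 83) (nat_lit 5) (nat_lit 506) (nat_lit 466) (nat_lit 228)))) (XT.nd (nat_lit 156) (nat_lit 152) (nat_lit 0) (XT.nd (nat_lit 78) (nat_lit 152) (nat_lit 0) (XT.lf (nat_lit 0) (nat_lit 63605399283) (nat_lit 228) (nat_lit 62986768719) (nat_lit 76) (nat_lit 195068519645) (nat_lit 79) (nat_lit 5) (nat_lit 82) (nat_lit 5) (nat_lit 80) (nat_lit 5) (nat_lit 507) (nat_lit 466) (nat_lit 227)) (XT.lf (nat_lit 0) (nat_lit 137550727540) (nat_lit 152) (nat_lit 8856063611) (nat_lit 228) (nat_lit 185420451541) (nat_lit 77) (nat_lit 5) (nat_lit 79) (nat_lit 5) (nat_lit 80) (nat_lit 5) (nat_lit 508) (nat_lit 466) (nat_lit 226))) (XT.nd (nat_lit 78) (nat_lit 0) (nat_lit 0) (XT.lf (nat_lit 0) (nat_lit 6243408710) (nat_lit 152) (nat_lit 230078253368) (nat_lit 228) (nat_lit 106031792944) (nat_lit 75) (nat_lit 5) (nat_lit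 77) (nat_lit 5) (nat_lit 78) (nat_lit 5) (nat_lit 509) (nat_lit 466) (nat_lit 225)) (XT.lf (nat_lit 0) (nat_lit 223384024399) (nat_lit 152) (nat_lit 110781162565) (nat_lit 228) (nat_lit 19069145491) (nat_lit 75) (nat_lit 5) (nat_lit 77) (nat_lit 5) (nat_lit 78) (nat_lit 5) (nat_lit 510) (nat_lit 466) (nat_lit 224))))) (XT.nd (nat_lit 312) (nat_lit 380) (nat_lit 0) (XT.nd (nat_lit 156) (nat_lit 228) (nat_lit 0) (XT.nd (nat_lit 78) (nat_lit 0) (nat_lit 0) (XT.lf (nat_lit 0) (nat_lit 71577118745) (nat_lit 228) (nat_lit 276376543525) (nat_lit 76) (nat_lit 16566813382) (nat_lit 72) (nat_lit 5) (nat_lit 75) (nat_lit 5) (nat_lit 73) (nat_lit 5) (nat_lit 511) (nat_lit 466) (nat_lit 223)) (XT.lf (nat_lit 0) (nat_lit 170165968647) (nat_lit 228) (nat_lit 56879883101) (nat_lit 76) (nat_lit 149106887779) (nat_lit 72) (nat_lit 5) (nat_lit 75) (nat_lit 5) (nat_lit 73) (nat_lit 5) (nat_lit 512) (nat_lit 466)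 (nat_lit 222))) (XT.nd (nat_lit 78) (nat_lit 76) (nat_lit 0) (XT.lf (nat_lit 0) (nat_lit 179331174780) (nat_lit 152) (nat_lit 97152860765) (nat_lit 228) (nat_lit 111742592331) (nat_lit 70) (nat_lit 5) (nat_lit 72) (nat_lit 5) (nat_lit 73) (nat_lit 5) (nat_lit 513) (nat_lit 466) (nat_lit 221)) (XT.lf (nat_lit 0) (nat_lit 28763584362) (nat_lit 76) (nat_lit 361395059512) (nat_lit 152) (nat_lit 10643534870) (nat_lit 69) (nat_lit 5) (nat_lit 70) (nat_lit 5) (nat_lit 71) (nat_lit 4) (nat_lit 514) (nat_lit 466) (nat_lit 220)))) (XT.nd (nat_lit 156) (nat_lit 152) (nat_lit 0) (XT.nd (nat_lit 78) (nat_lit 152) (nat_lit 0) (XT.lf (nat_lit 0) (nat_lit 97641868504) (nat_lit 152) (nat_lit 131413673920) (nat_lit 76) (nat_lit 184616989190) (nat_lit 68) (nat_lit 5) (nat_lit 70) (nat_lit 5) (nat_lit 69) (nat_lit 5) (nat_lit 515) (nat_lit 466) (nat_lit 219)) (XT.lf (nat_lit 0) (nat_lit 125070911689) (nat_lit 152)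 (nat_lit 87865562829) (nat_lit 228) (nat_lit 214143572150) (nat_lit 66) (nat_lit 5) (nat_lit 68) (nat_lit 5) (nat_lit 69) (nat_lit 5) (nat_lit 516) (nat_lit 466) (nat_lit 218))) (XT.nd (nat_lit 78) (nat_lit 152) (nat_lit 0) (XT.lf (nat_lit 0) (nat_lit 337200529900) (nat_lit 228) (nat_lit 43083941446) (nat_lit 76) (nat_lit 60713230181) (nat_lit 66) (nat_lit 5) (nat_lit 69) (nat_lit 5) (nat_lit 67) (nat_lit 4) (nat_lit 517) (nat_lit 466) (nat_lit 217)) (XT.lf (nat_lit 0) (nat_lit 16871296580) (nat_lit 152) (nat_lit 220763926376) (nat_lit 76) (nat_lit 217707048915) (nat_lit 64) (nat_lit 5) (nat_lit 66) (nat_lit 5) (nat_lit 65) (nat_lit 5) (nat_lit 518) (nat_lit 466) (nat_lit 216)))))) (XT.nd (nat_lit 624) (nat_lit 532) (nat_lit 0) (XT.nd (nat_lit 312) (nat_lit 456) (nat_lit 0) (XT.nd (nat_lit 156) (nat_lit 152) (nat_lit 0) (XT.nd (nat_lit 78) (nat_lit 0) (nat_lit 0) (XT.lf (nat_lit 0) (nat_lit 57374585314)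 (nat_lit 152) (nat_lit 84347646628) (nat_lit 228) (nat_lit 328514893678) (nat_lit 62) (nat_lit 5) (nat_lit 64) (nat_lit 5) (nat_lit 65) (nat_lit 5) (nat_lit 519) (nat_lit 466) (nat_lit 215)) (XT.lf (nat_lit 0) (nat_lit 277811679811) (nat_lit 228) (nat_lit 129862777522) (nat_lit 76) (nat_lit 77952466438) (nat_lit 62) (nat_lit 5) (nat_lit 65) (nat_lit 5) (nat_lit 63) (nat_lit 4) (nat_lit 520) (nat_lit 466) (nat_lit 214))) (XT.nd (nat_lit 78) (nat_lit 76) (nat_lit 0) (XT.lf (nat_lit 0) (nat_lit 171389628850) (nat_lit 76) (nat_lit 253374518621) (nat_lit 152) (nat_lit 76819136992) (nat_lit 61) (nat_lit 5) (nat_lit 62) (nat_lit 5) (nat_lit 63) (nat_lit 4) (nat_lit 521) (nat_lit 466) (nat_lit 213)) (XT.lf (nat_lit 0) (nat_lit 61018409068) (nat_lit 152) (nat_lit 26998604834) (nat_lit 76) (nat_lit 430161280043) (nat_lit 60) (nat_lit 5) (nat_lit 62) (nat_lit 5) (nat_lit 61) (nat_lit 5) (nat_lit 522) (nat_lit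 466) (nat_lit 212)))) (XT.nd (nat_lit 156) (nat_lit 228) (nat_lit 0) (XT.nd (nat_lit 78) (nat_lit 76) (nat_lit 0) (XT.lf (nat_lit 0) (nat_lit 209279050693) (nat_lit 228) (nat_lit 237051428663) (nat_lit 76) (nat_lit 88903965793) (nat_lit 58) (nat_lit 5) (nat_lit 61) (nat_lit 5) (nat_lit 59) (nat_lit 4) (nat_lit 523) (nat_lit 466) (nat_lit 211)) (XT.lf (nat_lit 0) (nat_lit 88833197899) (nat_lit 76) (nat_lit 279414024445) (nat_lit 152) (nat_lit 184731456673) (nat_lit 57) (nat_lit 5) (nat_lit 58) (nat_lit 5) (nat_lit 59) (nat_lit 4) (nat_lit 524) (nat_lit 466) (nat_lit 210))) (XT.nd (nat_lit 78) (nat_lit 228) (nat_lit 0) (XT.lf (nat_lit 0) (nat_lit 439241819226) (nat_lit 76) (nat_lit 99936496135) (nat_lit 152) (nat_lit 32231083582) (nat_lit 57) (nat_lit 5) (nat_lit 58) (nat_lit 5) (nat_lit 59) (nat_lit 4) (nat_lit 525) (nat_lit 466) (nat_lit 209)) (XT.lf (nat_lit 0) (nat_lit 128730480841) (nat_lit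 228) (nat_lit 370458553262) (nat_lit 76) (nat_lit 91226301872) (nat_lit 54) (nat_lit 5) (nat_lit 57) (nat_lit 5) (nat_lit 55) (nat_lit 4) (nat_lit 526) (nat_lit 466) (nat_lit 208))))) (XT.nd (nat_lit 312) (nat_lit 304) (nat_lit 0) (XT.nd (nat_lit 156) (nat_lit 152) (nat_lit 0) (XT.nd (nat_lit 78) (nat_lit 76) (nat_lit 0) (XT.lf (nat_lit 0) (nat_lit 300570201318) (nat_lit 228) (nat_lit 18187229389) (nat_lit 76) (nat_lit 291392057554) (nat_lit 54) (nat_lit 5) (nat_lit 57) (nat_lit 5) (nat_lit 55) (nat_lit 4) (nat_lit 527) (nat_lit 466) (nat_lit 207)) (XT.lf (nat_lit 0) (nat_lit 363326252262) (nat_lit 76) (nat_lit 123348134346) (nat_lit 152) (nat_lit 143912337615) (nat_lit 53) (nat_lit 5) (nat_lit 54) (nat_lit 5) (nat_lit 55) (nat_lit 4) (nat_lit 528) (nat_lit 466) (nat_lit 206))) (XT.nd (nat_lit 78) (nat_lit 0) (nat_lit 0) (XT.lf (nat_lit 0) (nat_lit 32516752501) (nat_lit 152) (nat_lit 537489546709)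 (nat_lit 76) (nat_lit 81844064158) (nat_lit 51) (nat_lit 5) (nat_lit 53) (nat_lit 5) (nat_lit 52) (nat_lit 4) (nat_lit 529) (nat_lit 466) (nat_lit 205)) (XT.lf (nat_lit 0) (nat_lit 219553322848) (nat_lit 152) (nat_lit 154064662323) (nat_lit 76) (nat_lit 300110117172) (nat_lit 51) (nat_lit 5) (nat_lit 53) (nat_lit 5) (nat_lit 52) (nat_lit 4) (nat_lit 530) (nat_lit 466) (nat_lit 204)))) (XT.nd (nat_lit 156) (nat_lit 228) (nat_lit 0) (XT.nd (nat_lit 78) (nat_lit 0) (nat_lit 0) (XT.lf (nat_lit 0) (nat_lit 256748922901) (nat_lit 76) (nat_lit 163201310195) (nat_lit 152) (nat_lit 276549069602) (nat_lit 50) (nat_lit 5) (nat_lit 51) (nat_lit 5) (nat_lit 52) (nat_lit 4) (nat_lit 531) (nat_lit 466) (nat_lit 203)) (XT.lf (nat_lit 0) (nat_lit 633920286847) (nat_lit 152) (nat_lit 27770950083) (nat_lit 0) (nat_lit 58540161243) (nat_lit 50) (nat_lit 5) (nat_lit 52) (nat_lit 4) (nat_lit 50) (nat_lit 4) (nat_lit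 532) (nat_lit 466) (nat_lit 202))) (XT.nd (nat_lit 78) (nat_lit 76) (nat_lit 0) (XT.lf (nat_lit 0) (nat_lit 119119557155) (nat_lit 152) (nat_lit 331185103220) (nat_lit 76) (nat_lit 294291305183) (nat_lit 48) (nat_lit 5) (nat_lit 50) (nat_lit 5) (nat_lit 49) (nat_lit 4) (nat_lit 533) (nat_lit 466) (nat_lit 201)) (XT.lf (nat_lit 0) (nat_lit 109544003010) (nat_lit 76) (nat_lit 224565394482) (nat_lit 152) (nat_lit 435889204122) (nat_lit 47) (nat_lit 5) (nat_lit 48) (nat_lit 5) (nat_lit 49) (nat_lit 4) (nat_lit 534) (nat_lit 466) (nat_lit 200))))))) (XT.nd (nat_lit 57642) (nat_lit 0) (nat_lit 5852) (XT.nd (nat_lit 546) (nat_lit 76) (nat_lit 0) (XT.nd (nat_lit 234) (nat_lit 304) (nat_lit 0) (XT.nd (nat_lit 78) (nat_lit 152) (nat_lit 0) (XT.lf (nat_lit 0) (nat_lit 565743950107) (nat_lit 152) (nat_lit 212869970294) (nat_lit 0) (nat_lit 17762688061) (nat_lit 47) (nat_lit 5) (nat_lit 49) (nat_lit 4) (nat_lit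 47) (nat_lit 4) (nat_lit 535) (nat_lit 466) (nat_lit 199)) (XT.nd (nat_lit 78) (nat_lit 76) (nat_lit 0) (XT.lf (nat_lit 0) (nat_lit 261791345048) (nat_lit 76) (nat_lit 554937528941) (nat_lit 76) (nat_lit 6956209483) (nat_lit 46) (nat_lit 4) (nat_lit 47) (nat_lit 5) (nat_lit 47) (nat_lit 4) (nat_lit 536) (nat_lit 466) (nat_lit 198)) (XT.lf (nat_lit 0) (nat_lit 224273811046) (nat_lit 152) (nat_lit 88220061492) (nat_lit 76) (nat_lit 539503993516) (nat_lit 45) (nat_lit 5) (nat_lit 47) (nat_lit 5) (nat_lit 46) (nat_lit 4) (nat_lit 537) (nat_lit 466) (nat_lit 197)))) (XT.nd (nat_lit 156) (nat_lit 152) (nat_lit 0) (XT.nd (nat_lit 78) (nat_lit 76) (nat_lit 0) (XT.lf (nat_lit 0) (nat_lit 422547318472) (nat_lit 76) (nat_lit 50881337470) (nat_lit 152) (nat_lit 407962075132) (nat_lit 44) (nat_lit 5) (nat_lit 45) (nat_lit 5) (nat_lit 46) (nat_lit 4) (nat_lit 538) (nat_lit 466) (nat_lit 196)) (XT.lf (nat_lit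 0) (nat_lit 47746601073) (nat_lit 76) (nat_lit 693052922044) (nat_lit 76) (nat_lit 171165802229) (nat_lit 43) (nat_lit 4) (nat_lit 44) (nat_lit 5) (nat_lit 44) (nat_lit 4) (nat_lit 539) (nat_lit 466) (nat_lit 195))) (XT.nd (nat_lit 78) (nat_lit 76) (nat_lit 0) (XT.lf (nat_lit 0) (nat_lit 83722946014) (nat_lit 152) (nat_lit 350255125470) (nat_lit 76) (nat_lit 509593491705) (nat_lit 42) (nat_lit 5) (nat_lit 44) (nat_lit 5) (nat_lit 43) (nat_lit 4) (nat_lit 540) (nat_lit 466) (nat_lit 194)) (XT.lf (nat_lit 0) (nat_lit 192770420626) (nat_lit 76) (nat_lit 155843056576) (nat_lit 152) (nat_lit 627853853940) (nat_lit 41) (nat_lit 5) (nat_lit 42) (nat_lit 5) (nat_lit 43) (nat_lit 4) (nat_lit 541) (nat_lit 466) (nat_lit 193))))) (XT.nd (nat_lit 56784) (nat_lit 0) (nat_lit 8208) (XT.nd (nat_lit 56628) (nat_lit 0) (nat_lit 8132) (XT.nd (nat_lit 78) (nat_lit 76) (nat_lit 0) (XT.lf (nat_lit 0) (nat_lit 634903912683)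 (nat_lit 152) (nat_lit 237827767950) (nat_lit 0) (nat_lit 137868437976) (nat_lit 41) (nat_lit 5) (nat_lit 43) (nat_lit 4) (nat_lit 41) (nat_lit 4) (nat_lit 542) (nat_lit 466) (nat_lit 192)) (XT.lf (nat_lit 0) (nat_lit 343783146275) (nat_lit 76) (nat_lit 599647901011) (nat_lit 76) (nat_lit 102612389295) (nat_lit 40) (nat_lit 4) (nat_lit 41) (nat_lit 5) (nat_lit 41) (nat_lit 4) (nat_lit 543) (nat_lit 466) (nat_lit 191))) (XT.nd (nat_lit 78) (nat_lit 0) (nat_lit 0) (XT.lf (nat_lit 0) (nat_lit 22152402667) (nat_lit 836) (nat_lit 15603338389) (nat_lit 836) (nat_lit 15603338389) (nat_lit 147) (nat_lit 3) (nat_lit 158) (nat_lit 3) (nat_lit 158) (nat_lit 5) (nat_lit 467) (nat_lit 467) (nat_lit 266)) (XT.lf (nat_lit 76) (nat_lit 22438338129) (nat_lit 0) (nat_lit 23330057377) (nat_lit 836) (nat_lit 63599917982) (nat_lit 148) (nat_lit 5) (nat_lit 147) (nat_lit 3) (nat_lit 158) (nat_lit 5) (nat_lit 468)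 (nat_lit 467) (nat_lit 265)))) (XT.nd (nat_lit 156) (nat_lit 0) (nat_lit 76) (XT.nd (nat_lit 78) (nat_lit 0) (nat_lit 0) (XT.lf (nat_lit 0) (nat_lit 48333153149) (nat_lit 760) (nat_lit 32775588129) (nat_lit 836) (nat_lit 30990835196) (nat_lit 148) (nat_lit 5) (nat_lit 158) (nat_lit 5) (nat_lit 159) (nat_lit 5) (nat_lit 469) (nat_lit 467) (nat_lit 264)) (XT.lf (nat_lit 76) (nat_lit 24487608325) (nat_lit 0) (nat_lit 27302975962) (nat_lit 836) (nat_lit 63138596593) (nat_lit 149) (nat_lit 5) (nat_lit 148) (nat_lit 5) (nat_lit 159) (nat_lit 5) (nat_lit 470) (nat_lit 467) (nat_lit 263))) (XT.nd (nat_lit 78) (nat_lit 0) (nat_lit 0) (XT.lf (nat_lit 0) (nat_lit 56440513395) (nat_lit 760) (nat_lit 32585760103) (nat_lit 836) (nat_lit 28823010739) (nat_lit 149) (nat_lit 5) (nat_lit 159) (nat_lit 5) (nat_lit 160) (nat_lit 5) (nat_lit 471) (nat_lit 467) (nat_lit 262)) (XT.lf (nat_lit 76) (nat_lit 28631426357)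 (nat_lit 0) (nat_lit 33585805553) (nat_lit 836) (nat_lit 58653446253) (nat_lit 150) (nat_lit 5) (nat_lit 149) (nat_lit 5) (nat_lit 160) (nat_lit 5) (nat_lit 472) (nat_lit 467) (nat_lit 261)))))) (XT.nd (nat_lit 624) (nat_lit 1444) (nat_lit 0) (XT.nd (nat_lit 312) (nat_lit 1064) (nat_lit 0) (XT.nd (nat_lit 156) (nat_lit 0) (nat_lit 76) (XT.nd (nat_lit 78) (nat_lit 0) (nat_lit 0) (XT.lf (nat_lit 0) (nat_lit 69227879897) (nat_lit 760) (nat_lit 30368535745) (nat_lit 836) (nat_lit 24399471512) (nat_lit 150) (nat_lit 5) (nat_lit 160) (nat_lit 5) (nat_lit 161) (nat_lit 5) (nat_lit 473) (nat_lit 467) (nat_lit 260)) (XT.lf (nat_lit 76) (nat_lit 35170593987) (nat_lit 0) (nat_lit 42517878651) (nat_lit 836) (nat_lit 49533913381) (nat_lit 151) (nat_lit 5) (nat_lit 150) (nat_lit 5) (nat_lit 161) (nat_lit 5) (nat_lit 474) (nat_lit 467) (nat_lit 259))) (XT.nd (nat_lit 78) (nat_lit 0) (nat_lit 0) (XT.lf (nat_lit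 0) (nat_lit 87366447796) (nat_lit 760) (nat_lit 25824034279) (nat_lit 836) (nat_lit 17380010158) (nat_lit 151) (nat_lit 5) (nat_lit 161) (nat_lit 5) (nat_lit 162) (nat_lit 5) (nat_lit 475) (nat_lit 467) (nat_lit 258)) (XT.lf (nat_lit 76) (nat_lit 44440247939) (nat_lit 0) (nat_lit 54478663282) (nat_lit 836) (nat_lit 35097563099) (nat_lit 152) (nat_lit 5) (nat_lit 151) (nat_lit 5) (nat_lit 162) (nat_lit 5) (nat_lit 476) (nat_lit 467) (nat_lit 257)))) (XT.nd (nat_lit 156) (nat_lit 456) (nat_lit 0) (XT.nd (nat_lit 78) (nat_lit 760) (nat_lit 0) (XT.lf (nat_lit 0) (nat_lit 111605182214) (nat_lit 760) (nat_lit 18617910073) (nat_lit 76) (nat_lit 7383854042) (nat_lit 152) (nat_lit 5) (nat_lit 162) (nat_lit 5) (nat_lit 153) (nat_lit 5) (nat_lit 477) (nat_lit 467) (nat_lit 256)) (XT.lf (nat_lit 0) (nat_lit 56813399127) (nat_lit 760) (nat_lit 69892236952) (nat_lit 836) (nat_lit 14582312429) (nat_lit 142)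 (nat_lit 5) (nat_lit 152) (nat_lit 5) (nat_lit 153) (nat_lit 5) (nat_lit 478) (nat_lit 467) (nat_lit 255))) (XT.nd (nat_lit 78) (nat_lit 456) (nat_lit 0) (XT.lf (nat_lit 0) (nat_lit 136662435374) (nat_lit 760) (nat_lit 6213748825) (nat_lit 836) (nat_lit 2261063055) (nat_lit 142) (nat_lit 5) (nat_lit 152) (nat_lit 5) (nat_lit 153) (nat_lit 5) (nat_lit 479) (nat_lit 467) (nat_lit 254)) (XT.lf (nat_lit 0) (nat_lit 12450471109) (nat_lit 456) (nat_lit 76570921590) (nat_lit 76) (nat_lit 60043487512) (nat_lit 136) (nat_lit 5) (nat_lit 142) (nat_lit 5) (nat_lit 137) (nat_lit 5) (nat_lit 480) (nat_lit 467) (nat_lit 253))))) (XT.nd (nat_lit 312) (nat_lit 684) (nat_lit 0) (XT.nd (nat_lit 156) (nat_lit 380) (nat_lit 0) (XT.nd (nat_lit 78) (nat_lit 0) (nat_lit 0) (XT.lf (nat_lit 0) (nat_lit 4630376805) (nat_lit 380) (nat_lit 23511037754) (nat_lit 456) (nat_lit 125029636000) (nat_lit 131) (nat_lit 5) (nat_lit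 136) (nat_lit 5) (nat_lit 137) (nat_lit 5) (nat_lit 481) (nat_lit 467) (nat_lit 252)) (XT.lf (nat_lit 0) (nat_lit 46641586596) (nat_lit 456) (nat_lit 65595929413) (nat_lit 76) (nat_lit 45143779373) (nat_lit 131) (nat_lit 5) (nat_lit 137) (nat_lit 5) (nat_lit 132) (nat_lit 5) (nat_lit 482) (nat_lit 467) (nat_lit 251))) (XT.nd (nat_lit 78) (nat_lit 0) (nat_lit 0) (XT.lf (nat_lit 0) (nat_lit 21808419118) (nat_lit 380) (nat_lit 44984065788) (nat_lit 456) (nat_lit 94973281685) (nat_lit 126) (nat_lit 5) (nat_lit 131) (nat_lit 5) (nat_lit 132) (nat_lit 5) (nat_lit 483) (nat_lit 467) (nat_lit 250)) (XT.lf (nat_lit 0) (nat_lit 89480032941) (nat_lit 456) (nat_lit 50872206329) (nat_lit 76) (nat_lit 25940766874) (nat_lit 126) (nat_lit 5) (nat_lit 132) (nat_lit 5) (nat_lit 127) (nat_lit 5) (nat_lit 484) (nat_lit 467) (nat_lit 249)))) (XT.nd (nat_lit 156) (nat_lit 380) (nat_lit 0) (XT.nd (nat_lit 78) (nat_lit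 0) (nat_lit 0) (XT.lf (nat_lit 0) (nat_lit 43315920682) (nat_lit 304) (nat_lit 71399579841) (nat_lit 380) (nat_lit 56260430069) (nat_lit 122) (nat_lit 5) (nat_lit 126) (nat_lit 5) (nat_lit 127) (nat_lit 5) (nat_lit 485) (nat_lit 467) (nat_lit 248)) (XT.lf (nat_lit 0) (nat_lit 142103855271) (nat_lit 380) (nat_lit 31900262130) (nat_lit 76) (nat_lit 1844328196) (nat_lit 122) (nat_lit 5) (nat_lit 127) (nat_lit 5) (nat_lit 123) (nat_lit 5) (nat_lit 486) (nat_lit 467) (nat_lit 247))) (XT.nd (nat_lit 78) (nat_lit 76) (nat_lit 0) (XT.lf (nat_lit 0) (nat_lit 69707872827) (nat_lit 304) (nat_lit 103412404365) (nat_lit 380) (nat_lit 7731376709) (nat_lit 118) (nat_lit 5) (nat_lit 122) (nat_lit 5) (nat_lit 123) (nat_lit 5) (nat_lit 487) (nat_lit 467) (nat_lit 246)) (XT.lf (nat_lit 0) (nat_lit 19504669794) (nat_lit 380) (nat_lit 8888889752) (nat_lit 76) (nat_lit 157668729492) (nat_lit 117) (nat_lit 5) (nat_lit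 122) (nat_lit 5) (nat_lit 118) (nat_lit 5) (nat_lit 488) (nat_lit 467) (nat_lit 245))))))))
noncomputable def xc218 : XT := (XT.nd (nat_lit 2418) (nat_lit 1748) (nat_lit 0) (XT.nd (nat_lit 1170) (nat_lit 1748) (nat_lit 0) (XT.nd (nat_lit 546) (nat_lit 912) (nat_lit 0) (XT.nd (nat_lit 234) (nat_lit 760) (nat_lit 0) (XT.nd (nat_lit 78) (nat_lit 304) (nat_lit 0) (XT.lf (nat_lit 0) (nat_lit 50243449265) (nat_lit 380) (nat_lit 90658645318) (nat_lit 76) (nat_lit 50504986393) (nat_lit 113) (nat_lit 5) (nat_lit 118) (nat_lit 5) (nat_lit 114) (nat_lit 5) (nat_lit 489) (nat_lit 467) (nat_lit 244)) (XT.nd (nat_lit 78) (nat_lit 0) (nat_lit 0) (XT.lf (nat_lit 0) (nat_lit 19314699660) (nat_lit 304) (nat_lit 64124341958) (nat_lit 380) (nat_lit 113534077214) (nat_lit 109) (nat_lit 5) (nat_lit 113) (nat_lit 5) (nat_lit 114) (nat_lit 5) (nat_lit 490) (nat_lit 467) (nat_lit 243)) (XT.lf (nat_lit 0) (nat_lit 120112269599)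 (nat_lit 380) (nat_lit 65089379415) (nat_lit 76) (nat_lit 17524916785) (nat_lit 109) (nat_lit 5) (nat_lit 114) (nat_lit 5) (nat_lit 110) (nat_lit 5) (nat_lit 491) (nat_lit 467) (nat_lit 242)))) (XT.nd (nat_lit 156) (nat_lit 532) (nat_lit 0) (XT.nd (nat_lit 78) (nat_lit 0) (nat_lit 0) (XT.lf (nat_lit 0) (nat_lit 53777929943) (nat_lit 228) (nat_lit 106731926571) (nat_lit 304) (nat_lit 48163293741) (nat_lit 106) (nat_lit 5) (nat_lit 109) (nat_lit 5) (nat_lit 110) (nat_lit 5) (nat_lit 492) (nat_lit 467) (nat_lit 241)) (XT.lf (nat_lit 0) (nat_lit 180848170890) (nat_lit 228) (nat_lit 23181330590) (nat_lit 304) (nat_lit 10832453533) (nat_lit 106) (nat_lit 5) (nat_lit 109) (nat_lit 5) (nat_lit 110) (nat_lit 5) (nat_lit 493) (nat_lit 467) (nat_lit 240))) (XT.nd (nat_lit 78) (nat_lit 228) (nat_lit 0) (XT.lf (nat_lit 0) (nat_lit 29987832482) (nat_lit 304) (nat_lit 126776843333) (nat_lit 76) (nat_lit 64446843474)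 (nat_lit 102) (nat_lit 5) (nat_lit 106) (nat_lit 5) (nat_lit 103) (nat_lit 5) (nat_lit 494) (nat_lit 467) (nat_lit 239)) (XT.lf (nat_lit 0) (nat_lit 2137871424) (nat_lit 228) (nat_lit 71345969029) (nat_lit 304) (nat_lit 154335904823) (nat_lit 99) (nat_lit 5) (nat_lit 102) (nat_lit 5) (nat_lit 103) (nat_lit 5) (nat_lit 495) (nat_lit 467) (nat_lit 238))))) (XT.nd (nat_lit 312) (nat_lit 456) (nat_lit 0) (XT.nd (nat_lit 156) (nat_lit 228) (nat_lit 0) (XT.nd (nat_lit 78) (nat_lit 228) (nat_lit 0) (XT.lf (nat_lit 0) (nat_lit 121623137928) (nat_lit 304) (nat_lit 93073088060) (nat_lit 76) (nat_lit 19938732132) (nat_lit 99) (nat_lit 5) (nat_lit 103) (nat_lit 5) (nat_lit 100) (nat_lit 5) (nat_lit 496) (nat_lit 467) (nat_lit 237)) (XT.lf (nat_lit 0) (nat_lit 46484131386) (nat_lit 228) (nat_lit 127580497366) (nat_lit 304) (nat_lit 67631541444) (nat_lit 96) (nat_lit 5) (nat_lit 99) (nat_lit 5) (nat_lit 100)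 (nat_lit 5) (nat_lit 497) (nat_lit 467) (nat_lit 236))) (XT.nd (nat_lit 78) (nat_lit 228) (nat_lit 0) (XT.lf (nat_lit 0) (nat_lit 196250320105) (nat_lit 228) (nat_lit 34453989819) (nat_lit 304) (nat_lit 18327327172) (nat_lit 96) (nat_lit 5) (nat_lit 99) (nat_lit 5) (nat_lit 100) (nat_lit 5) (nat_lit 498) (nat_lit 467) (nat_lit 235)) (XT.lf (nat_lit 0) (nat_lit 34946769596) (nat_lit 228) (nat_lit 158221849267) (nat_lit 76) (nat_lit 63410400856) (nat_lit 93) (nat_lit 5) (nat_lit 96) (nat_lit 5) (nat_lit 94) (nat_lit 5) (nat_lit 499) (nat_lit 467) (nat_lit 234)))) (XT.nd (nat_lit 156) (nat_lit 228) (nat_lit 0) (XT.nd (nat_lit 78) (nat_lit 228) (nat_lit 0) (XT.lf (nat_lit 0) (nat_lit 91741887180) (nat_lit 228) (nat_lit 6454145026) (nat_lit 76) (nat_lit 166219055162) (nat_lit 93) (nat_lit 5) (nat_lit 96) (nat_lit 5) (nat_lit 94) (nat_lit 5) (nat_lit 500) (nat_lit 467) (nat_lit 233)) (XT.lf (nat_lit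 0) (nat_lit 153907048132) (nat_lit 304) (nat_lit 114626496879) (nat_lit 76) (nat_lit 3982899022) (nat_lit 90) (nat_lit 5) (nat_lit 94) (nat_lit 5) (nat_lit 91) (nat_lit 5) (nat_lit 501) (nat_lit 467) (nat_lit 232))) (XT.nd (nat_lit 78) (nat_lit 76) (nat_lit 0) (XT.lf (nat_lit 0) (nat_lit 49634804814) (nat_lit 152) (nat_lit 172041358961) (nat_lit 228) (nat_lit 59221919935) (nat_lit 88) (nat_lit 5) (nat_lit 90) (nat_lit 5) (nat_lit 91) (nat_lit 5) (nat_lit 502) (nat_lit 467) (nat_lit 231)) (XT.lf (nat_lit 0) (nat_lit 5007563638) (nat_lit 228) (nat_lit 63593937594) (nat_lit 76) (nat_lit 220996208338) (nat_lit 87) (nat_lit 5) (nat_lit 90) (nat_lit 5) (nat_lit 88) (nat_lit 5) (nat_lit 503) (nat_lit 467) (nat_lit 230)))))) (XT.nd (nat_lit 624) (nat_lit 836) (nat_lit 0) (XT.nd (nat_lit 312) (nat_lit 380) (nat_lit 0) (XT.nd (nat_lit 156) (nat_lit 304) (nat_lit 0) (XT.nd (nat_lit 78) (nat_lit 0) (nat_lit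 0) (XT.lf (nat_lit 0) (nat_lit 72926431902) (nat_lit 304) (nat_lit 184089787647) (nat_lit 76) (nat_lit 41544146857) (nat_lit 84) (nat_lit 5) (nat_lit 88) (nat_lit 5) (nat_lit 85) (nat_lit 5) (nat_lit 504) (nat_lit 467) (nat_lit 229)) (XT.lf (nat_lit 0) (nat_lit 146460406796) (nat_lit 304) (nat_lit 5413582101) (nat_lit 76) (nat_lit 155986209032) (nat_lit 84) (nat_lit 5) (nat_lit 88) (nat_lit 5) (nat_lit 85) (nat_lit 5) (nat_lit 505) (nat_lit 467) (nat_lit 228))) (XT.nd (nat_lit 78) (nat_lit 152) (nat_lit 0) (XT.lf (nat_lit 0) (nat_lit 188220509138) (nat_lit 152) (nat_lit 38389124455) (nat_lit 228) (nat_lit 90868459785) (nat_lit 82) (nat_lit 5) (nat_lit 84) (nat_lit 5) (nat_lit 85) (nat_lit 5) (nat_lit 506) (nat_lit 467) (nat_lit 227)) (XT.lf (nat_lit 0) (nat_lit 64968648889) (nat_lit 152) (nat_lit 248166150715) (nat_lit 228) (nat_lit 14323660109) (nat_lit 80) (nat_lit 5) (nat_lit 82) (nat_lit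 5) (nat_lit 83) (nat_lit 5) (nat_lit 507) (nat_lit 467) (nat_lit 226)))) (XT.nd (nat_lit 156) (nat_lit 152) (nat_lit 0) (XT.nd (nat_lit 78) (nat_lit 152) (nat_lit 0) (XT.lf (nat_lit 0) (nat_lit 66788579830) (nat_lit 228) (nat_lit 66131241560) (nat_lit 76) (nat_lit 204823754920) (nat_lit 79) (nat_lit 5) (nat_lit 82) (nat_lit 5) (nat_lit 80) (nat_lit 5) (nat_lit 508) (nat_lit 467) (nat_lit 225)) (XT.lf (nat_lit 0) (nat_lit 144433051035) (nat_lit 152) (nat_lit 9296926397) (nat_lit 228) (nat_lit 194688484876) (nat_lit 77) (nat_lit 5) (nat_lit 79) (nat_lit 5) (nat_lit 80) (nat_lit 5) (nat_lit 509) (nat_lit 467) (nat_lit 224))) (XT.nd (nat_lit 78) (nat_lit 0) (nat_lit 0) (XT.lf (nat_lit 0) (nat_lit 6560399466) (nat_lit 152) (nat_lit 241580160993) (nat_lit 228) (nat_lit 111330426378) (nat_lit 75) (nat_lit 5) (nat_lit 77) (nat_lit 5) (nat_lit 78) (nat_lit 5) (nat_lit 510) (nat_lit 467) (nat_lit 223))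 (XT.lf (nat_lit 0) (nat_lit 234557816399) (nat_lit 152) (nat_lit 116318311128) (nat_lit 228) (nat_lit 20019787324) (nat_lit 75) (nat_lit 5) (nat_lit 77) (nat_lit 5) (nat_lit 78) (nat_lit 5) (nat_lit 511) (nat_lit 467) (nat_lit 222))))) (XT.nd (nat_lit 312) (nat_lit 380) (nat_lit 0) (XT.nd (nat_lit 156) (nat_lit 228) (nat_lit 0) (XT.nd (nat_lit 78) (nat_lit 0) (nat_lit 0) (XT.lf (nat_lit 0) (nat_lit 75158672399) (nat_lit 228) (nat_lit 290190661889) (nat_lit 76) (nat_lit 17397030111) (nat_lit 72) (nat_lit 5) (nat_lit 75) (nat_lit 5) (nat_lit 73) (nat_lit 5) (nat_lit 512) (nat_lit 467) (nat_lit 221)) (XT.lf (nat_lit 0) (nat_lit 178676836334) (nat_lit 228) (nat_lit 59719392672) (nat_lit 76) (nat_lit 156564018892) (nat_lit 72) (nat_lit 5) (nat_lit 75) (nat_lit 5) (nat_lit 73) (nat_lit 5) (nat_lit 513) (nat_lit 467) (nat_lit 220))) (XT.nd (nat_lit 78) (nat_lit 76) (nat_lit 0) (XT.lf (nat_lit 0) (nat_lit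 188302145770) (nat_lit 152) (nat_lit 102008607349) (nat_lit 228) (nat_lit 117327080226) (nat_lit 70) (nat_lit 5) (nat_lit 72) (nat_lit 5) (nat_lit 73) (nat_lit 5) (nat_lit 514) (nat_lit 467) (nat_lit 219)) (XT.lf (nat_lit 0) (nat_lit 30206199429) (nat_lit 76) (nat_lit 379462870090) (nat_lit 152) (nat_lit 11173093360) (nat_lit 69) (nat_lit 5) (nat_lit 70) (nat_lit 5) (nat_lit 71) (nat_lit 4) (nat_lit 515) (nat_lit 467) (nat_lit 218)))) (XT.nd (nat_lit 156) (nat_lit 152) (nat_lit 0) (XT.nd (nat_lit 78) (nat_lit 152) (nat_lit 0) (XT.lf (nat_lit 0) (nat_lit 102526375694) (nat_lit 152) (nat_lit 137980053070) (nat_lit 76) (nat_lit 193849608625) (nat_lit 68) (nat_lit 5) (nat_lit 70) (nat_lit 5) (nat_lit 69) (nat_lit 5) (nat_lit 516) (nat_lit 467) (nat_lit 217)) (XT.lf (nat_lit 0) (nat_lit 131328692391) (nat_lit 152) (nat_lit 92256970799) (nat_lit 228) (nat_lit 224848267452) (nat_lit 66) (nat_lit 5)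 (nat_lit 68) (nat_lit 5) (nat_lit 69) (nat_lit 5) (nat_lit 517) (nat_lit 467) (nat_lit 216))) (XT.nd (nat_lit 78) (nat_lit 152) (nat_lit 0) (XT.lf (nat_lit 0) (nat_lit 354062836533) (nat_lit 228) (nat_lit 45234020158) (nat_lit 76) (nat_lit 63750615799) (nat_lit 66) (nat_lit 5) (nat_lit 69) (nat_lit 5) (nat_lit 67) (nat_lit 4) (nat_lit 518) (nat_lit 467) (nat_lit 215)) (XT.lf (nat_lit 0) (nat_lit 17717132965) (nat_lit 152) (nat_lit 231797995556) (nat_lit 76) (nat_lit 228594143269) (nat_lit 64) (nat_lit 5) (nat_lit 66) (nat_lit 5) (nat_lit 65) (nat_lit 5) (nat_lit 519) (nat_lit 467) (nat_lit 214))))))) (XT.nd (nat_lit 1170) (nat_lit 532) (nat_lit 0) (XT.nd (nat_lit 546) (nat_lit 684) (nat_lit 0) (XT.nd (nat_lit 234) (nat_lit 304) (nat_lit 0) (XT.nd (nat_lit 78) (nat_lit 76) (nat_lit 0) (XT.lf (nat_lit 0) (nat_lit 60247375152) (nat_lit 152) (nat_lit 88563195170) (nat_lit 228) (nat_lit 344938300147)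 (nat_lit 62) (nat_lit 5) (nat_lit 64) (nat_lit 5) (nat_lit 65) (nat_lit 5) (nat_lit 520) (nat_lit 467) (nat_lit 213)) (XT.nd (nat_lit 78) (nat_lit 76) (nat_lit 0) (XT.lf (nat_lit 0) (nat_lit 291704411815) (nat_lit 228) (nat_lit 136351970328) (nat_lit 76) (nat_lit 81851780328) (nat_lit 62) (nat_lit 5) (nat_lit 65) (nat_lit 5) (nat_lit 63) (nat_lit 4) (nat_lit 521) (nat_lit 467) (nat_lit 212)) (XT.lf (nat_lit 0) (nat_lit 179962992716) (nat_lit 76) (nat_lit 266041468471) (nat_lit 152) (nat_lit 80657882098) (nat_lit 61) (nat_lit 5) (nat_lit 62) (nat_lit 5) (nat_lit 63) (nat_lit 4) (nat_lit 522) (nat_lit 467) (nat_lit 211)))) (XT.nd (nat_lit 156) (nat_lit 76) (nat_lit 0) (XT.nd (nat_lit 78) (nat_lit 152) (nat_lit 0) (XT.lf (nat_lit 0) (nat_lit 64071368525) (nat_lit 152) (nat_lit 28344770035) (nat_lit 76) (nat_lit 451670968057) (nat_lit 60) (nat_lit 5) (nat_lit 62) (nat_lit 5) (nat_lit 61) (nat_lit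 5) (nat_lit 523) (nat_lit 467) (nat_lit 210)) (XT.lf (nat_lit 0) (nat_lit 219745029584) (nat_lit 228) (nat_lit 248900222335) (nat_lit 76) (nat_lit 93350814097) (nat_lit 58) (nat_lit 5) (nat_lit 61) (nat_lit 5) (nat_lit 59) (nat_lit 4) (nat_lit 524) (nat_lit 467) (nat_lit 209))) (XT.nd (nat_lit 78) (nat_lit 0) (nat_lit 0) (XT.lf (nat_lit 0) (nat_lit 93278574623) (nat_lit 76) (nat_lit 293382996732) (nat_lit 152) (nat_lit 193965942150) (nat_lit 57) (nat_lit 5) (nat_lit 58) (nat_lit 5) (nat_lit 59) (nat_lit 4) (nat_lit 525) (nat_lit 467) (nat_lit 208)) (XT.lf (nat_lit 0) (nat_lit 461207450024) (nat_lit 76) (nat_lit 104931674336) (nat_lit 152) (nat_lit 33840649803) (nat_lit 57) (nat_lit 5) (nat_lit 58) (nat_lit 5) (nat_lit 59) (nat_lit 4) (nat_lit 526) (nat_lit 467) (nat_lit 207))))) (XT.nd (nat_lit 312) (nat_lit 228) (nat_lit 0) (XT.nd (nat_lit 156) (nat_lit 228) (nat_lit 0) (XT.nd (nat_lit 78) (nat_lit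 0) (nat_lit 0) (XT.lf (nat_lit 0) (nat_lit 135168918809) (nat_lit 228) (nat_lit 388977866935) (nat_lit 76) (nat_lit 95789221274) (nat_lit 54) (nat_lit 5) (nat_lit 57) (nat_lit 5) (nat_lit 55) (nat_lit 4) (nat_lit 527) (nat_lit 467) (nat_lit 206)) (XT.lf (nat_lit 0) (nat_lit 315600534171) (nat_lit 228) (nat_lit 19093148962) (nat_lit 76) (nat_lit 305963188345) (nat_lit 54) (nat_lit 5) (nat_lit 57) (nat_lit 5) (nat_lit 55) (nat_lit 4) (nat_lit 528) (nat_lit 467) (nat_lit 205))) (XT.nd (nat_lit 78) (nat_lit 152) (nat_lit 0) (XT.lf (nat_lit 0) (nat_lit 381495951256) (nat_lit 76) (nat_lit 129513943541) (nat_lit 152) (nat_lit 151106076140) (nat_lit 53) (nat_lit 5) (nat_lit 54) (nat_lit 5) (nat_lit 55) (nat_lit 4) (nat_lit 529) (nat_lit 467) (nat_lit 204)) (XT.lf (nat_lit 0) (nat_lit 34144399802) (nat_lit 152) (nat_lit 564360568883) (nat_lit 76) (nat_lit 85937822319) (nat_lit 51) (nat_lit 5) (nat_lit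 53) (nat_lit 5) (nat_lit 52) (nat_lit 4) (nat_lit 530) (nat_lit 467) (nat_lit 203)))) (XT.nd (nat_lit 156) (nat_lit 152) (nat_lit 0) (XT.nd (nat_lit 78) (nat_lit 76) (nat_lit 0) (XT.lf (nat_lit 0) (nat_lit 230532712491) (nat_lit 152) (nat_lit 161764604810) (nat_lit 76) (nat_lit 315117103938) (nat_lit 51) (nat_lit 5) (nat_lit 53) (nat_lit 5) (nat_lit 52) (nat_lit 4) (nat_lit 531) (nat_lit 467) (nat_lit 202)) (XT.lf (nat_lit 0) (nat_lit 269589606601) (nat_lit 76) (nat_lit 171359830126) (nat_lit 152) (nat_lit 290374746462) (nat_lit 50) (nat_lit 5) (nat_lit 51) (nat_lit 5) (nat_lit 52) (nat_lit 4) (nat_lit 532) (nat_lit 467) (nat_lit 201))) (XT.nd (nat_lit 78) (nat_lit 152) (nat_lit 0) (XT.lf (nat_lit 0) (nat_lit 665617935577) (nat_lit 152) (nat_lit 29156356571) (nat_lit 0) (nat_lit 61468594172) (nat_lit 50) (nat_lit 5) (nat_lit 52) (nat_lit 4) (nat_lit 50) (nat_lit 4) (nat_lit 533) (nat_lit 467)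 (nat_lit 200)) (XT.lf (nat_lit 0) (nat_lit 125077166169) (nat_lit 152) (nat_lit 347741214055) (nat_lit 76) (nat_lit 309007302017) (nat_lit 48) (nat_lit 5) (nat_lit 50) (nat_lit 5) (nat_lit 49) (nat_lit 4) (nat_lit 534) (nat_lit 467) (nat_lit 199)))))) (XT.nd (nat_lit 624) (nat_lit 0) (nat_lit 0) (XT.nd (nat_lit 312) (nat_lit 304) (nat_lit 0) (XT.nd (nat_lit 156) (nat_lit 152) (nat_lit 0) (XT.nd (nat_lit 78) (nat_lit 0) (nat_lit 0) (XT.lf (nat_lit 0) (nat_lit 115024296772) (nat_lit 76) (nat_lit 235792172377) (nat_lit 152) (nat_lit 457681982421) (nat_lit 47) (nat_lit 5) (nat_lit 48) (nat_lit 5) (nat_lit 49) (nat_lit 4) (nat_lit 535) (nat_lit 467) (nat_lit 198)) (XT.lf (nat_lit 0) (nat_lit 594032695302) (nat_lit 152) (nat_lit 223510468385) (nat_lit 0) (nat_lit 18652197780) (nat_lit 47) (nat_lit 5) (nat_lit 49) (nat_lit 4) (nat_lit 47) (nat_lit 4) (nat_lit 536) (nat_lit 467) (nat_lit 197))) (XT.nd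 (nat_lit 78) (nat_lit 76) (nat_lit 0) (XT.lf (nat_lit 0) (nat_lit 274883864331) (nat_lit 76) (nat_lit 582682973437) (nat_lit 76) (nat_lit 7302423841) (nat_lit 46) (nat_lit 4) (nat_lit 47) (nat_lit 5) (nat_lit 47) (nat_lit 4) (nat_lit 537) (nat_lit 467) (nat_lit 196)) (XT.lf (nat_lit 0) (nat_lit 235488973055) (nat_lit 152) (nat_lit 92628204426) (nat_lit 76) (nat_lit 566480508272) (nat_lit 45) (nat_lit 5) (nat_lit 47) (nat_lit 5) (nat_lit 46) (nat_lit 4) (nat_lit 538) (nat_lit 467) (nat_lit 195)))) (XT.nd (nat_lit 156) (nat_lit 152) (nat_lit 0) (XT.nd (nat_lit 78) (nat_lit 76) (nat_lit 0) (XT.lf (nat_lit 0) (nat_lit 443677498405) (nat_lit 76) (nat_lit 53424035657) (nat_lit 152) (nat_lit 428358661271) (nat_lit 44) (nat_lit 5) (nat_lit 45) (nat_lit 5) (nat_lit 46) (nat_lit 4) (nat_lit 539) (nat_lit 467) (nat_lit 194)) (XT.lf (nat_lit 0) (nat_lit 50136749853) (nat_lit 76) (nat_lit 727704190278) (nat_lit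 76) (nat_lit 179722579413) (nat_lit 43) (nat_lit 4) (nat_lit 44) (nat_lit 5) (nat_lit 44) (nat_lit 4) (nat_lit 540) (nat_lit 467) (nat_lit 193))) (XT.nd (nat_lit 78) (nat_lit 76) (nat_lit 0) (XT.lf (nat_lit 0) (nat_lit 87910488080) (nat_lit 152) (nat_lit 367765151100) (nat_lit 76) (nat_lit 535074432404) (nat_lit 42) (nat_lit 5) (nat_lit 44) (nat_lit 5) (nat_lit 43) (nat_lit 4) (nat_lit 541) (nat_lit 467) (nat_lit 192)) (XT.lf (nat_lit 0) (nat_lit 202411628258) (nat_lit 76) (nat_lit 163633893099) (nat_lit 152) (nat_lit 659245107804) (nat_lit 41) (nat_lit 5) (nat_lit 42) (nat_lit 5) (nat_lit 43) (nat_lit 4) (nat_lit 542) (nat_lit 467) (nat_lit 191))))) (XT.nd (nat_lit 56862) (nat_lit 0) (nat_lit 8132) (XT.nd (nat_lit 56706) (nat_lit 0) (nat_lit 8056) (XT.nd (nat_lit 56628) (nat_lit 0) (nat_lit 8056) (XT.lf (nat_lit 0) (nat_lit 666650432932) (nat_lit 152) (nat_lit 249716551978) (nat_lit 0) (nat_lit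 144763073376) (nat_lit 41) (nat_lit 5) (nat_lit 43) (nat_lit 4) (nat_lit 41) (nat_lit 4) (nat_lit 543) (nat_lit 467) (nat_lit 190)) (XT.lf (nat_lit 0) (nat_lit 23265579369) (nat_lit 836) (nat_lit 16380587680) (nat_lit 836) (nat_lit 16380587680) (nat_lit 147) (nat_lit 3) (nat_lit 158) (nat_lit 3) (nat_lit 158) (nat_lit 5) (nat_lit 468) (nat_lit 468) (nat_lit 264))) (XT.nd (nat_lit 78) (nat_lit 0) (nat_lit 76) (XT.lf (nat_lit 76) (nat_lit 23565996175) (nat_lit 0) (nat_lit 24501492682) (nat_lit 836) (nat_lit 66768704990) (nat_lit 148) (nat_lit 5) (nat_lit 147) (nat_lit 3) (nat_lit 158) (nat_lit 5) (nat_lit 469) (nat_lit 468) (nat_lit 263)) (XT.lf (nat_lit 0) (nat_lit 50759902775) (nat_lit 760) (nat_lit 34408316617) (nat_lit 836) (nat_lit 32535829748) (nat_lit 148) (nat_lit 5) (nat_lit 158) (nat_lit 5) (nat_lit 159) (nat_lit 5) (nat_lit 470) (nat_lit 468) (nat_lit 262)))) (XT.nd (nat_lit 156) (nat_lit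 0) (nat_lit 76) (XT.nd (nat_lit 78) (nat_lit 0) (nat_lit 76) (XT.lf (nat_lit 76) (nat_lit 25717942064) (nat_lit 0) (nat_lit 28671875784) (nat_lit 836) (nat_lit 66285335374) (nat_lit 149) (nat_lit 5) (nat_lit 148) (nat_lit 5) (nat_lit 159) (nat_lit 5) (nat_lit 471) (nat_lit 468) (nat_lit 261)) (XT.lf (nat_lit 0) (nat_lit 59271725524) (nat_lit 760) (nat_lit 34208858976) (nat_lit 836) (nat_lit 30260703213) (nat_lit 149) (nat_lit 5) (nat_lit 159) (nat_lit 5) (nat_lit 160) (nat_lit 5) (nat_lit 472) (nat_lit 468) (nat_lit 260))) (XT.nd (nat_lit 78) (nat_lit 0) (nat_lit 76) (XT.lf (nat_lit 76) (nat_lit 30069086983) (nat_lit 0) (nat_lit 35267850602) (nat_lit 836) (nat_lit 61576830935) (nat_lit 150) (nat_lit 5) (nat_lit 149) (nat_lit 5) (nat_lit 160) (nat_lit 5) (nat_lit 473) (nat_lit 468) (nat_lit 259)) (XT.lf (nat_lit 0) (nat_lit 72697655863) (nat_lit 760) (nat_lit 31880699800) (nat_lit 836) (nat_lit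 25616905467) (nat_lit 150) (nat_lit 5) (nat_lit 160) (nat_lit 5) (nat_lit 161) (nat_lit 5) (nat_lit 474) (nat_lit 468) (nat_lit 258))))))))
noncomputable def xc219 : XT := (XT.nd (nat_lit 2418) (nat_lit 2812) (nat_lit 0) (XT.nd (nat_lit 1170) (nat_lit 2508) (nat_lit 0) (XT.nd (nat_lit 546) (nat_lit 1444) (nat_lit 0) (XT.nd (nat_lit 234) (nat_lit 1064) (nat_lit 0) (XT.nd (nat_lit 78) (nat_lit 0) (nat_lit 76) (XT.lf (nat_lit 76) (nat_lit 36935285407) (nat_lit 0) (nat_lit 44645689896) (nat_lit 836) (nat_lit 52002124845) (nat_lit 151) (nat_lit 5) (nat_lit 150) (nat_lit 5) (nat_lit 161) (nat_lit 5) (nat_lit 475) (nat_lit 468) (nat_lit 257)) (XT.nd (nat_lit 78) (nat_lit 0) (nat_lit 0) (XT.lf (nat_lit 0) (nat_lit 91742435992) (nat_lit 760) (nat_lit 27108953299) (nat_lit 836) (nat_lit 18247243098) (nat_lit 151) (nat_lit 5) (nat_lit 161) (nat_lit 5) (nat_lit 162) (nat_lit 5) (nat_lit 476) (nat_lit 468)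 (nat_lit 256)) (XT.lf (nat_lit 76) (nat_lit 46668441695) (nat_lit 0) (nat_lit 57203812363) (nat_lit 836) (nat_lit 36844673005) (nat_lit 152) (nat_lit 5) (nat_lit 151) (nat_lit 5) (nat_lit 162) (nat_lit 5) (nat_lit 477) (nat_lit 468) (nat_lit 255)))) (XT.nd (nat_lit 156) (nat_lit 456) (nat_lit 0) (XT.nd (nat_lit 78) (nat_lit 760) (nat_lit 0) (XT.lf (nat_lit 0) (nat_lit 117192468270) (nat_lit 760) (nat_lit 19542547182) (nat_lit 76) (nat_lit 7751925791) (nat_lit 152) (nat_lit 5) (nat_lit 162) (nat_lit 5) (nat_lit 153) (nat_lit 5) (nat_lit 478) (nat_lit 468) (nat_lit 254)) (XT.lf (nat_lit 0) (nat_lit 59660226537) (nat_lit 760) (nat_lit 73387479810) (nat_lit 836) (nat_lit 15304299158) (nat_lit 142) (nat_lit 5) (nat_lit 152) (nat_lit 5) (nat_lit 153) (nat_lit 5) (nat_lit 479) (nat_lit 468) (nat_lit 253))) (XT.nd (nat_lit 78) (nat_lit 456) (nat_lit 0) (XT.lf (nat_lit 0) (nat_lit 143501421384) (nat_lit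 760) (nat_lit 6525037229) (nat_lit 836) (nat_lit 2367326786) (nat_lit 142) (nat_lit 5) (nat_lit 152) (nat_lit 5) (nat_lit 153) (nat_lit 5) (nat_lit 480) (nat_lit 468) (nat_lit 252)) (XT.lf (nat_lit 0) (nat_lit 13079341507) (nat_lit 456) (nat_lit 80393159070) (nat_lit 76) (nat_lit 63045305435) (nat_lit 136) (nat_lit 5) (nat_lit 142) (nat_lit 5) (nat_lit 137) (nat_lit 5) (nat_lit 481) (nat_lit 468) (nat_lit 251))))) (XT.nd (nat_lit 312) (nat_lit 684) (nat_lit 0) (XT.nd (nat_lit 156) (nat_lit 380) (nat_lit 0) (XT.nd (nat_lit 78) (nat_lit 0) (nat_lit 0) (XT.lf (nat_lit 0) (nat_lit 4868102494) (nat_lit 380) (nat_lit 24686524312) (nat_lit 456) (nat_lit 131274668379) (nat_lit 131) (nat_lit 5) (nat_lit 136) (nat_lit 5) (nat_lit 137) (nat_lit 5) (nat_lit 482) (nat_lit 468) (nat_lit 250)) (XT.lf (nat_lit 0) (nat_lit 48979515963) (nat_lit 456) (nat_lit 68869522331) (nat_lit 76) (nat_lit 47401028569) (nat_lit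 131) (nat_lit 5) (nat_lit 137) (nat_lit 5) (nat_lit 132) (nat_lit 5) (nat_lit 483) (nat_lit 468) (nat_lit 249))) (XT.nd (nat_lit 78) (nat_lit 0) (nat_lit 0) (XT.lf (nat_lit 0) (nat_lit 22904943569) (nat_lit 380) (nat_lit 47232832338) (nat_lit 456) (nat_lit 99715994926) (nat_lit 126) (nat_lit 5) (nat_lit 131) (nat_lit 5) (nat_lit 132) (nat_lit 5) (nat_lit 484) (nat_lit 468) (nat_lit 248)) (XT.lf (nat_lit 0) (nat_lit 93959437992) (nat_lit 456) (nat_lit 53409739727) (nat_lit 76) (nat_lit 27238207848) (nat_lit 126) (nat_lit 5) (nat_lit 132) (nat_lit 5) (nat_lit 127) (nat_lit 5) (nat_lit 485) (nat_lit 468) (nat_lit 247)))) (XT.nd (nat_lit 156) (nat_lit 380) (nat_lit 0) (XT.nd (nat_lit 78) (nat_lit 0) (nat_lit 0) (XT.lf (nat_lit 0) (nat_lit 45487695620) (nat_lit 304) (nat_lit 74968819376) (nat_lit 380) (nat_lit 59067949473) (nat_lit 122) (nat_lit 5) (nat_lit 126) (nat_lit 5) (nat_lit 127) (nat_lit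 5) (nat_lit 486) (nat_lit 468) (nat_lit 246)) (XT.lf (nat_lit 0) (nat_lit 149214048980) (nat_lit 380) (nat_lit 33489341891) (nat_lit 76) (nat_lit 1937226310) (nat_lit 122) (nat_lit 5) (nat_lit 127) (nat_lit 5) (nat_lit 123) (nat_lit 5) (nat_lit 487) (nat_lit 468) (nat_lit 245))) (XT.nd (nat_lit 78) (nat_lit 76) (nat_lit 0) (XT.lf (nat_lit 0) (nat_lit 73199104114) (nat_lit 304) (nat_lit 108582040885) (nat_lit 380) (nat_lit 8112848284) (nat_lit 118) (nat_lit 5) (nat_lit 122) (nat_lit 5) (nat_lit 123) (nat_lit 5) (nat_lit 488) (nat_lit 468) (nat_lit 244)) (XT.lf (nat_lit 0) (nat_lit 20484602442) (nat_lit 380) (nat_lit 9327618642) (nat_lit 76) (nat_lit 165552946887) (nat_lit 117) (nat_lit 5) (nat_lit 122) (nat_lit 5) (nat_lit 118) (nat_lit 5) (nat_lit 489) (nat_lit 468) (nat_lit 243)))))) (XT.nd (nat_lit 624) (nat_lit 1140) (nat_lit 0) (XT.nd (nat_lit 312) (nat_lit 532) (nat_lit 0) (XT.nd (nat_lit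 156) (nat_lit 228) (nat_lit 0) (XT.nd (nat_lit 78) (nat_lit 304) (nat_lit 0) (XT.lf (nat_lit 0) (nat_lit 52760201468) (nat_lit 380) (nat_lit 95185742034) (nat_lit 76) (nat_lit 53031262002) (nat_lit 113) (nat_lit 5) (nat_lit 118) (nat_lit 5) (nat_lit 114) (nat_lit 5) (nat_lit 490) (nat_lit 468) (nat_lit 242)) (XT.lf (nat_lit 0) (nat_lit 20286176071) (nat_lit 304) (nat_lit 67329268925) (nat_lit 380) (nat_lit 119206106706) (nat_lit 109) (nat_lit 5) (nat_lit 113) (nat_lit 5) (nat_lit 114) (nat_lit 5) (nat_lit 491) (nat_lit 468) (nat_lit 241))) (XT.nd (nat_lit 78) (nat_lit 228) (nat_lit 0) (XT.lf (nat_lit 0) (nat_lit 126122141593) (nat_lit 380) (nat_lit 68338187093) (nat_lit 76) (nat_lit 18402351995) (nat_lit 109) (nat_lit 5) (nat_lit 114) (nat_lit 5) (nat_lit 110) (nat_lit 5) (nat_lit 492) (nat_lit 468) (nat_lit 240)) (XT.lf (nat_lit 0) (nat_lit 56472396422) (nat_lit 228) (nat_lit 112067095608) (nat_lit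 304) (nat_lit 50567108143) (nat_lit 106) (nat_lit 5) (nat_lit 109) (nat_lit 5) (nat_lit 110) (nat_lit 5) (nat_lit 493) (nat_lit 468) (nat_lit 239)))) (XT.nd (nat_lit 156) (nat_lit 228) (nat_lit 0) (XT.nd (nat_lit 78) (nat_lit 304) (nat_lit 0) (XT.lf (nat_lit 0) (nat_lit 189895884179) (nat_lit 228) (nat_lit 24339037794) (nat_lit 304) (nat_lit 11369933081) (nat_lit 106) (nat_lit 5) (nat_lit 109) (nat_lit 5) (nat_lit 110) (nat_lit 5) (nat_lit 494) (nat_lit 468) (nat_lit 238)) (XT.lf (nat_lit 0) (nat_lit 31491149773) (nat_lit 304) (nat_lit 133110162477) (nat_lit 76) (nat_lit 67670586323) (nat_lit 102) (nat_lit 5) (nat_lit 106) (nat_lit 5) (nat_lit 103) (nat_lit 5) (nat_lit 495) (nat_lit 468) (nat_lit 237))) (XT.nd (nat_lit 78) (nat_lit 0) (nat_lit 0) (XT.lf (nat_lit 0) (nat_lit 2250198936) (nat_lit 228) (nat_lit 74911657109) (nat_lit 304) (nat_lit 162048684938) (nat_lit 99) (nat_lit 5) (nat_lit 102)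 (nat_lit 5) (nat_lit 103) (nat_lit 5) (nat_lit 496) (nat_lit 468) (nat_lit 236)) (XT.lf (nat_lit 0) (nat_lit 127707960264) (nat_lit 304) (nat_lit 97721408791) (nat_lit 76) (nat_lit 20937153339) (nat_lit 99) (nat_lit 5) (nat_lit 103) (nat_lit 5) (nat_lit 100) (nat_lit 5) (nat_lit 497) (nat_lit 468) (nat_lit 235))))) (XT.nd (nat_lit 312) (nat_lit 684) (nat_lit 0) (XT.nd (nat_lit 156) (nat_lit 228) (nat_lit 0) (XT.nd (nat_lit 78) (nat_lit 0) (nat_lit 0) (XT.lf (nat_lit 0) (nat_lit 48813585600) (nat_lit 228) (nat_lit 133957847414) (nat_lit 304) (nat_lit 71009366706) (nat_lit 96) (nat_lit 5) (nat_lit 99) (nat_lit 5) (nat_lit 100) (nat_lit 5) (nat_lit 498) (nat_lit 468) (nat_lit 234)) (XT.lf (nat_lit 0) (nat_lit 206067833868) (nat_lit 228) (nat_lit 36175094243) (nat_lit 304) (nat_lit 19240120378) (nat_lit 96) (nat_lit 5) (nat_lit 99) (nat_lit 5) (nat_lit 100) (nat_lit 5) (nat_lit 499) (nat_lit 468)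 (nat_lit 233))) (XT.nd (nat_lit 78) (nat_lit 0) (nat_lit 0) (XT.lf (nat_lit 0) (nat_lit 36697506569) (nat_lit 228) (nat_lit 166127768705) (nat_lit 76) (nat_lit 66582525210) (nat_lit 93) (nat_lit 5) (nat_lit 96) (nat_lit 5) (nat_lit 94) (nat_lit 5) (nat_lit 500) (nat_lit 468) (nat_lit 232)) (XT.lf (nat_lit 0) (nat_lit 96332218199) (nat_lit 228) (nat_lit 6771925586) (nat_lit 76) (nat_lit 174531535835) (nat_lit 93) (nat_lit 5) (nat_lit 96) (nat_lit 5) (nat_lit 94) (nat_lit 5) (nat_lit 501) (nat_lit 468) (nat_lit 231)))) (XT.nd (nat_lit 156) (nat_lit 304) (nat_lit 0) (XT.nd (nat_lit 78) (nat_lit 152) (nat_lit 0) (XT.lf (nat_lit 0) (nat_lit 161605585121) (nat_lit 304) (nat_lit 120352842686) (nat_lit 76) (nat_lit 4183678930) (nat_lit 90) (nat_lit 5) (nat_lit 94) (nat_lit 5) (nat_lit 91) (nat_lit 5) (nat_lit 502) (nat_lit 468) (nat_lit 230)) (XT.lf (nat_lit 0) (nat_lit 52121443785) (nat_lit 152) (nat_lit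 180641637597) (nat_lit 228) (nat_lit 62179750786) (nat_lit 88) (nat_lit 5) (nat_lit 90) (nat_lit 5) (nat_lit 91) (nat_lit 5) (nat_lit 503) (nat_lit 468) (nat_lit 229))) (XT.nd (nat_lit 78) (nat_lit 228) (nat_lit 0) (XT.lf (nat_lit 0) (nat_lit 5260951954) (nat_lit 228) (nat_lit 66768869255) (nat_lit 76) (nat_lit 232047623100) (nat_lit 87) (nat_lit 5) (nat_lit 90) (nat_lit 5) (nat_lit 88) (nat_lit 5) (nat_lit 504) (nat_lit 468) (nat_lit 228)) (XT.lf (nat_lit 0) (nat_lit 76575720786) (nat_lit 304) (nat_lit 193289468745) (nat_lit 76) (nat_lit 43623046609) (nat_lit 84) (nat_lit 5) (nat_lit 88) (nat_lit 5) (nat_lit 85) (nat_lit 5) (nat_lit 505) (nat_lit 468) (nat_lit 227))))))) (XT.nd (nat_lit 1248) (nat_lit 1140) (nat_lit 0) (XT.nd (nat_lit 624) (nat_lit 760) (nat_lit 0) (XT.nd (nat_lit 312) (nat_lit 532) (nat_lit 0) (XT.nd (nat_lit 156) (nat_lit 228) (nat_lit 0) (XT.nd (nat_lit 78) (nat_lit 152)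 (nat_lit 0) (XT.lf (nat_lit 0) (nat_lit 153786253126) (nat_lit 304) (nat_lit 5679681887) (nat_lit 76) (nat_lit 163787131301) (nat_lit 84) (nat_lit 5) (nat_lit 88) (nat_lit 5) (nat_lit 85) (nat_lit 5) (nat_lit 506) (nat_lit 468) (nat_lit 226)) (XT.lf (nat_lit 0) (nat_lit 197636040054) (nat_lit 152) (nat_lit 40306836981) (nat_lit 228) (nat_lit 95408982724) (nat_lit 82) (nat_lit 5) (nat_lit 84) (nat_lit 5) (nat_lit 85) (nat_lit 5) (nat_lit 507) (nat_lit 468) (nat_lit 225))) (XT.nd (nat_lit 78) (nat_lit 76) (nat_lit 0) (XT.lf (nat_lit 0) (nat_lit 68221623397) (nat_lit 152) (nat_lit 260572643278) (nat_lit 228) (nat_lit 15036979477) (nat_lit 80) (nat_lit 5) (nat_lit 82) (nat_lit 5) (nat_lit 83) (nat_lit 5) (nat_lit 508) (nat_lit 468) (nat_lit 224)) (XT.lf (nat_lit 0) (nat_lit 70130648805) (nat_lit 228) (nat_lit 69433390400) (nat_lit 76) (nat_lit 215066583748) (nat_lit 79) (nat_lit 5) (nat_lit 82) (nat_lit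 5) (nat_lit 80) (nat_lit 5) (nat_lit 509) (nat_lit 468) (nat_lit 223)))) (XT.nd (nat_lit 156) (nat_lit 228) (nat_lit 0) (XT.nd (nat_lit 78) (nat_lit 152) (nat_lit 0) (XT.lf (nat_lit 0) (nat_lit 151659045644) (nat_lit 152) (nat_lit 9760012722) (nat_lit 228) (nat_lit 204420197790) (nat_lit 77) (nat_lit 5) (nat_lit 79) (nat_lit 5) (nat_lit 80) (nat_lit 5) (nat_lit 510) (nat_lit 468) (nat_lit 222)) (XT.lf (nat_lit 0) (nat_lit 6892791611) (nat_lit 152) (nat_lit 253657350409) (nat_lit 228) (nat_lit 116894266324) (nat_lit 75) (nat_lit 5) (nat_lit 77) (nat_lit 5) (nat_lit 78) (nat_lit 5) (nat_lit 511) (nat_lit 468) (nat_lit 221))) (XT.nd (nat_lit 78) (nat_lit 228) (nat_lit 0) (XT.lf (nat_lit 0) (nat_lit 246289871193) (nat_lit 152) (nat_lit 122132494653) (nat_lit 228) (nat_lit 21018223002) (nat_lit 75) (nat_lit 5) (nat_lit 77) (nat_lit 5) (nat_lit 78) (nat_lit 5) (nat_lit 512) (nat_lit 468) (nat_lit 220))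 (XT.lf (nat_lit 0) (nat_lit 78919052927) (nat_lit 228) (nat_lit 304695923952) (nat_lit 76) (nat_lit 18268583259) (nat_lit 72) (nat_lit 5) (nat_lit 75) (nat_lit 5) (nat_lit 73) (nat_lit 5) (nat_lit 513) (nat_lit 468) (nat_lit 219))))) (XT.nd (nat_lit 312) (nat_lit 456) (nat_lit 0) (XT.nd (nat_lit 156) (nat_lit 152) (nat_lit 0) (XT.nd (nat_lit 78) (nat_lit 152) (nat_lit 0) (XT.lf (nat_lit 0) (nat_lit 187613008540) (nat_lit 228) (nat_lit 62701294657) (nat_lit 76) (nat_lit 164393840448) (nat_lit 72) (nat_lit 5) (nat_lit 75) (nat_lit 5) (nat_lit 73) (nat_lit 5) (nat_lit 514) (nat_lit 468) (nat_lit 218)) (XT.lf (nat_lit 0) (nat_lit 197721255101) (nat_lit 152) (nat_lit 107107317575) (nat_lit 228) (nat_lit 123191038118) (nat_lit 70) (nat_lit 5) (nat_lit 72) (nat_lit 5) (nat_lit 73) (nat_lit 5) (nat_lit 515) (nat_lit 468) (nat_lit 217))) (XT.nd (nat_lit 78) (nat_lit 76) (nat_lit 0) (XT.lf (nat_lit 0)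 (nat_lit 31720532847) (nat_lit 76) (nat_lit 398434251782) (nat_lit 152) (nat_lit 11729373195) (nat_lit 69) (nat_lit 5) (nat_lit 70) (nat_lit 5) (nat_lit 71) (nat_lit 4) (nat_lit 516) (nat_lit 468) (nat_lit 216)) (XT.lf (nat_lit 0) (nat_lit 107654883834) (nat_lit 152) (nat_lit 144875151373) (nat_lit 76) (nat_lit 203543694476) (nat_lit 68) (nat_lit 5) (nat_lit 70) (nat_lit 5) (nat_lit 69) (nat_lit 5) (nat_lit 517) (nat_lit 468) (nat_lit 215)))) (XT.nd (nat_lit 156) (nat_lit 304) (nat_lit 0) (XT.nd (nat_lit 78) (nat_lit 0) (nat_lit 0) (XT.lf (nat_lit 0) (nat_lit 137898968388) (nat_lit 152) (nat_lit 96868123038) (nat_lit 228) (nat_lit 236088428394) (nat_lit 66) (nat_lit 5) (nat_lit 68) (nat_lit 5) (nat_lit 69) (nat_lit 5) (nat_lit 518) (nat_lit 468) (nat_lit 214)) (XT.lf (nat_lit 0) (nat_lit 371768046511) (nat_lit 228) (nat_lit 47491985692) (nat_lit 76) (nat_lit 66939710407) (nat_lit 66) (nat_lit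 5) (nat_lit 69) (nat_lit 5) (nat_lit 67) (nat_lit 4) (nat_lit 519) (nat_lit 468) (nat_lit 213))) (XT.nd (nat_lit 78) (nat_lit 152) (nat_lit 0) (XT.lf (nat_lit 0) (nat_lit 18605049982) (nat_lit 152) (nat_lit 243384151896) (nat_lit 76) (nat_lit 240025430396) (nat_lit 64) (nat_lit 5) (nat_lit 66) (nat_lit 5) (nat_lit 65) (nat_lit 5) (nat_lit 520) (nat_lit 468) (nat_lit 212)) (XT.lf (nat_lit 0) (nat_lit 63263426969) (nat_lit 152) (nat_lit 92989691628) (nat_lit 228) (nat_lit 362183094324) (nat_lit 62) (nat_lit 5) (nat_lit 64) (nat_lit 5) (nat_lit 65) (nat_lit 5) (nat_lit 521) (nat_lit 468) (nat_lit 211)))))) (XT.nd (nat_lit 624) (nat_lit 532) (nat_lit 0) (XT.nd (nat_lit 312) (nat_lit 304) (nat_lit 0) (XT.nd (nat_lit 156) (nat_lit 228) (nat_lit 0) (XT.nd (nat_lit 78) (nat_lit 76) (nat_lit 0) (XT.lf (nat_lit 0) (nat_lit 306291580717) (nat_lit 228) (nat_lit 143165989643) (nat_lit 76) (nat_lit 85945902740)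 (nat_lit 62) (nat_lit 5) (nat_lit 65) (nat_lit 5) (nat_lit 63) (nat_lit 4) (nat_lit 522) (nat_lit 468) (nat_lit 210)) (XT.lf (nat_lit 0) (nat_lit 188964663825) (nat_lit 76) (nat_lit 279341930937) (nat_lit 152) (nat_lit 84688770087) (nat_lit 61) (nat_lit 5) (nat_lit 62) (nat_lit 5) (nat_lit 63) (nat_lit 4) (nat_lit 523) (nat_lit 468) (nat_lit 209))) (XT.nd (nat_lit 78) (nat_lit 152) (nat_lit 0) (XT.lf (nat_lit 0) (nat_lit 67276786388) (nat_lit 152) (nat_lit 29758593534) (nat_lit 76) (nat_lit 474255989486) (nat_lit 60) (nat_lit 5) (nat_lit 62) (nat_lit 5) (nat_lit 61) (nat_lit 5) (nat_lit 524) (nat_lit 468) (nat_lit 208)) (XT.lf (nat_lit 0) (nat_lit 230734119028) (nat_lit 228) (nat_lit 261341806912) (nat_lit 76) (nat_lit 98019851413) (nat_lit 58) (nat_lit 5) (nat_lit 61) (nat_lit 5) (nat_lit 59) (nat_lit 4) (nat_lit 525) (nat_lit 468) (nat_lit 207)))) (XT.nd (nat_lit 156) (nat_lit 228) (nat_lit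 0) (XT.nd (nat_lit 78) (nat_lit 0) (nat_lit 0) (XT.lf (nat_lit 0) (nat_lit 97945874628) (nat_lit 76) (nat_lit 308050578373) (nat_lit 152) (nat_lit 203662345964) (nat_lit 57) (nat_lit 5) (nat_lit 58) (nat_lit 5) (nat_lit 59) (nat_lit 4) (nat_lit 526) (nat_lit 468) (nat_lit 206)) (XT.lf (nat_lit 0) (nat_lit 484271033261) (nat_lit 76) (nat_lit 110176764533) (nat_lit 152) (nat_lit 35530879156) (nat_lit 57) (nat_lit 5) (nat_lit 58) (nat_lit 5) (nat_lit 59) (nat_lit 4) (nat_lit 527) (nat_lit 468) (nat_lit 205))) (XT.nd (nat_lit 78) (nat_lit 0) (nat_lit 0) (XT.lf (nat_lit 0) (nat_lit 141929100737) (nat_lit 228) (nat_lit 408423482285) (nat_lit 76) (nat_lit 100580137494) (nat_lit 54) (nat_lit 5) (nat_lit 57) (nat_lit 5) (nat_lit 55) (nat_lit 4) (nat_lit 528) (nat_lit 468) (nat_lit 204)) (XT.lf (nat_lit 0) (nat_lit 331382214201) (nat_lit 228) (nat_lit 20044684509) (nat_lit 76) (nat_lit 321262733625) (nat_lit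 54) (nat_lit 5) (nat_lit 57) (nat_lit 5) (nat_lit 55) (nat_lit 4) (nat_lit 529) (nat_lit 468) (nat_lit 203))))) (XT.nd (nat_lit 312) (nat_lit 228) (nat_lit 0) (XT.nd (nat_lit 156) (nat_lit 76) (nat_lit 0) (XT.nd (nat_lit 78) (nat_lit 152) (nat_lit 0) (XT.lf (nat_lit 0) (nat_lit 400573820367) (nat_lit 76) (nat_lit 135988191717) (nat_lit 152) (nat_lit 158659676224) (nat_lit 53) (nat_lit 5) (nat_lit 54) (nat_lit 5) (nat_lit 55) (nat_lit 4) (nat_lit 530) (nat_lit 468) (nat_lit 202)) (XT.lf (nat_lit 0) (nat_lit 35853261221) (nat_lit 152) (nat_lit 592575463394) (nat_lit 76) (nat_lit 90236123823) (nat_lit 51) (nat_lit 5) (nat_lit 53) (nat_lit 5) (nat_lit 52) (nat_lit 4) (nat_lit 531) (nat_lit 468) (nat_lit 201))) (XT.nd (nat_lit 78) (nat_lit 76) (nat_lit 0) (XT.lf (nat_lit 0) (nat_lit 242060911381) (nat_lit 152) (nat_lit 169849850352) (nat_lit 76) (nat_lit 330874302361) (nat_lit 51) (nat_lit 5) (nat_lit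 53) (nat_lit 5) (nat_lit 52) (nat_lit 4) (nat_lit 532) (nat_lit 468) (nat_lit 200)) (XT.lf (nat_lit 0) (nat_lit 283072023489) (nat_lit 76) (nat_lit 179926419747) (nat_lit 152) (nat_lit 304891872339) (nat_lit 50) (nat_lit 5) (nat_lit 51) (nat_lit 5) (nat_lit 52) (nat_lit 4) (nat_lit 533) (nat_lit 468) (nat_lit 199)))) (XT.nd (nat_lit 156) (nat_lit 76) (nat_lit 0) (XT.nd (nat_lit 78) (nat_lit 152) (nat_lit 0) (XT.lf (nat_lit 0) (nat_lit 698900314794) (nat_lit 152) (nat_lit 30611325405) (nat_lit 0) (nat_lit 64543316277) (nat_lit 50) (nat_lit 5) (nat_lit 52) (nat_lit 4) (nat_lit 50) (nat_lit 4) (nat_lit 534) (nat_lit 468) (nat_lit 198)) (XT.lf (nat_lit 0) (nat_lit 131332503984) (nat_lit 152) (nat_lit 365125422761) (nat_lit 76) (nat_lit 324458965597) (nat_lit 48) (nat_lit 5) (nat_lit 50) (nat_lit 5) (nat_lit 49) (nat_lit 4) (nat_lit 535) (nat_lit 468) (nat_lit 197))) (XT.nd (nat_lit 78) (nat_lit 0)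 (nat_lit 0) (XT.lf (nat_lit 0) (nat_lit 120778317608) (nat_lit 76) (nat_lit 247580427863) (nat_lit 152) (nat_lit 480564556002) (nat_lit 47) (nat_lit 5) (nat_lit 48) (nat_lit 5) (nat_lit 49) (nat_lit 4) (nat_lit 536) (nat_lit 468) (nat_lit 196)) (XT.lf (nat_lit 0) (nat_lit 623735733866) (nat_lit 152) (nat_lit 234683270331) (nat_lit 0) (nat_lit 19586055121) (nat_lit 47) (nat_lit 5) (nat_lit 49) (nat_lit 4) (nat_lit 47) (nat_lit 4) (nat_lit 537) (nat_lit 468) (nat_lit 195))))))))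
noncomputable def xc220 : XT := (XT.nd (nat_lit 59046) (nat_lit 0) (nat_lit 1520) (XT.nd (nat_lit 57798) (nat_lit 0) (nat_lit 5168) (XT.nd (nat_lit 57174) (nat_lit 0) (nat_lit 8056) (XT.nd (nat_lit 234) (nat_lit 228) (nat_lit 0) (XT.nd (nat_lit 78) (nat_lit 152) (nat_lit 0) (XT.lf (nat_lit 0) (nat_lit 288630735125) (nat_lit 76) (nat_lit 611815823287) (nat_lit 76) (nat_lit 7666097309) (nat_lit 46) (nat_lit 4) (nat_lit 47) (nat_lit 5) (nat_lit 47) (nat_lit 4) (nat_lit 538) (nat_lit 468) (nat_lit 194)) (XT.nd (nat_lit 78) (nat_lit 76) (nat_lit 0) (XT.lf (nat_lit 0) (nat_lit 247264756364) (nat_lit 152) (nat_lit 97257020416) (nat_lit 76) (nat_lit 594805726502) (nat_lit 45) (nat_lit 5) (nat_lit 47) (nat_lit 5) (nat_lit 46) (nat_lit 4) (nat_lit 539) (nat_lit 468) (nat_lit 193)) (XT.lf (nat_lit 0) (nat_lit 465863925714) (nat_lit 76) (nat_lit 56093996002) (nat_lit 152) (nat_lit 449775217811) (nat_lit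 44) (nat_lit 5) (nat_lit 45) (nat_lit 5) (nat_lit 46) (nat_lit 4) (nat_lit 540) (nat_lit 468) (nat_lit 192)))) (XT.nd (nat_lit 156) (nat_lit 76) (nat_lit 0) (XT.nd (nat_lit 78) (nat_lit 76) (nat_lit 0) (XT.lf (nat_lit 0) (nat_lit 52646144013) (nat_lit 76) (nat_lit 764088150024) (nat_lit 76) (nat_lit 188707336113) (nat_lit 43) (nat_lit 4) (nat_lit 44) (nat_lit 5) (nat_lit 44) (nat_lit 4) (nat_lit 541) (nat_lit 468) (nat_lit 191)) (XT.lf (nat_lit 0) (nat_lit 92307277579) (nat_lit 152) (nat_lit 386150931882) (nat_lit 76) (nat_lit 561829302427) (nat_lit 42) (nat_lit 5) (nat_lit 44) (nat_lit 5) (nat_lit 43) (nat_lit 4) (nat_lit 542) (nat_lit 468) (nat_lit 190))) (XT.nd (nat_lit 56706) (nat_lit 0) (nat_lit 8056) (XT.lf (nat_lit 0) (nat_lit 212534646497) (nat_lit 76) (nat_lit 171814393826) (nat_lit 152) (nat_lit 692206058131) (nat_lit 41) (nat_lit 5) (nat_lit 42) (nat_lit 5) (nat_lit 43) (nat_lit 4)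 (nat_lit 543) (nat_lit 468) (nat_lit 189)) (XT.lf (nat_lit 0) (nat_lit 24433898309) (nat_lit 836) (nat_lit 17196970690) (nat_lit 836) (nat_lit 17196970690) (nat_lit 147) (nat_lit 3) (nat_lit 158) (nat_lit 3) (nat_lit 158) (nat_lit 5) (nat_lit 469) (nat_lit 469) (nat_lit 262))))) (XT.nd (nat_lit 312) (nat_lit 0) (nat_lit 152) (XT.nd (nat_lit 156) (nat_lit 0) (nat_lit 76) (XT.nd (nat_lit 78) (nat_lit 0) (nat_lit 76) (XT.lf (nat_lit 76) (nat_lit 24749503367) (nat_lit 0) (nat_lit 25731041181) (nat_lit 836) (nat_lit 70096973445) (nat_lit 148) (nat_lit 5) (nat_lit 147) (nat_lit 3) (nat_lit 158) (nat_lit 5) (nat_lit 470) (nat_lit 469) (nat_lit 261)) (XT.lf (nat_lit 0) (nat_lit 53307051626) (nat_lit 760) (nat_lit 36123244086) (nat_lit 836) (nat_lit 34158496785) (nat_lit 148) (nat_lit 5) (nat_lit 158) (nat_lit 5) (nat_lit 159) (nat_lit 5) (nat_lit 471) (nat_lit 469) (nat_lit 260))) (XT.nd (nat_lit 78)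 (nat_lit 0) (nat_lit 76) (XT.lf (nat_lit 76) (nat_lit 27009239007) (nat_lit 0) (nat_lit 30108871861) (nat_lit 836) (nat_lit 69590358562) (nat_lit 149) (nat_lit 5) (nat_lit 148) (nat_lit 5) (nat_lit 159) (nat_lit 5) (nat_lit 472) (nat_lit 469) (nat_lit 259)) (XT.lf (nat_lit 0) (nat_lit 62243644189) (nat_lit 760) (nat_lit 35913688199) (nat_lit 836) (nat_lit 31770601808) (nat_lit 149) (nat_lit 5) (nat_lit 159) (nat_lit 5) (nat_lit 160) (nat_lit 5) (nat_lit 473) (nat_lit 469) (nat_lit 258)))) (XT.nd (nat_lit 156) (nat_lit 0) (nat_lit 76) (XT.nd (nat_lit 78) (nat_lit 0) (nat_lit 76) (XT.lf (nat_lit 76) (nat_lit 31578064514) (nat_lit 0) (nat_lit 37033741792) (nat_lit 836) (nat_lit 64647248327) (nat_lit 150) (nat_lit 5) (nat_lit 149) (nat_lit 5) (nat_lit 160) (nat_lit 5) (nat_lit 474) (nat_lit 469) (nat_lit 257)) (XT.lf (nat_lit 0) (nat_lit 76340141351) (nat_lit 760) (nat_lit 33469054308) (nat_lit 836)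 (nat_lit 26895447229) (nat_lit 150) (nat_lit 5) (nat_lit 160) (nat_lit 5) (nat_lit 161) (nat_lit 5) (nat_lit 475) (nat_lit 469) (nat_lit 256))) (XT.nd (nat_lit 78) (nat_lit 0) (nat_lit 76) (XT.lf (nat_lit 76) (nat_lit 38787638539) (nat_lit 0) (nat_lit 46879713449) (nat_lit 836) (nat_lit 54594535664) (nat_lit 151) (nat_lit 5) (nat_lit 150) (nat_lit 5) (nat_lit 161) (nat_lit 5) (nat_lit 476) (nat_lit 469) (nat_lit 255)) (XT.lf (nat_lit 0) (nat_lit 96336510905) (nat_lit 760) (nat_lit 28458702377) (nat_lit 836) (nat_lit 19158002017) (nat_lit 151) (nat_lit 5) (nat_lit 161) (nat_lit 5) (nat_lit 162) (nat_lit 5) (nat_lit 477) (nat_lit 469) (nat_lit 254)))))) (XT.nd (nat_lit 624) (nat_lit 1292) (nat_lit 0) (XT.nd (nat_lit 312) (nat_lit 1216) (nat_lit 0) (XT.nd (nat_lit 156) (nat_lit 684) (nat_lit 0) (XT.nd (nat_lit 78) (nat_lit 0) (nat_lit 76) (XT.lf (nat_lit 76) (nat_lit 49007470455) (nat_lit 0) (nat_lit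 60065105854) (nat_lit 836) (nat_lit 38679860625) (nat_lit 152) (nat_lit 5) (nat_lit 151) (nat_lit 5) (nat_lit 162) (nat_lit 5) (nat_lit 478) (nat_lit 469) (nat_lit 253)) (XT.lf (nat_lit 0) (nat_lit 123058465330) (nat_lit 760) (nat_lit 20513997992) (nat_lit 76) (nat_lit 8138505343) (nat_lit 152) (nat_lit 5) (nat_lit 162) (nat_lit 5) (nat_lit 153) (nat_lit 5) (nat_lit 479) (nat_lit 469) (nat_lit 252))) (XT.nd (nat_lit 78) (nat_lit 0) (nat_lit 0) (XT.lf (nat_lit 0) (nat_lit 62648822856) (nat_lit 760) (nat_lit 77057426146) (nat_lit 836) (nat_lit 16063048001) (nat_lit 142) (nat_lit 5) (nat_lit 152) (nat_lit 5) (nat_lit 153) (nat_lit 5) (nat_lit 480) (nat_lit 469) (nat_lit 251)) (XT.lf (nat_lit 0) (nat_lit 150681811493) (nat_lit 760) (nat_lit 6851834181) (nat_lit 836) (nat_lit 2479534920) (nat_lit 142) (nat_lit 5) (nat_lit 152) (nat_lit 5) (nat_lit 153) (nat_lit 5) (nat_lit 481) (nat_lit 469) (nat_lit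 250)))) (XT.nd (nat_lit 156) (nat_lit 380) (nat_lit 0) (XT.nd (nat_lit 78) (nat_lit 380) (nat_lit 0) (XT.lf (nat_lit 0) (nat_lit 13739065356) (nat_lit 456) (nat_lit 84407094938) (nat_lit 76) (nat_lit 66197247393) (nat_lit 136) (nat_lit 5) (nat_lit 142) (nat_lit 5) (nat_lit 137) (nat_lit 5) (nat_lit 482) (nat_lit 469) (nat_lit 249)) (XT.lf (nat_lit 0) (nat_lit 5117137412) (nat_lit 380) (nat_lit 25920791272) (nat_lit 456) (nat_lit 137832551983) (nat_lit 131) (nat_lit 5) (nat_lit 136) (nat_lit 5) (nat_lit 137) (nat_lit 5) (nat_lit 483) (nat_lit 469) (nat_lit 248))) (XT.nd (nat_lit 78) (nat_lit 380) (nat_lit 0) (XT.lf (nat_lit 0) (nat_lit 51433797917) (nat_lit 456) (nat_lit 72307371641) (nat_lit 76) (nat_lit 49771134626) (nat_lit 131) (nat_lit 5) (nat_lit 137) (nat_lit 5) (nat_lit 132) (nat_lit 5) (nat_lit 484) (nat_lit 469) (nat_lit 247)) (XT.lf (nat_lit 0) (nat_lit 24055726799) (nat_lit 380) (nat_lit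 49594077819) (nat_lit 456) (nat_lit 104696397081) (nat_lit 126) (nat_lit 5) (nat_lit 131) (nat_lit 5) (nat_lit 132) (nat_lit 5) (nat_lit 485) (nat_lit 469) (nat_lit 246))))) (XT.nd (nat_lit 312) (nat_lit 684) (nat_lit 0) (XT.nd (nat_lit 156) (nat_lit 304) (nat_lit 0) (XT.nd (nat_lit 78) (nat_lit 304) (nat_lit 0) (XT.lf (nat_lit 0) (nat_lit 98662310939) (nat_lit 456) (nat_lit 56074714768) (nat_lit 76) (nat_lit 28600483438) (nat_lit 126) (nat_lit 5) (nat_lit 132) (nat_lit 5) (nat_lit 127) (nat_lit 5) (nat_lit 486) (nat_lit 469) (nat_lit 245)) (XT.lf (nat_lit 0) (nat_lit 47767503443) (nat_lit 304) (nat_lit 78716589635) (nat_lit 380) (nat_lit 62016356380) (nat_lit 122) (nat_lit 5) (nat_lit 126) (nat_lit 5) (nat_lit 127) (nat_lit 5) (nat_lit 487) (nat_lit 469) (nat_lit 244))) (XT.nd (nat_lit 78) (nat_lit 304) (nat_lit 0) (XT.lf (nat_lit 0) (nat_lit 156679287433) (nat_lit 380) (nat_lit 35158427268)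 (nat_lit 76) (nat_lit 2034705952) (nat_lit 122) (nat_lit 5) (nat_lit 127) (nat_lit 5) (nat_lit 123) (nat_lit 5) (nat_lit 488) (nat_lit 469) (nat_lit 243)) (XT.lf (nat_lit 0) (nat_lit 76864354236) (nat_lit 304) (nat_lit 114010250685) (nat_lit 380) (nat_lit 8513867332) (nat_lit 118) (nat_lit 5) (nat_lit 122) (nat_lit 5) (nat_lit 123) (nat_lit 5) (nat_lit 489) (nat_lit 469) (nat_lit 242)))) (XT.nd (nat_lit 156) (nat_lit 304) (nat_lit 0) (XT.nd (nat_lit 78) (nat_lit 304) (nat_lit 0) (XT.lf (nat_lit 0) (nat_lit 21513094840) (nat_lit 380) (nat_lit 9788815359) (nat_lit 76) (nat_lit 173831302550) (nat_lit 117) (nat_lit 5) (nat_lit 122) (nat_lit 5) (nat_lit 118) (nat_lit 5) (nat_lit 490) (nat_lit 469) (nat_lit 241)) (XT.lf (nat_lit 0) (nat_lit 55402365500) (nat_lit 380) (nat_lit 99939736120) (nat_lit 76) (nat_lit 55683755978) (nat_lit 113) (nat_lit 5) (nat_lit 118) (nat_lit 5) (nat_lit 114) (nat_lit 5)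 (nat_lit 491) (nat_lit 469) (nat_lit 240))) (XT.nd (nat_lit 78) (nat_lit 0) (nat_lit 0) (XT.lf (nat_lit 0) (nat_lit 21305692519) (nat_lit 304) (nat_lit 70694562184) (nat_lit 380) (nat_lit 125162172250) (nat_lit 109) (nat_lit 5) (nat_lit 113) (nat_lit 5) (nat_lit 114) (nat_lit 5) (nat_lit 492) (nat_lit 469) (nat_lit 239)) (XT.lf (nat_lit 0) (nat_lit 132432111270) (nat_lit 380) (nat_lit 71749961488) (nat_lit 76) (nat_lit 19323548389) (nat_lit 109) (nat_lit 5) (nat_lit 114) (nat_lit 5) (nat_lit 110) (nat_lit 5) (nat_lit 493) (nat_lit 469) (nat_lit 238))))))) (XT.nd (nat_lit 1170) (nat_lit 1596) (nat_lit 0) (XT.nd (nat_lit 546) (nat_lit 1064) (nat_lit 0) (XT.nd (nat_lit 234) (nat_lit 456) (nat_lit 0) (XT.nd (nat_lit 78) (nat_lit 304) (nat_lit 0) (XT.lf (nat_lit 0) (nat_lit 59301068381) (nat_lit 228) (nat_lit 117669155792) (nat_lit 304) (nat_lit 53091517713) (nat_lit 106) (nat_lit 5) (nat_lit 109)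 (nat_lit 5) (nat_lit 110) (nat_lit 5) (nat_lit 494) (nat_lit 469) (nat_lit 237)) (XT.nd (nat_lit 78) (nat_lit 304) (nat_lit 0) (XT.lf (nat_lit 0) (nat_lit 199395489948) (nat_lit 228) (nat_lit 25554756736) (nat_lit 304) (nat_lit 11934671795) (nat_lit 106) (nat_lit 5) (nat_lit 109) (nat_lit 5) (nat_lit 110) (nat_lit 5) (nat_lit 495) (nat_lit 469) (nat_lit 236)) (XT.lf (nat_lit 0) (nat_lit 33069267956) (nat_lit 304) (nat_lit 139760661057) (nat_lit 76) (nat_lit 71055386093) (nat_lit 102) (nat_lit 5) (nat_lit 106) (nat_lit 5) (nat_lit 103) (nat_lit 5) (nat_lit 496) (nat_lit 469) (nat_lit 235)))) (XT.nd (nat_lit 156) (nat_lit 228) (nat_lit 0) (XT.nd (nat_lit 78) (nat_lit 0) (nat_lit 0) (XT.lf (nat_lit 0) (nat_lit 2367637628) (nat_lit 228) (nat_lit 78655779309) (nat_lit 304) (nat_lit 170147477347) (nat_lit 99) (nat_lit 5) (nat_lit 102) (nat_lit 5) (nat_lit 103) (nat_lit 5) (nat_lit 497) (nat_lit 469)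 (nat_lit 234)) (XT.lf (nat_lit 0) (nat_lit 134096682939) (nat_lit 304) (nat_lit 102602641432) (nat_lit 76) (nat_lit 21985357582) (nat_lit 99) (nat_lit 5) (nat_lit 103) (nat_lit 5) (nat_lit 100) (nat_lit 5) (nat_lit 498) (nat_lit 469) (nat_lit 233))) (XT.nd (nat_lit 78) (nat_lit 0) (nat_lit 0) (XT.lf (nat_lit 0) (nat_lit 51259024650) (nat_lit 228) (nat_lit 140654220673) (nat_lit 304) (nat_lit 74556432039) (nat_lit 96) (nat_lit 5) (nat_lit 99) (nat_lit 5) (nat_lit 100) (nat_lit 5) (nat_lit 499) (nat_lit 469) (nat_lit 232)) (XT.lf (nat_lit 0) (nat_lit 216375758675) (nat_lit 228) (nat_lit 37982402182) (nat_lit 304) (nat_lit 20198885442) (nat_lit 96) (nat_lit 5) (nat_lit 99) (nat_lit 5) (nat_lit 100) (nat_lit 5) (nat_lit 500) (nat_lit 469) (nat_lit 231))))) (XT.nd (nat_lit 312) (nat_lit 456) (nat_lit 0) (XT.nd (nat_lit 156) (nat_lit 380) (nat_lit 0) (XT.nd (nat_lit 78) (nat_lit 0) (nat_lit 0) (XT.lf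 (nat_lit 0) (nat_lit 38535464431) (nat_lit 228) (nat_lit 174429465053) (nat_lit 76) (nat_lit 69913106628) (nat_lit 93) (nat_lit 5) (nat_lit 96) (nat_lit 5) (nat_lit 94) (nat_lit 5) (nat_lit 501) (nat_lit 469) (nat_lit 230)) (XT.lf (nat_lit 0) (nat_lit 101151764855) (nat_lit 228) (nat_lit 7106053212) (nat_lit 76) (nat_lit 183259498492) (nat_lit 93) (nat_lit 5) (nat_lit 96) (nat_lit 5) (nat_lit 94) (nat_lit 5) (nat_lit 502) (nat_lit 469) (nat_lit 229))) (XT.nd (nat_lit 78) (nat_lit 152) (nat_lit 0) (XT.lf (nat_lit 0) (nat_lit 169688752887) (nat_lit 304) (nat_lit 126365968686) (nat_lit 76) (nat_lit 4394345831) (nat_lit 90) (nat_lit 5) (nat_lit 94) (nat_lit 5) (nat_lit 91) (nat_lit 5) (nat_lit 503) (nat_lit 469) (nat_lit 228)) (XT.lf (nat_lit 0) (nat_lit 54731959267) (nat_lit 152) (nat_lit 189672096518) (nat_lit 228) (nat_lit 65285776742) (nat_lit 88) (nat_lit 5) (nat_lit 90) (nat_lit 5) (nat_lit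 91) (nat_lit 5) (nat_lit 504) (nat_lit 469) (nat_lit 227)))) (XT.nd (nat_lit 156) (nat_lit 152) (nat_lit 0) (XT.nd (nat_lit 78) (nat_lit 228) (nat_lit 0) (XT.lf (nat_lit 0) (nat_lit 5526729832) (nat_lit 228) (nat_lit 70102990524) (nat_lit 76) (nat_lit 243651459444) (nat_lit 87) (nat_lit 5) (nat_lit 90) (nat_lit 5) (nat_lit 88) (nat_lit 5) (nat_lit 505) (nat_lit 469) (nat_lit 226)) (XT.lf (nat_lit 0) (nat_lit 80407198245) (nat_lit 304) (nat_lit 202949580926) (nat_lit 76) (nat_lit 45805734004) (nat_lit 84) (nat_lit 5) (nat_lit 88) (nat_lit 5) (nat_lit 85) (nat_lit 5) (nat_lit 506) (nat_lit 469) (nat_lit 225))) (XT.nd (nat_lit 78) (nat_lit 152) (nat_lit 0) (XT.lf (nat_lit 0) (nat_lit 161478129039) (nat_lit 304) (nat_lit 5959512404) (nat_lit 76) (nat_lit 171977949833) (nat_lit 84) (nat_lit 5) (nat_lit 88) (nat_lit 5) (nat_lit 85) (nat_lit 5) (nat_lit 507) (nat_lit 469) (nat_lit 224)) (XT.lf (nat_lit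 0) (nat_lit 207521928640) (nat_lit 152) (nat_lit 42320597245) (nat_lit 228) (nat_lit 100176801428) (nat_lit 82) (nat_lit 5) (nat_lit 84) (nat_lit 5) (nat_lit 85) (nat_lit 5) (nat_lit 508) (nat_lit 469) (nat_lit 223)))))) (XT.nd (nat_lit 624) (nat_lit 684) (nat_lit 0) (XT.nd (nat_lit 312) (nat_lit 380) (nat_lit 0) (XT.nd (nat_lit 156) (nat_lit 304) (nat_lit 0) (XT.nd (nat_lit 78) (nat_lit 76) (nat_lit 0) (XT.lf (nat_lit 0) (nat_lit 71636824353) (nat_lit 152) (nat_lit 273599629209) (nat_lit 228) (nat_lit 15786231047) (nat_lit 80) (nat_lit 5) (nat_lit 82) (nat_lit 5) (nat_lit 83) (nat_lit 5) (nat_lit 509) (nat_lit 469) (nat_lit 222)) (XT.lf (nat_lit 0) (nat_lit 73639575788) (nat_lit 228) (nat_lit 72901056983) (nat_lit 76) (nat_lit 225821401444) (nat_lit 79) (nat_lit 5) (nat_lit 82) (nat_lit 5) (nat_lit 80) (nat_lit 5) (nat_lit 510) (nat_lit 469) (nat_lit 221))) (XT.nd (nat_lit 78) (nat_lit 152)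 (nat_lit 0) (XT.lf (nat_lit 0) (nat_lit 159245936300) (nat_lit 152) (nat_lit 10246416991) (nat_lit 228) (nat_lit 214638748423) (nat_lit 77) (nat_lit 5) (nat_lit 79) (nat_lit 5) (nat_lit 80) (nat_lit 5) (nat_lit 511) (nat_lit 469) (nat_lit 220)) (XT.lf (nat_lit 0) (nat_lit 7241396880) (nat_lit 152) (nat_lit 266338568375) (nat_lit 228) (nat_lit 122736547556) (nat_lit 75) (nat_lit 5) (nat_lit 77) (nat_lit 5) (nat_lit 78) (nat_lit 5) (nat_lit 512) (nat_lit 469) (nat_lit 219)))) (XT.nd (nat_lit 156) (nat_lit 152) (nat_lit 0) (XT.nd (nat_lit 78) (nat_lit 228) (nat_lit 0) (XT.lf (nat_lit 0) (nat_lit 258608141599) (nat_lit 152) (nat_lit 128237548381) (nat_lit 228) (nat_lit 22066817881) (nat_lit 75) (nat_lit 5) (nat_lit 77) (nat_lit 5) (nat_lit 78) (nat_lit 5) (nat_lit 513) (nat_lit 469) (nat_lit 218)) (XT.lf (nat_lit 0) (nat_lit 82867224992) (nat_lit 228) (nat_lit 319926846197) (nat_lit 76) (nat_lit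 19183555861) (nat_lit 72) (nat_lit 5) (nat_lit 75) (nat_lit 5) (nat_lit 73) (nat_lit 5) (nat_lit 514) (nat_lit 469) (nat_lit 217))) (XT.nd (nat_lit 78) (nat_lit 152) (nat_lit 0) (XT.lf (nat_lit 0) (nat_lit 196995772698) (nat_lit 228) (nat_lit 65832669912) (nat_lit 76) (nat_lit 172615002413) (nat_lit 72) (nat_lit 5) (nat_lit 75) (nat_lit 5) (nat_lit 73) (nat_lit 5) (nat_lit 515) (nat_lit 469) (nat_lit 216)) (XT.lf (nat_lit 0) (nat_lit 207610947826) (nat_lit 152) (nat_lit 112461123236) (nat_lit 228) (nat_lit 129348416672) (nat_lit 70) (nat_lit 5) (nat_lit 72) (nat_lit 5) (nat_lit 73) (nat_lit 5) (nat_lit 516) (nat_lit 469) (nat_lit 215))))) (XT.nd (nat_lit 312) (nat_lit 380) (nat_lit 0) (XT.nd (nat_lit 156) (nat_lit 152) (nat_lit 0) (XT.nd (nat_lit 78) (nat_lit 76) (nat_lit 0) (XT.lf (nat_lit 0) (nat_lit 33310208874) (nat_lit 76) (nat_lit 418354366356) (nat_lit 152) (nat_lit 12313687811) (nat_lit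 69) (nat_lit 5) (nat_lit 70) (nat_lit 5) (nat_lit 71) (nat_lit 4) (nat_lit 517) (nat_lit 469) (nat_lit 214)) (XT.lf (nat_lit 0) (nat_lit 113039613836) (nat_lit 152) (nat_lit 152115367581) (nat_lit 76) (nat_lit 213722335363) (nat_lit 68) (nat_lit 5) (nat_lit 70) (nat_lit 5) (nat_lit 69) (nat_lit 5) (nat_lit 518) (nat_lit 469) (nat_lit 213))) (XT.nd (nat_lit 78) (nat_lit 0) (nat_lit 0) (XT.lf (nat_lit 0) (nat_lit 144797401049) (nat_lit 152) (nat_lit 101709990594) (nat_lit 228) (nat_lit 247890806793) (nat_lit 66) (nat_lit 5) (nat_lit 68) (nat_lit 5) (nat_lit 69) (nat_lit 5) (nat_lit 519) (nat_lit 469) (nat_lit 212)) (XT.lf (nat_lit 0) (nat_lit 390358324712) (nat_lit 228) (nat_lit 49863196791) (nat_lit 76) (nat_lit 70288114357) (nat_lit 66) (nat_lit 5) (nat_lit 69) (nat_lit 5) (nat_lit 67) (nat_lit 4) (nat_lit 520) (nat_lit 469) (nat_lit 211)))) (XT.nd (nat_lit 156) (nat_lit 76) (nat_lit 0) (XT.nd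 (nat_lit 78) (nat_lit 152) (nat_lit 0) (XT.lf (nat_lit 0) (nat_lit 19537171296) (nat_lit 152) (nat_lit 255549964083) (nat_lit 76) (nat_lit 252028134988) (nat_lit 64) (nat_lit 5) (nat_lit 66) (nat_lit 5) (nat_lit 65) (nat_lit 5) (nat_lit 521) (nat_lit 469) (nat_lit 210)) (XT.lf (nat_lit 0) (nat_lit 66429938961) (nat_lit 152) (nat_lit 97637667546) (nat_lit 228) (nat_lit 380290325385) (nat_lit 62) (nat_lit 5) (nat_lit 64) (nat_lit 5) (nat_lit 65) (nat_lit 5) (nat_lit 522) (nat_lit 469) (nat_lit 209))) (XT.nd (nat_lit 78) (nat_lit 76) (nat_lit 0) (XT.lf (nat_lit 0) (nat_lit 321607926929) (nat_lit 228) (nat_lit 150321042683) (nat_lit 76) (nat_lit 90244588711) (nat_lit 62) (nat_lit 5) (nat_lit 65) (nat_lit 5) (nat_lit 63) (nat_lit 4) (nat_lit 523) (nat_lit 469) (nat_lit 208)) (XT.lf (nat_lit 0) (nat_lit 198416091096) (nat_lit 76) (nat_lit 293307566298) (nat_lit 152) (nat_lit 88921388984) (nat_lit 61)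 (nat_lit 5) (nat_lit 62) (nat_lit 5) (nat_lit 63) (nat_lit 4) (nat_lit 524) (nat_lit 469) (nat_lit 207))))))))
noncomputable def xc221 : XT := (XT.nd (nat_lit 59202) (nat_lit 0) (nat_lit 2432) (XT.nd (nat_lit 1170) (nat_lit 228) (nat_lit 0) (XT.nd (nat_lit 546) (nat_lit 532) (nat_lit 0) (XT.nd (nat_lit 234) (nat_lit 304) (nat_lit 0) (XT.nd (nat_lit 78) (nat_lit 228) (nat_lit 0) (XT.lf (nat_lit 0) (nat_lit 70642303200) (nat_lit 152) (nat_lit 31243425702) (nat_lit 76) (nat_lit 497970125038) (nat_lit 60) (nat_lit 5) (nat_lit 62) (nat_lit 5) (nat_lit 61) (nat_lit 5) (nat_lit 525) (nat_lit 469) (nat_lit 206)) (XT.nd (nat_lit 78) (nat_lit 76) (nat_lit 0) (XT.lf (nat_lit 0) (nat_lit 242272492067) (nat_lit 228) (nat_lit 274405789285) (nat_lit 76) (nat_lit 102922201455) (nat_lit 58) (nat_lit 5) (nat_lit 61) (nat_lit 5) (nat_lit 59) (nat_lit 4) (nat_lit 526) (nat_lit 469) (nat_lit 205)) (XT.lf (nat_lit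 0) (nat_lit 102846226203) (nat_lit 76) (nat_lit 323451684892) (nat_lit 152) (nat_lit 213843745989) (nat_lit 57) (nat_lit 5) (nat_lit 58) (nat_lit 5) (nat_lit 59) (nat_lit 4) (nat_lit 527) (nat_lit 469) (nat_lit 204)))) (XT.nd (nat_lit 156) (nat_lit 76) (nat_lit 0) (XT.nd (nat_lit 78) (nat_lit 228) (nat_lit 0) (XT.lf (nat_lit 0) (nat_lit 508487497157) (nat_lit 76) (nat_lit 115684248094) (nat_lit 152) (nat_lit 37305787616) (nat_lit 57) (nat_lit 5) (nat_lit 58) (nat_lit 5) (nat_lit 59) (nat_lit 4) (nat_lit 528) (nat_lit 469) (nat_lit 203)) (XT.lf (nat_lit 0) (nat_lit 149027130366) (nat_lit 228) (nat_lit 428841683160) (nat_lit 76) (nat_lit 105610464237) (nat_lit 54) (nat_lit 5) (nat_lit 57) (nat_lit 5) (nat_lit 55) (nat_lit 4) (nat_lit 529) (nat_lit 469) (nat_lit 202))) (XT.nd (nat_lit 78) (nat_lit 76) (nat_lit 0) (XT.lf (nat_lit 0) (nat_lit 347952824522) (nat_lit 228) (nat_lit 21044087078) (nat_lit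 76) (nat_lit 337327127324) (nat_lit 54) (nat_lit 5) (nat_lit 57) (nat_lit 5) (nat_lit 55) (nat_lit 4) (nat_lit 530) (nat_lit 469) (nat_lit 201)) (XT.lf (nat_lit 0) (nat_lit 420605297370) (nat_lit 76) (nat_lit 142786287017) (nat_lit 152) (nat_lit 166591114708) (nat_lit 53) (nat_lit 5) (nat_lit 54) (nat_lit 5) (nat_lit 55) (nat_lit 4) (nat_lit 531) (nat_lit 469) (nat_lit 200))))) (XT.nd (nat_lit 312) (nat_lit 304) (nat_lit 0) (XT.nd (nat_lit 156) (nat_lit 76) (nat_lit 0) (XT.nd (nat_lit 78) (nat_lit 0) (nat_lit 0) (XT.lf (nat_lit 0) (nat_lit 37647413107) (nat_lit 152) (nat_lit 622201393995) (nat_lit 76) (nat_lit 94749209278) (nat_lit 51) (nat_lit 5) (nat_lit 53) (nat_lit 5) (nat_lit 52) (nat_lit 4) (nat_lit 532) (nat_lit 469) (nat_lit 199)) (XT.lf (nat_lit 0) (nat_lit 254165374878) (nat_lit 152) (nat_lit 178339635661) (nat_lit 76) (nat_lit 347419235826) (nat_lit 51) (nat_lit 5) (nat_lit 53) (nat_lit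 5) (nat_lit 52) (nat_lit 4) (nat_lit 533) (nat_lit 469) (nat_lit 198))) (XT.nd (nat_lit 78) (nat_lit 0) (nat_lit 0) (XT.lf (nat_lit 0) (nat_lit 297228288208) (nat_lit 76) (nat_lit 188921469183) (nat_lit 152) (nat_lit 320135004327) (nat_lit 50) (nat_lit 5) (nat_lit 51) (nat_lit 5) (nat_lit 52) (nat_lit 4) (nat_lit 534) (nat_lit 469) (nat_lit 197)) (XT.lf (nat_lit 0) (nat_lit 733846675149) (nat_lit 152) (nat_lit 32139307553) (nat_lit 0) (nat_lit 67771654332) (nat_lit 50) (nat_lit 5) (nat_lit 52) (nat_lit 4) (nat_lit 50) (nat_lit 4) (nat_lit 535) (nat_lit 469) (nat_lit 196)))) (XT.nd (nat_lit 156) (nat_lit 76) (nat_lit 0) (XT.nd (nat_lit 78) (nat_lit 76) (nat_lit 0) (XT.lf (nat_lit 0) (nat_lit 137900471139) (nat_lit 152) (nat_lit 383379107054) (nat_lit 76) (nat_lit 340683091637) (nat_lit 48) (nat_lit 5) (nat_lit 50) (nat_lit 5) (nat_lit 49) (nat_lit 4) (nat_lit 536) (nat_lit 469) (nat_lit 195))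 (XT.lf (nat_lit 0) (nat_lit 126819778610) (nat_lit 76) (nat_lit 259958221924) (nat_lit 152) (nat_lit 504591400093) (nat_lit 47) (nat_lit 5) (nat_lit 48) (nat_lit 5) (nat_lit 49) (nat_lit 4) (nat_lit 537) (nat_lit 469) (nat_lit 194))) (XT.nd (nat_lit 78) (nat_lit 76) (nat_lit 0) (XT.lf (nat_lit 0) (nat_lit 654923793847) (nat_lit 152) (nat_lit 246414965392) (nat_lit 0) (nat_lit 20566489353) (nat_lit 47) (nat_lit 5) (nat_lit 49) (nat_lit 4) (nat_lit 47) (nat_lit 4) (nat_lit 538) (nat_lit 469) (nat_lit 193)) (XT.lf (nat_lit 0) (nat_lit 303064700524) (nat_lit 76) (nat_lit 642405436382) (nat_lit 76) (nat_lit 8048089045) (nat_lit 46) (nat_lit 4) (nat_lit 47) (nat_lit 5) (nat_lit 47) (nat_lit 4) (nat_lit 539) (nat_lit 469) (nat_lit 192)))))) (XT.nd (nat_lit 57408) (nat_lit 0) (nat_lit 7524) (XT.nd (nat_lit 57096) (nat_lit 0) (nat_lit 7904) (XT.nd (nat_lit 156) (nat_lit 76) (nat_lit 0) (XT.nd (nat_lit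 78) (nat_lit 76) (nat_lit 0) (XT.lf (nat_lit 0) (nat_lit 259629204754) (nat_lit 152) (nat_lit 102117518392) (nat_lit 76) (nat_lit 624547094746) (nat_lit 45) (nat_lit 5) (nat_lit 47) (nat_lit 5) (nat_lit 46) (nat_lit 4) (nat_lit 540) (nat_lit 469) (nat_lit 191)) (XT.lf (nat_lit 0) (nat_lit 489159437092) (nat_lit 76) (nat_lit 58897569780) (nat_lit 152) (nat_lit 472262730154) (nat_lit 44) (nat_lit 5) (nat_lit 45) (nat_lit 5) (nat_lit 46) (nat_lit 4) (nat_lit 541) (nat_lit 469) (nat_lit 190))) (XT.nd (nat_lit 56862) (nat_lit 0) (nat_lit 7904) (XT.lf (nat_lit 0) (nat_lit 55280770187) (nat_lit 76) (nat_lit 802291423949) (nat_lit 76) (nat_lit 198141458230) (nat_lit 43) (nat_lit 4) (nat_lit 44) (nat_lit 5) (nat_lit 44) (nat_lit 4) (nat_lit 542) (nat_lit 469) (nat_lit 189)) (XT.lf (nat_lit 0) (nat_lit 25660164627) (nat_lit 836) (nat_lit 18054418884) (nat_lit 836) (nat_lit 18054418884) (nat_lit 147) (nat_lit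 3) (nat_lit 158) (nat_lit 3) (nat_lit 158) (nat_lit 5) (nat_lit 470) (nat_lit 470) (nat_lit 260)))) (XT.nd (nat_lit 156) (nat_lit 0) (nat_lit 76) (XT.nd (nat_lit 78) (nat_lit 0) (nat_lit 76) (XT.lf (nat_lit 76) (nat_lit 25991701785) (nat_lit 0) (nat_lit 27021651167) (nat_lit 836) (nat_lit 73592600534) (nat_lit 148) (nat_lit 5) (nat_lit 147) (nat_lit 3) (nat_lit 158) (nat_lit 5) (nat_lit 471) (nat_lit 470) (nat_lit 259)) (XT.lf (nat_lit 0) (nat_lit 55980706894) (nat_lit 760) (nat_lit 37924428185) (nat_lit 836) (nat_lit 35862680626) (nat_lit 148) (nat_lit 5) (nat_lit 158) (nat_lit 5) (nat_lit 159) (nat_lit 5) (nat_lit 472) (nat_lit 470) (nat_lit 258))) (XT.nd (nat_lit 78) (nat_lit 0) (nat_lit 76) (XT.lf (nat_lit 76) (nat_lit 28364598771) (nat_lit 0) (nat_lit 31617401430) (nat_lit 836) (nat_lit 73061492290) (nat_lit 149) (nat_lit 5) (nat_lit 148) (nat_lit 5) (nat_lit 159) (nat_lit 5) (nat_lit 473)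 (nat_lit 470) (nat_lit 257)) (XT.lf (nat_lit 0) (nat_lit 65363384121) (nat_lit 760) (nat_lit 37704280794) (nat_lit 836) (nat_lit 33356286941) (nat_lit 149) (nat_lit 5) (nat_lit 159) (nat_lit 5) (nat_lit 160) (nat_lit 5) (nat_lit 474) (nat_lit 470) (nat_lit 256))))) (XT.nd (nat_lit 312) (nat_lit 532) (nat_lit 0) (XT.nd (nat_lit 156) (nat_lit 0) (nat_lit 76) (XT.nd (nat_lit 78) (nat_lit 0) (nat_lit 76) (XT.lf (nat_lit 76) (nat_lit 33161977428) (nat_lit 0) (nat_lit 38887695239) (nat_lit 836) (nat_lit 67871969787) (nat_lit 150) (nat_lit 5) (nat_lit 149) (nat_lit 5) (nat_lit 160) (nat_lit 5) (nat_lit 475) (nat_lit 470) (nat_lit 255)) (XT.lf (nat_lit 0) (nat_lit 80164044288) (nat_lit 760) (nat_lit 35137354659) (nat_lit 836) (nat_lit 28238130238) (nat_lit 150) (nat_lit 5) (nat_lit 160) (nat_lit 5) (nat_lit 161) (nat_lit 5) (nat_lit 476) (nat_lit 470) (nat_lit 254))) (XT.nd (nat_lit 78) (nat_lit 0) (nat_lit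 76) (XT.lf (nat_lit 76) (nat_lit 40732089728) (nat_lit 0) (nat_lit 49225276498) (nat_lit 836) (nat_lit 57317282471) (nat_lit 151) (nat_lit 5) (nat_lit 150) (nat_lit 5) (nat_lit 161) (nat_lit 5) (nat_lit 477) (nat_lit 470) (nat_lit 253)) (XT.lf (nat_lit 0) (nat_lit 101159643128) (nat_lit 760) (nat_lit 29876468708) (nat_lit 836) (nat_lit 20114447936) (nat_lit 151) (nat_lit 5) (nat_lit 161) (nat_lit 5) (nat_lit 162) (nat_lit 5) (nat_lit 478) (nat_lit 470) (nat_lit 252)))) (XT.nd (nat_lit 156) (nat_lit 684) (nat_lit 0) (XT.nd (nat_lit 78) (nat_lit 0) (nat_lit 76) (XT.lf (nat_lit 76) (nat_lit 51462929397) (nat_lit 0) (nat_lit 63069361485) (nat_lit 836) (nat_lit 40607462699) (nat_lit 152) (nat_lit 5) (nat_lit 151) (nat_lit 5) (nat_lit 162) (nat_lit 5) (nat_lit 479) (nat_lit 470) (nat_lit 251)) (XT.lf (nat_lit 0) (nat_lit 129217169682) (nat_lit 760) (nat_lit 21534549094) (nat_lit 76) (nat_lit 8544508400)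 (nat_lit 152) (nat_lit 5) (nat_lit 162) (nat_lit 5) (nat_lit 153) (nat_lit 5) (nat_lit 480) (nat_lit 470) (nat_lit 250))) (XT.nd (nat_lit 78) (nat_lit 0) (nat_lit 0) (XT.lf (nat_lit 0) (nat_lit 65786329751) (nat_lit 760) (nat_lit 80910816587) (nat_lit 836) (nat_lit 16860335443) (nat_lit 142) (nat_lit 5) (nat_lit 152) (nat_lit 5) (nat_lit 153) (nat_lit 5) (nat_lit 481) (nat_lit 470) (nat_lit 249)) (XT.lf (nat_lit 0) (nat_lit 158220726594) (nat_lit 760) (nat_lit 7194920303) (nat_lit 836) (nat_lit 2597925992) (nat_lit 142) (nat_lit 5) (nat_lit 152) (nat_lit 5) (nat_lit 153) (nat_lit 5) (nat_lit 482) (nat_lit 470) (nat_lit 248))))))) (XT.nd (nat_lit 1170) (nat_lit 2052) (nat_lit 0) (XT.nd (nat_lit 546) (nat_lit 1520) (nat_lit 0) (XT.nd (nat_lit 234) (nat_lit 684) (nat_lit 0) (XT.nd (nat_lit 78) (nat_lit 380) (nat_lit 0) (XT.lf (nat_lit 0) (nat_lit 14431240187) (nat_lit 456) (nat_lit 88622259584)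 (nat_lit 76) (nat_lit 69506816507) (nat_lit 136) (nat_lit 5) (nat_lit 142) (nat_lit 5) (nat_lit 137) (nat_lit 5) (nat_lit 483) (nat_lit 470) (nat_lit 247)) (XT.nd (nat_lit 78) (nat_lit 0) (nat_lit 0) (XT.lf (nat_lit 0) (nat_lit 5378100672) (nat_lit 380) (nat_lit 27216777089) (nat_lit 456) (nat_lit 144718873627) (nat_lit 131) (nat_lit 5) (nat_lit 136) (nat_lit 5) (nat_lit 137) (nat_lit 5) (nat_lit 484) (nat_lit 470) (nat_lit 246)) (XT.lf (nat_lit 0) (nat_lit 54010300652) (nat_lit 456) (nat_lit 75917636545) (nat_lit 76) (nat_lit 52259740906) (nat_lit 131) (nat_lit 5) (nat_lit 137) (nat_lit 5) (nat_lit 132) (nat_lit 5) (nat_lit 485) (nat_lit 470) (nat_lit 245)))) (XT.nd (nat_lit 156) (nat_lit 304) (nat_lit 0) (XT.nd (nat_lit 78) (nat_lit 0) (nat_lit 0) (XT.lf (nat_lit 0) (nat_lit 25263534500) (nat_lit 380) (nat_lit 52073422403) (nat_lit 456) (nat_lit 109926321161) (nat_lit 126) (nat_lit 5) (nat_lit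 131) (nat_lit 5) (nat_lit 132) (nat_lit 5) (nat_lit 486) (nat_lit 470) (nat_lit 244)) (XT.lf (nat_lit 0) (nat_lit 103599871881) (nat_lit 456) (nat_lit 58873451010) (nat_lit 76) (nat_lit 30030838854) (nat_lit 126) (nat_lit 5) (nat_lit 132) (nat_lit 5) (nat_lit 127) (nat_lit 5) (nat_lit 487) (nat_lit 470) (nat_lit 243))) (XT.nd (nat_lit 78) (nat_lit 0) (nat_lit 0) (XT.lf (nat_lit 0) (nat_lit 50160797475) (nat_lit 304) (nat_lit 82651810764) (nat_lit 380) (nat_lit 65112647608) (nat_lit 122) (nat_lit 5) (nat_lit 126) (nat_lit 5) (nat_lit 127) (nat_lit 5) (nat_lit 488) (nat_lit 470) (nat_lit 242)) (XT.lf (nat_lit 0) (nat_lit 164517366094) (nat_lit 380) (nat_lit 36911467254) (nat_lit 76) (nat_lit 2137002090) (nat_lit 122) (nat_lit 5) (nat_lit 127) (nat_lit 5) (nat_lit 123) (nat_lit 5) (nat_lit 489) (nat_lit 470) (nat_lit 241))))) (XT.nd (nat_lit 312) (nat_lit 532) (nat_lit 0) (XT.nd (nat_lit 156) (nat_lit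 608) (nat_lit 0) (XT.nd (nat_lit 78) (nat_lit 76) (nat_lit 0) (XT.lf (nat_lit 0) (nat_lit 80712374594) (nat_lit 304) (nat_lit 119709953928) (nat_lit 380) (nat_lit 8935367169) (nat_lit 118) (nat_lit 5) (nat_lit 122) (nat_lit 5) (nat_lit 123) (nat_lit 5) (nat_lit 490) (nat_lit 470) (nat_lit 240)) (XT.lf (nat_lit 0) (nat_lit 22592615591) (nat_lit 380) (nat_lit 10273553891) (nat_lit 76) (nat_lit 182523510143) (nat_lit 117) (nat_lit 5) (nat_lit 122) (nat_lit 5) (nat_lit 118) (nat_lit 5) (nat_lit 491) (nat_lit 470) (nat_lit 239))) (XT.nd (nat_lit 78) (nat_lit 304) (nat_lit 0) (XT.lf (nat_lit 0) (nat_lit 58176251538) (nat_lit 380) (nat_lit 104931922005) (nat_lit 76) (nat_lit 58468788108) (nat_lit 113) (nat_lit 5) (nat_lit 118) (nat_lit 5) (nat_lit 114) (nat_lit 5) (nat_lit 492) (nat_lit 470) (nat_lit 238)) (XT.lf (nat_lit 0) (nat_lit 22375700632) (nat_lit 304) (nat_lit 74228228899) (nat_lit 380) (nat_lit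 131416435248) (nat_lit 109) (nat_lit 5) (nat_lit 113) (nat_lit 5) (nat_lit 114) (nat_lit 5) (nat_lit 493) (nat_lit 470) (nat_lit 237)))) (XT.nd (nat_lit 156) (nat_lit 304) (nat_lit 0) (XT.nd (nat_lit 78) (nat_lit 228) (nat_lit 0) (XT.lf (nat_lit 0) (nat_lit 139057220323) (nat_lit 380) (nat_lit 75332802002) (nat_lit 76) (nat_lit 20290704307) (nat_lit 109) (nat_lit 5) (nat_lit 114) (nat_lit 5) (nat_lit 110) (nat_lit 5) (nat_lit 494) (nat_lit 470) (nat_lit 236)) (XT.lf (nat_lit 0) (nat_lit 62270704238) (nat_lit 228) (nat_lit 123551439346) (nat_lit 304) (nat_lit 55742514609) (nat_lit 106) (nat_lit 5) (nat_lit 109) (nat_lit 5) (nat_lit 110) (nat_lit 5) (nat_lit 495) (nat_lit 470) (nat_lit 235))) (XT.nd (nat_lit 78) (nat_lit 304) (nat_lit 0) (XT.lf (nat_lit 0) (nat_lit 209369628672) (nat_lit 228) (nat_lit 26831376252) (nat_lit 304) (nat_lit 12527996823) (nat_lit 106) (nat_lit 5) (nat_lit 109) (nat_lit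 5) (nat_lit 110) (nat_lit 5) (nat_lit 496) (nat_lit 470) (nat_lit 234)) (XT.lf (nat_lit 0) (nat_lit 34725961010) (nat_lit 304) (nat_lit 146744150306) (nat_lit 76) (nat_lit 74609307736) (nat_lit 102) (nat_lit 5) (nat_lit 106) (nat_lit 5) (nat_lit 103) (nat_lit 5) (nat_lit 497) (nat_lit 470) (nat_lit 233)))))) (XT.nd (nat_lit 624) (nat_lit 988) (nat_lit 0) (XT.nd (nat_lit 312) (nat_lit 608) (nat_lit 0) (XT.nd (nat_lit 156) (nat_lit 228) (nat_lit 0) (XT.nd (nat_lit 78) (nat_lit 0) (nat_lit 0) (XT.lf (nat_lit 0) (nat_lit 2490490026) (nat_lit 228) (nat_lit 82587243417) (nat_lit 304) (nat_lit 178651547961) (nat_lit 99) (nat_lit 5) (nat_lit 102) (nat_lit 5) (nat_lit 103) (nat_lit 5) (nat_lit 498) (nat_lit 470) (nat_lit 232)) (XT.lf (nat_lit 0) (nat_lit 140804532652) (nat_lit 304) (nat_lit 107728385478) (nat_lit 76) (nat_lit 23085846846) (nat_lit 99) (nat_lit 5) (nat_lit 103) (nat_lit 5) (nat_lit 100)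 (nat_lit 5) (nat_lit 499) (nat_lit 470) (nat_lit 231))) (XT.nd (nat_lit 78) (nat_lit 0) (nat_lit 0) (XT.lf (nat_lit 0) (nat_lit 53826293133) (nat_lit 228) (nat_lit 147685553828) (nat_lit 304) (nat_lit 78281167018) (nat_lit 96) (nat_lit 5) (nat_lit 99) (nat_lit 5) (nat_lit 100) (nat_lit 5) (nat_lit 500) (nat_lit 470) (nat_lit 230)) (XT.lf (nat_lit 0) (nat_lit 227198658276) (nat_lit 228) (nat_lit 39880210026) (nat_lit 304) (nat_lit 21205890073) (nat_lit 96) (nat_lit 5) (nat_lit 99) (nat_lit 5) (nat_lit 100) (nat_lit 5) (nat_lit 501) (nat_lit 470) (nat_lit 229)))) (XT.nd (nat_lit 156) (nat_lit 380) (nat_lit 0) (XT.nd (nat_lit 78) (nat_lit 0) (nat_lit 0) (XT.lf (nat_lit 0) (nat_lit 40465033601) (nat_lit 228) (nat_lit 183146682445) (nat_lit 76) (nat_lit 73410081830) (nat_lit 93) (nat_lit 5) (nat_lit 96) (nat_lit 5) (nat_lit 94) (nat_lit 5) (nat_lit 502) (nat_lit 470) (nat_lit 228)) (XT.lf (nat_lit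 0) (nat_lit 106212015905) (nat_lit 228) (nat_lit 7457302672) (nat_lit 76) (nat_lit 192423730436) (nat_lit 93) (nat_lit 5) (nat_lit 96) (nat_lit 5) (nat_lit 94) (nat_lit 5) (nat_lit 503) (nat_lit 470) (nat_lit 227))) (XT.nd (nat_lit 78) (nat_lit 152) (nat_lit 0) (XT.lf (nat_lit 0) (nat_lit 178175810496) (nat_lit 304) (nat_lit 132680170854) (nat_lit 76) (nat_lit 4615408206) (nat_lit 90) (nat_lit 5) (nat_lit 94) (nat_lit 5) (nat_lit 91) (nat_lit 5) (nat_lit 504) (nat_lit 470) (nat_lit 226)) (XT.lf (nat_lit 0) (nat_lit 57472587428) (nat_lit 152) (nat_lit 199154229273) (nat_lit 228) (nat_lit 68547379336) (nat_lit 88) (nat_lit 5) (nat_lit 90) (nat_lit 5) (nat_lit 91) (nat_lit 5) (nat_lit 505) (nat_lit 470) (nat_lit 225))))) (XT.nd (nat_lit 312) (nat_lit 532) (nat_lit 0) (XT.nd (nat_lit 156) (nat_lit 152) (nat_lit 0) (XT.nd (nat_lit 78) (nat_lit 228) (nat_lit 0) (XT.lf (nat_lit 0) (nat_lit 5805542768)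 (nat_lit 228) (nat_lit 73604219693) (nat_lit 76) (nat_lit 255835352316) (nat_lit 87) (nat_lit 5) (nat_lit 90) (nat_lit 5) (nat_lit 88) (nat_lit 5) (nat_lit 506) (nat_lit 470) (nat_lit 224)) (XT.lf (nat_lit 0) (nat_lit 84429999354) (nat_lit 304) (nat_lit 213093104185) (nat_lit 76) (nat_lit 48097413053) (nat_lit 84) (nat_lit 5) (nat_lit 88) (nat_lit 5) (nat_lit 85) (nat_lit 5) (nat_lit 507) (nat_lit 470) (nat_lit 223))) (XT.nd (nat_lit 78) (nat_lit 152) (nat_lit 0) (XT.lf (nat_lit 0) (nat_lit 169554360440) (nat_lit 304) (nat_lit 6253720608) (nat_lit 76) (nat_lit 180578173372) (nat_lit 84) (nat_lit 5) (nat_lit 88) (nat_lit 5) (nat_lit 85) (nat_lit 5) (nat_lit 508) (nat_lit 470) (nat_lit 222)) (XT.lf (nat_lit 0) (nat_lit 217901731724) (nat_lit 152) (nat_lit 44435192564) (nat_lit 228) (nat_lit 105183255620) (nat_lit 82) (nat_lit 5) (nat_lit 84) (nat_lit 5) (nat_lit 85) (nat_lit 5) (nat_lit 509) (nat_lit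 470) (nat_lit 221)))) (XT.nd (nat_lit 156) (nat_lit 304) (nat_lit 0) (XT.nd (nat_lit 78) (nat_lit 76) (nat_lit 0) (XT.lf (nat_lit 0) (nat_lit 75222402337) (nat_lit 152) (nat_lit 287278117487) (nat_lit 228) (nat_lit 16573186678) (nat_lit 80) (nat_lit 5) (nat_lit 82) (nat_lit 5) (nat_lit 83) (nat_lit 5) (nat_lit 510) (nat_lit 470) (nat_lit 220)) (XT.lf (nat_lit 0) (nat_lit 77323726499) (nat_lit 228) (nat_lit 76542479050) (nat_lit 76) (nat_lit 237113821639) (nat_lit 79) (nat_lit 5) (nat_lit 82) (nat_lit 5) (nat_lit 80) (nat_lit 5) (nat_lit 511) (nat_lit 470) (nat_lit 219))) (XT.nd (nat_lit 78) (nat_lit 152) (nat_lit 0) (XT.lf (nat_lit 0) (nat_lit 167211805336) (nat_lit 152) (nat_lit 10757289889) (nat_lit 228) (nat_lit 225368455226) (nat_lit 77) (nat_lit 5) (nat_lit 79) (nat_lit 5) (nat_lit 80) (nat_lit 5) (nat_lit 512) (nat_lit 470) (nat_lit 218)) (XT.lf (nat_lit 0) (nat_lit 7607063721) (nat_lit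 152) (nat_lit 279654000600) (nat_lit 228) (nat_lit 128871168962) (nat_lit 75) (nat_lit 5) (nat_lit 77) (nat_lit 5) (nat_lit 78) (nat_lit 5) (nat_lit 513) (nat_lit 470) (nat_lit 217))))))))
noncomputable def xc222 : XT := (XT.nd (nat_lit 59280) (nat_lit 0) (nat_lit 3724) (XT.nd (nat_lit 1170) (nat_lit 988) (nat_lit 0) (XT.nd (nat_lit 546) (nat_lit 684) (nat_lit 0) (XT.nd (nat_lit 234) (nat_lit 456) (nat_lit 0) (XT.nd (nat_lit 78) (nat_lit 228) (nat_lit 0) (XT.lf (nat_lit 0) (nat_lit 271541974390) (nat_lit 152) (nat_lit 134648000853) (nat_lit 228) (nat_lit 23168057850) (nat_lit 75) (nat_lit 5) (nat_lit 77) (nat_lit 5) (nat_lit 78) (nat_lit 5) (nat_lit 514) (nat_lit 470) (nat_lit 216)) (XT.nd (nat_lit 78) (nat_lit 0) (nat_lit 0) (XT.lf (nat_lit 0) (nat_lit 87012599319) (nat_lit 228) (nat_lit 335919674719) (nat_lit 76) (nat_lit 20144133599) (nat_lit 72) (nat_lit 5) (nat_lit 75) (nat_lit 5) (nat_lit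 73) (nat_lit 5) (nat_lit 515) (nat_lit 470) (nat_lit 215)) (XT.lf (nat_lit 0) (nat_lit 206847478550) (nat_lit 228) (nat_lit 69120956942) (nat_lit 76) (nat_lit 181247085814) (nat_lit 72) (nat_lit 5) (nat_lit 75) (nat_lit 5) (nat_lit 73) (nat_lit 5) (nat_lit 516) (nat_lit 470) (nat_lit 214)))) (XT.nd (nat_lit 156) (nat_lit 228) (nat_lit 0) (XT.nd (nat_lit 78) (nat_lit 76) (nat_lit 0) (XT.lf (nat_lit 0) (nat_lit 217994787708) (nat_lit 152) (nat_lit 118082764233) (nat_lit 228) (nat_lit 135813866212) (nat_lit 70) (nat_lit 5) (nat_lit 72) (nat_lit 5) (nat_lit 73) (nat_lit 5) (nat_lit 517) (nat_lit 470) (nat_lit 213)) (XT.lf (nat_lit 0) (nat_lit 34979029417) (nat_lit 76) (nat_lit 439270635226) (nat_lit 152) (nat_lit 12927418421) (nat_lit 69) (nat_lit 5) (nat_lit 70) (nat_lit 5) (nat_lit 71) (nat_lit 4) (nat_lit 518) (nat_lit 470) (nat_lit 212))) (XT.nd (nat_lit 78) (nat_lit 152) (nat_lit 0) (XT.lf (nat_lit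 0) (nat_lit 118693395716) (nat_lit 152) (nat_lit 159717923842) (nat_lit 76) (nat_lit 224409772914) (nat_lit 68) (nat_lit 5) (nat_lit 70) (nat_lit 5) (nat_lit 69) (nat_lit 5) (nat_lit 519) (nat_lit 470) (nat_lit 211)) (XT.lf (nat_lit 0) (nat_lit 152040431411) (nat_lit 152) (nat_lit 106794094573) (nat_lit 228) (nat_lit 260283494053) (nat_lit 66) (nat_lit 5) (nat_lit 68) (nat_lit 5) (nat_lit 69) (nat_lit 5) (nat_lit 520) (nat_lit 470) (nat_lit 210))))) (XT.nd (nat_lit 312) (nat_lit 380) (nat_lit 0) (XT.nd (nat_lit 156) (nat_lit 152) (nat_lit 0) (XT.nd (nat_lit 78) (nat_lit 152) (nat_lit 0) (XT.lf (nat_lit 0) (nat_lit 409877942421) (nat_lit 228) (nat_lit 52353283447) (nat_lit 76) (nat_lit 73803806632) (nat_lit 66) (nat_lit 5) (nat_lit 69) (nat_lit 5) (nat_lit 67) (nat_lit 4) (nat_lit 521) (nat_lit 470) (nat_lit 209)) (XT.lf (nat_lit 0) (nat_lit 20515724931) (nat_lit 152) (nat_lit 268324382552) (nat_lit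 76) (nat_lit 264630841577) (nat_lit 64) (nat_lit 5) (nat_lit 66) (nat_lit 5) (nat_lit 65) (nat_lit 5) (nat_lit 522) (nat_lit 470) (nat_lit 208))) (XT.nd (nat_lit 78) (nat_lit 0) (nat_lit 0) (XT.lf (nat_lit 0) (nat_lit 69754465971) (nat_lit 152) (nat_lit 102518182522) (nat_lit 228) (nat_lit 399303096843) (nat_lit 62) (nat_lit 5) (nat_lit 64) (nat_lit 5) (nat_lit 65) (nat_lit 5) (nat_lit 523) (nat_lit 470) (nat_lit 207)) (XT.lf (nat_lit 0) (nat_lit 337689926157) (nat_lit 228) (nat_lit 157834150199) (nat_lit 76) (nat_lit 94758079674) (nat_lit 62) (nat_lit 5) (nat_lit 65) (nat_lit 5) (nat_lit 63) (nat_lit 4) (nat_lit 524) (nat_lit 470) (nat_lit 206)))) (XT.nd (nat_lit 156) (nat_lit 228) (nat_lit 0) (XT.nd (nat_lit 78) (nat_lit 76) (nat_lit 0) (XT.lf (nat_lit 0) (nat_lit 208339792775) (nat_lit 76) (nat_lit 307971619274) (nat_lit 152) (nat_lit 93365807997) (nat_lit 61) (nat_lit 5) (nat_lit 62) (nat_lit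 5) (nat_lit 63) (nat_lit 4) (nat_lit 525) (nat_lit 470) (nat_lit 205)) (XT.lf (nat_lit 0) (nat_lit 74175939896) (nat_lit 152) (nat_lit 32802787456) (nat_lit 76) (nat_lit 522869843152) (nat_lit 60) (nat_lit 5) (nat_lit 62) (nat_lit 5) (nat_lit 61) (nat_lit 5) (nat_lit 526) (nat_lit 470) (nat_lit 204))) (XT.nd (nat_lit 78) (nat_lit 76) (nat_lit 0) (XT.lf (nat_lit 0) (nat_lit 254387628769) (nat_lit 228) (nat_lit 288123259726) (nat_lit 76) (nat_lit 108069542794) (nat_lit 58) (nat_lit 5) (nat_lit 61) (nat_lit 5) (nat_lit 59) (nat_lit 4) (nat_lit 527) (nat_lit 470) (nat_lit 203)) (XT.lf (nat_lit 0) (nat_lit 107991311068) (nat_lit 76) (nat_lit 339622978978) (nat_lit 152) (nat_lit 224534375671) (nat_lit 57) (nat_lit 5) (nat_lit 58) (nat_lit 5) (nat_lit 59) (nat_lit 4) (nat_lit 528) (nat_lit 470) (nat_lit 202)))))) (XT.nd (nat_lit 624) (nat_lit 456) (nat_lit 0) (XT.nd (nat_lit 312) (nat_lit 228) (nat_lit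 0) (XT.nd (nat_lit 156) (nat_lit 76) (nat_lit 0) (XT.nd (nat_lit 78) (nat_lit 228) (nat_lit 0) (XT.lf (nat_lit 0) (nat_lit 533914513496) (nat_lit 76) (nat_lit 121467231776) (nat_lit 152) (nat_lit 39169593552) (nat_lit 57) (nat_lit 5) (nat_lit 58) (nat_lit 5) (nat_lit 59) (nat_lit 4) (nat_lit 529) (nat_lit 470) (nat_lit 201)) (XT.lf (nat_lit 0) (nat_lit 156479915085) (nat_lit 228) (nat_lit 450281070503) (nat_lit 76) (nat_lit 110892184609) (nat_lit 54) (nat_lit 5) (nat_lit 57) (nat_lit 5) (nat_lit 55) (nat_lit 4) (nat_lit 530) (nat_lit 470) (nat_lit 200))) (XT.nd (nat_lit 78) (nat_lit 76) (nat_lit 0) (XT.lf (nat_lit 0) (nat_lit 365351825940) (nat_lit 228) (nat_lit 22093723036) (nat_lit 76) (nat_lit 354194623843) (nat_lit 54) (nat_lit 5) (nat_lit 57) (nat_lit 5) (nat_lit 55) (nat_lit 4) (nat_lit 531) (nat_lit 470) (nat_lit 199)) (XT.lf (nat_lit 0) (nat_lit 441638089208) (nat_lit 76) (nat_lit 149924409271)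 (nat_lit 152) (nat_lit 174919268786) (nat_lit 53) (nat_lit 5) (nat_lit 54) (nat_lit 5) (nat_lit 55) (nat_lit 4) (nat_lit 532) (nat_lit 470) (nat_lit 198)))) (XT.nd (nat_lit 156) (nat_lit 76) (nat_lit 0) (XT.nd (nat_lit 78) (nat_lit 0) (nat_lit 0) (XT.lf (nat_lit 0) (nat_lit 39531134170) (nat_lit 152) (nat_lit 653308885400) (nat_lit 76) (nat_lit 99487830071) (nat_lit 51) (nat_lit 5) (nat_lit 53) (nat_lit 5) (nat_lit 52) (nat_lit 4) (nat_lit 533) (nat_lit 470) (nat_lit 197)) (XT.lf (nat_lit 0) (nat_lit 266874929725) (nat_lit 152) (nat_lit 187254161925) (nat_lit 76) (nat_lit 364791302693) (nat_lit 51) (nat_lit 5) (nat_lit 53) (nat_lit 5) (nat_lit 52) (nat_lit 4) (nat_lit 534) (nat_lit 470) (nat_lit 196))) (XT.nd (nat_lit 78) (nat_lit 0) (nat_lit 0) (XT.lf (nat_lit 0) (nat_lit 312092118531) (nat_lit 76) (nat_lit 198366389308) (nat_lit 152) (nat_lit 336140428802) (nat_lit 50) (nat_lit 5) (nat_lit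 51) (nat_lit 5) (nat_lit 52) (nat_lit 4) (nat_lit 535) (nat_lit 470) (nat_lit 195)) (XT.lf (nat_lit 0) (nat_lit 770540228512) (nat_lit 152) (nat_lit 33743929056) (nat_lit 0) (nat_lit 71161300306) (nat_lit 50) (nat_lit 5) (nat_lit 52) (nat_lit 4) (nat_lit 50) (nat_lit 4) (nat_lit 536) (nat_lit 470) (nat_lit 194))))) (XT.nd (nat_lit 312) (nat_lit 152) (nat_lit 0) (XT.nd (nat_lit 156) (nat_lit 76) (nat_lit 0) (XT.nd (nat_lit 78) (nat_lit 76) (nat_lit 0) (XT.lf (nat_lit 0) (nat_lit 144796711890) (nat_lit 152) (nat_lit 402545716062) (nat_lit 76) (nat_lit 357718314481) (nat_lit 48) (nat_lit 5) (nat_lit 50) (nat_lit 5) (nat_lit 49) (nat_lit 4) (nat_lit 537) (nat_lit 470) (nat_lit 193)) (XT.lf (nat_lit 0) (nat_lit 133163076041) (nat_lit 76) (nat_lit 272955019794) (nat_lit 152) (nat_lit 529819715032) (nat_lit 47) (nat_lit 5) (nat_lit 48) (nat_lit 5) (nat_lit 49) (nat_lit 4) (nat_lit 538) (nat_lit 470)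 (nat_lit 192))) (XT.nd (nat_lit 78) (nat_lit 76) (nat_lit 0) (XT.lf (nat_lit 0) (nat_lit 687671138449) (nat_lit 152) (nat_lit 258733474698) (nat_lit 0) (nat_lit 21595840102) (nat_lit 47) (nat_lit 5) (nat_lit 49) (nat_lit 4) (nat_lit 47) (nat_lit 4) (nat_lit 539) (nat_lit 470) (nat_lit 191)) (XT.lf (nat_lit 0) (nat_lit 318220138401) (nat_lit 76) (nat_lit 674524639657) (nat_lit 76) (nat_lit 8449302451) (nat_lit 46) (nat_lit 4) (nat_lit 47) (nat_lit 5) (nat_lit 47) (nat_lit 4) (nat_lit 540) (nat_lit 470) (nat_lit 190)))) (XT.nd (nat_lit 57018) (nat_lit 0) (nat_lit 7828) (XT.nd (nat_lit 78) (nat_lit 76) (nat_lit 0) (XT.lf (nat_lit 0) (nat_lit 272611763016) (nat_lit 152) (nat_lit 107221260031) (nat_lit 76) (nat_lit 655775430817) (nat_lit 45) (nat_lit 5) (nat_lit 47) (nat_lit 5) (nat_lit 46) (nat_lit 4) (nat_lit 541) (nat_lit 470) (nat_lit 189)) (XT.lf (nat_lit 0) (nat_lit 513619508803) (nat_lit 76)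 (nat_lit 61841426934) (nat_lit 152) (nat_lit 495874734192) (nat_lit 44) (nat_lit 5) (nat_lit 45) (nat_lit 5) (nat_lit 46) (nat_lit 4) (nat_lit 542) (nat_lit 470) (nat_lit 188))) (XT.nd (nat_lit 78) (nat_lit 0) (nat_lit 0) (XT.lf (nat_lit 0) (nat_lit 26947319255) (nat_lit 836) (nat_lit 18954962649) (nat_lit 836) (nat_lit 18954962649) (nat_lit 147) (nat_lit 3) (nat_lit 158) (nat_lit 3) (nat_lit 158) (nat_lit 5) (nat_lit 471) (nat_lit 471) (nat_lit 258)) (XT.lf (nat_lit 76) (nat_lit 27295571001) (nat_lit 0) (nat_lit 28376414385) (nat_lit 836) (nat_lit 77263866314) (nat_lit 148) (nat_lit 5) (nat_lit 147) (nat_lit 3) (nat_lit 158) (nat_lit 5) (nat_lit 472) (nat_lit 471) (nat_lit 257))))))) (XT.nd (nat_lit 1170) (nat_lit 2508) (nat_lit 0) (XT.nd (nat_lit 546) (nat_lit 1672) (nat_lit 0) (XT.nd (nat_lit 234) (nat_lit 0) (nat_lit 76) (XT.nd (nat_lit 78) (nat_lit 0) (nat_lit 0) (XT.lf (nat_lit 0) (nat_lit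 58787273020) (nat_lit 760) (nat_lit 39816134305) (nat_lit 836) (nat_lit 37652421462) (nat_lit 148) (nat_lit 5) (nat_lit 158) (nat_lit 5) (nat_lit 159) (nat_lit 5) (nat_lit 473) (nat_lit 471) (nat_lit 256)) (XT.nd (nat_lit 78) (nat_lit 0) (nat_lit 76) (XT.lf (nat_lit 76) (nat_lit 29787271170) (nat_lit 0) (nat_lit 33201070573) (nat_lit 836) (nat_lit 76706962187) (nat_lit 149) (nat_lit 5) (nat_lit 148) (nat_lit 5) (nat_lit 159) (nat_lit 5) (nat_lit 474) (nat_lit 471) (nat_lit 255)) (XT.lf (nat_lit 0) (nat_lit 68638408405) (nat_lit 760) (nat_lit 39584876408) (nat_lit 836) (nat_lit 35021520827) (nat_lit 149) (nat_lit 5) (nat_lit 159) (nat_lit 5) (nat_lit 160) (nat_lit 5) (nat_lit 475) (nat_lit 471) (nat_lit 254)))) (XT.nd (nat_lit 156) (nat_lit 0) (nat_lit 76) (XT.nd (nat_lit 78) (nat_lit 0) (nat_lit 76) (XT.lf (nat_lit 76) (nat_lit 34824620235) (nat_lit 0) (nat_lit 40834135654) (nat_lit 836) (nat_lit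 71258637703) (nat_lit 150) (nat_lit 5) (nat_lit 149) (nat_lit 5) (nat_lit 160) (nat_lit 5) (nat_lit 476) (nat_lit 471) (nat_lit 253)) (XT.lf (nat_lit 0) (nat_lit 84178501258) (nat_lit 760) (nat_lit 36889549045) (nat_lit 836) (nat_lit 29648141646) (nat_lit 150) (nat_lit 5) (nat_lit 160) (nat_lit 5) (nat_lit 161) (nat_lit 5) (nat_lit 477) (nat_lit 471) (nat_lit 252))) (XT.nd (nat_lit 78) (nat_lit 0) (nat_lit 76) (XT.lf (nat_lit 76) (nat_lit 42773292185) (nat_lit 0) (nat_lit 51687971051) (nat_lit 836) (nat_lit 60176815550) (nat_lit 151) (nat_lit 5) (nat_lit 150) (nat_lit 5) (nat_lit 161) (nat_lit 5) (nat_lit 478) (nat_lit 471) (nat_lit 251)) (XT.lf (nat_lit 0) (nat_lit 106223345628) (nat_lit 760) (nat_lit 31365603901) (nat_lit 836) (nat_lit 21118851347) (nat_lit 151) (nat_lit 5) (nat_lit 161) (nat_lit 5) (nat_lit 162) (nat_lit 5) (nat_lit 479) (nat_lit 471) (nat_lit 250))))) (XT.nd (nat_lit 312)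 (nat_lit 1216) (nat_lit 0) (XT.nd (nat_lit 156) (nat_lit 684) (nat_lit 0) (XT.nd (nat_lit 78) (nat_lit 0) (nat_lit 76) (XT.lf (nat_lit 76) (nat_lit 54040688493) (nat_lit 0) (nat_lit 66223736896) (nat_lit 836) (nat_lit 42632039047) (nat_lit 152) (nat_lit 5) (nat_lit 151) (nat_lit 5) (nat_lit 162) (nat_lit 5) (nat_lit 480) (nat_lit 471) (nat_lit 249)) (XT.lf (nat_lit 0) (nat_lit 135683271781) (nat_lit 760) (nat_lit 22606606438) (nat_lit 76) (nat_lit 8970897348) (nat_lit 152) (nat_lit 5) (nat_lit 162) (nat_lit 5) (nat_lit 153) (nat_lit 5) (nat_lit 481) (nat_lit 471) (nat_lit 248))) (XT.nd (nat_lit 78) (nat_lit 0) (nat_lit 0) (XT.lf (nat_lit 0) (nat_lit 69080241025) (nat_lit 760) (nat_lit 84956828287) (nat_lit 836) (nat_lit 17698032526) (nat_lit 142) (nat_lit 5) (nat_lit 152) (nat_lit 5) (nat_lit 153) (nat_lit 5) (nat_lit 482) (nat_lit 471) (nat_lit 247)) (XT.lf (nat_lit 0) (nat_lit 166136138911)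 (nat_lit 760) (nat_lit 7555114766) (nat_lit 836) (nat_lit 2722755921) (nat_lit 142) (nat_lit 5) (nat_lit 152) (nat_lit 5) (nat_lit 153) (nat_lit 5) (nat_lit 483) (nat_lit 471) (nat_lit 246)))) (XT.nd (nat_lit 156) (nat_lit 380) (nat_lit 0) (XT.nd (nat_lit 78) (nat_lit 380) (nat_lit 0) (XT.lf (nat_lit 0) (nat_lit 15157538308) (nat_lit 456) (nat_lit 93048664989) (nat_lit 76) (nat_lit 72981891342) (nat_lit 136) (nat_lit 5) (nat_lit 142) (nat_lit 5) (nat_lit 137) (nat_lit 5) (nat_lit 484) (nat_lit 471) (nat_lit 245)) (XT.lf (nat_lit 0) (nat_lit 5651637352) (nat_lit 380) (nat_lit 28577567193) (nat_lit 456) (nat_lit 151950004651) (nat_lit 131) (nat_lit 5) (nat_lit 136) (nat_lit 5) (nat_lit 137) (nat_lit 5) (nat_lit 485) (nat_lit 471) (nat_lit 244))) (XT.nd (nat_lit 78) (nat_lit 380) (nat_lit 0) (XT.lf (nat_lit 0) (nat_lit 56715181072) (nat_lit 456) (nat_lit 79708889185) (nat_lit 76) (nat_lit 54872772894)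 (nat_lit 131) (nat_lit 5) (nat_lit 137) (nat_lit 5) (nat_lit 132) (nat_lit 5) (nat_lit 486) (nat_lit 471) (nat_lit 243)) (XT.lf (nat_lit 0) (nat_lit 26531265747) (nat_lit 380) (nat_lit 54676767621) (nat_lit 456) (nat_lit 115418196608) (nat_lit 126) (nat_lit 5) (nat_lit 131) (nat_lit 5) (nat_lit 132) (nat_lit 5) (nat_lit 487) (nat_lit 471) (nat_lit 242)))))) (XT.nd (nat_lit 624) (nat_lit 1216) (nat_lit 0) (XT.nd (nat_lit 312) (nat_lit 684) (nat_lit 0) (XT.nd (nat_lit 156) (nat_lit 304) (nat_lit 0) (XT.nd (nat_lit 78) (nat_lit 304) (nat_lit 0) (XT.lf (nat_lit 0) (nat_lit 108783897578) (nat_lit 456) (nat_lit 61812588870) (nat_lit 76) (nat_lit 31532681246) (nat_lit 126) (nat_lit 5) (nat_lit 132) (nat_lit 5) (nat_lit 127) (nat_lit 5) (nat_lit 488) (nat_lit 471) (nat_lit 241)) (XT.lf (nat_lit 0) (nat_lit 52673298899) (nat_lit 304) (nat_lit 86783849508) (nat_lit 380) (nat_lit 68364174237) (nat_lit 122)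 (nat_lit 5) (nat_lit 126) (nat_lit 5) (nat_lit 127) (nat_lit 5) (nat_lit 489) (nat_lit 471) (nat_lit 240))) (XT.nd (nat_lit 78) (nat_lit 304) (nat_lit 0) (XT.lf (nat_lit 0) (nat_lit 172746966181) (nat_lit 380) (nat_lit 38752613063) (nat_lit 76) (nat_lit 2244360893) (nat_lit 122) (nat_lit 5) (nat_lit 127) (nat_lit 5) (nat_lit 123) (nat_lit 5) (nat_lit 490) (nat_lit 471) (nat_lit 239)) (XT.lf (nat_lit 0) (nat_lit 84752349464) (nat_lit 304) (nat_lit 125694717573) (nat_lit 380) (nat_lit 9378331873) (nat_lit 118) (nat_lit 5) (nat_lit 122) (nat_lit 5) (nat_lit 123) (nat_lit 5) (nat_lit 491) (nat_lit 471) (nat_lit 238)))) (XT.nd (nat_lit 156) (nat_lit 304) (nat_lit 0) (XT.nd (nat_lit 78) (nat_lit 304) (nat_lit 0) (XT.lf (nat_lit 0) (nat_lit 23725752956) (nat_lit 380) (nat_lit 10782966519) (nat_lit 76) (nat_lit 191650268386) (nat_lit 117) (nat_lit 5) (nat_lit 122) (nat_lit 5) (nat_lit 118) (nat_lit 5)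 (nat_lit 492) (nat_lit 471) (nat_lit 237)) (XT.lf (nat_lit 0) (nat_lit 61088481587) (nat_lit 380) (nat_lit 110174163528) (nat_lit 76) (nat_lit 61392993347) (nat_lit 113) (nat_lit 5) (nat_lit 118) (nat_lit 5) (nat_lit 114) (nat_lit 5) (nat_lit 493) (nat_lit 471) (nat_lit 236))) (XT.nd (nat_lit 78) (nat_lit 0) (nat_lit 0) (XT.lf (nat_lit 0) (nat_lit 23498770005) (nat_lit 304) (nat_lit 77938677628) (nat_lit 380) (nat_lit 137983768924) (nat_lit 109) (nat_lit 5) (nat_lit 113) (nat_lit 5) (nat_lit 114) (nat_lit 5) (nat_lit 494) (nat_lit 471) (nat_lit 235)) (XT.lf (nat_lit 0) (nat_lit 146013259107) (nat_lit 380) (nat_lit 79095217558) (nat_lit 76) (nat_lit 21306127049) (nat_lit 109) (nat_lit 5) (nat_lit 114) (nat_lit 5) (nat_lit 110) (nat_lit 5) (nat_lit 495) (nat_lit 471) (nat_lit 234))))) (XT.nd (nat_lit 312) (nat_lit 456) (nat_lit 0) (XT.nd (nat_lit 156) (nat_lit 532) (nat_lit 0) (XT.nd (nat_lit 78)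 (nat_lit 0) (nat_lit 0) (XT.lf (nat_lit 0) (nat_lit 65388395856) (nat_lit 228) (nat_lit 129727946246) (nat_lit 304) (nat_lit 58526394090) (nat_lit 106) (nat_lit 5) (nat_lit 109) (nat_lit 5) (nat_lit 110) (nat_lit 5) (nat_lit 496) (nat_lit 471) (nat_lit 233)) (XT.lf (nat_lit 0) (nat_lit 219842068588) (nat_lit 228) (nat_lit 28171930715) (nat_lit 304) (nat_lit 13151304998) (nat_lit 106) (nat_lit 5) (nat_lit 109) (nat_lit 5) (nat_lit 110) (nat_lit 5) (nat_lit 497) (nat_lit 471) (nat_lit 232))) (XT.nd (nat_lit 78) (nat_lit 228) (nat_lit 0) (XT.lf (nat_lit 0) (nat_lit 36465188453) (nat_lit 304) (nat_lit 154077236457) (nat_lit 76) (nat_lit 78340818328) (nat_lit 102) (nat_lit 5) (nat_lit 106) (nat_lit 5) (nat_lit 103) (nat_lit 5) (nat_lit 498) (nat_lit 471) (nat_lit 231)) (XT.lf (nat_lit 0) (nat_lit 2619069418) (nat_lit 228) (nat_lit 86715403903) (nat_lit 304) (nat_lit 187581129210) (nat_lit 99) (nat_lit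 5) (nat_lit 102) (nat_lit 5) (nat_lit 103) (nat_lit 5) (nat_lit 499) (nat_lit 471) (nat_lit 230)))) (XT.nd (nat_lit 156) (nat_lit 228) (nat_lit 0) (XT.nd (nat_lit 78) (nat_lit 228) (nat_lit 0) (XT.lf (nat_lit 0) (nat_lit 147847494492) (nat_lit 304) (nat_lit 113110824684) (nat_lit 76) (nat_lit 24241247020) (nat_lit 99) (nat_lit 5) (nat_lit 103) (nat_lit 5) (nat_lit 100) (nat_lit 5) (nat_lit 500) (nat_lit 471) (nat_lit 229)) (XT.lf (nat_lit 0) (nat_lit 56521523663) (nat_lit 228) (nat_lit 155068581743) (nat_lit 304) (nat_lit 82192425710) (nat_lit 96) (nat_lit 5) (nat_lit 99) (nat_lit 5) (nat_lit 100) (nat_lit 5) (nat_lit 501) (nat_lit 471) (nat_lit 228))) (XT.nd (nat_lit 78) (nat_lit 228) (nat_lit 0) (XT.lf (nat_lit 0) (nat_lit 238562320593) (nat_lit 228) (nat_lit 41873030263) (nat_lit 304) (nat_lit 22263518236) (nat_lit 96) (nat_lit 5) (nat_lit 99) (nat_lit 5) (nat_lit 100) (nat_lit 5) (nat_lit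 502) (nat_lit 471) (nat_lit 227)) (XT.lf (nat_lit 0) (nat_lit 42490821288) (nat_lit 228) (nat_lit 192300156376) (nat_lit 76) (nat_lit 77081783084) (nat_lit 93) (nat_lit 5) (nat_lit 96) (nat_lit 5) (nat_lit 94) (nat_lit 5) (nat_lit 503) (nat_lit 471) (nat_lit 226))))))))
noncomputable def xc223 : XT := (XT.nd (nat_lit 2418) (nat_lit 456) (nat_lit 0) (XT.nd (nat_lit 1170) (nat_lit 1444) (nat_lit 0) (XT.nd (nat_lit 546) (nat_lit 912) (nat_lit 0) (XT.nd (nat_lit 234) (nat_lit 456) (nat_lit 0) (XT.nd (nat_lit 78) (nat_lit 380) (nat_lit 0) (XT.lf (nat_lit 0) (nat_lit 111525031946) (nat_lit 228) (nat_lit 7826491433) (nat_lit 76) (nat_lit 202046057112) (nat_lit 93) (nat_lit 5) (nat_lit 96) (nat_lit 5) (nat_lit 94) (nat_lit 5) (nat_lit 504) (nat_lit 471) (nat_lit 225)) (XT.nd (nat_lit 78) (nat_lit 152) (nat_lit 0) (XT.lf (nat_lit 0) (nat_lit 187086977405) (nat_lit 304) (nat_lit 139310463962) (nat_lit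 76) (nat_lit 4847398647) (nat_lit 90) (nat_lit 5) (nat_lit 94) (nat_lit 5) (nat_lit 91) (nat_lit 5) (nat_lit 505) (nat_lit 471) (nat_lit 224)) (XT.lf (nat_lit 0) (nat_lit 60349872308) (nat_lit 152) (nat_lit 209110605524) (nat_lit 228) (nat_lit 71972311801) (nat_lit 88) (nat_lit 5) (nat_lit 90) (nat_lit 5) (nat_lit 91) (nat_lit 5) (nat_lit 506) (nat_lit 471) (nat_lit 223)))) (XT.nd (nat_lit 156) (nat_lit 152) (nat_lit 0) (XT.nd (nat_lit 78) (nat_lit 228) (nat_lit 0) (XT.lf (nat_lit 0) (nat_lit 6098066115) (nat_lit 228) (nat_lit 77280874798) (nat_lit 76) (nat_lit 268628317119) (nat_lit 87) (nat_lit 5) (nat_lit 90) (nat_lit 5) (nat_lit 88) (nat_lit 5) (nat_lit 507) (nat_lit 471) (nat_lit 222)) (XT.lf (nat_lit 0) (nat_lit 88653713559) (nat_lit 304) (nat_lit 223744171378) (nat_lit 76) (nat_lit 50503546608) (nat_lit 84) (nat_lit 5) (nat_lit 88) (nat_lit 5) (nat_lit 85) (nat_lit 5) (nat_lit 508) (nat_lit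 471) (nat_lit 221))) (XT.nd (nat_lit 78) (nat_lit 152) (nat_lit 0) (XT.lf (nat_lit 0) (nat_lit 178034187259) (nat_lit 304) (nat_lit 6562989480) (nat_lit 76) (nat_lit 189608284804) (nat_lit 84) (nat_lit 5) (nat_lit 88) (nat_lit 5) (nat_lit 85) (nat_lit 5) (nat_lit 509) (nat_lit 471) (nat_lit 220)) (XT.lf (nat_lit 0) (nat_lit 228800180353) (nat_lit 152) (nat_lit 46655651019) (nat_lit 228) (nat_lit 110440254339) (nat_lit 82) (nat_lit 5) (nat_lit 84) (nat_lit 5) (nat_lit 85) (nat_lit 5) (nat_lit 510) (nat_lit 471) (nat_lit 219))))) (XT.nd (nat_lit 312) (nat_lit 380) (nat_lit 0) (XT.nd (nat_lit 156) (nat_lit 304) (nat_lit 0) (XT.nd (nat_lit 78) (nat_lit 76) (nat_lit 0) (XT.lf (nat_lit 0) (nat_lit 78986911812) (nat_lit 152) (nat_lit 301640669001) (nat_lit 228) (nat_lit 17399709122) (nat_lit 80) (nat_lit 5) (nat_lit 82) (nat_lit 5) (nat_lit 83) (nat_lit 5) (nat_lit 511) (nat_lit 471) (nat_lit 218))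 (XT.lf (nat_lit 0) (nat_lit 81191882821) (nat_lit 228) (nat_lit 80366309776) (nat_lit 76) (nat_lit 248970737321) (nat_lit 79) (nat_lit 5) (nat_lit 82) (nat_lit 5) (nat_lit 80) (nat_lit 5) (nat_lit 512) (nat_lit 471) (nat_lit 217))) (XT.nd (nat_lit 78) (nat_lit 152) (nat_lit 0) (XT.lf (nat_lit 0) (nat_lit 175575635712) (nat_lit 152) (nat_lit 11293841048) (nat_lit 228) (nat_lit 236634854751) (nat_lit 77) (nat_lit 5) (nat_lit 79) (nat_lit 5) (nat_lit 80) (nat_lit 5) (nat_lit 513) (nat_lit 471) (nat_lit 216)) (XT.lf (nat_lit 0) (nat_lit 7990679489) (nat_lit 152) (nat_lit 293635343538) (nat_lit 228) (nat_lit 135312726528) (nat_lit 75) (nat_lit 5) (nat_lit 77) (nat_lit 5) (nat_lit 78) (nat_lit 5) (nat_lit 514) (nat_lit 471) (nat_lit 215)))) (XT.nd (nat_lit 156) (nat_lit 152) (nat_lit 0) (XT.nd (nat_lit 78) (nat_lit 228) (nat_lit 0) (XT.lf (nat_lit 0) (nat_lit 285122180330) (nat_lit 152) (nat_lit 141379108427)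 (nat_lit 228) (nat_lit 24324555140) (nat_lit 75) (nat_lit 5) (nat_lit 77) (nat_lit 5) (nat_lit 78) (nat_lit 5) (nat_lit 515) (nat_lit 471) (nat_lit 214)) (XT.lf (nat_lit 0) (nat_lit 91365055206) (nat_lit 228) (nat_lit 352712471345) (nat_lit 76) (nat_lit 21152610070) (nat_lit 72) (nat_lit 5) (nat_lit 75) (nat_lit 5) (nat_lit 73) (nat_lit 5) (nat_lit 516) (nat_lit 471) (nat_lit 213))) (XT.nd (nat_lit 78) (nat_lit 152) (nat_lit 0) (XT.lf (nat_lit 0) (nat_lit 217191591450) (nat_lit 228) (nat_lit 72573969447) (nat_lit 76) (nat_lit 190310649430) (nat_lit 72) (nat_lit 5) (nat_lit 75) (nat_lit 5) (nat_lit 73) (nat_lit 5) (nat_lit 517) (nat_lit 471) (nat_lit 212)) (XT.lf (nat_lit 0) (nat_lit 228897513478) (nat_lit 152) (nat_lit 123985618849) (nat_lit 228) (nat_lit 142602771502) (nat_lit 70) (nat_lit 5) (nat_lit 72) (nat_lit 5) (nat_lit 73) (nat_lit 5) (nat_lit 518) (nat_lit 471) (nat_lit 211)))))) (XT.nd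 (nat_lit 624) (nat_lit 760) (nat_lit 0) (XT.nd (nat_lit 312) (nat_lit 380) (nat_lit 0) (XT.nd (nat_lit 156) (nat_lit 152) (nat_lit 0) (XT.nd (nat_lit 78) (nat_lit 76) (nat_lit 0) (XT.lf (nat_lit 0) (nat_lit 36730983245) (nat_lit 76) (nat_lit 461232852296) (nat_lit 152) (nat_lit 13572017205) (nat_lit 69) (nat_lit 5) (nat_lit 70) (nat_lit 5) (nat_lit 71) (nat_lit 4) (nat_lit 519) (nat_lit 471) (nat_lit 210)) (XT.lf (nat_lit 0) (nat_lit 124629699233) (nat_lit 152) (nat_lit 167700906548) (nat_lit 76) (nat_lit 235631459548) (nat_lit 68) (nat_lit 5) (nat_lit 70) (nat_lit 5) (nat_lit 69) (nat_lit 5) (nat_lit 520) (nat_lit 471) (nat_lit 209))) (XT.nd (nat_lit 78) (nat_lit 0) (nat_lit 0) (XT.lf (nat_lit 0) (nat_lit 159645319476) (nat_lit 152) (nat_lit 112132533496) (nat_lit 228) (nat_lit 273295987957) (nat_lit 66) (nat_lit 5) (nat_lit 68) (nat_lit 5) (nat_lit 69) (nat_lit 5) (nat_lit 521) (nat_lit 471)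 (nat_lit 208)) (XT.lf (nat_lit 0) (nat_lit 430373382829) (nat_lit 228) (nat_lit 54968160151) (nat_lit 76) (nat_lit 77495163908) (nat_lit 66) (nat_lit 5) (nat_lit 69) (nat_lit 5) (nat_lit 67) (nat_lit 4) (nat_lit 522) (nat_lit 471) (nat_lit 207)))) (XT.nd (nat_lit 156) (nat_lit 76) (nat_lit 0) (XT.nd (nat_lit 78) (nat_lit 152) (nat_lit 0) (XT.lf (nat_lit 0) (nat_lit 21543048656) (nat_lit 152) (nat_lit 281737808269) (nat_lit 76) (nat_lit 277863562649) (nat_lit 64) (nat_lit 5) (nat_lit 66) (nat_lit 5) (nat_lit 65) (nat_lit 5) (nat_lit 523) (nat_lit 471) (nat_lit 206)) (XT.lf (nat_lit 0) (nat_lit 73244937625) (nat_lit 152) (nat_lit 107642850468) (nat_lit 228) (nat_lit 419266669089) (nat_lit 62) (nat_lit 5) (nat_lit 64) (nat_lit 5) (nat_lit 65) (nat_lit 5) (nat_lit 524) (nat_lit 471) (nat_lit 205))) (XT.nd (nat_lit 78) (nat_lit 76) (nat_lit 0) (XT.lf (nat_lit 0) (nat_lit 354575876325) (nat_lit 228)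 (nat_lit 165723186854) (nat_lit 76) (nat_lit 99497127901) (nat_lit 62) (nat_lit 5) (nat_lit 65) (nat_lit 5) (nat_lit 63) (nat_lit 4) (nat_lit 525) (nat_lit 471) (nat_lit 204)) (XT.lf (nat_lit 0) (nat_lit 218759410191) (nat_lit 76) (nat_lit 323368998116) (nat_lit 152) (nat_lit 98032601402) (nat_lit 61) (nat_lit 5) (nat_lit 62) (nat_lit 5) (nat_lit 63) (nat_lit 4) (nat_lit 526) (nat_lit 471) (nat_lit 203))))) (XT.nd (nat_lit 312) (nat_lit 456) (nat_lit 0) (XT.nd (nat_lit 156) (nat_lit 76) (nat_lit 0) (XT.nd (nat_lit 78) (nat_lit 152) (nat_lit 0) (XT.lf (nat_lit 0) (nat_lit 77886116969) (nat_lit 152) (nat_lit 34440378501) (nat_lit 76) (nat_lit 549014434505) (nat_lit 60) (nat_lit 5) (nat_lit 62) (nat_lit 5) (nat_lit 61) (nat_lit 5) (nat_lit 527) (nat_lit 471) (nat_lit 202)) (XT.lf (nat_lit 0) (nat_lit 267108381725) (nat_lit 228) (nat_lit 302526865776) (nat_lit 76) (nat_lit 113474136728) (nat_lit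 58) (nat_lit 5) (nat_lit 61) (nat_lit 5) (nat_lit 59) (nat_lit 4) (nat_lit 528) (nat_lit 471) (nat_lit 201))) (XT.nd (nat_lit 78) (nat_lit 0) (nat_lit 0) (XT.lf (nat_lit 0) (nat_lit 113393392318) (nat_lit 76) (nat_lit 356602957715) (nat_lit 152) (nat_lit 235759681649) (nat_lit 57) (nat_lit 5) (nat_lit 58) (nat_lit 5) (nat_lit 59) (nat_lit 4) (nat_lit 529) (nat_lit 471) (nat_lit 200)) (XT.lf (nat_lit 0) (nat_lit 560612635071) (nat_lit 76) (nat_lit 127539478877) (nat_lit 152) (nat_lit 41126727701) (nat_lit 57) (nat_lit 5) (nat_lit 58) (nat_lit 5) (nat_lit 59) (nat_lit 4) (nat_lit 530) (nat_lit 471) (nat_lit 199)))) (XT.nd (nat_lit 156) (nat_lit 228) (nat_lit 0) (XT.nd (nat_lit 78) (nat_lit 0) (nat_lit 0) (XT.lf (nat_lit 0) (nat_lit 164305206260) (nat_lit 228) (nat_lit 472792677937) (nat_lit 76) (nat_lit 116437879699) (nat_lit 54) (nat_lit 5) (nat_lit 57) (nat_lit 5) (nat_lit 55) (nat_lit 4) (nat_lit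 531) (nat_lit 471) (nat_lit 198)) (XT.lf (nat_lit 0) (nat_lit 383620650971) (nat_lit 228) (nat_lit 23196079578) (nat_lit 76) (nat_lit 371905389187) (nat_lit 54) (nat_lit 5) (nat_lit 57) (nat_lit 5) (nat_lit 55) (nat_lit 4) (nat_lit 532) (nat_lit 471) (nat_lit 197))) (XT.nd (nat_lit 78) (nat_lit 152) (nat_lit 0) (XT.lf (nat_lit 0) (nat_lit 463722285705) (nat_lit 76) (nat_lit 157419548468) (nat_lit 152) (nat_lit 183663960880) (nat_lit 53) (nat_lit 5) (nat_lit 54) (nat_lit 5) (nat_lit 55) (nat_lit 4) (nat_lit 533) (nat_lit 471) (nat_lit 196)) (XT.lf (nat_lit 0) (nat_lit 41508915739) (nat_lit 152) (nat_lit 685971991081) (nat_lit 76) (nat_lit 104463274028) (nat_lit 51) (nat_lit 5) (nat_lit 53) (nat_lit 5) (nat_lit 52) (nat_lit 4) (nat_lit 534) (nat_lit 471) (nat_lit 195))))))) (XT.nd (nat_lit 58188) (nat_lit 0) (nat_lit 4864) (XT.nd (nat_lit 57564) (nat_lit 0) (nat_lit 7752) (XT.nd (nat_lit 312) (nat_lit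 228) (nat_lit 0) (XT.nd (nat_lit 156) (nat_lit 152) (nat_lit 0) (XT.nd (nat_lit 78) (nat_lit 76) (nat_lit 0) (XT.lf (nat_lit 0) (nat_lit 280219842744) (nat_lit 152) (nat_lit 196614642794) (nat_lit 76) (nat_lit 383031870164) (nat_lit 51) (nat_lit 5) (nat_lit 53) (nat_lit 5) (nat_lit 52) (nat_lit 4) (nat_lit 535) (nat_lit 471) (nat_lit 194)) (XT.lf (nat_lit 0) (nat_lit 327698915763) (nat_lit 76) (nat_lit 208283662665) (nat_lit 152) (nat_lit 352946247756) (nat_lit 50) (nat_lit 5) (nat_lit 51) (nat_lit 5) (nat_lit 52) (nat_lit 4) (nat_lit 536) (nat_lit 471) (nat_lit 193))) (XT.nd (nat_lit 78) (nat_lit 152) (nat_lit 0) (XT.lf (nat_lit 0) (nat_lit 809068346155) (nat_lit 152) (nat_lit 35428999545) (nat_lit 0) (nat_lit 74720329728) (nat_lit 50) (nat_lit 5) (nat_lit 52) (nat_lit 4) (nat_lit 50) (nat_lit 4) (nat_lit 537) (nat_lit 471) (nat_lit 192)) (XT.lf (nat_lit 0) (nat_lit 152037651516) (nat_lit 152)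 (nat_lit 422670873661) (nat_lit 76) (nat_lit 375605199151) (nat_lit 48) (nat_lit 5) (nat_lit 50) (nat_lit 5) (nat_lit 49) (nat_lit 4) (nat_lit 538) (nat_lit 471) (nat_lit 191)))) (XT.nd (nat_lit 156) (nat_lit 152) (nat_lit 0) (XT.nd (nat_lit 78) (nat_lit 0) (nat_lit 0) (XT.lf (nat_lit 0) (nat_lit 139823323721) (nat_lit 76) (nat_lit 286601761055) (nat_lit 152) (nat_lit 556309562402) (nat_lit 47) (nat_lit 5) (nat_lit 48) (nat_lit 5) (nat_lit 49) (nat_lit 4) (nat_lit 539) (nat_lit 471) (nat_lit 190)) (XT.lf (nat_lit 0) (nat_lit 722055742909) (nat_lit 152) (nat_lit 271668117628) (nat_lit 0) (nat_lit 22676562975) (nat_lit 47) (nat_lit 5) (nat_lit 49) (nat_lit 4) (nat_lit 47) (nat_lit 4) (nat_lit 540) (nat_lit 471) (nat_lit 189))) (XT.nd (nat_lit 78) (nat_lit 76) (nat_lit 0) (XT.lf (nat_lit 0) (nat_lit 334133143371) (nat_lit 76) (nat_lit 708249902439) (nat_lit 76) (nat_lit 8870687259) (nat_lit 46)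 (nat_lit 4) (nat_lit 47) (nat_lit 5) (nat_lit 47) (nat_lit 4) (nat_lit 541) (nat_lit 471) (nat_lit 188)) (XT.lf (nat_lit 0) (nat_lit 286243347107) (nat_lit 152) (nat_lit 112580387177) (nat_lit 76) (nat_lit 688565092455) (nat_lit 45) (nat_lit 5) (nat_lit 47) (nat_lit 5) (nat_lit 46) (nat_lit 4) (nat_lit 542) (nat_lit 471) (nat_lit 187))))) (XT.nd (nat_lit 312) (nat_lit 0) (nat_lit 152) (XT.nd (nat_lit 156) (nat_lit 0) (nat_lit 76) (XT.nd (nat_lit 78) (nat_lit 0) (nat_lit 0) (XT.lf (nat_lit 0) (nat_lit 28298446122) (nat_lit 836) (nat_lit 19900736016) (nat_lit 836) (nat_lit 19900736016) (nat_lit 147) (nat_lit 3) (nat_lit 158) (nat_lit 3) (nat_lit 158) (nat_lit 5) (nat_lit 472) (nat_lit 472) (nat_lit 256)) (XT.lf (nat_lit 76) (nat_lit 28664235380) (nat_lit 0) (nat_lit 29798573571) (nat_lit 836) (nat_lit 81119473011) (nat_lit 148) (nat_lit 5) (nat_lit 147) (nat_lit 3) (nat_lit 158) (nat_lit 5) (nat_lit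 473) (nat_lit 472) (nat_lit 255))) (XT.nd (nat_lit 78) (nat_lit 0) (nat_lit 0) (XT.lf (nat_lit 0) (nat_lit 61733467313) (nat_lit 760) (nat_lit 41802845521) (nat_lit 836) (nat_lit 39531964806) (nat_lit 148) (nat_lit 5) (nat_lit 158) (nat_lit 5) (nat_lit 159) (nat_lit 5) (nat_lit 474) (nat_lit 472) (nat_lit 254)) (XT.lf (nat_lit 76) (nat_lit 31280664172) (nat_lit 0) (nat_lit 34863662942) (nat_lit 836) (nat_lit 80535412594) (nat_lit 149) (nat_lit 5) (nat_lit 148) (nat_lit 5) (nat_lit 159) (nat_lit 5) (nat_lit 475) (nat_lit 472) (nat_lit 253)))) (XT.nd (nat_lit 156) (nat_lit 0) (nat_lit 76) (XT.nd (nat_lit 78) (nat_lit 0) (nat_lit 0) (XT.lf (nat_lit 0) (nat_lit 72076546582) (nat_lit 760) (nat_lit 41559931180) (nat_lit 836) (nat_lit 36770256315) (nat_lit 149) (nat_lit 5) (nat_lit 159) (nat_lit 5) (nat_lit 160) (nat_lit 5) (nat_lit 476) (nat_lit 472) (nat_lit 252)) (XT.lf (nat_lit 76) (nat_lit 36569972730)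 (nat_lit 0) (nat_lit 42877706975) (nat_lit 836) (nat_lit 74815283354) (nat_lit 150) (nat_lit 5) (nat_lit 149) (nat_lit 5) (nat_lit 160) (nat_lit 5) (nat_lit 477) (nat_lit 472) (nat_lit 251))) (XT.nd (nat_lit 78) (nat_lit 0) (nat_lit 0) (XT.lf (nat_lit 0) (nat_lit 88393099570) (nat_lit 760) (nat_lit 38729787634) (nat_lit 836) (nat_lit 31128829812) (nat_lit 150) (nat_lit 5) (nat_lit 160) (nat_lit 5) (nat_lit 161) (nat_lit 5) (nat_lit 478) (nat_lit 472) (nat_lit 250)) (XT.lf (nat_lit 76) (nat_lit 44916127289) (nat_lit 0) (nat_lit 54273667315) (nat_lit 836) (nat_lit 63179913883) (nat_lit 151) (nat_lit 5) (nat_lit 150) (nat_lit 5) (nat_lit 161) (nat_lit 5) (nat_lit 479) (nat_lit 472) (nat_lit 249)))))) (XT.nd (nat_lit 624) (nat_lit 1672) (nat_lit 0) (XT.nd (nat_lit 312) (nat_lit 836) (nat_lit 0) (XT.nd (nat_lit 156) (nat_lit 684) (nat_lit 0) (XT.nd (nat_lit 78) (nat_lit 0) (nat_lit 0) (XT.lf (nat_lit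 0) (nat_lit 111539701429) (nat_lit 760) (nat_lit 32929631722) (nat_lit 836) (nat_lit 22173597555) (nat_lit 151) (nat_lit 5) (nat_lit 161) (nat_lit 5) (nat_lit 162) (nat_lit 5) (nat_lit 480) (nat_lit 472) (nat_lit 248)) (XT.lf (nat_lit 76) (nat_lit 56746906705) (nat_lit 0) (nat_lit 69535746721) (nat_lit 836) (nat_lit 44758383143) (nat_lit 152) (nat_lit 5) (nat_lit 151) (nat_lit 5) (nat_lit 162) (nat_lit 5) (nat_lit 481) (nat_lit 472) (nat_lit 247))) (XT.nd (nat_lit 78) (nat_lit 760) (nat_lit 0) (XT.lf (nat_lit 0) (nat_lit 142472191484) (nat_lit 760) (nat_lit 23732700832) (nat_lit 76) (nat_lit 9418683510) (nat_lit 152) (nat_lit 5) (nat_lit 162) (nat_lit 5) (nat_lit 153) (nat_lit 5) (nat_lit 482) (nat_lit 472) (nat_lit 246)) (XT.lf (nat_lit 0) (nat_lit 72538420683) (nat_lit 760) (nat_lit 89205096794) (nat_lit 836) (nat_lit 18578109038) (nat_lit 142) (nat_lit 5) (nat_lit 152) (nat_lit 5) (nat_lit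 153) (nat_lit 5) (nat_lit 483) (nat_lit 472) (nat_lit 245)))) (XT.nd (nat_lit 156) (nat_lit 380) (nat_lit 0) (XT.nd (nat_lit 78) (nat_lit 456) (nat_lit 0) (XT.lf (nat_lit 0) (nat_lit 174446915006) (nat_lit 760) (nat_lit 7933277260) (nat_lit 836) (nat_lit 2854298370) (nat_lit 142) (nat_lit 5) (nat_lit 152) (nat_lit 5) (nat_lit 153) (nat_lit 5) (nat_lit 484) (nat_lit 472) (nat_lit 244)) (XT.lf (nat_lit 0) (nat_lit 15919711016) (nat_lit 456) (nat_lit 97696828330) (nat_lit 76) (nat_lit 76630744647) (nat_lit 136) (nat_lit 5) (nat_lit 142) (nat_lit 5) (nat_lit 137) (nat_lit 5) (nat_lit 485) (nat_lit 472) (nat_lit 243))) (XT.nd (nat_lit 78) (nat_lit 0) (nat_lit 0) (XT.lf (nat_lit 0) (nat_lit 5938420259) (nat_lit 380) (nat_lit 30006401335) (nat_lit 456) (nat_lit 159543139661) (nat_lit 131) (nat_lit 5) (nat_lit 136) (nat_lit 5) (nat_lit 137) (nat_lit 5) (nat_lit 486) (nat_lit 472) (nat_lit 242)) (XT.lf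 (nat_lit 0) (nat_lit 59554899661) (nat_lit 456) (nat_lit 83690134835) (nat_lit 76) (nat_lit 57616452303) (nat_lit 131) (nat_lit 5) (nat_lit 137) (nat_lit 5) (nat_lit 132) (nat_lit 5) (nat_lit 487) (nat_lit 472) (nat_lit 241))))) (XT.nd (nat_lit 312) (nat_lit 988) (nat_lit 0) (XT.nd (nat_lit 156) (nat_lit 304) (nat_lit 0) (XT.nd (nat_lit 78) (nat_lit 0) (nat_lit 0) (XT.lf (nat_lit 0) (nat_lit 27861960121) (nat_lit 380) (nat_lit 57410310399) (nat_lit 456) (nat_lit 121185078673) (nat_lit 126) (nat_lit 5) (nat_lit 131) (nat_lit 5) (nat_lit 132) (nat_lit 5) (nat_lit 488) (nat_lit 472) (nat_lit 240)) (XT.lf (nat_lit 0) (nat_lit 114226749694) (nat_lit 456) (nat_lit 64899105216) (nat_lit 76) (nat_lit 33109587824) (nat_lit 126) (nat_lit 5) (nat_lit 132) (nat_lit 5) (nat_lit 127) (nat_lit 5) (nat_lit 489) (nat_lit 472) (nat_lit 239))) (XT.nd (nat_lit 78) (nat_lit 0) (nat_lit 0) (XT.lf (nat_lit 0) (nat_lit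 55311010602) (nat_lit 304) (nat_lit 91122541490) (nat_lit 380) (nat_lit 71778658912) (nat_lit 122) (nat_lit 5) (nat_lit 126) (nat_lit 5) (nat_lit 127) (nat_lit 5) (nat_lit 490) (nat_lit 472) (nat_lit 238)) (XT.lf (nat_lit 0) (nat_lit 181387699327) (nat_lit 380) (nat_lit 40686227795) (nat_lit 76) (nat_lit 2357040342) (nat_lit 122) (nat_lit 5) (nat_lit 127) (nat_lit 5) (nat_lit 123) (nat_lit 5) (nat_lit 491) (nat_lit 472) (nat_lit 237)))) (XT.nd (nat_lit 156) (nat_lit 608) (nat_lit 0) (XT.nd (nat_lit 78) (nat_lit 76) (nat_lit 0) (XT.lf (nat_lit 0) (nat_lit 88993918086) (nat_lit 304) (nat_lit 131978787646) (nat_lit 380) (nat_lit 9843798440) (nat_lit 118) (nat_lit 5) (nat_lit 122) (nat_lit 5) (nat_lit 123) (nat_lit 5) (nat_lit 492) (nat_lit 472) (nat_lit 236)) (XT.lf (nat_lit 0) (nat_lit 24915221179) (nat_lit 380) (nat_lit 11318246303) (nat_lit 76) (nat_lit 201233310363) (nat_lit 117) (nat_lit 5)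 (nat_lit 122) (nat_lit 5) (nat_lit 118) (nat_lit 5) (nat_lit 493) (nat_lit 472) (nat_lit 235))) (XT.nd (nat_lit 78) (nat_lit 304) (nat_lit 0) (XT.lf (nat_lit 0) (nat_lit 64146005415) (nat_lit 380) (nat_lit 115678921975) (nat_lit 76) (nat_lit 64463337648) (nat_lit 113) (nat_lit 5) (nat_lit 118) (nat_lit 5) (nat_lit 114) (nat_lit 5) (nat_lit 494) (nat_lit 472) (nat_lit 234)) (XT.lf (nat_lit 0) (nat_lit 24677594530) (nat_lit 304) (nat_lit 81834738298) (nat_lit 380) (nat_lit 144879793574) (nat_lit 109) (nat_lit 5) (nat_lit 113) (nat_lit 5) (nat_lit 114) (nat_lit 5) (nat_lit 495) (nat_lit 472) (nat_lit 233))))))))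
noncomputable def xc224 : XT := (XT.nd (nat_lit 2418) (nat_lit 1216) (nat_lit 0) (XT.nd (nat_lit 1170) (nat_lit 1672) (nat_lit 0) (XT.nd (nat_lit 546) (nat_lit 912) (nat_lit 0) (XT.nd (nat_lit 234) (nat_lit 760) (nat_lit 0) (XT.nd (nat_lit 78) (nat_lit 228) (nat_lit 0) (XT.lf (nat_lit 0) (nat_lit 153316804392) (nat_lit 380) (nat_lit 83046146650) (nat_lit 76) (nat_lit 22372238414) (nat_lit 109) (nat_lit 5) (nat_lit 114) (nat_lit 5) (nat_lit 110) (nat_lit 5) (nat_lit 496) (nat_lit 472) (nat_lit 232)) (XT.nd (nat_lit 78) (nat_lit 0) (nat_lit 0) (XT.lf (nat_lit 0) (nat_lit 68661585632) (nat_lit 228) (nat_lit 136213377511) (nat_lit 304) (nat_lit 61449769350) (nat_lit 106) (nat_lit 5) (nat_lit 109) (nat_lit 5) (nat_lit 110) (nat_lit 5) (nat_lit 497) (nat_lit 472) (nat_lit 231)) (XT.lf (nat_lit 0) (nat_lit 230837762477) (nat_lit 228) (nat_lit 29579607206) (nat_lit 304) (nat_lit 13806066015) (nat_lit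 106) (nat_lit 5) (nat_lit 109) (nat_lit 5) (nat_lit 110) (nat_lit 5) (nat_lit 498) (nat_lit 472) (nat_lit 230)))) (XT.nd (nat_lit 156) (nat_lit 228) (nat_lit 0) (XT.nd (nat_lit 78) (nat_lit 228) (nat_lit 0) (XT.lf (nat_lit 0) (nat_lit 38291104921) (nat_lit 304) (nat_lit 161777360081) (nat_lit 76) (nat_lit 82258807276) (nat_lit 102) (nat_lit 5) (nat_lit 106) (nat_lit 5) (nat_lit 103) (nat_lit 5) (nat_lit 499) (nat_lit 472) (nat_lit 229)) (XT.lf (nat_lit 0) (nat_lit 2753700795) (nat_lit 228) (nat_lit 91050084135) (nat_lit 304) (nat_lit 196957468075) (nat_lit 99) (nat_lit 5) (nat_lit 102) (nat_lit 5) (nat_lit 103) (nat_lit 5) (nat_lit 500) (nat_lit 472) (nat_lit 228))) (XT.nd (nat_lit 78) (nat_lit 228) (nat_lit 0) (XT.lf (nat_lit 0) (nat_lit 155242350130) (nat_lit 304) (nat_lit 118762755879) (nat_lit 76) (nat_lit 25454314207) (nat_lit 99) (nat_lit 5) (nat_lit 103) (nat_lit 5) (nat_lit 100) (nat_lit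 5) (nat_lit 501) (nat_lit 472) (nat_lit 227)) (XT.lf (nat_lit 0) (nat_lit 59351151660) (nat_lit 228) (nat_lit 162820877245) (nat_lit 304) (nat_lit 86299507623) (nat_lit 96) (nat_lit 5) (nat_lit 99) (nat_lit 5) (nat_lit 100) (nat_lit 5) (nat_lit 502) (nat_lit 472) (nat_lit 226))))) (XT.nd (nat_lit 312) (nat_lit 456) (nat_lit 0) (XT.nd (nat_lit 156) (nat_lit 228) (nat_lit 0) (XT.nd (nat_lit 78) (nat_lit 228) (nat_lit 0) (XT.lf (nat_lit 0) (nat_lit 250493819302) (nat_lit 228) (nat_lit 43965602172) (nat_lit 304) (nat_lit 23374275697) (nat_lit 96) (nat_lit 5) (nat_lit 99) (nat_lit 5) (nat_lit 100) (nat_lit 5) (nat_lit 503) (nat_lit 472) (nat_lit 225)) (XT.lf (nat_lit 0) (nat_lit 44617662587) (nat_lit 228) (nat_lit 201911662888) (nat_lit 76) (nat_lit 80936958099) (nat_lit 93) (nat_lit 5) (nat_lit 96) (nat_lit 5) (nat_lit 94) (nat_lit 5) (nat_lit 504) (nat_lit 472) (nat_lit 224))) (XT.nd (nat_lit 78)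 (nat_lit 228) (nat_lit 0) (XT.lf (nat_lit 0) (nat_lit 117103474242) (nat_lit 228) (nat_lit 8214481426) (nat_lit 76) (nat_lit 212149394121) (nat_lit 93) (nat_lit 5) (nat_lit 96) (nat_lit 5) (nat_lit 94) (nat_lit 5) (nat_lit 505) (nat_lit 472) (nat_lit 223)) (XT.lf (nat_lit 0) (nat_lit 196443481726) (nat_lit 304) (nat_lit 146272617151) (nat_lit 76) (nat_lit 5090875182) (nat_lit 90) (nat_lit 5) (nat_lit 94) (nat_lit 5) (nat_lit 91) (nat_lit 5) (nat_lit 506) (nat_lit 472) (nat_lit 222)))) (XT.nd (nat_lit 156) (nat_lit 228) (nat_lit 0) (XT.nd (nat_lit 78) (nat_lit 76) (nat_lit 0) (XT.lf (nat_lit 0) (nat_lit 63370681577) (nat_lit 152) (nat_lit 219564924723) (nat_lit 228) (nat_lit 75568717412) (nat_lit 88) (nat_lit 5) (nat_lit 90) (nat_lit 5) (nat_lit 91) (nat_lit 5) (nat_lit 507) (nat_lit 472) (nat_lit 221)) (XT.lf (nat_lit 0) (nat_lit 6405006798) (nat_lit 228) (nat_lit 81141693250) (nat_lit 76) (nat_lit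 282060818859) (nat_lit 87) (nat_lit 5) (nat_lit 90) (nat_lit 5) (nat_lit 88) (nat_lit 5) (nat_lit 508) (nat_lit 472) (nat_lit 220))) (XT.nd (nat_lit 78) (nat_lit 0) (nat_lit 0) (XT.lf (nat_lit 0) (nat_lit 93088407615) (nat_lit 304) (nat_lit 234928125510) (nat_lit 76) (nat_lit 53029869427) (nat_lit 84) (nat_lit 5) (nat_lit 88) (nat_lit 5) (nat_lit 85) (nat_lit 5) (nat_lit 509) (nat_lit 472) (nat_lit 219)) (XT.lf (nat_lit 0) (nat_lit 186937809364) (nat_lit 304) (nat_lit 6888039491) (nat_lit 76) (nat_lit 199089789986) (nat_lit 84) (nat_lit 5) (nat_lit 88) (nat_lit 5) (nat_lit 85) (nat_lit 5) (nat_lit 510) (nat_lit 472) (nat_lit 218)))))) (XT.nd (nat_lit 624) (nat_lit 760) (nat_lit 0) (XT.nd (nat_lit 312) (nat_lit 380) (nat_lit 0) (XT.nd (nat_lit 156) (nat_lit 228) (nat_lit 0) (XT.nd (nat_lit 78) (nat_lit 152) (nat_lit 0) (XT.lf (nat_lit 0) (nat_lit 240243238843) (nat_lit 152) (nat_lit 48987253367)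 (nat_lit 228) (nat_lit 115960304187) (nat_lit 82) (nat_lit 5) (nat_lit 84) (nat_lit 5) (nat_lit 85) (nat_lit 5) (nat_lit 511) (nat_lit 472) (nat_lit 217)) (XT.lf (nat_lit 0) (nat_lit 82939331650) (nat_lit 152) (nat_lit 316721474007) (nat_lit 228) (nat_lit 18267756356) (nat_lit 80) (nat_lit 5) (nat_lit 82) (nat_lit 5) (nat_lit 83) (nat_lit 5) (nat_lit 512) (nat_lit 472) (nat_lit 216))) (XT.nd (nat_lit 78) (nat_lit 152) (nat_lit 0) (XT.lf (nat_lit 0) (nat_lit 85253263807) (nat_lit 228) (nat_lit 84381638211) (nat_lit 76) (nat_lit 261420384936) (nat_lit 79) (nat_lit 5) (nat_lit 82) (nat_lit 5) (nat_lit 80) (nat_lit 5) (nat_lit 513) (nat_lit 472) (nat_lit 215)) (XT.lf (nat_lit 0) (nat_lit 184357356373) (nat_lit 152) (nat_lit 11857341866) (nat_lit 228) (nat_lit 248464762353) (nat_lit 77) (nat_lit 5) (nat_lit 79) (nat_lit 5) (nat_lit 80) (nat_lit 5) (nat_lit 514) (nat_lit 472) (nat_lit 214)))) (XT.nd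 (nat_lit 156) (nat_lit 228) (nat_lit 0) (XT.nd (nat_lit 78) (nat_lit 0) (nat_lit 0) (XT.lf (nat_lit 0) (nat_lit 8393172721) (nat_lit 152) (nat_lit 308315879792) (nat_lit 228) (nat_lit 142076547996) (nat_lit 75) (nat_lit 5) (nat_lit 77) (nat_lit 5) (nat_lit 78) (nat_lit 5) (nat_lit 515) (nat_lit 472) (nat_lit 213)) (XT.lf (nat_lit 0) (nat_lit 299381107688) (nat_lit 152) (nat_lit 148446891541) (nat_lit 228) (nat_lit 25539054461) (nat_lit 75) (nat_lit 5) (nat_lit 77) (nat_lit 5) (nat_lit 78) (nat_lit 5) (nat_lit 516) (nat_lit 472) (nat_lit 212))) (XT.nd (nat_lit 78) (nat_lit 0) (nat_lit 0) (XT.lf (nat_lit 0) (nat_lit 95934964130) (nat_lit 228) (nat_lit 370345204110) (nat_lit 76) (nat_lit 22211392312) (nat_lit 72) (nat_lit 5) (nat_lit 75) (nat_lit 5) (nat_lit 73) (nat_lit 5) (nat_lit 517) (nat_lit 472) (nat_lit 211)) (XT.lf (nat_lit 0) (nat_lit 228052748322) (nat_lit 228) (nat_lit 76199914774) (nat_lit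 76) (nat_lit 199827278795) (nat_lit 72) (nat_lit 5) (nat_lit 75) (nat_lit 5) (nat_lit 73) (nat_lit 5) (nat_lit 518) (nat_lit 472) (nat_lit 210))))) (XT.nd (nat_lit 312) (nat_lit 304) (nat_lit 0) (XT.nd (nat_lit 156) (nat_lit 228) (nat_lit 0) (XT.nd (nat_lit 78) (nat_lit 76) (nat_lit 0) (XT.lf (nat_lit 0) (nat_lit 240345097892) (nat_lit 152) (nat_lit 130183735533) (nat_lit 228) (nat_lit 149731288289) (nat_lit 70) (nat_lit 5) (nat_lit 72) (nat_lit 5) (nat_lit 73) (nat_lit 5) (nat_lit 519) (nat_lit 472) (nat_lit 209)) (XT.lf (nat_lit 0) (nat_lit 38570255634) (nat_lit 76) (nat_lit 484293302447) (nat_lit 152) (nat_lit 14249010684) (nat_lit 69) (nat_lit 5) (nat_lit 70) (nat_lit 5) (nat_lit 71) (nat_lit 4) (nat_lit 520) (nat_lit 472) (nat_lit 208))) (XT.nd (nat_lit 78) (nat_lit 152) (nat_lit 0) (XT.lf (nat_lit 0) (nat_lit 130862666037) (nat_lit 152) (nat_lit 176083309258) (nat_lit 76) (nat_lit 247414119137)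 (nat_lit 68) (nat_lit 5) (nat_lit 70) (nat_lit 5) (nat_lit 69) (nat_lit 5) (nat_lit 521) (nat_lit 472) (nat_lit 207)) (XT.lf (nat_lit 0) (nat_lit 167630185445) (nat_lit 152) (nat_lit 117738012047) (nat_lit 228) (nat_lit 286959262821) (nat_lit 66) (nat_lit 5) (nat_lit 68) (nat_lit 5) (nat_lit 69) (nat_lit 5) (nat_lit 522) (nat_lit 472) (nat_lit 206)))) (XT.nd (nat_lit 156) (nat_lit 152) (nat_lit 0) (XT.nd (nat_lit 78) (nat_lit 152) (nat_lit 0) (XT.lf (nat_lit 0) (nat_lit 451893451777) (nat_lit 228) (nat_lit 57714039843) (nat_lit 76) (nat_lit 81370980557) (nat_lit 66) (nat_lit 5) (nat_lit 69) (nat_lit 5) (nat_lit 67) (nat_lit 4) (nat_lit 523) (nat_lit 472) (nat_lit 205)) (XT.lf (nat_lit 0) (nat_lit 22621595627) (nat_lit 152) (nat_lit 295822164977) (nat_lit 76) (nat_lit 291757810162) (nat_lit 64) (nat_lit 5) (nat_lit 66) (nat_lit 5) (nat_lit 65) (nat_lit 5) (nat_lit 524) (nat_lit 472) (nat_lit 204)))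 (XT.nd (nat_lit 78) (nat_lit 0) (nat_lit 0) (XT.lf (nat_lit 0) (nat_lit 76909677346) (nat_lit 152) (nat_lit 113023867204) (nat_lit 228) (nat_lit 440228567082) (nat_lit 62) (nat_lit 5) (nat_lit 64) (nat_lit 5) (nat_lit 65) (nat_lit 5) (nat_lit 525) (nat_lit 472) (nat_lit 203)) (XT.lf (nat_lit 0) (nat_lit 372305988835) (nat_lit 228) (nat_lit 174006923652) (nat_lit 76) (nat_lit 104473022158) (nat_lit 62) (nat_lit 5) (nat_lit 65) (nat_lit 5) (nat_lit 63) (nat_lit 4) (nat_lit 526) (nat_lit 472) (nat_lit 202))))))) (XT.nd (nat_lit 1170) (nat_lit 76) (nat_lit 0) (XT.nd (nat_lit 546) (nat_lit 532) (nat_lit 0) (XT.nd (nat_lit 234) (nat_lit 304) (nat_lit 0) (XT.nd (nat_lit 78) (nat_lit 228) (nat_lit 0) (XT.lf (nat_lit 0) (nat_lit 229699764171) (nat_lit 76) (nat_lit 339536357662) (nat_lit 152) (nat_lit 102932873653) (nat_lit 61) (nat_lit 5) (nat_lit 62) (nat_lit 5) (nat_lit 63) (nat_lit 4) (nat_lit 527)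 (nat_lit 472) (nat_lit 201)) (XT.nd (nat_lit 78) (nat_lit 152) (nat_lit 0) (XT.lf (nat_lit 0) (nat_lit 81781674589) (nat_lit 152) (nat_lit 36160086018) (nat_lit 76) (nat_lit 576466153232) (nat_lit 60) (nat_lit 5) (nat_lit 62) (nat_lit 5) (nat_lit 61) (nat_lit 5) (nat_lit 528) (nat_lit 472) (nat_lit 200)) (XT.lf (nat_lit 0) (nat_lit 280465044818) (nat_lit 228) (nat_lit 317650889848) (nat_lit 76) (nat_lit 119148856531) (nat_lit 58) (nat_lit 5) (nat_lit 61) (nat_lit 5) (nat_lit 59) (nat_lit 4) (nat_lit 529) (nat_lit 472) (nat_lit 199)))) (XT.nd (nat_lit 156) (nat_lit 228) (nat_lit 0) (XT.nd (nat_lit 78) (nat_lit 0) (nat_lit 0) (XT.lf (nat_lit 0) (nat_lit 119065343744) (nat_lit 76) (nat_lit 374432044184) (nat_lit 152) (nat_lit 247546384276) (nat_lit 57) (nat_lit 5) (nat_lit 58) (nat_lit 5) (nat_lit 59) (nat_lit 4) (nat_lit 530) (nat_lit 472) (nat_lit 198)) (XT.lf (nat_lit 0) (nat_lit 588645439978)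 (nat_lit 76) (nat_lit 133915441948) (nat_lit 152) (nat_lit 43181843652) (nat_lit 57) (nat_lit 5) (nat_lit 58) (nat_lit 5) (nat_lit 59) (nat_lit 4) (nat_lit 531) (nat_lit 472) (nat_lit 197))) (XT.nd (nat_lit 78) (nat_lit 0) (nat_lit 0) (XT.lf (nat_lit 0) (nat_lit 172521641558) (nat_lit 228) (nat_lit 496430093157) (nat_lit 76) (nat_lit 122260758591) (nat_lit 54) (nat_lit 5) (nat_lit 57) (nat_lit 5) (nat_lit 55) (nat_lit 4) (nat_lit 532) (nat_lit 472) (nat_lit 196)) (XT.lf (nat_lit 0) (nat_lit 402802802552) (nat_lit 228) (nat_lit 24353770531) (nat_lit 76) (nat_lit 390501596652) (nat_lit 54) (nat_lit 5) (nat_lit 57) (nat_lit 5) (nat_lit 55) (nat_lit 4) (nat_lit 533) (nat_lit 472) (nat_lit 195))))) (XT.nd (nat_lit 312) (nat_lit 228) (nat_lit 0) (XT.nd (nat_lit 156) (nat_lit 76) (nat_lit 0) (XT.nd (nat_lit 78) (nat_lit 152) (nat_lit 0) (XT.lf (nat_lit 0) (nat_lit 486910478935) (nat_lit 76) (nat_lit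 165289545151) (nat_lit 152) (nat_lit 192846005777) (nat_lit 53) (nat_lit 5) (nat_lit 54) (nat_lit 5) (nat_lit 55) (nat_lit 4) (nat_lit 534) (nat_lit 472) (nat_lit 194)) (XT.lf (nat_lit 0) (nat_lit 43585472509) (nat_lit 152) (nat_lit 720268469466) (nat_lit 76) (nat_lit 109687392336) (nat_lit 51) (nat_lit 5) (nat_lit 53) (nat_lit 5) (nat_lit 52) (nat_lit 4) (nat_lit 535) (nat_lit 472) (nat_lit 193))) (XT.nd (nat_lit 78) (nat_lit 76) (nat_lit 0) (XT.lf (nat_lit 0) (nat_lit 294231892961) (nat_lit 152) (nat_lit 206443354773) (nat_lit 76) (nat_lit 402184372821) (nat_lit 51) (nat_lit 5) (nat_lit 53) (nat_lit 5) (nat_lit 52) (nat_lit 4) (nat_lit 536) (nat_lit 472) (nat_lit 192)) (XT.lf (nat_lit 0) (nat_lit 344085849129) (nat_lit 76) (nat_lit 218696896947) (nat_lit 152) (nat_lit 370592469454) (nat_lit 50) (nat_lit 5) (nat_lit 51) (nat_lit 5) (nat_lit 52) (nat_lit 4) (nat_lit 537) (nat_lit 472) (nat_lit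 191)))) (XT.nd (nat_lit 156) (nat_lit 76) (nat_lit 0) (XT.nd (nat_lit 78) (nat_lit 152) (nat_lit 0) (XT.lf (nat_lit 0) (nat_lit 849522766836) (nat_lit 152) (nat_lit 37198521211) (nat_lit 0) (nat_lit 78457220959) (nat_lit 50) (nat_lit 5) (nat_lit 52) (nat_lit 4) (nat_lit 50) (nat_lit 4) (nat_lit 538) (nat_lit 472) (nat_lit 190)) (XT.lf (nat_lit 0) (nat_lit 159640535480) (nat_lit 152) (nat_lit 443802487001) (nat_lit 76) (nat_lit 394386337971) (nat_lit 48) (nat_lit 5) (nat_lit 50) (nat_lit 5) (nat_lit 49) (nat_lit 4) (nat_lit 539) (nat_lit 472) (nat_lit 189))) (XT.nd (nat_lit 78) (nat_lit 0) (nat_lit 0) (XT.lf (nat_lit 0) (nat_lit 146816389116) (nat_lit 76) (nat_lit 300930933254) (nat_lit 152) (nat_lit 584124007977) (nat_lit 47) (nat_lit 5) (nat_lit 48) (nat_lit 5) (nat_lit 49) (nat_lit 4) (nat_lit 540) (nat_lit 472) (nat_lit 188)) (XT.lf (nat_lit 0) (nat_lit 758159480201) (nat_lit 152) (nat_lit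 285249681510) (nat_lit 0) (nat_lit 23811235448) (nat_lit 47) (nat_lit 5) (nat_lit 49) (nat_lit 4) (nat_lit 47) (nat_lit 4) (nat_lit 541) (nat_lit 472) (nat_lit 187)))))) (XT.nd (nat_lit 57642) (nat_lit 0) (nat_lit 6460) (XT.nd (nat_lit 57330) (nat_lit 0) (nat_lit 7752) (XT.nd (nat_lit 57174) (nat_lit 0) (nat_lit 7676) (XT.nd (nat_lit 57096) (nat_lit 0) (nat_lit 7676) (XT.lf (nat_lit 0) (nat_lit 350841612830) (nat_lit 76) (nat_lit 743661518468) (nat_lit 76) (nat_lit 9313241746) (nat_lit 46) (nat_lit 4) (nat_lit 47) (nat_lit 5) (nat_lit 47) (nat_lit 4) (nat_lit 542) (nat_lit 472) (nat_lit 186)) (XT.lf (nat_lit 0) (nat_lit 29716779679) (nat_lit 836) (nat_lit 20893981646) (nat_lit 836) (nat_lit 20893981646) (nat_lit 147) (nat_lit 3) (nat_lit 158) (nat_lit 3) (nat_lit 158) (nat_lit 5) (nat_lit 473) (nat_lit 473) (nat_lit 254))) (XT.nd (nat_lit 78) (nat_lit 0) (nat_lit 76) (XT.lf (nat_lit 76) (nat_lit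 30100971710) (nat_lit 0) (nat_lit 31291530338) (nat_lit 836) (nat_lit 85168565374) (nat_lit 148) (nat_lit 5) (nat_lit 147) (nat_lit 3) (nat_lit 158) (nat_lit 5) (nat_lit 474) (nat_lit 473) (nat_lit 253)) (XT.lf (nat_lit 0) (nat_lit 64826336271) (nat_lit 760) (nat_lit 43889273058) (nat_lit 836) (nat_lit 41505771456) (nat_lit 148) (nat_lit 5) (nat_lit 158) (nat_lit 5) (nat_lit 159) (nat_lit 5) (nat_lit 475) (nat_lit 473) (nat_lit 252)))) (XT.nd (nat_lit 156) (nat_lit 0) (nat_lit 76) (XT.nd (nat_lit 78) (nat_lit 0) (nat_lit 76) (XT.lf (nat_lit 76) (nat_lit 32848352205) (nat_lit 0) (nat_lit 36609148891) (nat_lit 836) (nat_lit 84555926804) (nat_lit 149) (nat_lit 5) (nat_lit 148) (nat_lit 5) (nat_lit 159) (nat_lit 5) (nat_lit 476) (nat_lit 473) (nat_lit 251)) (XT.lf (nat_lit 0) (nat_lit 75686013600) (nat_lit 760) (nat_lit 43634128148) (nat_lit 836) (nat_lit 38606646180) (nat_lit 149) (nat_lit 5) (nat_lit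 159) (nat_lit 5) (nat_lit 160) (nat_lit 5) (nat_lit 477) (nat_lit 473) (nat_lit 250))) (XT.nd (nat_lit 78) (nat_lit 0) (nat_lit 76) (XT.lf (nat_lit 76) (nat_lit 38402209673) (nat_lit 0) (nat_lit 45023283515) (nat_lit 836) (nat_lit 78550345722) (nat_lit 150) (nat_lit 5) (nat_lit 149) (nat_lit 5) (nat_lit 160) (nat_lit 5) (nat_lit 478) (nat_lit 473) (nat_lit 249)) (XT.lf (nat_lit 0) (nat_lit 92817900351) (nat_lit 760) (nat_lit 40662432241) (nat_lit 836) (nat_lit 32683712196) (nat_lit 150) (nat_lit 5) (nat_lit 160) (nat_lit 5) (nat_lit 161) (nat_lit 5) (nat_lit 479) (nat_lit 473) (nat_lit 248))))) (XT.nd (nat_lit 312) (nat_lit 1444) (nat_lit 0) (XT.nd (nat_lit 156) (nat_lit 0) (nat_lit 76) (XT.nd (nat_lit 78) (nat_lit 0) (nat_lit 76) (XT.lf (nat_lit 76) (nat_lit 47165716415) (nat_lit 0) (nat_lit 56988527744) (nat_lit 836) (nat_lit 66333701012) (nat_lit 151) (nat_lit 5) (nat_lit 150) (nat_lit 5)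 (nat_lit 161) (nat_lit 5) (nat_lit 480) (nat_lit 473) (nat_lit 247)) (XT.lf (nat_lit 0) (nat_lit 117121392641) (nat_lit 760) (nat_lit 34572256280) (nat_lit 836) (nat_lit 23281192300) (nat_lit 151) (nat_lit 5) (nat_lit 161) (nat_lit 5) (nat_lit 162) (nat_lit 5) (nat_lit 481) (nat_lit 473) (nat_lit 246))) (XT.nd (nat_lit 78) (nat_lit 0) (nat_lit 76) (XT.lf (nat_lit 76) (nat_lit 59588046858) (nat_lit 0) (nat_lit 73013280525) (nat_lit 836) (nat_lit 46991533270) (nat_lit 152) (nat_lit 5) (nat_lit 151) (nat_lit 5) (nat_lit 162) (nat_lit 5) (nat_lit 482) (nat_lit 473) (nat_lit 245)) (XT.lf (nat_lit 0) (nat_lit 149600114993) (nat_lit 760) (nat_lit 24915493761) (nat_lit 76) (nat_lit 9888929518) (nat_lit 152) (nat_lit 5) (nat_lit 162) (nat_lit 5) (nat_lit 153) (nat_lit 5) (nat_lit 483) (nat_lit 473) (nat_lit 244)))) (XT.nd (nat_lit 156) (nat_lit 836) (nat_lit 0) (XT.nd (nat_lit 78) (nat_lit 0) (nat_lit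 0) (XT.lf (nat_lit 0) (nat_lit 76169121860) (nat_lit 760) (nat_lit 93665739019) (nat_lit 836) (nat_lit 19502637968) (nat_lit 142) (nat_lit 5) (nat_lit 152) (nat_lit 5) (nat_lit 153) (nat_lit 5) (nat_lit 484) (nat_lit 473) (nat_lit 243)) (XT.lf (nat_lit 0) (nat_lit 183172860892) (nat_lit 760) (nat_lit 8330310062) (nat_lit 836) (nat_lit 2992845172) (nat_lit 142) (nat_lit 5) (nat_lit 152) (nat_lit 5) (nat_lit 153) (nat_lit 5) (nat_lit 485) (nat_lit 473) (nat_lit 242))) (XT.nd (nat_lit 78) (nat_lit 380) (nat_lit 0) (XT.lf (nat_lit 0) (nat_lit 16719592978) (nat_lit 456) (nat_lit 102577796813) (nat_lit 76) (nat_lit 80462063048) (nat_lit 136) (nat_lit 5) (nat_lit 142) (nat_lit 5) (nat_lit 137) (nat_lit 5) (nat_lit 486) (nat_lit 473) (nat_lit 241)) (XT.lf (nat_lit 0) (nat_lit 6239151738) (nat_lit 380) (nat_lit 31506681295) (nat_lit 456) (nat_lit 167516337259) (nat_lit 131) (nat_lit 5) (nat_lit 136) (nat_lit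 5) (nat_lit 137) (nat_lit 5) (nat_lit 487) (nat_lit 473) (nat_lit 240))))))))
noncomputable def xc225 : XT := (XT.nd (nat_lit 2418) (nat_lit 1900) (nat_lit 0) (XT.nd (nat_lit 1170) (nat_lit 2052) (nat_lit 0) (XT.nd (nat_lit 546) (nat_lit 1368) (nat_lit 0) (XT.nd (nat_lit 234) (nat_lit 684) (nat_lit 0) (XT.nd (nat_lit 78) (nat_lit 380) (nat_lit 0) (XT.lf (nat_lit 0) (nat_lit 62536236059) (nat_lit 456) (nat_lit 87870833134) (nat_lit 76) (nat_lit 60497311893) (nat_lit 131) (nat_lit 5) (nat_lit 137) (nat_lit 5) (nat_lit 132) (nat_lit 5) (nat_lit 488) (nat_lit 473) (nat_lit 239)) (XT.nd (nat_lit 78) (nat_lit 0) (nat_lit 0) (XT.lf (nat_lit 0) (nat_lit 29258805144) (nat_lit 380) (nat_lit 60280557799) (nat_lit 456) (nat_lit 127240679305) (nat_lit 126) (nat_lit 5) (nat_lit 131) (nat_lit 5) (nat_lit 132) (nat_lit 5) (nat_lit 489) (nat_lit 473) (nat_lit 238)) (XT.lf (nat_lit 0) (nat_lit 119941404401) (nat_lit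 456) (nat_lit 68140329776) (nat_lit 76) (nat_lit 34765314395) (nat_lit 126) (nat_lit 5) (nat_lit 132) (nat_lit 5) (nat_lit 127) (nat_lit 5) (nat_lit 490) (nat_lit 473) (nat_lit 237)))) (XT.nd (nat_lit 156) (nat_lit 380) (nat_lit 0) (XT.nd (nat_lit 78) (nat_lit 0) (nat_lit 0) (XT.lf (nat_lit 0) (nat_lit 58080231660) (nat_lit 304) (nat_lit 95678214602) (nat_lit 380) (nat_lit 75364214045) (nat_lit 122) (nat_lit 5) (nat_lit 126) (nat_lit 5) (nat_lit 127) (nat_lit 5) (nat_lit 491) (nat_lit 473) (nat_lit 236)) (XT.lf (nat_lit 0) (nat_lit 190460154439) (nat_lit 380) (nat_lit 42716896626) (nat_lit 76) (nat_lit 2475310867) (nat_lit 122) (nat_lit 5) (nat_lit 127) (nat_lit 5) (nat_lit 123) (nat_lit 5) (nat_lit 492) (nat_lit 473) (nat_lit 235))) (XT.nd (nat_lit 78) (nat_lit 76) (nat_lit 0) (XT.lf (nat_lit 0) (nat_lit 93447197798) (nat_lit 304) (nat_lit 138577123122) (nat_lit 380) (nat_lit 10332859086) (nat_lit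 118) (nat_lit 5) (nat_lit 122) (nat_lit 5) (nat_lit 123) (nat_lit 5) (nat_lit 493) (nat_lit 473) (nat_lit 234)) (XT.lf (nat_lit 0) (nat_lit 26163867114) (nat_lit 380) (nat_lit 11880649738) (nat_lit 76) (nat_lit 211295455299) (nat_lit 117) (nat_lit 5) (nat_lit 122) (nat_lit 5) (nat_lit 118) (nat_lit 5) (nat_lit 494) (nat_lit 473) (nat_lit 233))))) (XT.nd (nat_lit 312) (nat_lit 532) (nat_lit 0) (XT.nd (nat_lit 156) (nat_lit 228) (nat_lit 0) (XT.nd (nat_lit 78) (nat_lit 304) (nat_lit 0) (XT.lf (nat_lit 0) (nat_lit 67356117248) (nat_lit 380) (nat_lit 121459285553) (nat_lit 76) (nat_lit 67687134583) (nat_lit 113) (nat_lit 5) (nat_lit 118) (nat_lit 5) (nat_lit 114) (nat_lit 5) (nat_lit 495) (nat_lit 473) (nat_lit 232)) (XT.lf (nat_lit 0) (nat_lit 25914998995) (nat_lit 304) (nat_lit 85925683184) (nat_lit 380) (nat_lit 152120913595) (nat_lit 109) (nat_lit 5) (nat_lit 113) (nat_lit 5) (nat_lit 114) (nat_lit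 5) (nat_lit 496) (nat_lit 473) (nat_lit 231))) (XT.nd (nat_lit 78) (nat_lit 228) (nat_lit 0) (XT.lf (nat_lit 0) (nat_lit 160985258969) (nat_lit 380) (nat_lit 87194978440) (nat_lit 76) (nat_lit 23491580505) (nat_lit 109) (nat_lit 5) (nat_lit 114) (nat_lit 5) (nat_lit 110) (nat_lit 5) (nat_lit 497) (nat_lit 473) (nat_lit 230)) (XT.lf (nat_lit 0) (nat_lit 72098084399) (nat_lit 228) (nat_lit 143023170153) (nat_lit 304) (nat_lit 64519587120) (nat_lit 106) (nat_lit 5) (nat_lit 109) (nat_lit 5) (nat_lit 110) (nat_lit 5) (nat_lit 498) (nat_lit 473) (nat_lit 229)))) (XT.nd (nat_lit 156) (nat_lit 228) (nat_lit 0) (XT.nd (nat_lit 78) (nat_lit 304) (nat_lit 0) (XT.lf (nat_lit 0) (nat_lit 242382907254) (nat_lit 228) (nat_lit 31057753058) (nat_lit 304) (nat_lit 14493825794) (nat_lit 106) (nat_lit 5) (nat_lit 109) (nat_lit 5) (nat_lit 110) (nat_lit 5) (nat_lit 499) (nat_lit 473) (nat_lit 228)) (XT.lf (nat_lit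 0) (nat_lit 40208070186) (nat_lit 304) (nat_lit 169862837429) (nat_lit 76) (nat_lit 86372607533) (nat_lit 102) (nat_lit 5) (nat_lit 106) (nat_lit 5) (nat_lit 103) (nat_lit 5) (nat_lit 500) (nat_lit 473) (nat_lit 227))) (XT.nd (nat_lit 78) (nat_lit 0) (nat_lit 0) (XT.lf (nat_lit 0) (nat_lit 2894721803) (nat_lit 228) (nat_lit 95601599713) (nat_lit 304) (nat_lit 206802876539) (nat_lit 99) (nat_lit 5) (nat_lit 102) (nat_lit 5) (nat_lit 103) (nat_lit 5) (nat_lit 501) (nat_lit 473) (nat_lit 226)) (XT.lf (nat_lit 0) (nat_lit 163006717898) (nat_lit 304) (nat_lit 124697619260) (nat_lit 76) (nat_lit 26727941333) (nat_lit 99) (nat_lit 5) (nat_lit 103) (nat_lit 5) (nat_lit 100) (nat_lit 5) (nat_lit 502) (nat_lit 473) (nat_lit 225)))))) (XT.nd (nat_lit 624) (nat_lit 912) (nat_lit 0) (XT.nd (nat_lit 312) (nat_lit 684) (nat_lit 0) (XT.nd (nat_lit 156) (nat_lit 228) (nat_lit 0) (XT.nd (nat_lit 78) (nat_lit 0)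 (nat_lit 0) (XT.lf (nat_lit 0) (nat_lit 62321930842) (nat_lit 228) (nat_lit 170960892913) (nat_lit 304) (nat_lit 90612179719) (nat_lit 96) (nat_lit 5) (nat_lit 99) (nat_lit 5) (nat_lit 100) (nat_lit 5) (nat_lit 503) (nat_lit 473) (nat_lit 224)) (XT.lf (nat_lit 0) (nat_lit 263021578457) (nat_lit 228) (nat_lit 46162903048) (nat_lit 304) (nat_lit 24540795877) (nat_lit 96) (nat_lit 5) (nat_lit 99) (nat_lit 5) (nat_lit 100) (nat_lit 5) (nat_lit 504) (nat_lit 473) (nat_lit 223))) (XT.nd (nat_lit 78) (nat_lit 0) (nat_lit 0) (XT.lf (nat_lit 0) (nat_lit 46850632096) (nat_lit 228) (nat_lit 212004070243) (nat_lit 76) (nat_lit 84984790912) (nat_lit 93) (nat_lit 5) (nat_lit 96) (nat_lit 5) (nat_lit 94) (nat_lit 5) (nat_lit 505) (nat_lit 473) (nat_lit 222)) (XT.lf (nat_lit 0) (nat_lit 122960634983) (nat_lit 228) (nat_lit 8622180936) (nat_lit 76) (nat_lit 222757801834) (nat_lit 93) (nat_lit 5) (nat_lit 96)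 (nat_lit 5) (nat_lit 94) (nat_lit 5) (nat_lit 506) (nat_lit 473) (nat_lit 221)))) (XT.nd (nat_lit 156) (nat_lit 304) (nat_lit 0) (XT.nd (nat_lit 78) (nat_lit 152) (nat_lit 0) (XT.lf (nat_lit 0) (nat_lit 206267610869) (nat_lit 304) (nat_lit 153583191312) (nat_lit 76) (nat_lit 5346422663) (nat_lit 90) (nat_lit 5) (nat_lit 94) (nat_lit 5) (nat_lit 91) (nat_lit 5) (nat_lit 507) (nat_lit 473) (nat_lit 220)) (XT.lf (nat_lit 0) (nat_lit 66542223052) (nat_lit 152) (nat_lit 230542072477) (nat_lit 228) (nat_lit 79345148766) (nat_lit 88) (nat_lit 5) (nat_lit 90) (nat_lit 5) (nat_lit 91) (nat_lit 5) (nat_lit 508) (nat_lit 473) (nat_lit 219))) (XT.nd (nat_lit 78) (nat_lit 228) (nat_lit 0) (XT.lf (nat_lit 0) (nat_lit 6727105099) (nat_lit 228) (nat_lit 85195852482) (nat_lit 76) (nat_lit 296164844731) (nat_lit 87) (nat_lit 5) (nat_lit 90) (nat_lit 5) (nat_lit 88) (nat_lit 5) (nat_lit 509) (nat_lit 473) (nat_lit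 218)) (XT.lf (nat_lit 0) (nat_lit 97744649654) (nat_lit 304) (nat_lit 246671579916) (nat_lit 76) (nat_lit 55682401891) (nat_lit 84) (nat_lit 5) (nat_lit 88) (nat_lit 5) (nat_lit 85) (nat_lit 5) (nat_lit 510) (nat_lit 473) (nat_lit 217))))) (XT.nd (nat_lit 312) (nat_lit 532) (nat_lit 0) (XT.nd (nat_lit 156) (nat_lit 228) (nat_lit 0) (XT.nd (nat_lit 78) (nat_lit 152) (nat_lit 0) (XT.lf (nat_lit 0) (nat_lit 196286434745) (nat_lit 304) (nat_lit 7229630161) (nat_lit 76) (nat_lit 209045269002) (nat_lit 84) (nat_lit 5) (nat_lit 88) (nat_lit 5) (nat_lit 85) (nat_lit 5) (nat_lit 511) (nat_lit 473) (nat_lit 216)) (XT.lf (nat_lit 0) (nat_lit 252258166746) (nat_lit 152) (nat_lit 51435545557) (nat_lit 228) (nat_lit 121756539017) (nat_lit 82) (nat_lit 5) (nat_lit 84) (nat_lit 5) (nat_lit 85) (nat_lit 5) (nat_lit 512) (nat_lit 473) (nat_lit 215))) (XT.nd (nat_lit 78) (nat_lit 76) (nat_lit 0) (XT.lf (nat_lit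 0) (nat_lit 87089086666) (nat_lit 152) (nat_lit 332556433472) (nat_lit 228) (nat_lit 19179386149) (nat_lit 80) (nat_lit 5) (nat_lit 82) (nat_lit 5) (nat_lit 83) (nat_lit 5) (nat_lit 513) (nat_lit 473) (nat_lit 214)) (XT.lf (nat_lit 0) (nat_lit 89517547718) (nat_lit 228) (nat_lit 88598010777) (nat_lit 76) (nat_lit 274492411664) (nat_lit 79) (nat_lit 5) (nat_lit 82) (nat_lit 5) (nat_lit 80) (nat_lit 5) (nat_lit 514) (nat_lit 473) (nat_lit 213)))) (XT.nd (nat_lit 156) (nat_lit 228) (nat_lit 0) (XT.nd (nat_lit 78) (nat_lit 152) (nat_lit 0) (XT.lf (nat_lit 0) (nat_lit 193577889838) (nat_lit 152) (nat_lit 12449128475) (nat_lit 228) (nat_lit 260886335949) (nat_lit 77) (nat_lit 5) (nat_lit 79) (nat_lit 5) (nat_lit 80) (nat_lit 5) (nat_lit 515) (nat_lit 473) (nat_lit 212)) (XT.lf (nat_lit 0) (nat_lit 8815515492) (nat_lit 152) (nat_lit 323730557299) (nat_lit 228) (nat_lit 149178729266) (nat_lit 75) (nat_lit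 5) (nat_lit 77) (nat_lit 5) (nat_lit 78) (nat_lit 5) (nat_lit 516) (nat_lit 473) (nat_lit 211))) (XT.nd (nat_lit 78) (nat_lit 228) (nat_lit 0) (XT.lf (nat_lit 0) (nat_lit 314352719391) (nat_lit 152) (nat_lit 155868172801) (nat_lit 228) (nat_lit 26814439441) (nat_lit 75) (nat_lit 5) (nat_lit 77) (nat_lit 5) (nat_lit 78) (nat_lit 5) (nat_lit 517) (nat_lit 473) (nat_lit 210)) (XT.lf (nat_lit 0) (nat_lit 100733214526) (nat_lit 228) (nat_lit 388859842272) (nat_lit 76) (nat_lit 23323006588) (nat_lit 72) (nat_lit 5) (nat_lit 75) (nat_lit 5) (nat_lit 73) (nat_lit 5) (nat_lit 518) (nat_lit 473) (nat_lit 209))))))) (XT.nd (nat_lit 1170) (nat_lit 532) (nat_lit 0) (XT.nd (nat_lit 546) (nat_lit 760) (nat_lit 0) (XT.nd (nat_lit 234) (nat_lit 380) (nat_lit 0) (XT.nd (nat_lit 78) (nat_lit 228) (nat_lit 0) (XT.lf (nat_lit 0) (nat_lit 239456816395) (nat_lit 228) (nat_lit 80007413329) (nat_lit 76) (nat_lit 209819637650)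 (nat_lit 72) (nat_lit 5) (nat_lit 75) (nat_lit 5) (nat_lit 73) (nat_lit 5) (nat_lit 519) (nat_lit 473) (nat_lit 208)) (XT.nd (nat_lit 78) (nat_lit 76) (nat_lit 0) (XT.lf (nat_lit 0) (nat_lit 252364809693) (nat_lit 152) (nat_lit 136691866292) (nat_lit 228) (nat_lit 157216381694) (nat_lit 70) (nat_lit 5) (nat_lit 72) (nat_lit 5) (nat_lit 73) (nat_lit 5) (nat_lit 520) (nat_lit 473) (nat_lit 207)) (XT.lf (nat_lit 0) (nat_lit 40501238463) (nat_lit 76) (nat_lit 508506885970) (nat_lit 152) (nat_lit 14960003277) (nat_lit 69) (nat_lit 5) (nat_lit 70) (nat_lit 5) (nat_lit 71) (nat_lit 4) (nat_lit 521) (nat_lit 473) (nat_lit 206)))) (XT.nd (nat_lit 156) (nat_lit 152) (nat_lit 0) (XT.nd (nat_lit 78) (nat_lit 152) (nat_lit 0) (XT.lf (nat_lit 0) (nat_lit 137407143414) (nat_lit 152) (nat_lit 184885077788) (nat_lit 76) (nat_lit 259785810683) (nat_lit 68) (nat_lit 5) (nat_lit 70) (nat_lit 5) (nat_lit 69) (nat_lit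 5) (nat_lit 522) (nat_lit 473) (nat_lit 205)) (XT.lf (nat_lit 0) (nat_lit 176014052989) (nat_lit 152) (nat_lit 123623871268) (nat_lit 228) (nat_lit 301305843165) (nat_lit 66) (nat_lit 5) (nat_lit 68) (nat_lit 5) (nat_lit 69) (nat_lit 5) (nat_lit 523) (nat_lit 473) (nat_lit 204))) (XT.nd (nat_lit 78) (nat_lit 152) (nat_lit 0) (XT.lf (nat_lit 0) (nat_lit 474489394031) (nat_lit 228) (nat_lit 60597448578) (nat_lit 76) (nat_lit 85440489634) (nat_lit 66) (nat_lit 5) (nat_lit 69) (nat_lit 5) (nat_lit 67) (nat_lit 4) (nat_lit 524) (nat_lit 473) (nat_lit 203)) (XT.lf (nat_lit 0) (nat_lit 23753940296) (nat_lit 152) (nat_lit 310610975080) (nat_lit 76) (nat_lit 306346670630) (nat_lit 64) (nat_lit 5) (nat_lit 66) (nat_lit 5) (nat_lit 65) (nat_lit 5) (nat_lit 525) (nat_lit 473) (nat_lit 202))))) (XT.nd (nat_lit 312) (nat_lit 456) (nat_lit 0) (XT.nd (nat_lit 156) (nat_lit 152) (nat_lit 0) (XT.nd (nat_lit 78)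 (nat_lit 0) (nat_lit 0) (XT.lf (nat_lit 0) (nat_lit 80757422292) (nat_lit 152) (nat_lit 118674039442) (nat_lit 228) (nat_lit 462238693431) (nat_lit 62) (nat_lit 5) (nat_lit 64) (nat_lit 5) (nat_lit 65) (nat_lit 5) (nat_lit 526) (nat_lit 473) (nat_lit 201)) (XT.lf (nat_lit 0) (nat_lit 390922484371) (nat_lit 228) (nat_lit 182705072515) (nat_lit 76) (nat_lit 109697614638) (nat_lit 62) (nat_lit 5) (nat_lit 65) (nat_lit 5) (nat_lit 63) (nat_lit 4) (nat_lit 527) (nat_lit 473) (nat_lit 200))) (XT.nd (nat_lit 78) (nat_lit 76) (nat_lit 0) (XT.lf (nat_lit 0) (nat_lit 241186914259) (nat_lit 76) (nat_lit 356512186557) (nat_lit 152) (nat_lit 108078285754) (nat_lit 61) (nat_lit 5) (nat_lit 62) (nat_lit 5) (nat_lit 63) (nat_lit 4) (nat_lit 528) (nat_lit 473) (nat_lit 199)) (XT.lf (nat_lit 0) (nat_lit 85871893712) (nat_lit 152) (nat_lit 37965993803) (nat_lit 76) (nat_lit 605290365204) (nat_lit 60) (nat_lit 5)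 (nat_lit 62) (nat_lit 5) (nat_lit 61) (nat_lit 5) (nat_lit 529) (nat_lit 473) (nat_lit 198)))) (XT.nd (nat_lit 156) (nat_lit 228) (nat_lit 0) (XT.nd (nat_lit 78) (nat_lit 76) (nat_lit 0) (XT.lf (nat_lit 0) (nat_lit 294489425410) (nat_lit 228) (nat_lit 333531330742) (nat_lit 76) (nat_lit 125107218147) (nat_lit 58) (nat_lit 5) (nat_lit 61) (nat_lit 5) (nat_lit 59) (nat_lit 4) (nat_lit 530) (nat_lit 473) (nat_lit 197)) (XT.lf (nat_lit 0) (nat_lit 125020680601) (nat_lit 76) (nat_lit 393152683658) (nat_lit 152) (nat_lit 259922541172) (nat_lit 57) (nat_lit 5) (nat_lit 58) (nat_lit 5) (nat_lit 59) (nat_lit 4) (nat_lit 531) (nat_lit 473) (nat_lit 196))) (XT.nd (nat_lit 78) (nat_lit 228) (nat_lit 0) (XT.lf (nat_lit 0) (nat_lit 618079683090) (nat_lit 76) (nat_lit 140610297154) (nat_lit 152) (nat_lit 45339828865) (nat_lit 57) (nat_lit 5) (nat_lit 58) (nat_lit 5) (nat_lit 59) (nat_lit 4) (nat_lit 532) (nat_lit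 473) (nat_lit 195)) (XT.lf (nat_lit 0) (nat_lit 181148789381) (nat_lit 228) (nat_lit 521249585410) (nat_lit 76) (nat_lit 128374689860) (nat_lit 54) (nat_lit 5) (nat_lit 57) (nat_lit 5) (nat_lit 55) (nat_lit 4) (nat_lit 533) (nat_lit 473) (nat_lit 194)))))) (XT.nd (nat_lit 624) (nat_lit 0) (nat_lit 0) (XT.nd (nat_lit 312) (nat_lit 304) (nat_lit 0) (XT.nd (nat_lit 156) (nat_lit 152) (nat_lit 0) (XT.nd (nat_lit 78) (nat_lit 76) (nat_lit 0) (XT.lf (nat_lit 0) (nat_lit 422943957676) (nat_lit 228) (nat_lit 25569542481) (nat_lit 76) (nat_lit 410027527284) (nat_lit 54) (nat_lit 5) (nat_lit 57) (nat_lit 5) (nat_lit 55) (nat_lit 4) (nat_lit 534) (nat_lit 473) (nat_lit 193)) (XT.lf (nat_lit 0) (nat_lit 511257888545) (nat_lit 76) (nat_lit 173553132848) (nat_lit 152) (nat_lit 202487260128) (nat_lit 53) (nat_lit 5) (nat_lit 54) (nat_lit 5) (nat_lit 55) (nat_lit 4) (nat_lit 535) (nat_lit 473) (nat_lit 192)))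 (XT.nd (nat_lit 78) (nat_lit 0) (nat_lit 0) (XT.lf (nat_lit 0) (nat_lit 45765753830) (nat_lit 152) (nat_lit 756279968976) (nat_lit 76) (nat_lit 115172627808) (nat_lit 51) (nat_lit 5) (nat_lit 53) (nat_lit 5) (nat_lit 52) (nat_lit 4) (nat_lit 536) (nat_lit 473) (nat_lit 191)) (XT.lf (nat_lit 0) (nat_lit 308944447319) (nat_lit 152) (nat_lit 216763690166) (nat_lit 76) (nat_lit 422294416087) (nat_lit 51) (nat_lit 5) (nat_lit 53) (nat_lit 5) (nat_lit 52) (nat_lit 4) (nat_lit 537) (nat_lit 473) (nat_lit 190)))) (XT.nd (nat_lit 156) (nat_lit 228) (nat_lit 0) (XT.nd (nat_lit 78) (nat_lit 0) (nat_lit 0) (XT.lf (nat_lit 0) (nat_lit 361291944377) (nat_lit 76) (nat_lit 229630881159) (nat_lit 152) (nat_lit 389121103638) (nat_lit 50) (nat_lit 5) (nat_lit 51) (nat_lit 5) (nat_lit 52) (nat_lit 4) (nat_lit 538) (nat_lit 473) (nat_lit 189)) (XT.lf (nat_lit 0) (nat_lit 891999815266) (nat_lit 152) (nat_lit 39056698236)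 (nat_lit 0) (nat_lit 82380875426) (nat_lit 50) (nat_lit 5) (nat_lit 52) (nat_lit 4) (nat_lit 50) (nat_lit 4) (nat_lit 539) (nat_lit 473) (nat_lit 188))) (XT.nd (nat_lit 78) (nat_lit 76) (nat_lit 0) (XT.lf (nat_lit 0) (nat_lit 167623470543) (nat_lit 152) (nat_lit 465990860472) (nat_lit 76) (nat_lit 414106452024) (nat_lit 48) (nat_lit 5) (nat_lit 50) (nat_lit 5) (nat_lit 49) (nat_lit 4) (nat_lit 540) (nat_lit 473) (nat_lit 187)) (XT.lf (nat_lit 0) (nat_lit 154158931211) (nat_lit 76) (nat_lit 315976649210) (nat_lit 152) (nat_lit 613329271827) (nat_lit 47) (nat_lit 5) (nat_lit 48) (nat_lit 5) (nat_lit 49) (nat_lit 4) (nat_lit 541) (nat_lit 473) (nat_lit 186))))) (XT.nd (nat_lit 57408) (nat_lit 0) (nat_lit 7676) (XT.nd (nat_lit 57252) (nat_lit 0) (nat_lit 7600) (XT.nd (nat_lit 57174) (nat_lit 0) (nat_lit 7600) (XT.lf (nat_lit 0) (nat_lit 796068316023) (nat_lit 152) (nat_lit 299510494837) (nat_lit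 0) (nat_lit 25002563048) (nat_lit 47) (nat_lit 5) (nat_lit 49) (nat_lit 4) (nat_lit 47) (nat_lit 4) (nat_lit 542) (nat_lit 473) (nat_lit 185)) (XT.lf (nat_lit 0) (nat_lit 31205712769) (nat_lit 836) (nat_lit 21937056084) (nat_lit 836) (nat_lit 21937056084) (nat_lit 147) (nat_lit 3) (nat_lit 158) (nat_lit 3) (nat_lit 158) (nat_lit 5) (nat_lit 474) (nat_lit 474) (nat_lit 252))) (XT.nd (nat_lit 78) (nat_lit 0) (nat_lit 76) (XT.lf (nat_lit 76) (nat_lit 31609217177) (nat_lit 0) (nat_lit 32858853420) (nat_lit 836) (nat_lit 89420752113) (nat_lit 148) (nat_lit 5) (nat_lit 147) (nat_lit 3) (nat_lit 158) (nat_lit 5) (nat_lit 475) (nat_lit 474) (nat_lit 251)) (XT.lf (nat_lit 0) (nat_lit 68073272670) (nat_lit 760) (nat_lit 46080367333) (nat_lit 836) (nat_lit 43578527974) (nat_lit 148) (nat_lit 5) (nat_lit 158) (nat_lit 5) (nat_lit 159) (nat_lit 5) (nat_lit 476) (nat_lit 474) (nat_lit 250)))) (XT.nd (nat_lit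 156) (nat_lit 0) (nat_lit 76) (XT.nd (nat_lit 78) (nat_lit 0) (nat_lit 76) (XT.lf (nat_lit 76) (nat_lit 34494084848) (nat_lit 0) (nat_lit 38441695046) (nat_lit 836) (nat_lit 88778048387) (nat_lit 149) (nat_lit 5) (nat_lit 148) (nat_lit 5) (nat_lit 159) (nat_lit 5) (nat_lit 477) (nat_lit 474) (nat_lit 249)) (XT.lf (nat_lit 0) (nat_lit 79475429644) (nat_lit 760) (nat_lit 45812388215) (nat_lit 836) (nat_lit 40535052909) (nat_lit 149) (nat_lit 5) (nat_lit 159) (nat_lit 5) (nat_lit 160) (nat_lit 5) (nat_lit 478) (nat_lit 474) (nat_lit 248))) (XT.nd (nat_lit 78) (nat_lit 0) (nat_lit 76) (XT.lf (nat_lit 76) (nat_lit 40325710911) (nat_lit 0) (nat_lit 47275981651) (nat_lit 836) (nat_lit 82472691308) (nat_lit 150) (nat_lit 5) (nat_lit 149) (nat_lit 5) (nat_lit 160) (nat_lit 5) (nat_lit 479) (nat_lit 474) (nat_lit 247)) (XT.lf (nat_lit 0) (nat_lit 97463462764) (nat_lit 760) (nat_lit 42692066530) (nat_lit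 836) (nat_lit 34316483650) (nat_lit 150) (nat_lit 5) (nat_lit 160) (nat_lit 5) (nat_lit 161) (nat_lit 5) (nat_lit 480) (nat_lit 474) (nat_lit 246))))))))
noncomputable def xc226 : XT := (XT.nd (nat_lit 2418) (nat_lit 2736) (nat_lit 0) (XT.nd (nat_lit 1170) (nat_lit 2508) (nat_lit 0) (XT.nd (nat_lit 546) (nat_lit 1444) (nat_lit 0) (XT.nd (nat_lit 234) (nat_lit 1064) (nat_lit 0) (XT.nd (nat_lit 78) (nat_lit 0) (nat_lit 76) (XT.lf (nat_lit 76) (nat_lit 49527433312) (nat_lit 0) (nat_lit 59839021762) (nat_lit 836) (nat_lit 69645661740) (nat_lit 151) (nat_lit 5) (nat_lit 150) (nat_lit 5) (nat_lit 161) (nat_lit 5) (nat_lit 481) (nat_lit 474) (nat_lit 245)) (XT.nd (nat_lit 78) (nat_lit 0) (nat_lit 0) (XT.lf (nat_lit 0) (nat_lit 122981730881) (nat_lit 760) (nat_lit 36297370655) (nat_lit 836) (nat_lit 24444267667) (nat_lit 151) (nat_lit 5) (nat_lit 161) (nat_lit 5) (nat_lit 162) (nat_lit 5) (nat_lit 482)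 (nat_lit 474) (nat_lit 244)) (XT.lf (nat_lit 76) (nat_lit 62570891214) (nat_lit 0) (nat_lit 76664621620) (nat_lit 836) (nat_lit 49336784282) (nat_lit 152) (nat_lit 5) (nat_lit 151) (nat_lit 5) (nat_lit 162) (nat_lit 5) (nat_lit 483) (nat_lit 474) (nat_lit 243)))) (XT.nd (nat_lit 156) (nat_lit 456) (nat_lit 0) (XT.nd (nat_lit 78) (nat_lit 760) (nat_lit 0) (XT.lf (nat_lit 0) (nat_lit 157084033609) (nat_lit 760) (nat_lit 26157783541) (nat_lit 76) (nat_lit 10382751805) (nat_lit 152) (nat_lit 5) (nat_lit 162) (nat_lit 5) (nat_lit 153) (nat_lit 5) (nat_lit 484) (nat_lit 474) (nat_lit 242)) (XT.lf (nat_lit 0) (nat_lit 79981006654) (nat_lit 760) (nat_lit 98349377341) (nat_lit 836) (nat_lit 20473800232) (nat_lit 142) (nat_lit 5) (nat_lit 152) (nat_lit 5) (nat_lit 153) (nat_lit 5) (nat_lit 485) (nat_lit 474) (nat_lit 241))) (XT.nd (nat_lit 78) (nat_lit 456) (nat_lit 0) (XT.lf (nat_lit 0) (nat_lit 192334769365)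 (nat_lit 760) (nat_lit 8747160203) (nat_lit 836) (nat_lit 3138706827) (nat_lit 142) (nat_lit 5) (nat_lit 152) (nat_lit 5) (nat_lit 153) (nat_lit 5) (nat_lit 486) (nat_lit 474) (nat_lit 240)) (XT.lf (nat_lit 0) (nat_lit 17559106786) (nat_lit 456) (nat_lit 107703173789) (nat_lit 76) (nat_lit 84484967714) (nat_lit 136) (nat_lit 5) (nat_lit 142) (nat_lit 5) (nat_lit 137) (nat_lit 5) (nat_lit 487) (nat_lit 474) (nat_lit 239))))) (XT.nd (nat_lit 312) (nat_lit 684) (nat_lit 0) (XT.nd (nat_lit 156) (nat_lit 380) (nat_lit 0) (XT.nd (nat_lit 78) (nat_lit 0) (nat_lit 0) (XT.lf (nat_lit 0) (nat_lit 6554565530) (nat_lit 380) (nat_lit 33081978982) (nat_lit 456) (nat_lit 175888562843) (nat_lit 131) (nat_lit 5) (nat_lit 136) (nat_lit 5) (nat_lit 137) (nat_lit 5) (nat_lit 488) (nat_lit 474) (nat_lit 238)) (XT.lf (nat_lit 0) (nat_lit 65666305381) (nat_lit 456) (nat_lit 92260920420) (nat_lit 76) (nat_lit 63522211024)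 (nat_lit 131) (nat_lit 5) (nat_lit 137) (nat_lit 5) (nat_lit 132) (nat_lit 5) (nat_lit 489) (nat_lit 474) (nat_lit 237))) (XT.nd (nat_lit 78) (nat_lit 0) (nat_lit 0) (XT.lf (nat_lit 0) (nat_lit 30725144057) (nat_lit 380) (nat_lit 63294342496) (nat_lit 456) (nat_lit 133599399617) (nat_lit 126) (nat_lit 5) (nat_lit 131) (nat_lit 5) (nat_lit 132) (nat_lit 5) (nat_lit 490) (nat_lit 474) (nat_lit 236)) (XT.lf (nat_lit 0) (nat_lit 125941483439) (nat_lit 456) (nat_lit 71543962408) (nat_lit 76) (nat_lit 36503804314) (nat_lit 126) (nat_lit 5) (nat_lit 132) (nat_lit 5) (nat_lit 127) (nat_lit 5) (nat_lit 491) (nat_lit 474) (nat_lit 235)))) (XT.nd (nat_lit 156) (nat_lit 380) (nat_lit 0) (XT.nd (nat_lit 78) (nat_lit 0) (nat_lit 0) (XT.lf (nat_lit 0) (nat_lit 60987572521) (nat_lit 304) (nat_lit 100461713574) (nat_lit 380) (nat_lit 79129360973) (nat_lit 122) (nat_lit 5) (nat_lit 126) (nat_lit 5) (nat_lit 127)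 (nat_lit 5) (nat_lit 492) (nat_lit 474) (nat_lit 234)) (XT.lf (nat_lit 0) (nat_lit 199985946874) (nat_lit 380) (nat_lit 44849437549) (nat_lit 76) (nat_lit 2599456009) (nat_lit 122) (nat_lit 5) (nat_lit 127) (nat_lit 5) (nat_lit 123) (nat_lit 5) (nat_lit 493) (nat_lit 474) (nat_lit 233))) (XT.nd (nat_lit 78) (nat_lit 76) (nat_lit 0) (XT.lf (nat_lit 0) (nat_lit 98122808307) (nat_lit 304) (nat_lit 145505431518) (nat_lit 380) (nat_lit 10846663695) (nat_lit 118) (nat_lit 5) (nat_lit 122) (nat_lit 5) (nat_lit 123) (nat_lit 5) (nat_lit 494) (nat_lit 474) (nat_lit 232)) (XT.lf (nat_lit 0) (nat_lit 27474677137) (nat_lit 380) (nat_lit 12471499566) (nat_lit 76) (nat_lit 221860662910) (nat_lit 117) (nat_lit 5) (nat_lit 122) (nat_lit 5) (nat_lit 118) (nat_lit 5) (nat_lit 495) (nat_lit 474) (nat_lit 231)))))) (XT.nd (nat_lit 624) (nat_lit 1140) (nat_lit 0) (XT.nd (nat_lit 312) (nat_lit 532) (nat_lit 0) (XT.nd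 (nat_lit 156) (nat_lit 228) (nat_lit 0) (XT.nd (nat_lit 78) (nat_lit 304) (nat_lit 0) (XT.lf (nat_lit 0) (nat_lit 70726473281) (nat_lit 380) (nat_lit 127529000378) (nat_lit 76) (nat_lit 71072062789) (nat_lit 113) (nat_lit 5) (nat_lit 118) (nat_lit 5) (nat_lit 114) (nat_lit 5) (nat_lit 496) (nat_lit 474) (nat_lit 230)) (XT.lf (nat_lit 0) (nat_lit 27213945987) (nat_lit 304) (nat_lit 90221248950) (nat_lit 380) (nat_lit 159724356412) (nat_lit 109) (nat_lit 5) (nat_lit 113) (nat_lit 5) (nat_lit 114) (nat_lit 5) (nat_lit 497) (nat_lit 474) (nat_lit 229))) (XT.nd (nat_lit 78) (nat_lit 228) (nat_lit 0) (XT.lf (nat_lit 0) (nat_lit 169036893218) (nat_lit 380) (nat_lit 91551574942) (nat_lit 76) (nat_lit 24666821816) (nat_lit 109) (nat_lit 5) (nat_lit 114) (nat_lit 5) (nat_lit 110) (nat_lit 5) (nat_lit 498) (nat_lit 474) (nat_lit 228)) (XT.lf (nat_lit 0) (nat_lit 75706090193) (nat_lit 228) (nat_lit 150173533891)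 (nat_lit 304) (nat_lit 67743144074) (nat_lit 106) (nat_lit 5) (nat_lit 109) (nat_lit 5) (nat_lit 110) (nat_lit 5) (nat_lit 499) (nat_lit 474) (nat_lit 227)))) (XT.nd (nat_lit 156) (nat_lit 228) (nat_lit 0) (XT.nd (nat_lit 78) (nat_lit 304) (nat_lit 0) (XT.lf (nat_lit 0) (nat_lit 254505006497) (nat_lit 228) (nat_lit 32609883788) (nat_lit 304) (nat_lit 15216210035) (nat_lit 106) (nat_lit 5) (nat_lit 109) (nat_lit 5) (nat_lit 110) (nat_lit 5) (nat_lit 500) (nat_lit 474) (nat_lit 226)) (XT.lf (nat_lit 0) (nat_lit 42220659653) (nat_lit 304) (nat_lit 178352903875) (nat_lit 76) (nat_lit 90692017858) (nat_lit 102) (nat_lit 5) (nat_lit 106) (nat_lit 5) (nat_lit 103) (nat_lit 5) (nat_lit 501) (nat_lit 474) (nat_lit 225))) (XT.nd (nat_lit 78) (nat_lit 0) (nat_lit 0) (XT.lf (nat_lit 0) (nat_lit 3042483715) (nat_lit 228) (nat_lit 100380782983) (nat_lit 304) (nat_lit 217140784594) (nat_lit 99) (nat_lit 5)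 (nat_lit 102) (nat_lit 5) (nat_lit 103) (nat_lit 5) (nat_lit 502) (nat_lit 474) (nat_lit 224)) (XT.lf (nat_lit 0) (nat_lit 171159094847) (nat_lit 304) (nat_lit 130929530235) (nat_lit 76) (nat_lit 28065165081) (nat_lit 99) (nat_lit 5) (nat_lit 103) (nat_lit 5) (nat_lit 100) (nat_lit 5) (nat_lit 503) (nat_lit 474) (nat_lit 223))))) (XT.nd (nat_lit 312) (nat_lit 684) (nat_lit 0) (XT.nd (nat_lit 156) (nat_lit 228) (nat_lit 0) (XT.nd (nat_lit 78) (nat_lit 0) (nat_lit 0) (XT.lf (nat_lit 0) (nat_lit 65440949469) (nat_lit 228) (nat_lit 179508004956) (nat_lit 304) (nat_lit 95140699557) (nat_lit 96) (nat_lit 5) (nat_lit 99) (nat_lit 5) (nat_lit 100) (nat_lit 5) (nat_lit 504) (nat_lit 474) (nat_lit 222)) (XT.lf (nat_lit 0) (nat_lit 276175440318) (nat_lit 228) (nat_lit 48470160008) (nat_lit 304) (nat_lit 25765846006) (nat_lit 96) (nat_lit 5) (nat_lit 99) (nat_lit 5) (nat_lit 100) (nat_lit 5) (nat_lit 505)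 (nat_lit 474) (nat_lit 221))) (XT.nd (nat_lit 78) (nat_lit 0) (nat_lit 0) (XT.lf (nat_lit 0) (nat_lit 49195056109) (nat_lit 228) (nat_lit 222601393222) (nat_lit 76) (nat_lit 89234923798) (nat_lit 93) (nat_lit 5) (nat_lit 96) (nat_lit 5) (nat_lit 94) (nat_lit 5) (nat_lit 506) (nat_lit 474) (nat_lit 220)) (XT.lf (nat_lit 0) (nat_lit 129110469025) (nat_lit 228) (nat_lit 9050546617) (nat_lit 76) (nat_lit 233896542726) (nat_lit 93) (nat_lit 5) (nat_lit 96) (nat_lit 5) (nat_lit 94) (nat_lit 5) (nat_lit 507) (nat_lit 474) (nat_lit 219)))) (XT.nd (nat_lit 156) (nat_lit 304) (nat_lit 0) (XT.nd (nat_lit 78) (nat_lit 152) (nat_lit 0) (XT.lf (nat_lit 0) (nat_lit 216582764707) (nat_lit 304) (nat_lit 161259578363) (nat_lit 76) (nat_lit 5614654202) (nat_lit 90) (nat_lit 5) (nat_lit 94) (nat_lit 5) (nat_lit 91) (nat_lit 5) (nat_lit 508) (nat_lit 474) (nat_lit 218)) (XT.lf (nat_lit 0) (nat_lit 69872062001) (nat_lit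 152) (nat_lit 242068179745) (nat_lit 228) (nat_lit 83310588049) (nat_lit 88) (nat_lit 5) (nat_lit 90) (nat_lit 5) (nat_lit 91) (nat_lit 5) (nat_lit 509) (nat_lit 474) (nat_lit 217))) (XT.nd (nat_lit 78) (nat_lit 228) (nat_lit 0) (XT.lf (nat_lit 0) (nat_lit 7065136509) (nat_lit 228) (nat_lit 89452991654) (nat_lit 76) (nat_lit 310973980327) (nat_lit 87) (nat_lit 5) (nat_lit 90) (nat_lit 5) (nat_lit 88) (nat_lit 5) (nat_lit 510) (nat_lit 474) (nat_lit 216)) (XT.lf (nat_lit 0) (nat_lit 102633534435) (nat_lit 304) (nat_lit 259002481479) (nat_lit 76) (nat_lit 58467464382) (nat_lit 84) (nat_lit 5) (nat_lit 88) (nat_lit 5) (nat_lit 85) (nat_lit 5) (nat_lit 511) (nat_lit 474) (nat_lit 215))))))) (XT.nd (nat_lit 1170) (nat_lit 1216) (nat_lit 0) (XT.nd (nat_lit 546) (nat_lit 836) (nat_lit 0) (XT.nd (nat_lit 234) (nat_lit 380) (nat_lit 0) (XT.nd (nat_lit 78) (nat_lit 304) (nat_lit 0) (XT.lf (nat_lit 0) (nat_lit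 206102330099) (nat_lit 304) (nat_lit 7588561733) (nat_lit 76) (nat_lit 219498429973) (nat_lit 84) (nat_lit 5) (nat_lit 88) (nat_lit 5) (nat_lit 85) (nat_lit 5) (nat_lit 512) (nat_lit 474) (nat_lit 214)) (XT.nd (nat_lit 78) (nat_lit 152) (nat_lit 0) (XT.lf (nat_lit 0) (nat_lit 264873583891) (nat_lit 152) (nat_lit 54006351879) (nat_lit 228) (nat_lit 127842751111) (nat_lit 82) (nat_lit 5) (nat_lit 84) (nat_lit 5) (nat_lit 85) (nat_lit 5) (nat_lit 513) (nat_lit 474) (nat_lit 213)) (XT.lf (nat_lit 0) (nat_lit 91446070190) (nat_lit 152) (nat_lit 349183244501) (nat_lit 228) (nat_lit 20136760876) (nat_lit 80) (nat_lit 5) (nat_lit 82) (nat_lit 5) (nat_lit 83) (nat_lit 5) (nat_lit 514) (nat_lit 474) (nat_lit 212)))) (XT.nd (nat_lit 156) (nat_lit 152) (nat_lit 0) (XT.nd (nat_lit 78) (nat_lit 152) (nat_lit 0) (XT.lf (nat_lit 0) (nat_lit 93994895146) (nat_lit 228) (nat_lit 93025453859) (nat_lit 76) (nat_lit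 288217946063) (nat_lit 79) (nat_lit 5) (nat_lit 82) (nat_lit 5) (nat_lit 80) (nat_lit 5) (nat_lit 515) (nat_lit 474) (nat_lit 211)) (XT.lf (nat_lit 0) (nat_lit 203259202150) (nat_lit 152) (nat_lit 13070604868) (nat_lit 228) (nat_lit 273929142976) (nat_lit 77) (nat_lit 5) (nat_lit 79) (nat_lit 5) (nat_lit 80) (nat_lit 5) (nat_lit 516) (nat_lit 474) (nat_lit 210))) (XT.nd (nat_lit 78) (nat_lit 0) (nat_lit 0) (XT.lf (nat_lit 0) (nat_lit 9258725855) (nat_lit 152) (nat_lit 339916072480) (nat_lit 228) (nat_lit 156636172640) (nat_lit 75) (nat_lit 5) (nat_lit 77) (nat_lit 5) (nat_lit 78) (nat_lit 5) (nat_lit 517) (nat_lit 474) (nat_lit 209)) (XT.lf (nat_lit 0) (nat_lit 330072674017) (nat_lit 152) (nat_lit 163660616981) (nat_lit 228) (nat_lit 28153739423) (nat_lit 75) (nat_lit 5) (nat_lit 77) (nat_lit 5) (nat_lit 78) (nat_lit 5) (nat_lit 518) (nat_lit 474) (nat_lit 208))))) (XT.nd (nat_lit 312) (nat_lit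 380) (nat_lit 0) (XT.nd (nat_lit 156) (nat_lit 228) (nat_lit 0) (XT.nd (nat_lit 78) (nat_lit 0) (nat_lit 0) (XT.lf (nat_lit 0) (nat_lit 105771237783) (nat_lit 228) (nat_lit 408300456116) (nat_lit 76) (nat_lit 24490104456) (nat_lit 72) (nat_lit 5) (nat_lit 75) (nat_lit 5) (nat_lit 73) (nat_lit 5) (nat_lit 519) (nat_lit 474) (nat_lit 207)) (XT.lf (nat_lit 0) (nat_lit 251430954862) (nat_lit 228) (nat_lit 84005518976) (nat_lit 76) (nat_lit 220311521949) (nat_lit 72) (nat_lit 5) (nat_lit 75) (nat_lit 5) (nat_lit 73) (nat_lit 5) (nat_lit 520) (nat_lit 474) (nat_lit 206))) (XT.nd (nat_lit 78) (nat_lit 76) (nat_lit 0) (XT.lf (nat_lit 0) (nat_lit 264985278665) (nat_lit 152) (nat_lit 143525501768) (nat_lit 228) (nat_lit 165075866529) (nat_lit 70) (nat_lit 5) (nat_lit 72) (nat_lit 5) (nat_lit 73) (nat_lit 5) (nat_lit 521) (nat_lit 474) (nat_lit 205)) (XT.lf (nat_lit 0) (nat_lit 42528540791) (nat_lit 76)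 (nat_lit 533931249225) (nat_lit 152) (nat_lit 15706681045) (nat_lit 69) (nat_lit 5) (nat_lit 70) (nat_lit 5) (nat_lit 71) (nat_lit 4) (nat_lit 522) (nat_lit 474) (nat_lit 204)))) (XT.nd (nat_lit 156) (nat_lit 152) (nat_lit 0) (XT.nd (nat_lit 78) (nat_lit 152) (nat_lit 0) (XT.lf (nat_lit 0) (nat_lit 144278719700) (nat_lit 152) (nat_lit 194127157590) (nat_lit 76) (nat_lit 272775995175) (nat_lit 68) (nat_lit 5) (nat_lit 70) (nat_lit 5) (nat_lit 69) (nat_lit 5) (nat_lit 523) (nat_lit 474) (nat_lit 203)) (XT.lf (nat_lit 0) (nat_lit 184816894661) (nat_lit 152) (nat_lit 129804120267) (nat_lit 228) (nat_lit 316369881086) (nat_lit 66) (nat_lit 5) (nat_lit 68) (nat_lit 5) (nat_lit 69) (nat_lit 5) (nat_lit 524) (nat_lit 474) (nat_lit 202))) (XT.nd (nat_lit 78) (nat_lit 152) (nat_lit 0) (XT.lf (nat_lit 0) (nat_lit 498215015357) (nat_lit 228) (nat_lit 63625240955) (nat_lit 76) (nat_lit 89713384908) (nat_lit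 66) (nat_lit 5) (nat_lit 69) (nat_lit 5) (nat_lit 67) (nat_lit 4) (nat_lit 525) (nat_lit 474) (nat_lit 201)) (XT.lf (nat_lit 0) (nat_lit 24942784601) (nat_lit 152) (nat_lit 326139439348) (nat_lit 76) (nat_lit 321664883944) (nat_lit 64) (nat_lit 5) (nat_lit 66) (nat_lit 5) (nat_lit 65) (nat_lit 5) (nat_lit 526) (nat_lit 474) (nat_lit 200)))))) (XT.nd (nat_lit 624) (nat_lit 456) (nat_lit 0) (XT.nd (nat_lit 312) (nat_lit 456) (nat_lit 0) (XT.nd (nat_lit 156) (nat_lit 152) (nat_lit 0) (XT.nd (nat_lit 78) (nat_lit 0) (nat_lit 0) (XT.lf (nat_lit 0) (nat_lit 84797344271) (nat_lit 152) (nat_lit 124606815226) (nat_lit 228) (nat_lit 485349447145) (nat_lit 62) (nat_lit 5) (nat_lit 64) (nat_lit 5) (nat_lit 65) (nat_lit 5) (nat_lit 527) (nat_lit 474) (nat_lit 199)) (XT.lf (nat_lit 0) (nat_lit 410469693483) (nat_lit 228) (nat_lit 191838333108) (nat_lit 76) (nat_lit 115183349221) (nat_lit 62) (nat_lit 5) (nat_lit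 65) (nat_lit 5) (nat_lit 63) (nat_lit 4) (nat_lit 528) (nat_lit 474) (nat_lit 198))) (XT.nd (nat_lit 78) (nat_lit 76) (nat_lit 0) (XT.lf (nat_lit 0) (nat_lit 253248220860) (nat_lit 76) (nat_lit 374336898844) (nat_lit 152) (nat_lit 113481082961) (nat_lit 61) (nat_lit 5) (nat_lit 62) (nat_lit 5) (nat_lit 63) (nat_lit 4) (nat_lit 529) (nat_lit 474) (nat_lit 197)) (XT.lf (nat_lit 0) (nat_lit 90166518233) (nat_lit 152) (nat_lit 39862391892) (nat_lit 76) (nat_lit 635555703700) (nat_lit 60) (nat_lit 5) (nat_lit 62) (nat_lit 5) (nat_lit 61) (nat_lit 5) (nat_lit 530) (nat_lit 474) (nat_lit 196)))) (XT.nd (nat_lit 156) (nat_lit 228) (nat_lit 0) (XT.nd (nat_lit 78) (nat_lit 76) (nat_lit 0) (XT.lf (nat_lit 0) (nat_lit 309214920128) (nat_lit 228) (nat_lit 350205989253) (nat_lit 76) (nat_lit 131363412424) (nat_lit 58) (nat_lit 5) (nat_lit 61) (nat_lit 5) (nat_lit 59) (nat_lit 4) (nat_lit 531) (nat_lit 474)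 (nat_lit 195)) (XT.lf (nat_lit 0) (nat_lit 131273591882) (nat_lit 76) (nat_lit 412809444610) (nat_lit 152) (nat_lit 272917613974) (nat_lit 57) (nat_lit 5) (nat_lit 58) (nat_lit 5) (nat_lit 59) (nat_lit 4) (nat_lit 532) (nat_lit 474) (nat_lit 194))) (XT.nd (nat_lit 78) (nat_lit 228) (nat_lit 0) (XT.lf (nat_lit 0) (nat_lit 648985455103) (nat_lit 76) (nat_lit 147639980365) (nat_lit 152) (nat_lit 47605816254) (nat_lit 57) (nat_lit 5) (nat_lit 58) (nat_lit 5) (nat_lit 59) (nat_lit 4) (nat_lit 533) (nat_lit 474) (nat_lit 193)) (XT.lf (nat_lit 0) (nat_lit 190207195513) (nat_lit 228) (nat_lit 547310239369) (nat_lit 76) (nat_lit 134794234638) (nat_lit 54) (nat_lit 5) (nat_lit 57) (nat_lit 5) (nat_lit 55) (nat_lit 4) (nat_lit 534) (nat_lit 474) (nat_lit 192))))) (XT.nd (nat_lit 312) (nat_lit 228) (nat_lit 0) (XT.nd (nat_lit 156) (nat_lit 152) (nat_lit 0) (XT.nd (nat_lit 78) (nat_lit 76) (nat_lit 0) (XT.lf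 (nat_lit 0) (nat_lit 444092076191) (nat_lit 228) (nat_lit 26846281214) (nat_lit 76) (nat_lit 430529675348) (nat_lit 54) (nat_lit 5) (nat_lit 57) (nat_lit 5) (nat_lit 55) (nat_lit 4) (nat_lit 535) (nat_lit 474) (nat_lit 191)) (XT.lf (nat_lit 0) (nat_lit 536822493326) (nat_lit 76) (nat_lit 182229982633) (nat_lit 152) (nat_lit 212610674437) (nat_lit 53) (nat_lit 5) (nat_lit 54) (nat_lit 5) (nat_lit 55) (nat_lit 4) (nat_lit 536) (nat_lit 474) (nat_lit 190))) (XT.nd (nat_lit 78) (nat_lit 0) (nat_lit 0) (XT.lf (nat_lit 0) (nat_lit 48054955531) (nat_lit 152) (nat_lit 794092222334) (nat_lit 76) (nat_lit 120932044555) (nat_lit 51) (nat_lit 5) (nat_lit 53) (nat_lit 5) (nat_lit 52) (nat_lit 4) (nat_lit 537) (nat_lit 474) (nat_lit 189)) (XT.lf (nat_lit 0) (nat_lit 324392540170) (nat_lit 152) (nat_lit 227600212683) (nat_lit 76) (nat_lit 443409884850) (nat_lit 51) (nat_lit 5) (nat_lit 53) (nat_lit 5) (nat_lit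 52) (nat_lit 4) (nat_lit 538) (nat_lit 474) (nat_lit 188)))) (XT.nd (nat_lit 156) (nat_lit 152) (nat_lit 0) (XT.nd (nat_lit 78) (nat_lit 0) (nat_lit 0) (XT.lf (nat_lit 0) (nat_lit 379358176781) (nat_lit 76) (nat_lit 241111644595) (nat_lit 152) (nat_lit 408576261507) (nat_lit 50) (nat_lit 5) (nat_lit 51) (nat_lit 5) (nat_lit 52) (nat_lit 4) (nat_lit 539) (nat_lit 474) (nat_lit 187)) (XT.lf (nat_lit 0) (nat_lit 936600631506) (nat_lit 152) (nat_lit 41007946722) (nat_lit 0) (nat_lit 86500638852) (nat_lit 50) (nat_lit 5) (nat_lit 52) (nat_lit 4) (nat_lit 50) (nat_lit 4) (nat_lit 540) (nat_lit 474) (nat_lit 186))) (XT.nd (nat_lit 57330) (nat_lit 0) (nat_lit 7524) (XT.lf (nat_lit 0) (nat_lit 176005467914) (nat_lit 152) (nat_lit 489288815397) (nat_lit 76) (nat_lit 434812497667) (nat_lit 48) (nat_lit 5) (nat_lit 50) (nat_lit 5) (nat_lit 49) (nat_lit 4) (nat_lit 541) (nat_lit 474) (nat_lit 185)) (XT.lf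 (nat_lit 0) (nat_lit 32768804852) (nat_lit 836) (nat_lit 23032435288) (nat_lit 836) (nat_lit 23032435288) (nat_lit 147) (nat_lit 3) (nat_lit 158) (nat_lit 3) (nat_lit 158) (nat_lit 5) (nat_lit 475) (nat_lit 475) (nat_lit 250))))))))
noncomputable def xc227 : XT := (XT.nd (nat_lit 2418) (nat_lit 3268) (nat_lit 0) (XT.nd (nat_lit 1170) (nat_lit 2660) (nat_lit 0) (XT.nd (nat_lit 546) (nat_lit 1216) (nat_lit 0) (XT.nd (nat_lit 234) (nat_lit 0) (nat_lit 152) (XT.nd (nat_lit 78) (nat_lit 0) (nat_lit 76) (XT.lf (nat_lit 76) (nat_lit 33192577702) (nat_lit 0) (nat_lit 34504287306) (nat_lit 836) (nat_lit 93886128467) (nat_lit 148) (nat_lit 5) (nat_lit 147) (nat_lit 3) (nat_lit 158) (nat_lit 5) (nat_lit 476) (nat_lit 475) (nat_lit 249)) (XT.nd (nat_lit 78) (nat_lit 0) (nat_lit 0) (XT.lf (nat_lit 0) (nat_lit 71482033433) (nat_lit 760) (nat_lit 48381329575) (nat_lit 836) (nat_lit 45755157724) (nat_lit 148)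 (nat_lit 5) (nat_lit 158) (nat_lit 5) (nat_lit 159) (nat_lit 5) (nat_lit 477) (nat_lit 475) (nat_lit 248)) (XT.lf (nat_lit 76) (nat_lit 36221795923) (nat_lit 0) (nat_lit 40365674320) (nat_lit 836) (nat_lit 93211803635) (nat_lit 149) (nat_lit 5) (nat_lit 148) (nat_lit 5) (nat_lit 159) (nat_lit 5) (nat_lit 478) (nat_lit 475) (nat_lit 247)))) (XT.nd (nat_lit 156) (nat_lit 0) (nat_lit 76) (XT.nd (nat_lit 78) (nat_lit 0) (nat_lit 0) (XT.lf (nat_lit 0) (nat_lit 83453840912) (nat_lit 760) (nat_lit 48099881693) (nat_lit 836) (nat_lit 42560058998) (nat_lit 149) (nat_lit 5) (nat_lit 159) (nat_lit 5) (nat_lit 160) (nat_lit 5) (nat_lit 479) (nat_lit 475) (nat_lit 246)) (XT.lf (nat_lit 76) (nat_lit 42345071971) (nat_lit 0) (nat_lit 49641172081) (nat_lit 836) (nat_lit 86591634989) (nat_lit 150) (nat_lit 5) (nat_lit 149) (nat_lit 5) (nat_lit 160) (nat_lit 5) (nat_lit 480) (nat_lit 475) (nat_lit 245))) (XT.nd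 (nat_lit 78) (nat_lit 0) (nat_lit 0) (XT.lf (nat_lit 0) (nat_lit 102340869368) (nat_lit 760) (nat_lit 44823506751) (nat_lit 836) (nat_lit 36031025151) (nat_lit 150) (nat_lit 5) (nat_lit 160) (nat_lit 5) (nat_lit 161) (nat_lit 5) (nat_lit 481) (nat_lit 475) (nat_lit 244)) (XT.lf (nat_lit 76) (nat_lit 52006917064) (nat_lit 0) (nat_lit 62831941223) (nat_lit 836) (nat_lit 73123659727) (nat_lit 151) (nat_lit 5) (nat_lit 150) (nat_lit 5) (nat_lit 161) (nat_lit 5) (nat_lit 482) (nat_lit 475) (nat_lit 243))))) (XT.nd (nat_lit 312) (nat_lit 836) (nat_lit 0) (XT.nd (nat_lit 156) (nat_lit 684) (nat_lit 0) (XT.nd (nat_lit 78) (nat_lit 0) (nat_lit 0) (XT.lf (nat_lit 0) (nat_lit 129134689178) (nat_lit 760) (nat_lit 38109066001) (nat_lit 836) (nat_lit 25665588309) (nat_lit 151) (nat_lit 5) (nat_lit 161) (nat_lit 5) (nat_lit 162) (nat_lit 5) (nat_lit 483) (nat_lit 475) (nat_lit 242)) (XT.lf (nat_lit 76) (nat_lit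 65702557781) (nat_lit 0) (nat_lit 80498466822) (nat_lit 836) (nat_lit 51799700002) (nat_lit 152) (nat_lit 5) (nat_lit 151) (nat_lit 5) (nat_lit 162) (nat_lit 5) (nat_lit 484) (nat_lit 475) (nat_lit 241))) (XT.nd (nat_lit 78) (nat_lit 760) (nat_lit 0) (XT.lf (nat_lit 0) (nat_lit 164941784374) (nat_lit 760) (nat_lit 27462511803) (nat_lit 76) (nat_lit 10901323238) (nat_lit 152) (nat_lit 5) (nat_lit 162) (nat_lit 5) (nat_lit 153) (nat_lit 5) (nat_lit 485) (nat_lit 475) (nat_lit 240)) (XT.lf (nat_lit 0) (nat_lit 83983166919) (nat_lit 760) (nat_lit 103267164911) (nat_lit 836) (nat_lit 21493889669) (nat_lit 142) (nat_lit 5) (nat_lit 152) (nat_lit 5) (nat_lit 153) (nat_lit 5) (nat_lit 486) (nat_lit 475) (nat_lit 239)))) (XT.nd (nat_lit 156) (nat_lit 380) (nat_lit 0) (XT.nd (nat_lit 78) (nat_lit 456) (nat_lit 0) (XT.lf (nat_lit 0) (nat_lit 201954469674) (nat_lit 760) (nat_lit 9184821740) (nat_lit 836)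 (nat_lit 3292213049) (nat_lit 142) (nat_lit 5) (nat_lit 152) (nat_lit 5) (nat_lit 153) (nat_lit 5) (nat_lit 487) (nat_lit 475) (nat_lit 238)) (XT.lf (nat_lit 0) (nat_lit 18440267713) (nat_lit 456) (nat_lit 113085146207) (nat_lit 76) (nat_lit 88709036067) (nat_lit 136) (nat_lit 5) (nat_lit 142) (nat_lit 5) (nat_lit 137) (nat_lit 5) (nat_lit 488) (nat_lit 475) (nat_lit 237))) (XT.nd (nat_lit 78) (nat_lit 0) (nat_lit 0) (XT.lf (nat_lit 0) (nat_lit 6885428687) (nat_lit 380) (nat_lit 34736044935) (nat_lit 456) (nat_lit 184679733589) (nat_lit 131) (nat_lit 5) (nat_lit 136) (nat_lit 5) (nat_lit 137) (nat_lit 5) (nat_lit 489) (nat_lit 475) (nat_lit 236)) (XT.lf (nat_lit 0) (nat_lit 68952575316) (nat_lit 456) (nat_lit 96870833225) (nat_lit 76) (nat_lit 66698351994) (nat_lit 131) (nat_lit 5) (nat_lit 137) (nat_lit 5) (nat_lit 132) (nat_lit 5) (nat_lit 490) (nat_lit 475) (nat_lit 235)))))) (XT.nd (nat_lit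 624) (nat_lit 988) (nat_lit 0) (XT.nd (nat_lit 312) (nat_lit 988) (nat_lit 0) (XT.nd (nat_lit 156) (nat_lit 304) (nat_lit 0) (XT.nd (nat_lit 78) (nat_lit 0) (nat_lit 0) (XT.lf (nat_lit 0) (nat_lit 32264483940) (nat_lit 380) (nat_lit 66458839037) (nat_lit 456) (nat_lit 140276364018) (nat_lit 126) (nat_lit 5) (nat_lit 131) (nat_lit 5) (nat_lit 132) (nat_lit 5) (nat_lit 491) (nat_lit 475) (nat_lit 234)) (XT.lf (nat_lit 0) (nat_lit 132241286697) (nat_lit 456) (nat_lit 75118091272) (nat_lit 76) (nat_lit 38329197885) (nat_lit 126) (nat_lit 5) (nat_lit 132) (nat_lit 5) (nat_lit 127) (nat_lit 5) (nat_lit 492) (nat_lit 475) (nat_lit 233))) (XT.nd (nat_lit 78) (nat_lit 0) (nat_lit 0) (XT.lf (nat_lit 0) (nat_lit 64039970900) (nat_lit 304) (nat_lit 105484425777) (nat_lit 380) (nat_lit 83083050087) (nat_lit 122) (nat_lit 5) (nat_lit 126) (nat_lit 5) (nat_lit 127) (nat_lit 5) (nat_lit 493) (nat_lit 475) (nat_lit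 232)) (XT.lf (nat_lit 0) (nat_lit 209987770035) (nat_lit 380) (nat_lit 47088912685) (nat_lit 76) (nat_lit 2729773116) (nat_lit 122) (nat_lit 5) (nat_lit 127) (nat_lit 5) (nat_lit 123) (nat_lit 5) (nat_lit 494) (nat_lit 475) (nat_lit 231)))) (XT.nd (nat_lit 156) (nat_lit 608) (nat_lit 0) (XT.nd (nat_lit 78) (nat_lit 76) (nat_lit 0) (XT.lf (nat_lit 0) (nat_lit 103031897130) (nat_lit 304) (nat_lit 152780206259) (nat_lit 380) (nat_lit 11386422417) (nat_lit 118) (nat_lit 5) (nat_lit 122) (nat_lit 5) (nat_lit 123) (nat_lit 5) (nat_lit 495) (nat_lit 475) (nat_lit 230)) (XT.lf (nat_lit 0) (nat_lit 28850784389) (nat_lit 380) (nat_lit 13092187779) (nat_lit 76) (nat_lit 232954090474) (nat_lit 117) (nat_lit 5) (nat_lit 122) (nat_lit 5) (nat_lit 118) (nat_lit 5) (nat_lit 496) (nat_lit 475) (nat_lit 229))) (XT.nd (nat_lit 78) (nat_lit 304) (nat_lit 0) (XT.lf (nat_lit 0) (nat_lit 74265110025) (nat_lit 380)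 (nat_lit 133902503048) (nat_lit 76) (nat_lit 74626184275) (nat_lit 113) (nat_lit 5) (nat_lit 118) (nat_lit 5) (nat_lit 114) (nat_lit 5) (nat_lit 497) (nat_lit 475) (nat_lit 228)) (XT.lf (nat_lit 0) (nat_lit 28577543097) (nat_lit 304) (nat_lit 94731659794) (nat_lit 380) (nat_lit 167708213358) (nat_lit 109) (nat_lit 5) (nat_lit 113) (nat_lit 5) (nat_lit 114) (nat_lit 5) (nat_lit 498) (nat_lit 475) (nat_lit 227))))) (XT.nd (nat_lit 312) (nat_lit 456) (nat_lit 0) (XT.nd (nat_lit 156) (nat_lit 304) (nat_lit 0) (XT.nd (nat_lit 78) (nat_lit 228) (nat_lit 0) (XT.lf (nat_lit 0) (nat_lit 177490888717) (nat_lit 380) (nat_lit 96126294352) (nat_lit 76) (nat_lit 25900763620) (nat_lit 109) (nat_lit 5) (nat_lit 114) (nat_lit 5) (nat_lit 110) (nat_lit 5) (nat_lit 499) (nat_lit 475) (nat_lit 226)) (XT.lf (nat_lit 0) (nat_lit 79494207922) (nat_lit 228) (nat_lit 157681489707) (nat_lit 304) (nat_lit 71128104089)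 (nat_lit 106) (nat_lit 5) (nat_lit 109) (nat_lit 5) (nat_lit 110) (nat_lit 5) (nat_lit 500) (nat_lit 475) (nat_lit 225))) (XT.nd (nat_lit 78) (nat_lit 304) (nat_lit 0) (XT.lf (nat_lit 0) (nat_lit 267232936078) (nat_lit 228) (nat_lit 34239691426) (nat_lit 304) (nat_lit 15974927975) (nat_lit 106) (nat_lit 5) (nat_lit 109) (nat_lit 5) (nat_lit 110) (nat_lit 5) (nat_lit 501) (nat_lit 475) (nat_lit 224)) (XT.lf (nat_lit 0) (nat_lit 44333675364) (nat_lit 304) (nat_lit 187267759567) (nat_lit 76) (nat_lit 95227326187) (nat_lit 102) (nat_lit 5) (nat_lit 106) (nat_lit 5) (nat_lit 103) (nat_lit 5) (nat_lit 502) (nat_lit 475) (nat_lit 223)))) (XT.nd (nat_lit 156) (nat_lit 228) (nat_lit 0) (XT.nd (nat_lit 78) (nat_lit 0) (nat_lit 0) (XT.lf (nat_lit 0) (nat_lit 3197352410) (nat_lit 228) (nat_lit 105399008785) (nat_lit 304) (nat_lit 227995795912) (nat_lit 99) (nat_lit 5) (nat_lit 102) (nat_lit 5) (nat_lit 103)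 (nat_lit 5) (nat_lit 503) (nat_lit 475) (nat_lit 222)) (XT.lf (nat_lit 0) (nat_lit 179718900885) (nat_lit 304) (nat_lit 137473312880) (nat_lit 76) (nat_lit 29469173159) (nat_lit 99) (nat_lit 5) (nat_lit 103) (nat_lit 5) (nat_lit 100) (nat_lit 5) (nat_lit 504) (nat_lit 475) (nat_lit 221))) (XT.nd (nat_lit 78) (nat_lit 0) (nat_lit 0) (XT.lf (nat_lit 0) (nat_lit 68715647360) (nat_lit 228) (nat_lit 188482559306) (nat_lit 304) (nat_lit 99895839615) (nat_lit 96) (nat_lit 5) (nat_lit 99) (nat_lit 5) (nat_lit 100) (nat_lit 5) (nat_lit 505) (nat_lit 475) (nat_lit 220)) (XT.lf (nat_lit 0) (nat_lit 289986736541) (nat_lit 228) (nat_lit 50892862391) (nat_lit 304) (nat_lit 27052333621) (nat_lit 96) (nat_lit 5) (nat_lit 99) (nat_lit 5) (nat_lit 100) (nat_lit 5) (nat_lit 506) (nat_lit 475) (nat_lit 219))))))) (XT.nd (nat_lit 1170) (nat_lit 1444) (nat_lit 0) (XT.nd (nat_lit 546) (nat_lit 912) (nat_lit 0) (XT.nd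 (nat_lit 234) (nat_lit 456) (nat_lit 0) (XT.nd (nat_lit 78) (nat_lit 228) (nat_lit 0) (XT.lf (nat_lit 0) (nat_lit 51656525384) (nat_lit 228) (nat_lit 233728850153) (nat_lit 76) (nat_lit 93697480274) (nat_lit 93) (nat_lit 5) (nat_lit 96) (nat_lit 5) (nat_lit 94) (nat_lit 5) (nat_lit 507) (nat_lit 475) (nat_lit 218)) (XT.nd (nat_lit 78) (nat_lit 228) (nat_lit 0) (XT.lf (nat_lit 0) (nat_lit 135567627210) (nat_lit 228) (nat_lit 9500585635) (nat_lit 76) (nat_lit 245592141564) (nat_lit 93) (nat_lit 5) (nat_lit 96) (nat_lit 5) (nat_lit 94) (nat_lit 5) (nat_lit 508) (nat_lit 475) (nat_lit 217)) (XT.lf (nat_lit 0) (nat_lit 227413511373) (nat_lit 304) (nat_lit 169320042529) (nat_lit 76) (nat_lit 5896212676) (nat_lit 90) (nat_lit 5) (nat_lit 94) (nat_lit 5) (nat_lit 91) (nat_lit 5) (nat_lit 509) (nat_lit 475) (nat_lit 216)))) (XT.nd (nat_lit 156) (nat_lit 228) (nat_lit 0) (XT.nd (nat_lit 78) (nat_lit 76)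 (nat_lit 0) (XT.lf (nat_lit 0) (nat_lit 73368139293) (nat_lit 152) (nat_lit 254170685008) (nat_lit 228) (nat_lit 87474468331) (nat_lit 88) (nat_lit 5) (nat_lit 90) (nat_lit 5) (nat_lit 91) (nat_lit 5) (nat_lit 510) (nat_lit 475) (nat_lit 215)) (XT.lf (nat_lit 0) (nat_lit 7419913656) (nat_lit 228) (nat_lit 93923234477) (nat_lit 76) (nat_lit 326523489647) (nat_lit 87) (nat_lit 5) (nat_lit 90) (nat_lit 5) (nat_lit 88) (nat_lit 5) (nat_lit 511) (nat_lit 475) (nat_lit 214))) (XT.nd (nat_lit 78) (nat_lit 0) (nat_lit 0) (XT.lf (nat_lit 0) (nat_lit 107766709839) (nat_lit 304) (nat_lit 271950177043) (nat_lit 76) (nat_lit 61391692383) (nat_lit 84) (nat_lit 5) (nat_lit 88) (nat_lit 5) (nat_lit 85) (nat_lit 5) (nat_lit 512) (nat_lit 475) (nat_lit 213)) (XT.lf (nat_lit 0) (nat_lit 216408873921) (nat_lit 304) (nat_lit 7965676953) (nat_lit 76) (nat_lit 230474165549) (nat_lit 84) (nat_lit 5) (nat_lit 88) (nat_lit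 5) (nat_lit 85) (nat_lit 5) (nat_lit 513) (nat_lit 475) (nat_lit 212))))) (XT.nd (nat_lit 312) (nat_lit 380) (nat_lit 0) (XT.nd (nat_lit 156) (nat_lit 228) (nat_lit 0) (XT.nd (nat_lit 78) (nat_lit 152) (nat_lit 0) (XT.lf (nat_lit 0) (nat_lit 278119538648) (nat_lit 152) (nat_lit 56705788788) (nat_lit 228) (nat_lit 134233423943) (nat_lit 82) (nat_lit 5) (nat_lit 84) (nat_lit 5) (nat_lit 85) (nat_lit 5) (nat_lit 514) (nat_lit 475) (nat_lit 211)) (XT.lf (nat_lit 0) (nat_lit 96020667750) (nat_lit 152) (nat_lit 366641490041) (nat_lit 228) (nat_lit 21142152588) (nat_lit 80) (nat_lit 5) (nat_lit 82) (nat_lit 5) (nat_lit 83) (nat_lit 5) (nat_lit 515) (nat_lit 475) (nat_lit 210))) (XT.nd (nat_lit 78) (nat_lit 152) (nat_lit 0) (XT.lf (nat_lit 0) (nat_lit 98695973275) (nat_lit 228) (nat_lit 97674497567) (nat_lit 76) (nat_lit 302629672224) (nat_lit 79) (nat_lit 5) (nat_lit 82) (nat_lit 5) (nat_lit 80) (nat_lit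 5) (nat_lit 516) (nat_lit 475) (nat_lit 209)) (XT.lf (nat_lit 0) (nat_lit 213424355291) (nat_lit 152) (nat_lit 13723246194) (nat_lit 228) (nat_lit 287624230719) (nat_lit 77) (nat_lit 5) (nat_lit 79) (nat_lit 5) (nat_lit 80) (nat_lit 5) (nat_lit 517) (nat_lit 475) (nat_lit 208)))) (XT.nd (nat_lit 156) (nat_lit 228) (nat_lit 0) (XT.nd (nat_lit 78) (nat_lit 0) (nat_lit 0) (XT.lf (nat_lit 0) (nat_lit 9723870392) (nat_lit 152) (nat_lit 356910957571) (nat_lit 228) (nat_lit 164466626997) (nat_lit 75) (nat_lit 5) (nat_lit 77) (nat_lit 5) (nat_lit 78) (nat_lit 5) (nat_lit 518) (nat_lit 475) (nat_lit 207)) (XT.lf (nat_lit 0) (nat_lit 346578410807) (nat_lit 152) (nat_lit 171842773036) (nat_lit 228) (nat_lit 29560136608) (nat_lit 75) (nat_lit 5) (nat_lit 77) (nat_lit 5) (nat_lit 78) (nat_lit 5) (nat_lit 519) (nat_lit 475) (nat_lit 206))) (XT.nd (nat_lit 78) (nat_lit 0) (nat_lit 0) (XT.lf (nat_lit 0) (nat_lit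 111061035527) (nat_lit 228) (nat_lit 428713321760) (nat_lit 76) (nat_lit 25715469123) (nat_lit 72) (nat_lit 5) (nat_lit 75) (nat_lit 5) (nat_lit 73) (nat_lit 5) (nat_lit 520) (nat_lit 475) (nat_lit 205)) (XT.lf (nat_lit 0) (nat_lit 264003679610) (nat_lit 228) (nat_lit 88203740485) (nat_lit 76) (nat_lit 231327916566) (nat_lit 72) (nat_lit 5) (nat_lit 75) (nat_lit 5) (nat_lit 73) (nat_lit 5) (nat_lit 521) (nat_lit 475) (nat_lit 204)))))) (XT.nd (nat_lit 624) (nat_lit 684) (nat_lit 0) (XT.nd (nat_lit 312) (nat_lit 304) (nat_lit 0) (XT.nd (nat_lit 156) (nat_lit 228) (nat_lit 0) (XT.nd (nat_lit 78) (nat_lit 76) (nat_lit 0) (XT.lf (nat_lit 0) (nat_lit 278236563901) (nat_lit 152) (nat_lit 150700908069) (nat_lit 228) (nat_lit 173328449652) (nat_lit 70) (nat_lit 5) (nat_lit 72) (nat_lit 5) (nat_lit 73) (nat_lit 5) (nat_lit 522) (nat_lit 475) (nat_lit 203)) (XT.lf (nat_lit 0) (nat_lit 44656999944) (nat_lit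 76) (nat_lit 560626921852) (nat_lit 152) (nat_lit 16490815645) (nat_lit 69) (nat_lit 5) (nat_lit 70) (nat_lit 5) (nat_lit 71) (nat_lit 4) (nat_lit 523) (nat_lit 475) (nat_lit 202))) (XT.nd (nat_lit 78) (nat_lit 152) (nat_lit 0) (XT.lf (nat_lit 0) (nat_lit 151493761458) (nat_lit 152) (nat_lit 203831543507) (nat_lit 76) (nat_lit 286415605779) (nat_lit 68) (nat_lit 5) (nat_lit 70) (nat_lit 5) (nat_lit 69) (nat_lit 5) (nat_lit 524) (nat_lit 475) (nat_lit 201)) (XT.lf (nat_lit 0) (nat_lit 194059679550) (nat_lit 152) (nat_lit 136293469533) (nat_lit 228) (nat_lit 332187237509) (nat_lit 66) (nat_lit 5) (nat_lit 68) (nat_lit 5) (nat_lit 69) (nat_lit 5) (nat_lit 525) (nat_lit 475) (nat_lit 200)))) (XT.nd (nat_lit 156) (nat_lit 152) (nat_lit 0) (XT.nd (nat_lit 78) (nat_lit 152) (nat_lit 0) (XT.lf (nat_lit 0) (nat_lit 523126810682) (nat_lit 228) (nat_lit 66804616335) (nat_lit 76) (nat_lit 94199843988) (nat_lit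 66) (nat_lit 5) (nat_lit 69) (nat_lit 5) (nat_lit 67) (nat_lit 4) (nat_lit 526) (nat_lit 475) (nat_lit 199)) (XT.lf (nat_lit 0) (nat_lit 26190964457) (nat_lit 152) (nat_lit 342444520626) (nat_lit 76) (nat_lit 337748926130) (nat_lit 64) (nat_lit 5) (nat_lit 66) (nat_lit 5) (nat_lit 65) (nat_lit 5) (nat_lit 527) (nat_lit 475) (nat_lit 198))) (XT.nd (nat_lit 78) (nat_lit 0) (nat_lit 0) (XT.lf (nat_lit 0) (nat_lit 89039071680) (nat_lit 152) (nat_lit 130836315907) (nat_lit 228) (nat_lit 509615848339) (nat_lit 62) (nat_lit 5) (nat_lit 64) (nat_lit 5) (nat_lit 65) (nat_lit 5) (nat_lit 528) (nat_lit 475) (nat_lit 197)) (XT.lf (nat_lit 0) (nat_lit 430994162187) (nat_lit 228) (nat_lit 201428442023) (nat_lit 76) (nat_lit 120943291151) (nat_lit 62) (nat_lit 5) (nat_lit 65) (nat_lit 5) (nat_lit 63) (nat_lit 4) (nat_lit 529) (nat_lit 475) (nat_lit 196))))) (XT.nd (nat_lit 312) (nat_lit 304) (nat_lit 0) (XT.nd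 (nat_lit 156) (nat_lit 228) (nat_lit 0) (XT.nd (nat_lit 78) (nat_lit 76) (nat_lit 0) (XT.lf (nat_lit 0) (nat_lit 265912410486) (nat_lit 76) (nat_lit 393052930143) (nat_lit 152) (nat_lit 119154123884) (nat_lit 61) (nat_lit 5) (nat_lit 62) (nat_lit 5) (nat_lit 63) (nat_lit 4) (nat_lit 530) (nat_lit 475) (nat_lit 195)) (XT.lf (nat_lit 0) (nat_lit 94675778235) (nat_lit 152) (nat_lit 41853786678) (nat_lit 76) (nat_lit 667334232863) (nat_lit 60) (nat_lit 5) (nat_lit 62) (nat_lit 5) (nat_lit 61) (nat_lit 5) (nat_lit 531) (nat_lit 475) (nat_lit 194))) (XT.nd (nat_lit 78) (nat_lit 76) (nat_lit 0) (XT.lf (nat_lit 0) (nat_lit 324676594431) (nat_lit 228) (nat_lit 367714558080) (nat_lit 76) (nat_lit 137932338935) (nat_lit 58) (nat_lit 5) (nat_lit 61) (nat_lit 5) (nat_lit 59) (nat_lit 4) (nat_lit 532) (nat_lit 475) (nat_lit 193)) (XT.lf (nat_lit 0) (nat_lit 137838974198) (nat_lit 76) (nat_lit 433449124796)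 (nat_lit 152) (nat_lit 286562538430) (nat_lit 57) (nat_lit 5) (nat_lit 58) (nat_lit 5) (nat_lit 59) (nat_lit 4) (nat_lit 533) (nat_lit 475) (nat_lit 192)))) (XT.nd (nat_lit 156) (nat_lit 76) (nat_lit 0) (XT.nd (nat_lit 78) (nat_lit 228) (nat_lit 0) (XT.lf (nat_lit 0) (nat_lit 681436349498) (nat_lit 76) (nat_lit 155021225054) (nat_lit 152) (nat_lit 49985196360) (nat_lit 57) (nat_lit 5) (nat_lit 58) (nat_lit 5) (nat_lit 59) (nat_lit 4) (nat_lit 534) (nat_lit 475) (nat_lit 191)) (XT.lf (nat_lit 0) (nat_lit 199718432081) (nat_lit 228) (nat_lit 574674095727) (nat_lit 76) (nat_lit 141534681322) (nat_lit 54) (nat_lit 5) (nat_lit 57) (nat_lit 5) (nat_lit 55) (nat_lit 4) (nat_lit 535) (nat_lit 475) (nat_lit 190))) (XT.nd (nat_lit 78) (nat_lit 76) (nat_lit 0) (XT.lf (nat_lit 0) (nat_lit 466297515040) (nat_lit 228) (nat_lit 28187018502) (nat_lit 76) (nat_lit 452056859070) (nat_lit 54) (nat_lit 5) (nat_lit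 57) (nat_lit 5) (nat_lit 55) (nat_lit 4) (nat_lit 536) (nat_lit 475) (nat_lit 189)) (XT.lf (nat_lit 0) (nat_lit 563665169332) (nat_lit 76) (nat_lit 191340749920) (nat_lit 152) (nat_lit 223240347663) (nat_lit 53) (nat_lit 5) (nat_lit 54) (nat_lit 5) (nat_lit 55) (nat_lit 4) (nat_lit 537) (nat_lit 475) (nat_lit 188))))))))
noncomputable def xc228 : XT := (XT.nd (nat_lit 59748) (nat_lit 0) (nat_lit 608) (XT.nd (nat_lit 58500) (nat_lit 0) (nat_lit 4256) (XT.nd (nat_lit 57876) (nat_lit 0) (nat_lit 7448) (XT.nd (nat_lit 234) (nat_lit 0) (nat_lit 0) (XT.nd (nat_lit 78) (nat_lit 76) (nat_lit 0) (XT.lf (nat_lit 0) (nat_lit 50458532340) (nat_lit 152) (nat_lit 833795250602) (nat_lit 76) (nat_lit 126979359125) (nat_lit 51) (nat_lit 5) (nat_lit 53) (nat_lit 5) (nat_lit 52) (nat_lit 4) (nat_lit 538) (nat_lit 475) (nat_lit 187)) (XT.nd (nat_lit 78) (nat_lit 76) (nat_lit 0) (XT.lf (nat_lit 0) (nat_lit 340612956734)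 (nat_lit 152) (nat_lit 238978715841) (nat_lit 76) (nat_lit 465581057513) (nat_lit 51) (nat_lit 5) (nat_lit 53) (nat_lit 5) (nat_lit 52) (nat_lit 4) (nat_lit 539) (nat_lit 475) (nat_lit 186)) (XT.lf (nat_lit 0) (nat_lit 398327568781) (nat_lit 76) (nat_lit 253166518777) (nat_lit 152) (nat_lit 429004260692) (nat_lit 50) (nat_lit 5) (nat_lit 51) (nat_lit 5) (nat_lit 52) (nat_lit 4) (nat_lit 540) (nat_lit 475) (nat_lit 185)))) (XT.nd (nat_lit 57486) (nat_lit 0) (nat_lit 7372) (XT.nd (nat_lit 57408) (nat_lit 0) (nat_lit 7372) (XT.lf (nat_lit 0) (nat_lit 983431411813) (nat_lit 152) (nat_lit 43056905122) (nat_lit 0) (nat_lit 90826323542) (nat_lit 50) (nat_lit 5) (nat_lit 52) (nat_lit 4) (nat_lit 50) (nat_lit 4) (nat_lit 541) (nat_lit 475) (nat_lit 184)) (XT.lf (nat_lit 0) (nat_lit 34409790623) (nat_lit 836) (nat_lit 24182720453) (nat_lit 836) (nat_lit 24182720453) (nat_lit 147) (nat_lit 3) (nat_lit 158)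 (nat_lit 3) (nat_lit 158) (nat_lit 5) (nat_lit 476) (nat_lit 476) (nat_lit 248))) (XT.nd (nat_lit 78) (nat_lit 0) (nat_lit 76) (XT.lf (nat_lit 76) (nat_lit 34854836669) (nat_lit 0) (nat_lit 36231761277) (nat_lit 836) (nat_lit 98575299968) (nat_lit 148) (nat_lit 5) (nat_lit 147) (nat_lit 3) (nat_lit 158) (nat_lit 5) (nat_lit 477) (nat_lit 476) (nat_lit 247)) (XT.lf (nat_lit 0) (nat_lit 75060758352) (nat_lit 760) (nat_lit 50797624058) (nat_lit 836) (nat_lit 48040832482) (nat_lit 148) (nat_lit 5) (nat_lit 158) (nat_lit 5) (nat_lit 159) (nat_lit 5) (nat_lit 478) (nat_lit 476) (nat_lit 246))))) (XT.nd (nat_lit 312) (nat_lit 0) (nat_lit 152) (XT.nd (nat_lit 156) (nat_lit 0) (nat_lit 76) (XT.nd (nat_lit 78) (nat_lit 0) (nat_lit 76) (XT.lf (nat_lit 76) (nat_lit 38035613005) (nat_lit 0) (nat_lit 42385676423) (nat_lit 836) (nat_lit 97867725180) (nat_lit 149) (nat_lit 5) (nat_lit 148) (nat_lit 5) (nat_lit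 159) (nat_lit 5) (nat_lit 479) (nat_lit 476) (nat_lit 245)) (XT.lf (nat_lit 0) (nat_lit 87630741381) (nat_lit 760) (nat_lit 50502040465) (nat_lit 836) (nat_lit 44686477769) (nat_lit 149) (nat_lit 5) (nat_lit 159) (nat_lit 5) (nat_lit 160) (nat_lit 5) (nat_lit 480) (nat_lit 476) (nat_lit 244))) (XT.nd (nat_lit 78) (nat_lit 0) (nat_lit 76) (XT.lf (nat_lit 76) (nat_lit 44465115152) (nat_lit 0) (nat_lit 52124492677) (nat_lit 836) (nat_lit 90916961968) (nat_lit 150) (nat_lit 5) (nat_lit 149) (nat_lit 5) (nat_lit 160) (nat_lit 5) (nat_lit 481) (nat_lit 476) (nat_lit 243)) (XT.lf (nat_lit 0) (nat_lit 107461752714) (nat_lit 760) (nat_lit 47061813059) (nat_lit 836) (nat_lit 37831412979) (nat_lit 150) (nat_lit 5) (nat_lit 160) (nat_lit 5) (nat_lit 161) (nat_lit 5) (nat_lit 482) (nat_lit 476) (nat_lit 242)))) (XT.nd (nat_lit 156) (nat_lit 0) (nat_lit 76) (XT.nd (nat_lit 78) (nat_lit 0) (nat_lit 76) (XT.lf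 (nat_lit 76) (nat_lit 54610085673) (nat_lit 0) (nat_lit 65974416627) (nat_lit 836) (nat_lit 76775956001) (nat_lit 151) (nat_lit 5) (nat_lit 150) (nat_lit 5) (nat_lit 161) (nat_lit 5) (nat_lit 483) (nat_lit 476) (nat_lit 241)) (XT.lf (nat_lit 0) (nat_lit 135594935431) (nat_lit 760) (nat_lit 40011641127) (nat_lit 836) (nat_lit 26948057981) (nat_lit 151) (nat_lit 5) (nat_lit 161) (nat_lit 5) (nat_lit 162) (nat_lit 5) (nat_lit 484) (nat_lit 476) (nat_lit 240))) (XT.nd (nat_lit 78) (nat_lit 0) (nat_lit 76) (XT.lf (nat_lit 76) (nat_lit 68990517422) (nat_lit 0) (nat_lit 84523947188) (nat_lit 836) (nat_lit 54386126278) (nat_lit 152) (nat_lit 5) (nat_lit 151) (nat_lit 5) (nat_lit 162) (nat_lit 5) (nat_lit 485) (nat_lit 476) (nat_lit 239)) (XT.lf (nat_lit 0) (nat_lit 173192092718) (nat_lit 760) (nat_lit 28832770350) (nat_lit 76) (nat_lit 11445875879) (nat_lit 152) (nat_lit 5) (nat_lit 162) (nat_lit 5)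 (nat_lit 153) (nat_lit 5) (nat_lit 486) (nat_lit 476) (nat_lit 238)))))) (XT.nd (nat_lit 624) (nat_lit 1216) (nat_lit 0) (XT.nd (nat_lit 312) (nat_lit 684) (nat_lit 0) (XT.nd (nat_lit 156) (nat_lit 836) (nat_lit 0) (XT.nd (nat_lit 78) (nat_lit 0) (nat_lit 0) (XT.lf (nat_lit 0) (nat_lit 88185146065) (nat_lit 760) (nat_lit 108430812230) (nat_lit 836) (nat_lit 22565318325) (nat_lit 142) (nat_lit 5) (nat_lit 152) (nat_lit 5) (nat_lit 153) (nat_lit 5) (nat_lit 487) (nat_lit 476) (nat_lit 237)) (XT.lf (nat_lit 0) (nat_lit 212054879634) (nat_lit 760) (nat_lit 9644338135) (nat_lit 836) (nat_lit 3453713390) (nat_lit 142) (nat_lit 5) (nat_lit 152) (nat_lit 5) (nat_lit 153) (nat_lit 5) (nat_lit 488) (nat_lit 476) (nat_lit 236))) (XT.nd (nat_lit 78) (nat_lit 380) (nat_lit 0) (XT.lf (nat_lit 0) (nat_lit 19365188660) (nat_lit 456) (nat_lit 118736513475) (nat_lit 76) (nat_lit 93144324575) (nat_lit 136) (nat_lit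 5) (nat_lit 142) (nat_lit 5) (nat_lit 137) (nat_lit 5) (nat_lit 489) (nat_lit 476) (nat_lit 235)) (XT.lf (nat_lit 0) (nat_lit 7232543550) (nat_lit 380) (nat_lit 36472817254) (nat_lit 456) (nat_lit 193910765715) (nat_lit 131) (nat_lit 5) (nat_lit 136) (nat_lit 5) (nat_lit 137) (nat_lit 5) (nat_lit 490) (nat_lit 476) (nat_lit 234)))) (XT.nd (nat_lit 156) (nat_lit 304) (nat_lit 0) (XT.nd (nat_lit 78) (nat_lit 380) (nat_lit 0) (XT.lf (nat_lit 0) (nat_lit 72402884051) (nat_lit 456) (nat_lit 101711532967) (nat_lit 76) (nat_lit 70033297185) (nat_lit 131) (nat_lit 5) (nat_lit 137) (nat_lit 5) (nat_lit 132) (nat_lit 5) (nat_lit 491) (nat_lit 476) (nat_lit 233)) (XT.lf (nat_lit 0) (nat_lit 33880504218) (nat_lit 380) (nat_lit 69781580913) (nat_lit 456) (nat_lit 147287456069) (nat_lit 126) (nat_lit 5) (nat_lit 131) (nat_lit 5) (nat_lit 132) (nat_lit 5) (nat_lit 492) (nat_lit 476) (nat_lit 232))) (XT.nd (nat_lit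 78) (nat_lit 304) (nat_lit 0) (XT.lf (nat_lit 0) (nat_lit 138855826394) (nat_lit 456) (nat_lit 78871211929) (nat_lit 76) (nat_lit 40245842229) (nat_lit 126) (nat_lit 5) (nat_lit 132) (nat_lit 5) (nat_lit 127) (nat_lit 5) (nat_lit 493) (nat_lit 476) (nat_lit 231)) (XT.lf (nat_lit 0) (nat_lit 67244708450) (nat_lit 304) (nat_lit 110758308312) (nat_lit 380) (nat_lit 87234682016) (nat_lit 122) (nat_lit 5) (nat_lit 126) (nat_lit 5) (nat_lit 127) (nat_lit 5) (nat_lit 494) (nat_lit 476) (nat_lit 230))))) (XT.nd (nat_lit 312) (nat_lit 532) (nat_lit 0) (XT.nd (nat_lit 156) (nat_lit 380) (nat_lit 0) (XT.nd (nat_lit 78) (nat_lit 304) (nat_lit 0) (XT.lf (nat_lit 0) (nat_lit 220489449527) (nat_lit 380) (nat_lit 49440640185) (nat_lit 76) (nat_lit 2866574069) (nat_lit 122) (nat_lit 5) (nat_lit 127) (nat_lit 5) (nat_lit 123) (nat_lit 5) (nat_lit 495) (nat_lit 476) (nat_lit 229)) (XT.lf (nat_lit 0) (nat_lit 108186166279)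 (nat_lit 304) (nat_lit 160418765928) (nat_lit 380) (nat_lit 11953408423) (nat_lit 118) (nat_lit 5) (nat_lit 122) (nat_lit 5) (nat_lit 123) (nat_lit 5) (nat_lit 496) (nat_lit 476) (nat_lit 228))) (XT.nd (nat_lit 78) (nat_lit 304) (nat_lit 0) (XT.lf (nat_lit 0) (nat_lit 30295476347) (nat_lit 380) (nat_lit 13744178787) (nat_lit 76) (nat_lit 244602152746) (nat_lit 117) (nat_lit 5) (nat_lit 122) (nat_lit 5) (nat_lit 118) (nat_lit 5) (nat_lit 497) (nat_lit 476) (nat_lit 227)) (XT.lf (nat_lit 0) (nat_lit 77980463558) (nat_lit 380) (nat_lit 140594954868) (nat_lit 76) (nat_lit 78357963644) (nat_lit 113) (nat_lit 5) (nat_lit 118) (nat_lit 5) (nat_lit 114) (nat_lit 5) (nat_lit 498) (nat_lit 476) (nat_lit 226)))) (XT.nd (nat_lit 156) (nat_lit 228) (nat_lit 0) (XT.nd (nat_lit 78) (nat_lit 0) (nat_lit 0) (XT.lf (nat_lit 0) (nat_lit 30009050467) (nat_lit 304) (nat_lit 99467651759) (nat_lit 380) (nat_lit 176091482644)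 (nat_lit 109) (nat_lit 5) (nat_lit 113) (nat_lit 5) (nat_lit 114) (nat_lit 5) (nat_lit 499) (nat_lit 476) (nat_lit 225)) (XT.lf (nat_lit 0) (nat_lit 186367384027) (nat_lit 380) (nat_lit 100930015566) (nat_lit 76) (nat_lit 27196346665) (nat_lit 109) (nat_lit 5) (nat_lit 114) (nat_lit 5) (nat_lit 110) (nat_lit 5) (nat_lit 500) (nat_lit 476) (nat_lit 224))) (XT.nd (nat_lit 78) (nat_lit 0) (nat_lit 0) (XT.lf (nat_lit 0) (nat_lit 83471469991) (nat_lit 228) (nat_lit 165564910333) (nat_lit 304) (nat_lit 74682516377) (nat_lit 106) (nat_lit 5) (nat_lit 109) (nat_lit 5) (nat_lit 110) (nat_lit 5) (nat_lit 501) (nat_lit 476) (nat_lit 223)) (XT.lf (nat_lit 0) (nat_lit 280597013047) (nat_lit 228) (nat_lit 35951053274) (nat_lit 304) (nat_lit 16771776359) (nat_lit 106) (nat_lit 5) (nat_lit 109) (nat_lit 5) (nat_lit 110) (nat_lit 5) (nat_lit 502) (nat_lit 476) (nat_lit 222))))))) (XT.nd (nat_lit 1170) (nat_lit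 1596) (nat_lit 0) (XT.nd (nat_lit 546) (nat_lit 1064) (nat_lit 0) (XT.nd (nat_lit 234) (nat_lit 456) (nat_lit 0) (XT.nd (nat_lit 78) (nat_lit 228) (nat_lit 0) (XT.lf (nat_lit 0) (nat_lit 46552157525) (nat_lit 304) (nat_lit 196628617385) (nat_lit 76) (nat_lit 99989334161) (nat_lit 102) (nat_lit 5) (nat_lit 106) (nat_lit 5) (nat_lit 103) (nat_lit 5) (nat_lit 503) (nat_lit 476) (nat_lit 221)) (XT.nd (nat_lit 78) (nat_lit 0) (nat_lit 0) (XT.lf (nat_lit 0) (nat_lit 3359709382) (nat_lit 228) (nat_lit 110668221494) (nat_lit 304) (nat_lit 239393746332) (nat_lit 99) (nat_lit 5) (nat_lit 102) (nat_lit 5) (nat_lit 103) (nat_lit 5) (nat_lit 504) (nat_lit 476) (nat_lit 220)) (XT.lf (nat_lit 0) (nat_lit 188706525109) (nat_lit 304) (nat_lit 144344535107) (nat_lit 76) (nat_lit 30943311929) (nat_lit 99) (nat_lit 5) (nat_lit 103) (nat_lit 5) (nat_lit 100) (nat_lit 5) (nat_lit 505) (nat_lit 476) (nat_lit 219))))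 (XT.nd (nat_lit 156) (nat_lit 228) (nat_lit 0) (XT.nd (nat_lit 78) (nat_lit 0) (nat_lit 0) (XT.lf (nat_lit 0) (nat_lit 72153833735) (nat_lit 228) (nat_lit 197905920017) (nat_lit 304) (nat_lit 104888912849) (nat_lit 96) (nat_lit 5) (nat_lit 99) (nat_lit 5) (nat_lit 100) (nat_lit 5) (nat_lit 506) (nat_lit 476) (nat_lit 218)) (XT.lf (nat_lit 0) (nat_lit 304488362899) (nat_lit 228) (nat_lit 53436774792) (nat_lit 304) (nat_lit 28403313400) (nat_lit 96) (nat_lit 5) (nat_lit 99) (nat_lit 5) (nat_lit 100) (nat_lit 5) (nat_lit 507) (nat_lit 476) (nat_lit 217))) (XT.nd (nat_lit 78) (nat_lit 0) (nat_lit 0) (XT.lf (nat_lit 0) (nat_lit 54240908542) (nat_lit 228) (nat_lit 245412922838) (nat_lit 76) (nat_lit 98383089241) (nat_lit 93) (nat_lit 5) (nat_lit 96) (nat_lit 5) (nat_lit 94) (nat_lit 5) (nat_lit 508) (nat_lit 476) (nat_lit 216)) (XT.lf (nat_lit 0) (nat_lit 142347491321) (nat_lit 228) (nat_lit 9973357943)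 (nat_lit 76) (nat_lit 257872448598) (nat_lit 93) (nat_lit 5) (nat_lit 96) (nat_lit 5) (nat_lit 94) (nat_lit 5) (nat_lit 509) (nat_lit 476) (nat_lit 215))))) (XT.nd (nat_lit 312) (nat_lit 380) (nat_lit 0) (XT.nd (nat_lit 156) (nat_lit 304) (nat_lit 0) (XT.nd (nat_lit 78) (nat_lit 152) (nat_lit 0) (XT.lf (nat_lit 0) (nat_lit 238785645835) (nat_lit 304) (nat_lit 177783763701) (nat_lit 76) (nat_lit 6191772303) (nat_lit 90) (nat_lit 5) (nat_lit 94) (nat_lit 5) (nat_lit 91) (nat_lit 5) (nat_lit 510) (nat_lit 476) (nat_lit 214)) (XT.lf (nat_lit 0) (nat_lit 77038790422) (nat_lit 152) (nat_lit 266878399554) (nat_lit 228) (nat_lit 91846695947) (nat_lit 88) (nat_lit 5) (nat_lit 90) (nat_lit 5) (nat_lit 91) (nat_lit 5) (nat_lit 511) (nat_lit 476) (nat_lit 213))) (XT.nd (nat_lit 78) (nat_lit 228) (nat_lit 0) (XT.lf (nat_lit 0) (nat_lit 7792288316) (nat_lit 228) (nat_lit 98617213199) (nat_lit 76) (nat_lit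 342850399099) (nat_lit 87) (nat_lit 5) (nat_lit 90) (nat_lit 5) (nat_lit 88) (nat_lit 5) (nat_lit 512) (nat_lit 476) (nat_lit 212)) (XT.lf (nat_lit 0) (nat_lit 113156404681) (nat_lit 304) (nat_lit 285545483164) (nat_lit 76) (nat_lit 64462052314) (nat_lit 84) (nat_lit 5) (nat_lit 88) (nat_lit 5) (nat_lit 85) (nat_lit 5) (nat_lit 513) (nat_lit 476) (nat_lit 211)))) (XT.nd (nat_lit 156) (nat_lit 228) (nat_lit 0) (XT.nd (nat_lit 78) (nat_lit 152) (nat_lit 0) (XT.lf (nat_lit 0) (nat_lit 227230612236) (nat_lit 304) (nat_lit 8361862962) (nat_lit 76) (nat_lit 241998612219) (nat_lit 84) (nat_lit 5) (nat_lit 88) (nat_lit 5) (nat_lit 85) (nat_lit 5) (nat_lit 514) (nat_lit 476) (nat_lit 210)) (XT.lf (nat_lit 0) (nat_lit 292027579583) (nat_lit 152) (nat_lit 59540279420) (nat_lit 228) (nat_lit 140943766594) (nat_lit 82) (nat_lit 5) (nat_lit 84) (nat_lit 5) (nat_lit 85) (nat_lit 5) (nat_lit 515) (nat_lit 476)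 (nat_lit 209))) (XT.nd (nat_lit 78) (nat_lit 76) (nat_lit 0) (XT.lf (nat_lit 0) (nat_lit 100823781910) (nat_lit 152) (nat_lit 384972733084) (nat_lit 228) (nat_lit 22197948352) (nat_lit 80) (nat_lit 5) (nat_lit 82) (nat_lit 5) (nat_lit 83) (nat_lit 5) (nat_lit 516) (nat_lit 476) (nat_lit 208)) (XT.lf (nat_lit 0) (nat_lit 103631981345) (nat_lit 228) (nat_lit 102556200690) (nat_lit 76) (nat_lit 317761907634) (nat_lit 79) (nat_lit 5) (nat_lit 82) (nat_lit 5) (nat_lit 80) (nat_lit 5) (nat_lit 517) (nat_lit 476) (nat_lit 207)))))) (XT.nd (nat_lit 624) (nat_lit 760) (nat_lit 0) (XT.nd (nat_lit 312) (nat_lit 304) (nat_lit 0) (XT.nd (nat_lit 156) (nat_lit 228) (nat_lit 0) (XT.nd (nat_lit 78) (nat_lit 152) (nat_lit 0) (XT.lf (nat_lit 0) (nat_lit 224097562202) (nat_lit 152) (nat_lit 14408602230) (nat_lit 228) (nat_lit 302004200163) (nat_lit 77) (nat_lit 5) (nat_lit 79) (nat_lit 5) (nat_lit 80) (nat_lit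 5) (nat_lit 518) (nat_lit 476) (nat_lit 206)) (XT.lf (nat_lit 0) (nat_lit 10212066854) (nat_lit 152) (nat_lit 374755672313) (nat_lit 228) (nat_lit 172688729979) (nat_lit 75) (nat_lit 5) (nat_lit 77) (nat_lit 5) (nat_lit 78) (nat_lit 5) (nat_lit 519) (nat_lit 476) (nat_lit 205))) (XT.nd (nat_lit 78) (nat_lit 228) (nat_lit 0) (XT.lf (nat_lit 0) (nat_lit 363909238911) (nat_lit 152) (nat_lit 180434118225) (nat_lit 228) (nat_lit 31036973565) (nat_lit 75) (nat_lit 5) (nat_lit 77) (nat_lit 5) (nat_lit 78) (nat_lit 5) (nat_lit 520) (nat_lit 476) (nat_lit 204)) (XT.lf (nat_lit 0) (nat_lit 116615208261) (nat_lit 228) (nat_lit 450147031239) (nat_lit 76) (nat_lit 27002022121) (nat_lit 72) (nat_lit 5) (nat_lit 75) (nat_lit 5) (nat_lit 73) (nat_lit 5) (nat_lit 521) (nat_lit 476) (nat_lit 203)))) (XT.nd (nat_lit 156) (nat_lit 152) (nat_lit 0) (XT.nd (nat_lit 78) (nat_lit 152) (nat_lit 0) (XT.lf (nat_lit 0)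 (nat_lit 277204931169) (nat_lit 228) (nat_lit 92612064073) (nat_lit 76) (nat_lit 242895054815) (nat_lit 72) (nat_lit 5) (nat_lit 75) (nat_lit 5) (nat_lit 73) (nat_lit 5) (nat_lit 522) (nat_lit 476) (nat_lit 202)) (XT.lf (nat_lit 0) (nat_lit 292150225478) (nat_lit 152) (nat_lit 158235165456) (nat_lit 228) (nat_lit 181993774445) (nat_lit 70) (nat_lit 5) (nat_lit 72) (nat_lit 5) (nat_lit 73) (nat_lit 5) (nat_lit 523) (nat_lit 476) (nat_lit 201))) (XT.nd (nat_lit 78) (nat_lit 76) (nat_lit 0) (XT.lf (nat_lit 0) (nat_lit 46891693129) (nat_lit 76) (nat_lit 588657460838) (nat_lit 152) (nat_lit 17314268489) (nat_lit 69) (nat_lit 5) (nat_lit 70) (nat_lit 5) (nat_lit 71) (nat_lit 4) (nat_lit 524) (nat_lit 476) (nat_lit 200)) (XT.lf (nat_lit 0) (nat_lit 159069452500) (nat_lit 152) (nat_lit 214021332055) (nat_lit 76) (nat_lit 300737121530) (nat_lit 68) (nat_lit 5) (nat_lit 70) (nat_lit 5) (nat_lit 69) (nat_lit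 5) (nat_lit 525) (nat_lit 476) (nat_lit 199))))) (XT.nd (nat_lit 312) (nat_lit 304) (nat_lit 0) (XT.nd (nat_lit 156) (nat_lit 304) (nat_lit 0) (XT.nd (nat_lit 78) (nat_lit 0) (nat_lit 0) (XT.lf (nat_lit 0) (nat_lit 203764423307) (nat_lit 152) (nat_lit 143107365915) (nat_lit 228) (nat_lit 348795567520) (nat_lit 66) (nat_lit 5) (nat_lit 68) (nat_lit 5) (nat_lit 69) (nat_lit 5) (nat_lit 526) (nat_lit 476) (nat_lit 198)) (XT.lf (nat_lit 0) (nat_lit 549284098661) (nat_lit 228) (nat_lit 70143135888) (nat_lit 76) (nat_lit 98910552590) (nat_lit 66) (nat_lit 5) (nat_lit 69) (nat_lit 5) (nat_lit 67) (nat_lit 4) (nat_lit 527) (nat_lit 476) (nat_lit 197))) (XT.nd (nat_lit 78) (nat_lit 152) (nat_lit 0) (XT.lf (nat_lit 0) (nat_lit 27501456558) (nat_lit 152) (nat_lit 359565031745) (nat_lit 76) (nat_lit 354637096236) (nat_lit 64) (nat_lit 5) (nat_lit 66) (nat_lit 5) (nat_lit 65) (nat_lit 5) (nat_lit 528) (nat_lit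 476) (nat_lit 196)) (XT.lf (nat_lit 0) (nat_lit 93492712516) (nat_lit 152) (nat_lit 137377369725) (nat_lit 228) (nat_lit 535095669179) (nat_lit 62) (nat_lit 5) (nat_lit 64) (nat_lit 5) (nat_lit 65) (nat_lit 5) (nat_lit 529) (nat_lit 476) (nat_lit 195)))) (XT.nd (nat_lit 156) (nat_lit 228) (nat_lit 0) (XT.nd (nat_lit 78) (nat_lit 76) (nat_lit 0) (XT.lf (nat_lit 0) (nat_lit 452544762840) (nat_lit 228) (nat_lit 211498224451) (nat_lit 76) (nat_lit 126991158175) (nat_lit 62) (nat_lit 5) (nat_lit 65) (nat_lit 5) (nat_lit 63) (nat_lit 4) (nat_lit 530) (nat_lit 476) (nat_lit 194)) (XT.lf (nat_lit 0) (nat_lit 279209644237) (nat_lit 76) (nat_lit 412704838652) (nat_lit 152) (nat_lit 125110911053) (nat_lit 61) (nat_lit 5) (nat_lit 62) (nat_lit 5) (nat_lit 63) (nat_lit 4) (nat_lit 531) (nat_lit 476) (nat_lit 193))) (XT.nd (nat_lit 78) (nat_lit 152) (nat_lit 0) (XT.lf (nat_lit 0) (nat_lit 99410414395) (nat_lit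 152) (nat_lit 43944911560) (nat_lit 76) (nat_lit 700701619316) (nat_lit 60) (nat_lit 5) (nat_lit 62) (nat_lit 5) (nat_lit 61) (nat_lit 5) (nat_lit 532) (nat_lit 476) (nat_lit 192)) (XT.lf (nat_lit 0) (nat_lit 340911266146) (nat_lit 228) (nat_lit 386098716247) (nat_lit 76) (nat_lit 144829641497) (nat_lit 58) (nat_lit 5) (nat_lit 61) (nat_lit 5) (nat_lit 59) (nat_lit 4) (nat_lit 533) (nat_lit 476) (nat_lit 191))))))))
noncomputable def xc229 : XT := (XT.nd (nat_lit 59826) (nat_lit 0) (nat_lit 912) (XT.nd (nat_lit 58578) (nat_lit 0) (nat_lit 4788) (XT.nd (nat_lit 546) (nat_lit 76) (nat_lit 0) (XT.nd (nat_lit 234) (nat_lit 228) (nat_lit 0) (XT.nd (nat_lit 78) (nat_lit 228) (nat_lit 0) (XT.lf (nat_lit 0) (nat_lit 144732467327) (nat_lit 76) (nat_lit 455120862627) (nat_lit 152) (nat_lit 300889798012) (nat_lit 57) (nat_lit 5) (nat_lit 58) (nat_lit 5) (nat_lit 59) (nat_lit 4) (nat_lit 534) (nat_lit 476)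 (nat_lit 190)) (XT.nd (nat_lit 78) (nat_lit 228) (nat_lit 0) (XT.lf (nat_lit 0) (nat_lit 715509637849) (nat_lit 76) (nat_lit 162771602108) (nat_lit 152) (nat_lit 52483630140) (nat_lit 57) (nat_lit 5) (nat_lit 58) (nat_lit 5) (nat_lit 59) (nat_lit 4) (nat_lit 535) (nat_lit 476) (nat_lit 189)) (XT.lf (nat_lit 0) (nat_lit 209705148961) (nat_lit 228) (nat_lit 603406298825) (nat_lit 76) (nat_lit 148612082012) (nat_lit 54) (nat_lit 5) (nat_lit 57) (nat_lit 5) (nat_lit 55) (nat_lit 4) (nat_lit 536) (nat_lit 476) (nat_lit 188)))) (XT.nd (nat_lit 156) (nat_lit 152) (nat_lit 0) (XT.nd (nat_lit 78) (nat_lit 76) (nat_lit 0) (XT.lf (nat_lit 0) (nat_lit 489613148197) (nat_lit 228) (nat_lit 29594939249) (nat_lit 76) (nat_lit 474660336904) (nat_lit 54) (nat_lit 5) (nat_lit 57) (nat_lit 5) (nat_lit 55) (nat_lit 4) (nat_lit 537) (nat_lit 476) (nat_lit 187)) (XT.lf (nat_lit 0) (nat_lit 591849834910) (nat_lit 76)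 (nat_lit 200907123613) (nat_lit 152) (nat_lit 234401584551) (nat_lit 53) (nat_lit 5) (nat_lit 54) (nat_lit 5) (nat_lit 55) (nat_lit 4) (nat_lit 538) (nat_lit 476) (nat_lit 186))) (XT.nd (nat_lit 78) (nat_lit 0) (nat_lit 0) (XT.lf (nat_lit 0) (nat_lit 52982210915) (nat_lit 152) (nat_lit 875483577441) (nat_lit 76) (nat_lit 133328973196) (nat_lit 51) (nat_lit 5) (nat_lit 53) (nat_lit 5) (nat_lit 52) (nat_lit 4) (nat_lit 539) (nat_lit 476) (nat_lit 185)) (XT.lf (nat_lit 0) (nat_lit 357644320721) (nat_lit 152) (nat_lit 250926284309) (nat_lit 76) (nat_lit 488860725736) (nat_lit 51) (nat_lit 5) (nat_lit 53) (nat_lit 5) (nat_lit 52) (nat_lit 4) (nat_lit 540) (nat_lit 476) (nat_lit 184))))) (XT.nd (nat_lit 57720) (nat_lit 0) (nat_lit 7448) (XT.nd (nat_lit 57564) (nat_lit 0) (nat_lit 7372) (XT.nd (nat_lit 57486) (nat_lit 0) (nat_lit 7372) (XT.lf (nat_lit 0) (nat_lit 418245292491) (nat_lit 76) (nat_lit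 265824202496) (nat_lit 152) (nat_lit 450453735505) (nat_lit 50) (nat_lit 5) (nat_lit 51) (nat_lit 5) (nat_lit 52) (nat_lit 4) (nat_lit 541) (nat_lit 476) (nat_lit 183)) (XT.lf (nat_lit 0) (nat_lit 36132589023) (nat_lit 836) (nat_lit 25390644141) (nat_lit 836) (nat_lit 25390644141) (nat_lit 147) (nat_lit 3) (nat_lit 158) (nat_lit 3) (nat_lit 158) (nat_lit 5) (nat_lit 477) (nat_lit 477) (nat_lit 246))) (XT.nd (nat_lit 78) (nat_lit 0) (nat_lit 76) (XT.lf (nat_lit 76) (nat_lit 36599964064) (nat_lit 0) (nat_lit 38045398870) (nat_lit 836) (nat_lit 103499407441) (nat_lit 148) (nat_lit 5) (nat_lit 147) (nat_lit 3) (nat_lit 158) (nat_lit 5) (nat_lit 478) (nat_lit 477) (nat_lit 245)) (XT.lf (nat_lit 0) (nat_lit 78817989690) (nat_lit 760) (nat_lit 53334990979) (nat_lit 836) (nat_lit 50440984648) (nat_lit 148) (nat_lit 5) (nat_lit 158) (nat_lit 5) (nat_lit 159) (nat_lit 5) (nat_lit 479) (nat_lit 477) (nat_lit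 244)))) (XT.nd (nat_lit 156) (nat_lit 0) (nat_lit 76) (XT.nd (nat_lit 78) (nat_lit 0) (nat_lit 76) (XT.lf (nat_lit 76) (nat_lit 39939867384) (nat_lit 0) (nat_lit 44506518871) (nat_lit 836) (nat_lit 102756876848) (nat_lit 149) (nat_lit 5) (nat_lit 148) (nat_lit 5) (nat_lit 159) (nat_lit 5) (nat_lit 480) (nat_lit 477) (nat_lit 243)) (XT.lf (nat_lit 0) (nat_lit 92016095613) (nat_lit 760) (nat_lit 53024570776) (nat_lit 836) (nat_lit 46919364761) (nat_lit 149) (nat_lit 5) (nat_lit 159) (nat_lit 5) (nat_lit 160) (nat_lit 5) (nat_lit 481) (nat_lit 477) (nat_lit 242))) (XT.nd (nat_lit 78) (nat_lit 0) (nat_lit 76) (XT.lf (nat_lit 76) (nat_lit 46690901143) (nat_lit 0) (nat_lit 54731861976) (nat_lit 836) (nat_lit 95458950864) (nat_lit 150) (nat_lit 5) (nat_lit 149) (nat_lit 5) (nat_lit 160) (nat_lit 5) (nat_lit 482) (nat_lit 477) (nat_lit 241)) (XT.lf (nat_lit 0) (nat_lit 112838323232) (nat_lit 760) (nat_lit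 49412301418) (nat_lit 836) (nat_lit 39721928363) (nat_lit 150) (nat_lit 5) (nat_lit 160) (nat_lit 5) (nat_lit 161) (nat_lit 5) (nat_lit 483) (nat_lit 477) (nat_lit 240)))))) (XT.nd (nat_lit 624) (nat_lit 1368) (nat_lit 0) (XT.nd (nat_lit 312) (nat_lit 1444) (nat_lit 0) (XT.nd (nat_lit 156) (nat_lit 0) (nat_lit 76) (XT.nd (nat_lit 78) (nat_lit 0) (nat_lit 76) (XT.lf (nat_lit 76) (nat_lit 57343150278) (nat_lit 0) (nat_lit 69273934141) (nat_lit 836) (nat_lit 80611228439) (nat_lit 151) (nat_lit 5) (nat_lit 150) (nat_lit 5) (nat_lit 161) (nat_lit 5) (nat_lit 484) (nat_lit 477) (nat_lit 239)) (XT.lf (nat_lit 0) (nat_lit 142377867504) (nat_lit 760) (nat_lit 42009612595) (nat_lit 836) (nat_lit 28294726420) (nat_lit 151) (nat_lit 5) (nat_lit 161) (nat_lit 5) (nat_lit 162) (nat_lit 5) (nat_lit 485) (nat_lit 477) (nat_lit 238))) (XT.nd (nat_lit 78) (nat_lit 0) (nat_lit 76) (XT.lf (nat_lit 76) (nat_lit 72442611775)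 (nat_lit 0) (nat_lit 88750649787) (nat_lit 836) (nat_lit 57102204724) (nat_lit 152) (nat_lit 5) (nat_lit 151) (nat_lit 5) (nat_lit 162) (nat_lit 5) (nat_lit 486) (nat_lit 477) (nat_lit 237)) (XT.lf (nat_lit 0) (nat_lit 181854617195) (nat_lit 760) (nat_lit 30271808375) (nat_lit 76) (nat_lit 12017703894) (nat_lit 152) (nat_lit 5) (nat_lit 162) (nat_lit 5) (nat_lit 153) (nat_lit 5) (nat_lit 487) (nat_lit 477) (nat_lit 236)))) (XT.nd (nat_lit 156) (nat_lit 836) (nat_lit 0) (XT.nd (nat_lit 78) (nat_lit 0) (nat_lit 0) (XT.lf (nat_lit 0) (nat_lit 92596961917) (nat_lit 760) (nat_lit 113852615039) (nat_lit 836) (nat_lit 23690622039) (nat_lit 142) (nat_lit 5) (nat_lit 152) (nat_lit 5) (nat_lit 153) (nat_lit 5) (nat_lit 488) (nat_lit 477) (nat_lit 235)) (XT.lf (nat_lit 0) (nat_lit 222660060329) (nat_lit 760) (nat_lit 10126804754) (nat_lit 836) (nat_lit 3623577914) (nat_lit 142) (nat_lit 5) (nat_lit 152)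 (nat_lit 5) (nat_lit 153) (nat_lit 5) (nat_lit 489) (nat_lit 477) (nat_lit 234))) (XT.nd (nat_lit 78) (nat_lit 380) (nat_lit 0) (XT.lf (nat_lit 0) (nat_lit 20336085338) (nat_lit 456) (nat_lit 124670717796) (nat_lit 76) (nat_lit 97801392690) (nat_lit 136) (nat_lit 5) (nat_lit 142) (nat_lit 5) (nat_lit 137) (nat_lit 5) (nat_lit 490) (nat_lit 477) (nat_lit 233)) (XT.lf (nat_lit 0) (nat_lit 7596749801) (nat_lit 380) (nat_lit 38296430971) (nat_lit 456) (nat_lit 203603624133) (nat_lit 131) (nat_lit 5) (nat_lit 136) (nat_lit 5) (nat_lit 137) (nat_lit 5) (nat_lit 491) (nat_lit 477) (nat_lit 232))))) (XT.nd (nat_lit 312) (nat_lit 684) (nat_lit 0) (XT.nd (nat_lit 156) (nat_lit 304) (nat_lit 0) (XT.nd (nat_lit 78) (nat_lit 380) (nat_lit 0) (XT.lf (nat_lit 0) (nat_lit 76025459065) (nat_lit 456) (nat_lit 106794531911) (nat_lit 76) (nat_lit 73534987070) (nat_lit 131) (nat_lit 5) (nat_lit 137) (nat_lit 5) (nat_lit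 132) (nat_lit 5) (nat_lit 492) (nat_lit 477) (nat_lit 231)) (XT.lf (nat_lit 0) (nat_lit 35577065558) (nat_lit 380) (nat_lit 73270478485) (nat_lit 456) (nat_lit 154649356173) (nat_lit 126) (nat_lit 5) (nat_lit 131) (nat_lit 5) (nat_lit 132) (nat_lit 5) (nat_lit 493) (nat_lit 477) (nat_lit 230))) (XT.nd (nat_lit 78) (nat_lit 304) (nat_lit 0) (XT.lf (nat_lit 0) (nat_lit 145800862940) (nat_lit 456) (nat_lit 82812247440) (nat_lit 76) (nat_lit 42258301641) (nat_lit 126) (nat_lit 5) (nat_lit 132) (nat_lit 5) (nat_lit 127) (nat_lit 5) (nat_lit 494) (nat_lit 477) (nat_lit 229)) (XT.lf (nat_lit 0) (nat_lit 70609428231) (nat_lit 304) (nat_lit 116295916468) (nat_lit 380) (nat_lit 91594129881) (nat_lit 122) (nat_lit 5) (nat_lit 126) (nat_lit 5) (nat_lit 127) (nat_lit 5) (nat_lit 495) (nat_lit 477) (nat_lit 228)))) (XT.nd (nat_lit 156) (nat_lit 380) (nat_lit 0) (XT.nd (nat_lit 78) (nat_lit 304) (nat_lit 0)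 (XT.lf (nat_lit 0) (nat_lit 231516000000) (nat_lit 380) (nat_lit 51910206768) (nat_lit 76) (nat_lit 3010186035) (nat_lit 122) (nat_lit 5) (nat_lit 127) (nat_lit 5) (nat_lit 123) (nat_lit 5) (nat_lit 496) (nat_lit 477) (nat_lit 227)) (XT.lf (nat_lit 0) (nat_lit 113597900256) (nat_lit 304) (nat_lit 168439295478) (nat_lit 380) (nat_lit 12548960827) (nat_lit 118) (nat_lit 5) (nat_lit 122) (nat_lit 5) (nat_lit 123) (nat_lit 5) (nat_lit 497) (nat_lit 477) (nat_lit 226))) (XT.nd (nat_lit 78) (nat_lit 304) (nat_lit 0) (XT.lf (nat_lit 0) (nat_lit 31812202762) (nat_lit 380) (nat_lit 14429012778) (nat_lit 76) (nat_lit 256832584873) (nat_lit 117) (nat_lit 5) (nat_lit 122) (nat_lit 5) (nat_lit 118) (nat_lit 5) (nat_lit 498) (nat_lit 477) (nat_lit 225)) (XT.lf (nat_lit 0) (nat_lit 81881389712) (nat_lit 380) (nat_lit 147622277820) (nat_lit 76) (nat_lit 82276288271) (nat_lit 113) (nat_lit 5) (nat_lit 118) (nat_lit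 5) (nat_lit 114) (nat_lit 5) (nat_lit 499) (nat_lit 477) (nat_lit 224))))))) (XT.nd (nat_lit 1170) (nat_lit 1672) (nat_lit 0) (XT.nd (nat_lit 546) (nat_lit 1140) (nat_lit 0) (XT.nd (nat_lit 234) (nat_lit 532) (nat_lit 0) (XT.nd (nat_lit 78) (nat_lit 228) (nat_lit 0) (XT.lf (nat_lit 0) (nat_lit 31511888672) (nat_lit 304) (nat_lit 104440498271) (nat_lit 380) (nat_lit 184894114479) (nat_lit 109) (nat_lit 5) (nat_lit 113) (nat_lit 5) (nat_lit 114) (nat_lit 5) (nat_lit 500) (nat_lit 477) (nat_lit 223)) (XT.nd (nat_lit 78) (nat_lit 228) (nat_lit 0) (XT.lf (nat_lit 0) (nat_lit 195687522729) (nat_lit 380) (nat_lit 105974163960) (nat_lit 76) (nat_lit 28556658206) (nat_lit 109) (nat_lit 5) (nat_lit 114) (nat_lit 5) (nat_lit 110) (nat_lit 5) (nat_lit 501) (nat_lit 477) (nat_lit 222)) (XT.lf (nat_lit 0) (nat_lit 87647357933) (nat_lit 228) (nat_lit 173842562781) (nat_lit 304) (nat_lit 78414834563) (nat_lit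 106) (nat_lit 5) (nat_lit 109) (nat_lit 5) (nat_lit 110) (nat_lit 5) (nat_lit 502) (nat_lit 477) (nat_lit 221)))) (XT.nd (nat_lit 156) (nat_lit 228) (nat_lit 0) (XT.nd (nat_lit 78) (nat_lit 304) (nat_lit 0) (XT.lf (nat_lit 0) (nat_lit 294629067930) (nat_lit 228) (nat_lit 37748041110) (nat_lit 304) (nat_lit 17608643622) (nat_lit 106) (nat_lit 5) (nat_lit 109) (nat_lit 5) (nat_lit 110) (nat_lit 5) (nat_lit 503) (nat_lit 477) (nat_lit 220)) (XT.lf (nat_lit 0) (nat_lit 48881396597) (nat_lit 304) (nat_lit 206457753325) (nat_lit 76) (nat_lit 104989382879) (nat_lit 102) (nat_lit 5) (nat_lit 106) (nat_lit 5) (nat_lit 103) (nat_lit 5) (nat_lit 504) (nat_lit 477) (nat_lit 219))) (XT.nd (nat_lit 78) (nat_lit 0) (nat_lit 0) (XT.lf (nat_lit 0) (nat_lit 3529952766) (nat_lit 228) (nat_lit 116200963426) (nat_lit 304) (nat_lit 251361765281) (nat_lit 99) (nat_lit 5) (nat_lit 102) (nat_lit 5) (nat_lit 103) (nat_lit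 5) (nat_lit 505) (nat_lit 477) (nat_lit 218)) (XT.lf (nat_lit 0) (nat_lit 198143374431) (nat_lit 304) (nat_lit 151559545611) (nat_lit 76) (nat_lit 32491094408) (nat_lit 99) (nat_lit 5) (nat_lit 103) (nat_lit 5) (nat_lit 100) (nat_lit 5) (nat_lit 506) (nat_lit 477) (nat_lit 217))))) (XT.nd (nat_lit 312) (nat_lit 684) (nat_lit 0) (XT.nd (nat_lit 156) (nat_lit 228) (nat_lit 0) (XT.nd (nat_lit 78) (nat_lit 0) (nat_lit 0) (XT.lf (nat_lit 0) (nat_lit 75763705927) (nat_lit 228) (nat_lit 207800520095) (nat_lit 304) (nat_lit 110131799537) (nat_lit 96) (nat_lit 5) (nat_lit 99) (nat_lit 5) (nat_lit 100) (nat_lit 5) (nat_lit 507) (nat_lit 477) (nat_lit 216)) (XT.lf (nat_lit 0) (nat_lit 319714857715) (nat_lit 228) (nat_lit 56107950748) (nat_lit 304) (nat_lit 29821994352) (nat_lit 96) (nat_lit 5) (nat_lit 99) (nat_lit 5) (nat_lit 100) (nat_lit 5) (nat_lit 508) (nat_lit 477) (nat_lit 215))) (XT.nd (nat_lit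 78) (nat_lit 0) (nat_lit 0) (XT.lf (nat_lit 0) (nat_lit 56954366113) (nat_lit 228) (nat_lit 257681419481) (nat_lit 76) (nat_lit 103302910327) (nat_lit 93) (nat_lit 5) (nat_lit 96) (nat_lit 5) (nat_lit 94) (nat_lit 5) (nat_lit 509) (nat_lit 477) (nat_lit 214)) (XT.lf (nat_lit 0) (nat_lit 149466210786) (nat_lit 228) (nat_lit 10469978698) (nat_lit 76) (nat_lit 270766705908) (nat_lit 93) (nat_lit 5) (nat_lit 96) (nat_lit 5) (nat_lit 94) (nat_lit 5) (nat_lit 510) (nat_lit 477) (nat_lit 213)))) (XT.nd (nat_lit 156) (nat_lit 304) (nat_lit 0) (XT.nd (nat_lit 78) (nat_lit 152) (nat_lit 0) (XT.lf (nat_lit 0) (nat_lit 250726251387) (nat_lit 304) (nat_lit 186670882993) (nat_lit 76) (nat_lit 6502040276) (nat_lit 90) (nat_lit 5) (nat_lit 94) (nat_lit 5) (nat_lit 91) (nat_lit 5) (nat_lit 511) (nat_lit 477) (nat_lit 212)) (XT.lf (nat_lit 0) (nat_lit 80892765467) (nat_lit 152) (nat_lit 280221576036) (nat_lit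 228) (nat_lit 96437674009) (nat_lit 88) (nat_lit 5) (nat_lit 90) (nat_lit 5) (nat_lit 91) (nat_lit 5) (nat_lit 512) (nat_lit 477) (nat_lit 211))) (XT.nd (nat_lit 78) (nat_lit 228) (nat_lit 0) (XT.lf (nat_lit 0) (nat_lit 8183153505) (nat_lit 228) (nat_lit 103546093812) (nat_lit 76) (nat_lit 359993585693) (nat_lit 87) (nat_lit 5) (nat_lit 90) (nat_lit 5) (nat_lit 88) (nat_lit 5) (nat_lit 513) (nat_lit 477) (nat_lit 210)) (XT.lf (nat_lit 0) (nat_lit 118815457885) (nat_lit 304) (nat_lit 299820759381) (nat_lit 76) (nat_lit 67685858161) (nat_lit 84) (nat_lit 5) (nat_lit 88) (nat_lit 5) (nat_lit 85) (nat_lit 5) (nat_lit 514) (nat_lit 477) (nat_lit 209)))))) (XT.nd (nat_lit 624) (nat_lit 760) (nat_lit 0) (XT.nd (nat_lit 312) (nat_lit 532) (nat_lit 0) (XT.nd (nat_lit 156) (nat_lit 228) (nat_lit 0) (XT.nd (nat_lit 78) (nat_lit 152) (nat_lit 0) (XT.lf (nat_lit 0) (nat_lit 238593317105) (nat_lit 304) (nat_lit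 8778053308) (nat_lit 76) (nat_lit 254099212574) (nat_lit 84) (nat_lit 5) (nat_lit 88) (nat_lit 5) (nat_lit 85) (nat_lit 5) (nat_lit 515) (nat_lit 477) (nat_lit 208)) (XT.lf (nat_lit 0) (nat_lit 306630830674) (nat_lit 152) (nat_lit 62516568849) (nat_lit 228) (nat_lit 147989749893) (nat_lit 82) (nat_lit 5) (nat_lit 84) (nat_lit 5) (nat_lit 85) (nat_lit 5) (nat_lit 516) (nat_lit 477) (nat_lit 207))) (XT.nd (nat_lit 78) (nat_lit 76) (nat_lit 0) (XT.lf (nat_lit 0) (nat_lit 105866858326) (nat_lit 152) (nat_lit 404220615580) (nat_lit 228) (nat_lit 23306655869) (nat_lit 80) (nat_lit 5) (nat_lit 82) (nat_lit 5) (nat_lit 83) (nat_lit 5) (nat_lit 517) (nat_lit 477) (nat_lit 206)) (XT.lf (nat_lit 0) (nat_lit 108814677380) (nat_lit 228) (nat_lit 107682176933) (nat_lit 76) (nat_lit 333650684919) (nat_lit 79) (nat_lit 5) (nat_lit 82) (nat_lit 5) (nat_lit 80) (nat_lit 5) (nat_lit 518) (nat_lit 477) (nat_lit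 205)))) (XT.nd (nat_lit 156) (nat_lit 228) (nat_lit 0) (XT.nd (nat_lit 78) (nat_lit 152) (nat_lit 0) (XT.lf (nat_lit 0) (nat_lit 235304244526) (nat_lit 152) (nat_lit 15128301028) (nat_lit 228) (nat_lit 317103283558) (nat_lit 77) (nat_lit 5) (nat_lit 79) (nat_lit 5) (nat_lit 80) (nat_lit 5) (nat_lit 519) (nat_lit 477) (nat_lit 204)) (XT.lf (nat_lit 0) (nat_lit 10724486925) (nat_lit 152) (nat_lit 393492700248) (nat_lit 228) (nat_lit 181322052312) (nat_lit 75) (nat_lit 5) (nat_lit 77) (nat_lit 5) (nat_lit 78) (nat_lit 5) (nat_lit 520) (nat_lit 477) (nat_lit 203))) (XT.nd (nat_lit 78) (nat_lit 228) (nat_lit 0) (XT.lf (nat_lit 0) (nat_lit 382106431074) (nat_lit 152) (nat_lit 189455104441) (nat_lit 228) (nat_lit 32587761133) (nat_lit 75) (nat_lit 5) (nat_lit 77) (nat_lit 5) (nat_lit 78) (nat_lit 5) (nat_lit 521) (nat_lit 477) (nat_lit 202)) (XT.lf (nat_lit 0) (nat_lit 122446985415) (nat_lit 228) (nat_lit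 472652608099) (nat_lit 76) (nat_lit 28352830294) (nat_lit 72) (nat_lit 5) (nat_lit 75) (nat_lit 5) (nat_lit 73) (nat_lit 5) (nat_lit 522) (nat_lit 477) (nat_lit 201))))) (XT.nd (nat_lit 312) (nat_lit 456) (nat_lit 0) (XT.nd (nat_lit 156) (nat_lit 152) (nat_lit 0) (XT.nd (nat_lit 78) (nat_lit 152) (nat_lit 0) (XT.lf (nat_lit 0) (nat_lit 291066146052) (nat_lit 228) (nat_lit 97240977084) (nat_lit 76) (nat_lit 255040480953) (nat_lit 72) (nat_lit 5) (nat_lit 75) (nat_lit 5) (nat_lit 73) (nat_lit 5) (nat_lit 523) (nat_lit 477) (nat_lit 200)) (XT.lf (nat_lit 0) (nat_lit 306759399683) (nat_lit 152) (nat_lit 166146208975) (nat_lit 228) (nat_lit 191092467530) (nat_lit 70) (nat_lit 5) (nat_lit 72) (nat_lit 5) (nat_lit 73) (nat_lit 5) (nat_lit 524) (nat_lit 477) (nat_lit 199))) (XT.nd (nat_lit 78) (nat_lit 76) (nat_lit 0) (XT.lf (nat_lit 0) (nat_lit 49237949610) (nat_lit 76) (nat_lit 618089601811) (nat_lit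 152) (nat_lit 18178995121) (nat_lit 69) (nat_lit 5) (nat_lit 70) (nat_lit 5) (nat_lit 71) (nat_lit 4) (nat_lit 525) (nat_lit 477) (nat_lit 198)) (XT.lf (nat_lit 0) (nat_lit 167023834848) (nat_lit 152) (nat_lit 224720776320) (nat_lit 76) (nat_lit 315774644691) (nat_lit 68) (nat_lit 5) (nat_lit 70) (nat_lit 5) (nat_lit 69) (nat_lit 5) (nat_lit 526) (nat_lit 477) (nat_lit 197)))) (XT.nd (nat_lit 156) (nat_lit 304) (nat_lit 0) (XT.nd (nat_lit 78) (nat_lit 0) (nat_lit 0) (XT.lf (nat_lit 0) (nat_lit 213954240643) (nat_lit 152) (nat_lit 150262029362) (nat_lit 228) (nat_lit 366234409965) (nat_lit 66) (nat_lit 5) (nat_lit 68) (nat_lit 5) (nat_lit 69) (nat_lit 5) (nat_lit 527) (nat_lit 477) (nat_lit 196)) (XT.lf (nat_lit 0) (nat_lit 576749162954) (nat_lit 228) (nat_lit 73648740516) (nat_lit 76) (nat_lit 103856730018) (nat_lit 66) (nat_lit 5) (nat_lit 69) (nat_lit 5) (nat_lit 67) (nat_lit 4) (nat_lit 528)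 (nat_lit 477) (nat_lit 195))) (XT.nd (nat_lit 78) (nat_lit 152) (nat_lit 0) (XT.lf (nat_lit 0) (nat_lit 28877385512) (nat_lit 152) (nat_lit 377541727857) (nat_lit 76) (nat_lit 372369607555) (nat_lit 64) (nat_lit 5) (nat_lit 66) (nat_lit 5) (nat_lit 65) (nat_lit 5) (nat_lit 529) (nat_lit 477) (nat_lit 194)) (XT.lf (nat_lit 0) (nat_lit 98168878529) (nat_lit 152) (nat_lit 144245547076) (nat_lit 228) (nat_lit 561849571390) (nat_lit 62) (nat_lit 5) (nat_lit 64) (nat_lit 5) (nat_lit 65) (nat_lit 5) (nat_lit 530) (nat_lit 477) (nat_lit 193))))))))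
noncomputable def xc230 : XT := (XT.nd (nat_lit 59904) (nat_lit 0) (nat_lit 1140) (XT.nd (nat_lit 58656) (nat_lit 0) (nat_lit 5396) (XT.nd (nat_lit 546) (nat_lit 228) (nat_lit 0) (XT.nd (nat_lit 234) (nat_lit 456) (nat_lit 0) (XT.nd (nat_lit 78) (nat_lit 152) (nat_lit 0) (XT.lf (nat_lit 0) (nat_lit 475172810546) (nat_lit 228) (nat_lit 222071648441) (nat_lit 76) (nat_lit 133341353241) (nat_lit 62) (nat_lit 5) (nat_lit 65) (nat_lit 5) (nat_lit 63) (nat_lit 4) (nat_lit 531) (nat_lit 477) (nat_lit 192)) (XT.nd (nat_lit 78) (nat_lit 76) (nat_lit 0) (XT.lf (nat_lit 0) (nat_lit 293171589694) (nat_lit 76) (nat_lit 433339411198) (nat_lit 152) (nat_lit 131365623023) (nat_lit 61) (nat_lit 5) (nat_lit 62) (nat_lit 5) (nat_lit 63) (nat_lit 4) (nat_lit 532) (nat_lit 477) (nat_lit 191)) (XT.lf (nat_lit 0) (nat_lit 104381703594) (nat_lit 152) (nat_lit 46140738134) (nat_lit 76) (nat_lit 735737312355) (nat_lit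 60) (nat_lit 5) (nat_lit 62) (nat_lit 5) (nat_lit 61) (nat_lit 5) (nat_lit 533) (nat_lit 477) (nat_lit 190)))) (XT.nd (nat_lit 156) (nat_lit 228) (nat_lit 0) (XT.nd (nat_lit 78) (nat_lit 76) (nat_lit 0) (XT.lf (nat_lit 0) (nat_lit 357957593165) (nat_lit 228) (nat_lit 405402228261) (nat_lit 76) (nat_lit 152071745445) (nat_lit 58) (nat_lit 5) (nat_lit 61) (nat_lit 5) (nat_lit 59) (nat_lit 4) (nat_lit 534) (nat_lit 477) (nat_lit 189)) (XT.lf (nat_lit 0) (nat_lit 151970491527) (nat_lit 76) (nat_lit 477876254141) (nat_lit 152) (nat_lit 315933501210) (nat_lit 57) (nat_lit 5) (nat_lit 58) (nat_lit 5) (nat_lit 59) (nat_lit 4) (nat_lit 535) (nat_lit 477) (nat_lit 188))) (XT.nd (nat_lit 78) (nat_lit 228) (nat_lit 0) (XT.lf (nat_lit 0) (nat_lit 751286453868) (nat_lit 76) (nat_lit 170909561625) (nat_lit 152) (nat_lit 55107062406) (nat_lit 57) (nat_lit 5) (nat_lit 58) (nat_lit 5) (nat_lit 59) (nat_lit 4)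 (nat_lit 536) (nat_lit 477) (nat_lit 187)) (XT.lf (nat_lit 0) (nat_lit 220191127747) (nat_lit 228) (nat_lit 633575251692) (nat_lit 76) (nat_lit 156043290759) (nat_lit 54) (nat_lit 5) (nat_lit 57) (nat_lit 5) (nat_lit 55) (nat_lit 4) (nat_lit 537) (nat_lit 477) (nat_lit 186))))) (XT.nd (nat_lit 57798) (nat_lit 0) (nat_lit 7296) (XT.nd (nat_lit 156) (nat_lit 152) (nat_lit 0) (XT.nd (nat_lit 78) (nat_lit 76) (nat_lit 0) (XT.lf (nat_lit 0) (nat_lit 514094492597) (nat_lit 228) (nat_lit 31073388997) (nat_lit 76) (nat_lit 498393929603) (nat_lit 54) (nat_lit 5) (nat_lit 57) (nat_lit 5) (nat_lit 55) (nat_lit 4) (nat_lit 538) (nat_lit 477) (nat_lit 185)) (XT.lf (nat_lit 0) (nat_lit 621443602947) (nat_lit 76) (nat_lit 210951877704) (nat_lit 152) (nat_lit 246120955846) (nat_lit 53) (nat_lit 5) (nat_lit 54) (nat_lit 5) (nat_lit 55) (nat_lit 4) (nat_lit 539) (nat_lit 477) (nat_lit 184))) (XT.nd (nat_lit 78)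 (nat_lit 0) (nat_lit 0) (XT.lf (nat_lit 0) (nat_lit 55632003509) (nat_lit 152) (nat_lit 919256454099) (nat_lit 76) (nat_lit 139996007901) (nat_lit 51) (nat_lit 5) (nat_lit 53) (nat_lit 5) (nat_lit 52) (nat_lit 4) (nat_lit 540) (nat_lit 477) (nat_lit 183)) (XT.lf (nat_lit 0) (nat_lit 375527186326) (nat_lit 152) (nat_lit 263471358321) (nat_lit 76) (nat_lit 513304320162) (nat_lit 51) (nat_lit 5) (nat_lit 53) (nat_lit 5) (nat_lit 52) (nat_lit 4) (nat_lit 541) (nat_lit 477) (nat_lit 182)))) (XT.nd (nat_lit 156) (nat_lit 0) (nat_lit 76) (XT.nd (nat_lit 78) (nat_lit 0) (nat_lit 0) (XT.lf (nat_lit 0) (nat_lit 37941312686) (nat_lit 836) (nat_lit 26659076725) (nat_lit 836) (nat_lit 26659076725) (nat_lit 147) (nat_lit 3) (nat_lit 158) (nat_lit 3) (nat_lit 158) (nat_lit 5) (nat_lit 478) (nat_lit 478) (nat_lit 244)) (XT.lf (nat_lit 76) (nat_lit 38432126043) (nat_lit 0) (nat_lit 39949527797) (nat_lit 836)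 (nat_lit 108670153300) (nat_lit 148) (nat_lit 5) (nat_lit 147) (nat_lit 3) (nat_lit 158) (nat_lit 5) (nat_lit 479) (nat_lit 478) (nat_lit 243))) (XT.nd (nat_lit 78) (nat_lit 0) (nat_lit 0) (XT.lf (nat_lit 0) (nat_lit 82762692731) (nat_lit 760) (nat_lit 55999460001) (nat_lit 836) (nat_lit 52961320086) (nat_lit 148) (nat_lit 5) (nat_lit 158) (nat_lit 5) (nat_lit 159) (nat_lit 5) (nat_lit 480) (nat_lit 478) (nat_lit 242)) (XT.lf (nat_lit 76) (nat_lit 41939104498) (nat_lit 0) (nat_lit 46733258536) (nat_lit 836) (nat_lit 107890879792) (nat_lit 149) (nat_lit 5) (nat_lit 148) (nat_lit 5) (nat_lit 159) (nat_lit 5) (nat_lit 481) (nat_lit 478) (nat_lit 241)))))) (XT.nd (nat_lit 624) (nat_lit 1520) (nat_lit 0) (XT.nd (nat_lit 312) (nat_lit 532) (nat_lit 0) (XT.nd (nat_lit 156) (nat_lit 0) (nat_lit 76) (XT.nd (nat_lit 78) (nat_lit 0) (nat_lit 0) (XT.lf (nat_lit 0) (nat_lit 96620362674) (nat_lit 760) (nat_lit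 55673466696) (nat_lit 836) (nat_lit 49264029691) (nat_lit 149) (nat_lit 5) (nat_lit 159) (nat_lit 5) (nat_lit 160) (nat_lit 5) (nat_lit 482) (nat_lit 478) (nat_lit 240)) (XT.lf (nat_lit 76) (nat_lit 49027741196) (nat_lit 0) (nat_lit 57469493319) (nat_lit 836) (nat_lit 100228397997) (nat_lit 150) (nat_lit 5) (nat_lit 149) (nat_lit 5) (nat_lit 160) (nat_lit 5) (nat_lit 483) (nat_lit 478) (nat_lit 239))) (XT.nd (nat_lit 78) (nat_lit 0) (nat_lit 0) (XT.lf (nat_lit 0) (nat_lit 118483398471) (nat_lit 760) (nat_lit 51880556131) (nat_lit 836) (nat_lit 41707067625) (nat_lit 150) (nat_lit 5) (nat_lit 160) (nat_lit 5) (nat_lit 161) (nat_lit 5) (nat_lit 484) (nat_lit 478) (nat_lit 238)) (XT.lf (nat_lit 76) (nat_lit 60212630080) (nat_lit 0) (nat_lit 72738353463) (nat_lit 836) (nat_lit 84638592253) (nat_lit 151) (nat_lit 5) (nat_lit 150) (nat_lit 5) (nat_lit 161) (nat_lit 5) (nat_lit 485) (nat_lit 478) (nat_lit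 237)))) (XT.nd (nat_lit 156) (nat_lit 684) (nat_lit 0) (XT.nd (nat_lit 78) (nat_lit 0) (nat_lit 0) (XT.lf (nat_lit 0) (nat_lit 149499650041) (nat_lit 760) (nat_lit 44107725344) (nat_lit 836) (nat_lit 29708796563) (nat_lit 151) (nat_lit 5) (nat_lit 161) (nat_lit 5) (nat_lit 162) (nat_lit 5) (nat_lit 486) (nat_lit 478) (nat_lit 236)) (XT.lf (nat_lit 76) (nat_lit 76067072054) (nat_lit 0) (nat_lit 93188640543) (nat_lit 836) (nat_lit 59954387190) (nat_lit 152) (nat_lit 5) (nat_lit 151) (nat_lit 5) (nat_lit 162) (nat_lit 5) (nat_lit 487) (nat_lit 478) (nat_lit 235))) (XT.nd (nat_lit 78) (nat_lit 760) (nat_lit 0) (XT.lf (nat_lit 0) (nat_lit 190949996436) (nat_lit 760) (nat_lit 31783040070) (nat_lit 76) (nat_lit 12618166613) (nat_lit 152) (nat_lit 5) (nat_lit 162) (nat_lit 5) (nat_lit 153) (nat_lit 5) (nat_lit 488) (nat_lit 478) (nat_lit 234)) (XT.lf (nat_lit 0) (nat_lit 97229130693) (nat_lit 760) (nat_lit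 119545483613) (nat_lit 836) (nat_lit 24872466336) (nat_lit 142) (nat_lit 5) (nat_lit 152) (nat_lit 5) (nat_lit 153) (nat_lit 5) (nat_lit 489) (nat_lit 478) (nat_lit 233))))) (XT.nd (nat_lit 312) (nat_lit 684) (nat_lit 0) (XT.nd (nat_lit 156) (nat_lit 380) (nat_lit 0) (XT.nd (nat_lit 78) (nat_lit 456) (nat_lit 0) (XT.lf (nat_lit 0) (nat_lit 233795273517) (nat_lit 760) (nat_lit 10633371489) (nat_lit 836) (nat_lit 3802197949) (nat_lit 142) (nat_lit 5) (nat_lit 152) (nat_lit 5) (nat_lit 153) (nat_lit 5) (nat_lit 490) (nat_lit 478) (nat_lit 232)) (XT.lf (nat_lit 0) (nat_lit 21355281663) (nat_lit 456) (nat_lit 130901876041) (nat_lit 76) (nat_lit 102691327981) (nat_lit 136) (nat_lit 5) (nat_lit 142) (nat_lit 5) (nat_lit 137) (nat_lit 5) (nat_lit 491) (nat_lit 478) (nat_lit 231))) (XT.nd (nat_lit 78) (nat_lit 0) (nat_lit 0) (XT.lf (nat_lit 0) (nat_lit 7978926587) (nat_lit 380) (nat_lit 40211227897) (nat_lit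 456) (nat_lit 213781374620) (nat_lit 131) (nat_lit 5) (nat_lit 136) (nat_lit 5) (nat_lit 137) (nat_lit 5) (nat_lit 492) (nat_lit 478) (nat_lit 230)) (XT.lf (nat_lit 0) (nat_lit 79828936836) (nat_lit 456) (nat_lit 112131920452) (nat_lit 76) (nat_lit 77211759123) (nat_lit 131) (nat_lit 5) (nat_lit 137) (nat_lit 5) (nat_lit 132) (nat_lit 5) (nat_lit 493) (nat_lit 478) (nat_lit 229)))) (XT.nd (nat_lit 156) (nat_lit 304) (nat_lit 0) (XT.nd (nat_lit 78) (nat_lit 0) (nat_lit 0) (XT.lf (nat_lit 0) (nat_lit 37358219179) (nat_lit 380) (nat_lit 76933837806) (nat_lit 456) (nat_lit 162379581172) (nat_lit 126) (nat_lit 5) (nat_lit 131) (nat_lit 5) (nat_lit 132) (nat_lit 5) (nat_lit 494) (nat_lit 478) (nat_lit 228)) (XT.lf (nat_lit 0) (nat_lit 153092942573) (nat_lit 456) (nat_lit 86950569485) (nat_lit 76) (nat_lit 44371368470) (nat_lit 126) (nat_lit 5) (nat_lit 132) (nat_lit 5) (nat_lit 127) (nat_lit 5) (nat_lit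 495) (nat_lit 478) (nat_lit 227))) (XT.nd (nat_lit 78) (nat_lit 0) (nat_lit 0) (XT.lf (nat_lit 0) (nat_lit 74142153028) (nat_lit 304) (nat_lit 122110433598) (nat_lit 380) (nat_lit 96171762691) (nat_lit 122) (nat_lit 5) (nat_lit 126) (nat_lit 5) (nat_lit 127) (nat_lit 5) (nat_lit 496) (nat_lit 478) (nat_lit 226)) (XT.lf (nat_lit 0) (nat_lit 243093684803) (nat_lit 380) (nat_lit 54503480891) (nat_lit 76) (nat_lit 3160952264) (nat_lit 122) (nat_lit 5) (nat_lit 127) (nat_lit 5) (nat_lit 123) (nat_lit 5) (nat_lit 497) (nat_lit 478) (nat_lit 225))))))) (XT.nd (nat_lit 1170) (nat_lit 1824) (nat_lit 0) (XT.nd (nat_lit 546) (nat_lit 1216) (nat_lit 0) (XT.nd (nat_lit 234) (nat_lit 532) (nat_lit 0) (XT.nd (nat_lit 78) (nat_lit 380) (nat_lit 0) (XT.lf (nat_lit 0) (nat_lit 119279995416) (nat_lit 304) (nat_lit 176860889506) (nat_lit 380) (nat_lit 13174487765) (nat_lit 118) (nat_lit 5) (nat_lit 122) (nat_lit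 5) (nat_lit 123) (nat_lit 5) (nat_lit 498) (nat_lit 478) (nat_lit 224)) (XT.nd (nat_lit 78) (nat_lit 304) (nat_lit 0) (XT.lf (nat_lit 0) (nat_lit 33404583963) (nat_lit 380) (nat_lit 15148309268) (nat_lit 76) (nat_lit 269674508437) (nat_lit 117) (nat_lit 5) (nat_lit 122) (nat_lit 5) (nat_lit 118) (nat_lit 5) (nat_lit 499) (nat_lit 478) (nat_lit 223)) (XT.lf (nat_lit 0) (nat_lit 85977185253) (nat_lit 380) (nat_lit 155001192354) (nat_lit 76) (nat_lit 86390489482) (nat_lit 113) (nat_lit 5) (nat_lit 118) (nat_lit 5) (nat_lit 114) (nat_lit 5) (nat_lit 500) (nat_lit 478) (nat_lit 222)))) (XT.nd (nat_lit 156) (nat_lit 228) (nat_lit 0) (XT.nd (nat_lit 78) (nat_lit 0) (nat_lit 0) (XT.lf (nat_lit 0) (nat_lit 33089646989) (nat_lit 304) (nat_lit 109662036948) (nat_lit 380) (nat_lit 194137058483) (nat_lit 109) (nat_lit 5) (nat_lit 113) (nat_lit 5) (nat_lit 114) (nat_lit 5) (nat_lit 501) (nat_lit 478) (nat_lit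 221)) (XT.lf (nat_lit 0) (nat_lit 205473503854) (nat_lit 380) (nat_lit 111270738476) (nat_lit 76) (nat_lit 29984939378) (nat_lit 109) (nat_lit 5) (nat_lit 114) (nat_lit 5) (nat_lit 110) (nat_lit 5) (nat_lit 502) (nat_lit 478) (nat_lit 220))) (XT.nd (nat_lit 78) (nat_lit 0) (nat_lit 0) (XT.lf (nat_lit 0) (nat_lit 92031825098) (nat_lit 228) (nat_lit 182534152989) (nat_lit 304) (nat_lit 82333936714) (nat_lit 106) (nat_lit 5) (nat_lit 109) (nat_lit 5) (nat_lit 110) (nat_lit 5) (nat_lit 503) (nat_lit 478) (nat_lit 219)) (XT.lf (nat_lit 0) (nat_lit 309362520629) (nat_lit 228) (nat_lit 39634930850) (nat_lit 304) (nat_lit 18487514301) (nat_lit 106) (nat_lit 5) (nat_lit 109) (nat_lit 5) (nat_lit 110) (nat_lit 5) (nat_lit 504) (nat_lit 478) (nat_lit 218))))) (XT.nd (nat_lit 312) (nat_lit 456) (nat_lit 0) (XT.nd (nat_lit 156) (nat_lit 228) (nat_lit 0) (XT.nd (nat_lit 78) (nat_lit 228) (nat_lit 0) (XT.lf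 (nat_lit 0) (nat_lit 51326945969) (nat_lit 304) (nat_lit 216778559422) (nat_lit 76) (nat_lit 110239379922) (nat_lit 102) (nat_lit 5) (nat_lit 106) (nat_lit 5) (nat_lit 103) (nat_lit 5) (nat_lit 505) (nat_lit 478) (nat_lit 217)) (XT.lf (nat_lit 0) (nat_lit 3708498399) (nat_lit 228) (nat_lit 122010404665) (nat_lit 304) (nat_lit 263928340286) (nat_lit 99) (nat_lit 5) (nat_lit 102) (nat_lit 5) (nat_lit 103) (nat_lit 5) (nat_lit 506) (nat_lit 478) (nat_lit 216))) (XT.nd (nat_lit 78) (nat_lit 228) (nat_lit 0) (XT.lf (nat_lit 0) (nat_lit 208051924618) (nat_lit 304) (nat_lit 159135512687) (nat_lit 76) (nat_lit 34116208658) (nat_lit 99) (nat_lit 5) (nat_lit 103) (nat_lit 5) (nat_lit 100) (nat_lit 5) (nat_lit 507) (nat_lit 478) (nat_lit 215)) (XT.lf (nat_lit 0) (nat_lit 79553869006) (nat_lit 228) (nat_lit 218189914878) (nat_lit 304) (nat_lit 115636975496) (nat_lit 96) (nat_lit 5) (nat_lit 99) (nat_lit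 5) (nat_lit 100) (nat_lit 5) (nat_lit 508) (nat_lit 478) (nat_lit 214)))) (XT.nd (nat_lit 156) (nat_lit 228) (nat_lit 0) (XT.nd (nat_lit 78) (nat_lit 228) (nat_lit 0) (XT.lf (nat_lit 0) (nat_lit 335702484203) (nat_lit 228) (nat_lit 58912747122) (nat_lit 304) (nat_lit 31311747386) (nat_lit 96) (nat_lit 5) (nat_lit 99) (nat_lit 5) (nat_lit 100) (nat_lit 5) (nat_lit 509) (nat_lit 478) (nat_lit 213)) (XT.lf (nat_lit 0) (nat_lit 59803365275) (nat_lit 228) (nat_lit 270563540797) (nat_lit 76) (nat_lit 108468660492) (nat_lit 93) (nat_lit 5) (nat_lit 96) (nat_lit 5) (nat_lit 94) (nat_lit 5) (nat_lit 510) (nat_lit 478) (nat_lit 212))) (XT.nd (nat_lit 78) (nat_lit 228) (nat_lit 0) (XT.lf (nat_lit 0) (nat_lit 156940741189) (nat_lit 228) (nat_lit 10991620815) (nat_lit 76) (nat_lit 284305617059) (nat_lit 93) (nat_lit 5) (nat_lit 96) (nat_lit 5) (nat_lit 94) (nat_lit 5) (nat_lit 511) (nat_lit 478) (nat_lit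 211)) (XT.lf (nat_lit 0) (nat_lit 263263764192) (nat_lit 304) (nat_lit 196002550595) (nat_lit 76) (nat_lit 6827758488) (nat_lit 90) (nat_lit 5) (nat_lit 94) (nat_lit 5) (nat_lit 91) (nat_lit 5) (nat_lit 512) (nat_lit 478) (nat_lit 210)))))) (XT.nd (nat_lit 624) (nat_lit 836) (nat_lit 0) (XT.nd (nat_lit 312) (nat_lit 532) (nat_lit 0) (XT.nd (nat_lit 156) (nat_lit 228) (nat_lit 0) (XT.nd (nat_lit 78) (nat_lit 76) (nat_lit 0) (XT.lf (nat_lit 0) (nat_lit 84939250021) (nat_lit 152) (nat_lit 294231980464) (nat_lit 228) (nat_lit 101258327110) (nat_lit 88) (nat_lit 5) (nat_lit 90) (nat_lit 5) (nat_lit 91) (nat_lit 5) (nat_lit 513) (nat_lit 478) (nat_lit 209)) (XT.lf (nat_lit 0) (nat_lit 8593445668) (nat_lit 228) (nat_lit 108721602542) (nat_lit 76) (nat_lit 377993869638) (nat_lit 87) (nat_lit 5) (nat_lit 90) (nat_lit 5) (nat_lit 88) (nat_lit 5) (nat_lit 514) (nat_lit 478) (nat_lit 208))) (XT.nd (nat_lit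 78) (nat_lit 0) (nat_lit 0) (XT.lf (nat_lit 0) (nat_lit 124757349120) (nat_lit 304) (nat_lit 314809985158) (nat_lit 76) (nat_lit 71070788920) (nat_lit 84) (nat_lit 5) (nat_lit 88) (nat_lit 5) (nat_lit 85) (nat_lit 5) (nat_lit 515) (nat_lit 478) (nat_lit 207)) (XT.lf (nat_lit 0) (nat_lit 250524048046) (nat_lit 304) (nat_lit 9215230077) (nat_lit 76) (nat_lit 266804780680) (nat_lit 84) (nat_lit 5) (nat_lit 88) (nat_lit 5) (nat_lit 85) (nat_lit 5) (nat_lit 516) (nat_lit 478) (nat_lit 206)))) (XT.nd (nat_lit 156) (nat_lit 228) (nat_lit 0) (XT.nd (nat_lit 78) (nat_lit 152) (nat_lit 0) (XT.lf (nat_lit 0) (nat_lit 321964070268) (nat_lit 152) (nat_lit 65641740110) (nat_lit 228) (nat_lit 155388144388) (nat_lit 82) (nat_lit 5) (nat_lit 84) (nat_lit 5) (nat_lit 85) (nat_lit 5) (nat_lit 517) (nat_lit 478) (nat_lit 205)) (XT.lf (nat_lit 0) (nat_lit 111161913099) (nat_lit 152) (nat_lit 424430962315) (nat_lit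 228) (nat_lit 24470909388) (nat_lit 80) (nat_lit 5) (nat_lit 82) (nat_lit 5) (nat_lit 83) (nat_lit 5) (nat_lit 518) (nat_lit 478) (nat_lit 204))) (XT.nd (nat_lit 78) (nat_lit 152) (nat_lit 0) (XT.lf (nat_lit 0) (nat_lit 114256406232) (nat_lit 228) (nat_lit 113064622477) (nat_lit 76) (nat_lit 350333837671) (nat_lit 79) (nat_lit 5) (nat_lit 82) (nat_lit 5) (nat_lit 80) (nat_lit 5) (nat_lit 519) (nat_lit 478) (nat_lit 203)) (XT.lf (nat_lit 0) (nat_lit 247071093228) (nat_lit 152) (nat_lit 15884052755) (nat_lit 228) (nat_lit 332957425864) (nat_lit 77) (nat_lit 5) (nat_lit 79) (nat_lit 5) (nat_lit 80) (nat_lit 5) (nat_lit 520) (nat_lit 478) (nat_lit 202))))) (XT.nd (nat_lit 312) (nat_lit 456) (nat_lit 0) (XT.nd (nat_lit 156) (nat_lit 228) (nat_lit 0) (XT.nd (nat_lit 78) (nat_lit 0) (nat_lit 0) (XT.lf (nat_lit 0) (nat_lit 11262359096) (nat_lit 152) (nat_lit 413166649837) (nat_lit 228) (nat_lit 190387144347)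 (nat_lit 75) (nat_lit 5) (nat_lit 77) (nat_lit 5) (nat_lit 78) (nat_lit 5) (nat_lit 521) (nat_lit 478) (nat_lit 201)) (XT.lf (nat_lit 0) (nat_lit 401213321985) (nat_lit 152) (nat_lit 198927206878) (nat_lit 228) (nat_lit 34216186731) (nat_lit 75) (nat_lit 5) (nat_lit 77) (nat_lit 5) (nat_lit 78) (nat_lit 5) (nat_lit 522) (nat_lit 478) (nat_lit 200))) (XT.nd (nat_lit 78) (nat_lit 0) (nat_lit 0) (XT.lf (nat_lit 0) (nat_lit 128570256900) (nat_lit 228) (nat_lit 496283628797) (nat_lit 76) (nat_lit 29771113140) (nat_lit 72) (nat_lit 5) (nat_lit 75) (nat_lit 5) (nat_lit 73) (nat_lit 5) (nat_lit 523) (nat_lit 478) (nat_lit 199)) (XT.lf (nat_lit 0) (nat_lit 305620331654) (nat_lit 228) (nat_lit 102101492884) (nat_lit 76) (nat_lit 267793115792) (nat_lit 72) (nat_lit 5) (nat_lit 75) (nat_lit 5) (nat_lit 73) (nat_lit 5) (nat_lit 524) (nat_lit 478) (nat_lit 198)))) (XT.nd (nat_lit 156) (nat_lit 228) (nat_lit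 0) (XT.nd (nat_lit 78) (nat_lit 76) (nat_lit 0) (XT.lf (nat_lit 0) (nat_lit 322098877995) (nat_lit 152) (nat_lit 174452871120) (nat_lit 228) (nat_lit 200646187834) (nat_lit 70) (nat_lit 5) (nat_lit 72) (nat_lit 5) (nat_lit 73) (nat_lit 5) (nat_lit 525) (nat_lit 478) (nat_lit 197)) (XT.lf (nat_lit 0) (nat_lit 51701363485) (nat_lit 76) (nat_lit 648993417893) (nat_lit 152) (nat_lit 19087049828) (nat_lit 69) (nat_lit 5) (nat_lit 70) (nat_lit 5) (nat_lit 71) (nat_lit 4) (nat_lit 526) (nat_lit 478) (nat_lit 196))) (XT.nd (nat_lit 78) (nat_lit 152) (nat_lit 0) (XT.lf (nat_lit 0) (nat_lit 175375851735) (nat_lit 152) (nat_lit 235955343627) (nat_lit 76) (nat_lit 331563981992) (nat_lit 68) (nat_lit 5) (nat_lit 70) (nat_lit 5) (nat_lit 69) (nat_lit 5) (nat_lit 527) (nat_lit 478) (nat_lit 195)) (XT.lf (nat_lit 0) (nat_lit 224653400450) (nat_lit 152) (nat_lit 157774491512) (nat_lit 228) (nat_lit 384545281546)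 (nat_lit 66) (nat_lit 5) (nat_lit 68) (nat_lit 5) (nat_lit 69) (nat_lit 5) (nat_lit 528) (nat_lit 478) (nat_lit 194))))))))
noncomputable def xc231 : XT := (XT.nd (nat_lit 59982) (nat_lit 0) (nat_lit 1292) (XT.nd (nat_lit 58734) (nat_lit 0) (nat_lit 5700) (XT.nd (nat_lit 546) (nat_lit 532) (nat_lit 0) (XT.nd (nat_lit 234) (nat_lit 304) (nat_lit 0) (XT.nd (nat_lit 78) (nat_lit 304) (nat_lit 0) (XT.lf (nat_lit 0) (nat_lit 605587400566) (nat_lit 228) (nat_lit 77329769680) (nat_lit 76) (nat_lit 109050155906) (nat_lit 66) (nat_lit 5) (nat_lit 69) (nat_lit 5) (nat_lit 67) (nat_lit 4) (nat_lit 529) (nat_lit 478) (nat_lit 193)) (XT.nd (nat_lit 78) (nat_lit 152) (nat_lit 0) (XT.lf (nat_lit 0) (nat_lit 30322031319) (nat_lit 152) (nat_lit 396417403388) (nat_lit 76) (nat_lit 390988683404) (nat_lit 64) (nat_lit 5) (nat_lit 66) (nat_lit 5) (nat_lit 65) (nat_lit 5) (nat_lit 530) (nat_lit 478) (nat_lit 192))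 (XT.lf (nat_lit 0) (nat_lit 103078710562) (nat_lit 152) (nat_lit 151457197549) (nat_lit 228) (nat_lit 589941250641) (nat_lit 62) (nat_lit 5) (nat_lit 64) (nat_lit 5) (nat_lit 65) (nat_lit 5) (nat_lit 531) (nat_lit 478) (nat_lit 191)))) (XT.nd (nat_lit 156) (nat_lit 228) (nat_lit 0) (XT.nd (nat_lit 78) (nat_lit 76) (nat_lit 0) (XT.lf (nat_lit 0) (nat_lit 498932185371) (nat_lit 228) (nat_lit 233173881899) (nat_lit 76) (nat_lit 140008998823) (nat_lit 62) (nat_lit 5) (nat_lit 65) (nat_lit 5) (nat_lit 63) (nat_lit 4) (nat_lit 532) (nat_lit 478) (nat_lit 190)) (XT.lf (nat_lit 0) (nat_lit 307831496384) (nat_lit 76) (nat_lit 455005774605) (nat_lit 152) (nat_lit 137933148090) (nat_lit 61) (nat_lit 5) (nat_lit 62) (nat_lit 5) (nat_lit 63) (nat_lit 4) (nat_lit 533) (nat_lit 478) (nat_lit 189))) (XT.nd (nat_lit 78) (nat_lit 152) (nat_lit 0) (XT.lf (nat_lit 0) (nat_lit 109601485807) (nat_lit 152) (nat_lit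 48446487962) (nat_lit 76) (nat_lit 772524733141) (nat_lit 60) (nat_lit 5) (nat_lit 62) (nat_lit 5) (nat_lit 61) (nat_lit 5) (nat_lit 534) (nat_lit 478) (nat_lit 188)) (XT.lf (nat_lit 0) (nat_lit 375856165533) (nat_lit 228) (nat_lit 425671048247) (nat_lit 76) (nat_lit 159675896775) (nat_lit 58) (nat_lit 5) (nat_lit 61) (nat_lit 5) (nat_lit 59) (nat_lit 4) (nat_lit 535) (nat_lit 478) (nat_lit 187))))) (XT.nd (nat_lit 312) (nat_lit 228) (nat_lit 0) (XT.nd (nat_lit 156) (nat_lit 228) (nat_lit 0) (XT.nd (nat_lit 78) (nat_lit 0) (nat_lit 0) (XT.lf (nat_lit 0) (nat_lit 159570286701) (nat_lit 76) (nat_lit 501769475811) (nat_lit 152) (nat_lit 331729462708) (nat_lit 57) (nat_lit 5) (nat_lit 58) (nat_lit 5) (nat_lit 59) (nat_lit 4) (nat_lit 536) (nat_lit 478) (nat_lit 186)) (XT.lf (nat_lit 0) (nat_lit 788851986655) (nat_lit 76) (nat_lit 179454476815) (nat_lit 152) (nat_lit 57861735943) (nat_lit 57) (nat_lit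 5) (nat_lit 58) (nat_lit 5) (nat_lit 59) (nat_lit 4) (nat_lit 537) (nat_lit 478) (nat_lit 185))) (XT.nd (nat_lit 78) (nat_lit 0) (nat_lit 0) (XT.lf (nat_lit 0) (nat_lit 231201338410) (nat_lit 228) (nat_lit 665252778834) (nat_lit 76) (nat_lit 163846003730) (nat_lit 54) (nat_lit 5) (nat_lit 57) (nat_lit 5) (nat_lit 55) (nat_lit 4) (nat_lit 538) (nat_lit 478) (nat_lit 184)) (XT.lf (nat_lit 0) (nat_lit 539799840346) (nat_lit 228) (nat_lit 32625881835) (nat_lit 76) (nat_lit 523314148400) (nat_lit 54) (nat_lit 5) (nat_lit 57) (nat_lit 5) (nat_lit 55) (nat_lit 4) (nat_lit 539) (nat_lit 478) (nat_lit 183)))) (XT.nd (nat_lit 57720) (nat_lit 0) (nat_lit 7296) (XT.nd (nat_lit 78) (nat_lit 152) (nat_lit 0) (XT.lf (nat_lit 0) (nat_lit 652516940729) (nat_lit 76) (nat_lit 221498925476) (nat_lit 152) (nat_lit 258426361523) (nat_lit 53) (nat_lit 5) (nat_lit 54) (nat_lit 5) (nat_lit 55) (nat_lit 4) (nat_lit 540)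 (nat_lit 478) (nat_lit 182)) (XT.lf (nat_lit 0) (nat_lit 58414222321) (nat_lit 152) (nat_lit 965218095658) (nat_lit 76) (nat_lit 146996339857) (nat_lit 51) (nat_lit 5) (nat_lit 53) (nat_lit 5) (nat_lit 52) (nat_lit 4) (nat_lit 541) (nat_lit 478) (nat_lit 181))) (XT.nd (nat_lit 78) (nat_lit 0) (nat_lit 0) (XT.lf (nat_lit 0) (nat_lit 39840277833) (nat_lit 836) (nat_lit 27991033170) (nat_lit 836) (nat_lit 27991033170) (nat_lit 147) (nat_lit 3) (nat_lit 158) (nat_lit 3) (nat_lit 158) (nat_lit 5) (nat_lit 479) (nat_lit 479) (nat_lit 242)) (XT.lf (nat_lit 76) (nat_lit 40355694953) (nat_lit 0) (nat_lit 41948690339) (nat_lit 836) (nat_lit 114099829207) (nat_lit 148) (nat_lit 5) (nat_lit 147) (nat_lit 3) (nat_lit 158) (nat_lit 5) (nat_lit 480) (nat_lit 479) (nat_lit 241)))))) (XT.nd (nat_lit 624) (nat_lit 1672) (nat_lit 0) (XT.nd (nat_lit 312) (nat_lit 0) (nat_lit 152) (XT.nd (nat_lit 156) (nat_lit 0)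 (nat_lit 76) (XT.nd (nat_lit 78) (nat_lit 0) (nat_lit 0) (XT.lf (nat_lit 0) (nat_lit 86904277306) (nat_lit 760) (nat_lit 58797364495) (nat_lit 836) (nat_lit 55607831628) (nat_lit 148) (nat_lit 5) (nat_lit 158) (nat_lit 5) (nat_lit 159) (nat_lit 5) (nat_lit 481) (nat_lit 479) (nat_lit 240)) (XT.lf (nat_lit 76) (nat_lit 44038094866) (nat_lit 0) (nat_lit 49071203750) (nat_lit 836) (nat_lit 113281939973) (nat_lit 149) (nat_lit 5) (nat_lit 148) (nat_lit 5) (nat_lit 159) (nat_lit 5) (nat_lit 482) (nat_lit 479) (nat_lit 239))) (XT.nd (nat_lit 78) (nat_lit 0) (nat_lit 0) (XT.lf (nat_lit 0) (nat_lit 101454521197) (nat_lit 760) (nat_lit 58455024277) (nat_lit 836) (nat_lit 51726049037) (nat_lit 149) (nat_lit 5) (nat_lit 159) (nat_lit 5) (nat_lit 160) (nat_lit 5) (nat_lit 483) (nat_lit 479) (nat_lit 238)) (XT.lf (nat_lit 76) (nat_lit 51481209885) (nat_lit 0) (nat_lit 60343909704) (nat_lit 836) (nat_lit 105236642922)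 (nat_lit 150) (nat_lit 5) (nat_lit 149) (nat_lit 5) (nat_lit 160) (nat_lit 5) (nat_lit 484) (nat_lit 479) (nat_lit 237)))) (XT.nd (nat_lit 156) (nat_lit 0) (nat_lit 76) (XT.nd (nat_lit 78) (nat_lit 0) (nat_lit 0) (XT.lf (nat_lit 0) (nat_lit 124410433770) (nat_lit 760) (nat_lit 54472443024) (nat_lit 836) (nat_lit 43791552837) (nat_lit 150) (nat_lit 5) (nat_lit 160) (nat_lit 5) (nat_lit 161) (nat_lit 5) (nat_lit 485) (nat_lit 479) (nat_lit 236)) (XT.lf (nat_lit 76) (nat_lit 63225367967) (nat_lit 0) (nat_lit 76375926569) (nat_lit 836) (nat_lit 88867621541) (nat_lit 151) (nat_lit 5) (nat_lit 150) (nat_lit 5) (nat_lit 161) (nat_lit 5) (nat_lit 486) (nat_lit 479) (nat_lit 235))) (XT.nd (nat_lit 78) (nat_lit 0) (nat_lit 0) (XT.lf (nat_lit 0) (nat_lit 156977253098) (nat_lit 760) (nat_lit 46310963873) (nat_lit 836) (nat_lit 31193632149) (nat_lit 151) (nat_lit 5) (nat_lit 161) (nat_lit 5) (nat_lit 162)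 (nat_lit 5) (nat_lit 487) (nat_lit 479) (nat_lit 234)) (XT.lf (nat_lit 76) (nat_lit 79872538753) (nat_lit 0) (nat_lit 97848488231) (nat_lit 836) (nat_lit 62949450974) (nat_lit 152) (nat_lit 5) (nat_lit 151) (nat_lit 5) (nat_lit 162) (nat_lit 5) (nat_lit 488) (nat_lit 479) (nat_lit 233))))) (XT.nd (nat_lit 312) (nat_lit 760) (nat_lit 0) (XT.nd (nat_lit 156) (nat_lit 456) (nat_lit 0) (XT.nd (nat_lit 78) (nat_lit 760) (nat_lit 0) (XT.lf (nat_lit 0) (nat_lit 200499898419) (nat_lit 760) (nat_lit 33370052642) (nat_lit 76) (nat_lit 13248691746) (nat_lit 152) (nat_lit 5) (nat_lit 162) (nat_lit 5) (nat_lit 153) (nat_lit 5) (nat_lit 489) (nat_lit 479) (nat_lit 232)) (XT.lf (nat_lit 0) (nat_lit 102092692152) (nat_lit 760) (nat_lit 125522973504) (nat_lit 836) (nat_lit 26113652642) (nat_lit 142) (nat_lit 5) (nat_lit 152) (nat_lit 5) (nat_lit 153) (nat_lit 5) (nat_lit 490) (nat_lit 479) (nat_lit 231))) (XT.nd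 (nat_lit 78) (nat_lit 456) (nat_lit 0) (XT.lf (nat_lit 0) (nat_lit 245487041883) (nat_lit 760) (nat_lit 11165245502) (nat_lit 836) (nat_lit 3989986883) (nat_lit 142) (nat_lit 5) (nat_lit 152) (nat_lit 5) (nat_lit 153) (nat_lit 5) (nat_lit 491) (nat_lit 479) (nat_lit 230)) (XT.lf (nat_lit 0) (nat_lit 22425215413) (nat_lit 456) (nat_lit 137444813249) (nat_lit 76) (nat_lit 107825772526) (nat_lit 136) (nat_lit 5) (nat_lit 142) (nat_lit 5) (nat_lit 137) (nat_lit 5) (nat_lit 492) (nat_lit 479) (nat_lit 229)))) (XT.nd (nat_lit 156) (nat_lit 380) (nat_lit 0) (XT.nd (nat_lit 78) (nat_lit 0) (nat_lit 0) (XT.lf (nat_lit 0) (nat_lit 8379994726) (nat_lit 380) (nat_lit 42221766959) (nat_lit 456) (nat_lit 224468238618) (nat_lit 131) (nat_lit 5) (nat_lit 136) (nat_lit 5) (nat_lit 137) (nat_lit 5) (nat_lit 493) (nat_lit 479) (nat_lit 228)) (XT.lf (nat_lit 0) (nat_lit 83822383512) (nat_lit 456) (nat_lit 117736395791)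 (nat_lit 76) (nat_lit 81072367667) (nat_lit 131) (nat_lit 5) (nat_lit 137) (nat_lit 5) (nat_lit 132) (nat_lit 5) (nat_lit 494) (nat_lit 479) (nat_lit 227))) (XT.nd (nat_lit 78) (nat_lit 0) (nat_lit 0) (XT.lf (nat_lit 0) (nat_lit 39228216618) (nat_lit 380) (nat_lit 80780380397) (nat_lit 456) (nat_lit 170496525935) (nat_lit 126) (nat_lit 5) (nat_lit 131) (nat_lit 5) (nat_lit 132) (nat_lit 5) (nat_lit 495) (nat_lit 479) (nat_lit 226)) (XT.lf (nat_lit 0) (nat_lit 160749436855) (nat_lit 456) (nat_lit 91296020565) (nat_lit 76) (nat_lit 46590074533) (nat_lit 126) (nat_lit 5) (nat_lit 132) (nat_lit 5) (nat_lit 127) (nat_lit 5) (nat_lit 496) (nat_lit 479) (nat_lit 225))))))) (XT.nd (nat_lit 1248) (nat_lit 1900) (nat_lit 0) (XT.nd (nat_lit 624) (nat_lit 988) (nat_lit 0) (XT.nd (nat_lit 312) (nat_lit 836) (nat_lit 0) (XT.nd (nat_lit 156) (nat_lit 380) (nat_lit 0) (XT.nd (nat_lit 78) (nat_lit 0) (nat_lit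 0) (XT.lf (nat_lit 0) (nat_lit 77851304568) (nat_lit 304) (nat_lit 128215702494) (nat_lit 380) (nat_lit 100978469934) (nat_lit 122) (nat_lit 5) (nat_lit 126) (nat_lit 5) (nat_lit 127) (nat_lit 5) (nat_lit 497) (nat_lit 479) (nat_lit 224)) (XT.lf (nat_lit 0) (nat_lit 255250078616) (nat_lit 380) (nat_lit 57226626622) (nat_lit 76) (nat_lit 3319232918) (nat_lit 122) (nat_lit 5) (nat_lit 127) (nat_lit 5) (nat_lit 123) (nat_lit 5) (nat_lit 498) (nat_lit 479) (nat_lit 223))) (XT.nd (nat_lit 78) (nat_lit 76) (nat_lit 0) (XT.lf (nat_lit 0) (nat_lit 125245990785) (nat_lit 304) (nat_lit 185703597704) (nat_lit 380) (nat_lit 13831469655) (nat_lit 118) (nat_lit 5) (nat_lit 122) (nat_lit 5) (nat_lit 123) (nat_lit 5) (nat_lit 499) (nat_lit 479) (nat_lit 222)) (XT.lf (nat_lit 0) (nat_lit 35076419568) (nat_lit 380) (nat_lit 15903770855) (nat_lit 76) (nat_lit 283158500817) (nat_lit 117) (nat_lit 5) (nat_lit 122)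 (nat_lit 5) (nat_lit 118) (nat_lit 5) (nat_lit 500) (nat_lit 479) (nat_lit 221)))) (XT.nd (nat_lit 156) (nat_lit 228) (nat_lit 0) (XT.nd (nat_lit 78) (nat_lit 304) (nat_lit 0) (XT.lf (nat_lit 0) (nat_lit 90277610099) (nat_lit 380) (nat_lit 162749257089) (nat_lit 76) (nat_lit 90710364793) (nat_lit 113) (nat_lit 5) (nat_lit 118) (nat_lit 5) (nat_lit 114) (nat_lit 5) (nat_lit 501) (nat_lit 479) (nat_lit 220)) (XT.lf (nat_lit 0) (nat_lit 34746092045) (nat_lit 304) (nat_lit 115144697764) (nat_lit 380) (nat_lit 203842313474) (nat_lit 109) (nat_lit 5) (nat_lit 113) (nat_lit 5) (nat_lit 114) (nat_lit 5) (nat_lit 502) (nat_lit 479) (nat_lit 219))) (XT.nd (nat_lit 78) (nat_lit 228) (nat_lit 0) (XT.lf (nat_lit 0) (nat_lit 215748634819) (nat_lit 380) (nat_lit 116832340087) (nat_lit 76) (nat_lit 31484592933) (nat_lit 109) (nat_lit 5) (nat_lit 114) (nat_lit 5) (nat_lit 110) (nat_lit 5) (nat_lit 503) (nat_lit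 479) (nat_lit 218)) (XT.lf (nat_lit 0) (nat_lit 96635320450) (nat_lit 228) (nat_lit 191660372719) (nat_lit 304) (nat_lit 86449146406) (nat_lit 106) (nat_lit 5) (nat_lit 109) (nat_lit 5) (nat_lit 110) (nat_lit 5) (nat_lit 504) (nat_lit 479) (nat_lit 217))))) (XT.nd (nat_lit 312) (nat_lit 456) (nat_lit 0) (XT.nd (nat_lit 156) (nat_lit 228) (nat_lit 0) (XT.nd (nat_lit 78) (nat_lit 304) (nat_lit 0) (XT.lf (nat_lit 0) (nat_lit 324832460087) (nat_lit 228) (nat_lit 41616212707) (nat_lit 304) (nat_lit 19410473688) (nat_lit 106) (nat_lit 5) (nat_lit 109) (nat_lit 5) (nat_lit 110) (nat_lit 5) (nat_lit 505) (nat_lit 479) (nat_lit 216)) (XT.lf (nat_lit 0) (nat_lit 53894635256) (nat_lit 304) (nat_lit 227615599349) (nat_lit 76) (nat_lit 115751827739) (nat_lit 102) (nat_lit 5) (nat_lit 106) (nat_lit 5) (nat_lit 103) (nat_lit 5) (nat_lit 506) (nat_lit 479) (nat_lit 215))) (XT.nd (nat_lit 78) (nat_lit 0) (nat_lit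 0) (XT.lf (nat_lit 0) (nat_lit 3895780911) (nat_lit 228) (nat_lit 128110374392) (nat_lit 304) (nat_lit 277123384730) (nat_lit 99) (nat_lit 5) (nat_lit 102) (nat_lit 5) (nat_lit 103) (nat_lit 5) (nat_lit 507) (nat_lit 479) (nat_lit 214)) (XT.lf (nat_lit 0) (nat_lit 218455773879) (nat_lit 304) (nat_lit 167090465006) (nat_lit 76) (nat_lit 35822526602) (nat_lit 99) (nat_lit 5) (nat_lit 103) (nat_lit 5) (nat_lit 100) (nat_lit 5) (nat_lit 508) (nat_lit 479) (nat_lit 213)))) (XT.nd (nat_lit 156) (nat_lit 228) (nat_lit 0) (XT.nd (nat_lit 78) (nat_lit 0) (nat_lit 0) (XT.lf (nat_lit 0) (nat_lit 83533356363) (nat_lit 228) (nat_lit 229098838085) (nat_lit 304) (nat_lit 121417541715) (nat_lit 96) (nat_lit 5) (nat_lit 99) (nat_lit 5) (nat_lit 100) (nat_lit 5) (nat_lit 509) (nat_lit 479) (nat_lit 212)) (XT.lf (nat_lit 0) (nat_lit 352489316896) (nat_lit 228) (nat_lit 61857839204) (nat_lit 304) (nat_lit 32876113273)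 (nat_lit 96) (nat_lit 5) (nat_lit 99) (nat_lit 5) (nat_lit 100) (nat_lit 5) (nat_lit 510) (nat_lit 479) (nat_lit 211))) (XT.nd (nat_lit 78) (nat_lit 0) (nat_lit 0) (XT.lf (nat_lit 0) (nat_lit 62794695313) (nat_lit 228) (nat_lit 284089949438) (nat_lit 76) (nat_lit 113892641950) (nat_lit 93) (nat_lit 5) (nat_lit 96) (nat_lit 5) (nat_lit 94) (nat_lit 5) (nat_lit 511) (nat_lit 479) (nat_lit 210)) (XT.lf (nat_lit 0) (nat_lit 164788884700) (nat_lit 228) (nat_lit 11539517667) (nat_lit 76) (nat_lit 298521420229) (nat_lit 93) (nat_lit 5) (nat_lit 96) (nat_lit 5) (nat_lit 94) (nat_lit 5) (nat_lit 512) (nat_lit 479) (nat_lit 209)))))) (XT.nd (nat_lit 624) (nat_lit 836) (nat_lit 0) (XT.nd (nat_lit 312) (nat_lit 380) (nat_lit 0) (XT.nd (nat_lit 156) (nat_lit 304) (nat_lit 0) (XT.nd (nat_lit 78) (nat_lit 152) (nat_lit 0) (XT.lf (nat_lit 0) (nat_lit 276428041051) (nat_lit 304) (nat_lit 205800976042) (nat_lit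 76) (nat_lit 7169705322) (nat_lit 90) (nat_lit 5) (nat_lit 94) (nat_lit 5) (nat_lit 91) (nat_lit 5) (nat_lit 513) (nat_lit 479) (nat_lit 208)) (XT.lf (nat_lit 0) (nat_lit 89187887152) (nat_lit 152) (nat_lit 308942967812) (nat_lit 228) (nat_lit 106320127276) (nat_lit 88) (nat_lit 5) (nat_lit 90) (nat_lit 5) (nat_lit 91) (nat_lit 5) (nat_lit 514) (nat_lit 479) (nat_lit 207))) (XT.nd (nat_lit 78) (nat_lit 228) (nat_lit 0) (XT.lf (nat_lit 0) (nat_lit 9024146965) (nat_lit 228) (nat_lit 114156053680) (nat_lit 76) (nat_lit 396894111566) (nat_lit 87) (nat_lit 5) (nat_lit 90) (nat_lit 5) (nat_lit 88) (nat_lit 5) (nat_lit 515) (nat_lit 479) (nat_lit 206)) (XT.lf (nat_lit 0) (nat_lit 130996230943) (nat_lit 304) (nat_lit 330548840704) (nat_lit 76) (nat_lit 74624906916) (nat_lit 84) (nat_lit 5) (nat_lit 88) (nat_lit 5) (nat_lit 85) (nat_lit 5) (nat_lit 516) (nat_lit 479) (nat_lit 205)))) (XT.nd (nat_lit 156)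 (nat_lit 228) (nat_lit 0) (XT.nd (nat_lit 78) (nat_lit 152) (nat_lit 0) (XT.lf (nat_lit 0) (nat_lit 263051216513) (nat_lit 304) (nat_lit 9674426141) (nat_lit 76) (nat_lit 280145570714) (nat_lit 84) (nat_lit 5) (nat_lit 88) (nat_lit 5) (nat_lit 85) (nat_lit 5) (nat_lit 517) (nat_lit 479) (nat_lit 204)) (XT.lf (nat_lit 0) (nat_lit 338063813971) (nat_lit 152) (nat_lit 68923231033) (nat_lit 228) (nat_lit 163156560226) (nat_lit 82) (nat_lit 5) (nat_lit 84) (nat_lit 5) (nat_lit 85) (nat_lit 5) (nat_lit 518) (nat_lit 479) (nat_lit 203))) (XT.nd (nat_lit 78) (nat_lit 76) (nat_lit 0) (XT.lf (nat_lit 0) (nat_lit 116721561458) (nat_lit 152) (nat_lit 445651889982) (nat_lit 228) (nat_lit 25693475923) (nat_lit 80) (nat_lit 5) (nat_lit 82) (nat_lit 5) (nat_lit 83) (nat_lit 5) (nat_lit 519) (nat_lit 479) (nat_lit 202)) (XT.lf (nat_lit 0) (nat_lit 119970129021) (nat_lit 228) (nat_lit 118716344935) (nat_lit 76)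 (nat_lit 367851090558) (nat_lit 79) (nat_lit 5) (nat_lit 82) (nat_lit 5) (nat_lit 80) (nat_lit 5) (nat_lit 520) (nat_lit 479) (nat_lit 201))))) (XT.nd (nat_lit 312) (nat_lit 304) (nat_lit 0) (XT.nd (nat_lit 156) (nat_lit 228) (nat_lit 0) (XT.nd (nat_lit 78) (nat_lit 152) (nat_lit 0) (XT.lf (nat_lit 0) (nat_lit 259426132221) (nat_lit 152) (nat_lit 16677653739) (nat_lit 228) (nat_lit 349604370289) (nat_lit 77) (nat_lit 5) (nat_lit 79) (nat_lit 5) (nat_lit 80) (nat_lit 5) (nat_lit 521) (nat_lit 479) (nat_lit 200)) (XT.lf (nat_lit 0) (nat_lit 11826971678) (nat_lit 152) (nat_lit 433824360629) (nat_lit 228) (nat_lit 199905584937) (nat_lit 75) (nat_lit 5) (nat_lit 77) (nat_lit 5) (nat_lit 78) (nat_lit 5) (nat_lit 522) (nat_lit 479) (nat_lit 199))) (XT.nd (nat_lit 78) (nat_lit 228) (nat_lit 0) (XT.lf (nat_lit 0) (nat_lit 421275411538) (nat_lit 152) (nat_lit 208872975127) (nat_lit 228) (nat_lit 35926123090)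 (nat_lit 75) (nat_lit 5) (nat_lit 77) (nat_lit 5) (nat_lit 78) (nat_lit 5) (nat_lit 523) (nat_lit 479) (nat_lit 198)) (XT.lf (nat_lit 0) (nat_lit 134999606220) (nat_lit 228) (nat_lit 521096350186) (nat_lit 76) (nat_lit 31260250503) (nat_lit 72) (nat_lit 5) (nat_lit 75) (nat_lit 5) (nat_lit 73) (nat_lit 5) (nat_lit 524) (nat_lit 479) (nat_lit 197)))) (XT.nd (nat_lit 156) (nat_lit 152) (nat_lit 0) (XT.nd (nat_lit 78) (nat_lit 152) (nat_lit 0) (XT.lf (nat_lit 0) (nat_lit 320902144880) (nat_lit 228) (nat_lit 107205177003) (nat_lit 76) (nat_lit 281183325587) (nat_lit 72) (nat_lit 5) (nat_lit 75) (nat_lit 5) (nat_lit 73) (nat_lit 5) (nat_lit 525) (nat_lit 479) (nat_lit 196)) (XT.lf (nat_lit 0) (nat_lit 338205189992) (nat_lit 152) (nat_lit 183174926646) (nat_lit 228) (nat_lit 210677678113) (nat_lit 70) (nat_lit 5) (nat_lit 72) (nat_lit 5) (nat_lit 73) (nat_lit 5) (nat_lit 526) (nat_lit 479) (nat_lit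 195))) (XT.nd (nat_lit 78) (nat_lit 76) (nat_lit 0) (XT.lf (nat_lit 0) (nat_lit 54287807074) (nat_lit 76) (nat_lit 681442486512) (nat_lit 152) (nat_lit 20040590483) (nat_lit 69) (nat_lit 5) (nat_lit 70) (nat_lit 5) (nat_lit 71) (nat_lit 4) (nat_lit 527) (nat_lit 479) (nat_lit 194)) (XT.lf (nat_lit 0) (nat_lit 184145392753) (nat_lit 152) (nat_lit 247751776107) (nat_lit 76) (nat_lit 348142729904) (nat_lit 68) (nat_lit 5) (nat_lit 70) (nat_lit 5) (nat_lit 69) (nat_lit 5) (nat_lit 528) (nat_lit 479) (nat_lit 193))))))))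
noncomputable def xc232 : XT := (XT.nd (nat_lit 60138) (nat_lit 0) (nat_lit 1064) (XT.nd (nat_lit 58890) (nat_lit 0) (nat_lit 5168) (XT.nd (nat_lit 546) (nat_lit 456) (nat_lit 0) (XT.nd (nat_lit 234) (nat_lit 304) (nat_lit 0) (XT.nd (nat_lit 78) (nat_lit 152) (nat_lit 0) (XT.lf (nat_lit 0) (nat_lit 235887383647) (nat_lit 152) (nat_lit 165662636208) (nat_lit 228) (nat_lit 403771775630) (nat_lit 66) (nat_lit 5) (nat_lit 68) (nat_lit 5) (nat_lit 69) (nat_lit 5) (nat_lit 529) (nat_lit 479) (nat_lit 192)) (XT.nd (nat_lit 78) (nat_lit 152) (nat_lit 0) (XT.lf (nat_lit 0) (nat_lit 635867477592) (nat_lit 228) (nat_lit 81194981193) (nat_lit 76) (nat_lit 114503198292) (nat_lit 66) (nat_lit 5) (nat_lit 69) (nat_lit 5) (nat_lit 67) (nat_lit 4) (nat_lit 530) (nat_lit 479) (nat_lit 191)) (XT.lf (nat_lit 0) (nat_lit 31838837221) (nat_lit 152) (nat_lit 416236993864) (nat_lit 76) (nat_lit 410538657684) (nat_lit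 64) (nat_lit 5) (nat_lit 66) (nat_lit 5) (nat_lit 65) (nat_lit 5) (nat_lit 531) (nat_lit 479) (nat_lit 190)))) (XT.nd (nat_lit 156) (nat_lit 152) (nat_lit 0) (XT.nd (nat_lit 78) (nat_lit 0) (nat_lit 0) (XT.lf (nat_lit 0) (nat_lit 108233905143) (nat_lit 152) (nat_lit 159029488827) (nat_lit 228) (nat_lit 619437588167) (nat_lit 62) (nat_lit 5) (nat_lit 64) (nat_lit 5) (nat_lit 65) (nat_lit 5) (nat_lit 532) (nat_lit 479) (nat_lit 189)) (XT.lf (nat_lit 0) (nat_lit 523879460670) (nat_lit 228) (nat_lit 244831352445) (nat_lit 76) (nat_lit 147009972955) (nat_lit 62) (nat_lit 5) (nat_lit 65) (nat_lit 5) (nat_lit 63) (nat_lit 4) (nat_lit 533) (nat_lit 479) (nat_lit 188))) (XT.nd (nat_lit 78) (nat_lit 76) (nat_lit 0) (XT.lf (nat_lit 0) (nat_lit 323224275019) (nat_lit 76) (nat_lit 477755512630) (nat_lit 152) (nat_lit 144829119704) (nat_lit 61) (nat_lit 5) (nat_lit 62) (nat_lit 5) (nat_lit 63) (nat_lit 4)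 (nat_lit 534) (nat_lit 479) (nat_lit 187)) (XT.lf (nat_lit 0) (nat_lit 115082192327) (nat_lit 152) (nat_lit 50867644941) (nat_lit 76) (nat_lit 811151473352) (nat_lit 60) (nat_lit 5) (nat_lit 62) (nat_lit 5) (nat_lit 61) (nat_lit 5) (nat_lit 535) (nat_lit 479) (nat_lit 186))))) (XT.nd (nat_lit 312) (nat_lit 0) (nat_lit 0) (XT.nd (nat_lit 156) (nat_lit 228) (nat_lit 0) (XT.nd (nat_lit 78) (nat_lit 76) (nat_lit 0) (XT.lf (nat_lit 0) (nat_lit 394649602118) (nat_lit 228) (nat_lit 446953429297) (nat_lit 76) (nat_lit 167660203230) (nat_lit 58) (nat_lit 5) (nat_lit 61) (nat_lit 5) (nat_lit 59) (nat_lit 4) (nat_lit 536) (nat_lit 479) (nat_lit 185)) (XT.lf (nat_lit 0) (nat_lit 167549953505) (nat_lit 76) (nat_lit 526857413514) (nat_lit 152) (nat_lit 348315288621) (nat_lit 57) (nat_lit 5) (nat_lit 58) (nat_lit 5) (nat_lit 59) (nat_lit 4) (nat_lit 537) (nat_lit 479) (nat_lit 184))) (XT.nd (nat_lit 78) (nat_lit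 228) (nat_lit 0) (XT.lf (nat_lit 0) (nat_lit 828295683577) (nat_lit 76) (nat_lit 188426690096) (nat_lit 152) (nat_lit 60754206339) (nat_lit 57) (nat_lit 5) (nat_lit 58) (nat_lit 5) (nat_lit 59) (nat_lit 4) (nat_lit 538) (nat_lit 479) (nat_lit 183)) (XT.lf (nat_lit 0) (nat_lit 242761998778) (nat_lit 228) (nat_lit 698514297193) (nat_lit 76) (nat_lit 172038801361) (nat_lit 54) (nat_lit 5) (nat_lit 57) (nat_lit 5) (nat_lit 55) (nat_lit 4) (nat_lit 539) (nat_lit 479) (nat_lit 182)))) (XT.nd (nat_lit 57876) (nat_lit 0) (nat_lit 7068) (XT.nd (nat_lit 57798) (nat_lit 0) (nat_lit 7068) (XT.lf (nat_lit 0) (nat_lit 566790397551) (nat_lit 228) (nat_lit 34256108705) (nat_lit 76) (nat_lit 549480329577) (nat_lit 54) (nat_lit 5) (nat_lit 57) (nat_lit 5) (nat_lit 55) (nat_lit 4) (nat_lit 540) (nat_lit 479) (nat_lit 181)) (XT.lf (nat_lit 0) (nat_lit 41834014638) (nat_lit 836) (nat_lit 29389680166) (nat_lit 836)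 (nat_lit 29389680166) (nat_lit 147) (nat_lit 3) (nat_lit 158) (nat_lit 3) (nat_lit 158) (nat_lit 5) (nat_lit 480) (nat_lit 480) (nat_lit 240))) (XT.nd (nat_lit 78) (nat_lit 0) (nat_lit 76) (XT.lf (nat_lit 76) (nat_lit 42375259843) (nat_lit 0) (nat_lit 44047654246) (nat_lit 836) (nat_lit 119801345149) (nat_lit 148) (nat_lit 5) (nat_lit 147) (nat_lit 3) (nat_lit 158) (nat_lit 5) (nat_lit 481) (nat_lit 480) (nat_lit 239)) (XT.lf (nat_lit 0) (nat_lit 91252620366) (nat_lit 760) (nat_lit 61735356524) (nat_lit 836) (nat_lit 58386813267) (nat_lit 148) (nat_lit 5) (nat_lit 158) (nat_lit 5) (nat_lit 159) (nat_lit 5) (nat_lit 482) (nat_lit 480) (nat_lit 238)))))) (XT.nd (nat_lit 624) (nat_lit 1976) (nat_lit 0) (XT.nd (nat_lit 312) (nat_lit 0) (nat_lit 152) (XT.nd (nat_lit 156) (nat_lit 0) (nat_lit 76) (XT.nd (nat_lit 78) (nat_lit 0) (nat_lit 76) (XT.lf (nat_lit 76) (nat_lit 46241845544) (nat_lit 0) (nat_lit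 51525927009) (nat_lit 836) (nat_lit 118942877054) (nat_lit 149) (nat_lit 5) (nat_lit 148) (nat_lit 5) (nat_lit 159) (nat_lit 5) (nat_lit 483) (nat_lit 480) (nat_lit 237)) (XT.lf (nat_lit 0) (nat_lit 106530095684) (nat_lit 760) (nat_lit 61375856439) (nat_lit 836) (nat_lit 54311279254) (nat_lit 149) (nat_lit 5) (nat_lit 159) (nat_lit 5) (nat_lit 160) (nat_lit 5) (nat_lit 484) (nat_lit 480) (nat_lit 236))) (XT.nd (nat_lit 78) (nat_lit 0) (nat_lit 76) (XT.lf (nat_lit 76) (nat_lit 54057158478) (nat_lit 0) (nat_lit 63361959355) (nat_lit 836) (nat_lit 110495595272) (nat_lit 150) (nat_lit 5) (nat_lit 149) (nat_lit 5) (nat_lit 160) (nat_lit 5) (nat_lit 485) (nat_lit 480) (nat_lit 235)) (XT.lf (nat_lit 0) (nat_lit 130633554439) (nat_lit 760) (nat_lit 57194123303) (nat_lit 836) (nat_lit 45980343024) (nat_lit 150) (nat_lit 5) (nat_lit 160) (nat_lit 5) (nat_lit 161) (nat_lit 5) (nat_lit 486) (nat_lit 480)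 (nat_lit 234)))) (XT.nd (nat_lit 156) (nat_lit 0) (nat_lit 76) (XT.nd (nat_lit 78) (nat_lit 0) (nat_lit 76) (XT.lf (nat_lit 76) (nat_lit 66388546917) (nat_lit 0) (nat_lit 80195317394) (nat_lit 836) (nat_lit 93308371939) (nat_lit 151) (nat_lit 5) (nat_lit 150) (nat_lit 5) (nat_lit 161) (nat_lit 5) (nat_lit 487) (nat_lit 480) (nat_lit 233)) (XT.lf (nat_lit 0) (nat_lit 164828492674) (nat_lit 760) (nat_lit 48624564005) (nat_lit 836) (nat_lit 32752765690) (nat_lit 151) (nat_lit 5) (nat_lit 161) (nat_lit 5) (nat_lit 162) (nat_lit 5) (nat_lit 488) (nat_lit 480) (nat_lit 232))) (XT.nd (nat_lit 78) (nat_lit 0) (nat_lit 76) (XT.lf (nat_lit 76) (nat_lit 83868082332) (nat_lit 0) (nat_lit 102741289659) (nat_lit 836) (nat_lit 66094514838) (nat_lit 152) (nat_lit 5) (nat_lit 151) (nat_lit 5) (nat_lit 162) (nat_lit 5) (nat_lit 489) (nat_lit 480) (nat_lit 231)) (XT.lf (nat_lit 0) (nat_lit 210527072170) (nat_lit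 760) (nat_lit 35036614747) (nat_lit 76) (nat_lit 13910778762) (nat_lit 152) (nat_lit 5) (nat_lit 162) (nat_lit 5) (nat_lit 153) (nat_lit 5) (nat_lit 490) (nat_lit 480) (nat_lit 230))))) (XT.nd (nat_lit 312) (nat_lit 684) (nat_lit 0) (XT.nd (nat_lit 156) (nat_lit 836) (nat_lit 0) (XT.nd (nat_lit 78) (nat_lit 0) (nat_lit 0) (XT.lf (nat_lit 0) (nat_lit 107199235988) (nat_lit 760) (nat_lit 131799317836) (nat_lit 836) (nat_lit 27417124833) (nat_lit 142) (nat_lit 5) (nat_lit 152) (nat_lit 5) (nat_lit 153) (nat_lit 5) (nat_lit 491) (nat_lit 480) (nat_lit 229)) (XT.lf (nat_lit 0) (nat_lit 257763212290) (nat_lit 760) (nat_lit 11723694116) (nat_lit 836) (nat_lit 4187381046) (nat_lit 142) (nat_lit 5) (nat_lit 152) (nat_lit 5) (nat_lit 153) (nat_lit 5) (nat_lit 492) (nat_lit 480) (nat_lit 228))) (XT.nd (nat_lit 78) (nat_lit 380) (nat_lit 0) (XT.lf (nat_lit 0) (nat_lit 23548444136) (nat_lit 456) (nat_lit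 144315097817) (nat_lit 76) (nat_lit 113216950628) (nat_lit 136) (nat_lit 5) (nat_lit 142) (nat_lit 5) (nat_lit 137) (nat_lit 5) (nat_lit 493) (nat_lit 480) (nat_lit 227)) (XT.lf (nat_lit 0) (nat_lit 8800919007) (nat_lit 380) (nat_lit 44332835050) (nat_lit 456) (nat_lit 235689650790) (nat_lit 131) (nat_lit 5) (nat_lit 136) (nat_lit 5) (nat_lit 137) (nat_lit 5) (nat_lit 494) (nat_lit 480) (nat_lit 226)))) (XT.nd (nat_lit 156) (nat_lit 304) (nat_lit 0) (XT.nd (nat_lit 78) (nat_lit 380) (nat_lit 0) (XT.lf (nat_lit 0) (nat_lit 88015316596) (nat_lit 456) (nat_lit 123621292058) (nat_lit 76) (nat_lit 85126004725) (nat_lit 131) (nat_lit 5) (nat_lit 137) (nat_lit 5) (nat_lit 132) (nat_lit 5) (nat_lit 495) (nat_lit 480) (nat_lit 225)) (XT.lf (nat_lit 0) (nat_lit 41191519947) (nat_lit 380) (nat_lit 84819263998) (nat_lit 456) (nat_lit 179019507066) (nat_lit 126) (nat_lit 5) (nat_lit 131) (nat_lit 5) (nat_lit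 132) (nat_lit 5) (nat_lit 496) (nat_lit 480) (nat_lit 224))) (XT.nd (nat_lit 78) (nat_lit 304) (nat_lit 0) (XT.lf (nat_lit 0) (nat_lit 168788584120) (nat_lit 456) (nat_lit 95858937336) (nat_lit 76) (nat_lit 48919703102) (nat_lit 126) (nat_lit 5) (nat_lit 132) (nat_lit 5) (nat_lit 127) (nat_lit 5) (nat_lit 497) (nat_lit 480) (nat_lit 223)) (XT.lf (nat_lit 0) (nat_lit 81745723662) (nat_lit 304) (nat_lit 134626258337) (nat_lit 380) (nat_lit 106025687406) (nat_lit 122) (nat_lit 5) (nat_lit 126) (nat_lit 5) (nat_lit 127) (nat_lit 5) (nat_lit 498) (nat_lit 480) (nat_lit 222))))))) (XT.nd (nat_lit 1170) (nat_lit 1900) (nat_lit 0) (XT.nd (nat_lit 546) (nat_lit 988) (nat_lit 0) (XT.nd (nat_lit 234) (nat_lit 836) (nat_lit 0) (XT.nd (nat_lit 78) (nat_lit 380) (nat_lit 0) (XT.lf (nat_lit 0) (nat_lit 268014133179) (nat_lit 380) (nat_lit 60086118214) (nat_lit 76) (nat_lit 3485405938) (nat_lit 122) (nat_lit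 5) (nat_lit 127) (nat_lit 5) (nat_lit 123) (nat_lit 5) (nat_lit 499) (nat_lit 480) (nat_lit 221)) (XT.nd (nat_lit 78) (nat_lit 76) (nat_lit 0) (XT.lf (nat_lit 0) (nat_lit 131510100391) (nat_lit 304) (nat_lit 194988472575) (nat_lit 380) (nat_lit 14521462641) (nat_lit 118) (nat_lit 5) (nat_lit 122) (nat_lit 5) (nat_lit 123) (nat_lit 5) (nat_lit 500) (nat_lit 480) (nat_lit 220)) (XT.lf (nat_lit 0) (nat_lit 36831697605) (nat_lit 380) (nat_lit 16697187175) (nat_lit 76) (nat_lit 297316667996) (nat_lit 117) (nat_lit 5) (nat_lit 122) (nat_lit 5) (nat_lit 118) (nat_lit 5) (nat_lit 501) (nat_lit 480) (nat_lit 219)))) (XT.nd (nat_lit 156) (nat_lit 228) (nat_lit 0) (XT.nd (nat_lit 78) (nat_lit 304) (nat_lit 0) (XT.lf (nat_lit 0) (nat_lit 94792910635) (nat_lit 380) (nat_lit 170884910527) (nat_lit 76) (nat_lit 95246201253) (nat_lit 113) (nat_lit 5) (nat_lit 118) (nat_lit 5) (nat_lit 114) (nat_lit 5) (nat_lit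 502) (nat_lit 480) (nat_lit 218)) (XT.lf (nat_lit 0) (nat_lit 36485176880) (nat_lit 304) (nat_lit 120901532624) (nat_lit 380) (nat_lit 214032979776) (nat_lit 109) (nat_lit 5) (nat_lit 113) (nat_lit 5) (nat_lit 114) (nat_lit 5) (nat_lit 503) (nat_lit 480) (nat_lit 217))) (XT.nd (nat_lit 78) (nat_lit 228) (nat_lit 0) (XT.lf (nat_lit 0) (nat_lit 226537386989) (nat_lit 380) (nat_lit 122672201707) (nat_lit 76) (nat_lit 33059191365) (nat_lit 109) (nat_lit 5) (nat_lit 114) (nat_lit 5) (nat_lit 110) (nat_lit 5) (nat_lit 504) (nat_lit 480) (nat_lit 216)) (XT.lf (nat_lit 0) (nat_lit 101468813545) (nat_lit 228) (nat_lit 201242948797) (nat_lit 304) (nat_lit 90770254842) (nat_lit 106) (nat_lit 5) (nat_lit 109) (nat_lit 5) (nat_lit 110) (nat_lit 5) (nat_lit 505) (nat_lit 480) (nat_lit 215))))) (XT.nd (nat_lit 312) (nat_lit 456) (nat_lit 0) (XT.nd (nat_lit 156) (nat_lit 228) (nat_lit 0) (XT.nd (nat_lit 78)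 (nat_lit 304) (nat_lit 0) (XT.lf (nat_lit 0) (nat_lit 341075727923) (nat_lit 228) (nat_lit 43696601860) (nat_lit 304) (nat_lit 20379712721) (nat_lit 106) (nat_lit 5) (nat_lit 109) (nat_lit 5) (nat_lit 110) (nat_lit 5) (nat_lit 506) (nat_lit 480) (nat_lit 214)) (XT.lf (nat_lit 0) (nat_lit 56590584242) (nat_lit 304) (nat_lit 238994666804) (nat_lit 76) (nat_lit 121539853430) (nat_lit 102) (nat_lit 5) (nat_lit 106) (nat_lit 5) (nat_lit 103) (nat_lit 5) (nat_lit 507) (nat_lit 480) (nat_lit 213))) (XT.nd (nat_lit 78) (nat_lit 0) (nat_lit 0) (XT.lf (nat_lit 0) (nat_lit 4092254848) (nat_lit 228) (nat_lit 134515393787) (nat_lit 304) (nat_lit 290978309005) (nat_lit 99) (nat_lit 5) (nat_lit 102) (nat_lit 5) (nat_lit 103) (nat_lit 5) (nat_lit 508) (nat_lit 480) (nat_lit 212)) (XT.lf (nat_lit 0) (nat_lit 229379699108) (nat_lit 304) (nat_lit 175443334456) (nat_lit 76) (nat_lit 37614113259) (nat_lit 99) (nat_lit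 5) (nat_lit 103) (nat_lit 5) (nat_lit 100) (nat_lit 5) (nat_lit 509) (nat_lit 480) (nat_lit 211)))) (XT.nd (nat_lit 156) (nat_lit 228) (nat_lit 0) (XT.nd (nat_lit 78) (nat_lit 0) (nat_lit 0) (XT.lf (nat_lit 0) (nat_lit 87711651308) (nat_lit 228) (nat_lit 240553260681) (nat_lit 304) (nat_lit 127487255485) (nat_lit 96) (nat_lit 5) (nat_lit 99) (nat_lit 5) (nat_lit 100) (nat_lit 5) (nat_lit 510) (nat_lit 480) (nat_lit 210)) (XT.lf (nat_lit 0) (nat_lit 370115332385) (nat_lit 228) (nat_lit 64950236585) (nat_lit 304) (nat_lit 34518811017) (nat_lit 96) (nat_lit 5) (nat_lit 99) (nat_lit 5) (nat_lit 100) (nat_lit 5) (nat_lit 511) (nat_lit 480) (nat_lit 209))) (XT.nd (nat_lit 78) (nat_lit 0) (nat_lit 0) (XT.lf (nat_lit 0) (nat_lit 65935483842) (nat_lit 228) (nat_lit 298292842921) (nat_lit 76) (nat_lit 119587771493) (nat_lit 93) (nat_lit 5) (nat_lit 96) (nat_lit 5) (nat_lit 94) (nat_lit 5) (nat_lit 512)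 (nat_lit 480) (nat_lit 208)) (XT.lf (nat_lit 0) (nat_lit 173029332519) (nat_lit 228) (nat_lit 12114965942) (nat_lit 76) (nat_lit 313447964998) (nat_lit 93) (nat_lit 5) (nat_lit 96) (nat_lit 5) (nat_lit 94) (nat_lit 5) (nat_lit 513) (nat_lit 480) (nat_lit 207)))))) (XT.nd (nat_lit 624) (nat_lit 836) (nat_lit 0) (XT.nd (nat_lit 312) (nat_lit 380) (nat_lit 0) (XT.nd (nat_lit 156) (nat_lit 304) (nat_lit 0) (XT.nd (nat_lit 78) (nat_lit 152) (nat_lit 0) (XT.lf (nat_lit 0) (nat_lit 290250430540) (nat_lit 304) (nat_lit 216089481004) (nat_lit 76) (nat_lit 7528697536) (nat_lit 90) (nat_lit 5) (nat_lit 94) (nat_lit 5) (nat_lit 91) (nat_lit 5) (nat_lit 514) (nat_lit 480) (nat_lit 206)) (XT.lf (nat_lit 0) (nat_lit 93648800449) (nat_lit 152) (nat_lit 324389561394) (nat_lit 228) (nat_lit 111635121223) (nat_lit 88) (nat_lit 5) (nat_lit 90) (nat_lit 5) (nat_lit 91) (nat_lit 5) (nat_lit 515) (nat_lit 480) (nat_lit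 205))) (XT.nd (nat_lit 78) (nat_lit 228) (nat_lit 0) (XT.lf (nat_lit 0) (nat_lit 9476287660) (nat_lit 228) (nat_lit 119862378822) (nat_lit 76) (nat_lit 416739314600) (nat_lit 87) (nat_lit 5) (nat_lit 90) (nat_lit 5) (nat_lit 88) (nat_lit 5) (nat_lit 516) (nat_lit 480) (nat_lit 204)) (XT.lf (nat_lit 0) (nat_lit 137546962552) (nat_lit 304) (nat_lit 347074791845) (nat_lit 76) (nat_lit 78356677024) (nat_lit 84) (nat_lit 5) (nat_lit 88) (nat_lit 5) (nat_lit 85) (nat_lit 5) (nat_lit 517) (nat_lit 480) (nat_lit 203)))) (XT.nd (nat_lit 156) (nat_lit 228) (nat_lit 0) (XT.nd (nat_lit 78) (nat_lit 152) (nat_lit 0) (XT.lf (nat_lit 0) (nat_lit 276204653587) (nat_lit 304) (nat_lit 10156727548) (nat_lit 76) (nat_lit 294153349022) (nat_lit 84) (nat_lit 5) (nat_lit 88) (nat_lit 5) (nat_lit 85) (nat_lit 5) (nat_lit 518) (nat_lit 480) (nat_lit 202)) (XT.lf (nat_lit 0) (nat_lit 354968401668) (nat_lit 152) (nat_lit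 72368851920) (nat_lit 228) (nat_lit 171313489024) (nat_lit 82) (nat_lit 5) (nat_lit 84) (nat_lit 5) (nat_lit 85) (nat_lit 5) (nat_lit 519) (nat_lit 480) (nat_lit 201))) (XT.nd (nat_lit 78) (nat_lit 76) (nat_lit 0) (XT.lf (nat_lit 0) (nat_lit 122559047879) (nat_lit 152) (nat_lit 467933921717) (nat_lit 228) (nat_lit 26977261797) (nat_lit 80) (nat_lit 5) (nat_lit 82) (nat_lit 5) (nat_lit 83) (nat_lit 5) (nat_lit 520) (nat_lit 480) (nat_lit 200)) (XT.lf (nat_lit 0) (nat_lit 125969454047) (nat_lit 228) (nat_lit 124650793779) (nat_lit 76) (nat_lit 386244153933) (nat_lit 79) (nat_lit 5) (nat_lit 82) (nat_lit 5) (nat_lit 80) (nat_lit 5) (nat_lit 521) (nat_lit 480) (nat_lit 199))))) (XT.nd (nat_lit 312) (nat_lit 304) (nat_lit 0) (XT.nd (nat_lit 156) (nat_lit 228) (nat_lit 0) (XT.nd (nat_lit 78) (nat_lit 152) (nat_lit 0) (XT.lf (nat_lit 0) (nat_lit 272398785165) (nat_lit 152) (nat_lit 17510990708) (nat_lit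 228) (nat_lit 367083748107) (nat_lit 77) (nat_lit 5) (nat_lit 79) (nat_lit 5) (nat_lit 80) (nat_lit 5) (nat_lit 522) (nat_lit 480) (nat_lit 198)) (XT.lf (nat_lit 0) (nat_lit 12419675932) (nat_lit 152) (nat_lit 455515014761) (nat_lit 228) (nat_lit 209900032776) (nat_lit 75) (nat_lit 5) (nat_lit 77) (nat_lit 5) (nat_lit 78) (nat_lit 5) (nat_lit 523) (nat_lit 480) (nat_lit 197))) (XT.nd (nat_lit 78) (nat_lit 228) (nat_lit 0) (XT.lf (nat_lit 0) (nat_lit 442340473230) (nat_lit 152) (nat_lit 219316086836) (nat_lit 228) (nat_lit 37721637427) (nat_lit 75) (nat_lit 5) (nat_lit 77) (nat_lit 5) (nat_lit 78) (nat_lit 5) (nat_lit 524) (nat_lit 480) (nat_lit 196)) (XT.lf (nat_lit 0) (nat_lit 141750345239) (nat_lit 228) (nat_lit 547149843385) (nat_lit 76) (nat_lit 32823790653) (nat_lit 72) (nat_lit 5) (nat_lit 75) (nat_lit 5) (nat_lit 73) (nat_lit 5) (nat_lit 525) (nat_lit 480) (nat_lit 195)))) (XT.nd (nat_lit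 156) (nat_lit 152) (nat_lit 0) (XT.nd (nat_lit 78) (nat_lit 152) (nat_lit 0) (XT.lf (nat_lit 0) (nat_lit 336947974703) (nat_lit 228) (nat_lit 112564174605) (nat_lit 76) (nat_lit 295242994366) (nat_lit 72) (nat_lit 5) (nat_lit 75) (nat_lit 5) (nat_lit 73) (nat_lit 5) (nat_lit 526) (nat_lit 480) (nat_lit 194)) (XT.lf (nat_lit 0) (nat_lit 355116690397) (nat_lit 152) (nat_lit 192333139618) (nat_lit 228) (nat_lit 221210819059) (nat_lit 70) (nat_lit 5) (nat_lit 72) (nat_lit 5) (nat_lit 73) (nat_lit 5) (nat_lit 527) (nat_lit 480) (nat_lit 193))) (XT.nd (nat_lit 78) (nat_lit 76) (nat_lit 0) (XT.lf (nat_lit 0) (nat_lit 57003444969) (nat_lit 76) (nat_lit 715514064556) (nat_lit 152) (nat_lit 21041883647) (nat_lit 69) (nat_lit 5) (nat_lit 70) (nat_lit 5) (nat_lit 71) (nat_lit 4) (nat_lit 528) (nat_lit 480) (nat_lit 192)) (XT.lf (nat_lit 0) (nat_lit 193353341240) (nat_lit 152) (nat_lit 260138154299) (nat_lit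 76) (nat_lit 365550364188) (nat_lit 68) (nat_lit 5) (nat_lit 70) (nat_lit 5) (nat_lit 69) (nat_lit 5) (nat_lit 529) (nat_lit 480) (nat_lit 191))))))))
noncomputable def xc233 : XT := (XT.nd (nat_lit 60216) (nat_lit 0) (nat_lit 912) (XT.nd (nat_lit 58968) (nat_lit 0) (nat_lit 5168) (XT.nd (nat_lit 546) (nat_lit 456) (nat_lit 0) (XT.nd (nat_lit 234) (nat_lit 304) (nat_lit 0) (XT.nd (nat_lit 78) (nat_lit 152) (nat_lit 0) (XT.lf (nat_lit 0) (nat_lit 247682943916) (nat_lit 152) (nat_lit 173945242050) (nat_lit 228) (nat_lit 423959666005) (nat_lit 66) (nat_lit 5) (nat_lit 68) (nat_lit 5) (nat_lit 69) (nat_lit 5) (nat_lit 530) (nat_lit 480) (nat_lit 190)) (XT.nd (nat_lit 78) (nat_lit 152) (nat_lit 0) (XT.lf (nat_lit 0) (nat_lit 667661492739) (nat_lit 228) (nat_lit 85253572002) (nat_lit 76) (nat_lit 120228843097) (nat_lit 66) (nat_lit 5) (nat_lit 69) (nat_lit 5) (nat_lit 67) (nat_lit 4) (nat_lit 531)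 (nat_lit 480) (nat_lit 189)) (XT.lf (nat_lit 0) (nat_lit 33431417937) (nat_lit 152) (nat_lit 437047682837) (nat_lit 76) (nat_lit 431066080464) (nat_lit 64) (nat_lit 5) (nat_lit 66) (nat_lit 5) (nat_lit 65) (nat_lit 5) (nat_lit 532) (nat_lit 480) (nat_lit 188)))) (XT.nd (nat_lit 156) (nat_lit 152) (nat_lit 0) (XT.nd (nat_lit 78) (nat_lit 0) (nat_lit 0) (XT.lf (nat_lit 0) (nat_lit 113646742399) (nat_lit 152) (nat_lit 166980447532) (nat_lit 228) (nat_lit 650408809974) (nat_lit 62) (nat_lit 5) (nat_lit 64) (nat_lit 5) (nat_lit 65) (nat_lit 5) (nat_lit 533) (nat_lit 480) (nat_lit 187)) (XT.lf (nat_lit 0) (nat_lit 550074037812) (nat_lit 228) (nat_lit 257071810272) (nat_lit 76) (nat_lit 154360947060) (nat_lit 62) (nat_lit 5) (nat_lit 65) (nat_lit 5) (nat_lit 63) (nat_lit 4) (nat_lit 534) (nat_lit 480) (nat_lit 186))) (XT.nd (nat_lit 78) (nat_lit 76) (nat_lit 0) (XT.lf (nat_lit 0) (nat_lit 339386580665)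 (nat_lit 76) (nat_lit 501642788755) (nat_lit 152) (nat_lit 152069953657) (nat_lit 61) (nat_lit 5) (nat_lit 62) (nat_lit 5) (nat_lit 63) (nat_lit 4) (nat_lit 535) (nat_lit 480) (nat_lit 185)) (XT.lf (nat_lit 0) (nat_lit 120836875394) (nat_lit 152) (nat_lit 53409968306) (nat_lit 76) (nat_lit 851709503757) (nat_lit 60) (nat_lit 5) (nat_lit 62) (nat_lit 5) (nat_lit 61) (nat_lit 5) (nat_lit 536) (nat_lit 480) (nat_lit 184))))) (XT.nd (nat_lit 58110) (nat_lit 0) (nat_lit 7068) (XT.nd (nat_lit 156) (nat_lit 228) (nat_lit 0) (XT.nd (nat_lit 78) (nat_lit 76) (nat_lit 0) (XT.lf (nat_lit 0) (nat_lit 414382652118) (nat_lit 228) (nat_lit 469300038302) (nat_lit 76) (nat_lit 176043677443) (nat_lit 58) (nat_lit 5) (nat_lit 61) (nat_lit 5) (nat_lit 59) (nat_lit 4) (nat_lit 537) (nat_lit 480) (nat_lit 183)) (XT.lf (nat_lit 0) (nat_lit 175928496504) (nat_lit 76) (nat_lit 553199797943) (nat_lit 152) (nat_lit 365730466003)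 (nat_lit 57) (nat_lit 5) (nat_lit 58) (nat_lit 5) (nat_lit 59) (nat_lit 4) (nat_lit 538) (nat_lit 480) (nat_lit 182))) (XT.nd (nat_lit 78) (nat_lit 228) (nat_lit 0) (XT.lf (nat_lit 0) (nat_lit 869711463302) (nat_lit 76) (nat_lit 197847561508) (nat_lit 152) (nat_lit 63791357561) (nat_lit 57) (nat_lit 5) (nat_lit 58) (nat_lit 5) (nat_lit 59) (nat_lit 4) (nat_lit 539) (nat_lit 480) (nat_lit 181)) (XT.lf (nat_lit 0) (nat_lit 254900636991) (nat_lit 228) (nat_lit 733438995651) (nat_lit 76) (nat_lit 180641192626) (nat_lit 54) (nat_lit 5) (nat_lit 57) (nat_lit 5) (nat_lit 55) (nat_lit 4) (nat_lit 540) (nat_lit 480) (nat_lit 180)))) (XT.nd (nat_lit 156) (nat_lit 0) (nat_lit 76) (XT.nd (nat_lit 78) (nat_lit 0) (nat_lit 0) (XT.lf (nat_lit 0) (nat_lit 43927278103) (nat_lit 836) (nat_lit 30858343618) (nat_lit 836) (nat_lit 30858343618) (nat_lit 147) (nat_lit 3) (nat_lit 158) (nat_lit 3) (nat_lit 158) (nat_lit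 5) (nat_lit 481) (nat_lit 481) (nat_lit 238)) (XT.lf (nat_lit 76) (nat_lit 44495637478) (nat_lit 0) (nat_lit 46251424161) (nat_lit 836) (nat_lit 125788260010) (nat_lit 148) (nat_lit 5) (nat_lit 147) (nat_lit 3) (nat_lit 158) (nat_lit 5) (nat_lit 482) (nat_lit 481) (nat_lit 237))) (XT.nd (nat_lit 78) (nat_lit 0) (nat_lit 0) (XT.lf (nat_lit 0) (nat_lit 95818089657) (nat_lit 760) (nat_lit 64820422586) (nat_lit 836) (nat_lit 61304875071) (nat_lit 148) (nat_lit 5) (nat_lit 158) (nat_lit 5) (nat_lit 159) (nat_lit 5) (nat_lit 483) (nat_lit 481) (nat_lit 236)) (XT.lf (nat_lit 76) (nat_lit 48555612138) (nat_lit 0) (nat_lit 54103278300) (nat_lit 836) (nat_lit 124887154769) (nat_lit 149) (nat_lit 5) (nat_lit 148) (nat_lit 5) (nat_lit 159) (nat_lit 5) (nat_lit 484) (nat_lit 481) (nat_lit 235)))))) (XT.nd (nat_lit 624) (nat_lit 1520) (nat_lit 0) (XT.nd (nat_lit 312) (nat_lit 532) (nat_lit 0) (XT.nd (nat_lit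 156) (nat_lit 0) (nat_lit 76) (XT.nd (nat_lit 78) (nat_lit 0) (nat_lit 0) (XT.lf (nat_lit 0) (nat_lit 111859184074) (nat_lit 760) (nat_lit 64442908625) (nat_lit 836) (nat_lit 57025870668) (nat_lit 149) (nat_lit 5) (nat_lit 159) (nat_lit 5) (nat_lit 160) (nat_lit 5) (nat_lit 485) (nat_lit 481) (nat_lit 234)) (XT.lf (nat_lit 76) (nat_lit 56761728963) (nat_lit 0) (nat_lit 66530832077) (nat_lit 836) (nat_lit 116017762975) (nat_lit 150) (nat_lit 5) (nat_lit 149) (nat_lit 5) (nat_lit 160) (nat_lit 5) (nat_lit 486) (nat_lit 481) (nat_lit 233))) (XT.nd (nat_lit 78) (nat_lit 0) (nat_lit 0) (XT.lf (nat_lit 0) (nat_lit 137167589513) (nat_lit 760) (nat_lit 60052068133) (nat_lit 836) (nat_lit 48278645930) (nat_lit 150) (nat_lit 5) (nat_lit 160) (nat_lit 5) (nat_lit 161) (nat_lit 5) (nat_lit 487) (nat_lit 481) (nat_lit 232)) (XT.lf (nat_lit 76) (nat_lit 69709707189) (nat_lit 0) (nat_lit 84205622490) (nat_lit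 836) (nat_lit 97971404432) (nat_lit 151) (nat_lit 5) (nat_lit 150) (nat_lit 5) (nat_lit 161) (nat_lit 5) (nat_lit 488) (nat_lit 481) (nat_lit 231)))) (XT.nd (nat_lit 156) (nat_lit 684) (nat_lit 0) (XT.nd (nat_lit 78) (nat_lit 0) (nat_lit 0) (XT.lf (nat_lit 0) (nat_lit 173072073245) (nat_lit 760) (nat_lit 51054025256) (nat_lit 836) (nat_lit 34389906863) (nat_lit 151) (nat_lit 5) (nat_lit 161) (nat_lit 5) (nat_lit 162) (nat_lit 5) (nat_lit 489) (nat_lit 481) (nat_lit 230)) (XT.lf (nat_lit 76) (nat_lit 88063224899) (nat_lit 0) (nat_lit 107878696108) (nat_lit 836) (nat_lit 69397055832) (nat_lit 152) (nat_lit 5) (nat_lit 151) (nat_lit 5) (nat_lit 162) (nat_lit 5) (nat_lit 490) (nat_lit 481) (nat_lit 229))) (XT.nd (nat_lit 78) (nat_lit 760) (nat_lit 0) (XT.lf (nat_lit 0) (nat_lit 221055402042) (nat_lit 760) (nat_lit 36786685368) (nat_lit 76) (nat_lit 14606002443) (nat_lit 152) (nat_lit 5) (nat_lit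 162) (nat_lit 5) (nat_lit 153) (nat_lit 5) (nat_lit 491) (nat_lit 481) (nat_lit 228)) (XT.lf (nat_lit 0) (nat_lit 112560929515) (nat_lit 760) (nat_lit 138389461194) (nat_lit 836) (nat_lit 28785976140) (nat_lit 142) (nat_lit 5) (nat_lit 152) (nat_lit 5) (nat_lit 153) (nat_lit 5) (nat_lit 492) (nat_lit 481) (nat_lit 227))))) (XT.nd (nat_lit 312) (nat_lit 684) (nat_lit 0) (XT.nd (nat_lit 156) (nat_lit 380) (nat_lit 0) (XT.nd (nat_lit 78) (nat_lit 456) (nat_lit 0) (XT.lf (nat_lit 0) (nat_lit 270653022168) (nat_lit 760) (nat_lit 12310047837) (nat_lit 836) (nat_lit 4394840636) (nat_lit 142) (nat_lit 5) (nat_lit 152) (nat_lit 5) (nat_lit 153) (nat_lit 5) (nat_lit 493) (nat_lit 481) (nat_lit 226)) (XT.lf (nat_lit 0) (nat_lit 24727651334) (nat_lit 456) (nat_lit 151529078472) (nat_lit 76) (nat_lit 118877697910) (nat_lit 136) (nat_lit 5) (nat_lit 142) (nat_lit 5) (nat_lit 137) (nat_lit 5) (nat_lit 494)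 (nat_lit 481) (nat_lit 225))) (XT.nd (nat_lit 78) (nat_lit 0) (nat_lit 0) (XT.lf (nat_lit 0) (nat_lit 9242710576) (nat_lit 380) (nat_lit 46549458430) (nat_lit 456) (nat_lit 247472319489) (nat_lit 131) (nat_lit 5) (nat_lit 136) (nat_lit 5) (nat_lit 137) (nat_lit 5) (nat_lit 495) (nat_lit 481) (nat_lit 224)) (XT.lf (nat_lit 0) (nat_lit 92417727694) (nat_lit 456) (nat_lit 129800611969) (nat_lit 76) (nat_lit 89382321900) (nat_lit 131) (nat_lit 5) (nat_lit 137) (nat_lit 5) (nat_lit 132) (nat_lit 5) (nat_lit 496) (nat_lit 481) (nat_lit 223)))) (XT.nd (nat_lit 156) (nat_lit 304) (nat_lit 0) (XT.nd (nat_lit 78) (nat_lit 0) (nat_lit 0) (XT.lf (nat_lit 0) (nat_lit 43252812496) (nat_lit 380) (nat_lit 89060104369) (nat_lit 456) (nat_lit 187968808800) (nat_lit 126) (nat_lit 5) (nat_lit 131) (nat_lit 5) (nat_lit 132) (nat_lit 5) (nat_lit 497) (nat_lit 481) (nat_lit 222)) (XT.lf (nat_lit 0) (nat_lit 177229532984)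 (nat_lit 456) (nat_lit 100650175126) (nat_lit 76) (nat_lit 51365801493) (nat_lit 126) (nat_lit 5) (nat_lit 132) (nat_lit 5) (nat_lit 127) (nat_lit 5) (nat_lit 498) (nat_lit 481) (nat_lit 221))) (XT.nd (nat_lit 78) (nat_lit 0) (nat_lit 0) (XT.lf (nat_lit 0) (nat_lit 85834691357) (nat_lit 304) (nat_lit 141357363288) (nat_lit 380) (nat_lit 111325424362) (nat_lit 122) (nat_lit 5) (nat_lit 126) (nat_lit 5) (nat_lit 127) (nat_lit 5) (nat_lit 499) (nat_lit 481) (nat_lit 220)) (XT.lf (nat_lit 0) (nat_lit 281416246308) (nat_lit 380) (nat_lit 63088755426) (nat_lit 76) (nat_lit 3659867958) (nat_lit 122) (nat_lit 5) (nat_lit 127) (nat_lit 5) (nat_lit 123) (nat_lit 5) (nat_lit 500) (nat_lit 481) (nat_lit 219))))))) (XT.nd (nat_lit 1170) (nat_lit 1824) (nat_lit 0) (XT.nd (nat_lit 546) (nat_lit 1216) (nat_lit 0) (XT.nd (nat_lit 234) (nat_lit 532) (nat_lit 0) (XT.nd (nat_lit 78) (nat_lit 380) (nat_lit 0) (XT.lf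 (nat_lit 0) (nat_lit 138087247194) (nat_lit 304) (nat_lit 204737619548) (nat_lit 380) (nat_lit 15246102215) (nat_lit 118) (nat_lit 5) (nat_lit 122) (nat_lit 5) (nat_lit 123) (nat_lit 5) (nat_lit 501) (nat_lit 481) (nat_lit 218)) (XT.nd (nat_lit 78) (nat_lit 304) (nat_lit 0) (XT.lf (nat_lit 0) (nat_lit 38674604080) (nat_lit 380) (nat_lit 17530439075) (nat_lit 76) (nat_lit 312182721023) (nat_lit 117) (nat_lit 5) (nat_lit 122) (nat_lit 5) (nat_lit 118) (nat_lit 5) (nat_lit 502) (nat_lit 481) (nat_lit 217)) (XT.lf (nat_lit 0) (nat_lit 99533844176) (nat_lit 380) (nat_lit 179427514859) (nat_lit 76) (nat_lit 100008799950) (nat_lit 113) (nat_lit 5) (nat_lit 118) (nat_lit 5) (nat_lit 114) (nat_lit 5) (nat_lit 503) (nat_lit 481) (nat_lit 216)))) (XT.nd (nat_lit 156) (nat_lit 228) (nat_lit 0) (XT.nd (nat_lit 78) (nat_lit 0) (nat_lit 0) (XT.lf (nat_lit 0) (nat_lit 38311050447) (nat_lit 304) (nat_lit 126946246418)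 (nat_lit 380) (nat_lit 224733314142) (nat_lit 109) (nat_lit 5) (nat_lit 113) (nat_lit 5) (nat_lit 114) (nat_lit 5) (nat_lit 504) (nat_lit 481) (nat_lit 215)) (XT.lf (nat_lit 0) (nat_lit 237865454006) (nat_lit 380) (nat_lit 128804219606) (nat_lit 76) (nat_lit 34712485433) (nat_lit 109) (nat_lit 5) (nat_lit 114) (nat_lit 5) (nat_lit 110) (nat_lit 5) (nat_lit 505) (nat_lit 481) (nat_lit 214))) (XT.nd (nat_lit 78) (nat_lit 0) (nat_lit 0) (XT.lf (nat_lit 0) (nat_lit 106543820728) (nat_lit 228) (nat_lit 211304694824) (nat_lit 304) (nat_lit 95307544107) (nat_lit 106) (nat_lit 5) (nat_lit 109) (nat_lit 5) (nat_lit 110) (nat_lit 5) (nat_lit 506) (nat_lit 481) (nat_lit 213)) (XT.lf (nat_lit 0) (nat_lit 358131006229) (nat_lit 228) (nat_lit 45881049655) (nat_lit 304) (nat_lit 21397533141) (nat_lit 106) (nat_lit 5) (nat_lit 109) (nat_lit 5) (nat_lit 110) (nat_lit 5) (nat_lit 507) (nat_lit 481) (nat_lit 212)))))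 (XT.nd (nat_lit 312) (nat_lit 456) (nat_lit 0) (XT.nd (nat_lit 156) (nat_lit 228) (nat_lit 0) (XT.nd (nat_lit 78) (nat_lit 228) (nat_lit 0) (XT.lf (nat_lit 0) (nat_lit 59421217511) (nat_lit 304) (nat_lit 250942846845) (nat_lit 76) (nat_lit 127617240028) (nat_lit 102) (nat_lit 5) (nat_lit 106) (nat_lit 5) (nat_lit 103) (nat_lit 5) (nat_lit 508) (nat_lit 481) (nat_lit 211)) (XT.lf (nat_lit 0) (nat_lit 4298395836) (nat_lit 228) (nat_lit 141240710574) (nat_lit 304) (nat_lit 305526095238) (nat_lit 99) (nat_lit 5) (nat_lit 102) (nat_lit 5) (nat_lit 103) (nat_lit 5) (nat_lit 509) (nat_lit 481) (nat_lit 210))) (XT.nd (nat_lit 78) (nat_lit 228) (nat_lit 0) (XT.lf (nat_lit 0) (nat_lit 240849714934) (nat_lit 304) (nat_lit 184214001133) (nat_lit 76) (nat_lit 39495236452) (nat_lit 99) (nat_lit 5) (nat_lit 103) (nat_lit 5) (nat_lit 100) (nat_lit 5) (nat_lit 510) (nat_lit 481) (nat_lit 209)) (XT.lf (nat_lit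 0) (nat_lit 92098709725) (nat_lit 228) (nat_lit 252580452687) (nat_lit 304) (nat_lit 133860563098) (nat_lit 96) (nat_lit 5) (nat_lit 99) (nat_lit 5) (nat_lit 100) (nat_lit 5) (nat_lit 511) (nat_lit 481) (nat_lit 208)))) (XT.nd (nat_lit 156) (nat_lit 228) (nat_lit 0) (XT.nd (nat_lit 78) (nat_lit 228) (nat_lit 0) (XT.lf (nat_lit 0) (nat_lit 388622504577) (nat_lit 228) (nat_lit 68197299817) (nat_lit 304) (nat_lit 36243746652) (nat_lit 96) (nat_lit 5) (nat_lit 99) (nat_lit 5) (nat_lit 100) (nat_lit 5) (nat_lit 512) (nat_lit 481) (nat_lit 207)) (XT.lf (nat_lit 0) (nat_lit 69233213829) (nat_lit 228) (nat_lit 313206030202) (nat_lit 76) (nat_lit 125567611265) (nat_lit 93) (nat_lit 5) (nat_lit 96) (nat_lit 5) (nat_lit 94) (nat_lit 5) (nat_lit 513) (nat_lit 481) (nat_lit 206))) (XT.nd (nat_lit 78) (nat_lit 228) (nat_lit 0) (XT.lf (nat_lit 0) (nat_lit 181681709426) (nat_lit 228) (nat_lit 12719328653) (nat_lit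 76) (nat_lit 329120792960) (nat_lit 93) (nat_lit 5) (nat_lit 96) (nat_lit 5) (nat_lit 94) (nat_lit 5) (nat_lit 514) (nat_lit 481) (nat_lit 205)) (XT.lf (nat_lit 0) (nat_lit 304763847701) (nat_lit 304) (nat_lit 226892554746) (nat_lit 76) (nat_lit 7905592230) (nat_lit 90) (nat_lit 5) (nat_lit 94) (nat_lit 5) (nat_lit 91) (nat_lit 5) (nat_lit 515) (nat_lit 481) (nat_lit 204)))))) (XT.nd (nat_lit 624) (nat_lit 836) (nat_lit 0) (XT.nd (nat_lit 312) (nat_lit 532) (nat_lit 0) (XT.nd (nat_lit 156) (nat_lit 228) (nat_lit 0) (XT.nd (nat_lit 78) (nat_lit 76) (nat_lit 0) (XT.lf (nat_lit 0) (nat_lit 98332618194) (nat_lit 152) (nat_lit 340608536236) (nat_lit 228) (nat_lit 117215958992) (nat_lit 88) (nat_lit 5) (nat_lit 90) (nat_lit 5) (nat_lit 91) (nat_lit 5) (nat_lit 516) (nat_lit 481) (nat_lit 203)) (XT.lf (nat_lit 0) (nat_lit 9950948615) (nat_lit 228) (nat_lit 125854157590) (nat_lit 76) (nat_lit 437576731538)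 (nat_lit 87) (nat_lit 5) (nat_lit 90) (nat_lit 5) (nat_lit 88) (nat_lit 5) (nat_lit 517) (nat_lit 481) (nat_lit 202))) (XT.nd (nat_lit 78) (nat_lit 0) (nat_lit 0) (XT.lf (nat_lit 0) (nat_lit 144425145202) (nat_lit 304) (nat_lit 364427179152) (nat_lit 76) (nat_lit 82274986850) (nat_lit 84) (nat_lit 5) (nat_lit 88) (nat_lit 5) (nat_lit 85) (nat_lit 5) (nat_lit 518) (nat_lit 481) (nat_lit 201)) (XT.lf (nat_lit 0) (nat_lit 290015681050) (nat_lit 304) (nat_lit 10663276035) (nat_lit 76) (nat_lit 308861469782) (nat_lit 84) (nat_lit 5) (nat_lit 88) (nat_lit 5) (nat_lit 85) (nat_lit 5) (nat_lit 519) (nat_lit 481) (nat_lit 200)))) (XT.nd (nat_lit 156) (nat_lit 228) (nat_lit 0) (XT.nd (nat_lit 78) (nat_lit 152) (nat_lit 0) (XT.lf (nat_lit 0) (nat_lit 372718088870) (nat_lit 152) (nat_lit 75986804118) (nat_lit 228) (nat_lit 179878347863) (nat_lit 82) (nat_lit 5) (nat_lit 84) (nat_lit 5) (nat_lit 85) (nat_lit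 5) (nat_lit 520) (nat_lit 481) (nat_lit 199)) (XT.lf (nat_lit 0) (nat_lit 128688277686) (nat_lit 152) (nat_lit 491330107359) (nat_lit 228) (nat_lit 28325319516) (nat_lit 80) (nat_lit 5) (nat_lit 82) (nat_lit 5) (nat_lit 83) (nat_lit 5) (nat_lit 521) (nat_lit 481) (nat_lit 198))) (XT.nd (nat_lit 78) (nat_lit 152) (nat_lit 0) (XT.lf (nat_lit 0) (nat_lit 132268669220) (nat_lit 228) (nat_lit 130882092285) (nat_lit 76) (nat_lit 405556823169) (nat_lit 79) (nat_lit 5) (nat_lit 82) (nat_lit 5) (nat_lit 80) (nat_lit 5) (nat_lit 522) (nat_lit 481) (nat_lit 197)) (XT.lf (nat_lit 0) (nat_lit 286019945587) (nat_lit 152) (nat_lit 18386045261) (nat_lit 228) (nat_lit 385437172976) (nat_lit 77) (nat_lit 5) (nat_lit 79) (nat_lit 5) (nat_lit 80) (nat_lit 5) (nat_lit 523) (nat_lit 481) (nat_lit 196))))) (XT.nd (nat_lit 312) (nat_lit 456) (nat_lit 0) (XT.nd (nat_lit 156) (nat_lit 228) (nat_lit 0) (XT.nd (nat_lit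 78) (nat_lit 0) (nat_lit 0) (XT.lf (nat_lit 0) (nat_lit 13041889361) (nat_lit 152) (nat_lit 478290254025) (nat_lit 228) (nat_lit 220394280304) (nat_lit 75) (nat_lit 5) (nat_lit 77) (nat_lit 5) (nat_lit 78) (nat_lit 5) (nat_lit 524) (nat_lit 481) (nat_lit 195)) (XT.lf (nat_lit 0) (nat_lit 464458667970) (nat_lit 152) (nat_lit 230281404060) (nat_lit 228) (nat_lit 39607001097) (nat_lit 75) (nat_lit 5) (nat_lit 77) (nat_lit 5) (nat_lit 78) (nat_lit 5) (nat_lit 525) (nat_lit 481) (nat_lit 194))) (XT.nd (nat_lit 78) (nat_lit 0) (nat_lit 0) (XT.lf (nat_lit 0) (nat_lit 148838550671) (nat_lit 228) (nat_lit 574506134366) (nat_lit 76) (nat_lit 34465458757) (nat_lit 72) (nat_lit 5) (nat_lit 75) (nat_lit 5) (nat_lit 73) (nat_lit 5) (nat_lit 526) (nat_lit 481) (nat_lit 193)) (XT.lf (nat_lit 0) (nat_lit 353796028838) (nat_lit 228) (nat_lit 118191239347) (nat_lit 76) (nat_lit 310005599866) (nat_lit 72) (nat_lit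 5) (nat_lit 75) (nat_lit 5) (nat_lit 73) (nat_lit 5) (nat_lit 527) (nat_lit 481) (nat_lit 192)))) (XT.nd (nat_lit 156) (nat_lit 228) (nat_lit 0) (XT.nd (nat_lit 78) (nat_lit 76) (nat_lit 0) (XT.lf (nat_lit 0) (nat_lit 372873650454) (nat_lit 152) (nat_lit 201949312826) (nat_lit 228) (nat_lit 232270686125) (nat_lit 70) (nat_lit 5) (nat_lit 72) (nat_lit 5) (nat_lit 73) (nat_lit 5) (nat_lit 528) (nat_lit 481) (nat_lit 191)) (XT.lf (nat_lit 0) (nat_lit 59854748775) (nat_lit 76) (nat_lit 751289272291) (nat_lit 152) (nat_lit 22093309930) (nat_lit 69) (nat_lit 5) (nat_lit 70) (nat_lit 5) (nat_lit 71) (nat_lit 4) (nat_lit 529) (nat_lit 481) (nat_lit 190))) (XT.nd (nat_lit 78) (nat_lit 152) (nat_lit 0) (XT.lf (nat_lit 0) (nat_lit 203021624038) (nat_lit 152) (nat_lit 273143963951) (nat_lit 76) (nat_lit 383828333907) (nat_lit 68) (nat_lit 5) (nat_lit 70) (nat_lit 5) (nat_lit 69) (nat_lit 5) (nat_lit 530)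 (nat_lit 481) (nat_lit 189)) (XT.lf (nat_lit 0) (nat_lit 260068171464) (nat_lit 152) (nat_lit 182642027083) (nat_lit 228) (nat_lit 445157015830) (nat_lit 66) (nat_lit 5) (nat_lit 68) (nat_lit 5) (nat_lit 69) (nat_lit 5) (nat_lit 531) (nat_lit 481) (nat_lit 188))))))))
noncomputable def xc234 : XT := (XT.nd (nat_lit 60294) (nat_lit 0) (nat_lit 532) (XT.nd (nat_lit 59046) (nat_lit 0) (nat_lit 4560) (XT.nd (nat_lit 546) (nat_lit 76) (nat_lit 0) (XT.nd (nat_lit 234) (nat_lit 304) (nat_lit 0) (XT.nd (nat_lit 78) (nat_lit 304) (nat_lit 0) (XT.lf (nat_lit 0) (nat_lit 701045149024) (nat_lit 228) (nat_lit 89515200035) (nat_lit 76) (nat_lit 126240725061) (nat_lit 66) (nat_lit 5) (nat_lit 69) (nat_lit 5) (nat_lit 67) (nat_lit 4) (nat_lit 532) (nat_lit 481) (nat_lit 187)) (XT.nd (nat_lit 78) (nat_lit 152) (nat_lit 0) (XT.lf (nat_lit 0) (nat_lit 35103568293) (nat_lit 152) (nat_lit 458899014172) (nat_lit 76)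 (nat_lit 452619828837) (nat_lit 64) (nat_lit 5) (nat_lit 66) (nat_lit 5) (nat_lit 65) (nat_lit 5) (nat_lit 533) (nat_lit 481) (nat_lit 186)) (XT.lf (nat_lit 0) (nat_lit 119330115345) (nat_lit 152) (nat_lit 175329002121) (nat_lit 228) (nat_lit 682928654009) (nat_lit 62) (nat_lit 5) (nat_lit 64) (nat_lit 5) (nat_lit 65) (nat_lit 5) (nat_lit 534) (nat_lit 481) (nat_lit 185)))) (XT.nd (nat_lit 156) (nat_lit 228) (nat_lit 0) (XT.nd (nat_lit 78) (nat_lit 76) (nat_lit 0) (XT.lf (nat_lit 0) (nat_lit 577578287648) (nat_lit 228) (nat_lit 269924394168) (nat_lit 76) (nat_lit 162079425666) (nat_lit 62) (nat_lit 5) (nat_lit 65) (nat_lit 5) (nat_lit 63) (nat_lit 4) (nat_lit 535) (nat_lit 481) (nat_lit 184)) (XT.lf (nat_lit 0) (nat_lit 356356900080) (nat_lit 76) (nat_lit 526724475126) (nat_lit 152) (nat_lit 159672887138) (nat_lit 61) (nat_lit 5) (nat_lit 62) (nat_lit 5) (nat_lit 63) (nat_lit 4) (nat_lit 536)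 (nat_lit 481) (nat_lit 183))) (XT.nd (nat_lit 78) (nat_lit 152) (nat_lit 0) (XT.lf (nat_lit 0) (nat_lit 126879239301) (nat_lit 152) (nat_lit 56079506283) (nat_lit 76) (nat_lit 894295393220) (nat_lit 60) (nat_lit 5) (nat_lit 62) (nat_lit 5) (nat_lit 61) (nat_lit 5) (nat_lit 537) (nat_lit 481) (nat_lit 182)) (XT.lf (nat_lit 0) (nat_lit 435102301634) (nat_lit 228) (nat_lit 492764076535) (nat_lit 76) (nat_lit 184846282223) (nat_lit 58) (nat_lit 5) (nat_lit 61) (nat_lit 5) (nat_lit 59) (nat_lit 4) (nat_lit 538) (nat_lit 481) (nat_lit 181))))) (XT.nd (nat_lit 58188) (nat_lit 0) (nat_lit 6916) (XT.nd (nat_lit 58032) (nat_lit 0) (nat_lit 6840) (XT.nd (nat_lit 78) (nat_lit 0) (nat_lit 0) (XT.lf (nat_lit 0) (nat_lit 184725869469) (nat_lit 76) (nat_lit 580859346800) (nat_lit 152) (nat_lit 384016456832) (nat_lit 57) (nat_lit 5) (nat_lit 58) (nat_lit 5) (nat_lit 59) (nat_lit 4) (nat_lit 539) (nat_lit 481)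 (nat_lit 180)) (XT.lf (nat_lit 0) (nat_lit 913197939457) (nat_lit 76) (nat_lit 207739519545) (nat_lit 152) (nat_lit 66980418323) (nat_lit 57) (nat_lit 5) (nat_lit 58) (nat_lit 5) (nat_lit 59) (nat_lit 4) (nat_lit 540) (nat_lit 481) (nat_lit 179))) (XT.nd (nat_lit 78) (nat_lit 0) (nat_lit 0) (XT.lf (nat_lit 0) (nat_lit 46125059454) (nat_lit 836) (nat_lit 32400516531) (nat_lit 836) (nat_lit 32400516531) (nat_lit 147) (nat_lit 3) (nat_lit 158) (nat_lit 3) (nat_lit 158) (nat_lit 5) (nat_lit 482) (nat_lit 482) (nat_lit 236)) (XT.lf (nat_lit 76) (nat_lit 46721883880) (nat_lit 0) (nat_lit 48565253602) (nat_lit 836) (nat_lit 132074813694) (nat_lit 148) (nat_lit 5) (nat_lit 147) (nat_lit 3) (nat_lit 158) (nat_lit 5) (nat_lit 483) (nat_lit 482) (nat_lit 235)))) (XT.nd (nat_lit 156) (nat_lit 0) (nat_lit 76) (XT.nd (nat_lit 78) (nat_lit 0) (nat_lit 0) (XT.lf (nat_lit 0) (nat_lit 100611568537) (nat_lit 760)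 (nat_lit 68059900164) (nat_lit 836) (nat_lit 64368958861) (nat_lit 148) (nat_lit 5) (nat_lit 158) (nat_lit 5) (nat_lit 159) (nat_lit 5) (nat_lit 484) (nat_lit 482) (nat_lit 234)) (XT.lf (nat_lit 76) (nat_lit 50984911400) (nat_lit 0) (nat_lit 56809399077) (nat_lit 836) (nat_lit 131128912836) (nat_lit 149) (nat_lit 5) (nat_lit 148) (nat_lit 5) (nat_lit 159) (nat_lit 5) (nat_lit 485) (nat_lit 482) (nat_lit 233))) (XT.nd (nat_lit 78) (nat_lit 0) (nat_lit 0) (XT.lf (nat_lit 0) (nat_lit 117454486685) (nat_lit 760) (nat_lit 67663475248) (nat_lit 836) (nat_lit 59876282072) (nat_lit 149) (nat_lit 5) (nat_lit 159) (nat_lit 5) (nat_lit 160) (nat_lit 5) (nat_lit 486) (nat_lit 482) (nat_lit 232)) (XT.lf (nat_lit 76) (nat_lit 59601368755) (nat_lit 0) (nat_lit 69858076406) (nat_lit 836) (nat_lit 121816281908) (nat_lit 150) (nat_lit 5) (nat_lit 149) (nat_lit 5) (nat_lit 160) (nat_lit 5) (nat_lit 487) (nat_lit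 482) (nat_lit 231)))))) (XT.nd (nat_lit 624) (nat_lit 1444) (nat_lit 0) (XT.nd (nat_lit 312) (nat_lit 1064) (nat_lit 0) (XT.nd (nat_lit 156) (nat_lit 0) (nat_lit 76) (XT.nd (nat_lit 78) (nat_lit 0) (nat_lit 0) (XT.lf (nat_lit 0) (nat_lit 144028107176) (nat_lit 760) (nat_lit 63053073956) (nat_lit 836) (nat_lit 50691930386) (nat_lit 150) (nat_lit 5) (nat_lit 160) (nat_lit 5) (nat_lit 161) (nat_lit 5) (nat_lit 488) (nat_lit 482) (nat_lit 230)) (XT.lf (nat_lit 76) (nat_lit 73196764364) (nat_lit 0) (nat_lit 88416392709) (nat_lit 836) (nat_lit 102867810387) (nat_lit 151) (nat_lit 5) (nat_lit 150) (nat_lit 5) (nat_lit 161) (nat_lit 5) (nat_lit 489) (nat_lit 482) (nat_lit 229))) (XT.nd (nat_lit 78) (nat_lit 0) (nat_lit 0) (XT.lf (nat_lit 0) (nat_lit 181727632406) (nat_lit 760) (nat_lit 53605123844) (nat_lit 836) (nat_lit 36108951311) (nat_lit 151) (nat_lit 5) (nat_lit 161) (nat_lit 5) (nat_lit 162) (nat_lit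 5) (nat_lit 490) (nat_lit 482) (nat_lit 228)) (XT.lf (nat_lit 76) (nat_lit 92467962969) (nat_lit 0) (nat_lit 113272941086) (nat_lit 836) (nat_lit 72864926993) (nat_lit 152) (nat_lit 5) (nat_lit 151) (nat_lit 5) (nat_lit 162) (nat_lit 5) (nat_lit 491) (nat_lit 482) (nat_lit 227)))) (XT.nd (nat_lit 156) (nat_lit 456) (nat_lit 0) (XT.nd (nat_lit 78) (nat_lit 760) (nat_lit 0) (XT.lf (nat_lit 0) (nat_lit 232109964673) (nat_lit 760) (nat_lit 38624423160) (nat_lit 76) (nat_lit 15336016617) (nat_lit 152) (nat_lit 5) (nat_lit 162) (nat_lit 5) (nat_lit 153) (nat_lit 5) (nat_lit 492) (nat_lit 482) (nat_lit 226)) (XT.lf (nat_lit 0) (nat_lit 118190546718) (nat_lit 760) (nat_lit 145309095220) (nat_lit 836) (nat_lit 30223456412) (nat_lit 142) (nat_lit 5) (nat_lit 152) (nat_lit 5) (nat_lit 153) (nat_lit 5) (nat_lit 493) (nat_lit 482) (nat_lit 225))) (XT.nd (nat_lit 78) (nat_lit 456) (nat_lit 0) (XT.lf (nat_lit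 0) (nat_lit 284187169207) (nat_lit 760) (nat_lit 12925703531) (nat_lit 836) (nat_lit 4612850730) (nat_lit 142) (nat_lit 5) (nat_lit 152) (nat_lit 5) (nat_lit 153) (nat_lit 5) (nat_lit 494) (nat_lit 482) (nat_lit 224)) (XT.lf (nat_lit 0) (nat_lit 25965652940) (nat_lit 456) (nat_lit 159103923112) (nat_lit 76) (nat_lit 124821491876) (nat_lit 136) (nat_lit 5) (nat_lit 142) (nat_lit 5) (nat_lit 137) (nat_lit 5) (nat_lit 495) (nat_lit 482) (nat_lit 223))))) (XT.nd (nat_lit 312) (nat_lit 684) (nat_lit 0) (XT.nd (nat_lit 156) (nat_lit 380) (nat_lit 0) (XT.nd (nat_lit 78) (nat_lit 0) (nat_lit 0) (XT.lf (nat_lit 0) (nat_lit 9706429432) (nat_lit 380) (nat_lit 48876914686) (nat_lit 456) (nat_lit 259844290258) (nat_lit 131) (nat_lit 5) (nat_lit 136) (nat_lit 5) (nat_lit 137) (nat_lit 5) (nat_lit 496) (nat_lit 482) (nat_lit 222)) (XT.lf (nat_lit 0) (nat_lit 97040106386) (nat_lit 456) (nat_lit 136289060080)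 (nat_lit 76) (nat_lit 93851453359) (nat_lit 131) (nat_lit 5) (nat_lit 137) (nat_lit 5) (nat_lit 132) (nat_lit 5) (nat_lit 497) (nat_lit 482) (nat_lit 221))) (XT.nd (nat_lit 78) (nat_lit 0) (nat_lit 0) (XT.lf (nat_lit 0) (nat_lit 45417010084) (nat_lit 380) (nat_lit 93512998178) (nat_lit 456) (nat_lit 197365731217) (nat_lit 126) (nat_lit 5) (nat_lit 131) (nat_lit 5) (nat_lit 132) (nat_lit 5) (nat_lit 498) (nat_lit 482) (nat_lit 220)) (XT.lf (nat_lit 0) (nat_lit 186092388007) (nat_lit 456) (nat_lit 105681133699) (nat_lit 76) (nat_lit 53934194276) (nat_lit 126) (nat_lit 5) (nat_lit 132) (nat_lit 5) (nat_lit 127) (nat_lit 5) (nat_lit 499) (nat_lit 482) (nat_lit 219)))) (XT.nd (nat_lit 156) (nat_lit 380) (nat_lit 0) (XT.nd (nat_lit 78) (nat_lit 0) (nat_lit 0) (XT.lf (nat_lit 0) (nat_lit 90127951105) (nat_lit 304) (nat_lit 148425042822) (nat_lit 380) (nat_lit 116890292029) (nat_lit 122) (nat_lit 5)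 (nat_lit 126) (nat_lit 5) (nat_lit 127) (nat_lit 5) (nat_lit 500) (nat_lit 482) (nat_lit 218)) (XT.lf (nat_lit 0) (nat_lit 295488334332) (nat_lit 380) (nat_lit 66241679639) (nat_lit 76) (nat_lit 3843035255) (nat_lit 122) (nat_lit 5) (nat_lit 127) (nat_lit 5) (nat_lit 123) (nat_lit 5) (nat_lit 501) (nat_lit 482) (nat_lit 217))) (XT.nd (nat_lit 78) (nat_lit 76) (nat_lit 0) (XT.lf (nat_lit 0) (nat_lit 144993098700) (nat_lit 304) (nat_lit 214974249590) (nat_lit 380) (nat_lit 16007107047) (nat_lit 118) (nat_lit 5) (nat_lit 122) (nat_lit 5) (nat_lit 123) (nat_lit 5) (nat_lit 502) (nat_lit 482) (nat_lit 216)) (XT.lf (nat_lit 0) (nat_lit 40609533010) (nat_lit 380) (nat_lit 18405503016) (nat_lit 76) (nat_lit 327792056282) (nat_lit 117) (nat_lit 5) (nat_lit 122) (nat_lit 5) (nat_lit 118) (nat_lit 5) (nat_lit 503) (nat_lit 482) (nat_lit 215))))))) (XT.nd (nat_lit 1170) (nat_lit 1748) (nat_lit 0) (XT.nd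 (nat_lit 546) (nat_lit 912) (nat_lit 0) (XT.nd (nat_lit 234) (nat_lit 760) (nat_lit 0) (XT.nd (nat_lit 78) (nat_lit 304) (nat_lit 0) (XT.lf (nat_lit 0) (nat_lit 104511704647) (nat_lit 380) (nat_lit 188397401991) (nat_lit 76) (nat_lit 105009501747) (nat_lit 113) (nat_lit 5) (nat_lit 118) (nat_lit 5) (nat_lit 114) (nat_lit 5) (nat_lit 504) (nat_lit 482) (nat_lit 214)) (XT.nd (nat_lit 78) (nat_lit 0) (nat_lit 0) (XT.lf (nat_lit 0) (nat_lit 40228067571) (nat_lit 304) (nat_lit 133293229634) (nat_lit 380) (nat_lit 235968787448) (nat_lit 109) (nat_lit 5) (nat_lit 113) (nat_lit 5) (nat_lit 114) (nat_lit 5) (nat_lit 505) (nat_lit 482) (nat_lit 213)) (XT.lf (nat_lit 0) (nat_lit 249759813026) (nat_lit 380) (nat_lit 135242986426) (nat_lit 76) (nat_lit 36448413106) (nat_lit 109) (nat_lit 5) (nat_lit 114) (nat_lit 5) (nat_lit 110) (nat_lit 5) (nat_lit 506) (nat_lit 482) (nat_lit 212)))) (XT.nd (nat_lit 156)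 (nat_lit 532) (nat_lit 0) (XT.nd (nat_lit 78) (nat_lit 0) (nat_lit 0) (XT.lf (nat_lit 0) (nat_lit 111872432632) (nat_lit 228) (nat_lit 221869565473) (nat_lit 304) (nat_lit 100071811582) (nat_lit 106) (nat_lit 5) (nat_lit 109) (nat_lit 5) (nat_lit 110) (nat_lit 5) (nat_lit 507) (nat_lit 482) (nat_lit 211)) (XT.lf (nat_lit 0) (nat_lit 376038909747) (nat_lit 228) (nat_lit 48174755383) (nat_lit 304) (nat_lit 22466352912) (nat_lit 106) (nat_lit 5) (nat_lit 109) (nat_lit 5) (nat_lit 110) (nat_lit 5) (nat_lit 508) (nat_lit 482) (nat_lit 210))) (XT.nd (nat_lit 78) (nat_lit 228) (nat_lit 0) (XT.lf (nat_lit 0) (nat_lit 62393279799) (nat_lit 304) (nat_lit 263488580300) (nat_lit 76) (nat_lit 133998459333) (nat_lit 102) (nat_lit 5) (nat_lit 106) (nat_lit 5) (nat_lit 103) (nat_lit 5) (nat_lit 509) (nat_lit 482) (nat_lit 209)) (XT.lf (nat_lit 0) (nat_lit 4514701791) (nat_lit 228) (nat_lit 148302335307) (nat_lit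 304) (nat_lit 320801375767) (nat_lit 99) (nat_lit 5) (nat_lit 102) (nat_lit 5) (nat_lit 103) (nat_lit 5) (nat_lit 510) (nat_lit 482) (nat_lit 208))))) (XT.nd (nat_lit 312) (nat_lit 456) (nat_lit 0) (XT.nd (nat_lit 156) (nat_lit 228) (nat_lit 0) (XT.nd (nat_lit 78) (nat_lit 228) (nat_lit 0) (XT.lf (nat_lit 0) (nat_lit 252893135711) (nat_lit 304) (nat_lit 193423340603) (nat_lit 76) (nat_lit 41470376987) (nat_lit 99) (nat_lit 5) (nat_lit 103) (nat_lit 5) (nat_lit 100) (nat_lit 5) (nat_lit 511) (nat_lit 482) (nat_lit 207)) (XT.lf (nat_lit 0) (nat_lit 96704983852) (nat_lit 228) (nat_lit 265209048086) (nat_lit 304) (nat_lit 140552634190) (nat_lit 96) (nat_lit 5) (nat_lit 99) (nat_lit 5) (nat_lit 100) (nat_lit 5) (nat_lit 512) (nat_lit 482) (nat_lit 206))) (XT.nd (nat_lit 78) (nat_lit 228) (nat_lit 0) (XT.lf (nat_lit 0) (nat_lit 408054904703) (nat_lit 228) (nat_lit 71606757916) (nat_lit 304) (nat_lit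 38055022496) (nat_lit 96) (nat_lit 5) (nat_lit 99) (nat_lit 5) (nat_lit 100) (nat_lit 5) (nat_lit 513) (nat_lit 482) (nat_lit 205)) (XT.lf (nat_lit 0) (nat_lit 72695741454) (nat_lit 228) (nat_lit 328865012106) (nat_lit 76) (nat_lit 131846401078) (nat_lit 93) (nat_lit 5) (nat_lit 96) (nat_lit 5) (nat_lit 94) (nat_lit 5) (nat_lit 514) (nat_lit 482) (nat_lit 204)))) (XT.nd (nat_lit 156) (nat_lit 228) (nat_lit 0) (XT.nd (nat_lit 78) (nat_lit 228) (nat_lit 0) (XT.lf (nat_lit 0) (nat_lit 190766620549) (nat_lit 228) (nat_lit 13354038318) (nat_lit 76) (nat_lit 345577222370) (nat_lit 93) (nat_lit 5) (nat_lit 96) (nat_lit 5) (nat_lit 94) (nat_lit 5) (nat_lit 515) (nat_lit 482) (nat_lit 203)) (XT.lf (nat_lit 0) (nat_lit 320002852453) (nat_lit 304) (nat_lit 238235912363) (nat_lit 76) (nat_lit 8301288908) (nat_lit 90) (nat_lit 5) (nat_lit 94) (nat_lit 5) (nat_lit 91) (nat_lit 5) (nat_lit 516) (nat_lit 482)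 (nat_lit 202))) (XT.nd (nat_lit 78) (nat_lit 76) (nat_lit 0) (XT.lf (nat_lit 0) (nat_lit 103250498739) (nat_lit 152) (nat_lit 357638506606) (nat_lit 228) (nat_lit 123075924024) (nat_lit 88) (nat_lit 5) (nat_lit 90) (nat_lit 5) (nat_lit 91) (nat_lit 5) (nat_lit 517) (nat_lit 482) (nat_lit 201)) (XT.lf (nat_lit 0) (nat_lit 10449263912) (nat_lit 228) (nat_lit 132145649892) (nat_lit 76) (nat_lit 459455977373) (nat_lit 87) (nat_lit 5) (nat_lit 90) (nat_lit 5) (nat_lit 88) (nat_lit 5) (nat_lit 518) (nat_lit 482) (nat_lit 200)))))) (XT.nd (nat_lit 624) (nat_lit 836) (nat_lit 0) (XT.nd (nat_lit 312) (nat_lit 380) (nat_lit 0) (XT.nd (nat_lit 156) (nat_lit 304) (nat_lit 0) (XT.nd (nat_lit 78) (nat_lit 0) (nat_lit 0) (XT.lf (nat_lit 0) (nat_lit 151647159399) (nat_lit 304) (nat_lit 382647311546) (nat_lit 76) (nat_lit 86389167915) (nat_lit 84) (nat_lit 5) (nat_lit 88) (nat_lit 5) (nat_lit 85) (nat_lit 5)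 (nat_lit 519) (nat_lit 482) (nat_lit 199)) (XT.lf (nat_lit 0) (nat_lit 304517185995) (nat_lit 304) (nat_lit 11195271681) (nat_lit 76) (nat_lit 324304954436) (nat_lit 84) (nat_lit 5) (nat_lit 88) (nat_lit 5) (nat_lit 85) (nat_lit 5) (nat_lit 520) (nat_lit 482) (nat_lit 198))) (XT.nd (nat_lit 78) (nat_lit 152) (nat_lit 0) (XT.lf (nat_lit 0) (nat_lit 391355142628) (nat_lit 152) (nat_lit 79785699518) (nat_lit 228) (nat_lit 188871525472) (nat_lit 82) (nat_lit 5) (nat_lit 84) (nat_lit 5) (nat_lit 85) (nat_lit 5) (nat_lit 521) (nat_lit 482) (nat_lit 197)) (XT.lf (nat_lit 0) (nat_lit 135123850222) (nat_lit 152) (nat_lit 515896149739) (nat_lit 228) (nat_lit 29740854996) (nat_lit 80) (nat_lit 5) (nat_lit 82) (nat_lit 5) (nat_lit 83) (nat_lit 5) (nat_lit 522) (nat_lit 482) (nat_lit 196)))) (XT.nd (nat_lit 156) (nat_lit 152) (nat_lit 0) (XT.nd (nat_lit 78) (nat_lit 152) (nat_lit 0) (XT.lf (nat_lit 0) (nat_lit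 138882776124) (nat_lit 228) (nat_lit 137425071111) (nat_lit 76) (nat_lit 425835082957) (nat_lit 79) (nat_lit 5) (nat_lit 82) (nat_lit 5) (nat_lit 80) (nat_lit 5) (nat_lit 523) (nat_lit 482) (nat_lit 195)) (XT.lf (nat_lit 0) (nat_lit 300322050497) (nat_lit 152) (nat_lit 19304898561) (nat_lit 228) (nat_lit 404708339981) (nat_lit 77) (nat_lit 5) (nat_lit 79) (nat_lit 5) (nat_lit 80) (nat_lit 5) (nat_lit 524) (nat_lit 482) (nat_lit 194))) (XT.nd (nat_lit 78) (nat_lit 0) (nat_lit 0) (XT.lf (nat_lit 0) (nat_lit 13695099143) (nat_lit 152) (nat_lit 502204302805) (nat_lit 228) (nat_lit 231413310318) (nat_lit 75) (nat_lit 5) (nat_lit 77) (nat_lit 5) (nat_lit 78) (nat_lit 5) (nat_lit 525) (nat_lit 482) (nat_lit 193)) (XT.lf (nat_lit 0) (nat_lit 487682663572) (nat_lit 152) (nat_lit 241795032433) (nat_lit 228) (nat_lit 41586699723) (nat_lit 75) (nat_lit 5) (nat_lit 77) (nat_lit 5) (nat_lit 78) (nat_lit 5)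 (nat_lit 526) (nat_lit 482) (nat_lit 192))))) (XT.nd (nat_lit 312) (nat_lit 380) (nat_lit 0) (XT.nd (nat_lit 156) (nat_lit 228) (nat_lit 0) (XT.nd (nat_lit 78) (nat_lit 0) (nat_lit 0) (XT.lf (nat_lit 0) (nat_lit 156281102396) (nat_lit 228) (nat_lit 603230351572) (nat_lit 76) (nat_lit 36189165772) (nat_lit 72) (nat_lit 5) (nat_lit 75) (nat_lit 5) (nat_lit 73) (nat_lit 5) (nat_lit 527) (nat_lit 482) (nat_lit 191)) (XT.lf (nat_lit 0) (nat_lit 371486424748) (nat_lit 228) (nat_lit 124099763683) (nat_lit 76) (nat_lit 325506293267) (nat_lit 72) (nat_lit 5) (nat_lit 75) (nat_lit 5) (nat_lit 73) (nat_lit 5) (nat_lit 528) (nat_lit 482) (nat_lit 190))) (XT.nd (nat_lit 78) (nat_lit 76) (nat_lit 0) (XT.lf (nat_lit 0) (nat_lit 391518353872) (nat_lit 152) (nat_lit 212046339670) (nat_lit 228) (nat_lit 243883609196) (nat_lit 70) (nat_lit 5) (nat_lit 72) (nat_lit 5) (nat_lit 73) (nat_lit 5) (nat_lit 529) (nat_lit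 482) (nat_lit 189)) (XT.lf (nat_lit 0) (nat_lit 62848512569) (nat_lit 76) (nat_lit 788853286478) (nat_lit 152) (nat_lit 23197369622) (nat_lit 69) (nat_lit 5) (nat_lit 70) (nat_lit 5) (nat_lit 71) (nat_lit 4) (nat_lit 530) (nat_lit 482) (nat_lit 188)))) (XT.nd (nat_lit 156) (nat_lit 152) (nat_lit 0) (XT.nd (nat_lit 78) (nat_lit 152) (nat_lit 0) (XT.lf (nat_lit 0) (nat_lit 213173263730) (nat_lit 152) (nat_lit 286800166174) (nat_lit 76) (nat_lit 403020160135) (nat_lit 68) (nat_lit 5) (nat_lit 70) (nat_lit 5) (nat_lit 69) (nat_lit 5) (nat_lit 531) (nat_lit 482) (nat_lit 187)) (XT.lf (nat_lit 0) (nat_lit 273072559948) (nat_lit 152) (nat_lit 191773695722) (nat_lit 228) (nat_lit 467414292041) (nat_lit 66) (nat_lit 5) (nat_lit 68) (nat_lit 5) (nat_lit 69) (nat_lit 5) (nat_lit 532) (nat_lit 482) (nat_lit 186))) (XT.nd (nat_lit 78) (nat_lit 152) (nat_lit 0) (XT.lf (nat_lit 0) (nat_lit 736097934048) (nat_lit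 228) (nat_lit 93990007141) (nat_lit 76) (nat_lit 132553160234) (nat_lit 66) (nat_lit 5) (nat_lit 69) (nat_lit 5) (nat_lit 67) (nat_lit 4) (nat_lit 533) (nat_lit 482) (nat_lit 185)) (XT.lf (nat_lit 0) (nat_lit 36859272295) (nat_lit 152) (nat_lit 481843009953) (nat_lit 76) (nat_lit 475251223318) (nat_lit 64) (nat_lit 5) (nat_lit 66) (nat_lit 5) (nat_lit 65) (nat_lit 5) (nat_lit 534) (nat_lit 482) (nat_lit 184))))))))
noncomputable def xc235 : XT := (XT.nd (nat_lit 60372) (nat_lit 0) (nat_lit 228) (XT.nd (nat_lit 59124) (nat_lit 0) (nat_lit 3952) (XT.nd (nat_lit 58500) (nat_lit 0) (nat_lit 6840) (XT.nd (nat_lit 234) (nat_lit 304) (nat_lit 0) (XT.nd (nat_lit 78) (nat_lit 76) (nat_lit 0) (XT.lf (nat_lit 0) (nat_lit 125297560638) (nat_lit 152) (nat_lit 184095027930) (nat_lit 228) (nat_lit 717074545700) (nat_lit 62) (nat_lit 5) (nat_lit 64) (nat_lit 5) (nat_lit 65) (nat_lit 5) (nat_lit 535) (nat_lit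 482) (nat_lit 183)) (XT.nd (nat_lit 78) (nat_lit 76) (nat_lit 0) (XT.lf (nat_lit 0) (nat_lit 606457699032) (nat_lit 228) (nat_lit 283419700845) (nat_lit 76) (nat_lit 170183788108) (nat_lit 62) (nat_lit 5) (nat_lit 65) (nat_lit 5) (nat_lit 63) (nat_lit 4) (nat_lit 536) (nat_lit 482) (nat_lit 182)) (XT.lf (nat_lit 0) (nat_lit 374175643389) (nat_lit 76) (nat_lit 553060287937) (nat_lit 152) (nat_lit 167656019748) (nat_lit 61) (nat_lit 5) (nat_lit 62) (nat_lit 5) (nat_lit 63) (nat_lit 4) (nat_lit 537) (nat_lit 482) (nat_lit 181)))) (XT.nd (nat_lit 156) (nat_lit 76) (nat_lit 0) (XT.nd (nat_lit 78) (nat_lit 152) (nat_lit 0) (XT.lf (nat_lit 0) (nat_lit 133223673045) (nat_lit 152) (nat_lit 58882610452) (nat_lit 76) (nat_lit 939010538641) (nat_lit 60) (nat_lit 5) (nat_lit 62) (nat_lit 5) (nat_lit 61) (nat_lit 5) (nat_lit 538) (nat_lit 482) (nat_lit 180)) (XT.lf (nat_lit 0) (nat_lit 456857885569) (nat_lit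 228) (nat_lit 517401406273) (nat_lit 76) (nat_lit 194088978110) (nat_lit 58) (nat_lit 5) (nat_lit 61) (nat_lit 5) (nat_lit 59) (nat_lit 4) (nat_lit 539) (nat_lit 482) (nat_lit 179))) (XT.nd (nat_lit 58032) (nat_lit 0) (nat_lit 6840) (XT.lf (nat_lit 0) (nat_lit 193963022932) (nat_lit 76) (nat_lit 609901914103) (nat_lit 152) (nat_lit 403216796706) (nat_lit 57) (nat_lit 5) (nat_lit 58) (nat_lit 5) (nat_lit 59) (nat_lit 4) (nat_lit 540) (nat_lit 482) (nat_lit 178)) (XT.lf (nat_lit 0) (nat_lit 48432598091) (nat_lit 836) (nat_lit 34019867284) (nat_lit 836) (nat_lit 34019867284) (nat_lit 147) (nat_lit 3) (nat_lit 158) (nat_lit 3) (nat_lit 158) (nat_lit 5) (nat_lit 483) (nat_lit 483) (nat_lit 234))))) (XT.nd (nat_lit 312) (nat_lit 0) (nat_lit 152) (XT.nd (nat_lit 156) (nat_lit 0) (nat_lit 76) (XT.nd (nat_lit 78) (nat_lit 0) (nat_lit 76) (XT.lf (nat_lit 76) (nat_lit 49059306444) (nat_lit 0) (nat_lit 50994657536)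 (nat_lit 836) (nat_lit 138675960894) (nat_lit 148) (nat_lit 5) (nat_lit 147) (nat_lit 3) (nat_lit 158) (nat_lit 5) (nat_lit 484) (nat_lit 483) (nat_lit 233)) (XT.lf (nat_lit 0) (nat_lit 105644482018) (nat_lit 760) (nat_lit 71461495126) (nat_lit 836) (nat_lit 67586354683) (nat_lit 148) (nat_lit 5) (nat_lit 158) (nat_lit 5) (nat_lit 159) (nat_lit 5) (nat_lit 485) (nat_lit 483) (nat_lit 232))) (XT.nd (nat_lit 78) (nat_lit 0) (nat_lit 76) (XT.lf (nat_lit 76) (nat_lit 53535534434) (nat_lit 0) (nat_lit 59650736933) (nat_lit 836) (nat_lit 137683000499) (nat_lit 149) (nat_lit 5) (nat_lit 148) (nat_lit 5) (nat_lit 159) (nat_lit 5) (nat_lit 486) (nat_lit 483) (nat_lit 231)) (XT.lf (nat_lit 0) (nat_lit 123329336559) (nat_lit 760) (nat_lit 71045216985) (nat_lit 836) (nat_lit 62869296058) (nat_lit 149) (nat_lit 5) (nat_lit 159) (nat_lit 5) (nat_lit 160) (nat_lit 5) (nat_lit 487) (nat_lit 483) (nat_lit 230))))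 (XT.nd (nat_lit 156) (nat_lit 0) (nat_lit 76) (XT.nd (nat_lit 78) (nat_lit 0) (nat_lit 76) (XT.lf (nat_lit 76) (nat_lit 62582846122) (nat_lit 0) (nat_lit 73351617618) (nat_lit 836) (nat_lit 127904947056) (nat_lit 150) (nat_lit 5) (nat_lit 149) (nat_lit 5) (nat_lit 160) (nat_lit 5) (nat_lit 488) (nat_lit 483) (nat_lit 229)) (XT.lf (nat_lit 0) (nat_lit 151231451934) (nat_lit 760) (nat_lit 66204278599) (nat_lit 836) (nat_lit 53225939294) (nat_lit 150) (nat_lit 5) (nat_lit 160) (nat_lit 5) (nat_lit 161) (nat_lit 5) (nat_lit 489) (nat_lit 483) (nat_lit 228))) (XT.nd (nat_lit 78) (nat_lit 0) (nat_lit 76) (XT.lf (nat_lit 76) (nat_lit 76858028266) (nat_lit 0) (nat_lit 92837655967) (nat_lit 836) (nat_lit 108009237852) (nat_lit 151) (nat_lit 5) (nat_lit 150) (nat_lit 5) (nat_lit 161) (nat_lit 5) (nat_lit 490) (nat_lit 483) (nat_lit 227)) (XT.lf (nat_lit 0) (nat_lit 190815787721) (nat_lit 760) (nat_lit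 56283926363) (nat_lit 836) (nat_lit 37913989901) (nat_lit 151) (nat_lit 5) (nat_lit 161) (nat_lit 5) (nat_lit 162) (nat_lit 5) (nat_lit 491) (nat_lit 483) (nat_lit 226)))))) (XT.nd (nat_lit 624) (nat_lit 1292) (nat_lit 0) (XT.nd (nat_lit 312) (nat_lit 1216) (nat_lit 0) (XT.nd (nat_lit 156) (nat_lit 684) (nat_lit 0) (XT.nd (nat_lit 78) (nat_lit 0) (nat_lit 76) (XT.lf (nat_lit 76) (nat_lit 97092791345) (nat_lit 0) (nat_lit 118936869476) (nat_lit 836) (nat_lit 76506375945) (nat_lit 152) (nat_lit 5) (nat_lit 151) (nat_lit 5) (nat_lit 162) (nat_lit 5) (nat_lit 492) (nat_lit 483) (nat_lit 225)) (XT.lf (nat_lit 0) (nat_lit 243717088783) (nat_lit 760) (nat_lit 40554196267) (nat_lit 76) (nat_lit 16102558085) (nat_lit 152) (nat_lit 5) (nat_lit 162) (nat_lit 5) (nat_lit 153) (nat_lit 5) (nat_lit 493) (nat_lit 483) (nat_lit 224))) (XT.nd (nat_lit 78) (nat_lit 0) (nat_lit 0) (XT.lf (nat_lit 0) (nat_lit 124101498749)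 (nat_lit 760) (nat_lit 152574695983) (nat_lit 836) (nat_lit 31732979768) (nat_lit 142) (nat_lit 5) (nat_lit 152) (nat_lit 5) (nat_lit 153) (nat_lit 5) (nat_lit 494) (nat_lit 483) (nat_lit 223)) (XT.lf (nat_lit 0) (nat_lit 298397884521) (nat_lit 760) (nat_lit 13572127757) (nat_lit 836) (nat_lit 4841922347) (nat_lit 142) (nat_lit 5) (nat_lit 152) (nat_lit 5) (nat_lit 153) (nat_lit 5) (nat_lit 495) (nat_lit 483) (nat_lit 222)))) (XT.nd (nat_lit 156) (nat_lit 380) (nat_lit 0) (XT.nd (nat_lit 78) (nat_lit 380) (nat_lit 0) (XT.lf (nat_lit 0) (nat_lit 27265404103) (nat_lit 456) (nat_lit 167057659600) (nat_lit 76) (nat_lit 131062483995) (nat_lit 136) (nat_lit 5) (nat_lit 142) (nat_lit 5) (nat_lit 137) (nat_lit 5) (nat_lit 496) (nat_lit 483) (nat_lit 221)) (XT.lf (nat_lit 0) (nat_lit 10193187029) (nat_lit 380) (nat_lit 51320745304) (nat_lit 456) (nat_lit 272835012520) (nat_lit 131) (nat_lit 5) (nat_lit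 136) (nat_lit 5) (nat_lit 137) (nat_lit 5) (nat_lit 497) (nat_lit 483) (nat_lit 220))) (XT.nd (nat_lit 78) (nat_lit 380) (nat_lit 0) (XT.lf (nat_lit 0) (nat_lit 101893465272) (nat_lit 456) (nat_lit 143102077722) (nat_lit 76) (nat_lit 98544039962) (nat_lit 131) (nat_lit 5) (nat_lit 137) (nat_lit 5) (nat_lit 132) (nat_lit 5) (nat_lit 498) (nat_lit 483) (nat_lit 219)) (XT.lf (nat_lit 0) (nat_lit 47689272799) (nat_lit 380) (nat_lit 98188547035) (nat_lit 456) (nat_lit 207232640887) (nat_lit 126) (nat_lit 5) (nat_lit 131) (nat_lit 5) (nat_lit 132) (nat_lit 5) (nat_lit 499) (nat_lit 483) (nat_lit 218))))) (XT.nd (nat_lit 312) (nat_lit 684) (nat_lit 0) (XT.nd (nat_lit 156) (nat_lit 304) (nat_lit 0) (XT.nd (nat_lit 78) (nat_lit 304) (nat_lit 0) (XT.lf (nat_lit 0) (nat_lit 195398257633) (nat_lit 456) (nat_lit 110963784321) (nat_lit 76) (nat_lit 56630997150) (nat_lit 126) (nat_lit 5) (nat_lit 132) (nat_lit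 5) (nat_lit 127) (nat_lit 5) (nat_lit 500) (nat_lit 483) (nat_lit 217)) (XT.lf (nat_lit 0) (nat_lit 94635732044) (nat_lit 304) (nat_lit 155846123870) (nat_lit 380) (nat_lit 122733533569) (nat_lit 122) (nat_lit 5) (nat_lit 126) (nat_lit 5) (nat_lit 127) (nat_lit 5) (nat_lit 501) (nat_lit 483) (nat_lit 216))) (XT.nd (nat_lit 78) (nat_lit 304) (nat_lit 0) (XT.lf (nat_lit 0) (nat_lit 310263908155) (nat_lit 380) (nat_lit 69552390779) (nat_lit 76) (nat_lit 4035344749) (nat_lit 122) (nat_lit 5) (nat_lit 127) (nat_lit 5) (nat_lit 123) (nat_lit 5) (nat_lit 502) (nat_lit 483) (nat_lit 215)) (XT.lf (nat_lit 0) (nat_lit 152244104334) (nat_lit 304) (nat_lit 225722734464) (nat_lit 380) (nat_lit 16806283008) (nat_lit 118) (nat_lit 5) (nat_lit 122) (nat_lit 5) (nat_lit 123) (nat_lit 5) (nat_lit 503) (nat_lit 483) (nat_lit 214)))) (XT.nd (nat_lit 156) (nat_lit 304) (nat_lit 0) (XT.nd (nat_lit 78) (nat_lit 304)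 (nat_lit 0) (XT.lf (nat_lit 0) (nat_lit 42641096940) (nat_lit 380) (nat_lit 19324455707) (nat_lit 76) (nat_lit 344181839784) (nat_lit 117) (nat_lit 5) (nat_lit 122) (nat_lit 5) (nat_lit 118) (nat_lit 5) (nat_lit 504) (nat_lit 483) (nat_lit 213)) (XT.lf (nat_lit 0) (nat_lit 109738349528) (nat_lit 380) (nat_lit 197815921876) (nat_lit 76) (nat_lit 110260214295) (nat_lit 113) (nat_lit 5) (nat_lit 118) (nat_lit 5) (nat_lit 114) (nat_lit 5) (nat_lit 505) (nat_lit 483) (nat_lit 212))) (XT.nd (nat_lit 78) (nat_lit 0) (nat_lit 0) (XT.lf (nat_lit 0) (nat_lit 42240799387) (nat_lit 304) (nat_lit 139957592609) (nat_lit 380) (nat_lit 247766145276) (nat_lit 109) (nat_lit 5) (nat_lit 113) (nat_lit 5) (nat_lit 114) (nat_lit 5) (nat_lit 506) (nat_lit 483) (nat_lit 211)) (XT.lf (nat_lit 0) (nat_lit 262248789001) (nat_lit 380) (nat_lit 142003825852) (nat_lit 76) (nat_lit 38271108954) (nat_lit 109) (nat_lit 5) (nat_lit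 114) (nat_lit 5) (nat_lit 110) (nat_lit 5) (nat_lit 507) (nat_lit 483) (nat_lit 210))))))) (XT.nd (nat_lit 1248) (nat_lit 1520) (nat_lit 0) (XT.nd (nat_lit 624) (nat_lit 988) (nat_lit 0) (XT.nd (nat_lit 312) (nat_lit 456) (nat_lit 0) (XT.nd (nat_lit 156) (nat_lit 532) (nat_lit 0) (XT.nd (nat_lit 78) (nat_lit 0) (nat_lit 0) (XT.lf (nat_lit 0) (nat_lit 117467343032) (nat_lit 228) (nat_lit 232962713503) (nat_lit 304) (nat_lit 105074395604) (nat_lit 106) (nat_lit 5) (nat_lit 109) (nat_lit 5) (nat_lit 110) (nat_lit 5) (nat_lit 508) (nat_lit 483) (nat_lit 209)) (XT.lf (nat_lit 0) (nat_lit 394842082633) (nat_lit 228) (nat_lit 50583178634) (nat_lit 304) (nat_lit 23588711931) (nat_lit 106) (nat_lit 5) (nat_lit 109) (nat_lit 5) (nat_lit 110) (nat_lit 5) (nat_lit 509) (nat_lit 483) (nat_lit 208))) (XT.nd (nat_lit 78) (nat_lit 228) (nat_lit 0) (XT.lf (nat_lit 0) (nat_lit 65513852100) (nat_lit 304) (nat_lit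 276661731412) (nat_lit 76) (nat_lit 140698706384) (nat_lit 102) (nat_lit 5) (nat_lit 106) (nat_lit 5) (nat_lit 103) (nat_lit 5) (nat_lit 510) (nat_lit 483) (nat_lit 207)) (XT.lf (nat_lit 0) (nat_lit 4741694172) (nat_lit 228) (nat_lit 155717079469) (nat_lit 304) (nat_lit 336840515546) (nat_lit 99) (nat_lit 5) (nat_lit 102) (nat_lit 5) (nat_lit 103) (nat_lit 5) (nat_lit 511) (nat_lit 483) (nat_lit 206)))) (XT.nd (nat_lit 156) (nat_lit 228) (nat_lit 0) (XT.nd (nat_lit 78) (nat_lit 228) (nat_lit 0) (XT.lf (nat_lit 0) (nat_lit 265538640597) (nat_lit 304) (nat_lit 203093273542) (nat_lit 76) (nat_lit 43544239339) (nat_lit 99) (nat_lit 5) (nat_lit 103) (nat_lit 5) (nat_lit 100) (nat_lit 5) (nat_lit 512) (nat_lit 483) (nat_lit 205)) (XT.lf (nat_lit 0) (nat_lit 101541447231) (nat_lit 228) (nat_lit 278469112974) (nat_lit 304) (nat_lit 147579397815) (nat_lit 96) (nat_lit 5) (nat_lit 99) (nat_lit 5) (nat_lit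 100) (nat_lit 5) (nat_lit 513) (nat_lit 483) (nat_lit 204))) (XT.nd (nat_lit 78) (nat_lit 228) (nat_lit 0) (XT.lf (nat_lit 0) (nat_lit 428458806306) (nat_lit 228) (nat_lit 75186726750) (nat_lit 304) (nat_lit 39956946874) (nat_lit 96) (nat_lit 5) (nat_lit 99) (nat_lit 5) (nat_lit 100) (nat_lit 5) (nat_lit 514) (nat_lit 483) (nat_lit 203)) (XT.lf (nat_lit 0) (nat_lit 76331314862) (nat_lit 228) (nat_lit 345307065790) (nat_lit 76) (nat_lit 138439092333) (nat_lit 93) (nat_lit 5) (nat_lit 96) (nat_lit 5) (nat_lit 94) (nat_lit 5) (nat_lit 515) (nat_lit 483) (nat_lit 202))))) (XT.nd (nat_lit 312) (nat_lit 532) (nat_lit 0) (XT.nd (nat_lit 156) (nat_lit 228) (nat_lit 0) (XT.nd (nat_lit 78) (nat_lit 228) (nat_lit 0) (XT.lf (nat_lit 0) (nat_lit 200305700466) (nat_lit 228) (nat_lit 14020600308) (nat_lit 76) (nat_lit 362856437014) (nat_lit 93) (nat_lit 5) (nat_lit 96) (nat_lit 5) (nat_lit 94) (nat_lit 5) (nat_lit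 516) (nat_lit 483) (nat_lit 201)) (XT.lf (nat_lit 0) (nat_lit 336003731916) (nat_lit 304) (nat_lit 250146555944) (nat_lit 76) (nat_lit 8716731646) (nat_lit 90) (nat_lit 5) (nat_lit 94) (nat_lit 5) (nat_lit 91) (nat_lit 5) (nat_lit 517) (nat_lit 483) (nat_lit 200))) (XT.nd (nat_lit 78) (nat_lit 76) (nat_lit 0) (XT.lf (nat_lit 0) (nat_lit 108414157131) (nat_lit 152) (nat_lit 375520017930) (nat_lit 228) (nat_lit 129228964744) (nat_lit 88) (nat_lit 5) (nat_lit 90) (nat_lit 5) (nat_lit 91) (nat_lit 5) (nat_lit 518) (nat_lit 483) (nat_lit 199)) (XT.lf (nat_lit 0) (nat_lit 10972423585) (nat_lit 228) (nat_lit 138751829823) (nat_lit 76) (nat_lit 482429147451) (nat_lit 87) (nat_lit 5) (nat_lit 90) (nat_lit 5) (nat_lit 88) (nat_lit 5) (nat_lit 519) (nat_lit 483) (nat_lit 198)))) (XT.nd (nat_lit 156) (nat_lit 304) (nat_lit 0) (XT.nd (nat_lit 78) (nat_lit 0) (nat_lit 0) (XT.lf (nat_lit 0) (nat_lit 159230203933)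 (nat_lit 304) (nat_lit 401778564595) (nat_lit 76) (nat_lit 90709017896) (nat_lit 84) (nat_lit 5) (nat_lit 88) (nat_lit 5) (nat_lit 85) (nat_lit 5) (nat_lit 520) (nat_lit 483) (nat_lit 197)) (XT.lf (nat_lit 0) (nat_lit 319743699165) (nat_lit 304) (nat_lit 11753975714) (nat_lit 76) (nat_lit 340520575096) (nat_lit 84) (nat_lit 5) (nat_lit 88) (nat_lit 5) (nat_lit 85) (nat_lit 5) (nat_lit 521) (nat_lit 483) (nat_lit 196))) (XT.nd (nat_lit 78) (nat_lit 152) (nat_lit 0) (XT.lf (nat_lit 0) (nat_lit 410923942221) (nat_lit 152) (nat_lit 83774581042) (nat_lit 228) (nat_lit 198314430739) (nat_lit 82) (nat_lit 5) (nat_lit 84) (nat_lit 5) (nat_lit 85) (nat_lit 5) (nat_lit 522) (nat_lit 483) (nat_lit 195)) (XT.lf (nat_lit 0) (nat_lit 141881093664) (nat_lit 152) (nat_lit 541690537282) (nat_lit 228) (nat_lit 31227235165) (nat_lit 80) (nat_lit 5) (nat_lit 82) (nat_lit 5) (nat_lit 83) (nat_lit 5) (nat_lit 523)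 (nat_lit 483) (nat_lit 194)))))) (XT.nd (nat_lit 624) (nat_lit 684) (nat_lit 0) (XT.nd (nat_lit 312) (nat_lit 456) (nat_lit 0) (XT.nd (nat_lit 156) (nat_lit 152) (nat_lit 0) (XT.nd (nat_lit 78) (nat_lit 152) (nat_lit 0) (XT.lf (nat_lit 0) (nat_lit 145827525763) (nat_lit 228) (nat_lit 144295303542) (nat_lit 76) (nat_lit 447127216814) (nat_lit 79) (nat_lit 5) (nat_lit 82) (nat_lit 5) (nat_lit 80) (nat_lit 5) (nat_lit 524) (nat_lit 483) (nat_lit 193)) (XT.lf (nat_lit 0) (nat_lit 315339157676) (nat_lit 152) (nat_lit 20269736266) (nat_lit 228) (nat_lit 424943129640) (nat_lit 77) (nat_lit 5) (nat_lit 79) (nat_lit 5) (nat_lit 80) (nat_lit 5) (nat_lit 525) (nat_lit 483) (nat_lit 192))) (XT.nd (nat_lit 78) (nat_lit 0) (nat_lit 0) (XT.lf (nat_lit 0) (nat_lit 14380865722) (nat_lit 152) (nat_lit 527314097154) (nat_lit 228) (nat_lit 242983355424) (nat_lit 75) (nat_lit 5) (nat_lit 77) (nat_lit 5) (nat_lit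 78) (nat_lit 5) (nat_lit 526) (nat_lit 483) (nat_lit 191)) (XT.lf (nat_lit 0) (nat_lit 512067760200) (nat_lit 152) (nat_lit 253884383302) (nat_lit 228) (nat_lit 43665443843) (nat_lit 75) (nat_lit 5) (nat_lit 77) (nat_lit 5) (nat_lit 78) (nat_lit 5) (nat_lit 527) (nat_lit 483) (nat_lit 190)))) (XT.nd (nat_lit 156) (nat_lit 228) (nat_lit 0) (XT.nd (nat_lit 78) (nat_lit 0) (nat_lit 0) (XT.lf (nat_lit 0) (nat_lit 164095723675) (nat_lit 228) (nat_lit 633390880930) (nat_lit 76) (nat_lit 37999017783) (nat_lit 72) (nat_lit 5) (nat_lit 75) (nat_lit 5) (nat_lit 73) (nat_lit 5) (nat_lit 528) (nat_lit 483) (nat_lit 189)) (XT.lf (nat_lit 0) (nat_lit 390061285184) (nat_lit 228) (nat_lit 130303810705) (nat_lit 76) (nat_lit 341781982904) (nat_lit 72) (nat_lit 5) (nat_lit 75) (nat_lit 5) (nat_lit 73) (nat_lit 5) (nat_lit 529) (nat_lit 483) (nat_lit 188))) (XT.nd (nat_lit 78) (nat_lit 76) (nat_lit 0) (XT.lf (nat_lit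 0) (nat_lit 411095197548) (nat_lit 152) (nat_lit 222648258652) (nat_lit 228) (nat_lit 256077235248) (nat_lit 70) (nat_lit 5) (nat_lit 72) (nat_lit 5) (nat_lit 73) (nat_lit 5) (nat_lit 530) (nat_lit 483) (nat_lit 187)) (XT.lf (nat_lit 0) (nat_lit 65991869132) (nat_lit 76) (nat_lit 828295543159) (nat_lit 152) (nat_lit 24356688620) (nat_lit 69) (nat_lit 5) (nat_lit 70) (nat_lit 5) (nat_lit 71) (nat_lit 4) (nat_lit 531) (nat_lit 483) (nat_lit 186))))) (XT.nd (nat_lit 312) (nat_lit 304) (nat_lit 0) (XT.nd (nat_lit 156) (nat_lit 152) (nat_lit 0) (XT.nd (nat_lit 78) (nat_lit 152) (nat_lit 0) (XT.lf (nat_lit 0) (nat_lit 223832433485) (nat_lit 152) (nat_lit 301139271104) (nat_lit 76) (nat_lit 423171539600) (nat_lit 68) (nat_lit 5) (nat_lit 70) (nat_lit 5) (nat_lit 69) (nat_lit 5) (nat_lit 532) (nat_lit 483) (nat_lit 185)) (XT.lf (nat_lit 0) (nat_lit 286727076753) (nat_lit 152) (nat_lit 201361988022) (nat_lit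 228) (nat_lit 490784485481) (nat_lit 66) (nat_lit 5) (nat_lit 68) (nat_lit 5) (nat_lit 69) (nat_lit 5) (nat_lit 533) (nat_lit 483) (nat_lit 184))) (XT.nd (nat_lit 78) (nat_lit 152) (nat_lit 0) (XT.lf (nat_lit 0) (nat_lit 772903309274) (nat_lit 228) (nat_lit 98688643194) (nat_lit 76) (nat_lit 139181180078) (nat_lit 66) (nat_lit 5) (nat_lit 69) (nat_lit 5) (nat_lit 67) (nat_lit 4) (nat_lit 534) (nat_lit 483) (nat_lit 183)) (XT.lf (nat_lit 0) (nat_lit 38702712632) (nat_lit 152) (nat_lit 505934294304) (nat_lit 76) (nat_lit 499014150051) (nat_lit 64) (nat_lit 5) (nat_lit 66) (nat_lit 5) (nat_lit 65) (nat_lit 5) (nat_lit 535) (nat_lit 483) (nat_lit 182)))) (XT.nd (nat_lit 156) (nat_lit 152) (nat_lit 0) (XT.nd (nat_lit 78) (nat_lit 0) (nat_lit 0) (XT.lf (nat_lit 0) (nat_lit 131563290846) (nat_lit 152) (nat_lit 193299394476) (nat_lit 228) (nat_lit 752927782272) (nat_lit 62) (nat_lit 5) (nat_lit 64) (nat_lit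 5) (nat_lit 65) (nat_lit 5) (nat_lit 536) (nat_lit 483) (nat_lit 181)) (XT.lf (nat_lit 0) (nat_lit 636781034779) (nat_lit 228) (nat_lit 297589857740) (nat_lit 76) (nat_lit 178693332307) (nat_lit 62) (nat_lit 5) (nat_lit 65) (nat_lit 5) (nat_lit 63) (nat_lit 4) (nat_lit 537) (nat_lit 483) (nat_lit 180))) (XT.nd (nat_lit 78) (nat_lit 76) (nat_lit 0) (XT.lf (nat_lit 0) (nat_lit 392885240348) (nat_lit 76) (nat_lit 580712929594) (nat_lit 152) (nat_lit 176038356565) (nat_lit 61) (nat_lit 5) (nat_lit 62) (nat_lit 5) (nat_lit 63) (nat_lit 4) (nat_lit 538) (nat_lit 483) (nat_lit 179)) (XT.lf (nat_lit 0) (nat_lit 139885284616) (nat_lit 152) (nat_lit 61825950820) (nat_lit 76) (nat_lit 985961406398) (nat_lit 60) (nat_lit 5) (nat_lit 62) (nat_lit 5) (nat_lit 61) (nat_lit 5) (nat_lit 539) (nat_lit 483) (nat_lit 178))))))))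
noncomputable def xc236 : XT := (XT.nd (nat_lit 60450) (nat_lit 0) (nat_lit 228) (XT.nd (nat_lit 59202) (nat_lit 0) (nat_lit 3116) (XT.nd (nat_lit 58578) (nat_lit 0) (nat_lit 5928) (XT.nd (nat_lit 58266) (nat_lit 0) (nat_lit 6840) (XT.nd (nat_lit 58110) (nat_lit 0) (nat_lit 6764) (XT.lf (nat_lit 0) (nat_lit 479701205111) (nat_lit 228) (nat_lit 543270683762) (nat_lit 76) (nat_lit 203793773298) (nat_lit 58) (nat_lit 5) (nat_lit 61) (nat_lit 5) (nat_lit 59) (nat_lit 4) (nat_lit 540) (nat_lit 483) (nat_lit 177)) (XT.nd (nat_lit 78) (nat_lit 0) (nat_lit 0) (XT.lf (nat_lit 0) (nat_lit 50855394132) (nat_lit 836) (nat_lit 35720248337) (nat_lit 836) (nat_lit 35720248337) (nat_lit 147) (nat_lit 3) (nat_lit 158) (nat_lit 3) (nat_lit 158) (nat_lit 5) (nat_lit 484) (nat_lit 484) (nat_lit 232)) (XT.lf (nat_lit 76) (nat_lit 51513476637) (nat_lit 0) (nat_lit 53545425565) (nat_lit 836) (nat_lit 145607406571)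 (nat_lit 148) (nat_lit 5) (nat_lit 147) (nat_lit 3) (nat_lit 158) (nat_lit 5) (nat_lit 485) (nat_lit 484) (nat_lit 231)))) (XT.nd (nat_lit 156) (nat_lit 0) (nat_lit 76) (XT.nd (nat_lit 78) (nat_lit 0) (nat_lit 0) (XT.lf (nat_lit 0) (nat_lit 110928824081) (nat_lit 760) (nat_lit 75033300000) (nat_lit 836) (nat_lit 70964718112) (nat_lit 148) (nat_lit 5) (nat_lit 158) (nat_lit 5) (nat_lit 159) (nat_lit 5) (nat_lit 486) (nat_lit 484) (nat_lit 230)) (XT.lf (nat_lit 76) (nat_lit 56213560557) (nat_lit 0) (nat_lit 62634060992) (nat_lit 836) (nat_lit 144565011768) (nat_lit 149) (nat_lit 5) (nat_lit 148) (nat_lit 5) (nat_lit 159) (nat_lit 5) (nat_lit 487) (nat_lit 484) (nat_lit 229))) (XT.nd (nat_lit 78) (nat_lit 0) (nat_lit 0) (XT.lf (nat_lit 0) (nat_lit 129497731314) (nat_lit 760) (nat_lit 74596178944) (nat_lit 836) (nat_lit 66012035130) (nat_lit 149) (nat_lit 5) (nat_lit 159) (nat_lit 5) (nat_lit 160)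 (nat_lit 5) (nat_lit 488) (nat_lit 484) (nat_lit 228)) (XT.lf (nat_lit 76) (nat_lit 65713266367) (nat_lit 0) (nat_lit 77019776633) (nat_lit 836) (nat_lit 134298245249) (nat_lit 150) (nat_lit 5) (nat_lit 149) (nat_lit 5) (nat_lit 160) (nat_lit 5) (nat_lit 489) (nat_lit 484) (nat_lit 227))))) (XT.nd (nat_lit 312) (nat_lit 1064) (nat_lit 0) (XT.nd (nat_lit 156) (nat_lit 0) (nat_lit 76) (XT.nd (nat_lit 78) (nat_lit 0) (nat_lit 0) (XT.lf (nat_lit 0) (nat_lit 158794783623) (nat_lit 760) (nat_lit 69513178194) (nat_lit 836) (nat_lit 55886703278) (nat_lit 150) (nat_lit 5) (nat_lit 160) (nat_lit 5) (nat_lit 161) (nat_lit 5) (nat_lit 490) (nat_lit 484) (nat_lit 226)) (XT.lf (nat_lit 76) (nat_lit 80702222815) (nat_lit 0) (nat_lit 97479941144) (nat_lit 836) (nat_lit 113407919197) (nat_lit 151) (nat_lit 5) (nat_lit 150) (nat_lit 5) (nat_lit 161) (nat_lit 5) (nat_lit 491) (nat_lit 484) (nat_lit 225))) (XT.nd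 (nat_lit 78) (nat_lit 0) (nat_lit 0) (XT.lf (nat_lit 0) (nat_lit 200358185900) (nat_lit 760) (nat_lit 59096804156) (nat_lit 836) (nat_lit 39809318444) (nat_lit 151) (nat_lit 5) (nat_lit 161) (nat_lit 5) (nat_lit 162) (nat_lit 5) (nat_lit 492) (nat_lit 484) (nat_lit 224)) (XT.lf (nat_lit 76) (nat_lit 101948728170) (nat_lit 0) (nat_lit 124883968130) (nat_lit 836) (nat_lit 80330064450) (nat_lit 152) (nat_lit 5) (nat_lit 151) (nat_lit 5) (nat_lit 162) (nat_lit 5) (nat_lit 493) (nat_lit 484) (nat_lit 223)))) (XT.nd (nat_lit 156) (nat_lit 456) (nat_lit 0) (XT.nd (nat_lit 78) (nat_lit 760) (nat_lit 0) (XT.lf (nat_lit 0) (nat_lit 255904417941) (nat_lit 760) (nat_lit 42580592654) (nat_lit 76) (nat_lit 16907450739) (nat_lit 152) (nat_lit 5) (nat_lit 162) (nat_lit 5) (nat_lit 153) (nat_lit 5) (nat_lit 494) (nat_lit 484) (nat_lit 222)) (XT.lf (nat_lit 0) (nat_lit 130307865928) (nat_lit 760) (nat_lit 160203563210)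 (nat_lit 836) (nat_lit 33318132643) (nat_lit 142) (nat_lit 5) (nat_lit 152) (nat_lit 5) (nat_lit 153) (nat_lit 5) (nat_lit 495) (nat_lit 484) (nat_lit 221))) (XT.nd (nat_lit 78) (nat_lit 456) (nat_lit 0) (XT.lf (nat_lit 0) (nat_lit 313319009453) (nat_lit 760) (nat_lit 14250860266) (nat_lit 836) (nat_lit 5082593595) (nat_lit 142) (nat_lit 5) (nat_lit 152) (nat_lit 5) (nat_lit 153) (nat_lit 5) (nat_lit 496) (nat_lit 484) (nat_lit 220)) (XT.lf (nat_lit 0) (nat_lit 28630006296) (nat_lit 456) (nat_lit 175409218619) (nat_lit 76) (nat_lit 137615533387) (nat_lit 136) (nat_lit 5) (nat_lit 142) (nat_lit 5) (nat_lit 137) (nat_lit 5) (nat_lit 497) (nat_lit 484) (nat_lit 219)))))) (XT.nd (nat_lit 624) (nat_lit 1368) (nat_lit 0) (XT.nd (nat_lit 312) (nat_lit 684) (nat_lit 0) (XT.nd (nat_lit 156) (nat_lit 380) (nat_lit 0) (XT.nd (nat_lit 78) (nat_lit 0) (nat_lit 0) (XT.lf (nat_lit 0) (nat_lit 10704148987) (nat_lit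 380) (nat_lit 53886768859) (nat_lit 456) (nat_lit 286475409631) (nat_lit 131) (nat_lit 5) (nat_lit 136) (nat_lit 5) (nat_lit 137) (nat_lit 5) (nat_lit 498) (nat_lit 484) (nat_lit 218)) (XT.lf (nat_lit 0) (nat_lit 106989366260) (nat_lit 456) (nat_lit 150255879692) (nat_lit 76) (nat_lit 103471254600) (nat_lit 131) (nat_lit 5) (nat_lit 137) (nat_lit 5) (nat_lit 132) (nat_lit 5) (nat_lit 499) (nat_lit 484) (nat_lit 217))) (XT.nd (nat_lit 78) (nat_lit 0) (nat_lit 0) (XT.lf (nat_lit 0) (nat_lit 50075017356) (nat_lit 380) (nat_lit 103097882730) (nat_lit 456) (nat_lit 217593024051) (nat_lit 126) (nat_lit 5) (nat_lit 131) (nat_lit 5) (nat_lit 132) (nat_lit 5) (nat_lit 500) (nat_lit 484) (nat_lit 216)) (XT.lf (nat_lit 0) (nat_lit 205169304507) (nat_lit 456) (nat_lit 116510698198) (nat_lit 76) (nat_lit 59462631506) (nat_lit 126) (nat_lit 5) (nat_lit 132) (nat_lit 5) (nat_lit 127) (nat_lit 5) (nat_lit 501)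 (nat_lit 484) (nat_lit 215)))) (XT.nd (nat_lit 156) (nat_lit 380) (nat_lit 0) (XT.nd (nat_lit 78) (nat_lit 0) (nat_lit 0) (XT.lf (nat_lit 0) (nat_lit 99368773416) (nat_lit 304) (nat_lit 163638274876) (nat_lit 380) (nat_lit 128869055543) (nat_lit 122) (nat_lit 5) (nat_lit 126) (nat_lit 5) (nat_lit 127) (nat_lit 5) (nat_lit 502) (nat_lit 484) (nat_lit 214)) (XT.lf (nat_lit 0) (nat_lit 325778153091) (nat_lit 380) (nat_lit 73028765110) (nat_lit 76) (nat_lit 4237255053) (nat_lit 122) (nat_lit 5) (nat_lit 127) (nat_lit 5) (nat_lit 123) (nat_lit 5) (nat_lit 503) (nat_lit 484) (nat_lit 213))) (XT.nd (nat_lit 78) (nat_lit 76) (nat_lit 0) (XT.lf (nat_lit 0) (nat_lit 159857534675) (nat_lit 304) (nat_lit 237008664742) (nat_lit 380) (nat_lit 17645527416) (nat_lit 118) (nat_lit 5) (nat_lit 122) (nat_lit 5) (nat_lit 123) (nat_lit 5) (nat_lit 504) (nat_lit 484) (nat_lit 212)) (XT.lf (nat_lit 0) (nat_lit 44774137981)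 (nat_lit 380) (nat_lit 20289478981) (nat_lit 76) (nat_lit 361391095662) (nat_lit 117) (nat_lit 5) (nat_lit 122) (nat_lit 5) (nat_lit 118) (nat_lit 5) (nat_lit 505) (nat_lit 484) (nat_lit 211))))) (XT.nd (nat_lit 312) (nat_lit 532) (nat_lit 0) (XT.nd (nat_lit 156) (nat_lit 228) (nat_lit 0) (XT.nd (nat_lit 78) (nat_lit 304) (nat_lit 0) (XT.lf (nat_lit 0) (nat_lit 115226228137) (nat_lit 380) (nat_lit 207705493285) (nat_lit 76) (nat_lit 115773440394) (nat_lit 113) (nat_lit 5) (nat_lit 118) (nat_lit 5) (nat_lit 114) (nat_lit 5) (nat_lit 506) (nat_lit 484) (nat_lit 210)) (XT.lf (nat_lit 0) (nat_lit 44354044288) (nat_lit 304) (nat_lit 146955201484) (nat_lit 380) (nat_lit 260153471548) (nat_lit 109) (nat_lit 5) (nat_lit 113) (nat_lit 5) (nat_lit 114) (nat_lit 5) (nat_lit 507) (nat_lit 484) (nat_lit 209))) (XT.nd (nat_lit 78) (nat_lit 228) (nat_lit 0) (XT.lf (nat_lit 0) (nat_lit 275362122169) (nat_lit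 380) (nat_lit 149102829031) (nat_lit 76) (nat_lit 40184914011) (nat_lit 109) (nat_lit 5) (nat_lit 114) (nat_lit 5) (nat_lit 110) (nat_lit 5) (nat_lit 508) (nat_lit 484) (nat_lit 208)) (XT.lf (nat_lit 0) (nat_lit 123341879134) (nat_lit 228) (nat_lit 244610549638) (nat_lit 304) (nat_lit 110327202406) (nat_lit 106) (nat_lit 5) (nat_lit 109) (nat_lit 5) (nat_lit 110) (nat_lit 5) (nat_lit 509) (nat_lit 484) (nat_lit 207)))) (XT.nd (nat_lit 156) (nat_lit 228) (nat_lit 0) (XT.nd (nat_lit 78) (nat_lit 304) (nat_lit 0) (XT.lf (nat_lit 0) (nat_lit 414585300051) (nat_lit 228) (nat_lit 53112052290) (nat_lit 304) (nat_lit 24767278026) (nat_lit 106) (nat_lit 5) (nat_lit 109) (nat_lit 5) (nat_lit 110) (nat_lit 5) (nat_lit 510) (nat_lit 484) (nat_lit 206)) (XT.lf (nat_lit 0) (nat_lit 68790368570) (nat_lit 304) (nat_lit 290493658887) (nat_lit 76) (nat_lit 147733935658) (nat_lit 102) (nat_lit 5) (nat_lit 106)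 (nat_lit 5) (nat_lit 103) (nat_lit 5) (nat_lit 511) (nat_lit 484) (nat_lit 205))) (XT.nd (nat_lit 78) (nat_lit 0) (nat_lit 0) (XT.lf (nat_lit 0) (nat_lit 4979919282) (nat_lit 228) (nat_lit 163502595480) (nat_lit 304) (nat_lit 353681698684) (nat_lit 99) (nat_lit 5) (nat_lit 102) (nat_lit 5) (nat_lit 103) (nat_lit 5) (nat_lit 512) (nat_lit 484) (nat_lit 204)) (XT.lf (nat_lit 0) (nat_lit 278816341878) (nat_lit 304) (nat_lit 213246817862) (nat_lit 76) (nat_lit 45721762873) (nat_lit 99) (nat_lit 5) (nat_lit 103) (nat_lit 5) (nat_lit 100) (nat_lit 5) (nat_lit 513) (nat_lit 484) (nat_lit 203))))))) (XT.nd (nat_lit 1170) (nat_lit 1064) (nat_lit 0) (XT.nd (nat_lit 546) (nat_lit 912) (nat_lit 0) (XT.nd (nat_lit 234) (nat_lit 456) (nat_lit 0) (XT.nd (nat_lit 78) (nat_lit 228) (nat_lit 0) (XT.lf (nat_lit 0) (nat_lit 106619620896) (nat_lit 228) (nat_lit 292392217135) (nat_lit 304) (nat_lit 154957580328) (nat_lit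 96) (nat_lit 5) (nat_lit 99) (nat_lit 5) (nat_lit 100) (nat_lit 5) (nat_lit 514) (nat_lit 484) (nat_lit 202)) (XT.nd (nat_lit 78) (nat_lit 228) (nat_lit 0) (XT.lf (nat_lit 0) (nat_lit 449882795482) (nat_lit 228) (nat_lit 78945728337) (nat_lit 304) (nat_lit 41954044334) (nat_lit 96) (nat_lit 5) (nat_lit 99) (nat_lit 5) (nat_lit 100) (nat_lit 5) (nat_lit 515) (nat_lit 484) (nat_lit 201)) (XT.lf (nat_lit 0) (nat_lit 80148593833) (nat_lit 228) (nat_lit 362571333437) (nat_lit 76) (nat_lit 145361383641) (nat_lit 93) (nat_lit 5) (nat_lit 96) (nat_lit 5) (nat_lit 94) (nat_lit 5) (nat_lit 516) (nat_lit 484) (nat_lit 200)))) (XT.nd (nat_lit 156) (nat_lit 228) (nat_lit 0) (XT.nd (nat_lit 78) (nat_lit 228) (nat_lit 0) (XT.lf (nat_lit 0) (nat_lit 210321664755) (nat_lit 228) (nat_lit 14720596378) (nat_lit 76) (nat_lit 380999579522) (nat_lit 93) (nat_lit 5) (nat_lit 96) (nat_lit 5) (nat_lit 94) (nat_lit 5)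 (nat_lit 517) (nat_lit 484) (nat_lit 199)) (XT.lf (nat_lit 0) (nat_lit 352804586848) (nat_lit 304) (nat_lit 262652838810) (nat_lit 76) (nat_lit 9152911350) (nat_lit 90) (nat_lit 5) (nat_lit 94) (nat_lit 5) (nat_lit 91) (nat_lit 5) (nat_lit 518) (nat_lit 484) (nat_lit 198))) (XT.nd (nat_lit 78) (nat_lit 76) (nat_lit 0) (XT.lf (nat_lit 0) (nat_lit 113835893066) (nat_lit 152) (nat_lit 394295643310) (nat_lit 228) (nat_lit 135689727738) (nat_lit 88) (nat_lit 5) (nat_lit 90) (nat_lit 5) (nat_lit 91) (nat_lit 5) (nat_lit 519) (nat_lit 484) (nat_lit 197)) (XT.lf (nat_lit 0) (nat_lit 11521676489) (nat_lit 228) (nat_lit 145688421256) (nat_lit 76) (nat_lit 506550941521) (nat_lit 87) (nat_lit 5) (nat_lit 90) (nat_lit 5) (nat_lit 88) (nat_lit 5) (nat_lit 520) (nat_lit 484) (nat_lit 196))))) (XT.nd (nat_lit 312) (nat_lit 380) (nat_lit 0) (XT.nd (nat_lit 156) (nat_lit 304) (nat_lit 0) (XT.nd (nat_lit 78) (nat_lit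 0) (nat_lit 0) (XT.lf (nat_lit 0) (nat_lit 167192336863) (nat_lit 304) (nat_lit 421866483729) (nat_lit 76) (nat_lit 95244823970) (nat_lit 84) (nat_lit 5) (nat_lit 88) (nat_lit 5) (nat_lit 85) (nat_lit 5) (nat_lit 521) (nat_lit 484) (nat_lit 195)) (XT.lf (nat_lit 0) (nat_lit 335731477203) (nat_lit 304) (nat_lit 12340713456) (nat_lit 76) (nat_lit 357546942117) (nat_lit 84) (nat_lit 5) (nat_lit 88) (nat_lit 5) (nat_lit 85) (nat_lit 5) (nat_lit 522) (nat_lit 484) (nat_lit 194))) (XT.nd (nat_lit 78) (nat_lit 152) (nat_lit 0) (XT.lf (nat_lit 0) (nat_lit 431471084875) (nat_lit 152) (nat_lit 87962944151) (nat_lit 228) (nat_lit 208229543654) (nat_lit 82) (nat_lit 5) (nat_lit 84) (nat_lit 5) (nat_lit 85) (nat_lit 5) (nat_lit 523) (nat_lit 484) (nat_lit 193)) (XT.lf (nat_lit 0) (nat_lit 148976101573) (nat_lit 152) (nat_lit 568774683245) (nat_lit 228) (nat_lit 32787995942) (nat_lit 80) (nat_lit 5) (nat_lit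 82) (nat_lit 5) (nat_lit 83) (nat_lit 5) (nat_lit 524) (nat_lit 484) (nat_lit 192)))) (XT.nd (nat_lit 156) (nat_lit 152) (nat_lit 0) (XT.nd (nat_lit 78) (nat_lit 152) (nat_lit 0) (XT.lf (nat_lit 0) (nat_lit 153119456095) (nat_lit 228) (nat_lit 151509142530) (nat_lit 76) (nat_lit 469483922062) (nat_lit 79) (nat_lit 5) (nat_lit 82) (nat_lit 5) (nat_lit 80) (nat_lit 5) (nat_lit 525) (nat_lit 484) (nat_lit 191)) (XT.lf (nat_lit 0) (nat_lit 331107026811) (nat_lit 152) (nat_lit 21282853716) (nat_lit 228) (nat_lit 446189717105) (nat_lit 77) (nat_lit 5) (nat_lit 79) (nat_lit 5) (nat_lit 80) (nat_lit 5) (nat_lit 526) (nat_lit 484) (nat_lit 190))) (XT.nd (nat_lit 78) (nat_lit 0) (nat_lit 0) (XT.lf (nat_lit 0) (nat_lit 15100826579) (nat_lit 152) (nat_lit 553679420342) (nat_lit 228) (nat_lit 255131960466) (nat_lit 75) (nat_lit 5) (nat_lit 77) (nat_lit 5) (nat_lit 78) (nat_lit 5) (nat_lit 527) (nat_lit 484)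 (nat_lit 189)) (XT.lf (nat_lit 0) (nat_lit 537672022087) (nat_lit 152) (nat_lit 266578238972) (nat_lit 228) (nat_lit 45848180102) (nat_lit 75) (nat_lit 5) (nat_lit 77) (nat_lit 5) (nat_lit 78) (nat_lit 5) (nat_lit 528) (nat_lit 484) (nat_lit 188)))))) (XT.nd (nat_lit 624) (nat_lit 228) (nat_lit 0) (XT.nd (nat_lit 312) (nat_lit 380) (nat_lit 0) (XT.nd (nat_lit 156) (nat_lit 228) (nat_lit 0) (XT.nd (nat_lit 78) (nat_lit 0) (nat_lit 0) (XT.lf (nat_lit 0) (nat_lit 172301023382) (nat_lit 228) (nat_lit 665059528631) (nat_lit 76) (nat_lit 39899325789) (nat_lit 72) (nat_lit 5) (nat_lit 75) (nat_lit 5) (nat_lit 73) (nat_lit 5) (nat_lit 529) (nat_lit 484) (nat_lit 187)) (XT.lf (nat_lit 0) (nat_lit 409564838514) (nat_lit 228) (nat_lit 136818147578) (nat_lit 76) (nat_lit 358871422160) (nat_lit 72) (nat_lit 5) (nat_lit 75) (nat_lit 5) (nat_lit 73) (nat_lit 5) (nat_lit 530) (nat_lit 484) (nat_lit 186))) (XT.nd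 (nat_lit 78) (nat_lit 76) (nat_lit 0) (XT.lf (nat_lit 0) (nat_lit 431650797319) (nat_lit 152) (nat_lit 233780310585) (nat_lit 228) (nat_lit 268880594146) (nat_lit 70) (nat_lit 5) (nat_lit 72) (nat_lit 5) (nat_lit 73) (nat_lit 5) (nat_lit 531) (nat_lit 484) (nat_lit 185)) (XT.lf (nat_lit 0) (nat_lit 69292306974) (nat_lit 76) (nat_lit 869709950572) (nat_lit 152) (nat_lit 25574024654) (nat_lit 69) (nat_lit 5) (nat_lit 70) (nat_lit 5) (nat_lit 71) (nat_lit 4) (nat_lit 532) (nat_lit 484) (nat_lit 184)))) (XT.nd (nat_lit 156) (nat_lit 152) (nat_lit 0) (XT.nd (nat_lit 78) (nat_lit 152) (nat_lit 0) (XT.lf (nat_lit 0) (nat_lit 235024514631) (nat_lit 152) (nat_lit 316195415269) (nat_lit 76) (nat_lit 444330453503) (nat_lit 68) (nat_lit 5) (nat_lit 70) (nat_lit 5) (nat_lit 69) (nat_lit 5) (nat_lit 533) (nat_lit 484) (nat_lit 183)) (XT.lf (nat_lit 0) (nat_lit 301064236766) (nat_lit 152) (nat_lit 211429731427)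 (nat_lit 228) (nat_lit 515323237046) (nat_lit 66) (nat_lit 5) (nat_lit 68) (nat_lit 5) (nat_lit 69) (nat_lit 5) (nat_lit 534) (nat_lit 484) (nat_lit 182))) (XT.nd (nat_lit 78) (nat_lit 152) (nat_lit 0) (XT.lf (nat_lit 0) (nat_lit 811548908773) (nat_lit 228) (nat_lit 103622291404) (nat_lit 76) (nat_lit 146140567274) (nat_lit 66) (nat_lit 5) (nat_lit 69) (nat_lit 5) (nat_lit 67) (nat_lit 4) (nat_lit 535) (nat_lit 484) (nat_lit 181)) (XT.lf (nat_lit 0) (nat_lit 40638280665) (nat_lit 152) (nat_lit 531230223399) (nat_lit 76) (nat_lit 523965189135) (nat_lit 64) (nat_lit 5) (nat_lit 66) (nat_lit 5) (nat_lit 65) (nat_lit 5) (nat_lit 536) (nat_lit 484) (nat_lit 180))))) (XT.nd (nat_lit 58500) (nat_lit 0) (nat_lit 6536) (XT.nd (nat_lit 156) (nat_lit 76) (nat_lit 0) (XT.nd (nat_lit 78) (nat_lit 0) (nat_lit 0) (XT.lf (nat_lit 0) (nat_lit 138142228338) (nat_lit 152) (nat_lit 202964015129) (nat_lit 228) (nat_lit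 790573726296) (nat_lit 62) (nat_lit 5) (nat_lit 64) (nat_lit 5) (nat_lit 65) (nat_lit 5) (nat_lit 537) (nat_lit 484) (nat_lit 179)) (XT.lf (nat_lit 0) (nat_lit 668620495403) (nat_lit 228) (nat_lit 312468599474) (nat_lit 76) (nat_lit 187628320730) (nat_lit 62) (nat_lit 5) (nat_lit 65) (nat_lit 5) (nat_lit 63) (nat_lit 4) (nat_lit 538) (nat_lit 484) (nat_lit 178))) (XT.nd (nat_lit 58266) (nat_lit 0) (nat_lit 6536) (XT.lf (nat_lit 0) (nat_lit 412530241404) (nat_lit 76) (nat_lit 609748237989) (nat_lit 152) (nat_lit 184839853377) (nat_lit 61) (nat_lit 5) (nat_lit 62) (nat_lit 5) (nat_lit 63) (nat_lit 4) (nat_lit 539) (nat_lit 484) (nat_lit 177)) (XT.lf (nat_lit 0) (nat_lit 53399221558) (nat_lit 836) (nat_lit 37505705369) (nat_lit 836) (nat_lit 37505705369) (nat_lit 147) (nat_lit 3) (nat_lit 158) (nat_lit 3) (nat_lit 158) (nat_lit 5) (nat_lit 485) (nat_lit 485) (nat_lit 230)))) (XT.nd (nat_lit 156)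 (nat_lit 0) (nat_lit 76) (XT.nd (nat_lit 78) (nat_lit 0) (nat_lit 76) (XT.lf (nat_lit 76) (nat_lit 54090243323) (nat_lit 0) (nat_lit 56223635756) (nat_lit 836) (nat_lit 152885643234) (nat_lit 148) (nat_lit 5) (nat_lit 147) (nat_lit 3) (nat_lit 158) (nat_lit 5) (nat_lit 486) (nat_lit 485) (nat_lit 229)) (XT.lf (nat_lit 0) (nat_lit 116477186340) (nat_lit 760) (nat_lit 78783813178) (nat_lit 836) (nat_lit 74512088435) (nat_lit 148) (nat_lit 5) (nat_lit 158) (nat_lit 5) (nat_lit 159) (nat_lit 5) (nat_lit 487) (nat_lit 485) (nat_lit 228))) (XT.nd (nat_lit 78) (nat_lit 0) (nat_lit 76) (XT.lf (nat_lit 76) (nat_lit 59025371829) (nat_lit 0) (nat_lit 65766478067) (nat_lit 836) (nat_lit 151791322441) (nat_lit 149) (nat_lit 5) (nat_lit 148) (nat_lit 5) (nat_lit 159) (nat_lit 5) (nat_lit 488) (nat_lit 485) (nat_lit 227)) (XT.lf (nat_lit 0) (nat_lit 135974366566) (nat_lit 760) (nat_lit 78324809760) (nat_lit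 836) (nat_lit 69311978627) (nat_lit 149) (nat_lit 5) (nat_lit 159) (nat_lit 5) (nat_lit 160) (nat_lit 5) (nat_lit 489) (nat_lit 485) (nat_lit 226))))))))
noncomputable def xc237 : XT := (XT.nd (nat_lit 2418) (nat_lit 1976) (nat_lit 0) (XT.nd (nat_lit 1170) (nat_lit 2584) (nat_lit 0) (XT.nd (nat_lit 546) (nat_lit 1520) (nat_lit 0) (XT.nd (nat_lit 234) (nat_lit 532) (nat_lit 0) (XT.nd (nat_lit 78) (nat_lit 0) (nat_lit 76) (XT.lf (nat_lit 76) (nat_lit 69000088815) (nat_lit 0) (nat_lit 80871289849) (nat_lit 836) (nat_lit 141011389566) (nat_lit 150) (nat_lit 5) (nat_lit 149) (nat_lit 5) (nat_lit 160) (nat_lit 5) (nat_lit 490) (nat_lit 485) (nat_lit 225)) (XT.nd (nat_lit 78) (nat_lit 0) (nat_lit 0) (XT.lf (nat_lit 0) (nat_lit 166736118353) (nat_lit 760) (nat_lit 72987644962) (nat_lit 836) (nat_lit 58680555013) (nat_lit 150) (nat_lit 5) (nat_lit 160) (nat_lit 5) (nat_lit 161) (nat_lit 5) (nat_lit 491)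 (nat_lit 485) (nat_lit 224)) (XT.lf (nat_lit 76) (nat_lit 84738506869) (nat_lit 0) (nat_lit 102354303171) (nat_lit 836) (nat_lit 119076700148) (nat_lit 151) (nat_lit 5) (nat_lit 150) (nat_lit 5) (nat_lit 161) (nat_lit 5) (nat_lit 492) (nat_lit 485) (nat_lit 223)))) (XT.nd (nat_lit 156) (nat_lit 684) (nat_lit 0) (XT.nd (nat_lit 78) (nat_lit 0) (nat_lit 0) (XT.lf (nat_lit 0) (nat_lit 210377554419) (nat_lit 760) (nat_lit 62050448423) (nat_lit 836) (nat_lit 41799447901) (nat_lit 151) (nat_lit 5) (nat_lit 161) (nat_lit 5) (nat_lit 162) (nat_lit 5) (nat_lit 493) (nat_lit 485) (nat_lit 222)) (XT.lf (nat_lit 76) (nat_lit 107047341230) (nat_lit 0) (nat_lit 131128397992) (nat_lit 836) (nat_lit 84345088949) (nat_lit 152) (nat_lit 5) (nat_lit 151) (nat_lit 5) (nat_lit 162) (nat_lit 5) (nat_lit 494) (nat_lit 485) (nat_lit 221))) (XT.nd (nat_lit 78) (nat_lit 760) (nat_lit 0) (XT.lf (nat_lit 0) (nat_lit 268700976451)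 (nat_lit 760) (nat_lit 44708430972) (nat_lit 76) (nat_lit 17752609897) (nat_lit 152) (nat_lit 5) (nat_lit 162) (nat_lit 5) (nat_lit 153) (nat_lit 5) (nat_lit 495) (nat_lit 485) (nat_lit 220)) (XT.lf (nat_lit 0) (nat_lit 136824431325) (nat_lit 760) (nat_lit 168213861486) (nat_lit 836) (nat_lit 34982682256) (nat_lit 142) (nat_lit 5) (nat_lit 152) (nat_lit 5) (nat_lit 153) (nat_lit 5) (nat_lit 496) (nat_lit 485) (nat_lit 219))))) (XT.nd (nat_lit 312) (nat_lit 684) (nat_lit 0) (XT.nd (nat_lit 156) (nat_lit 380) (nat_lit 0) (XT.nd (nat_lit 78) (nat_lit 456) (nat_lit 0) (XT.lf (nat_lit 0) (nat_lit 328986076212) (nat_lit 760) (nat_lit 14963517676) (nat_lit 836) (nat_lit 5335430876) (nat_lit 142) (nat_lit 5) (nat_lit 152) (nat_lit 5) (nat_lit 153) (nat_lit 5) (nat_lit 497) (nat_lit 485) (nat_lit 218)) (XT.lf (nat_lit 0) (nat_lit 30062714763) (nat_lit 456) (nat_lit 184178478677) (nat_lit 76) (nat_lit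 144496242204) (nat_lit 136) (nat_lit 5) (nat_lit 142) (nat_lit 5) (nat_lit 137) (nat_lit 5) (nat_lit 498) (nat_lit 485) (nat_lit 217))) (XT.nd (nat_lit 78) (nat_lit 0) (nat_lit 0) (XT.lf (nat_lit 0) (nat_lit 11240537940) (nat_lit 380) (nat_lit 56581094866) (nat_lit 456) (nat_lit 300797952434) (nat_lit 131) (nat_lit 5) (nat_lit 136) (nat_lit 5) (nat_lit 137) (nat_lit 5) (nat_lit 499) (nat_lit 485) (nat_lit 216)) (XT.lf (nat_lit 0) (nat_lit 112339948156) (nat_lit 456) (nat_lit 157767492801) (nat_lit 76) (nat_lit 108644828794) (nat_lit 131) (nat_lit 5) (nat_lit 137) (nat_lit 5) (nat_lit 132) (nat_lit 5) (nat_lit 500) (nat_lit 485) (nat_lit 215)))) (XT.nd (nat_lit 156) (nat_lit 304) (nat_lit 0) (XT.nd (nat_lit 78) (nat_lit 0) (nat_lit 0) (XT.lf (nat_lit 0) (nat_lit 52579930054) (nat_lit 380) (nat_lit 108252693731) (nat_lit 456) (nat_lit 228471542482) (nat_lit 126) (nat_lit 5) (nat_lit 131) (nat_lit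 5) (nat_lit 132) (nat_lit 5) (nat_lit 501) (nat_lit 485) (nat_lit 214)) (XT.lf (nat_lit 0) (nat_lit 215428798296) (nat_lit 456) (nat_lit 122335076337) (nat_lit 76) (nat_lit 62435839723) (nat_lit 126) (nat_lit 5) (nat_lit 132) (nat_lit 5) (nat_lit 127) (nat_lit 5) (nat_lit 502) (nat_lit 485) (nat_lit 213))) (XT.nd (nat_lit 78) (nat_lit 0) (nat_lit 0) (XT.lf (nat_lit 0) (nat_lit 104338350200) (nat_lit 304) (nat_lit 171820047861) (nat_lit 380) (nat_lit 135311460969) (nat_lit 122) (nat_lit 5) (nat_lit 126) (nat_lit 5) (nat_lit 127) (nat_lit 5) (nat_lit 503) (nat_lit 485) (nat_lit 212)) (XT.lf (nat_lit 0) (nat_lit 342068012700) (nat_lit 380) (nat_lit 76679073924) (nat_lit 76) (nat_lit 4449247571) (nat_lit 122) (nat_lit 5) (nat_lit 127) (nat_lit 5) (nat_lit 123) (nat_lit 5) (nat_lit 504) (nat_lit 485) (nat_lit 211)))))) (XT.nd (nat_lit 624) (nat_lit 1064) (nat_lit 0) (XT.nd (nat_lit 312) (nat_lit 532)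 (nat_lit 0) (XT.nd (nat_lit 156) (nat_lit 608) (nat_lit 0) (XT.nd (nat_lit 78) (nat_lit 76) (nat_lit 0) (XT.lf (nat_lit 0) (nat_lit 167851522633) (nat_lit 304) (nat_lit 248858910727) (nat_lit 380) (nat_lit 18526833499) (nat_lit 118) (nat_lit 5) (nat_lit 122) (nat_lit 5) (nat_lit 123) (nat_lit 5) (nat_lit 505) (nat_lit 485) (nat_lit 210)) (XT.lf (nat_lit 0) (nat_lit 47013739388) (nat_lit 380) (nat_lit 21302864939) (nat_lit 76) (nat_lit 379460799097) (nat_lit 117) (nat_lit 5) (nat_lit 122) (nat_lit 5) (nat_lit 118) (nat_lit 5) (nat_lit 506) (nat_lit 485) (nat_lit 209))) (XT.nd (nat_lit 78) (nat_lit 304) (nat_lit 0) (XT.lf (nat_lit 0) (nat_lit 120988411319) (nat_lit 380) (nat_lit 218089657125) (nat_lit 76) (nat_lit 121562307772) (nat_lit 113) (nat_lit 5) (nat_lit 118) (nat_lit 5) (nat_lit 114) (nat_lit 5) (nat_lit 507) (nat_lit 485) (nat_lit 208)) (XT.lf (nat_lit 0) (nat_lit 46572839410) (nat_lit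 304) (nat_lit 154302715976) (nat_lit 380) (nat_lit 273160255337) (nat_lit 109) (nat_lit 5) (nat_lit 113) (nat_lit 5) (nat_lit 114) (nat_lit 5) (nat_lit 508) (nat_lit 485) (nat_lit 207)))) (XT.nd (nat_lit 156) (nat_lit 304) (nat_lit 0) (XT.nd (nat_lit 78) (nat_lit 228) (nat_lit 0) (XT.lf (nat_lit 0) (nat_lit 289131038906) (nat_lit 380) (nat_lit 156556892828) (nat_lit 76) (nat_lit 42194386114) (nat_lit 109) (nat_lit 5) (nat_lit 114) (nat_lit 5) (nat_lit 110) (nat_lit 5) (nat_lit 509) (nat_lit 485) (nat_lit 206)) (XT.lf (nat_lit 0) (nat_lit 129510033364) (nat_lit 228) (nat_lit 256840805428) (nat_lit 304) (nat_lit 115842734429) (nat_lit 106) (nat_lit 5) (nat_lit 109) (nat_lit 5) (nat_lit 110) (nat_lit 5) (nat_lit 510) (nat_lit 485) (nat_lit 205))) (XT.nd (nat_lit 78) (nat_lit 304) (nat_lit 0) (XT.lf (nat_lit 0) (nat_lit 435315574837) (nat_lit 228) (nat_lit 55767396150) (nat_lit 304) (nat_lit 26004853262)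 (nat_lit 106) (nat_lit 5) (nat_lit 109) (nat_lit 5) (nat_lit 110) (nat_lit 5) (nat_lit 511) (nat_lit 485) (nat_lit 204)) (XT.lf (nat_lit 0) (nat_lit 72230634267) (nat_lit 304) (nat_lit 305017290498) (nat_lit 76) (nat_lit 155120899066) (nat_lit 102) (nat_lit 5) (nat_lit 106) (nat_lit 5) (nat_lit 103) (nat_lit 5) (nat_lit 512) (nat_lit 485) (nat_lit 203))))) (XT.nd (nat_lit 312) (nat_lit 608) (nat_lit 0) (XT.nd (nat_lit 156) (nat_lit 228) (nat_lit 0) (XT.nd (nat_lit 78) (nat_lit 0) (nat_lit 0) (XT.lf (nat_lit 0) (nat_lit 5229949622) (nat_lit 228) (nat_lit 171677418711) (nat_lit 304) (nat_lit 371365019320) (nat_lit 99) (nat_lit 5) (nat_lit 102) (nat_lit 5) (nat_lit 103) (nat_lit 5) (nat_lit 513) (nat_lit 485) (nat_lit 202)) (XT.lf (nat_lit 0) (nat_lit 292757856706) (nat_lit 304) (nat_lit 223908143465) (nat_lit 76) (nat_lit 48008133618) (nat_lit 99) (nat_lit 5) (nat_lit 103) (nat_lit 5) (nat_lit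 100) (nat_lit 5) (nat_lit 514) (nat_lit 485) (nat_lit 201))) (XT.nd (nat_lit 78) (nat_lit 0) (nat_lit 0) (XT.lf (nat_lit 0) (nat_lit 111951600855) (nat_lit 228) (nat_lit 307011509182) (nat_lit 304) (nat_lit 162704745169) (nat_lit 96) (nat_lit 5) (nat_lit 99) (nat_lit 5) (nat_lit 100) (nat_lit 5) (nat_lit 515) (nat_lit 485) (nat_lit 200)) (XT.lf (nat_lit 0) (nat_lit 472377886603) (nat_lit 228) (nat_lit 82892711125) (nat_lit 304) (nat_lit 44051066384) (nat_lit 96) (nat_lit 5) (nat_lit 99) (nat_lit 5) (nat_lit 100) (nat_lit 5) (nat_lit 516) (nat_lit 485) (nat_lit 199)))) (XT.nd (nat_lit 156) (nat_lit 380) (nat_lit 0) (XT.nd (nat_lit 78) (nat_lit 0) (nat_lit 0) (XT.lf (nat_lit 0) (nat_lit 84156670444) (nat_lit 228) (nat_lit 380698915398) (nat_lit 76) (nat_lit 152629758211) (nat_lit 93) (nat_lit 5) (nat_lit 96) (nat_lit 5) (nat_lit 94) (nat_lit 5) (nat_lit 517) (nat_lit 485) (nat_lit 198)) (XT.lf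 (nat_lit 0) (nat_lit 220838364107) (nat_lit 228) (nat_lit 15455688378) (nat_lit 76) (nat_lit 400049849344) (nat_lit 93) (nat_lit 5) (nat_lit 96) (nat_lit 5) (nat_lit 94) (nat_lit 5) (nat_lit 518) (nat_lit 485) (nat_lit 197))) (XT.nd (nat_lit 78) (nat_lit 152) (nat_lit 0) (XT.lf (nat_lit 0) (nat_lit 370445422391) (nat_lit 304) (nat_lit 275784532966) (nat_lit 76) (nat_lit 9610868140) (nat_lit 90) (nat_lit 5) (nat_lit 94) (nat_lit 5) (nat_lit 91) (nat_lit 5) (nat_lit 519) (nat_lit 485) (nat_lit 196)) (XT.lf (nat_lit 0) (nat_lit 119528620216) (nat_lit 152) (nat_lit 414010084871) (nat_lit 228) (nat_lit 142473592589) (nat_lit 88) (nat_lit 5) (nat_lit 90) (nat_lit 5) (nat_lit 91) (nat_lit 5) (nat_lit 520) (nat_lit 485) (nat_lit 195))))))) (XT.nd (nat_lit 1170) (nat_lit 304) (nat_lit 0) (XT.nd (nat_lit 546) (nat_lit 836) (nat_lit 0) (XT.nd (nat_lit 234) (nat_lit 532) (nat_lit 0) (XT.nd (nat_lit 78) (nat_lit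 228) (nat_lit 0) (XT.lf (nat_lit 0) (nat_lit 12098333307) (nat_lit 228) (nat_lit 152971935236) (nat_lit 76) (nat_lit 531878793992) (nat_lit 87) (nat_lit 5) (nat_lit 90) (nat_lit 5) (nat_lit 88) (nat_lit 5) (nat_lit 521) (nat_lit 485) (nat_lit 194)) (XT.nd (nat_lit 78) (nat_lit 0) (nat_lit 0) (XT.lf (nat_lit 0) (nat_lit 175552518544) (nat_lit 304) (nat_lit 442958892635) (nat_lit 76) (nat_lit 100007387327) (nat_lit 84) (nat_lit 5) (nat_lit 88) (nat_lit 5) (nat_lit 85) (nat_lit 5) (nat_lit 522) (nat_lit 485) (nat_lit 193)) (XT.lf (nat_lit 0) (nat_lit 352518589004) (nat_lit 304) (nat_lit 12956877434) (nat_lit 76) (nat_lit 375424596041) (nat_lit 84) (nat_lit 5) (nat_lit 88) (nat_lit 5) (nat_lit 85) (nat_lit 5) (nat_lit 523) (nat_lit 485) (nat_lit 192)))) (XT.nd (nat_lit 156) (nat_lit 228) (nat_lit 0) (XT.nd (nat_lit 78) (nat_lit 152) (nat_lit 0) (XT.lf (nat_lit 0) (nat_lit 453045496754) (nat_lit 152)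 (nat_lit 92360759437) (nat_lit 228) (nat_lit 218640468798) (nat_lit 82) (nat_lit 5) (nat_lit 84) (nat_lit 5) (nat_lit 85) (nat_lit 5) (nat_lit 524) (nat_lit 485) (nat_lit 191)) (XT.lf (nat_lit 0) (nat_lit 156425771255) (nat_lit 152) (nat_lit 597213071919) (nat_lit 228) (nat_lit 34426850632) (nat_lit 80) (nat_lit 5) (nat_lit 82) (nat_lit 5) (nat_lit 83) (nat_lit 5) (nat_lit 525) (nat_lit 485) (nat_lit 190))) (XT.nd (nat_lit 78) (nat_lit 152) (nat_lit 0) (XT.lf (nat_lit 0) (nat_lit 160775931433) (nat_lit 228) (nat_lit 159083759576) (nat_lit 76) (nat_lit 492958430553) (nat_lit 79) (nat_lit 5) (nat_lit 82) (nat_lit 5) (nat_lit 80) (nat_lit 5) (nat_lit 526) (nat_lit 485) (nat_lit 189)) (XT.lf (nat_lit 0) (nat_lit 347663204683) (nat_lit 152) (nat_lit 22346661378) (nat_lit 228) (nat_lit 468498686846) (nat_lit 77) (nat_lit 5) (nat_lit 79) (nat_lit 5) (nat_lit 80) (nat_lit 5) (nat_lit 527) (nat_lit 485)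 (nat_lit 188))))) (XT.nd (nat_lit 312) (nat_lit 456) (nat_lit 0) (XT.nd (nat_lit 156) (nat_lit 228) (nat_lit 0) (XT.nd (nat_lit 78) (nat_lit 0) (nat_lit 0) (XT.lf (nat_lit 0) (nat_lit 15856700172) (nat_lit 152) (nat_lit 581363045174) (nat_lit 228) (nat_lit 267888048077) (nat_lit 75) (nat_lit 5) (nat_lit 77) (nat_lit 5) (nat_lit 78) (nat_lit 5) (nat_lit 528) (nat_lit 485) (nat_lit 187)) (XT.lf (nat_lit 0) (nat_lit 564556415824) (nat_lit 152) (nat_lit 279906821220) (nat_lit 228) (nat_lit 48140103001) (nat_lit 75) (nat_lit 5) (nat_lit 77) (nat_lit 5) (nat_lit 78) (nat_lit 5) (nat_lit 529) (nat_lit 485) (nat_lit 186))) (XT.nd (nat_lit 78) (nat_lit 0) (nat_lit 0) (XT.lf (nat_lit 0) (nat_lit 180916540332) (nat_lit 228) (nat_lit 698311692051) (nat_lit 76) (nat_lit 41894615994) (nat_lit 72) (nat_lit 5) (nat_lit 75) (nat_lit 5) (nat_lit 73) (nat_lit 5) (nat_lit 530) (nat_lit 485) (nat_lit 185)) (XT.lf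 (nat_lit 0) (nat_lit 430043524040) (nat_lit 228) (nat_lit 143658280660) (nat_lit 76) (nat_lit 376815301759) (nat_lit 72) (nat_lit 5) (nat_lit 75) (nat_lit 5) (nat_lit 73) (nat_lit 5) (nat_lit 531) (nat_lit 485) (nat_lit 184)))) (XT.nd (nat_lit 156) (nat_lit 228) (nat_lit 0) (XT.nd (nat_lit 78) (nat_lit 76) (nat_lit 0) (XT.lf (nat_lit 0) (nat_lit 453234098992) (nat_lit 152) (nat_lit 245468998677) (nat_lit 228) (nat_lit 282324167741) (nat_lit 70) (nat_lit 5) (nat_lit 72) (nat_lit 5) (nat_lit 73) (nat_lit 5) (nat_lit 532) (nat_lit 485) (nat_lit 183)) (XT.lf (nat_lit 0) (nat_lit 72757688205) (nat_lit 76) (nat_lit 913195112731) (nat_lit 152) (nat_lit 26852273826) (nat_lit 69) (nat_lit 5) (nat_lit 70) (nat_lit 5) (nat_lit 71) (nat_lit 4) (nat_lit 533) (nat_lit 485) (nat_lit 182))) (XT.nd (nat_lit 78) (nat_lit 152) (nat_lit 0) (XT.lf (nat_lit 0) (nat_lit 246776157116) (nat_lit 152) (nat_lit 332004442820)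 (nat_lit 76) (nat_lit 466547281778) (nat_lit 68) (nat_lit 5) (nat_lit 70) (nat_lit 5) (nat_lit 69) (nat_lit 5) (nat_lit 534) (nat_lit 485) (nat_lit 181)) (XT.lf (nat_lit 0) (nat_lit 316118179829) (nat_lit 152) (nat_lit 222000895099) (nat_lit 228) (nat_lit 541088970138) (nat_lit 66) (nat_lit 5) (nat_lit 68) (nat_lit 5) (nat_lit 69) (nat_lit 5) (nat_lit 535) (nat_lit 485) (nat_lit 180)))))) (XT.nd (nat_lit 58890) (nat_lit 0) (nat_lit 6080) (XT.nd (nat_lit 58578) (nat_lit 0) (nat_lit 6460) (XT.nd (nat_lit 156) (nat_lit 152) (nat_lit 0) (XT.nd (nat_lit 78) (nat_lit 152) (nat_lit 0) (XT.lf (nat_lit 0) (nat_lit 852126747894) (nat_lit 228) (nat_lit 108802694908) (nat_lit 76) (nat_lit 153447893318) (nat_lit 66) (nat_lit 5) (nat_lit 69) (nat_lit 5) (nat_lit 67) (nat_lit 4) (nat_lit 536) (nat_lit 485) (nat_lit 179)) (XT.lf (nat_lit 0) (nat_lit 42670586900) (nat_lit 152) (nat_lit 557791021987) (nat_lit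 76) (nat_lit 550163749345) (nat_lit 64) (nat_lit 5) (nat_lit 66) (nat_lit 5) (nat_lit 65) (nat_lit 5) (nat_lit 537) (nat_lit 485) (nat_lit 178))) (XT.nd (nat_lit 78) (nat_lit 0) (nat_lit 0) (XT.lf (nat_lit 0) (nat_lit 145050040843) (nat_lit 152) (nat_lit 213111899268) (nat_lit 228) (nat_lit 830102008900) (nat_lit 62) (nat_lit 5) (nat_lit 64) (nat_lit 5) (nat_lit 65) (nat_lit 5) (nat_lit 538) (nat_lit 485) (nat_lit 177)) (XT.lf (nat_lit 0) (nat_lit 702051891043) (nat_lit 228) (nat_lit 328091348129) (nat_lit 76) (nat_lit 197010028655) (nat_lit 62) (nat_lit 5) (nat_lit 65) (nat_lit 5) (nat_lit 63) (nat_lit 4) (nat_lit 539) (nat_lit 485) (nat_lit 176)))) (XT.nd (nat_lit 156) (nat_lit 0) (nat_lit 76) (XT.nd (nat_lit 78) (nat_lit 0) (nat_lit 0) (XT.lf (nat_lit 0) (nat_lit 56070142018) (nat_lit 836) (nat_lit 39380486887) (nat_lit 836) (nat_lit 39380486887) (nat_lit 147) (nat_lit 3) (nat_lit 158) (nat_lit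 3) (nat_lit 158) (nat_lit 5) (nat_lit 486) (nat_lit 486) (nat_lit 228)) (XT.lf (nat_lit 76) (nat_lit 56795746739) (nat_lit 0) (nat_lit 59035669165) (nat_lit 836) (nat_lit 160527990097) (nat_lit 148) (nat_lit 5) (nat_lit 147) (nat_lit 3) (nat_lit 158) (nat_lit 5) (nat_lit 487) (nat_lit 486) (nat_lit 227))) (XT.nd (nat_lit 78) (nat_lit 0) (nat_lit 0) (XT.lf (nat_lit 0) (nat_lit 122302788110) (nat_lit 760) (nat_lit 82721959101) (nat_lit 836) (nat_lit 78236907748) (nat_lit 148) (nat_lit 5) (nat_lit 158) (nat_lit 5) (nat_lit 159) (nat_lit 5) (nat_lit 488) (nat_lit 486) (nat_lit 226)) (XT.lf (nat_lit 76) (nat_lit 61977668306) (nat_lit 0) (nat_lit 69055449613) (nat_lit 836) (nat_lit 159379129004) (nat_lit 149) (nat_lit 5) (nat_lit 148) (nat_lit 5) (nat_lit 159) (nat_lit 5) (nat_lit 489) (nat_lit 486) (nat_lit 225))))) (XT.nd (nat_lit 312) (nat_lit 532) (nat_lit 0) (XT.nd (nat_lit 156) (nat_lit 0) (nat_lit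 76) (XT.nd (nat_lit 78) (nat_lit 0) (nat_lit 0) (XT.lf (nat_lit 0) (nat_lit 142774671005) (nat_lit 760) (nat_lit 82239981649) (nat_lit 836) (nat_lit 72776980498) (nat_lit 149) (nat_lit 5) (nat_lit 159) (nat_lit 5) (nat_lit 160) (nat_lit 5) (nat_lit 490) (nat_lit 486) (nat_lit 224)) (XT.lf (nat_lit 76) (nat_lit 72451144620) (nat_lit 0) (nat_lit 84915329973) (nat_lit 836) (nat_lit 148060355466) (nat_lit 150) (nat_lit 5) (nat_lit 149) (nat_lit 5) (nat_lit 160) (nat_lit 5) (nat_lit 491) (nat_lit 486) (nat_lit 223))) (XT.nd (nat_lit 78) (nat_lit 0) (nat_lit 0) (XT.lf (nat_lit 0) (nat_lit 175074371480) (nat_lit 760) (nat_lit 76635945903) (nat_lit 836) (nat_lit 61614144279) (nat_lit 150) (nat_lit 5) (nat_lit 160) (nat_lit 5) (nat_lit 161) (nat_lit 5) (nat_lit 492) (nat_lit 486) (nat_lit 222)) (XT.lf (nat_lit 76) (nat_lit 88976496079) (nat_lit 0) (nat_lit 107472349367) (nat_lit 836) (nat_lit 125029070295)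 (nat_lit 151) (nat_lit 5) (nat_lit 150) (nat_lit 5) (nat_lit 161) (nat_lit 5) (nat_lit 493) (nat_lit 486) (nat_lit 221)))) (XT.nd (nat_lit 156) (nat_lit 684) (nat_lit 0) (XT.nd (nat_lit 78) (nat_lit 0) (nat_lit 0) (XT.lf (nat_lit 0) (nat_lit 220897755698) (nat_lit 760) (nat_lit 65151886091) (nat_lit 836) (nat_lit 43889115112) (nat_lit 151) (nat_lit 5) (nat_lit 161) (nat_lit 5) (nat_lit 162) (nat_lit 5) (nat_lit 494) (nat_lit 486) (nat_lit 220)) (XT.lf (nat_lit 76) (nat_lit 112400775549) (nat_lit 0) (nat_lit 137685027829) (nat_lit 836) (nat_lit 88561002151) (nat_lit 152) (nat_lit 5) (nat_lit 151) (nat_lit 5) (nat_lit 162) (nat_lit 5) (nat_lit 495) (nat_lit 486) (nat_lit 219))) (XT.nd (nat_lit 78) (nat_lit 760) (nat_lit 0) (XT.lf (nat_lit 0) (nat_lit 282137238528) (nat_lit 760) (nat_lit 46942771962) (nat_lit 76) (nat_lit 18640046851) (nat_lit 152) (nat_lit 5) (nat_lit 162) (nat_lit 5) (nat_lit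 153) (nat_lit 5) (nat_lit 496) (nat_lit 486) (nat_lit 218)) (XT.lf (nat_lit 0) (nat_lit 143666716022) (nat_lit 760) (nat_lit 176624663509) (nat_lit 836) (nat_lit 36730585513) (nat_lit 142) (nat_lit 5) (nat_lit 152) (nat_lit 5) (nat_lit 153) (nat_lit 5) (nat_lit 497) (nat_lit 486) (nat_lit 217))))))))
noncomputable def xc238 : XT := (XT.nd (nat_lit 2418) (nat_lit 1140) (nat_lit 0) (XT.nd (nat_lit 1170) (nat_lit 2204) (nat_lit 0) (XT.nd (nat_lit 546) (nat_lit 1216) (nat_lit 0) (XT.nd (nat_lit 234) (nat_lit 684) (nat_lit 0) (XT.nd (nat_lit 78) (nat_lit 836) (nat_lit 0) (XT.lf (nat_lit 0) (nat_lit 345436392527) (nat_lit 760) (nat_lit 15711797320) (nat_lit 836) (nat_lit 5601030176) (nat_lit 142) (nat_lit 5) (nat_lit 152) (nat_lit 5) (nat_lit 153) (nat_lit 5) (nat_lit 498) (nat_lit 486) (nat_lit 216)) (XT.nd (nat_lit 78) (nat_lit 380) (nat_lit 0) (XT.lf (nat_lit 0) (nat_lit 31566946330) (nat_lit 456)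 (nat_lit 193386313385) (nat_lit 76) (nat_lit 151720992770) (nat_lit 136) (nat_lit 5) (nat_lit 142) (nat_lit 5) (nat_lit 137) (nat_lit 5) (nat_lit 499) (nat_lit 486) (nat_lit 215)) (XT.lf (nat_lit 0) (nat_lit 11803636496) (nat_lit 380) (nat_lit 59410138330) (nat_lit 456) (nat_lit 315836736515) (nat_lit 131) (nat_lit 5) (nat_lit 136) (nat_lit 5) (nat_lit 137) (nat_lit 5) (nat_lit 500) (nat_lit 486) (nat_lit 214)))) (XT.nd (nat_lit 156) (nat_lit 304) (nat_lit 0) (XT.nd (nat_lit 78) (nat_lit 380) (nat_lit 0) (XT.lf (nat_lit 0) (nat_lit 117957955616) (nat_lit 456) (nat_lit 165654796351) (nat_lit 76) (nat_lit 114077080633) (nat_lit 131) (nat_lit 5) (nat_lit 137) (nat_lit 5) (nat_lit 132) (nat_lit 5) (nat_lit 501) (nat_lit 486) (nat_lit 213)) (XT.lf (nat_lit 0) (nat_lit 55209980371) (nat_lit 380) (nat_lit 113665253011) (nat_lit 456) (nat_lit 239894092148) (nat_lit 126) (nat_lit 5) (nat_lit 131) (nat_lit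 5) (nat_lit 132) (nat_lit 5) (nat_lit 502) (nat_lit 486) (nat_lit 212))) (XT.nd (nat_lit 78) (nat_lit 304) (nat_lit 0) (XT.lf (nat_lit 0) (nat_lit 226201171149) (nat_lit 456) (nat_lit 128450780929) (nat_lit 76) (nat_lit 65557701227) (nat_lit 126) (nat_lit 5) (nat_lit 132) (nat_lit 5) (nat_lit 127) (nat_lit 5) (nat_lit 503) (nat_lit 486) (nat_lit 211)) (XT.lf (nat_lit 0) (nat_lit 109556300012) (nat_lit 304) (nat_lit 180410922581) (nat_lit 380) (nat_lit 142076084039) (nat_lit 122) (nat_lit 5) (nat_lit 126) (nat_lit 5) (nat_lit 127) (nat_lit 5) (nat_lit 504) (nat_lit 486) (nat_lit 210))))) (XT.nd (nat_lit 312) (nat_lit 532) (nat_lit 0) (XT.nd (nat_lit 156) (nat_lit 380) (nat_lit 0) (XT.nd (nat_lit 78) (nat_lit 304) (nat_lit 0) (XT.lf (nat_lit 0) (nat_lit 359172276785) (nat_lit 380) (nat_lit 80512003185) (nat_lit 76) (nat_lit 4671827651) (nat_lit 122) (nat_lit 5) (nat_lit 127) (nat_lit 5) (nat_lit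 123) (nat_lit 5) (nat_lit 505) (nat_lit 486) (nat_lit 209)) (XT.lf (nat_lit 0) (nat_lit 176245106678) (nat_lit 304) (nat_lit 261301686421) (nat_lit 380) (nat_lit 19452295094) (nat_lit 118) (nat_lit 5) (nat_lit 122) (nat_lit 5) (nat_lit 123) (nat_lit 5) (nat_lit 506) (nat_lit 486) (nat_lit 208))) (XT.nd (nat_lit 78) (nat_lit 304) (nat_lit 0) (XT.lf (nat_lit 0) (nat_lit 49365237702) (nat_lit 380) (nat_lit 22367021346) (nat_lit 76) (nat_lit 398433973883) (nat_lit 117) (nat_lit 5) (nat_lit 122) (nat_lit 5) (nat_lit 118) (nat_lit 5) (nat_lit 507) (nat_lit 486) (nat_lit 207)) (XT.lf (nat_lit 0) (nat_lit 127038622611) (nat_lit 380) (nat_lit 228993132430) (nat_lit 76) (nat_lit 127640600358) (nat_lit 113) (nat_lit 5) (nat_lit 118) (nat_lit 5) (nat_lit 114) (nat_lit 5) (nat_lit 508) (nat_lit 486) (nat_lit 206)))) (XT.nd (nat_lit 156) (nat_lit 228) (nat_lit 0) (XT.nd (nat_lit 78) (nat_lit 0) (nat_lit 0)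 (XT.lf (nat_lit 0) (nat_lit 48902472681) (nat_lit 304) (nat_lit 162017629024) (nat_lit 380) (nat_lit 286817461040) (nat_lit 109) (nat_lit 5) (nat_lit 113) (nat_lit 5) (nat_lit 114) (nat_lit 5) (nat_lit 509) (nat_lit 486) (nat_lit 205)) (XT.lf (nat_lit 0) (nat_lit 303588326115) (nat_lit 380) (nat_lit 164383760005) (nat_lit 76) (nat_lit 44304310773) (nat_lit 109) (nat_lit 5) (nat_lit 114) (nat_lit 5) (nat_lit 110) (nat_lit 5) (nat_lit 510) (nat_lit 486) (nat_lit 204))) (XT.nd (nat_lit 78) (nat_lit 0) (nat_lit 0) (XT.lf (nat_lit 0) (nat_lit 135986496730) (nat_lit 228) (nat_lit 269682599267) (nat_lit 304) (nat_lit 121634120041) (nat_lit 106) (nat_lit 5) (nat_lit 109) (nat_lit 5) (nat_lit 110) (nat_lit 5) (nat_lit 511) (nat_lit 486) (nat_lit 203)) (XT.lf (nat_lit 0) (nat_lit 457082269482) (nat_lit 228) (nat_lit 58555531260) (nat_lit 304) (nat_lit 27304380584) (nat_lit 106) (nat_lit 5) (nat_lit 109)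 (nat_lit 5) (nat_lit 110) (nat_lit 5) (nat_lit 512) (nat_lit 486) (nat_lit 202)))))) (XT.nd (nat_lit 624) (nat_lit 988) (nat_lit 0) (XT.nd (nat_lit 312) (nat_lit 456) (nat_lit 0) (XT.nd (nat_lit 156) (nat_lit 228) (nat_lit 0) (XT.nd (nat_lit 78) (nat_lit 228) (nat_lit 0) (XT.lf (nat_lit 0) (nat_lit 75842843776) (nat_lit 304) (nat_lit 320267201432) (nat_lit 76) (nat_lit 162877185856) (nat_lit 102) (nat_lit 5) (nat_lit 106) (nat_lit 5) (nat_lit 103) (nat_lit 5) (nat_lit 513) (nat_lit 486) (nat_lit 201)) (XT.lf (nat_lit 0) (nat_lit 5492385314) (nat_lit 228) (nat_lit 180261011604) (nat_lit 304) (nat_lit 389932577044) (nat_lit 99) (nat_lit 5) (nat_lit 102) (nat_lit 5) (nat_lit 103) (nat_lit 5) (nat_lit 514) (nat_lit 486) (nat_lit 200))) (XT.nd (nat_lit 78) (nat_lit 228) (nat_lit 0) (XT.lf (nat_lit 0) (nat_lit 307396382407) (nat_lit 304) (nat_lit 235102629740) (nat_lit 76) (nat_lit 50408796626) (nat_lit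 99) (nat_lit 5) (nat_lit 103) (nat_lit 5) (nat_lit 100) (nat_lit 5) (nat_lit 515) (nat_lit 486) (nat_lit 199)) (XT.lf (nat_lit 0) (nat_lit 117550086943) (nat_lit 228) (nat_lit 322361795471) (nat_lit 304) (nat_lit 170839334650) (nat_lit 96) (nat_lit 5) (nat_lit 99) (nat_lit 5) (nat_lit 100) (nat_lit 5) (nat_lit 516) (nat_lit 486) (nat_lit 198)))) (XT.nd (nat_lit 156) (nat_lit 228) (nat_lit 0) (XT.nd (nat_lit 78) (nat_lit 228) (nat_lit 0) (XT.lf (nat_lit 0) (nat_lit 495997643833) (nat_lit 228) (nat_lit 87037071281) (nat_lit 304) (nat_lit 46253002772) (nat_lit 96) (nat_lit 5) (nat_lit 99) (nat_lit 5) (nat_lit 100) (nat_lit 5) (nat_lit 517) (nat_lit 486) (nat_lit 197)) (XT.lf (nat_lit 0) (nat_lit 88365090742) (nat_lit 228) (nat_lit 399732968007) (nat_lit 76) (nat_lit 160261523118) (nat_lit 93) (nat_lit 5) (nat_lit 96) (nat_lit 5) (nat_lit 94) (nat_lit 5) (nat_lit 518) (nat_lit 486) (nat_lit 196)))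 (XT.nd (nat_lit 78) (nat_lit 228) (nat_lit 0) (XT.lf (nat_lit 0) (nat_lit 231880841145) (nat_lit 228) (nat_lit 16227622167) (nat_lit 76) (nat_lit 420052605617) (nat_lit 93) (nat_lit 5) (nat_lit 96) (nat_lit 5) (nat_lit 94) (nat_lit 5) (nat_lit 519) (nat_lit 486) (nat_lit 195)) (XT.lf (nat_lit 0) (nat_lit 388968243352) (nat_lit 304) (nat_lit 289572899947) (nat_lit 76) (nat_lit 10091693834) (nat_lit 90) (nat_lit 5) (nat_lit 94) (nat_lit 5) (nat_lit 91) (nat_lit 5) (nat_lit 520) (nat_lit 486) (nat_lit 194))))) (XT.nd (nat_lit 312) (nat_lit 532) (nat_lit 0) (XT.nd (nat_lit 156) (nat_lit 228) (nat_lit 0) (XT.nd (nat_lit 78) (nat_lit 76) (nat_lit 0) (XT.lf (nat_lit 0) (nat_lit 125505897029) (nat_lit 152) (nat_lit 434710280177) (nat_lit 228) (nat_lit 149596708466) (nat_lit 88) (nat_lit 5) (nat_lit 90) (nat_lit 5) (nat_lit 91) (nat_lit 5) (nat_lit 521) (nat_lit 486) (nat_lit 193)) (XT.lf (nat_lit 0)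 (nat_lit 12703769694) (nat_lit 228) (nat_lit 160619709248) (nat_lit 76) (nat_lit 558473010694) (nat_lit 87) (nat_lit 5) (nat_lit 90) (nat_lit 5) (nat_lit 88) (nat_lit 5) (nat_lit 522) (nat_lit 486) (nat_lit 192))) (XT.nd (nat_lit 78) (nat_lit 0) (nat_lit 0) (XT.lf (nat_lit 0) (nat_lit 184330656796) (nat_lit 304) (nat_lit 465106007081) (nat_lit 76) (nat_lit 105008048900) (nat_lit 84) (nat_lit 5) (nat_lit 88) (nat_lit 5) (nat_lit 85) (nat_lit 5) (nat_lit 523) (nat_lit 486) (nat_lit 191)) (XT.lf (nat_lit 0) (nat_lit 370145006382) (nat_lit 304) (nat_lit 13603930652) (nat_lit 76) (nat_lit 394196104135) (nat_lit 84) (nat_lit 5) (nat_lit 88) (nat_lit 5) (nat_lit 85) (nat_lit 5) (nat_lit 524) (nat_lit 486) (nat_lit 190)))) (XT.nd (nat_lit 156) (nat_lit 228) (nat_lit 0) (XT.nd (nat_lit 78) (nat_lit 152) (nat_lit 0) (XT.lf (nat_lit 0) (nat_lit 475698549493) (nat_lit 152) (nat_lit 96978496347) (nat_lit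 228) (nat_lit 229571991522) (nat_lit 82) (nat_lit 5) (nat_lit 84) (nat_lit 5) (nat_lit 85) (nat_lit 5) (nat_lit 525) (nat_lit 486) (nat_lit 189)) (XT.lf (nat_lit 0) (nat_lit 164247844039) (nat_lit 152) (nat_lit 627073412146) (nat_lit 228) (nat_lit 36147698736) (nat_lit 80) (nat_lit 5) (nat_lit 82) (nat_lit 5) (nat_lit 83) (nat_lit 5) (nat_lit 526) (nat_lit 486) (nat_lit 188))) (XT.nd (nat_lit 78) (nat_lit 152) (nat_lit 0) (XT.lf (nat_lit 0) (nat_lit 168815183818) (nat_lit 228) (nat_lit 167037185576) (nat_lit 76) (nat_lit 517606635426) (nat_lit 79) (nat_lit 5) (nat_lit 82) (nat_lit 5) (nat_lit 80) (nat_lit 5) (nat_lit 527) (nat_lit 486) (nat_lit 187)) (XT.lf (nat_lit 0) (nat_lit 365047114605) (nat_lit 152) (nat_lit 23463690571) (nat_lit 228) (nat_lit 491923153057) (nat_lit 77) (nat_lit 5) (nat_lit 79) (nat_lit 5) (nat_lit 80) (nat_lit 5) (nat_lit 528) (nat_lit 486) (nat_lit 186))))))) (XT.nd (nat_lit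 59514) (nat_lit 0) (nat_lit 4560) (XT.nd (nat_lit 546) (nat_lit 456) (nat_lit 0) (XT.nd (nat_lit 234) (nat_lit 304) (nat_lit 0) (XT.nd (nat_lit 78) (nat_lit 228) (nat_lit 0) (XT.lf (nat_lit 0) (nat_lit 16650290068) (nat_lit 152) (nat_lit 610430883432) (nat_lit 228) (nat_lit 281281987522) (nat_lit 75) (nat_lit 5) (nat_lit 77) (nat_lit 5) (nat_lit 78) (nat_lit 5) (nat_lit 529) (nat_lit 486) (nat_lit 185)) (XT.nd (nat_lit 78) (nat_lit 228) (nat_lit 0) (XT.lf (nat_lit 0) (nat_lit 592784955556) (nat_lit 152) (nat_lit 293901863233) (nat_lit 228) (nat_lit 50546667237) (nat_lit 75) (nat_lit 5) (nat_lit 77) (nat_lit 5) (nat_lit 78) (nat_lit 5) (nat_lit 530) (nat_lit 486) (nat_lit 184)) (XT.lf (nat_lit 0) (nat_lit 189962789825) (nat_lit 228) (nat_lit 733226539229) (nat_lit 76) (nat_lit 43989640595) (nat_lit 72) (nat_lit 5) (nat_lit 75) (nat_lit 5) (nat_lit 73) (nat_lit 5) (nat_lit 531) (nat_lit 486) (nat_lit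 183)))) (XT.nd (nat_lit 156) (nat_lit 152) (nat_lit 0) (XT.nd (nat_lit 78) (nat_lit 152) (nat_lit 0) (XT.lf (nat_lit 0) (nat_lit 451546102601) (nat_lit 228) (nat_lit 150840492383) (nat_lit 76) (nat_lit 395656346658) (nat_lit 72) (nat_lit 5) (nat_lit 75) (nat_lit 5) (nat_lit 73) (nat_lit 5) (nat_lit 532) (nat_lit 486) (nat_lit 182)) (XT.lf (nat_lit 0) (nat_lit 475896494924) (nat_lit 152) (nat_lit 257742151616) (nat_lit 228) (nat_lit 296439962420) (nat_lit 70) (nat_lit 5) (nat_lit 72) (nat_lit 5) (nat_lit 73) (nat_lit 5) (nat_lit 533) (nat_lit 486) (nat_lit 181))) (XT.nd (nat_lit 78) (nat_lit 76) (nat_lit 0) (XT.lf (nat_lit 0) (nat_lit 76396267293) (nat_lit 76) (nat_lit 958854564178) (nat_lit 152) (nat_lit 28194477484) (nat_lit 69) (nat_lit 5) (nat_lit 70) (nat_lit 5) (nat_lit 71) (nat_lit 4) (nat_lit 534) (nat_lit 486) (nat_lit 180)) (XT.lf (nat_lit 0) (nat_lit 259115342981) (nat_lit 152) (nat_lit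 348603990846) (nat_lit 76) (nat_lit 489874923054) (nat_lit 68) (nat_lit 5) (nat_lit 70) (nat_lit 5) (nat_lit 69) (nat_lit 5) (nat_lit 535) (nat_lit 486) (nat_lit 179))))) (XT.nd (nat_lit 58656) (nat_lit 0) (nat_lit 6460) (XT.nd (nat_lit 156) (nat_lit 304) (nat_lit 0) (XT.nd (nat_lit 78) (nat_lit 0) (nat_lit 0) (XT.lf (nat_lit 0) (nat_lit 331924752062) (nat_lit 152) (nat_lit 233100646975) (nat_lit 228) (nat_lit 568143029746) (nat_lit 66) (nat_lit 5) (nat_lit 68) (nat_lit 5) (nat_lit 69) (nat_lit 5) (nat_lit 536) (nat_lit 486) (nat_lit 178)) (XT.lf (nat_lit 0) (nat_lit 894733442371) (nat_lit 228) (nat_lit 114242184697) (nat_lit 76) (nat_lit 161120557989) (nat_lit 66) (nat_lit 5) (nat_lit 69) (nat_lit 5) (nat_lit 67) (nat_lit 4) (nat_lit 537) (nat_lit 486) (nat_lit 177))) (XT.nd (nat_lit 78) (nat_lit 152) (nat_lit 0) (XT.lf (nat_lit 0) (nat_lit 44804471983) (nat_lit 152) (nat_lit 585679926754) (nat_lit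 76) (nat_lit 577672209605) (nat_lit 64) (nat_lit 5) (nat_lit 66) (nat_lit 5) (nat_lit 65) (nat_lit 5) (nat_lit 538) (nat_lit 486) (nat_lit 176)) (XT.lf (nat_lit 0) (nat_lit 152303178793) (nat_lit 152) (nat_lit 223767207051) (nat_lit 228) (nat_lit 871606743168) (nat_lit 62) (nat_lit 5) (nat_lit 64) (nat_lit 5) (nat_lit 65) (nat_lit 5) (nat_lit 539) (nat_lit 486) (nat_lit 175)))) (XT.nd (nat_lit 156) (nat_lit 0) (nat_lit 76) (XT.nd (nat_lit 78) (nat_lit 0) (nat_lit 0) (XT.lf (nat_lit 0) (nat_lit 58874519308) (nat_lit 836) (nat_lit 41349054315) (nat_lit 836) (nat_lit 41349054315) (nat_lit 147) (nat_lit 3) (nat_lit 158) (nat_lit 3) (nat_lit 158) (nat_lit 5) (nat_lit 487) (nat_lit 487) (nat_lit 226)) (XT.lf (nat_lit 76) (nat_lit 59636433169) (nat_lit 0) (nat_lit 61988225069) (nat_lit 836) (nat_lit 168552634230) (nat_lit 148) (nat_lit 5) (nat_lit 147) (nat_lit 3) (nat_lit 158) (nat_lit 5) (nat_lit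 488) (nat_lit 487) (nat_lit 225))) (XT.nd (nat_lit 78) (nat_lit 0) (nat_lit 0) (XT.lf (nat_lit 0) (nat_lit 128419507972) (nat_lit 760) (nat_lit 86857109450) (nat_lit 836) (nat_lit 82148041018) (nat_lit 148) (nat_lit 5) (nat_lit 158) (nat_lit 5) (nat_lit 159) (nat_lit 5) (nat_lit 489) (nat_lit 487) (nat_lit 224)) (XT.lf (nat_lit 76) (nat_lit 65077484043) (nat_lit 0) (nat_lit 72508809524) (nat_lit 836) (nat_lit 167346489481) (nat_lit 149) (nat_lit 5) (nat_lit 148) (nat_lit 5) (nat_lit 159) (nat_lit 5) (nat_lit 490) (nat_lit 487) (nat_lit 223)))))) (XT.nd (nat_lit 624) (nat_lit 1520) (nat_lit 0) (XT.nd (nat_lit 312) (nat_lit 532) (nat_lit 0) (XT.nd (nat_lit 156) (nat_lit 0) (nat_lit 76) (XT.nd (nat_lit 78) (nat_lit 0) (nat_lit 0) (XT.lf (nat_lit 0) (nat_lit 149914843204) (nat_lit 760) (nat_lit 86351011480) (nat_lit 836) (nat_lit 76415287972) (nat_lit 149) (nat_lit 5) (nat_lit 159) (nat_lit 5) (nat_lit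 160) (nat_lit 5) (nat_lit 491) (nat_lit 487) (nat_lit 222)) (XT.lf (nat_lit 76) (nat_lit 76074655469) (nat_lit 0) (nat_lit 89161527884) (nat_lit 836) (nat_lit 155461918747) (nat_lit 150) (nat_lit 5) (nat_lit 149) (nat_lit 5) (nat_lit 160) (nat_lit 5) (nat_lit 492) (nat_lit 487) (nat_lit 221))) (XT.nd (nat_lit 78) (nat_lit 0) (nat_lit 0) (XT.lf (nat_lit 0) (nat_lit 183829402715) (nat_lit 760) (nat_lit 80466762421) (nat_lit 836) (nat_lit 64694453775) (nat_lit 150) (nat_lit 5) (nat_lit 160) (nat_lit 5) (nat_lit 161) (nat_lit 5) (nat_lit 493) (nat_lit 487) (nat_lit 220)) (XT.lf (nat_lit 76) (nat_lit 93426285842) (nat_lit 0) (nat_lit 112846267097) (nat_lit 836) (nat_lit 131279195137) (nat_lit 151) (nat_lit 5) (nat_lit 150) (nat_lit 5) (nat_lit 161) (nat_lit 5) (nat_lit 494) (nat_lit 487) (nat_lit 219)))) (XT.nd (nat_lit 156) (nat_lit 684) (nat_lit 0) (XT.nd (nat_lit 78) (nat_lit 0) (nat_lit 0) (XT.lf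 (nat_lit 0) (nat_lit 231943843989) (nat_lit 760) (nat_lit 68408496492) (nat_lit 836) (nat_lit 46083294057) (nat_lit 151) (nat_lit 5) (nat_lit 161) (nat_lit 5) (nat_lit 162) (nat_lit 5) (nat_lit 495) (nat_lit 487) (nat_lit 218)) (XT.lf (nat_lit 76) (nat_lit 118021782361) (nat_lit 0) (nat_lit 144569469640) (nat_lit 836) (nat_lit 92987835709) (nat_lit 152) (nat_lit 5) (nat_lit 151) (nat_lit 5) (nat_lit 162) (nat_lit 5) (nat_lit 496) (nat_lit 487) (nat_lit 217))) (XT.nd (nat_lit 78) (nat_lit 760) (nat_lit 0) (XT.lf (nat_lit 0) (nat_lit 296245200911) (nat_lit 760) (nat_lit 49288930462) (nat_lit 76) (nat_lit 19571873647) (nat_lit 152) (nat_lit 5) (nat_lit 162) (nat_lit 5) (nat_lit 153) (nat_lit 5) (nat_lit 497) (nat_lit 487) (nat_lit 216)) (XT.lf (nat_lit 0) (nat_lit 150851016113) (nat_lit 760) (nat_lit 185455995504) (nat_lit 836) (nat_lit 38565998366) (nat_lit 142) (nat_lit 5) (nat_lit 152) (nat_lit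 5) (nat_lit 153) (nat_lit 5) (nat_lit 498) (nat_lit 487) (nat_lit 215))))) (XT.nd (nat_lit 312) (nat_lit 684) (nat_lit 0) (XT.nd (nat_lit 156) (nat_lit 380) (nat_lit 0) (XT.nd (nat_lit 78) (nat_lit 456) (nat_lit 0) (XT.lf (nat_lit 0) (nat_lit 362709130526) (nat_lit 760) (nat_lit 16497481300) (nat_lit 836) (nat_lit 5880018425) (nat_lit 142) (nat_lit 5) (nat_lit 152) (nat_lit 5) (nat_lit 153) (nat_lit 5) (nat_lit 499) (nat_lit 487) (nat_lit 214)) (XT.lf (nat_lit 0) (nat_lit 33146287596) (nat_lit 456) (nat_lit 203054641094) (nat_lit 76) (nat_lit 159306986586) (nat_lit 136) (nat_lit 5) (nat_lit 142) (nat_lit 5) (nat_lit 137) (nat_lit 5) (nat_lit 500) (nat_lit 487) (nat_lit 213))) (XT.nd (nat_lit 78) (nat_lit 0) (nat_lit 0) (XT.lf (nat_lit 0) (nat_lit 12394790346) (nat_lit 380) (nat_lit 62380635016) (nat_lit 456) (nat_lit 331627563327) (nat_lit 131) (nat_lit 5) (nat_lit 136) (nat_lit 5) (nat_lit 137)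 (nat_lit 5) (nat_lit 501) (nat_lit 487) (nat_lit 212)) (XT.lf (nat_lit 0) (nat_lit 123856769544) (nat_lit 456) (nat_lit 173936564659) (nat_lit 76) (nat_lit 119780944096) (nat_lit 131) (nat_lit 5) (nat_lit 137) (nat_lit 5) (nat_lit 132) (nat_lit 5) (nat_lit 502) (nat_lit 487) (nat_lit 211)))) (XT.nd (nat_lit 156) (nat_lit 304) (nat_lit 0) (XT.nd (nat_lit 78) (nat_lit 0) (nat_lit 0) (XT.lf (nat_lit 0) (nat_lit 57971435229) (nat_lit 380) (nat_lit 119348447266) (nat_lit 456) (nat_lit 251887864822) (nat_lit 126) (nat_lit 5) (nat_lit 131) (nat_lit 5) (nat_lit 132) (nat_lit 5) (nat_lit 503) (nat_lit 487) (nat_lit 210)) (XT.lf (nat_lit 0) (nat_lit 237512075909) (nat_lit 456) (nat_lit 134872368297) (nat_lit 76) (nat_lit 68835649342) (nat_lit 126) (nat_lit 5) (nat_lit 132) (nat_lit 5) (nat_lit 127) (nat_lit 5) (nat_lit 504) (nat_lit 487) (nat_lit 209))) (XT.nd (nat_lit 78) (nat_lit 0) (nat_lit 0) (XT.lf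 (nat_lit 0) (nat_lit 115035051341) (nat_lit 304) (nat_lit 189431352907) (nat_lit 380) (nat_lit 149179026583) (nat_lit 122) (nat_lit 5) (nat_lit 126) (nat_lit 5) (nat_lit 127) (nat_lit 5) (nat_lit 505) (nat_lit 487) (nat_lit 208)) (XT.lf (nat_lit 0) (nat_lit 377131673799) (nat_lit 380) (nat_lit 84536674150) (nat_lit 76) (nat_lit 4905525793) (nat_lit 122) (nat_lit 5) (nat_lit 127) (nat_lit 5) (nat_lit 123) (nat_lit 5) (nat_lit 506) (nat_lit 487) (nat_lit 207))))))))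
noncomputable def xc239 : XT := (XT.nd (nat_lit 2418) (nat_lit 152) (nat_lit 0) (XT.nd (nat_lit 1170) (nat_lit 1824) (nat_lit 0) (XT.nd (nat_lit 546) (nat_lit 1216) (nat_lit 0) (XT.nd (nat_lit 234) (nat_lit 532) (nat_lit 0) (XT.nd (nat_lit 78) (nat_lit 380) (nat_lit 0) (XT.lf (nat_lit 0) (nat_lit 185058276218) (nat_lit 304) (nat_lit 274366616689) (nat_lit 380) (nat_lit 20424111590) (nat_lit 118) (nat_lit 5) (nat_lit 122) (nat_lit 5) (nat_lit 123) (nat_lit 5) (nat_lit 507) (nat_lit 487) (nat_lit 206)) (XT.nd (nat_lit 78) (nat_lit 304) (nat_lit 0) (XT.lf (nat_lit 0) (nat_lit 51834235501) (nat_lit 380) (nat_lit 23484477320) (nat_lit 76) (nat_lit 418355794874) (nat_lit 117) (nat_lit 5) (nat_lit 122) (nat_lit 5) (nat_lit 118) (nat_lit 5) (nat_lit 508) (nat_lit 487) (nat_lit 205)) (XT.lf (nat_lit 0) (nat_lit 133391270953) (nat_lit 380) (nat_lit 240441875173) (nat_lit 76) (nat_lit 134022791098) (nat_lit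 113) (nat_lit 5) (nat_lit 118) (nat_lit 5) (nat_lit 114) (nat_lit 5) (nat_lit 509) (nat_lit 487) (nat_lit 204)))) (XT.nd (nat_lit 156) (nat_lit 228) (nat_lit 0) (XT.nd (nat_lit 78) (nat_lit 0) (nat_lit 0) (XT.lf (nat_lit 0) (nat_lit 51348495454) (nat_lit 304) (nat_lit 170118308434) (nat_lit 380) (nat_lit 301157602060) (nat_lit 109) (nat_lit 5) (nat_lit 113) (nat_lit 5) (nat_lit 114) (nat_lit 5) (nat_lit 510) (nat_lit 487) (nat_lit 203)) (XT.lf (nat_lit 0) (nat_lit 318768409327) (nat_lit 380) (nat_lit 172602061417) (nat_lit 76) (nat_lit 46519712574) (nat_lit 109) (nat_lit 5) (nat_lit 114) (nat_lit 5) (nat_lit 110) (nat_lit 5) (nat_lit 511) (nat_lit 487) (nat_lit 202))) (XT.nd (nat_lit 78) (nat_lit 0) (nat_lit 0) (XT.lf (nat_lit 0) (nat_lit 142786693856) (nat_lit 228) (nat_lit 283166505709) (nat_lit 304) (nat_lit 127715144766) (nat_lit 106) (nat_lit 5) (nat_lit 109) (nat_lit 5) (nat_lit 110) (nat_lit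 5) (nat_lit 512) (nat_lit 487) (nat_lit 201)) (XT.lf (nat_lit 0) (nat_lit 479937213708) (nat_lit 228) (nat_lit 61483094945) (nat_lit 304) (nat_lit 28668950777) (nat_lit 106) (nat_lit 5) (nat_lit 109) (nat_lit 5) (nat_lit 110) (nat_lit 5) (nat_lit 513) (nat_lit 487) (nat_lit 200))))) (XT.nd (nat_lit 312) (nat_lit 456) (nat_lit 0) (XT.nd (nat_lit 156) (nat_lit 228) (nat_lit 0) (XT.nd (nat_lit 78) (nat_lit 228) (nat_lit 0) (XT.lf (nat_lit 0) (nat_lit 79635600746) (nat_lit 304) (nat_lit 336279696569) (nat_lit 76) (nat_lit 171021264502) (nat_lit 102) (nat_lit 5) (nat_lit 106) (nat_lit 5) (nat_lit 103) (nat_lit 5) (nat_lit 514) (nat_lit 487) (nat_lit 199)) (XT.lf (nat_lit 0) (nat_lit 5767855564) (nat_lit 228) (nat_lit 189273809992) (nat_lit 304) (nat_lit 409428577106) (nat_lit 99) (nat_lit 5) (nat_lit 102) (nat_lit 5) (nat_lit 103) (nat_lit 5) (nat_lit 515) (nat_lit 487) (nat_lit 198))) (XT.nd (nat_lit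 78) (nat_lit 228) (nat_lit 0) (XT.lf (nat_lit 0) (nat_lit 322766775555) (nat_lit 304) (nat_lit 246856925945) (nat_lit 76) (nat_lit 52929468954) (nat_lit 99) (nat_lit 5) (nat_lit 103) (nat_lit 5) (nat_lit 100) (nat_lit 5) (nat_lit 516) (nat_lit 487) (nat_lit 197)) (XT.lf (nat_lit 0) (nat_lit 123428413100) (nat_lit 228) (nat_lit 338479622958) (nat_lit 304) (nat_lit 179380713829) (nat_lit 96) (nat_lit 5) (nat_lit 99) (nat_lit 5) (nat_lit 100) (nat_lit 5) (nat_lit 517) (nat_lit 487) (nat_lit 196)))) (XT.nd (nat_lit 156) (nat_lit 228) (nat_lit 0) (XT.nd (nat_lit 78) (nat_lit 228) (nat_lit 0) (XT.lf (nat_lit 0) (nat_lit 520798308700) (nat_lit 228) (nat_lit 91388675049) (nat_lit 304) (nat_lit 48565093336) (nat_lit 96) (nat_lit 5) (nat_lit 99) (nat_lit 5) (nat_lit 100) (nat_lit 5) (nat_lit 518) (nat_lit 487) (nat_lit 195)) (XT.lf (nat_lit 0) (nat_lit 92783877501) (nat_lit 228) (nat_lit 419718806284)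 (nat_lit 76) (nat_lit 168274850517) (nat_lit 93) (nat_lit 5) (nat_lit 96) (nat_lit 5) (nat_lit 94) (nat_lit 5) (nat_lit 519) (nat_lit 487) (nat_lit 194))) (XT.nd (nat_lit 78) (nat_lit 228) (nat_lit 0) (XT.lf (nat_lit 0) (nat_lit 243475390081) (nat_lit 228) (nat_lit 17038231729) (nat_lit 76) (nat_lit 441055475178) (nat_lit 93) (nat_lit 5) (nat_lit 96) (nat_lit 5) (nat_lit 94) (nat_lit 5) (nat_lit 520) (nat_lit 487) (nat_lit 193)) (XT.lf (nat_lit 0) (nat_lit 408417154243) (nat_lit 304) (nat_lit 304050765200) (nat_lit 76) (nat_lit 10596534569) (nat_lit 90) (nat_lit 5) (nat_lit 94) (nat_lit 5) (nat_lit 91) (nat_lit 5) (nat_lit 521) (nat_lit 487) (nat_lit 192)))))) (XT.nd (nat_lit 624) (nat_lit 836) (nat_lit 0) (XT.nd (nat_lit 312) (nat_lit 532) (nat_lit 0) (XT.nd (nat_lit 156) (nat_lit 228) (nat_lit 0) (XT.nd (nat_lit 78) (nat_lit 76) (nat_lit 0) (XT.lf (nat_lit 0) (nat_lit 131781959048) (nat_lit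 152) (nat_lit 456445513970) (nat_lit 228) (nat_lit 157076032550) (nat_lit 88) (nat_lit 5) (nat_lit 90) (nat_lit 5) (nat_lit 91) (nat_lit 5) (nat_lit 522) (nat_lit 487) (nat_lit 191)) (XT.lf (nat_lit 0) (nat_lit 13339429582) (nat_lit 228) (nat_lit 168649948451) (nat_lit 76) (nat_lit 586396912478) (nat_lit 87) (nat_lit 5) (nat_lit 90) (nat_lit 5) (nat_lit 88) (nat_lit 5) (nat_lit 523) (nat_lit 487) (nat_lit 190))) (XT.nd (nat_lit 78) (nat_lit 0) (nat_lit 0) (XT.lf (nat_lit 0) (nat_lit 193547654329) (nat_lit 304) (nat_lit 488360554432) (nat_lit 76) (nat_lit 110258716386) (nat_lit 84) (nat_lit 5) (nat_lit 88) (nat_lit 5) (nat_lit 85) (nat_lit 5) (nat_lit 524) (nat_lit 487) (nat_lit 189)) (XT.lf (nat_lit 0) (nat_lit 388652699266) (nat_lit 304) (nat_lit 14283410039) (nat_lit 76) (nat_lit 413906161761) (nat_lit 84) (nat_lit 5) (nat_lit 88) (nat_lit 5) (nat_lit 85) (nat_lit 5) (nat_lit 525) (nat_lit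 487) (nat_lit 188)))) (XT.nd (nat_lit 156) (nat_lit 228) (nat_lit 0) (XT.nd (nat_lit 78) (nat_lit 152) (nat_lit 0) (XT.lf (nat_lit 0) (nat_lit 499484182547) (nat_lit 152) (nat_lit 101827148092) (nat_lit 228) (nat_lit 241050136935) (nat_lit 82) (nat_lit 5) (nat_lit 84) (nat_lit 5) (nat_lit 85) (nat_lit 5) (nat_lit 526) (nat_lit 487) (nat_lit 187)) (XT.lf (nat_lit 0) (nat_lit 172460947552) (nat_lit 152) (nat_lit 658426798519) (nat_lit 228) (nat_lit 37954635212) (nat_lit 80) (nat_lit 5) (nat_lit 82) (nat_lit 5) (nat_lit 83) (nat_lit 5) (nat_lit 527) (nat_lit 487) (nat_lit 186))) (XT.nd (nat_lit 78) (nat_lit 152) (nat_lit 0) (XT.lf (nat_lit 0) (nat_lit 177256356444) (nat_lit 228) (nat_lit 175388353718) (nat_lit 76) (nat_lit 543487224199) (nat_lit 79) (nat_lit 5) (nat_lit 82) (nat_lit 5) (nat_lit 80) (nat_lit 5) (nat_lit 528) (nat_lit 487) (nat_lit 185)) (XT.lf (nat_lit 0) (nat_lit 383300150325) (nat_lit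 152) (nat_lit 24636599475) (nat_lit 228) (nat_lit 516518886101) (nat_lit 77) (nat_lit 5) (nat_lit 79) (nat_lit 5) (nat_lit 80) (nat_lit 5) (nat_lit 529) (nat_lit 487) (nat_lit 184))))) (XT.nd (nat_lit 312) (nat_lit 456) (nat_lit 0) (XT.nd (nat_lit 156) (nat_lit 228) (nat_lit 0) (XT.nd (nat_lit 78) (nat_lit 0) (nat_lit 0) (XT.lf (nat_lit 0) (nat_lit 17483489277) (nat_lit 152) (nat_lit 640952142796) (nat_lit 228) (nat_lit 295345666981) (nat_lit 75) (nat_lit 5) (nat_lit 77) (nat_lit 5) (nat_lit 78) (nat_lit 5) (nat_lit 530) (nat_lit 487) (nat_lit 183)) (XT.lf (nat_lit 0) (nat_lit 622424855434) (nat_lit 152) (nat_lit 308596685149) (nat_lit 228) (nat_lit 53073600678) (nat_lit 75) (nat_lit 5) (nat_lit 77) (nat_lit 5) (nat_lit 78) (nat_lit 5) (nat_lit 531) (nat_lit 487) (nat_lit 182))) (XT.nd (nat_lit 78) (nat_lit 0) (nat_lit 0) (XT.lf (nat_lit 0) (nat_lit 199461312516) (nat_lit 228) (nat_lit 769887197324)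 (nat_lit 76) (nat_lit 46189389111) (nat_lit 72) (nat_lit 5) (nat_lit 75) (nat_lit 5) (nat_lit 73) (nat_lit 5) (nat_lit 532) (nat_lit 487) (nat_lit 181)) (XT.lf (nat_lit 0) (nat_lit 474123772682) (nat_lit 228) (nat_lit 158381879987) (nat_lit 76) (nat_lit 415439417787) (nat_lit 72) (nat_lit 5) (nat_lit 75) (nat_lit 5) (nat_lit 73) (nat_lit 5) (nat_lit 533) (nat_lit 487) (nat_lit 180)))) (XT.nd (nat_lit 156) (nat_lit 228) (nat_lit 0) (XT.nd (nat_lit 78) (nat_lit 76) (nat_lit 0) (XT.lf (nat_lit 0) (nat_lit 499691946412) (nat_lit 152) (nat_lit 270628989814) (nat_lit 228) (nat_lit 311261585296) (nat_lit 70) (nat_lit 5) (nat_lit 72) (nat_lit 5) (nat_lit 73) (nat_lit 5) (nat_lit 534) (nat_lit 487) (nat_lit 179)) (XT.lf (nat_lit 0) (nat_lit 80216710751) (nat_lit 76) (nat_lit 1006797016477) (nat_lit 152) (nat_lit 29603829447) (nat_lit 69) (nat_lit 5) (nat_lit 70) (nat_lit 5) (nat_lit 71) (nat_lit 4) (nat_lit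 535) (nat_lit 487) (nat_lit 178))) (XT.nd (nat_lit 78) (nat_lit 152) (nat_lit 0) (XT.lf (nat_lit 0) (nat_lit 272071452995) (nat_lit 152) (nat_lit 366033578947) (nat_lit 76) (nat_lit 514368920624) (nat_lit 68) (nat_lit 5) (nat_lit 70) (nat_lit 5) (nat_lit 69) (nat_lit 5) (nat_lit 536) (nat_lit 487) (nat_lit 177)) (XT.lf (nat_lit 0) (nat_lit 348521591246) (nat_lit 152) (nat_lit 244755413674) (nat_lit 228) (nat_lit 596549828490) (nat_lit 66) (nat_lit 5) (nat_lit 68) (nat_lit 5) (nat_lit 69) (nat_lit 5) (nat_lit 537) (nat_lit 487) (nat_lit 176))))))) (XT.nd (nat_lit 59670) (nat_lit 0) (nat_lit 2660) (XT.nd (nat_lit 59046) (nat_lit 0) (nat_lit 5472) (XT.nd (nat_lit 58734) (nat_lit 0) (nat_lit 6384) (XT.nd (nat_lit 58578) (nat_lit 0) (nat_lit 6308) (XT.nd (nat_lit 78) (nat_lit 152) (nat_lit 0) (XT.lf (nat_lit 0) (nat_lit 939470438373) (nat_lit 228) (nat_lit 119953708936) (nat_lit 76) (nat_lit 169176830791)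 (nat_lit 66) (nat_lit 5) (nat_lit 69) (nat_lit 5) (nat_lit 67) (nat_lit 4) (nat_lit 538) (nat_lit 487) (nat_lit 175)) (XT.lf (nat_lit 0) (nat_lit 47045018246) (nat_lit 152) (nat_lit 614963336850) (nat_lit 76) (nat_lit 606556067516) (nat_lit 64) (nat_lit 5) (nat_lit 66) (nat_lit 5) (nat_lit 65) (nat_lit 5) (nat_lit 539) (nat_lit 487) (nat_lit 174))) (XT.nd (nat_lit 78) (nat_lit 0) (nat_lit 0) (XT.lf (nat_lit 0) (nat_lit 61819034560) (nat_lit 836) (nat_lit 43416092595) (nat_lit 836) (nat_lit 43416092595) (nat_lit 147) (nat_lit 3) (nat_lit 158) (nat_lit 3) (nat_lit 158) (nat_lit 5) (nat_lit 488) (nat_lit 488) (nat_lit 224)) (XT.lf (nat_lit 76) (nat_lit 62619070332) (nat_lit 0) (nat_lit 65088336954) (nat_lit 836) (nat_lit 176978673767) (nat_lit 148) (nat_lit 5) (nat_lit 147) (nat_lit 3) (nat_lit 158) (nat_lit 5) (nat_lit 489) (nat_lit 488) (nat_lit 223)))) (XT.nd (nat_lit 156) (nat_lit 0) (nat_lit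 76) (XT.nd (nat_lit 78) (nat_lit 0) (nat_lit 0) (XT.lf (nat_lit 0) (nat_lit 134841916891) (nat_lit 760) (nat_lit 91199105416) (nat_lit 836) (nat_lit 86254797158) (nat_lit 148) (nat_lit 5) (nat_lit 158) (nat_lit 5) (nat_lit 159) (nat_lit 5) (nat_lit 490) (nat_lit 488) (nat_lit 222)) (XT.lf (nat_lit 76) (nat_lit 68332203889) (nat_lit 0) (nat_lit 76134782816) (nat_lit 836) (nat_lit 175712366361) (nat_lit 149) (nat_lit 5) (nat_lit 148) (nat_lit 5) (nat_lit 159) (nat_lit 5) (nat_lit 491) (nat_lit 488) (nat_lit 221))) (XT.nd (nat_lit 78) (nat_lit 0) (nat_lit 0) (XT.lf (nat_lit 0) (nat_lit 157411890261) (nat_lit 760) (nat_lit 90667682914) (nat_lit 836) (nat_lit 80235561168) (nat_lit 149) (nat_lit 5) (nat_lit 159) (nat_lit 5) (nat_lit 160) (nat_lit 5) (nat_lit 492) (nat_lit 488) (nat_lit 220)) (XT.lf (nat_lit 76) (nat_lit 79879253202) (nat_lit 0) (nat_lit 93619995581) (nat_lit 836) (nat_lit 163233695417)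 (nat_lit 150) (nat_lit 5) (nat_lit 149) (nat_lit 5) (nat_lit 160) (nat_lit 5) (nat_lit 493) (nat_lit 488) (nat_lit 219))))) (XT.nd (nat_lit 312) (nat_lit 1064) (nat_lit 0) (XT.nd (nat_lit 156) (nat_lit 0) (nat_lit 76) (XT.nd (nat_lit 78) (nat_lit 0) (nat_lit 0) (XT.lf (nat_lit 0) (nat_lit 193022063474) (nat_lit 760) (nat_lit 84489210948) (nat_lit 836) (nat_lit 67928815722) (nat_lit 150) (nat_lit 5) (nat_lit 160) (nat_lit 5) (nat_lit 161) (nat_lit 5) (nat_lit 494) (nat_lit 488) (nat_lit 218)) (XT.lf (nat_lit 76) (nat_lit 98098475379) (nat_lit 0) (nat_lit 118488852798) (nat_lit 836) (nat_lit 137841949750) (nat_lit 151) (nat_lit 5) (nat_lit 150) (nat_lit 5) (nat_lit 161) (nat_lit 5) (nat_lit 495) (nat_lit 488) (nat_lit 217))) (XT.nd (nat_lit 78) (nat_lit 0) (nat_lit 0) (XT.lf (nat_lit 0) (nat_lit 243542125084) (nat_lit 760) (nat_lit 71828028887) (nat_lit 836) (nat_lit 48387207685) (nat_lit 151)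 (nat_lit 5) (nat_lit 161) (nat_lit 5) (nat_lit 162) (nat_lit 5) (nat_lit 496) (nat_lit 488) (nat_lit 216)) (XT.lf (nat_lit 76) (nat_lit 123923749514) (nat_lit 0) (nat_lit 151798115837) (nat_lit 836) (nat_lit 97636124049) (nat_lit 152) (nat_lit 5) (nat_lit 151) (nat_lit 5) (nat_lit 162) (nat_lit 5) (nat_lit 497) (nat_lit 488) (nat_lit 215)))) (XT.nd (nat_lit 156) (nat_lit 456) (nat_lit 0) (XT.nd (nat_lit 78) (nat_lit 760) (nat_lit 0) (XT.lf (nat_lit 0) (nat_lit 311058459104) (nat_lit 760) (nat_lit 51752488007) (nat_lit 76) (nat_lit 20550308103) (nat_lit 152) (nat_lit 5) (nat_lit 162) (nat_lit 5) (nat_lit 153) (nat_lit 5) (nat_lit 498) (nat_lit 488) (nat_lit 214)) (XT.lf (nat_lit 0) (nat_lit 158394441558) (nat_lit 760) (nat_lit 194728884912) (nat_lit 836) (nat_lit 40493285656) (nat_lit 142) (nat_lit 5) (nat_lit 152) (nat_lit 5) (nat_lit 153) (nat_lit 5) (nat_lit 499) (nat_lit 488) (nat_lit 213)))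 (XT.nd (nat_lit 78) (nat_lit 456) (nat_lit 0) (XT.lf (nat_lit 0) (nat_lit 380845420042) (nat_lit 760) (nat_lit 17322440730) (nat_lit 836) (nat_lit 6173054938) (nat_lit 142) (nat_lit 5) (nat_lit 152) (nat_lit 5) (nat_lit 153) (nat_lit 5) (nat_lit 500) (nat_lit 488) (nat_lit 212)) (XT.lf (nat_lit 0) (nat_lit 34804503518) (nat_lit 456) (nat_lit 213206477039) (nat_lit 76) (nat_lit 167272285283) (nat_lit 136) (nat_lit 5) (nat_lit 142) (nat_lit 5) (nat_lit 137) (nat_lit 5) (nat_lit 501) (nat_lit 488) (nat_lit 211)))))) (XT.nd (nat_lit 624) (nat_lit 1368) (nat_lit 0) (XT.nd (nat_lit 312) (nat_lit 684) (nat_lit 0) (XT.nd (nat_lit 156) (nat_lit 380) (nat_lit 0) (XT.nd (nat_lit 78) (nat_lit 0) (nat_lit 0) (XT.lf (nat_lit 0) (nat_lit 13015411519) (nat_lit 380) (nat_lit 65499657487) (nat_lit 456) (nat_lit 348208025381) (nat_lit 131) (nat_lit 5) (nat_lit 136) (nat_lit 5) (nat_lit 137) (nat_lit 5) (nat_lit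 502) (nat_lit 488) (nat_lit 210)) (XT.lf (nat_lit 0) (nat_lit 130050438994) (nat_lit 456) (nat_lit 182632511704) (nat_lit 76) (nat_lit 125769999856) (nat_lit 131) (nat_lit 5) (nat_lit 137) (nat_lit 5) (nat_lit 132) (nat_lit 5) (nat_lit 503) (nat_lit 488) (nat_lit 209))) (XT.nd (nat_lit 78) (nat_lit 0) (nat_lit 0) (XT.lf (nat_lit 0) (nat_lit 60870873966) (nat_lit 380) (nat_lit 125315807592) (nat_lit 456) (nat_lit 264481412771) (nat_lit 126) (nat_lit 5) (nat_lit 131) (nat_lit 5) (nat_lit 132) (nat_lit 5) (nat_lit 504) (nat_lit 488) (nat_lit 208)) (XT.lf (nat_lit 0) (nat_lit 249388447234) (nat_lit 456) (nat_lit 141615123512) (nat_lit 76) (nat_lit 72277489001) (nat_lit 126) (nat_lit 5) (nat_lit 132) (nat_lit 5) (nat_lit 127) (nat_lit 5) (nat_lit 505) (nat_lit 488) (nat_lit 207)))) (XT.nd (nat_lit 156) (nat_lit 380) (nat_lit 0) (XT.nd (nat_lit 78) (nat_lit 0) (nat_lit 0) (XT.lf (nat_lit 0) (nat_lit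 120787653186) (nat_lit 304) (nat_lit 198902815516) (nat_lit 380) (nat_lit 156637196363) (nat_lit 122) (nat_lit 5) (nat_lit 126) (nat_lit 5) (nat_lit 127) (nat_lit 5) (nat_lit 506) (nat_lit 488) (nat_lit 206)) (XT.lf (nat_lit 0) (nat_lit 395988967852) (nat_lit 380) (nat_lit 88762665052) (nat_lit 76) (nat_lit 5150898915) (nat_lit 122) (nat_lit 5) (nat_lit 127) (nat_lit 5) (nat_lit 123) (nat_lit 5) (nat_lit 507) (nat_lit 488) (nat_lit 205))) (XT.nd (nat_lit 78) (nat_lit 76) (nat_lit 0) (XT.lf (nat_lit 0) (nat_lit 194312019241) (nat_lit 304) (nat_lit 288084807794) (nat_lit 380) (nat_lit 21444593126) (nat_lit 118) (nat_lit 5) (nat_lit 122) (nat_lit 5) (nat_lit 123) (nat_lit 5) (nat_lit 508) (nat_lit 488) (nat_lit 204)) (XT.lf (nat_lit 0) (nat_lit 54426614771) (nat_lit 380) (nat_lit 24657889310) (nat_lit 76) (nat_lit 439273695544) (nat_lit 117) (nat_lit 5) (nat_lit 122) (nat_lit 5) (nat_lit 118) (nat_lit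 5) (nat_lit 509) (nat_lit 488) (nat_lit 203))))) (XT.nd (nat_lit 312) (nat_lit 532) (nat_lit 0) (XT.nd (nat_lit 156) (nat_lit 228) (nat_lit 0) (XT.nd (nat_lit 78) (nat_lit 304) (nat_lit 0) (XT.lf (nat_lit 0) (nat_lit 140061485033) (nat_lit 380) (nat_lit 252463140017) (nat_lit 76) (nat_lit 140724076433) (nat_lit 113) (nat_lit 5) (nat_lit 118) (nat_lit 5) (nat_lit 114) (nat_lit 5) (nat_lit 510) (nat_lit 488) (nat_lit 202)) (XT.lf (nat_lit 0) (nat_lit 53916735771) (nat_lit 304) (nat_lit 178624040598) (nat_lit 380) (nat_lit 316214818190) (nat_lit 109) (nat_lit 5) (nat_lit 113) (nat_lit 5) (nat_lit 114) (nat_lit 5) (nat_lit 511) (nat_lit 488) (nat_lit 201))) (XT.nd (nat_lit 78) (nat_lit 228) (nat_lit 0) (XT.lf (nat_lit 0) (nat_lit 334707434697) (nat_lit 380) (nat_lit 181231360325) (nat_lit 76) (nat_lit 48845867147) (nat_lit 109) (nat_lit 5) (nat_lit 114) (nat_lit 5) (nat_lit 110) (nat_lit 5) (nat_lit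 512) (nat_lit 488) (nat_lit 200)) (XT.lf (nat_lit 0) (nat_lit 149926819741) (nat_lit 228) (nat_lit 297324628254) (nat_lit 304) (nat_lit 134100284065) (nat_lit 106) (nat_lit 5) (nat_lit 109) (nat_lit 5) (nat_lit 110) (nat_lit 5) (nat_lit 513) (nat_lit 488) (nat_lit 199)))) (XT.nd (nat_lit 156) (nat_lit 228) (nat_lit 0) (XT.nd (nat_lit 78) (nat_lit 304) (nat_lit 0) (XT.lf (nat_lit 0) (nat_lit 503934827909) (nat_lit 228) (nat_lit 64557056606) (nat_lit 304) (nat_lit 30101809802) (nat_lit 106) (nat_lit 5) (nat_lit 109) (nat_lit 5) (nat_lit 110) (nat_lit 5) (nat_lit 514) (nat_lit 488) (nat_lit 198)) (XT.lf (nat_lit 0) (nat_lit 83617938407) (nat_lit 304) (nat_lit 353092896876) (nat_lit 76) (nat_lit 179572526687) (nat_lit 102) (nat_lit 5) (nat_lit 106) (nat_lit 5) (nat_lit 103) (nat_lit 5) (nat_lit 515) (nat_lit 488) (nat_lit 197))) (XT.nd (nat_lit 78) (nat_lit 0) (nat_lit 0) (XT.lf (nat_lit 0) (nat_lit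 6057020210) (nat_lit 228) (nat_lit 198737271745) (nat_lit 304) (nat_lit 429899435630) (nat_lit 99) (nat_lit 5) (nat_lit 102) (nat_lit 5) (nat_lit 103) (nat_lit 5) (nat_lit 516) (nat_lit 488) (nat_lit 196)) (XT.lf (nat_lit 0) (nat_lit 338905634992) (nat_lit 304) (nat_lit 259199014618) (nat_lit 76) (nat_lit 55576153282) (nat_lit 99) (nat_lit 5) (nat_lit 103) (nat_lit 5) (nat_lit 100) (nat_lit 5) (nat_lit 517) (nat_lit 488) (nat_lit 195))))))))
noncomputable def xc240 : XT := (XT.nd (nat_lit 60996) (nat_lit 0) (nat_lit 1064) (XT.nd (nat_lit 1170) (nat_lit 684) (nat_lit 0) (XT.nd (nat_lit 546) (nat_lit 912) (nat_lit 0) (XT.nd (nat_lit 234) (nat_lit 456) (nat_lit 0) (XT.nd (nat_lit 78) (nat_lit 228) (nat_lit 0) (XT.lf (nat_lit 0) (nat_lit 129600579160) (nat_lit 228) (nat_lit 355403366205) (nat_lit 304) (nat_lit 188349216592) (nat_lit 96) (nat_lit 5) (nat_lit 99) (nat_lit 5) (nat_lit 100) (nat_lit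 5) (nat_lit 518) (nat_lit 488) (nat_lit 194)) (XT.nd (nat_lit 78) (nat_lit 228) (nat_lit 0) (XT.lf (nat_lit 0) (nat_lit 546838934045) (nat_lit 228) (nat_lit 95957882229) (nat_lit 304) (nat_lit 50992840452) (nat_lit 96) (nat_lit 5) (nat_lit 99) (nat_lit 5) (nat_lit 100) (nat_lit 5) (nat_lit 519) (nat_lit 488) (nat_lit 193)) (XT.lf (nat_lit 0) (nat_lit 97423554117) (nat_lit 228) (nat_lit 440704011792) (nat_lit 76) (nat_lit 176688820929) (nat_lit 93) (nat_lit 5) (nat_lit 96) (nat_lit 5) (nat_lit 94) (nat_lit 5) (nat_lit 520) (nat_lit 488) (nat_lit 192)))) (XT.nd (nat_lit 156) (nat_lit 228) (nat_lit 0) (XT.nd (nat_lit 78) (nat_lit 228) (nat_lit 0) (XT.lf (nat_lit 0) (nat_lit 255649619338) (nat_lit 228) (nat_lit 17889443501) (nat_lit 76) (nat_lit 463108465971) (nat_lit 93) (nat_lit 5) (nat_lit 96) (nat_lit 5) (nat_lit 94) (nat_lit 5) (nat_lit 521) (nat_lit 488) (nat_lit 191)) (XT.lf (nat_lit 0) (nat_lit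 428838464311) (nat_lit 304) (nat_lit 319252596210) (nat_lit 76) (nat_lit 11126593536) (nat_lit 90) (nat_lit 5) (nat_lit 94) (nat_lit 5) (nat_lit 91) (nat_lit 5) (nat_lit 522) (nat_lit 488) (nat_lit 190))) (XT.nd (nat_lit 78) (nat_lit 76) (nat_lit 0) (XT.lf (nat_lit 0) (nat_lit 138371752844) (nat_lit 152) (nat_lit 479267535505) (nat_lit 228) (nat_lit 164929370378) (nat_lit 88) (nat_lit 5) (nat_lit 90) (nat_lit 5) (nat_lit 91) (nat_lit 5) (nat_lit 523) (nat_lit 488) (nat_lit 189)) (XT.lf (nat_lit 0) (nat_lit 14006828638) (nat_lit 228) (nat_lit 177081768995) (nat_lit 76) (nat_lit 615716985992) (nat_lit 87) (nat_lit 5) (nat_lit 90) (nat_lit 5) (nat_lit 88) (nat_lit 5) (nat_lit 524) (nat_lit 488) (nat_lit 188))))) (XT.nd (nat_lit 312) (nat_lit 380) (nat_lit 0) (XT.nd (nat_lit 156) (nat_lit 304) (nat_lit 0) (XT.nd (nat_lit 78) (nat_lit 0) (nat_lit 0) (XT.lf (nat_lit 0) (nat_lit 203225458536) (nat_lit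 304) (nat_lit 512777899157) (nat_lit 76) (nat_lit 115771892604) (nat_lit 84) (nat_lit 5) (nat_lit 88) (nat_lit 5) (nat_lit 85) (nat_lit 5) (nat_lit 525) (nat_lit 488) (nat_lit 187)) (XT.lf (nat_lit 0) (nat_lit 408085735650) (nat_lit 304) (nat_lit 14996930068) (nat_lit 76) (nat_lit 434601698801) (nat_lit 84) (nat_lit 5) (nat_lit 88) (nat_lit 5) (nat_lit 85) (nat_lit 5) (nat_lit 526) (nat_lit 488) (nat_lit 186))) (XT.nd (nat_lit 78) (nat_lit 152) (nat_lit 0) (XT.lf (nat_lit 0) (nat_lit 524459031655) (nat_lit 152) (nat_lit 106918257812) (nat_lit 228) (nat_lit 253102231842) (nat_lit 82) (nat_lit 5) (nat_lit 84) (nat_lit 5) (nat_lit 85) (nat_lit 5) (nat_lit 527) (nat_lit 488) (nat_lit 185)) (XT.lf (nat_lit 0) (nat_lit 181084640111) (nat_lit 152) (nat_lit 691347880636) (nat_lit 228) (nat_lit 39851960205) (nat_lit 80) (nat_lit 5) (nat_lit 82) (nat_lit 5) (nat_lit 83) (nat_lit 5) (nat_lit 528) (nat_lit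 488) (nat_lit 184)))) (XT.nd (nat_lit 156) (nat_lit 152) (nat_lit 0) (XT.nd (nat_lit 78) (nat_lit 152) (nat_lit 0) (XT.lf (nat_lit 0) (nat_lit 186119549265) (nat_lit 228) (nat_lit 184157144523) (nat_lit 76) (nat_lit 570661818518) (nat_lit 79) (nat_lit 5) (nat_lit 82) (nat_lit 5) (nat_lit 80) (nat_lit 5) (nat_lit 529) (nat_lit 488) (nat_lit 183)) (XT.lf (nat_lit 0) (nat_lit 402465774612) (nat_lit 152) (nat_lit 25868179449) (nat_lit 228) (nat_lit 542344445273) (nat_lit 77) (nat_lit 5) (nat_lit 79) (nat_lit 5) (nat_lit 80) (nat_lit 5) (nat_lit 530) (nat_lit 488) (nat_lit 182))) (XT.nd (nat_lit 78) (nat_lit 0) (nat_lit 0) (XT.lf (nat_lit 0) (nat_lit 18358284789) (nat_lit 152) (nat_lit 672999491607) (nat_lit 228) (nat_lit 310112569453) (nat_lit 75) (nat_lit 5) (nat_lit 77) (nat_lit 5) (nat_lit 78) (nat_lit 5) (nat_lit 531) (nat_lit 488) (nat_lit 181)) (XT.lf (nat_lit 0) (nat_lit 653546689680) (nat_lit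 152) (nat_lit 324026273379) (nat_lit 228) (nat_lit 55726917972) (nat_lit 75) (nat_lit 5) (nat_lit 77) (nat_lit 5) (nat_lit 78) (nat_lit 5) (nat_lit 532) (nat_lit 488) (nat_lit 180)))))) (XT.nd (nat_lit 59202) (nat_lit 0) (nat_lit 6232) (XT.nd (nat_lit 312) (nat_lit 228) (nat_lit 0) (XT.nd (nat_lit 156) (nat_lit 228) (nat_lit 0) (XT.nd (nat_lit 78) (nat_lit 0) (nat_lit 0) (XT.lf (nat_lit 0) (nat_lit 209434725714) (nat_lit 228) (nat_lit 808380950508) (nat_lit 76) (nat_lit 48499100277) (nat_lit 72) (nat_lit 5) (nat_lit 75) (nat_lit 5) (nat_lit 73) (nat_lit 5) (nat_lit 533) (nat_lit 488) (nat_lit 179)) (XT.lf (nat_lit 0) (nat_lit 497830292338) (nat_lit 228) (nat_lit 166300396194) (nat_lit 76) (nat_lit 436211618878) (nat_lit 72) (nat_lit 5) (nat_lit 75) (nat_lit 5) (nat_lit 73) (nat_lit 5) (nat_lit 534) (nat_lit 488) (nat_lit 178))) (XT.nd (nat_lit 78) (nat_lit 76) (nat_lit 0) (XT.lf (nat_lit 0) (nat_lit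 524677112205) (nat_lit 152) (nat_lit 284160194966) (nat_lit 228) (nat_lit 326824324202) (nat_lit 70) (nat_lit 5) (nat_lit 72) (nat_lit 5) (nat_lit 73) (nat_lit 5) (nat_lit 535) (nat_lit 488) (nat_lit 177)) (XT.lf (nat_lit 0) (nat_lit 84228117802) (nat_lit 76) (nat_lit 1057136617043) (nat_lit 152) (nat_lit 31083683585) (nat_lit 69) (nat_lit 5) (nat_lit 70) (nat_lit 5) (nat_lit 71) (nat_lit 4) (nat_lit 536) (nat_lit 488) (nat_lit 176)))) (XT.nd (nat_lit 58734) (nat_lit 0) (nat_lit 6156) (XT.nd (nat_lit 78) (nat_lit 152) (nat_lit 0) (XT.lf (nat_lit 0) (nat_lit 285675336633) (nat_lit 152) (nat_lit 384334703298) (nat_lit 76) (nat_lit 540087594699) (nat_lit 68) (nat_lit 5) (nat_lit 70) (nat_lit 5) (nat_lit 69) (nat_lit 5) (nat_lit 537) (nat_lit 488) (nat_lit 175)) (XT.lf (nat_lit 0) (nat_lit 365948216459) (nat_lit 152) (nat_lit 256992943406) (nat_lit 228) (nat_lit 626376999967) (nat_lit 66) (nat_lit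 5) (nat_lit 68) (nat_lit 5) (nat_lit 69) (nat_lit 5) (nat_lit 538) (nat_lit 488) (nat_lit 174))) (XT.nd (nat_lit 78) (nat_lit 0) (nat_lit 0) (XT.lf (nat_lit 0) (nat_lit 64910702194) (nat_lit 836) (nat_lit 45586521318) (nat_lit 836) (nat_lit 45586521318) (nat_lit 147) (nat_lit 3) (nat_lit 158) (nat_lit 3) (nat_lit 158) (nat_lit 5) (nat_lit 489) (nat_lit 489) (nat_lit 222)) (XT.lf (nat_lit 76) (nat_lit 65750763535) (nat_lit 0) (nat_lit 68343389295) (nat_lit 836) (nat_lit 185826163306) (nat_lit 148) (nat_lit 5) (nat_lit 147) (nat_lit 3) (nat_lit 158) (nat_lit 5) (nat_lit 490) (nat_lit 489) (nat_lit 221))))) (XT.nd (nat_lit 312) (nat_lit 0) (nat_lit 152) (XT.nd (nat_lit 156) (nat_lit 0) (nat_lit 76) (XT.nd (nat_lit 78) (nat_lit 0) (nat_lit 0) (XT.lf (nat_lit 0) (nat_lit 141585312981) (nat_lit 760) (nat_lit 95758281088) (nat_lit 836) (nat_lit 90566951155) (nat_lit 148) (nat_lit 5) (nat_lit 158) (nat_lit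 5) (nat_lit 159) (nat_lit 5) (nat_lit 491) (nat_lit 489) (nat_lit 220)) (XT.lf (nat_lit 76) (nat_lit 71749581108) (nat_lit 0) (nat_lit 79942005238) (nat_lit 836) (nat_lit 184496671668) (nat_lit 149) (nat_lit 5) (nat_lit 148) (nat_lit 5) (nat_lit 159) (nat_lit 5) (nat_lit 492) (nat_lit 489) (nat_lit 219))) (XT.nd (nat_lit 78) (nat_lit 0) (nat_lit 0) (XT.lf (nat_lit 0) (nat_lit 165283668354) (nat_lit 760) (nat_lit 95200269655) (nat_lit 836) (nat_lit 84246893690) (nat_lit 149) (nat_lit 5) (nat_lit 159) (nat_lit 5) (nat_lit 160) (nat_lit 5) (nat_lit 493) (nat_lit 489) (nat_lit 218)) (XT.lf (nat_lit 76) (nat_lit 83874000407) (nat_lit 0) (nat_lit 98301350284) (nat_lit 836) (nat_lit 171394183573) (nat_lit 150) (nat_lit 5) (nat_lit 149) (nat_lit 5) (nat_lit 160) (nat_lit 5) (nat_lit 494) (nat_lit 489) (nat_lit 217)))) (XT.nd (nat_lit 156) (nat_lit 0) (nat_lit 76) (XT.nd (nat_lit 78) (nat_lit 0) (nat_lit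 0) (XT.lf (nat_lit 0) (nat_lit 202674246578) (nat_lit 760) (nat_lit 88712864608) (nat_lit 836) (nat_lit 71324929304) (nat_lit 150) (nat_lit 5) (nat_lit 160) (nat_lit 5) (nat_lit 161) (nat_lit 5) (nat_lit 495) (nat_lit 489) (nat_lit 216)) (XT.lf (nat_lit 76) (nat_lit 103004193022) (nat_lit 0) (nat_lit 124413542463) (nat_lit 836) (nat_lit 144732954135) (nat_lit 151) (nat_lit 5) (nat_lit 150) (nat_lit 5) (nat_lit 161) (nat_lit 5) (nat_lit 496) (nat_lit 489) (nat_lit 215))) (XT.nd (nat_lit 78) (nat_lit 0) (nat_lit 0) (XT.lf (nat_lit 0) (nat_lit 255720218997) (nat_lit 760) (nat_lit 75418620872) (nat_lit 836) (nat_lit 50806340336) (nat_lit 151) (nat_lit 5) (nat_lit 161) (nat_lit 5) (nat_lit 162) (nat_lit 5) (nat_lit 497) (nat_lit 489) (nat_lit 214)) (XT.lf (nat_lit 76) (nat_lit 130120733394) (nat_lit 0) (nat_lit 159388178288) (nat_lit 836) (nat_lit 102516929393) (nat_lit 152) (nat_lit 5) (nat_lit 151)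 (nat_lit 5) (nat_lit 162) (nat_lit 5) (nat_lit 498) (nat_lit 489) (nat_lit 213))))))) (XT.nd (nat_lit 1170) (nat_lit 2204) (nat_lit 0) (XT.nd (nat_lit 546) (nat_lit 1292) (nat_lit 0) (XT.nd (nat_lit 234) (nat_lit 1216) (nat_lit 0) (XT.nd (nat_lit 78) (nat_lit 760) (nat_lit 0) (XT.lf (nat_lit 0) (nat_lit 326612287408) (nat_lit 760) (nat_lit 54339306078) (nat_lit 76) (nat_lit 21577679085) (nat_lit 152) (nat_lit 5) (nat_lit 162) (nat_lit 5) (nat_lit 153) (nat_lit 5) (nat_lit 499) (nat_lit 489) (nat_lit 212)) (XT.nd (nat_lit 78) (nat_lit 0) (nat_lit 0) (XT.lf (nat_lit 0) (nat_lit 166314956960) (nat_lit 760) (nat_lit 204465410457) (nat_lit 836) (nat_lit 42517031455) (nat_lit 142) (nat_lit 5) (nat_lit 152) (nat_lit 5) (nat_lit 153) (nat_lit 5) (nat_lit 500) (nat_lit 489) (nat_lit 211)) (XT.lf (nat_lit 0) (nat_lit 399888446591) (nat_lit 760) (nat_lit 18188640194) (nat_lit 836) (nat_lit 6480832938) (nat_lit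 142) (nat_lit 5) (nat_lit 152) (nat_lit 5) (nat_lit 153) (nat_lit 5) (nat_lit 501) (nat_lit 489) (nat_lit 210)))) (XT.nd (nat_lit 156) (nat_lit 380) (nat_lit 0) (XT.nd (nat_lit 78) (nat_lit 380) (nat_lit 0) (XT.lf (nat_lit 0) (nat_lit 36545546418) (nat_lit 456) (nat_lit 223865988093) (nat_lit 76) (nat_lit 175635853622) (nat_lit 136) (nat_lit 5) (nat_lit 142) (nat_lit 5) (nat_lit 137) (nat_lit 5) (nat_lit 502) (nat_lit 489) (nat_lit 209)) (XT.lf (nat_lit 0) (nat_lit 13666981783) (nat_lit 380) (nat_lit 68774631944) (nat_lit 456) (nat_lit 365617595709) (nat_lit 131) (nat_lit 5) (nat_lit 136) (nat_lit 5) (nat_lit 137) (nat_lit 5) (nat_lit 503) (nat_lit 489) (nat_lit 208))) (XT.nd (nat_lit 78) (nat_lit 380) (nat_lit 0) (XT.lf (nat_lit 0) (nat_lit 136553714660) (nat_lit 456) (nat_lit 191763338026) (nat_lit 76) (nat_lit 132058507609) (nat_lit 131) (nat_lit 5) (nat_lit 137) (nat_lit 5) (nat_lit 132)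 (nat_lit 5) (nat_lit 504) (nat_lit 489) (nat_lit 207)) (XT.lf (nat_lit 0) (nat_lit 63915204037) (nat_lit 380) (nat_lit 131581541702) (nat_lit 456) (nat_lit 277704716705) (nat_lit 126) (nat_lit 5) (nat_lit 131) (nat_lit 5) (nat_lit 132) (nat_lit 5) (nat_lit 505) (nat_lit 489) (nat_lit 206))))) (XT.nd (nat_lit 312) (nat_lit 684) (nat_lit 0) (XT.nd (nat_lit 156) (nat_lit 304) (nat_lit 0) (XT.nd (nat_lit 78) (nat_lit 304) (nat_lit 0) (XT.lf (nat_lit 0) (nat_lit 261858565769) (nat_lit 456) (nat_lit 148695096740) (nat_lit 76) (nat_lit 75891415326) (nat_lit 126) (nat_lit 5) (nat_lit 132) (nat_lit 5) (nat_lit 127) (nat_lit 5) (nat_lit 506) (nat_lit 489) (nat_lit 205)) (XT.lf (nat_lit 0) (nat_lit 126827806165) (nat_lit 304) (nat_lit 208847861020) (nat_lit 380) (nat_lit 164468347292) (nat_lit 122) (nat_lit 5) (nat_lit 126) (nat_lit 5) (nat_lit 127) (nat_lit 5) (nat_lit 507) (nat_lit 489) (nat_lit 204)))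 (XT.nd (nat_lit 78) (nat_lit 304) (nat_lit 0) (XT.lf (nat_lit 0) (nat_lit 415789060564) (nat_lit 380) (nat_lit 93200033855) (nat_lit 76) (nat_lit 5408531692) (nat_lit 122) (nat_lit 5) (nat_lit 127) (nat_lit 5) (nat_lit 123) (nat_lit 5) (nat_lit 508) (nat_lit 489) (nat_lit 203)) (XT.lf (nat_lit 0) (nat_lit 204028372323) (nat_lit 304) (nat_lit 302488921444) (nat_lit 380) (nat_lit 22516166053) (nat_lit 118) (nat_lit 5) (nat_lit 122) (nat_lit 5) (nat_lit 123) (nat_lit 5) (nat_lit 509) (nat_lit 489) (nat_lit 202)))) (XT.nd (nat_lit 156) (nat_lit 304) (nat_lit 0) (XT.nd (nat_lit 78) (nat_lit 304) (nat_lit 0) (XT.lf (nat_lit 0) (nat_lit 57148550947) (nat_lit 380) (nat_lit 25890047380) (nat_lit 76) (nat_lit 461237480935) (nat_lit 117) (nat_lit 5) (nat_lit 122) (nat_lit 5) (nat_lit 118) (nat_lit 5) (nat_lit 510) (nat_lit 489) (nat_lit 201)) (XT.lf (nat_lit 0) (nat_lit 147065149337) (nat_lit 380) (nat_lit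 265085545168) (nat_lit 76) (nat_lit 147760412482) (nat_lit 113) (nat_lit 5) (nat_lit 118) (nat_lit 5) (nat_lit 114) (nat_lit 5) (nat_lit 511) (nat_lit 489) (nat_lit 200))) (XT.nd (nat_lit 78) (nat_lit 0) (nat_lit 0) (XT.lf (nat_lit 0) (nat_lit 56613312283) (nat_lit 304) (nat_lit 187555076408) (nat_lit 380) (nat_lit 332024956855) (nat_lit 109) (nat_lit 5) (nat_lit 113) (nat_lit 5) (nat_lit 114) (nat_lit 5) (nat_lit 512) (nat_lit 489) (nat_lit 199)) (XT.lf (nat_lit 0) (nat_lit 351443355097) (nat_lit 380) (nat_lit 190292198943) (nat_lit 76) (nat_lit 51288313743) (nat_lit 109) (nat_lit 5) (nat_lit 114) (nat_lit 5) (nat_lit 110) (nat_lit 5) (nat_lit 513) (nat_lit 489) (nat_lit 198)))))) (XT.nd (nat_lit 624) (nat_lit 988) (nat_lit 0) (XT.nd (nat_lit 312) (nat_lit 456) (nat_lit 0) (XT.nd (nat_lit 156) (nat_lit 532) (nat_lit 0) (XT.nd (nat_lit 78) (nat_lit 0) (nat_lit 0) (XT.lf (nat_lit 0) (nat_lit 157423878362)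 (nat_lit 228) (nat_lit 312190675775) (nat_lit 304) (nat_lit 140804737779) (nat_lit 106) (nat_lit 5) (nat_lit 109) (nat_lit 5) (nat_lit 110) (nat_lit 5) (nat_lit 514) (nat_lit 489) (nat_lit 197)) (XT.lf (nat_lit 0) (nat_lit 529132252766) (nat_lit 228) (nat_lit 67784734302) (nat_lit 304) (nat_lit 31606366493) (nat_lit 106) (nat_lit 5) (nat_lit 109) (nat_lit 5) (nat_lit 110) (nat_lit 5) (nat_lit 515) (nat_lit 489) (nat_lit 196))) (XT.nd (nat_lit 78) (nat_lit 228) (nat_lit 0) (XT.lf (nat_lit 0) (nat_lit 87799341108) (nat_lit 304) (nat_lit 370746830135) (nat_lit 76) (nat_lit 188551333484) (nat_lit 102) (nat_lit 5) (nat_lit 106) (nat_lit 5) (nat_lit 103) (nat_lit 5) (nat_lit 516) (nat_lit 489) (nat_lit 195)) (XT.lf (nat_lit 0) (nat_lit 6360571327) (nat_lit 228) (nat_lit 208673927852) (nat_lit 304) (nat_lit 451393890105) (nat_lit 99) (nat_lit 5) (nat_lit 102) (nat_lit 5) (nat_lit 103) (nat_lit 5) (nat_lit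 517) (nat_lit 489) (nat_lit 194)))) (XT.nd (nat_lit 156) (nat_lit 228) (nat_lit 0) (XT.nd (nat_lit 78) (nat_lit 228) (nat_lit 0) (XT.lf (nat_lit 0) (nat_lit 355851388996) (nat_lit 304) (nat_lit 272158278160) (nat_lit 76) (nat_lit 58355152222) (nat_lit 99) (nat_lit 5) (nat_lit 103) (nat_lit 5) (nat_lit 100) (nat_lit 5) (nat_lit 518) (nat_lit 489) (nat_lit 193)) (XT.lf (nat_lit 0) (nat_lit 136081284223) (nat_lit 228) (nat_lit 373173318732) (nat_lit 304) (nat_lit 197766194040) (nat_lit 96) (nat_lit 5) (nat_lit 99) (nat_lit 5) (nat_lit 100) (nat_lit 5) (nat_lit 519) (nat_lit 489) (nat_lit 192))) (XT.nd (nat_lit 78) (nat_lit 228) (nat_lit 0) (XT.lf (nat_lit 0) (nat_lit 574181524657) (nat_lit 228) (nat_lit 100755570833) (nat_lit 304) (nat_lit 53542022111) (nat_lit 96) (nat_lit 5) (nat_lit 99) (nat_lit 5) (nat_lit 100) (nat_lit 5) (nat_lit 520) (nat_lit 489) (nat_lit 191)) (XT.lf (nat_lit 0) (nat_lit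 102295169684) (nat_lit 228) (nat_lit 462738545891) (nat_lit 76) (nat_lit 185523468674) (nat_lit 93) (nat_lit 5) (nat_lit 96) (nat_lit 5) (nat_lit 94) (nat_lit 5) (nat_lit 521) (nat_lit 489) (nat_lit 190))))) (XT.nd (nat_lit 312) (nat_lit 532) (nat_lit 0) (XT.nd (nat_lit 156) (nat_lit 228) (nat_lit 0) (XT.nd (nat_lit 78) (nat_lit 228) (nat_lit 0) (XT.lf (nat_lit 0) (nat_lit 268432517315) (nat_lit 228) (nat_lit 18783280923) (nat_lit 76) (nat_lit 486264086125) (nat_lit 93) (nat_lit 5) (nat_lit 96) (nat_lit 5) (nat_lit 94) (nat_lit 5) (nat_lit 522) (nat_lit 489) (nat_lit 189)) (XT.lf (nat_lit 0) (nat_lit 450280797827) (nat_lit 304) (nat_lit 335214584523) (nat_lit 76) (nat_lit 11683133860) (nat_lit 90) (nat_lit 5) (nat_lit 94) (nat_lit 5) (nat_lit 91) (nat_lit 5) (nat_lit 523) (nat_lit 489) (nat_lit 188))) (XT.nd (nat_lit 78) (nat_lit 76) (nat_lit 0) (XT.lf (nat_lit 0) (nat_lit 145290971637) (nat_lit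 152) (nat_lit 503230681745) (nat_lit 228) (nat_lit 173175418217) (nat_lit 88) (nat_lit 5) (nat_lit 90) (nat_lit 5) (nat_lit 91) (nat_lit 5) (nat_lit 524) (nat_lit 489) (nat_lit 187)) (XT.lf (nat_lit 0) (nat_lit 14707557894) (nat_lit 228) (nat_lit 185935243496) (nat_lit 76) (nat_lit 646503041995) (nat_lit 87) (nat_lit 5) (nat_lit 90) (nat_lit 5) (nat_lit 88) (nat_lit 5) (nat_lit 525) (nat_lit 489) (nat_lit 186)))) (XT.nd (nat_lit 156) (nat_lit 304) (nat_lit 0) (XT.nd (nat_lit 78) (nat_lit 0) (nat_lit 0) (XT.lf (nat_lit 0) (nat_lit 213387113767) (nat_lit 304) (nat_lit 538416174618) (nat_lit 76) (nat_lit 121560705284) (nat_lit 84) (nat_lit 5) (nat_lit 88) (nat_lit 5) (nat_lit 85) (nat_lit 5) (nat_lit 526) (nat_lit 489) (nat_lit 185)) (XT.lf (nat_lit 0) (nat_lit 428490386532) (nat_lit 304) (nat_lit 15746186574) (nat_lit 76) (nat_lit 456331991407) (nat_lit 84) (nat_lit 5) (nat_lit 88) (nat_lit 5)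 (nat_lit 85) (nat_lit 5) (nat_lit 527) (nat_lit 489) (nat_lit 184))) (XT.nd (nat_lit 78) (nat_lit 152) (nat_lit 0) (XT.lf (nat_lit 0) (nat_lit 550682563719) (nat_lit 152) (nat_lit 112263946046) (nat_lit 228) (nat_lit 265756969793) (nat_lit 82) (nat_lit 5) (nat_lit 84) (nat_lit 5) (nat_lit 85) (nat_lit 5) (nat_lit 528) (nat_lit 489) (nat_lit 183)) (XT.lf (nat_lit 0) (nat_lit 190139457314) (nat_lit 152) (nat_lit 725915040828) (nat_lit 228) (nat_lit 41844189265) (nat_lit 80) (nat_lit 5) (nat_lit 82) (nat_lit 5) (nat_lit 83) (nat_lit 5) (nat_lit 529) (nat_lit 489) (nat_lit 182))))))))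
noncomputable def xc241 : XT := (XT.nd (nat_lit 61074) (nat_lit 0) (nat_lit 76) (XT.nd (nat_lit 59826) (nat_lit 0) (nat_lit 3724) (XT.nd (nat_lit 546) (nat_lit 152) (nat_lit 0) (XT.nd (nat_lit 234) (nat_lit 380) (nat_lit 0) (XT.nd (nat_lit 78) (nat_lit 304) (nat_lit 0) (XT.lf (nat_lit 0) (nat_lit 195425866862) (nat_lit 228) (nat_lit 193364433149) (nat_lit 76) (nat_lit 599195120880) (nat_lit 79) (nat_lit 5) (nat_lit 82) (nat_lit 5) (nat_lit 80) (nat_lit 5) (nat_lit 530) (nat_lit 489) (nat_lit 181)) (XT.nd (nat_lit 78) (nat_lit 152) (nat_lit 0) (XT.lf (nat_lit 0) (nat_lit 422589622771) (nat_lit 152) (nat_lit 27161361664) (nat_lit 228) (nat_lit 569461318210) (nat_lit 77) (nat_lit 5) (nat_lit 79) (nat_lit 5) (nat_lit 80) (nat_lit 5) (nat_lit 531) (nat_lit 489) (nat_lit 180)) (XT.lf (nat_lit 0) (nat_lit 19276762338) (nat_lit 152) (nat_lit 706649231875) (nat_lit 228) (nat_lit 325617852458) (nat_lit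 75) (nat_lit 5) (nat_lit 77) (nat_lit 5) (nat_lit 78) (nat_lit 5) (nat_lit 532) (nat_lit 489) (nat_lit 179)))) (XT.nd (nat_lit 156) (nat_lit 152) (nat_lit 0) (XT.nd (nat_lit 78) (nat_lit 228) (nat_lit 0) (XT.lf (nat_lit 0) (nat_lit 686224560649) (nat_lit 152) (nat_lit 340227363893) (nat_lit 228) (nat_lit 58512934854) (nat_lit 75) (nat_lit 5) (nat_lit 77) (nat_lit 5) (nat_lit 78) (nat_lit 5) (nat_lit 533) (nat_lit 489) (nat_lit 178)) (XT.lf (nat_lit 0) (nat_lit 219906777259) (nat_lit 228) (nat_lit 848799447755) (nat_lit 76) (nat_lit 50924274530) (nat_lit 72) (nat_lit 5) (nat_lit 75) (nat_lit 5) (nat_lit 73) (nat_lit 5) (nat_lit 534) (nat_lit 489) (nat_lit 177))) (XT.nd (nat_lit 78) (nat_lit 152) (nat_lit 0) (XT.lf (nat_lit 0) (nat_lit 522722107202) (nat_lit 228) (nat_lit 174614891930) (nat_lit 76) (nat_lit 458022408620) (nat_lit 72) (nat_lit 5) (nat_lit 75) (nat_lit 5) (nat_lit 73) (nat_lit 5)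 (nat_lit 535) (nat_lit 489) (nat_lit 176)) (XT.lf (nat_lit 0) (nat_lit 550911483437) (nat_lit 152) (nat_lit 298367983092) (nat_lit 228) (nat_lit 343165231697) (nat_lit 70) (nat_lit 5) (nat_lit 72) (nat_lit 5) (nat_lit 73) (nat_lit 5) (nat_lit 536) (nat_lit 489) (nat_lit 175))))) (XT.nd (nat_lit 58968) (nat_lit 0) (nat_lit 6080) (XT.nd (nat_lit 58812) (nat_lit 0) (nat_lit 6004) (XT.nd (nat_lit 78) (nat_lit 76) (nat_lit 0) (XT.lf (nat_lit 0) (nat_lit 88440042071) (nat_lit 76) (nat_lit 1109993220904) (nat_lit 152) (nat_lit 32637561791) (nat_lit 69) (nat_lit 5) (nat_lit 70) (nat_lit 5) (nat_lit 71) (nat_lit 4) (nat_lit 537) (nat_lit 489) (nat_lit 174)) (XT.lf (nat_lit 0) (nat_lit 299959385541) (nat_lit 152) (nat_lit 403550935428) (nat_lit 76) (nat_lit 567092181275) (nat_lit 68) (nat_lit 5) (nat_lit 70) (nat_lit 5) (nat_lit 69) (nat_lit 5) (nat_lit 538) (nat_lit 489) (nat_lit 173))) (XT.nd (nat_lit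 78) (nat_lit 0) (nat_lit 0) (XT.lf (nat_lit 0) (nat_lit 68156886652) (nat_lit 836) (nat_lit 47865506426) (nat_lit 836) (nat_lit 47865506426) (nat_lit 147) (nat_lit 3) (nat_lit 158) (nat_lit 3) (nat_lit 158) (nat_lit 5) (nat_lit 490) (nat_lit 490) (nat_lit 220)) (XT.lf (nat_lit 76) (nat_lit 69038972629) (nat_lit 0) (nat_lit 71761135171) (nat_lit 836) (nat_lit 195116161585) (nat_lit 148) (nat_lit 5) (nat_lit 147) (nat_lit 3) (nat_lit 158) (nat_lit 5) (nat_lit 491) (nat_lit 490) (nat_lit 219)))) (XT.nd (nat_lit 156) (nat_lit 0) (nat_lit 76) (XT.nd (nat_lit 78) (nat_lit 0) (nat_lit 0) (XT.lf (nat_lit 0) (nat_lit 148665757990) (nat_lit 760) (nat_lit 100545488024) (nat_lit 836) (nat_lit 95094767320) (nat_lit 148) (nat_lit 5) (nat_lit 158) (nat_lit 5) (nat_lit 159) (nat_lit 5) (nat_lit 492) (nat_lit 490) (nat_lit 218)) (XT.lf (nat_lit 76) (nat_lit 75337755876) (nat_lit 0) (nat_lit 83939543849) (nat_lit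 836) (nat_lit 193720314312) (nat_lit 149) (nat_lit 5) (nat_lit 148) (nat_lit 5) (nat_lit 159) (nat_lit 5) (nat_lit 493) (nat_lit 490) (nat_lit 217))) (XT.nd (nat_lit 78) (nat_lit 0) (nat_lit 0) (XT.lf (nat_lit 0) (nat_lit 173548925314) (nat_lit 760) (nat_lit 99959559867) (nat_lit 836) (nat_lit 88458834261) (nat_lit 149) (nat_lit 5) (nat_lit 159) (nat_lit 5) (nat_lit 160) (nat_lit 5) (nat_lit 494) (nat_lit 490) (nat_lit 216)) (XT.lf (nat_lit 76) (nat_lit 88068412032) (nat_lit 0) (nat_lit 103216739725) (nat_lit 836) (nat_lit 179962807386) (nat_lit 150) (nat_lit 5) (nat_lit 149) (nat_lit 5) (nat_lit 160) (nat_lit 5) (nat_lit 495) (nat_lit 490) (nat_lit 215)))))) (XT.nd (nat_lit 624) (nat_lit 1444) (nat_lit 0) (XT.nd (nat_lit 312) (nat_lit 1064) (nat_lit 0) (XT.nd (nat_lit 156) (nat_lit 0) (nat_lit 76) (XT.nd (nat_lit 78) (nat_lit 0) (nat_lit 0) (XT.lf (nat_lit 0) (nat_lit 212808938435) (nat_lit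 760) (nat_lit 93147775967) (nat_lit 836) (nat_lit 74890878986) (nat_lit 150) (nat_lit 5) (nat_lit 160) (nat_lit 5) (nat_lit 161) (nat_lit 5) (nat_lit 496) (nat_lit 490) (nat_lit 214)) (XT.lf (nat_lit 76) (nat_lit 108155122740) (nat_lit 0) (nat_lit 130634443646) (nat_lit 836) (nat_lit 151968610367) (nat_lit 151) (nat_lit 5) (nat_lit 150) (nat_lit 5) (nat_lit 161) (nat_lit 5) (nat_lit 497) (nat_lit 490) (nat_lit 213))) (XT.nd (nat_lit 78) (nat_lit 0) (nat_lit 0) (XT.lf (nat_lit 0) (nat_lit 268507125784) (nat_lit 760) (nat_lit 79188817711) (nat_lit 836) (nat_lit 53346450793) (nat_lit 151) (nat_lit 5) (nat_lit 161) (nat_lit 5) (nat_lit 162) (nat_lit 5) (nat_lit 498) (nat_lit 490) (nat_lit 212)) (XT.lf (nat_lit 76) (nat_lit 136627492426) (nat_lit 0) (nat_lit 167357729296) (nat_lit 836) (nat_lit 107641868055) (nat_lit 152) (nat_lit 5) (nat_lit 151) (nat_lit 5) (nat_lit 162) (nat_lit 5) (nat_lit 499)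 (nat_lit 490) (nat_lit 211)))) (XT.nd (nat_lit 156) (nat_lit 456) (nat_lit 0) (XT.nd (nat_lit 78) (nat_lit 760) (nat_lit 0) (XT.lf (nat_lit 0) (nat_lit 342943722957) (nat_lit 760) (nat_lit 57055540017) (nat_lit 76) (nat_lit 22656432043) (nat_lit 152) (nat_lit 5) (nat_lit 162) (nat_lit 5) (nat_lit 153) (nat_lit 5) (nat_lit 500) (nat_lit 490) (nat_lit 210)) (XT.lf (nat_lit 0) (nat_lit 174631424376) (nat_lit 760) (nat_lit 214688754720) (nat_lit 836) (nat_lit 44642049935) (nat_lit 142) (nat_lit 5) (nat_lit 152) (nat_lit 5) (nat_lit 153) (nat_lit 5) (nat_lit 501) (nat_lit 490) (nat_lit 209))) (XT.nd (nat_lit 78) (nat_lit 456) (nat_lit 0) (XT.lf (nat_lit 0) (nat_lit 419883554223) (nat_lit 760) (nat_lit 19098142433) (nat_lit 836) (nat_lit 6804081164) (nat_lit 142) (nat_lit 5) (nat_lit 152) (nat_lit 5) (nat_lit 153) (nat_lit 5) (nat_lit 502) (nat_lit 490) (nat_lit 208)) (XT.lf (nat_lit 0) (nat_lit 38373565440)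 (nat_lit 456) (nat_lit 235058550267) (nat_lit 76) (nat_lit 184417604647) (nat_lit 136) (nat_lit 5) (nat_lit 142) (nat_lit 5) (nat_lit 137) (nat_lit 5) (nat_lit 503) (nat_lit 490) (nat_lit 207))))) (XT.nd (nat_lit 312) (nat_lit 684) (nat_lit 0) (XT.nd (nat_lit 156) (nat_lit 380) (nat_lit 0) (XT.nd (nat_lit 78) (nat_lit 0) (nat_lit 0) (XT.lf (nat_lit 0) (nat_lit 14351056213) (nat_lit 380) (nat_lit 72213355907) (nat_lit 456) (nat_lit 383897721807) (nat_lit 131) (nat_lit 5) (nat_lit 136) (nat_lit 5) (nat_lit 137) (nat_lit 5) (nat_lit 504) (nat_lit 490) (nat_lit 206)) (XT.lf (nat_lit 0) (nat_lit 143382084036) (nat_lit 456) (nat_lit 201350779972) (nat_lit 76) (nat_lit 138661440027) (nat_lit 131) (nat_lit 5) (nat_lit 137) (nat_lit 5) (nat_lit 132) (nat_lit 5) (nat_lit 505) (nat_lit 490) (nat_lit 205))) (XT.nd (nat_lit 78) (nat_lit 0) (nat_lit 0) (XT.lf (nat_lit 0) (nat_lit 67111677501) (nat_lit 380)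 (nat_lit 138160567749) (nat_lit 456) (nat_lit 291589257117) (nat_lit 126) (nat_lit 5) (nat_lit 131) (nat_lit 5) (nat_lit 132) (nat_lit 5) (nat_lit 506) (nat_lit 490) (nat_lit 204)) (XT.lf (nat_lit 0) (nat_lit 274952125506) (nat_lit 456) (nat_lit 156129141420) (nat_lit 76) (nat_lit 79686033144) (nat_lit 126) (nat_lit 5) (nat_lit 132) (nat_lit 5) (nat_lit 127) (nat_lit 5) (nat_lit 507) (nat_lit 490) (nat_lit 203)))) (XT.nd (nat_lit 156) (nat_lit 380) (nat_lit 0) (XT.nd (nat_lit 78) (nat_lit 0) (nat_lit 0) (XT.lf (nat_lit 0) (nat_lit 133169895176) (nat_lit 304) (nat_lit 219290167657) (nat_lit 380) (nat_lit 172691121674) (nat_lit 122) (nat_lit 5) (nat_lit 126) (nat_lit 5) (nat_lit 127) (nat_lit 5) (nat_lit 508) (nat_lit 490) (nat_lit 202)) (XT.lf (nat_lit 0) (nat_lit 436579098010) (nat_lit 380) (nat_lit 97859342169) (nat_lit 76) (nat_lit 5679037941) (nat_lit 122) (nat_lit 5) (nat_lit 127) (nat_lit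 5) (nat_lit 123) (nat_lit 5) (nat_lit 509) (nat_lit 490) (nat_lit 201))) (XT.nd (nat_lit 78) (nat_lit 76) (nat_lit 0) (XT.lf (nat_lit 0) (nat_lit 214230473135) (nat_lit 304) (nat_lit 317613252560) (nat_lit 380) (nat_lit 23641378683) (nat_lit 118) (nat_lit 5) (nat_lit 122) (nat_lit 5) (nat_lit 123) (nat_lit 5) (nat_lit 510) (nat_lit 490) (nat_lit 200)) (XT.lf (nat_lit 0) (nat_lit 60006527645) (nat_lit 380) (nat_lit 27183881817) (nat_lit 76) (nat_lit 484299446241) (nat_lit 117) (nat_lit 5) (nat_lit 122) (nat_lit 5) (nat_lit 118) (nat_lit 5) (nat_lit 511) (nat_lit 490) (nat_lit 199))))))) (XT.nd (nat_lit 1170) (nat_lit 1368) (nat_lit 0) (XT.nd (nat_lit 546) (nat_lit 912) (nat_lit 0) (XT.nd (nat_lit 234) (nat_lit 760) (nat_lit 0) (XT.nd (nat_lit 78) (nat_lit 304) (nat_lit 0) (XT.lf (nat_lit 0) (nat_lit 154418941998) (nat_lit 380) (nat_lit 278339140476) (nat_lit 76) (nat_lit 155148553039) (nat_lit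 113) (nat_lit 5) (nat_lit 118) (nat_lit 5) (nat_lit 114) (nat_lit 5) (nat_lit 512) (nat_lit 490) (nat_lit 198)) (XT.nd (nat_lit 78) (nat_lit 0) (nat_lit 0) (XT.lf (nat_lit 0) (nat_lit 59444648848) (nat_lit 304) (nat_lit 196932679462) (nat_lit 380) (nat_lit 348625658445) (nat_lit 109) (nat_lit 5) (nat_lit 113) (nat_lit 5) (nat_lit 114) (nat_lit 5) (nat_lit 513) (nat_lit 490) (nat_lit 197)) (XT.lf (nat_lit 0) (nat_lit 369016020507) (nat_lit 380) (nat_lit 199806147303) (nat_lit 76) (nat_lit 53852868421) (nat_lit 109) (nat_lit 5) (nat_lit 114) (nat_lit 5) (nat_lit 110) (nat_lit 5) (nat_lit 514) (nat_lit 490) (nat_lit 196)))) (XT.nd (nat_lit 156) (nat_lit 532) (nat_lit 0) (XT.nd (nat_lit 78) (nat_lit 0) (nat_lit 0) (XT.lf (nat_lit 0) (nat_lit 165295723196) (nat_lit 228) (nat_lit 327800042768) (nat_lit 304) (nat_lit 147844466288) (nat_lit 106) (nat_lit 5) (nat_lit 109) (nat_lit 5) (nat_lit 110) (nat_lit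 5) (nat_lit 515) (nat_lit 490) (nat_lit 195)) (XT.lf (nat_lit 0) (nat_lit 555589485324) (nat_lit 228) (nat_lit 71173812164) (nat_lit 304) (nat_lit 33186200646) (nat_lit 106) (nat_lit 5) (nat_lit 109) (nat_lit 5) (nat_lit 110) (nat_lit 5) (nat_lit 516) (nat_lit 490) (nat_lit 194))) (XT.nd (nat_lit 78) (nat_lit 228) (nat_lit 0) (XT.lf (nat_lit 0) (nat_lit 92189766923) (nat_lit 304) (nat_lit 389283526215) (nat_lit 76) (nat_lit 197979063843) (nat_lit 102) (nat_lit 5) (nat_lit 106) (nat_lit 5) (nat_lit 103) (nat_lit 5) (nat_lit 517) (nat_lit 490) (nat_lit 193)) (XT.lf (nat_lit 0) (nat_lit 6679234911) (nat_lit 228) (nat_lit 219107436055) (nat_lit 304) (nat_lit 473963115397) (nat_lit 99) (nat_lit 5) (nat_lit 102) (nat_lit 5) (nat_lit 103) (nat_lit 5) (nat_lit 518) (nat_lit 490) (nat_lit 192))))) (XT.nd (nat_lit 312) (nat_lit 456) (nat_lit 0) (XT.nd (nat_lit 156) (nat_lit 228) (nat_lit 0) (XT.nd (nat_lit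 78) (nat_lit 228) (nat_lit 0) (XT.lf (nat_lit 0) (nat_lit 373644386794) (nat_lit 304) (nat_lit 285765568768) (nat_lit 76) (nat_lit 61273083325) (nat_lit 99) (nat_lit 5) (nat_lit 103) (nat_lit 5) (nat_lit 100) (nat_lit 5) (nat_lit 519) (nat_lit 490) (nat_lit 191)) (XT.lf (nat_lit 0) (nat_lit 142885961681) (nat_lit 228) (nat_lit 391831788947) (nat_lit 304) (nat_lit 207654065300) (nat_lit 96) (nat_lit 5) (nat_lit 99) (nat_lit 5) (nat_lit 100) (nat_lit 5) (nat_lit 520) (nat_lit 490) (nat_lit 190))) (XT.nd (nat_lit 78) (nat_lit 228) (nat_lit 0) (XT.lf (nat_lit 0) (nat_lit 602891184934) (nat_lit 228) (nat_lit 105793162973) (nat_lit 304) (nat_lit 56218705653) (nat_lit 96) (nat_lit 5) (nat_lit 99) (nat_lit 5) (nat_lit 100) (nat_lit 5) (nat_lit 521) (nat_lit 490) (nat_lit 189)) (XT.lf (nat_lit 0) (nat_lit 107410325320) (nat_lit 228) (nat_lit 485874868659) (nat_lit 76) (nat_lit 194799829590) (nat_lit 93)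 (nat_lit 5) (nat_lit 96) (nat_lit 5) (nat_lit 94) (nat_lit 5) (nat_lit 522) (nat_lit 490) (nat_lit 188)))) (XT.nd (nat_lit 156) (nat_lit 228) (nat_lit 0) (XT.nd (nat_lit 78) (nat_lit 228) (nat_lit 0) (XT.lf (nat_lit 0) (nat_lit 281854521422) (nat_lit 228) (nat_lit 19721869229) (nat_lit 76) (nat_lit 510577468986) (nat_lit 93) (nat_lit 5) (nat_lit 96) (nat_lit 5) (nat_lit 94) (nat_lit 5) (nat_lit 523) (nat_lit 490) (nat_lit 187)) (XT.lf (nat_lit 0) (nat_lit 472795209873) (nat_lit 304) (nat_lit 351974731892) (nat_lit 76) (nat_lit 12267481617) (nat_lit 90) (nat_lit 5) (nat_lit 94) (nat_lit 5) (nat_lit 91) (nat_lit 5) (nat_lit 524) (nat_lit 490) (nat_lit 186))) (XT.nd (nat_lit 78) (nat_lit 76) (nat_lit 0) (XT.lf (nat_lit 0) (nat_lit 152556092691) (nat_lit 152) (nat_lit 528392006731) (nat_lit 228) (nat_lit 181833807558) (nat_lit 88) (nat_lit 5) (nat_lit 90) (nat_lit 5) (nat_lit 91) (nat_lit 5) (nat_lit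 525) (nat_lit 490) (nat_lit 185)) (XT.lf (nat_lit 0) (nat_lit 15443287557) (nat_lit 228) (nat_lit 195231448801) (nat_lit 76) (nat_lit 678828381581) (nat_lit 87) (nat_lit 5) (nat_lit 90) (nat_lit 5) (nat_lit 88) (nat_lit 5) (nat_lit 526) (nat_lit 490) (nat_lit 184)))))) (XT.nd (nat_lit 624) (nat_lit 456) (nat_lit 0) (XT.nd (nat_lit 312) (nat_lit 380) (nat_lit 0) (XT.nd (nat_lit 156) (nat_lit 304) (nat_lit 0) (XT.nd (nat_lit 78) (nat_lit 0) (nat_lit 0) (XT.lf (nat_lit 0) (nat_lit 224056816217) (nat_lit 304) (nat_lit 565336421446) (nat_lit 76) (nat_lit 127638938325) (nat_lit 84) (nat_lit 5) (nat_lit 88) (nat_lit 5) (nat_lit 85) (nat_lit 5) (nat_lit 527) (nat_lit 490) (nat_lit 183)) (XT.lf (nat_lit 0) (nat_lit 449915236107) (nat_lit 304) (nat_lit 16532960757) (nat_lit 76) (nat_lit 479148779337) (nat_lit 84) (nat_lit 5) (nat_lit 88) (nat_lit 5) (nat_lit 85) (nat_lit 5) (nat_lit 528) (nat_lit 490)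 (nat_lit 182))) (XT.nd (nat_lit 78) (nat_lit 152) (nat_lit 0) (XT.lf (nat_lit 0) (nat_lit 578217218419) (nat_lit 152) (nat_lit 117876939577) (nat_lit 228) (nat_lit 279044479378) (nat_lit 82) (nat_lit 5) (nat_lit 84) (nat_lit 5) (nat_lit 85) (nat_lit 5) (nat_lit 529) (nat_lit 490) (nat_lit 181)) (XT.lf (nat_lit 0) (nat_lit 199646960971) (nat_lit 152) (nat_lit 762210580769) (nat_lit 228) (nat_lit 43936064080) (nat_lit 80) (nat_lit 5) (nat_lit 82) (nat_lit 5) (nat_lit 83) (nat_lit 5) (nat_lit 530) (nat_lit 490) (nat_lit 180)))) (XT.nd (nat_lit 156) (nat_lit 152) (nat_lit 0) (XT.nd (nat_lit 78) (nat_lit 152) (nat_lit 0) (XT.lf (nat_lit 0) (nat_lit 205197468718) (nat_lit 228) (nat_lit 203032139069) (nat_lit 76) (nat_lit 629155068703) (nat_lit 79) (nat_lit 5) (nat_lit 82) (nat_lit 5) (nat_lit 80) (nat_lit 5) (nat_lit 531) (nat_lit 490) (nat_lit 179)) (XT.lf (nat_lit 0) (nat_lit 443719611328) (nat_lit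 152) (nat_lit 28519224072) (nat_lit 228) (nat_lit 597934067271) (nat_lit 77) (nat_lit 5) (nat_lit 79) (nat_lit 5) (nat_lit 80) (nat_lit 5) (nat_lit 532) (nat_lit 490) (nat_lit 178))) (XT.nd (nat_lit 78) (nat_lit 0) (nat_lit 0) (XT.lf (nat_lit 0) (nat_lit 20241111393) (nat_lit 152) (nat_lit 741981480941) (nat_lit 228) (nat_lit 341898431733) (nat_lit 75) (nat_lit 5) (nat_lit 77) (nat_lit 5) (nat_lit 78) (nat_lit 5) (nat_lit 533) (nat_lit 490) (nat_lit 177)) (XT.lf (nat_lit 0) (nat_lit 720536275289) (nat_lit 152) (nat_lit 357238529680) (nat_lit 228) (nat_lit 61438283169) (nat_lit 75) (nat_lit 5) (nat_lit 77) (nat_lit 5) (nat_lit 78) (nat_lit 5) (nat_lit 534) (nat_lit 490) (nat_lit 176))))) (XT.nd (nat_lit 59046) (nat_lit 0) (nat_lit 5928) (XT.nd (nat_lit 156) (nat_lit 228) (nat_lit 0) (XT.nd (nat_lit 78) (nat_lit 0) (nat_lit 0) (XT.lf (nat_lit 0) (nat_lit 230902402071) (nat_lit 228) (nat_lit 891238921025)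 (nat_lit 76) (nat_lit 53470687113) (nat_lit 72) (nat_lit 5) (nat_lit 75) (nat_lit 5) (nat_lit 73) (nat_lit 5) (nat_lit 535) (nat_lit 490) (nat_lit 175)) (XT.lf (nat_lit 0) (nat_lit 548858484894) (nat_lit 228) (nat_lit 183345161175) (nat_lit 76) (nat_lit 480923718438) (nat_lit 72) (nat_lit 5) (nat_lit 75) (nat_lit 5) (nat_lit 73) (nat_lit 5) (nat_lit 536) (nat_lit 490) (nat_lit 174))) (XT.nd (nat_lit 78) (nat_lit 76) (nat_lit 0) (XT.lf (nat_lit 0) (nat_lit 578457525293) (nat_lit 152) (nat_lit 313286181228) (nat_lit 228) (nat_lit 360323213268) (nat_lit 70) (nat_lit 5) (nat_lit 72) (nat_lit 5) (nat_lit 73) (nat_lit 5) (nat_lit 537) (nat_lit 490) (nat_lit 173)) (XT.lf (nat_lit 0) (nat_lit 92862514360) (nat_lit 76) (nat_lit 1165492676062) (nat_lit 152) (nat_lit 34269162355) (nat_lit 69) (nat_lit 5) (nat_lit 70) (nat_lit 5) (nat_lit 71) (nat_lit 4) (nat_lit 538) (nat_lit 490) (nat_lit 172)))) (XT.nd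 (nat_lit 156) (nat_lit 0) (nat_lit 76) (XT.nd (nat_lit 78) (nat_lit 0) (nat_lit 0) (XT.lf (nat_lit 0) (nat_lit 71565319962) (nat_lit 836) (nat_lit 50258472489) (nat_lit 836) (nat_lit 50258472489) (nat_lit 147) (nat_lit 3) (nat_lit 158) (nat_lit 3) (nat_lit 158) (nat_lit 5) (nat_lit 491) (nat_lit 491) (nat_lit 218)) (XT.lf (nat_lit 76) (nat_lit 72491529802) (nat_lit 0) (nat_lit 75349714751) (nat_lit 836) (nat_lit 204870781559) (nat_lit 148) (nat_lit 5) (nat_lit 147) (nat_lit 3) (nat_lit 158) (nat_lit 5) (nat_lit 492) (nat_lit 491) (nat_lit 217))) (XT.nd (nat_lit 78) (nat_lit 0) (nat_lit 0) (XT.lf (nat_lit 0) (nat_lit 156100115605) (nat_lit 760) (nat_lit 105572121048) (nat_lit 836) (nat_lit 99849023698) (nat_lit 148) (nat_lit 5) (nat_lit 158) (nat_lit 5) (nat_lit 159) (nat_lit 5) (nat_lit 493) (nat_lit 491) (nat_lit 216)) (XT.lf (nat_lit 76) (nat_lit 79105274703) (nat_lit 0) (nat_lit 88136918638)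 (nat_lit 836) (nat_lit 203405249810) (nat_lit 149) (nat_lit 5) (nat_lit 148) (nat_lit 5) (nat_lit 159) (nat_lit 5) (nat_lit 494) (nat_lit 491) (nat_lit 215))))))))
noncomputable def xc242 : XT := (XT.nd (nat_lit 2418) (nat_lit 1520) (nat_lit 0) (XT.nd (nat_lit 1170) (nat_lit 2432) (nat_lit 0) (XT.nd (nat_lit 546) (nat_lit 2052) (nat_lit 0) (XT.nd (nat_lit 234) (nat_lit 0) (nat_lit 76) (XT.nd (nat_lit 78) (nat_lit 0) (nat_lit 0) (XT.lf (nat_lit 0) (nat_lit 182227345313) (nat_lit 760) (nat_lit 104956881833) (nat_lit 836) (nat_lit 92881409431) (nat_lit 149) (nat_lit 5) (nat_lit 159) (nat_lit 5) (nat_lit 160) (nat_lit 5) (nat_lit 495) (nat_lit 491) (nat_lit 214)) (XT.nd (nat_lit 78) (nat_lit 0) (nat_lit 76) (XT.lf (nat_lit 76) (nat_lit 92472478080) (nat_lit 0) (nat_lit 108377868708) (nat_lit 836) (nat_lit 188959963298) (nat_lit 150) (nat_lit 5) (nat_lit 149) (nat_lit 5) (nat_lit 160) (nat_lit 5)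 (nat_lit 496) (nat_lit 491) (nat_lit 213)) (XT.lf (nat_lit 0) (nat_lit 223450273818) (nat_lit 760) (nat_lit 97804500937) (nat_lit 836) (nat_lit 78635153743) (nat_lit 150) (nat_lit 5) (nat_lit 160) (nat_lit 5) (nat_lit 161) (nat_lit 5) (nat_lit 497) (nat_lit 491) (nat_lit 212)))) (XT.nd (nat_lit 156) (nat_lit 0) (nat_lit 76) (XT.nd (nat_lit 78) (nat_lit 0) (nat_lit 76) (XT.lf (nat_lit 76) (nat_lit 113563531999) (nat_lit 0) (nat_lit 137166369057) (nat_lit 836) (nat_lit 159566141587) (nat_lit 151) (nat_lit 5) (nat_lit 150) (nat_lit 5) (nat_lit 161) (nat_lit 5) (nat_lit 498) (nat_lit 491) (nat_lit 211)) (XT.lf (nat_lit 0) (nat_lit 281933294623) (nat_lit 760) (nat_lit 83147592653) (nat_lit 836) (nat_lit 56013585976) (nat_lit 151) (nat_lit 5) (nat_lit 161) (nat_lit 5) (nat_lit 162) (nat_lit 5) (nat_lit 499) (nat_lit 491) (nat_lit 210))) (XT.nd (nat_lit 78) (nat_lit 0) (nat_lit 76) (XT.lf (nat_lit 76)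 (nat_lit 143459522250) (nat_lit 0) (nat_lit 175725744644) (nat_lit 836) (nat_lit 113023138049) (nat_lit 152) (nat_lit 5) (nat_lit 151) (nat_lit 5) (nat_lit 162) (nat_lit 5) (nat_lit 500) (nat_lit 491) (nat_lit 209)) (XT.lf (nat_lit 0) (nat_lit 360091653938) (nat_lit 760) (nat_lit 59907653649) (nat_lit 76) (nat_lit 23789134828) (nat_lit 152) (nat_lit 5) (nat_lit 162) (nat_lit 5) (nat_lit 153) (nat_lit 5) (nat_lit 501) (nat_lit 491) (nat_lit 208))))) (XT.nd (nat_lit 312) (nat_lit 684) (nat_lit 0) (XT.nd (nat_lit 156) (nat_lit 836) (nat_lit 0) (XT.nd (nat_lit 78) (nat_lit 0) (nat_lit 0) (XT.lf (nat_lit 0) (nat_lit 183363648265) (nat_lit 760) (nat_lit 225423259341) (nat_lit 836) (nat_lit 46873396793) (nat_lit 142) (nat_lit 5) (nat_lit 152) (nat_lit 5) (nat_lit 153) (nat_lit 5) (nat_lit 502) (nat_lit 491) (nat_lit 207)) (XT.lf (nat_lit 0) (nat_lit 440878353525) (nat_lit 760) (nat_lit 20053113255)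 (nat_lit 836) (nat_lit 7143565567) (nat_lit 142) (nat_lit 5) (nat_lit 152) (nat_lit 5) (nat_lit 153) (nat_lit 5) (nat_lit 503) (nat_lit 491) (nat_lit 206))) (XT.nd (nat_lit 78) (nat_lit 380) (nat_lit 0) (XT.lf (nat_lit 0) (nat_lit 40292916456) (nat_lit 456) (nat_lit 246810809089) (nat_lit 76) (nat_lit 193638447097) (nat_lit 136) (nat_lit 5) (nat_lit 142) (nat_lit 5) (nat_lit 137) (nat_lit 5) (nat_lit 504) (nat_lit 491) (nat_lit 205)) (XT.lf (nat_lit 0) (nat_lit 15069266929) (nat_lit 380) (nat_lit 75824016777) (nat_lit 456) (nat_lit 403091924280) (nat_lit 131) (nat_lit 5) (nat_lit 136) (nat_lit 5) (nat_lit 137) (nat_lit 5) (nat_lit 505) (nat_lit 491) (nat_lit 204)))) (XT.nd (nat_lit 156) (nat_lit 304) (nat_lit 0) (XT.nd (nat_lit 78) (nat_lit 380) (nat_lit 0) (XT.lf (nat_lit 0) (nat_lit 150551808322) (nat_lit 456) (nat_lit 211417661414) (nat_lit 76) (nat_lit 145594518413) (nat_lit 131) (nat_lit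 5) (nat_lit 137) (nat_lit 5) (nat_lit 132) (nat_lit 5) (nat_lit 506) (nat_lit 491) (nat_lit 203)) (XT.lf (nat_lit 0) (nat_lit 70467908326) (nat_lit 380) (nat_lit 145068549844) (nat_lit 456) (nat_lit 306168089203) (nat_lit 126) (nat_lit 5) (nat_lit 131) (nat_lit 5) (nat_lit 132) (nat_lit 5) (nat_lit 507) (nat_lit 491) (nat_lit 202))) (XT.nd (nat_lit 78) (nat_lit 304) (nat_lit 0) (XT.lf (nat_lit 0) (nat_lit 288700304525) (nat_lit 456) (nat_lit 163934954358) (nat_lit 76) (nat_lit 83670377479) (nat_lit 126) (nat_lit 5) (nat_lit 132) (nat_lit 5) (nat_lit 127) (nat_lit 5) (nat_lit 508) (nat_lit 491) (nat_lit 201)) (XT.lf (nat_lit 0) (nat_lit 139829023679) (nat_lit 304) (nat_lit 230254597660) (nat_lit 380) (nat_lit 181325094554) (nat_lit 122) (nat_lit 5) (nat_lit 126) (nat_lit 5) (nat_lit 127) (nat_lit 5) (nat_lit 509) (nat_lit 491) (nat_lit 200)))))) (XT.nd (nat_lit 624) (nat_lit 1216) (nat_lit 0)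 (XT.nd (nat_lit 312) (nat_lit 532) (nat_lit 0) (XT.nd (nat_lit 156) (nat_lit 380) (nat_lit 0) (XT.nd (nat_lit 78) (nat_lit 304) (nat_lit 0) (XT.lf (nat_lit 0) (nat_lit 458408582994) (nat_lit 380) (nat_lit 102751680363) (nat_lit 76) (nat_lit 5963062097) (nat_lit 122) (nat_lit 5) (nat_lit 127) (nat_lit 5) (nat_lit 123) (nat_lit 5) (nat_lit 510) (nat_lit 491) (nat_lit 199)) (XT.lf (nat_lit 0) (nat_lit 224942615562) (nat_lit 304) (nat_lit 333493810919) (nat_lit 380) (nat_lit 24822907325) (nat_lit 118) (nat_lit 5) (nat_lit 122) (nat_lit 5) (nat_lit 123) (nat_lit 5) (nat_lit 511) (nat_lit 491) (nat_lit 198))) (XT.nd (nat_lit 78) (nat_lit 304) (nat_lit 0) (XT.lf (nat_lit 0) (nat_lit 63007352122) (nat_lit 380) (nat_lit 28542470073) (nat_lit 76) (nat_lit 508514501328) (nat_lit 117) (nat_lit 5) (nat_lit 122) (nat_lit 5) (nat_lit 118) (nat_lit 5) (nat_lit 512) (nat_lit 491) (nat_lit 197)) (XT.lf (nat_lit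 0) (nat_lit 162140374535) (nat_lit 380) (nat_lit 292255478951) (nat_lit 76) (nat_lit 162906089475) (nat_lit 113) (nat_lit 5) (nat_lit 118) (nat_lit 5) (nat_lit 114) (nat_lit 5) (nat_lit 513) (nat_lit 491) (nat_lit 196)))) (XT.nd (nat_lit 156) (nat_lit 228) (nat_lit 0) (XT.nd (nat_lit 78) (nat_lit 0) (nat_lit 0) (XT.lf (nat_lit 0) (nat_lit 62417489863) (nat_lit 304) (nat_lit 206779176685) (nat_lit 380) (nat_lit 366056445900) (nat_lit 109) (nat_lit 5) (nat_lit 113) (nat_lit 5) (nat_lit 114) (nat_lit 5) (nat_lit 514) (nat_lit 491) (nat_lit 195)) (XT.lf (nat_lit 0) (nat_lit 387467272921) (nat_lit 380) (nat_lit 209795854590) (nat_lit 76) (nat_lit 56545637912) (nat_lit 109) (nat_lit 5) (nat_lit 114) (nat_lit 5) (nat_lit 110) (nat_lit 5) (nat_lit 515) (nat_lit 491) (nat_lit 194))) (XT.nd (nat_lit 78) (nat_lit 0) (nat_lit 0) (XT.lf (nat_lit 0) (nat_lit 173561099755) (nat_lit 228) (nat_lit 344189893619)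 (nat_lit 304) (nat_lit 155236228486) (nat_lit 106) (nat_lit 5) (nat_lit 109) (nat_lit 5) (nat_lit 110) (nat_lit 5) (nat_lit 516) (nat_lit 491) (nat_lit 193)) (XT.lf (nat_lit 0) (nat_lit 583369521876) (nat_lit 228) (nat_lit 74732358688) (nat_lit 304) (nat_lit 34845071521) (nat_lit 106) (nat_lit 5) (nat_lit 109) (nat_lit 5) (nat_lit 110) (nat_lit 5) (nat_lit 517) (nat_lit 491) (nat_lit 192))))) (XT.nd (nat_lit 312) (nat_lit 456) (nat_lit 0) (XT.nd (nat_lit 156) (nat_lit 228) (nat_lit 0) (XT.nd (nat_lit 78) (nat_lit 228) (nat_lit 0) (XT.lf (nat_lit 0) (nat_lit 96799671376) (nat_lit 304) (nat_lit 408747117103) (nat_lit 76) (nat_lit 207878165502) (nat_lit 102) (nat_lit 5) (nat_lit 106) (nat_lit 5) (nat_lit 103) (nat_lit 5) (nat_lit 518) (nat_lit 491) (nat_lit 191)) (XT.lf (nat_lit 0) (nat_lit 7013772637) (nat_lit 228) (nat_lit 230062637163) (nat_lit 304) (nat_lit 497660845577) (nat_lit 99) (nat_lit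 5) (nat_lit 102) (nat_lit 5) (nat_lit 103) (nat_lit 5) (nat_lit 519) (nat_lit 491) (nat_lit 190))) (XT.nd (nat_lit 78) (nat_lit 228) (nat_lit 0) (XT.lf (nat_lit 0) (nat_lit 392326994658) (nat_lit 304) (nat_lit 300053281855) (nat_lit 76) (nat_lit 64336894854) (nat_lit 99) (nat_lit 5) (nat_lit 103) (nat_lit 5) (nat_lit 100) (nat_lit 5) (nat_lit 520) (nat_lit 491) (nat_lit 189)) (XT.lf (nat_lit 0) (nat_lit 150030815998) (nat_lit 228) (nat_lit 411423200869) (nat_lit 304) (nat_lit 218036370886) (nat_lit 96) (nat_lit 5) (nat_lit 99) (nat_lit 5) (nat_lit 100) (nat_lit 5) (nat_lit 521) (nat_lit 491) (nat_lit 188)))) (XT.nd (nat_lit 156) (nat_lit 228) (nat_lit 0) (XT.nd (nat_lit 78) (nat_lit 228) (nat_lit 0) (XT.lf (nat_lit 0) (nat_lit 633036273927) (nat_lit 228) (nat_lit 111082652049) (nat_lit 304) (nat_lit 59029262194) (nat_lit 96) (nat_lit 5) (nat_lit 99) (nat_lit 5) (nat_lit 100) (nat_lit 5) (nat_lit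 522) (nat_lit 491) (nat_lit 187)) (XT.lf (nat_lit 0) (nat_lit 112781201815) (nat_lit 228) (nat_lit 510168063768) (nat_lit 76) (nat_lit 204539991121) (nat_lit 93) (nat_lit 5) (nat_lit 96) (nat_lit 5) (nat_lit 94) (nat_lit 5) (nat_lit 523) (nat_lit 491) (nat_lit 186))) (XT.nd (nat_lit 78) (nat_lit 228) (nat_lit 0) (XT.lf (nat_lit 0) (nat_lit 295947590568) (nat_lit 228) (nat_lit 20707440478) (nat_lit 76) (nat_lit 536106504389) (nat_lit 93) (nat_lit 5) (nat_lit 96) (nat_lit 5) (nat_lit 94) (nat_lit 5) (nat_lit 524) (nat_lit 491) (nat_lit 185)) (XT.lf (nat_lit 0) (nat_lit 496435307922) (nat_lit 304) (nat_lit 369572940725) (nat_lit 76) (nat_lit 12881028997) (nat_lit 90) (nat_lit 5) (nat_lit 94) (nat_lit 5) (nat_lit 91) (nat_lit 5) (nat_lit 525) (nat_lit 491) (nat_lit 184))))))) (XT.nd (nat_lit 59982) (nat_lit 0) (nat_lit 4256) (XT.nd (nat_lit 546) (nat_lit 684) (nat_lit 0) (XT.nd (nat_lit 234) (nat_lit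 380) (nat_lit 0) (XT.nd (nat_lit 78) (nat_lit 304) (nat_lit 0) (XT.lf (nat_lit 0) (nat_lit 160184416574) (nat_lit 152) (nat_lit 554811417407) (nat_lit 228) (nat_lit 190925151842) (nat_lit 88) (nat_lit 5) (nat_lit 90) (nat_lit 5) (nat_lit 91) (nat_lit 5) (nat_lit 526) (nat_lit 491) (nat_lit 183)) (XT.nd (nat_lit 78) (nat_lit 228) (nat_lit 0) (XT.lf (nat_lit 0) (nat_lit 16215770999) (nat_lit 228) (nat_lit 204992516144) (nat_lit 76) (nat_lit 712769970715) (nat_lit 87) (nat_lit 5) (nat_lit 90) (nat_lit 5) (nat_lit 88) (nat_lit 5) (nat_lit 527) (nat_lit 491) (nat_lit 182)) (XT.lf (nat_lit 0) (nat_lit 235259971551) (nat_lit 304) (nat_lit 593602732856) (nat_lit 76) (nat_lit 134021064631) (nat_lit 84) (nat_lit 5) (nat_lit 88) (nat_lit 5) (nat_lit 85) (nat_lit 5) (nat_lit 528) (nat_lit 491) (nat_lit 181)))) (XT.nd (nat_lit 156) (nat_lit 228) (nat_lit 0) (XT.nd (nat_lit 78) (nat_lit 152) (nat_lit 0) (XT.lf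 (nat_lit 0) (nat_lit 472411297458) (nat_lit 304) (nat_lit 17359123403) (nat_lit 76) (nat_lit 503106389151) (nat_lit 84) (nat_lit 5) (nat_lit 88) (nat_lit 5) (nat_lit 85) (nat_lit 5) (nat_lit 529) (nat_lit 491) (nat_lit 180)) (XT.lf (nat_lit 0) (nat_lit 607128556904) (nat_lit 152) (nat_lit 123770601730) (nat_lit 228) (nat_lit 292996395952) (nat_lit 82) (nat_lit 5) (nat_lit 84) (nat_lit 5) (nat_lit 85) (nat_lit 5) (nat_lit 530) (nat_lit 491) (nat_lit 179))) (XT.nd (nat_lit 78) (nat_lit 76) (nat_lit 0) (XT.lf (nat_lit 0) (nat_lit 209629790463) (nat_lit 152) (nat_lit 800320917426) (nat_lit 228) (nat_lit 46132563748) (nat_lit 80) (nat_lit 5) (nat_lit 82) (nat_lit 5) (nat_lit 83) (nat_lit 5) (nat_lit 531) (nat_lit 491) (nat_lit 178)) (XT.lf (nat_lit 0) (nat_lit 215457621983) (nat_lit 228) (nat_lit 213183278234) (nat_lit 76) (nat_lit 660612996087) (nat_lit 79) (nat_lit 5) (nat_lit 82) (nat_lit 5) (nat_lit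 80) (nat_lit 5) (nat_lit 532) (nat_lit 491) (nat_lit 177))))) (XT.nd (nat_lit 312) (nat_lit 152) (nat_lit 0) (XT.nd (nat_lit 156) (nat_lit 228) (nat_lit 0) (XT.nd (nat_lit 78) (nat_lit 152) (nat_lit 0) (XT.lf (nat_lit 0) (nat_lit 465906052138) (nat_lit 152) (nat_lit 29944998722) (nat_lit 228) (nat_lit 627830483242) (nat_lit 77) (nat_lit 5) (nat_lit 79) (nat_lit 5) (nat_lit 80) (nat_lit 5) (nat_lit 533) (nat_lit 491) (nat_lit 176)) (XT.lf (nat_lit 0) (nat_lit 21253630398) (nat_lit 152) (nat_lit 779080362219) (nat_lit 228) (nat_lit 358993069103) (nat_lit 75) (nat_lit 5) (nat_lit 77) (nat_lit 5) (nat_lit 78) (nat_lit 5) (nat_lit 534) (nat_lit 491) (nat_lit 175))) (XT.nd (nat_lit 78) (nat_lit 228) (nat_lit 0) (XT.lf (nat_lit 0) (nat_lit 756563530421) (nat_lit 152) (nat_lit 375100272575) (nat_lit 228) (nat_lit 64509926645) (nat_lit 75) (nat_lit 5) (nat_lit 77) (nat_lit 5) (nat_lit 78) (nat_lit 5)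 (nat_lit 535) (nat_lit 491) (nat_lit 174)) (XT.lf (nat_lit 0) (nat_lit 242447781538) (nat_lit 228) (nat_lit 935800414361) (nat_lit 76) (nat_lit 56144401837) (nat_lit 72) (nat_lit 5) (nat_lit 75) (nat_lit 5) (nat_lit 73) (nat_lit 5) (nat_lit 536) (nat_lit 491) (nat_lit 173)))) (XT.nd (nat_lit 58968) (nat_lit 0) (nat_lit 5852) (XT.nd (nat_lit 78) (nat_lit 152) (nat_lit 0) (XT.lf (nat_lit 0) (nat_lit 576301656152) (nat_lit 228) (nat_lit 192511988077) (nat_lit 76) (nat_lit 504970076140) (nat_lit 72) (nat_lit 5) (nat_lit 75) (nat_lit 5) (nat_lit 73) (nat_lit 5) (nat_lit 537) (nat_lit 491) (nat_lit 172)) (XT.lf (nat_lit 0) (nat_lit 607380825761) (nat_lit 152) (nat_lit 328950307961) (nat_lit 228) (nat_lit 378339119951) (nat_lit 70) (nat_lit 5) (nat_lit 72) (nat_lit 5) (nat_lit 73) (nat_lit 5) (nat_lit 538) (nat_lit 491) (nat_lit 171))) (XT.nd (nat_lit 78) (nat_lit 0) (nat_lit 0) (XT.lf (nat_lit 0) (nat_lit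 75144120180) (nat_lit 836) (nat_lit 52771115606) (nat_lit 836) (nat_lit 52771115606) (nat_lit 147) (nat_lit 3) (nat_lit 158) (nat_lit 3) (nat_lit 158) (nat_lit 5) (nat_lit 492) (nat_lit 492) (nat_lit 216)) (XT.lf (nat_lit 76) (nat_lit 76116658257) (nat_lit 0) (nat_lit 79117674704) (nat_lit 836) (nat_lit 215113242991) (nat_lit 148) (nat_lit 5) (nat_lit 147) (nat_lit 3) (nat_lit 158) (nat_lit 5) (nat_lit 493) (nat_lit 492) (nat_lit 215)))))) (XT.nd (nat_lit 624) (nat_lit 1672) (nat_lit 0) (XT.nd (nat_lit 312) (nat_lit 0) (nat_lit 152) (XT.nd (nat_lit 156) (nat_lit 0) (nat_lit 76) (XT.nd (nat_lit 78) (nat_lit 0) (nat_lit 0) (XT.lf (nat_lit 0) (nat_lit 163906091648) (nat_lit 760) (nat_lit 110850145353) (nat_lit 836) (nat_lit 104841037704) (nat_lit 148) (nat_lit 5) (nat_lit 158) (nat_lit 5) (nat_lit 159) (nat_lit 5) (nat_lit 494) (nat_lit 492) (nat_lit 214)) (XT.lf (nat_lit 76) (nat_lit 83061110803)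 (nat_lit 0) (nat_lit 92544125201) (nat_lit 836) (nat_lit 213574532512) (nat_lit 149) (nat_lit 5) (nat_lit 148) (nat_lit 5) (nat_lit 159) (nat_lit 5) (nat_lit 495) (nat_lit 492) (nat_lit 213))) (XT.nd (nat_lit 78) (nat_lit 0) (nat_lit 0) (XT.lf (nat_lit 0) (nat_lit 191339595785) (nat_lit 760) (nat_lit 110204130888) (nat_lit 836) (nat_lit 97525147437) (nat_lit 149) (nat_lit 5) (nat_lit 159) (nat_lit 5) (nat_lit 160) (nat_lit 5) (nat_lit 496) (nat_lit 492) (nat_lit 212)) (XT.lf (nat_lit 76) (nat_lit 97096687422) (nat_lit 0) (nat_lit 113797026993) (nat_lit 836) (nat_lit 198407068530) (nat_lit 150) (nat_lit 5) (nat_lit 149) (nat_lit 5) (nat_lit 160) (nat_lit 5) (nat_lit 497) (nat_lit 492) (nat_lit 211)))) (XT.nd (nat_lit 156) (nat_lit 0) (nat_lit 76) (XT.nd (nat_lit 78) (nat_lit 0) (nat_lit 0) (XT.lf (nat_lit 0) (nat_lit 234623593369) (nat_lit 760) (nat_lit 102694123871) (nat_lit 836) (nat_lit 82566667266)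 (nat_lit 150) (nat_lit 5) (nat_lit 160) (nat_lit 5) (nat_lit 161) (nat_lit 5) (nat_lit 498) (nat_lit 492) (nat_lit 210)) (XT.lf (nat_lit 76) (nat_lit 119242301000) (nat_lit 0) (nat_lit 144024871844) (nat_lit 836) (nat_lit 167543632977) (nat_lit 151) (nat_lit 5) (nat_lit 150) (nat_lit 5) (nat_lit 161) (nat_lit 5) (nat_lit 499) (nat_lit 492) (nat_lit 209))) (XT.nd (nat_lit 78) (nat_lit 0) (nat_lit 0) (XT.lf (nat_lit 0) (nat_lit 296030696361) (nat_lit 760) (nat_lit 87304368254) (nat_lit 836) (nat_lit 58814095338) (nat_lit 151) (nat_lit 5) (nat_lit 161) (nat_lit 5) (nat_lit 162) (nat_lit 5) (nat_lit 500) (nat_lit 492) (nat_lit 208)) (XT.lf (nat_lit 76) (nat_lit 150633092652) (nat_lit 0) (nat_lit 184512148777) (nat_lit 836) (nat_lit 118673548095) (nat_lit 152) (nat_lit 5) (nat_lit 151) (nat_lit 5) (nat_lit 162) (nat_lit 5) (nat_lit 501) (nat_lit 492) (nat_lit 207))))) (XT.nd (nat_lit 312) (nat_lit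 760) (nat_lit 0) (XT.nd (nat_lit 156) (nat_lit 456) (nat_lit 0) (XT.nd (nat_lit 78) (nat_lit 760) (nat_lit 0) (XT.lf (nat_lit 0) (nat_lit 378096912220) (nat_lit 760) (nat_lit 62902434636) (nat_lit 76) (nat_lit 24978483798) (nat_lit 152) (nat_lit 5) (nat_lit 162) (nat_lit 5) (nat_lit 153) (nat_lit 5) (nat_lit 502) (nat_lit 492) (nat_lit 206)) (XT.lf (nat_lit 0) (nat_lit 192532422669) (nat_lit 760) (nat_lit 236694482975) (nat_lit 836) (nat_lit 49216381246) (nat_lit 142) (nat_lit 5) (nat_lit 152) (nat_lit 5) (nat_lit 153) (nat_lit 5) (nat_lit 503) (nat_lit 492) (nat_lit 205))) (XT.nd (nat_lit 78) (nat_lit 456) (nat_lit 0) (XT.lf (nat_lit 0) (nat_lit 462922835001) (nat_lit 760) (nat_lit 21055826695) (nat_lit 836) (nat_lit 7500091096) (nat_lit 142) (nat_lit 5) (nat_lit 152) (nat_lit 5) (nat_lit 153) (nat_lit 5) (nat_lit 504) (nat_lit 492) (nat_lit 204)) (XT.lf (nat_lit 0) (nat_lit 42308172478) (nat_lit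 456) (nat_lit 259150743022) (nat_lit 76) (nat_lit 203320335181) (nat_lit 136) (nat_lit 5) (nat_lit 142) (nat_lit 5) (nat_lit 137) (nat_lit 5) (nat_lit 505) (nat_lit 492) (nat_lit 203)))) (XT.nd (nat_lit 156) (nat_lit 380) (nat_lit 0) (XT.nd (nat_lit 78) (nat_lit 0) (nat_lit 0) (XT.lf (nat_lit 0) (nat_lit 15823327015) (nat_lit 380) (nat_lit 79615211335) (nat_lit 456) (nat_lit 423245900433) (nat_lit 131) (nat_lit 5) (nat_lit 136) (nat_lit 5) (nat_lit 137) (nat_lit 5) (nat_lit 506) (nat_lit 492) (nat_lit 202)) (XT.lf (nat_lit 0) (nat_lit 158079961173) (nat_lit 456) (nat_lit 221987948063) (nat_lit 76) (nat_lit 152874250124) (nat_lit 131) (nat_lit 5) (nat_lit 137) (nat_lit 5) (nat_lit 132) (nat_lit 5) (nat_lit 507) (nat_lit 492) (nat_lit 201))) (XT.nd (nat_lit 78) (nat_lit 0) (nat_lit 0) (XT.lf (nat_lit 0) (nat_lit 73991890546) (nat_lit 380) (nat_lit 152321935347) (nat_lit 456) (nat_lit 321475921537)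 (nat_lit 126) (nat_lit 5) (nat_lit 131) (nat_lit 5) (nat_lit 132) (nat_lit 5) (nat_lit 508) (nat_lit 492) (nat_lit 200)) (XT.lf (nat_lit 0) (nat_lit 303135839246) (nat_lit 456) (nat_lit 172131117828) (nat_lit 76) (nat_lit 87853935062) (nat_lit 126) (nat_lit 5) (nat_lit 132) (nat_lit 5) (nat_lit 127) (nat_lit 5) (nat_lit 509) (nat_lit 492) (nat_lit 199))))))))
noncomputable def xc243 : XT := (XT.nd (nat_lit 61386) (nat_lit 0) (nat_lit 1596) (XT.nd (nat_lit 1170) (nat_lit 1596) (nat_lit 0) (XT.nd (nat_lit 546) (nat_lit 1216) (nat_lit 0) (XT.nd (nat_lit 234) (nat_lit 684) (nat_lit 0) (XT.nd (nat_lit 78) (nat_lit 304) (nat_lit 0) (XT.lf (nat_lit 0) (nat_lit 146821049687) (nat_lit 304) (nat_lit 241767256450) (nat_lit 380) (nat_lit 190390820298) (nat_lit 122) (nat_lit 5) (nat_lit 126) (nat_lit 5) (nat_lit 127) (nat_lit 5) (nat_lit 510) (nat_lit 492) (nat_lit 198)) (XT.nd (nat_lit 78) (nat_lit 304)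 (nat_lit 0) (XT.lf (nat_lit 0) (nat_lit 481329492945) (nat_lit 380) (nat_lit 107888693937) (nat_lit 76) (nat_lit 6261280742) (nat_lit 122) (nat_lit 5) (nat_lit 127) (nat_lit 5) (nat_lit 123) (nat_lit 5) (nat_lit 511) (nat_lit 492) (nat_lit 197)) (XT.lf (nat_lit 0) (nat_lit 236190307584) (nat_lit 304) (nat_lit 350168406890) (nat_lit 380) (nat_lit 26063562630) (nat_lit 118) (nat_lit 5) (nat_lit 122) (nat_lit 5) (nat_lit 123) (nat_lit 5) (nat_lit 512) (nat_lit 492) (nat_lit 196)))) (XT.nd (nat_lit 156) (nat_lit 304) (nat_lit 0) (XT.nd (nat_lit 78) (nat_lit 304) (nat_lit 0) (XT.lf (nat_lit 0) (nat_lit 66158171515) (nat_lit 380) (nat_lit 29969044067) (nat_lit 76) (nat_lit 533940301474) (nat_lit 117) (nat_lit 5) (nat_lit 122) (nat_lit 5) (nat_lit 118) (nat_lit 5) (nat_lit 513) (nat_lit 492) (nat_lit 195)) (XT.lf (nat_lit 0) (nat_lit 170247833568) (nat_lit 380) (nat_lit 306867691857) (nat_lit 76) (nat_lit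 171051492618) (nat_lit 113) (nat_lit 5) (nat_lit 118) (nat_lit 5) (nat_lit 114) (nat_lit 5) (nat_lit 514) (nat_lit 492) (nat_lit 194))) (XT.nd (nat_lit 78) (nat_lit 0) (nat_lit 0) (XT.lf (nat_lit 0) (nat_lit 65538916349) (nat_lit 304) (nat_lit 217118011484) (nat_lit 380) (nat_lit 384358818791) (nat_lit 109) (nat_lit 5) (nat_lit 113) (nat_lit 5) (nat_lit 114) (nat_lit 5) (nat_lit 515) (nat_lit 492) (nat_lit 193)) (XT.lf (nat_lit 0) (nat_lit 406841045989) (nat_lit 380) (nat_lit 220285103031) (nat_lit 76) (nat_lit 59373034156) (nat_lit 109) (nat_lit 5) (nat_lit 114) (nat_lit 5) (nat_lit 110) (nat_lit 5) (nat_lit 516) (nat_lit 492) (nat_lit 192))))) (XT.nd (nat_lit 312) (nat_lit 456) (nat_lit 0) (XT.nd (nat_lit 156) (nat_lit 532) (nat_lit 0) (XT.nd (nat_lit 78) (nat_lit 0) (nat_lit 0) (XT.lf (nat_lit 0) (nat_lit 182239690253) (nat_lit 228) (nat_lit 361399251077) (nat_lit 304) (nat_lit 162997621665)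 (nat_lit 106) (nat_lit 5) (nat_lit 109) (nat_lit 5) (nat_lit 110) (nat_lit 5) (nat_lit 517) (nat_lit 492) (nat_lit 191)) (XT.lf (nat_lit 0) (nat_lit 612538507979) (nat_lit 228) (nat_lit 78468845935) (nat_lit 304) (nat_lit 36586926768) (nat_lit 106) (nat_lit 5) (nat_lit 109) (nat_lit 5) (nat_lit 110) (nat_lit 5) (nat_lit 518) (nat_lit 492) (nat_lit 190))) (XT.nd (nat_lit 78) (nat_lit 228) (nat_lit 0) (XT.lf (nat_lit 0) (nat_lit 101640032367) (nat_lit 304) (nat_lit 429183941963) (nat_lit 76) (nat_lit 218272208441) (nat_lit 102) (nat_lit 5) (nat_lit 106) (nat_lit 5) (nat_lit 103) (nat_lit 5) (nat_lit 519) (nat_lit 492) (nat_lit 189)) (XT.lf (nat_lit 0) (nat_lit 7364983699) (nat_lit 228) (nat_lit 241565614197) (nat_lit 304) (nat_lit 522543501833) (nat_lit 99) (nat_lit 5) (nat_lit 102) (nat_lit 5) (nat_lit 103) (nat_lit 5) (nat_lit 520) (nat_lit 492) (nat_lit 188)))) (XT.nd (nat_lit 156) (nat_lit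 228) (nat_lit 0) (XT.nd (nat_lit 78) (nat_lit 228) (nat_lit 0) (XT.lf (nat_lit 0) (nat_lit 411943696794) (nat_lit 304) (nat_lit 315055433157) (nat_lit 76) (nat_lit 67553882330) (nat_lit 99) (nat_lit 5) (nat_lit 103) (nat_lit 5) (nat_lit 100) (nat_lit 5) (nat_lit 521) (nat_lit 492) (nat_lit 187)) (XT.lf (nat_lit 0) (nat_lit 157532861317) (nat_lit 228) (nat_lit 431994199892) (nat_lit 304) (nat_lit 228937828723) (nat_lit 96) (nat_lit 5) (nat_lit 99) (nat_lit 5) (nat_lit 100) (nat_lit 5) (nat_lit 522) (nat_lit 492) (nat_lit 186))) (XT.nd (nat_lit 78) (nat_lit 228) (nat_lit 0) (XT.lf (nat_lit 0) (nat_lit 664688568118) (nat_lit 228) (nat_lit 116636631299) (nat_lit 304) (nat_lit 61980381773) (nat_lit 96) (nat_lit 5) (nat_lit 99) (nat_lit 5) (nat_lit 100) (nat_lit 5) (nat_lit 523) (nat_lit 492) (nat_lit 185)) (XT.lf (nat_lit 0) (nat_lit 118420588644) (nat_lit 228) (nat_lit 535675969611) (nat_lit 76)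 (nat_lit 214767144919) (nat_lit 93) (nat_lit 5) (nat_lit 96) (nat_lit 5) (nat_lit 94) (nat_lit 5) (nat_lit 524) (nat_lit 492) (nat_lit 184)))))) (XT.nd (nat_lit 624) (nat_lit 608) (nat_lit 0) (XT.nd (nat_lit 312) (nat_lit 532) (nat_lit 0) (XT.nd (nat_lit 156) (nat_lit 228) (nat_lit 0) (XT.nd (nat_lit 78) (nat_lit 228) (nat_lit 0) (XT.lf (nat_lit 0) (nat_lit 310745281276) (nat_lit 228) (nat_lit 21742338839) (nat_lit 76) (nat_lit 562911976506) (nat_lit 93) (nat_lit 5) (nat_lit 96) (nat_lit 5) (nat_lit 94) (nat_lit 5) (nat_lit 525) (nat_lit 492) (nat_lit 183)) (XT.lf (nat_lit 0) (nat_lit 521257379490) (nat_lit 304) (nat_lit 388051109066) (nat_lit 76) (nat_lit 13525237636) (nat_lit 90) (nat_lit 5) (nat_lit 94) (nat_lit 5) (nat_lit 91) (nat_lit 5) (nat_lit 526) (nat_lit 492) (nat_lit 182))) (XT.nd (nat_lit 78) (nat_lit 76) (nat_lit 0) (XT.lf (nat_lit 0) (nat_lit 168194108377) (nat_lit 152) (nat_lit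 582551816249) (nat_lit 228) (nat_lit 200471095516) (nat_lit 88) (nat_lit 5) (nat_lit 90) (nat_lit 5) (nat_lit 91) (nat_lit 5) (nat_lit 527) (nat_lit 492) (nat_lit 181)) (XT.lf (nat_lit 0) (nat_lit 17026848950) (nat_lit 228) (nat_lit 215241683813) (nat_lit 76) (nat_lit 748408623496) (nat_lit 87) (nat_lit 5) (nat_lit 90) (nat_lit 5) (nat_lit 88) (nat_lit 5) (nat_lit 528) (nat_lit 492) (nat_lit 180)))) (XT.nd (nat_lit 156) (nat_lit 304) (nat_lit 0) (XT.nd (nat_lit 78) (nat_lit 0) (nat_lit 0) (XT.lf (nat_lit 0) (nat_lit 247023255410) (nat_lit 304) (nat_lit 623282407220) (nat_lit 76) (nat_lit 140722280575) (nat_lit 84) (nat_lit 5) (nat_lit 88) (nat_lit 5) (nat_lit 85) (nat_lit 5) (nat_lit 529) (nat_lit 492) (nat_lit 179)) (XT.lf (nat_lit 0) (nat_lit 496032134028) (nat_lit 304) (nat_lit 18226639308) (nat_lit 76) (nat_lit 528261863572) (nat_lit 84) (nat_lit 5) (nat_lit 88) (nat_lit 5) (nat_lit 85) (nat_lit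 5) (nat_lit 530) (nat_lit 492) (nat_lit 178))) (XT.nd (nat_lit 78) (nat_lit 152) (nat_lit 0) (XT.lf (nat_lit 0) (nat_lit 637485417914) (nat_lit 152) (nat_lit 129958964174) (nat_lit 228) (nat_lit 307645936932) (nat_lit 82) (nat_lit 5) (nat_lit 84) (nat_lit 5) (nat_lit 85) (nat_lit 5) (nat_lit 531) (nat_lit 492) (nat_lit 177)) (XT.lf (nat_lit 0) (nat_lit 220111716670) (nat_lit 152) (nat_lit 840336788802) (nat_lit 228) (nat_lit 48438916619) (nat_lit 80) (nat_lit 5) (nat_lit 82) (nat_lit 5) (nat_lit 83) (nat_lit 5) (nat_lit 532) (nat_lit 492) (nat_lit 176))))) (XT.nd (nat_lit 312) (nat_lit 228) (nat_lit 0) (XT.nd (nat_lit 156) (nat_lit 152) (nat_lit 0) (XT.nd (nat_lit 78) (nat_lit 152) (nat_lit 0) (XT.lf (nat_lit 0) (nat_lit 226230756896) (nat_lit 228) (nat_lit 223842017848) (nat_lit 76) (nat_lit 693643803669) (nat_lit 79) (nat_lit 5) (nat_lit 82) (nat_lit 5) (nat_lit 80) (nat_lit 5) (nat_lit 533)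 (nat_lit 492) (nat_lit 175)) (XT.lf (nat_lit 0) (nat_lit 489201772200) (nat_lit 152) (nat_lit 31442079449) (nat_lit 228) (nat_lit 659221746731) (nat_lit 77) (nat_lit 5) (nat_lit 79) (nat_lit 5) (nat_lit 80) (nat_lit 5) (nat_lit 534) (nat_lit 492) (nat_lit 174))) (XT.nd (nat_lit 78) (nat_lit 0) (nat_lit 0) (XT.lf (nat_lit 0) (nat_lit 22316732268) (nat_lit 152) (nat_lit 818034205483) (nat_lit 228) (nat_lit 376942464765) (nat_lit 75) (nat_lit 5) (nat_lit 77) (nat_lit 5) (nat_lit 78) (nat_lit 5) (nat_lit 535) (nat_lit 492) (nat_lit 173)) (XT.lf (nat_lit 0) (nat_lit 794392107275) (nat_lit 152) (nat_lit 393855119682) (nat_lit 228) (nat_lit 67735177461) (nat_lit 75) (nat_lit 5) (nat_lit 77) (nat_lit 5) (nat_lit 78) (nat_lit 5) (nat_lit 536) (nat_lit 492) (nat_lit 172)))) (XT.nd (nat_lit 59124) (nat_lit 0) (nat_lit 5700) (XT.nd (nat_lit 59046) (nat_lit 0) (nat_lit 5700) (XT.lf (nat_lit 0) (nat_lit 254570405866)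 (nat_lit 228) (nat_lit 982590024453) (nat_lit 76) (nat_lit 58951785528) (nat_lit 72) (nat_lit 5) (nat_lit 75) (nat_lit 5) (nat_lit 73) (nat_lit 5) (nat_lit 537) (nat_lit 492) (nat_lit 171)) (XT.lf (nat_lit 0) (nat_lit 78901810743) (nat_lit 836) (nat_lit 55409416959) (nat_lit 836) (nat_lit 55409416959) (nat_lit 147) (nat_lit 3) (nat_lit 158) (nat_lit 3) (nat_lit 158) (nat_lit 5) (nat_lit 493) (nat_lit 493) (nat_lit 214))) (XT.nd (nat_lit 78) (nat_lit 0) (nat_lit 76) (XT.lf (nat_lit 76) (nat_lit 79922991819) (nat_lit 0) (nat_lit 83073988566) (nat_lit 836) (nat_lit 225867927683) (nat_lit 148) (nat_lit 5) (nat_lit 147) (nat_lit 3) (nat_lit 158) (nat_lit 5) (nat_lit 494) (nat_lit 493) (nat_lit 213)) (XT.lf (nat_lit 0) (nat_lit 172102276288) (nat_lit 760) (nat_lit 116392124958) (nat_lit 836) (nat_lit 110082693056) (nat_lit 148) (nat_lit 5) (nat_lit 158) (nat_lit 5) (nat_lit 159) (nat_lit 5) (nat_lit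 495) (nat_lit 493) (nat_lit 212))))))) (XT.nd (nat_lit 1170) (nat_lit 2508) (nat_lit 0) (XT.nd (nat_lit 546) (nat_lit 1672) (nat_lit 0) (XT.nd (nat_lit 234) (nat_lit 0) (nat_lit 152) (XT.nd (nat_lit 78) (nat_lit 0) (nat_lit 76) (XT.lf (nat_lit 76) (nat_lit 87214685495) (nat_lit 0) (nat_lit 97171658564) (nat_lit 836) (nat_lit 224252370440) (nat_lit 149) (nat_lit 5) (nat_lit 148) (nat_lit 5) (nat_lit 159) (nat_lit 5) (nat_lit 496) (nat_lit 493) (nat_lit 211)) (XT.nd (nat_lit 78) (nat_lit 0) (nat_lit 0) (XT.lf (nat_lit 0) (nat_lit 200907376667) (nat_lit 760) (nat_lit 115713797717) (nat_lit 836) (nat_lit 102401103253) (nat_lit 149) (nat_lit 5) (nat_lit 159) (nat_lit 5) (nat_lit 160) (nat_lit 5) (nat_lit 497) (nat_lit 493) (nat_lit 210)) (XT.lf (nat_lit 76) (nat_lit 101952052804) (nat_lit 0) (nat_lit 119487118569) (nat_lit 836) (nat_lit 208326612041) (nat_lit 150) (nat_lit 5) (nat_lit 149) (nat_lit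 5) (nat_lit 160) (nat_lit 5) (nat_lit 498) (nat_lit 493) (nat_lit 209)))) (XT.nd (nat_lit 156) (nat_lit 0) (nat_lit 76) (XT.nd (nat_lit 78) (nat_lit 0) (nat_lit 0) (XT.lf (nat_lit 0) (nat_lit 246355503977) (nat_lit 760) (nat_lit 107828283931) (nat_lit 836) (nat_lit 86694779165) (nat_lit 150) (nat_lit 5) (nat_lit 160) (nat_lit 5) (nat_lit 161) (nat_lit 5) (nat_lit 499) (nat_lit 493) (nat_lit 208)) (XT.lf (nat_lit 76) (nat_lit 125204953375) (nat_lit 0) (nat_lit 151226282633) (nat_lit 836) (nat_lit 175920074772) (nat_lit 151) (nat_lit 5) (nat_lit 150) (nat_lit 5) (nat_lit 161) (nat_lit 5) (nat_lit 500) (nat_lit 493) (nat_lit 207))) (XT.nd (nat_lit 78) (nat_lit 0) (nat_lit 0) (XT.lf (nat_lit 0) (nat_lit 310832899666) (nat_lit 760) (nat_lit 91669038792) (nat_lit 836) (nat_lit 61754645966) (nat_lit 151) (nat_lit 5) (nat_lit 161) (nat_lit 5) (nat_lit 162) (nat_lit 5) (nat_lit 501) (nat_lit 493) (nat_lit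 206)) (XT.lf (nat_lit 76) (nat_lit 158165286322) (nat_lit 0) (nat_lit 193737862248) (nat_lit 836) (nat_lit 124606548080) (nat_lit 152) (nat_lit 5) (nat_lit 151) (nat_lit 5) (nat_lit 162) (nat_lit 5) (nat_lit 502) (nat_lit 493) (nat_lit 205))))) (XT.nd (nat_lit 312) (nat_lit 760) (nat_lit 0) (XT.nd (nat_lit 156) (nat_lit 456) (nat_lit 0) (XT.nd (nat_lit 78) (nat_lit 760) (nat_lit 0) (XT.lf (nat_lit 0) (nat_lit 397002370607) (nat_lit 760) (nat_lit 66047010613) (nat_lit 76) (nat_lit 26227310237) (nat_lit 152) (nat_lit 5) (nat_lit 162) (nat_lit 5) (nat_lit 153) (nat_lit 5) (nat_lit 503) (nat_lit 493) (nat_lit 204)) (XT.lf (nat_lit 0) (nat_lit 202159580755) (nat_lit 760) (nat_lit 248529262150) (nat_lit 836) (nat_lit 51676578643) (nat_lit 142) (nat_lit 5) (nat_lit 152) (nat_lit 5) (nat_lit 153) (nat_lit 5) (nat_lit 504) (nat_lit 493) (nat_lit 203))) (XT.nd (nat_lit 78) (nat_lit 456) (nat_lit 0) (XT.lf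 (nat_lit 0) (nat_lit 486069488135) (nat_lit 760) (nat_lit 22108670436) (nat_lit 836) (nat_lit 7874503588) (nat_lit 142) (nat_lit 5) (nat_lit 152) (nat_lit 5) (nat_lit 153) (nat_lit 5) (nat_lit 505) (nat_lit 493) (nat_lit 202)) (XT.lf (nat_lit 0) (nat_lit 44424134570) (nat_lit 456) (nat_lit 272107730039) (nat_lit 76) (nat_lit 213486320856) (nat_lit 136) (nat_lit 5) (nat_lit 142) (nat_lit 5) (nat_lit 137) (nat_lit 5) (nat_lit 506) (nat_lit 493) (nat_lit 201)))) (XT.nd (nat_lit 156) (nat_lit 380) (nat_lit 0) (XT.nd (nat_lit 78) (nat_lit 0) (nat_lit 0) (XT.lf (nat_lit 0) (nat_lit 16615034626) (nat_lit 380) (nat_lit 83595966205) (nat_lit 456) (nat_lit 444407633041) (nat_lit 131) (nat_lit 5) (nat_lit 136) (nat_lit 5) (nat_lit 137) (nat_lit 5) (nat_lit 507) (nat_lit 493) (nat_lit 200)) (XT.lf (nat_lit 0) (nat_lit 165984469377) (nat_lit 456) (nat_lit 233086804493) (nat_lit 76) (nat_lit 160517967882)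 (nat_lit 131) (nat_lit 5) (nat_lit 137) (nat_lit 5) (nat_lit 132) (nat_lit 5) (nat_lit 508) (nat_lit 493) (nat_lit 199))) (XT.nd (nat_lit 78) (nat_lit 0) (nat_lit 0) (XT.lf (nat_lit 0) (nat_lit 77692017321) (nat_lit 380) (nat_lit 159937994029) (nat_lit 456) (nat_lit 337549198678) (nat_lit 126) (nat_lit 5) (nat_lit 131) (nat_lit 5) (nat_lit 132) (nat_lit 5) (nat_lit 509) (nat_lit 493) (nat_lit 198)) (XT.lf (nat_lit 0) (nat_lit 318293102405) (nat_lit 456) (nat_lit 180737143789) (nat_lit 76) (nat_lit 92246666926) (nat_lit 126) (nat_lit 5) (nat_lit 132) (nat_lit 5) (nat_lit 127) (nat_lit 5) (nat_lit 510) (nat_lit 493) (nat_lit 197)))))) (XT.nd (nat_lit 624) (nat_lit 988) (nat_lit 0) (XT.nd (nat_lit 312) (nat_lit 836) (nat_lit 0) (XT.nd (nat_lit 156) (nat_lit 380) (nat_lit 0) (XT.nd (nat_lit 78) (nat_lit 0) (nat_lit 0) (XT.lf (nat_lit 0) (nat_lit 154162623554) (nat_lit 304) (nat_lit 253855554789)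 (nat_lit 380) (nat_lit 199909881509) (nat_lit 122) (nat_lit 5) (nat_lit 126) (nat_lit 5) (nat_lit 127) (nat_lit 5) (nat_lit 511) (nat_lit 493) (nat_lit 196)) (XT.lf (nat_lit 0) (nat_lit 505396403693) (nat_lit 380) (nat_lit 113282611224) (nat_lit 76) (nat_lit 6574404227) (nat_lit 122) (nat_lit 5) (nat_lit 127) (nat_lit 5) (nat_lit 123) (nat_lit 5) (nat_lit 512) (nat_lit 493) (nat_lit 195))) (XT.nd (nat_lit 78) (nat_lit 76) (nat_lit 0) (XT.lf (nat_lit 0) (nat_lit 248000332028) (nat_lit 304) (nat_lit 367676741453) (nat_lit 380) (nat_lit 27366296261) (nat_lit 118) (nat_lit 5) (nat_lit 122) (nat_lit 5) (nat_lit 123) (nat_lit 5) (nat_lit 513) (nat_lit 493) (nat_lit 194)) (XT.lf (nat_lit 0) (nat_lit 69466489875) (nat_lit 380) (nat_lit 31466997849) (nat_lit 76) (nat_lit 560637384647) (nat_lit 117) (nat_lit 5) (nat_lit 122) (nat_lit 5) (nat_lit 118) (nat_lit 5) (nat_lit 514) (nat_lit 493) (nat_lit 193))))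 (XT.nd (nat_lit 156) (nat_lit 228) (nat_lit 0) (XT.nd (nat_lit 78) (nat_lit 304) (nat_lit 0) (XT.lf (nat_lit 0) (nat_lit 178760624617) (nat_lit 380) (nat_lit 322210567568) (nat_lit 76) (nat_lit 179604156745) (nat_lit 113) (nat_lit 5) (nat_lit 118) (nat_lit 5) (nat_lit 114) (nat_lit 5) (nat_lit 515) (nat_lit 493) (nat_lit 192)) (XT.lf (nat_lit 0) (nat_lit 68816362841) (nat_lit 304) (nat_lit 227973799554) (nat_lit 380) (nat_lit 403576352108) (nat_lit 109) (nat_lit 5) (nat_lit 113) (nat_lit 5) (nat_lit 114) (nat_lit 5) (nat_lit 516) (nat_lit 493) (nat_lit 191))) (XT.nd (nat_lit 78) (nat_lit 228) (nat_lit 0) (XT.lf (nat_lit 0) (nat_lit 427183469647) (nat_lit 380) (nat_lit 231298864497) (nat_lit 76) (nat_lit 62341789581) (nat_lit 109) (nat_lit 5) (nat_lit 114) (nat_lit 5) (nat_lit 110) (nat_lit 5) (nat_lit 517) (nat_lit 493) (nat_lit 190)) (XT.lf (nat_lit 0) (nat_lit 191352160488) (nat_lit 228) (nat_lit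 379469089165) (nat_lit 304) (nat_lit 171147123387) (nat_lit 106) (nat_lit 5) (nat_lit 109) (nat_lit 5) (nat_lit 110) (nat_lit 5) (nat_lit 518) (nat_lit 493) (nat_lit 189))))) (XT.nd (nat_lit 312) (nat_lit 456) (nat_lit 0) (XT.nd (nat_lit 156) (nat_lit 228) (nat_lit 0) (XT.nd (nat_lit 78) (nat_lit 304) (nat_lit 0) (XT.lf (nat_lit 0) (nat_lit 643165895971) (nat_lit 228) (nat_lit 82392169693) (nat_lit 304) (nat_lit 38415911810) (nat_lit 106) (nat_lit 5) (nat_lit 109) (nat_lit 5) (nat_lit 110) (nat_lit 5) (nat_lit 519) (nat_lit 493) (nat_lit 188)) (XT.lf (nat_lit 0) (nat_lit 106722376318) (nat_lit 304) (nat_lit 450642657434) (nat_lit 76) (nat_lit 229185941007) (nat_lit 102) (nat_lit 5) (nat_lit 106) (nat_lit 5) (nat_lit 103) (nat_lit 5) (nat_lit 520) (nat_lit 493) (nat_lit 187))) (XT.nd (nat_lit 78) (nat_lit 0) (nat_lit 0) (XT.lf (nat_lit 0) (nat_lit 7733706744) (nat_lit 228) (nat_lit 253643754476)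 (nat_lit 304) (nat_lit 548670326790) (nat_lit 99) (nat_lit 5) (nat_lit 102) (nat_lit 5) (nat_lit 103) (nat_lit 5) (nat_lit 521) (nat_lit 493) (nat_lit 186)) (XT.lf (nat_lit 0) (nat_lit 432541201273) (nat_lit 304) (nat_lit 330807739699) (nat_lit 76) (nat_lit 70931705909) (nat_lit 99) (nat_lit 5) (nat_lit 103) (nat_lit 5) (nat_lit 100) (nat_lit 5) (nat_lit 522) (nat_lit 493) (nat_lit 185)))) (XT.nd (nat_lit 156) (nat_lit 228) (nat_lit 0) (XT.nd (nat_lit 78) (nat_lit 0) (nat_lit 0) (XT.lf (nat_lit 0) (nat_lit 165409961998) (nat_lit 228) (nat_lit 453593763836) (nat_lit 304) (nat_lit 240384392988) (nat_lit 96) (nat_lit 5) (nat_lit 99) (nat_lit 5) (nat_lit 100) (nat_lit 5) (nat_lit 523) (nat_lit 493) (nat_lit 184)) (XT.lf (nat_lit 0) (nat_lit 697923432347) (nat_lit 228) (nat_lit 122468323768) (nat_lit 304) (nat_lit 65079089269) (nat_lit 96) (nat_lit 5) (nat_lit 99) (nat_lit 5) (nat_lit 100) (nat_lit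 5) (nat_lit 524) (nat_lit 493) (nat_lit 183))) (XT.nd (nat_lit 78) (nat_lit 0) (nat_lit 0) (XT.lf (nat_lit 0) (nat_lit 124341914438) (nat_lit 228) (nat_lit 562459316985) (nat_lit 76) (nat_lit 225505642067) (nat_lit 93) (nat_lit 5) (nat_lit 96) (nat_lit 5) (nat_lit 94) (nat_lit 5) (nat_lit 525) (nat_lit 493) (nat_lit 182)) (XT.lf (nat_lit 0) (nat_lit 326282827588) (nat_lit 228) (nat_lit 22829026155) (nat_lit 76) (nat_lit 591057708571) (nat_lit 93) (nat_lit 5) (nat_lit 96) (nat_lit 5) (nat_lit 94) (nat_lit 5) (nat_lit 526) (nat_lit 493) (nat_lit 181))))))))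
noncomputable def xc244 : XT := (XT.nd (nat_lit 61464) (nat_lit 0) (nat_lit 0) (XT.nd (nat_lit 60216) (nat_lit 0) (nat_lit 3572) (XT.nd (nat_lit 546) (nat_lit 380) (nat_lit 0) (XT.nd (nat_lit 234) (nat_lit 532) (nat_lit 0) (XT.nd (nat_lit 78) (nat_lit 228) (nat_lit 0) (XT.lf (nat_lit 0) (nat_lit 547320526172) (nat_lit 304) (nat_lit 407453230329) (nat_lit 76) (nat_lit 14201642092) (nat_lit 90) (nat_lit 5) (nat_lit 94) (nat_lit 5) (nat_lit 91) (nat_lit 5) (nat_lit 527) (nat_lit 493) (nat_lit 180)) (XT.nd (nat_lit 78) (nat_lit 76) (nat_lit 0) (XT.lf (nat_lit 0) (nat_lit 176604240984) (nat_lit 152) (nat_lit 611679251027) (nat_lit 228) (nat_lit 210494365559) (nat_lit 88) (nat_lit 5) (nat_lit 90) (nat_lit 5) (nat_lit 91) (nat_lit 5) (nat_lit 528) (nat_lit 493) (nat_lit 179)) (XT.lf (nat_lit 0) (nat_lit 17878453892) (nat_lit 228) (nat_lit 226003352458) (nat_lit 76) (nat_lit 785829194576) (nat_lit 87)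 (nat_lit 5) (nat_lit 90) (nat_lit 5) (nat_lit 88) (nat_lit 5) (nat_lit 529) (nat_lit 493) (nat_lit 178)))) (XT.nd (nat_lit 156) (nat_lit 304) (nat_lit 0) (XT.nd (nat_lit 78) (nat_lit 0) (nat_lit 0) (XT.lf (nat_lit 0) (nat_lit 259374676939) (nat_lit 304) (nat_lit 654446108281) (nat_lit 76) (nat_lit 147758542188) (nat_lit 84) (nat_lit 5) (nat_lit 88) (nat_lit 5) (nat_lit 85) (nat_lit 5) (nat_lit 530) (nat_lit 493) (nat_lit 177)) (XT.lf (nat_lit 0) (nat_lit 520833987166) (nat_lit 304) (nat_lit 19137571939) (nat_lit 76) (nat_lit 554675097307) (nat_lit 84) (nat_lit 5) (nat_lit 88) (nat_lit 5) (nat_lit 85) (nat_lit 5) (nat_lit 531) (nat_lit 493) (nat_lit 176))) (XT.nd (nat_lit 78) (nat_lit 152) (nat_lit 0) (XT.lf (nat_lit 0) (nat_lit 669360081702) (nat_lit 152) (nat_lit 136456760326) (nat_lit 228) (nat_lit 323027980883) (nat_lit 82) (nat_lit 5) (nat_lit 84) (nat_lit 5) (nat_lit 85) (nat_lit 5) (nat_lit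 532) (nat_lit 493) (nat_lit 175)) (XT.lf (nat_lit 0) (nat_lit 231117698589) (nat_lit 152) (nat_lit 882353469970) (nat_lit 228) (nat_lit 50860612730) (nat_lit 80) (nat_lit 5) (nat_lit 82) (nat_lit 5) (nat_lit 83) (nat_lit 5) (nat_lit 533) (nat_lit 493) (nat_lit 174))))) (XT.nd (nat_lit 59358) (nat_lit 0) (nat_lit 5472) (XT.nd (nat_lit 156) (nat_lit 152) (nat_lit 0) (XT.nd (nat_lit 78) (nat_lit 152) (nat_lit 0) (XT.lf (nat_lit 0) (nat_lit 237542524957) (nat_lit 228) (nat_lit 235033733890) (nat_lit 76) (nat_lit 728326136960) (nat_lit 79) (nat_lit 5) (nat_lit 82) (nat_lit 5) (nat_lit 80) (nat_lit 5) (nat_lit 534) (nat_lit 493) (nat_lit 173)) (XT.lf (nat_lit 0) (nat_lit 513662239453) (nat_lit 152) (nat_lit 33014029943) (nat_lit 228) (nat_lit 692182597630) (nat_lit 77) (nat_lit 5) (nat_lit 79) (nat_lit 5) (nat_lit 80) (nat_lit 5) (nat_lit 535) (nat_lit 493) (nat_lit 172))) (XT.nd (nat_lit 78) (nat_lit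 0) (nat_lit 0) (XT.lf (nat_lit 0) (nat_lit 23432950151) (nat_lit 152) (nat_lit 858935757165) (nat_lit 228) (nat_lit 395789354178) (nat_lit 75) (nat_lit 5) (nat_lit 77) (nat_lit 5) (nat_lit 78) (nat_lit 5) (nat_lit 536) (nat_lit 493) (nat_lit 171)) (XT.lf (nat_lit 0) (nat_lit 834112075753) (nat_lit 152) (nat_lit 413547724627) (nat_lit 228) (nat_lit 71121713642) (nat_lit 75) (nat_lit 5) (nat_lit 77) (nat_lit 5) (nat_lit 78) (nat_lit 5) (nat_lit 537) (nat_lit 493) (nat_lit 170)))) (XT.nd (nat_lit 156) (nat_lit 0) (nat_lit 76) (XT.nd (nat_lit 78) (nat_lit 0) (nat_lit 0) (XT.lf (nat_lit 0) (nat_lit 82847340784) (nat_lit 836) (nat_lit 58179657033) (nat_lit 836) (nat_lit 58179657033) (nat_lit 147) (nat_lit 3) (nat_lit 158) (nat_lit 3) (nat_lit 158) (nat_lit 5) (nat_lit 494) (nat_lit 494) (nat_lit 212)) (XT.lf (nat_lit 76) (nat_lit 83919595513) (nat_lit 0) (nat_lit 87228078132) (nat_lit 836) (nat_lit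 237160437485) (nat_lit 148) (nat_lit 5) (nat_lit 147) (nat_lit 3) (nat_lit 158) (nat_lit 5) (nat_lit 495) (nat_lit 494) (nat_lit 211))) (XT.nd (nat_lit 78) (nat_lit 0) (nat_lit 0) (XT.lf (nat_lit 0) (nat_lit 180708188340) (nat_lit 760) (nat_lit 122211252600) (nat_lit 836) (nat_lit 115586468042) (nat_lit 148) (nat_lit 5) (nat_lit 158) (nat_lit 5) (nat_lit 159) (nat_lit 5) (nat_lit 496) (nat_lit 494) (nat_lit 210)) (XT.lf (nat_lit 76) (nat_lit 91575890656) (nat_lit 0) (nat_lit 102030538185) (nat_lit 836) (nat_lit 235464182887) (nat_lit 149) (nat_lit 5) (nat_lit 148) (nat_lit 5) (nat_lit 159) (nat_lit 5) (nat_lit 497) (nat_lit 494) (nat_lit 209)))))) (XT.nd (nat_lit 624) (nat_lit 1520) (nat_lit 0) (XT.nd (nat_lit 312) (nat_lit 532) (nat_lit 0) (XT.nd (nat_lit 156) (nat_lit 0) (nat_lit 76) (XT.nd (nat_lit 78) (nat_lit 0) (nat_lit 0) (XT.lf (nat_lit 0) (nat_lit 210953472116) (nat_lit 760) (nat_lit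 121498998066) (nat_lit 836) (nat_lit 107520884895) (nat_lit 149) (nat_lit 5) (nat_lit 159) (nat_lit 5) (nat_lit 160) (nat_lit 5) (nat_lit 498) (nat_lit 494) (nat_lit 208)) (XT.lf (nat_lit 76) (nat_lit 107050137086) (nat_lit 0) (nat_lit 125461692390) (nat_lit 836) (nat_lit 218742208025) (nat_lit 150) (nat_lit 5) (nat_lit 149) (nat_lit 5) (nat_lit 160) (nat_lit 5) (nat_lit 499) (nat_lit 494) (nat_lit 207))) (XT.nd (nat_lit 78) (nat_lit 0) (nat_lit 0) (XT.lf (nat_lit 0) (nat_lit 258673942159) (nat_lit 760) (nat_lit 113219202769) (nat_lit 836) (nat_lit 91029317249) (nat_lit 150) (nat_lit 5) (nat_lit 160) (nat_lit 5) (nat_lit 161) (nat_lit 5) (nat_lit 500) (nat_lit 494) (nat_lit 206)) (XT.lf (nat_lit 76) (nat_lit 131465688413) (nat_lit 0) (nat_lit 158787748417) (nat_lit 836) (nat_lit 184715407441) (nat_lit 151) (nat_lit 5) (nat_lit 150) (nat_lit 5) (nat_lit 161) (nat_lit 5) (nat_lit 501) (nat_lit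 494) (nat_lit 205)))) (XT.nd (nat_lit 156) (nat_lit 684) (nat_lit 0) (XT.nd (nat_lit 78) (nat_lit 0) (nat_lit 0) (XT.lf (nat_lit 0) (nat_lit 326375150987) (nat_lit 760) (nat_lit 96251993794) (nat_lit 836) (nat_lit 64842238456) (nat_lit 151) (nat_lit 5) (nat_lit 161) (nat_lit 5) (nat_lit 162) (nat_lit 5) (nat_lit 502) (nat_lit 494) (nat_lit 204)) (XT.lf (nat_lit 76) (nat_lit 166074039561) (nat_lit 0) (nat_lit 203424851535) (nat_lit 836) (nat_lit 130836261044) (nat_lit 152) (nat_lit 5) (nat_lit 151) (nat_lit 5) (nat_lit 162) (nat_lit 5) (nat_lit 503) (nat_lit 494) (nat_lit 203))) (XT.nd (nat_lit 78) (nat_lit 760) (nat_lit 0) (XT.lf (nat_lit 0) (nat_lit 416853044943) (nat_lit 760) (nat_lit 69348866127) (nat_lit 76) (nat_lit 27538587086) (nat_lit 152) (nat_lit 5) (nat_lit 162) (nat_lit 5) (nat_lit 153) (nat_lit 5) (nat_lit 504) (nat_lit 494) (nat_lit 202)) (XT.lf (nat_lit 0) (nat_lit 212268046825)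 (nat_lit 760) (nat_lit 260955775169) (nat_lit 836) (nat_lit 54259843705) (nat_lit 142) (nat_lit 5) (nat_lit 152) (nat_lit 5) (nat_lit 153) (nat_lit 5) (nat_lit 505) (nat_lit 494) (nat_lit 201))))) (XT.nd (nat_lit 312) (nat_lit 684) (nat_lit 0) (XT.nd (nat_lit 156) (nat_lit 380) (nat_lit 0) (XT.nd (nat_lit 78) (nat_lit 456) (nat_lit 0) (XT.lf (nat_lit 0) (nat_lit 510373426382) (nat_lit 760) (nat_lit 23214151492) (nat_lit 836) (nat_lit 8267691749) (nat_lit 142) (nat_lit 5) (nat_lit 152) (nat_lit 5) (nat_lit 153) (nat_lit 5) (nat_lit 506) (nat_lit 494) (nat_lit 200)) (XT.lf (nat_lit 0) (nat_lit 46645843311) (nat_lit 456) (nat_lit 285712617554) (nat_lit 76) (nat_lit 224160608705) (nat_lit 136) (nat_lit 5) (nat_lit 142) (nat_lit 5) (nat_lit 137) (nat_lit 5) (nat_lit 507) (nat_lit 494) (nat_lit 199))) (XT.nd (nat_lit 78) (nat_lit 0) (nat_lit 0) (XT.lf (nat_lit 0) (nat_lit 17446277296) (nat_lit 380)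 (nat_lit 87775759348) (nat_lit 456) (nat_lit 466627504567) (nat_lit 131) (nat_lit 5) (nat_lit 136) (nat_lit 5) (nat_lit 137) (nat_lit 5) (nat_lit 508) (nat_lit 494) (nat_lit 198)) (XT.lf (nat_lit 0) (nat_lit 174284155562) (nat_lit 456) (nat_lit 244740654039) (nat_lit 76) (nat_lit 168543871040) (nat_lit 131) (nat_lit 5) (nat_lit 137) (nat_lit 5) (nat_lit 132) (nat_lit 5) (nat_lit 509) (nat_lit 494) (nat_lit 197)))) (XT.nd (nat_lit 156) (nat_lit 304) (nat_lit 0) (XT.nd (nat_lit 78) (nat_lit 0) (nat_lit 0) (XT.lf (nat_lit 0) (nat_lit 81577100951) (nat_lit 380) (nat_lit 167934859186) (nat_lit 456) (nat_lit 354426187922) (nat_lit 126) (nat_lit 5) (nat_lit 131) (nat_lit 5) (nat_lit 132) (nat_lit 5) (nat_lit 510) (nat_lit 494) (nat_lit 196)) (XT.lf (nat_lit 0) (nat_lit 334208184915) (nat_lit 456) (nat_lit 189773520316) (nat_lit 76) (nat_lit 96859032119) (nat_lit 126) (nat_lit 5) (nat_lit 132) (nat_lit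 5) (nat_lit 127) (nat_lit 5) (nat_lit 511) (nat_lit 494) (nat_lit 195))) (XT.nd (nat_lit 78) (nat_lit 0) (nat_lit 0) (XT.lf (nat_lit 0) (nat_lit 161871227641) (nat_lit 304) (nat_lit 266548274040) (nat_lit 380) (nat_lit 209904940389) (nat_lit 122) (nat_lit 5) (nat_lit 126) (nat_lit 5) (nat_lit 127) (nat_lit 5) (nat_lit 512) (nat_lit 494) (nat_lit 194)) (XT.lf (nat_lit 0) (nat_lit 530666619434) (nat_lit 380) (nat_lit 118946272479) (nat_lit 76) (nat_lit 6903178358) (nat_lit 122) (nat_lit 5) (nat_lit 127) (nat_lit 5) (nat_lit 123) (nat_lit 5) (nat_lit 513) (nat_lit 494) (nat_lit 193))))))) (XT.nd (nat_lit 1170) (nat_lit 1140) (nat_lit 0) (XT.nd (nat_lit 546) (nat_lit 1216) (nat_lit 0) (XT.nd (nat_lit 234) (nat_lit 532) (nat_lit 0) (XT.nd (nat_lit 78) (nat_lit 380) (nat_lit 0) (XT.lf (nat_lit 0) (nat_lit 260400810366) (nat_lit 304) (nat_lit 386060500718) (nat_lit 380) (nat_lit 28734207899) (nat_lit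 118) (nat_lit 5) (nat_lit 122) (nat_lit 5) (nat_lit 123) (nat_lit 5) (nat_lit 514) (nat_lit 494) (nat_lit 192)) (XT.nd (nat_lit 78) (nat_lit 304) (nat_lit 0) (XT.lf (nat_lit 0) (nat_lit 72940186055) (nat_lit 380) (nat_lit 33039895659) (nat_lit 76) (nat_lit 588669315648) (nat_lit 117) (nat_lit 5) (nat_lit 122) (nat_lit 5) (nat_lit 118) (nat_lit 5) (nat_lit 515) (nat_lit 494) (nat_lit 191)) (XT.lf (nat_lit 0) (nat_lit 187699018088) (nat_lit 380) (nat_lit 338320634376) (nat_lit 76) (nat_lit 188584445758) (nat_lit 113) (nat_lit 5) (nat_lit 118) (nat_lit 5) (nat_lit 114) (nat_lit 5) (nat_lit 516) (nat_lit 494) (nat_lit 190)))) (XT.nd (nat_lit 156) (nat_lit 228) (nat_lit 0) (XT.nd (nat_lit 78) (nat_lit 0) (nat_lit 0) (XT.lf (nat_lit 0) (nat_lit 72257635109) (nat_lit 304) (nat_lit 239372387487) (nat_lit 380) (nat_lit 423754799988) (nat_lit 109) (nat_lit 5) (nat_lit 113) (nat_lit 5) (nat_lit 114) (nat_lit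 5) (nat_lit 517) (nat_lit 494) (nat_lit 189)) (XT.lf (nat_lit 0) (nat_lit 448542979962) (nat_lit 380) (nat_lit 242863359934) (nat_lit 76) (nat_lit 65458973135) (nat_lit 109) (nat_lit 5) (nat_lit 114) (nat_lit 5) (nat_lit 110) (nat_lit 5) (nat_lit 518) (nat_lit 494) (nat_lit 188))) (XT.nd (nat_lit 78) (nat_lit 0) (nat_lit 0) (XT.lf (nat_lit 0) (nat_lit 200920209078) (nat_lit 228) (nat_lit 398442430730) (nat_lit 304) (nat_lit 179704135465) (nat_lit 106) (nat_lit 5) (nat_lit 109) (nat_lit 5) (nat_lit 110) (nat_lit 5) (nat_lit 519) (nat_lit 494) (nat_lit 187)) (XT.lf (nat_lit 0) (nat_lit 675324610356) (nat_lit 228) (nat_lit 86511670660) (nat_lit 304) (nat_lit 40336379694) (nat_lit 106) (nat_lit 5) (nat_lit 109) (nat_lit 5) (nat_lit 110) (nat_lit 5) (nat_lit 520) (nat_lit 494) (nat_lit 186))))) (XT.nd (nat_lit 312) (nat_lit 456) (nat_lit 0) (XT.nd (nat_lit 156) (nat_lit 228) (nat_lit 0) (XT.nd (nat_lit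 78) (nat_lit 228) (nat_lit 0) (XT.lf (nat_lit 0) (nat_lit 112058805640) (nat_lit 304) (nat_lit 473174353454) (nat_lit 76) (nat_lit 240645348846) (nat_lit 102) (nat_lit 5) (nat_lit 106) (nat_lit 5) (nat_lit 103) (nat_lit 5) (nat_lit 521) (nat_lit 494) (nat_lit 185)) (XT.lf (nat_lit 0) (nat_lit 8120821886) (nat_lit 228) (nat_lit 266325814826) (nat_lit 304) (nat_lit 576103525548) (nat_lit 99) (nat_lit 5) (nat_lit 102) (nat_lit 5) (nat_lit 103) (nat_lit 5) (nat_lit 522) (nat_lit 494) (nat_lit 184))) (XT.nd (nat_lit 78) (nat_lit 228) (nat_lit 0) (XT.lf (nat_lit 0) (nat_lit 454168551260) (nat_lit 304) (nat_lit 347347704810) (nat_lit 76) (nat_lit 74478408631) (nat_lit 99) (nat_lit 5) (nat_lit 103) (nat_lit 5) (nat_lit 100) (nat_lit 5) (nat_lit 523) (nat_lit 494) (nat_lit 183)) (XT.lf (nat_lit 0) (nat_lit 173680875167) (nat_lit 228) (nat_lit 476273319556) (nat_lit 304) (nat_lit 252403315882) (nat_lit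 96) (nat_lit 5) (nat_lit 99) (nat_lit 5) (nat_lit 100) (nat_lit 5) (nat_lit 524) (nat_lit 494) (nat_lit 182)))) (XT.nd (nat_lit 156) (nat_lit 228) (nat_lit 0) (XT.nd (nat_lit 78) (nat_lit 228) (nat_lit 0) (XT.lf (nat_lit 0) (nat_lit 732819999269) (nat_lit 228) (nat_lit 128591613792) (nat_lit 304) (nat_lit 68332761110) (nat_lit 96) (nat_lit 5) (nat_lit 99) (nat_lit 5) (nat_lit 100) (nat_lit 5) (nat_lit 525) (nat_lit 494) (nat_lit 181)) (XT.lf (nat_lit 0) (nat_lit 130559278968) (nat_lit 228) (nat_lit 590581873667) (nat_lit 76) (nat_lit 236781051065) (nat_lit 93) (nat_lit 5) (nat_lit 96) (nat_lit 5) (nat_lit 94) (nat_lit 5) (nat_lit 526) (nat_lit 494) (nat_lit 180))) (XT.nd (nat_lit 78) (nat_lit 228) (nat_lit 0) (XT.lf (nat_lit 0) (nat_lit 342597224976) (nat_lit 228) (nat_lit 23970087780) (nat_lit 76) (nat_lit 620610714852) (nat_lit 93) (nat_lit 5) (nat_lit 96) (nat_lit 5) (nat_lit 94) (nat_lit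 5) (nat_lit 527) (nat_lit 494) (nat_lit 179)) (XT.lf (nat_lit 0) (nat_lit 574686804370) (nat_lit 304) (nat_lit 427825498022) (nat_lit 76) (nat_lit 14911853515) (nat_lit 90) (nat_lit 5) (nat_lit 94) (nat_lit 5) (nat_lit 91) (nat_lit 5) (nat_lit 528) (nat_lit 494) (nat_lit 178)))))) (XT.nd (nat_lit 624) (nat_lit 152) (nat_lit 0) (XT.nd (nat_lit 312) (nat_lit 532) (nat_lit 0) (XT.nd (nat_lit 156) (nat_lit 228) (nat_lit 0) (XT.nd (nat_lit 78) (nat_lit 76) (nat_lit 0) (XT.lf (nat_lit 0) (nat_lit 185434840505) (nat_lit 152) (nat_lit 642263072050) (nat_lit 228) (nat_lit 221018825576) (nat_lit 88) (nat_lit 5) (nat_lit 90) (nat_lit 5) (nat_lit 91) (nat_lit 5) (nat_lit 529) (nat_lit 494) (nat_lit 177)) (XT.lf (nat_lit 0) (nat_lit 18772614678) (nat_lit 228) (nat_lit 237303143170) (nat_lit 76) (nat_lit 825120781203) (nat_lit 87) (nat_lit 5) (nat_lit 90) (nat_lit 5) (nat_lit 88) (nat_lit 5) (nat_lit 530)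 (nat_lit 494) (nat_lit 176))) (XT.nd (nat_lit 78) (nat_lit 0) (nat_lit 0) (XT.lf (nat_lit 0) (nat_lit 272343645488) (nat_lit 304) (nat_lit 687168033377) (nat_lit 76) (nat_lit 155146603161) (nat_lit 84) (nat_lit 5) (nat_lit 88) (nat_lit 5) (nat_lit 85) (nat_lit 5) (nat_lit 531) (nat_lit 494) (nat_lit 175)) (XT.lf (nat_lit 0) (nat_lit 546875910050) (nat_lit 304) (nat_lit 20094088329) (nat_lit 76) (nat_lit 582408979662) (nat_lit 84) (nat_lit 5) (nat_lit 88) (nat_lit 5) (nat_lit 85) (nat_lit 5) (nat_lit 532) (nat_lit 494) (nat_lit 174)))) (XT.nd (nat_lit 156) (nat_lit 228) (nat_lit 0) (XT.nd (nat_lit 78) (nat_lit 152) (nat_lit 0) (XT.lf (nat_lit 0) (nat_lit 702828442153) (nat_lit 152) (nat_lit 143279460422) (nat_lit 228) (nat_lit 339179150544) (nat_lit 82) (nat_lit 5) (nat_lit 84) (nat_lit 5) (nat_lit 85) (nat_lit 5) (nat_lit 533) (nat_lit 494) (nat_lit 173)) (XT.lf (nat_lit 0) (nat_lit 242673942779)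 (nat_lit 152) (nat_lit 926470999911) (nat_lit 228) (nat_lit 53403416864) (nat_lit 80) (nat_lit 5) (nat_lit 82) (nat_lit 5) (nat_lit 83) (nat_lit 5) (nat_lit 534) (nat_lit 494) (nat_lit 172))) (XT.nd (nat_lit 78) (nat_lit 152) (nat_lit 0) (XT.lf (nat_lit 0) (nat_lit 249419860018) (nat_lit 228) (nat_lit 246785071513) (nat_lit 76) (nat_lit 764742573612) (nat_lit 79) (nat_lit 5) (nat_lit 82) (nat_lit 5) (nat_lit 80) (nat_lit 5) (nat_lit 535) (nat_lit 494) (nat_lit 171)) (XT.lf (nat_lit 0) (nat_lit 539345694867) (nat_lit 152) (nat_lit 34664592231) (nat_lit 228) (nat_lit 726791513055) (nat_lit 77) (nat_lit 5) (nat_lit 79) (nat_lit 5) (nat_lit 80) (nat_lit 5) (nat_lit 536) (nat_lit 494) (nat_lit 170))))) (XT.nd (nat_lit 59436) (nat_lit 0) (nat_lit 5548) (XT.nd (nat_lit 59280) (nat_lit 0) (nat_lit 5472) (XT.nd (nat_lit 59202) (nat_lit 0) (nat_lit 5472) (XT.lf (nat_lit 0) (nat_lit 24604943481) (nat_lit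 152) (nat_lit 901882401176) (nat_lit 228) (nat_lit 415578609800) (nat_lit 75) (nat_lit 5) (nat_lit 77) (nat_lit 5) (nat_lit 78) (nat_lit 5) (nat_lit 537) (nat_lit 494) (nat_lit 169)) (XT.lf (nat_lit 0) (nat_lit 86990106467) (nat_lit 836) (nat_lit 61088430566) (nat_lit 836) (nat_lit 61088430566) (nat_lit 147) (nat_lit 3) (nat_lit 158) (nat_lit 3) (nat_lit 158) (nat_lit 5) (nat_lit 495) (nat_lit 495) (nat_lit 210))) (XT.nd (nat_lit 78) (nat_lit 0) (nat_lit 76) (XT.lf (nat_lit 76) (nat_lit 88115987173) (nat_lit 0) (nat_lit 91589835905) (nat_lit 836) (nat_lit 249017655203) (nat_lit 148) (nat_lit 5) (nat_lit 147) (nat_lit 3) (nat_lit 158) (nat_lit 5) (nat_lit 496) (nat_lit 495) (nat_lit 209)) (XT.lf (nat_lit 0) (nat_lit 189744321783) (nat_lit 760) (nat_lit 128321381121) (nat_lit 836) (nat_lit 121365465215) (nat_lit 148) (nat_lit 5) (nat_lit 158) (nat_lit 5) (nat_lit 159) (nat_lit 5) (nat_lit 497)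 (nat_lit 495) (nat_lit 208)))) (XT.nd (nat_lit 156) (nat_lit 0) (nat_lit 76) (XT.nd (nat_lit 78) (nat_lit 0) (nat_lit 76) (XT.lf (nat_lit 76) (nat_lit 96155112296) (nat_lit 0) (nat_lit 107132334202) (nat_lit 836) (nat_lit 247236660898) (nat_lit 149) (nat_lit 5) (nat_lit 148) (nat_lit 5) (nat_lit 159) (nat_lit 5) (nat_lit 498) (nat_lit 495) (nat_lit 207)) (XT.lf (nat_lit 0) (nat_lit 221501804783) (nat_lit 760) (nat_lit 127573503944) (nat_lit 836) (nat_lit 112896681049) (nat_lit 149) (nat_lit 5) (nat_lit 159) (nat_lit 5) (nat_lit 160) (nat_lit 5) (nat_lit 499) (nat_lit 495) (nat_lit 206))) (XT.nd (nat_lit 78) (nat_lit 0) (nat_lit 76) (XT.lf (nat_lit 76) (nat_lit 112403080804) (nat_lit 0) (nat_lit 131734974644) (nat_lit 836) (nat_lit 229678652106) (nat_lit 150) (nat_lit 5) (nat_lit 149) (nat_lit 5) (nat_lit 160) (nat_lit 5) (nat_lit 500) (nat_lit 495) (nat_lit 205)) (XT.lf (nat_lit 0) (nat_lit 271608240613)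 (nat_lit 760) (nat_lit 118879713602) (nat_lit 836) (nat_lit 95580600912) (nat_lit 150) (nat_lit 5) (nat_lit 160) (nat_lit 5) (nat_lit 161) (nat_lit 5) (nat_lit 501) (nat_lit 495) (nat_lit 204))))))))
noncomputable def xc245 : XT := (XT.nd (nat_lit 2418) (nat_lit 532) (nat_lit 0) (XT.nd (nat_lit 1170) (nat_lit 2508) (nat_lit 0) (XT.nd (nat_lit 546) (nat_lit 1444) (nat_lit 0) (XT.nd (nat_lit 234) (nat_lit 1064) (nat_lit 0) (XT.nd (nat_lit 78) (nat_lit 0) (nat_lit 76) (XT.lf (nat_lit 76) (nat_lit 138039414892) (nat_lit 0) (nat_lit 166727273392) (nat_lit 836) (nat_lit 193950569133) (nat_lit 151) (nat_lit 5) (nat_lit 150) (nat_lit 5) (nat_lit 161) (nat_lit 5) (nat_lit 502) (nat_lit 495) (nat_lit 203)) (XT.nd (nat_lit 78) (nat_lit 0) (nat_lit 0) (XT.lf (nat_lit 0) (nat_lit 342694458502) (nat_lit 760) (nat_lit 101064142746) (nat_lit 836) (nat_lit 68084223569) (nat_lit 151) (nat_lit 5) (nat_lit 161)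 (nat_lit 5) (nat_lit 162) (nat_lit 5) (nat_lit 503) (nat_lit 495) (nat_lit 202)) (XT.lf (nat_lit 76) (nat_lit 174378185007) (nat_lit 0) (nat_lit 213596181345) (nat_lit 836) (nat_lit 137377516781) (nat_lit 152) (nat_lit 5) (nat_lit 151) (nat_lit 5) (nat_lit 162) (nat_lit 5) (nat_lit 504) (nat_lit 495) (nat_lit 201)))) (XT.nd (nat_lit 156) (nat_lit 456) (nat_lit 0) (XT.nd (nat_lit 78) (nat_lit 760) (nat_lit 0) (XT.lf (nat_lit 0) (nat_lit 437696201322) (nat_lit 760) (nat_lit 72815860439) (nat_lit 76) (nat_lit 28915436020) (nat_lit 152) (nat_lit 5) (nat_lit 162) (nat_lit 5) (nat_lit 153) (nat_lit 5) (nat_lit 505) (nat_lit 495) (nat_lit 200)) (XT.lf (nat_lit 0) (nat_lit 222881890919) (nat_lit 760) (nat_lit 274003609197) (nat_lit 836) (nat_lit 56972324444) (nat_lit 142) (nat_lit 5) (nat_lit 152) (nat_lit 5) (nat_lit 153) (nat_lit 5) (nat_lit 506) (nat_lit 495) (nat_lit 199))) (XT.nd (nat_lit 78) (nat_lit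 456) (nat_lit 0) (XT.lf (nat_lit 0) (nat_lit 535892518418) (nat_lit 760) (nat_lit 24374902181) (nat_lit 836) (nat_lit 8680589245) (nat_lit 142) (nat_lit 5) (nat_lit 152) (nat_lit 5) (nat_lit 153) (nat_lit 5) (nat_lit 507) (nat_lit 495) (nat_lit 198)) (XT.lf (nat_lit 0) (nat_lit 48978590816) (nat_lit 456) (nat_lit 299997795836) (nat_lit 76) (nat_lit 235368613567) (nat_lit 136) (nat_lit 5) (nat_lit 142) (nat_lit 5) (nat_lit 137) (nat_lit 5) (nat_lit 508) (nat_lit 495) (nat_lit 197))))) (XT.nd (nat_lit 312) (nat_lit 684) (nat_lit 0) (XT.nd (nat_lit 156) (nat_lit 380) (nat_lit 0) (XT.nd (nat_lit 78) (nat_lit 0) (nat_lit 0) (XT.lf (nat_lit 0) (nat_lit 18319036457) (nat_lit 380) (nat_lit 92164542628) (nat_lit 456) (nat_lit 489958417097) (nat_lit 131) (nat_lit 5) (nat_lit 136) (nat_lit 5) (nat_lit 137) (nat_lit 5) (nat_lit 509) (nat_lit 495) (nat_lit 196)) (XT.lf (nat_lit 0) (nat_lit 182998783038) (nat_lit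 456) (nat_lit 256977241681) (nat_lit 76) (nat_lit 176971068913) (nat_lit 131) (nat_lit 5) (nat_lit 137) (nat_lit 5) (nat_lit 132) (nat_lit 5) (nat_lit 510) (nat_lit 495) (nat_lit 195))) (XT.nd (nat_lit 78) (nat_lit 0) (nat_lit 0) (XT.lf (nat_lit 0) (nat_lit 85656393880) (nat_lit 380) (nat_lit 176331570812) (nat_lit 456) (nat_lit 372147070388) (nat_lit 126) (nat_lit 5) (nat_lit 131) (nat_lit 5) (nat_lit 132) (nat_lit 5) (nat_lit 511) (nat_lit 495) (nat_lit 194)) (XT.lf (nat_lit 0) (nat_lit 350918981816) (nat_lit 456) (nat_lit 199261760358) (nat_lit 76) (nat_lit 101702012611) (nat_lit 126) (nat_lit 5) (nat_lit 132) (nat_lit 5) (nat_lit 127) (nat_lit 5) (nat_lit 512) (nat_lit 495) (nat_lit 193)))) (XT.nd (nat_lit 156) (nat_lit 380) (nat_lit 0) (XT.nd (nat_lit 78) (nat_lit 0) (nat_lit 0) (XT.lf (nat_lit 0) (nat_lit 169965217966) (nat_lit 304) (nat_lit 279875634692) (nat_lit 380) (nat_lit 220399792673)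 (nat_lit 122) (nat_lit 5) (nat_lit 126) (nat_lit 5) (nat_lit 127) (nat_lit 5) (nat_lit 513) (nat_lit 495) (nat_lit 192)) (XT.lf (nat_lit 0) (nat_lit 557200309187) (nat_lit 380) (nat_lit 124893160429) (nat_lit 76) (nat_lit 7248386184) (nat_lit 122) (nat_lit 5) (nat_lit 127) (nat_lit 5) (nat_lit 123) (nat_lit 5) (nat_lit 514) (nat_lit 495) (nat_lit 191))) (XT.nd (nat_lit 78) (nat_lit 76) (nat_lit 0) (XT.lf (nat_lit 0) (nat_lit 273421269693) (nat_lit 304) (nat_lit 405363455181) (nat_lit 380) (nat_lit 30170552603) (nat_lit 118) (nat_lit 5) (nat_lit 122) (nat_lit 5) (nat_lit 123) (nat_lit 5) (nat_lit 515) (nat_lit 495) (nat_lit 190)) (XT.lf (nat_lit 0) (nat_lit 76587532488) (nat_lit 380) (nat_lit 34691480390) (nat_lit 76) (nat_lit 618102837455) (nat_lit 117) (nat_lit 5) (nat_lit 122) (nat_lit 5) (nat_lit 118) (nat_lit 5) (nat_lit 516) (nat_lit 495) (nat_lit 189)))))) (XT.nd (nat_lit 624) (nat_lit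 1140) (nat_lit 0) (XT.nd (nat_lit 312) (nat_lit 532) (nat_lit 0) (XT.nd (nat_lit 156) (nat_lit 228) (nat_lit 0) (XT.nd (nat_lit 78) (nat_lit 304) (nat_lit 0) (XT.lf (nat_lit 0) (nat_lit 197084297555) (nat_lit 380) (nat_lit 355236247436) (nat_lit 76) (nat_lit 198013741675) (nat_lit 113) (nat_lit 5) (nat_lit 118) (nat_lit 5) (nat_lit 114) (nat_lit 5) (nat_lit 517) (nat_lit 495) (nat_lit 188)) (XT.lf (nat_lit 0) (nat_lit 75870928770) (nat_lit 304) (nat_lit 251340914303) (nat_lit 380) (nat_lit 444942204635) (nat_lit 109) (nat_lit 5) (nat_lit 113) (nat_lit 5) (nat_lit 114) (nat_lit 5) (nat_lit 518) (nat_lit 495) (nat_lit 187))) (XT.nd (nat_lit 78) (nat_lit 228) (nat_lit 0) (XT.lf (nat_lit 0) (nat_lit 470970434478) (nat_lit 380) (nat_lit 255006121774) (nat_lit 76) (nat_lit 68732007121) (nat_lit 109) (nat_lit 5) (nat_lit 114) (nat_lit 5) (nat_lit 110) (nat_lit 5) (nat_lit 519) (nat_lit 495) (nat_lit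 186)) (XT.lf (nat_lit 0) (nat_lit 210966619138) (nat_lit 228) (nat_lit 418364449869) (nat_lit 304) (nat_lit 188689030137) (nat_lit 106) (nat_lit 5) (nat_lit 109) (nat_lit 5) (nat_lit 110) (nat_lit 5) (nat_lit 520) (nat_lit 495) (nat_lit 185)))) (XT.nd (nat_lit 156) (nat_lit 228) (nat_lit 0) (XT.nd (nat_lit 78) (nat_lit 304) (nat_lit 0) (XT.lf (nat_lit 0) (nat_lit 709091221450) (nat_lit 228) (nat_lit 90837156671) (nat_lit 304) (nat_lit 42352901439) (nat_lit 106) (nat_lit 5) (nat_lit 109) (nat_lit 5) (nat_lit 110) (nat_lit 5) (nat_lit 521) (nat_lit 495) (nat_lit 184)) (XT.lf (nat_lit 0) (nat_lit 117662027560) (nat_lit 304) (nat_lit 496832674890) (nat_lit 76) (nat_lit 252677716776) (nat_lit 102) (nat_lit 5) (nat_lit 106) (nat_lit 5) (nat_lit 103) (nat_lit 5) (nat_lit 522) (nat_lit 495) (nat_lit 183))) (XT.nd (nat_lit 78) (nat_lit 0) (nat_lit 0) (XT.lf (nat_lit 0) (nat_lit 8527252826) (nat_lit 228)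 (nat_lit 279641990034) (nat_lit 304) (nat_lit 604908413770) (nat_lit 99) (nat_lit 5) (nat_lit 102) (nat_lit 5) (nat_lit 103) (nat_lit 5) (nat_lit 523) (nat_lit 495) (nat_lit 182)) (XT.lf (nat_lit 0) (nat_lit 476877241792) (nat_lit 304) (nat_lit 364714707398) (nat_lit 76) (nat_lit 78202435572) (nat_lit 99) (nat_lit 5) (nat_lit 103) (nat_lit 5) (nat_lit 100) (nat_lit 5) (nat_lit 524) (nat_lit 495) (nat_lit 181))))) (XT.nd (nat_lit 312) (nat_lit 684) (nat_lit 0) (XT.nd (nat_lit 156) (nat_lit 228) (nat_lit 0) (XT.nd (nat_lit 78) (nat_lit 0) (nat_lit 0) (XT.lf (nat_lit 0) (nat_lit 182365295406) (nat_lit 228) (nat_lit 500086865377) (nat_lit 304) (nat_lit 265023212512) (nat_lit 96) (nat_lit 5) (nat_lit 99) (nat_lit 5) (nat_lit 100) (nat_lit 5) (nat_lit 525) (nat_lit 495) (nat_lit 180)) (XT.lf (nat_lit 0) (nat_lit 769461357785) (nat_lit 228) (nat_lit 135021080048) (nat_lit 304) (nat_lit 71749142817)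 (nat_lit 96) (nat_lit 5) (nat_lit 99) (nat_lit 5) (nat_lit 100) (nat_lit 5) (nat_lit 526) (nat_lit 495) (nat_lit 179))) (XT.nd (nat_lit 78) (nat_lit 0) (nat_lit 0) (XT.lf (nat_lit 0) (nat_lit 137087486734) (nat_lit 228) (nat_lit 620110596223) (nat_lit 76) (nat_lit 248620218716) (nat_lit 93) (nat_lit 5) (nat_lit 96) (nat_lit 5) (nat_lit 94) (nat_lit 5) (nat_lit 527) (nat_lit 495) (nat_lit 178)) (XT.lf (nat_lit 0) (nat_lit 359727318431) (nat_lit 228) (nat_lit 25168238715) (nat_lit 76) (nat_lit 651641360211) (nat_lit 93) (nat_lit 5) (nat_lit 96) (nat_lit 5) (nat_lit 94) (nat_lit 5) (nat_lit 528) (nat_lit 495) (nat_lit 177)))) (XT.nd (nat_lit 156) (nat_lit 304) (nat_lit 0) (XT.nd (nat_lit 78) (nat_lit 152) (nat_lit 0) (XT.lf (nat_lit 0) (nat_lit 603421373059) (nat_lit 304) (nat_lit 449216415713) (nat_lit 76) (nat_lit 15657563488) (nat_lit 90) (nat_lit 5) (nat_lit 94) (nat_lit 5) (nat_lit 91) (nat_lit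 5) (nat_lit 529) (nat_lit 495) (nat_lit 176)) (XT.lf (nat_lit 0) (nat_lit 194706933978) (nat_lit 152) (nat_lit 674376097282) (nat_lit 228) (nat_lit 232069532604) (nat_lit 88) (nat_lit 5) (nat_lit 90) (nat_lit 5) (nat_lit 91) (nat_lit 5) (nat_lit 530) (nat_lit 495) (nat_lit 175))) (XT.nd (nat_lit 78) (nat_lit 228) (nat_lit 0) (XT.lf (nat_lit 0) (nat_lit 19711461367) (nat_lit 228) (nat_lit 249167958459) (nat_lit 76) (nat_lit 866376935363) (nat_lit 87) (nat_lit 5) (nat_lit 90) (nat_lit 5) (nat_lit 88) (nat_lit 5) (nat_lit 531) (nat_lit 495) (nat_lit 174)) (XT.lf (nat_lit 0) (nat_lit 285961040644) (nat_lit 304) (nat_lit 721526090087) (nat_lit 76) (nat_lit 162904054737) (nat_lit 84) (nat_lit 5) (nat_lit 88) (nat_lit 5) (nat_lit 85) (nat_lit 5) (nat_lit 532) (nat_lit 495) (nat_lit 173))))))) (XT.nd (nat_lit 60372) (nat_lit 0) (nat_lit 2204) (XT.nd (nat_lit 59748) (nat_lit 0) (nat_lit 5396) (XT.nd (nat_lit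 234) (nat_lit 228) (nat_lit 0) (XT.nd (nat_lit 78) (nat_lit 304) (nat_lit 0) (XT.lf (nat_lit 0) (nat_lit 574219908296) (nat_lit 304) (nat_lit 21098464213) (nat_lit 76) (nat_lit 611529544281) (nat_lit 84) (nat_lit 5) (nat_lit 88) (nat_lit 5) (nat_lit 85) (nat_lit 5) (nat_lit 533) (nat_lit 495) (nat_lit 172)) (XT.nd (nat_lit 78) (nat_lit 152) (nat_lit 0) (XT.lf (nat_lit 0) (nat_lit 737970187494) (nat_lit 152) (nat_lit 150443308346) (nat_lit 228) (nat_lit 356137900014) (nat_lit 82) (nat_lit 5) (nat_lit 84) (nat_lit 5) (nat_lit 85) (nat_lit 5) (nat_lit 534) (nat_lit 495) (nat_lit 171)) (XT.lf (nat_lit 0) (nat_lit 254807965778) (nat_lit 152) (nat_lit 972794419696) (nat_lit 228) (nat_lit 56073382262) (nat_lit 80) (nat_lit 5) (nat_lit 82) (nat_lit 5) (nat_lit 83) (nat_lit 5) (nat_lit 535) (nat_lit 495) (nat_lit 170)))) (XT.nd (nat_lit 59358) (nat_lit 0) (nat_lit 5320) (XT.nd (nat_lit 78) (nat_lit 152)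 (nat_lit 0) (XT.lf (nat_lit 0) (nat_lit 261891042419) (nat_lit 228) (nat_lit 259124008471) (nat_lit 76) (nat_lit 802979820028) (nat_lit 79) (nat_lit 5) (nat_lit 82) (nat_lit 5) (nat_lit 80) (nat_lit 5) (nat_lit 536) (nat_lit 495) (nat_lit 169)) (XT.lf (nat_lit 0) (nat_lit 566313291121) (nat_lit 152) (nat_lit 36397695576) (nat_lit 228) (nat_lit 763130894190) (nat_lit 77) (nat_lit 5) (nat_lit 79) (nat_lit 5) (nat_lit 80) (nat_lit 5) (nat_lit 537) (nat_lit 495) (nat_lit 168))) (XT.nd (nat_lit 78) (nat_lit 0) (nat_lit 0) (XT.lf (nat_lit 0) (nat_lit 91339973372) (nat_lit 836) (nat_lit 64142662236) (nat_lit 836) (nat_lit 64142662236) (nat_lit 147) (nat_lit 3) (nat_lit 158) (nat_lit 3) (nat_lit 158) (nat_lit 5) (nat_lit 496) (nat_lit 496) (nat_lit 208)) (XT.lf (nat_lit 76) (nat_lit 92522160124) (nat_lit 0) (nat_lit 96169648667) (nat_lit 836) (nat_lit 261467808569) (nat_lit 148) (nat_lit 5) (nat_lit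 147) (nat_lit 3) (nat_lit 158) (nat_lit 5) (nat_lit 497) (nat_lit 496) (nat_lit 207))))) (XT.nd (nat_lit 312) (nat_lit 0) (nat_lit 152) (XT.nd (nat_lit 156) (nat_lit 0) (nat_lit 76) (XT.nd (nat_lit 78) (nat_lit 0) (nat_lit 0) (XT.lf (nat_lit 0) (nat_lit 199232194584) (nat_lit 760) (nat_lit 134737056427) (nat_lit 836) (nat_lit 127433442576) (nat_lit 148) (nat_lit 5) (nat_lit 158) (nat_lit 5) (nat_lit 159) (nat_lit 5) (nat_lit 498) (nat_lit 496) (nat_lit 206)) (XT.lf (nat_lit 76) (nat_lit 100963255310) (nat_lit 0) (nat_lit 112489195002) (nat_lit 836) (nat_lit 259597830784) (nat_lit 149) (nat_lit 5) (nat_lit 148) (nat_lit 5) (nat_lit 159) (nat_lit 5) (nat_lit 499) (nat_lit 496) (nat_lit 205))) (XT.nd (nat_lit 78) (nat_lit 0) (nat_lit 0) (XT.lf (nat_lit 0) (nat_lit 232577492811) (nat_lit 760) (nat_lit 133951776397) (nat_lit 836) (nat_lit 118541290076) (nat_lit 149) (nat_lit 5) (nat_lit 159) (nat_lit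 5) (nat_lit 160) (nat_lit 5) (nat_lit 500) (nat_lit 496) (nat_lit 204)) (XT.lf (nat_lit 76) (nat_lit 118023631092) (nat_lit 0) (nat_lit 138321902637) (nat_lit 836) (nat_lit 241161980340) (nat_lit 150) (nat_lit 5) (nat_lit 149) (nat_lit 5) (nat_lit 160) (nat_lit 5) (nat_lit 501) (nat_lit 496) (nat_lit 203)))) (XT.nd (nat_lit 156) (nat_lit 0) (nat_lit 76) (XT.nd (nat_lit 78) (nat_lit 0) (nat_lit 0) (XT.lf (nat_lit 0) (nat_lit 285189198082) (nat_lit 760) (nat_lit 124823291748) (nat_lit 836) (nat_lit 100359465697) (nat_lit 150) (nat_lit 5) (nat_lit 160) (nat_lit 5) (nat_lit 161) (nat_lit 5) (nat_lit 502) (nat_lit 496) (nat_lit 202)) (XT.lf (nat_lit 76) (nat_lit 144941786597) (nat_lit 0) (nat_lit 175063761826) (nat_lit 836) (nat_lit 203647545499) (nat_lit 151) (nat_lit 5) (nat_lit 150) (nat_lit 5) (nat_lit 161) (nat_lit 5) (nat_lit 503) (nat_lit 496) (nat_lit 201))) (XT.nd (nat_lit 78) (nat_lit 0)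 (nat_lit 0) (XT.lf (nat_lit 0) (nat_lit 359829680262) (nat_lit 760) (nat_lit 106116941051) (nat_lit 836) (nat_lit 71488319727) (nat_lit 151) (nat_lit 5) (nat_lit 161) (nat_lit 5) (nat_lit 162) (nat_lit 5) (nat_lit 504) (nat_lit 496) (nat_lit 200)) (XT.lf (nat_lit 76) (nat_lit 183097496495) (nat_lit 0) (nat_lit 224276069536) (nat_lit 836) (nat_lit 144245887119) (nat_lit 152) (nat_lit 5) (nat_lit 151) (nat_lit 5) (nat_lit 162) (nat_lit 5) (nat_lit 505) (nat_lit 496) (nat_lit 199)))))) (XT.nd (nat_lit 624) (nat_lit 1520) (nat_lit 0) (XT.nd (nat_lit 312) (nat_lit 760) (nat_lit 0) (XT.nd (nat_lit 156) (nat_lit 456) (nat_lit 0) (XT.nd (nat_lit 78) (nat_lit 760) (nat_lit 0) (XT.lf (nat_lit 0) (nat_lit 459581468651) (nat_lit 760) (nat_lit 76456246210) (nat_lit 76) (nat_lit 30361134877) (nat_lit 152) (nat_lit 5) (nat_lit 162) (nat_lit 5) (nat_lit 153) (nat_lit 5) (nat_lit 506) (nat_lit 496) (nat_lit 198))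 (XT.lf (nat_lit 0) (nat_lit 234026386147) (nat_lit 760) (nat_lit 287703830719) (nat_lit 836) (nat_lit 59820476770) (nat_lit 142) (nat_lit 5) (nat_lit 152) (nat_lit 5) (nat_lit 153) (nat_lit 5) (nat_lit 507) (nat_lit 496) (nat_lit 197))) (XT.nd (nat_lit 78) (nat_lit 456) (nat_lit 0) (XT.lf (nat_lit 0) (nat_lit 562687525941) (nat_lit 760) (nat_lit 25593686396) (nat_lit 836) (nat_lit 9114176900) (nat_lit 142) (nat_lit 5) (nat_lit 152) (nat_lit 5) (nat_lit 153) (nat_lit 5) (nat_lit 508) (nat_lit 496) (nat_lit 196)) (XT.lf (nat_lit 0) (nat_lit 51427933364) (nat_lit 456) (nat_lit 314997275110) (nat_lit 76) (nat_lit 247137021050) (nat_lit 136) (nat_lit 5) (nat_lit 142) (nat_lit 5) (nat_lit 137) (nat_lit 5) (nat_lit 509) (nat_lit 496) (nat_lit 195)))) (XT.nd (nat_lit 156) (nat_lit 380) (nat_lit 0) (XT.nd (nat_lit 78) (nat_lit 0) (nat_lit 0) (XT.lf (nat_lit 0) (nat_lit 19235392177) (nat_lit 380) (nat_lit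 96772765509) (nat_lit 456) (nat_lit 514455918270) (nat_lit 131) (nat_lit 5) (nat_lit 136) (nat_lit 5) (nat_lit 137) (nat_lit 5) (nat_lit 510) (nat_lit 496) (nat_lit 194)) (XT.lf (nat_lit 0) (nat_lit 192149102868) (nat_lit 456) (nat_lit 269825700083) (nat_lit 76) (nat_lit 185819626278) (nat_lit 131) (nat_lit 5) (nat_lit 137) (nat_lit 5) (nat_lit 132) (nat_lit 5) (nat_lit 511) (nat_lit 496) (nat_lit 193))) (XT.nd (nat_lit 78) (nat_lit 0) (nat_lit 0) (XT.lf (nat_lit 0) (nat_lit 89939610745) (nat_lit 380) (nat_lit 185148120933) (nat_lit 456) (nat_lit 390754036670) (nat_lit 126) (nat_lit 5) (nat_lit 131) (nat_lit 5) (nat_lit 132) (nat_lit 5) (nat_lit 512) (nat_lit 496) (nat_lit 192)) (XT.lf (nat_lit 0) (nat_lit 368465282521) (nat_lit 456) (nat_lit 209224452934) (nat_lit 76) (nat_lit 106787139442) (nat_lit 126) (nat_lit 5) (nat_lit 132) (nat_lit 5) (nat_lit 127) (nat_lit 5) (nat_lit 513) (nat_lit 496)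 (nat_lit 191))))) (XT.nd (nat_lit 312) (nat_lit 836) (nat_lit 0) (XT.nd (nat_lit 156) (nat_lit 380) (nat_lit 0) (XT.nd (nat_lit 78) (nat_lit 0) (nat_lit 0) (XT.lf (nat_lit 0) (nat_lit 178463867928) (nat_lit 304) (nat_lit 293869368308) (nat_lit 380) (nat_lit 231419424270) (nat_lit 122) (nat_lit 5) (nat_lit 126) (nat_lit 5) (nat_lit 127) (nat_lit 5) (nat_lit 514) (nat_lit 496) (nat_lit 190)) (XT.lf (nat_lit 0) (nat_lit 585060650072) (nat_lit 380) (nat_lit 131137432351) (nat_lit 76) (nat_lit 7610849853) (nat_lit 122) (nat_lit 5) (nat_lit 127) (nat_lit 5) (nat_lit 123) (nat_lit 5) (nat_lit 515) (nat_lit 496) (nat_lit 189))) (XT.nd (nat_lit 78) (nat_lit 76) (nat_lit 0) (XT.lf (nat_lit 0) (nat_lit 287092713049) (nat_lit 304) (nat_lit 425631563928) (nat_lit 380) (nat_lit 31678748540) (nat_lit 118) (nat_lit 5) (nat_lit 122) (nat_lit 5) (nat_lit 123) (nat_lit 5) (nat_lit 516) (nat_lit 496) (nat_lit 188))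 (XT.lf (nat_lit 0) (nat_lit 80417214900) (nat_lit 380) (nat_lit 36425682479) (nat_lit 76) (nat_lit 649008030145) (nat_lit 117) (nat_lit 5) (nat_lit 122) (nat_lit 5) (nat_lit 118) (nat_lit 5) (nat_lit 517) (nat_lit 496) (nat_lit 187)))) (XT.nd (nat_lit 156) (nat_lit 228) (nat_lit 0) (XT.nd (nat_lit 78) (nat_lit 304) (nat_lit 0) (XT.lf (nat_lit 0) (nat_lit 206938810450) (nat_lit 380) (nat_lit 372997680073) (nat_lit 76) (nat_lit 207914495543) (nat_lit 113) (nat_lit 5) (nat_lit 118) (nat_lit 5) (nat_lit 114) (nat_lit 5) (nat_lit 518) (nat_lit 496) (nat_lit 186)) (XT.lf (nat_lit 0) (nat_lit 79664848819) (nat_lit 304) (nat_lit 263907876066) (nat_lit 380) (nat_lit 467189010693) (nat_lit 109) (nat_lit 5) (nat_lit 113) (nat_lit 5) (nat_lit 114) (nat_lit 5) (nat_lit 519) (nat_lit 496) (nat_lit 185))) (XT.nd (nat_lit 78) (nat_lit 228) (nat_lit 0) (XT.lf (nat_lit 0) (nat_lit 494519233315) (nat_lit 380) (nat_lit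 267756059467) (nat_lit 76) (nat_lit 72168684872) (nat_lit 109) (nat_lit 5) (nat_lit 114) (nat_lit 5) (nat_lit 110) (nat_lit 5) (nat_lit 520) (nat_lit 496) (nat_lit 184)) (XT.lf (nat_lit 0) (nat_lit 221515312549) (nat_lit 228) (nat_lit 439282579485) (nat_lit 304) (nat_lit 198123198559) (nat_lit 106) (nat_lit 5) (nat_lit 109) (nat_lit 5) (nat_lit 110) (nat_lit 5) (nat_lit 521) (nat_lit 496) (nat_lit 183))))))))
noncomputable def xc246 : XT := (XT.nd (nat_lit 61854) (nat_lit 0) (nat_lit 152) (XT.nd (nat_lit 60606) (nat_lit 0) (nat_lit 3496) (XT.nd (nat_lit 546) (nat_lit 988) (nat_lit 0) (XT.nd (nat_lit 234) (nat_lit 456) (nat_lit 0) (XT.nd (nat_lit 78) (nat_lit 532) (nat_lit 0) (XT.lf (nat_lit 0) (nat_lit 744546127717) (nat_lit 228) (nat_lit 95378926050) (nat_lit 304) (nat_lit 44470276906) (nat_lit 106) (nat_lit 5) (nat_lit 109) (nat_lit 5) (nat_lit 110) (nat_lit 5) (nat_lit 522) (nat_lit 496) (nat_lit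 182)) (XT.nd (nat_lit 78) (nat_lit 228) (nat_lit 0) (XT.lf (nat_lit 0) (nat_lit 123545384392) (nat_lit 304) (nat_lit 521673949237) (nat_lit 76) (nat_lit 265311693761) (nat_lit 102) (nat_lit 5) (nat_lit 106) (nat_lit 5) (nat_lit 103) (nat_lit 5) (nat_lit 523) (nat_lit 496) (nat_lit 181)) (XT.lf (nat_lit 0) (nat_lit 8953969069) (nat_lit 228) (nat_lit 293623984745) (nat_lit 304) (nat_lit 635153573183) (nat_lit 99) (nat_lit 5) (nat_lit 102) (nat_lit 5) (nat_lit 103) (nat_lit 5) (nat_lit 524) (nat_lit 496) (nat_lit 180)))) (XT.nd (nat_lit 156) (nat_lit 228) (nat_lit 0) (XT.nd (nat_lit 78) (nat_lit 228) (nat_lit 0) (XT.lf (nat_lit 0) (nat_lit 500721342401) (nat_lit 304) (nat_lit 382950095691) (nat_lit 76) (nat_lit 82112653957) (nat_lit 99) (nat_lit 5) (nat_lit 103) (nat_lit 5) (nat_lit 100) (nat_lit 5) (nat_lit 525) (nat_lit 496) (nat_lit 179)) (XT.lf (nat_lit 0) (nat_lit 191483901655) (nat_lit 228)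 (nat_lit 525091099661) (nat_lit 304) (nat_lit 278274128997) (nat_lit 96) (nat_lit 5) (nat_lit 99) (nat_lit 5) (nat_lit 100) (nat_lit 5) (nat_lit 526) (nat_lit 496) (nat_lit 178))) (XT.nd (nat_lit 78) (nat_lit 228) (nat_lit 0) (XT.lf (nat_lit 0) (nat_lit 807934750892) (nat_lit 228) (nat_lit 141772030255) (nat_lit 304) (nat_lit 75336367443) (nat_lit 96) (nat_lit 5) (nat_lit 99) (nat_lit 5) (nat_lit 100) (nat_lit 5) (nat_lit 527) (nat_lit 496) (nat_lit 177)) (XT.lf (nat_lit 0) (nat_lit 143942082220) (nat_lit 228) (nat_lit 651115789411) (nat_lit 76) (nat_lit 261051334049) (nat_lit 93) (nat_lit 5) (nat_lit 96) (nat_lit 5) (nat_lit 94) (nat_lit 5) (nat_lit 528) (nat_lit 496) (nat_lit 176))))) (XT.nd (nat_lit 390) (nat_lit 532) (nat_lit 0) (XT.nd (nat_lit 156) (nat_lit 228) (nat_lit 0) (XT.nd (nat_lit 78) (nat_lit 228) (nat_lit 0) (XT.lf (nat_lit 0) (nat_lit 377713894971) (nat_lit 228) (nat_lit 26426330057)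 (nat_lit 76) (nat_lit 684223527648) (nat_lit 93) (nat_lit 5) (nat_lit 96) (nat_lit 5) (nat_lit 94) (nat_lit 5) (nat_lit 529) (nat_lit 496) (nat_lit 175)) (XT.lf (nat_lit 0) (nat_lit 633592648941) (nat_lit 304) (nat_lit 471676912499) (nat_lit 76) (nat_lit 16440548053) (nat_lit 90) (nat_lit 5) (nat_lit 94) (nat_lit 5) (nat_lit 91) (nat_lit 5) (nat_lit 530) (nat_lit 496) (nat_lit 174))) (XT.nd (nat_lit 78) (nat_lit 76) (nat_lit 0) (XT.lf (nat_lit 0) (nat_lit 204442599451) (nat_lit 152) (nat_lit 708094785711) (nat_lit 228) (nat_lit 243672796762) (nat_lit 88) (nat_lit 5) (nat_lit 90) (nat_lit 5) (nat_lit 91) (nat_lit 5) (nat_lit 531) (nat_lit 496) (nat_lit 173)) (XT.lf (nat_lit 0) (nat_lit 20697230313) (nat_lit 228) (nat_lit 261626046296) (nat_lit 76) (nat_lit 909695886531) (nat_lit 87) (nat_lit 5) (nat_lit 90) (nat_lit 5) (nat_lit 88) (nat_lit 5) (nat_lit 532) (nat_lit 496) (nat_lit 172)))) (XT.nd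 (nat_lit 156) (nat_lit 152) (nat_lit 0) (XT.nd (nat_lit 78) (nat_lit 152) (nat_lit 0) (XT.lf (nat_lit 0) (nat_lit 602931087606) (nat_lit 304) (nat_lit 22153089434) (nat_lit 76) (nat_lit 642106126381) (nat_lit 84) (nat_lit 5) (nat_lit 88) (nat_lit 5) (nat_lit 85) (nat_lit 5) (nat_lit 534) (nat_lit 496) (nat_lit 170)) (XT.lf (nat_lit 0) (nat_lit 774868990051) (nat_lit 152) (nat_lit 157965360296) (nat_lit 228) (nat_lit 373944606300) (nat_lit 82) (nat_lit 5) (nat_lit 84) (nat_lit 5) (nat_lit 85) (nat_lit 5) (nat_lit 535) (nat_lit 496) (nat_lit 169))) (XT.nd (nat_lit 59436) (nat_lit 0) (nat_lit 5092) (XT.lf (nat_lit 0) (nat_lit 267548659631) (nat_lit 152) (nat_lit 1021434022575) (nat_lit 228) (nat_lit 58876865030) (nat_lit 80) (nat_lit 5) (nat_lit 82) (nat_lit 5) (nat_lit 83) (nat_lit 5) (nat_lit 536) (nat_lit 496) (nat_lit 168)) (XT.lf (nat_lit 0) (nat_lit 95907300005) (nat_lit 836) (nat_lit 67349623141)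 (nat_lit 836) (nat_lit 67349623141) (nat_lit 147) (nat_lit 3) (nat_lit 158) (nat_lit 3) (nat_lit 158) (nat_lit 5) (nat_lit 497) (nat_lit 497) (nat_lit 206)))))) (XT.nd (nat_lit 624) (nat_lit 1596) (nat_lit 0) (XT.nd (nat_lit 312) (nat_lit 0) (nat_lit 152) (XT.nd (nat_lit 156) (nat_lit 0) (nat_lit 76) (XT.nd (nat_lit 78) (nat_lit 0) (nat_lit 76) (XT.lf (nat_lit 76) (nat_lit 97148606989) (nat_lit 0) (nat_lit 100978422227) (nat_lit 836) (nat_lit 274540537417) (nat_lit 148) (nat_lit 5) (nat_lit 147) (nat_lit 3) (nat_lit 158) (nat_lit 5) (nat_lit 498) (nat_lit 497) (nat_lit 205)) (XT.lf (nat_lit 0) (nat_lit 209194399971) (nat_lit 760) (nat_lit 141473552105) (nat_lit 836) (nat_lit 133804846316) (nat_lit 148) (nat_lit 5) (nat_lit 158) (nat_lit 5) (nat_lit 159) (nat_lit 5) (nat_lit 499) (nat_lit 497) (nat_lit 204))) (XT.nd (nat_lit 78) (nat_lit 0) (nat_lit 76) (XT.lf (nat_lit 76) (nat_lit 106011769458)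 (nat_lit 0) (nat_lit 118113876148) (nat_lit 836) (nat_lit 272577120817) (nat_lit 149) (nat_lit 5) (nat_lit 148) (nat_lit 5) (nat_lit 159) (nat_lit 5) (nat_lit 500) (nat_lit 497) (nat_lit 203)) (XT.lf (nat_lit 0) (nat_lit 244206909663) (nat_lit 760) (nat_lit 140648999916) (nat_lit 836) (nat_lit 124468150475) (nat_lit 149) (nat_lit 5) (nat_lit 159) (nat_lit 5) (nat_lit 160) (nat_lit 5) (nat_lit 501) (nat_lit 497) (nat_lit 202)))) (XT.nd (nat_lit 156) (nat_lit 0) (nat_lit 76) (XT.nd (nat_lit 78) (nat_lit 0) (nat_lit 76) (XT.lf (nat_lit 76) (nat_lit 123925172056) (nat_lit 0) (nat_lit 145238160363) (nat_lit 836) (nat_lit 253219531174) (nat_lit 150) (nat_lit 5) (nat_lit 149) (nat_lit 5) (nat_lit 160) (nat_lit 5) (nat_lit 502) (nat_lit 497) (nat_lit 201)) (XT.lf (nat_lit 0) (nat_lit 299449152714) (nat_lit 760) (nat_lit 131064086691) (nat_lit 836) (nat_lit 105377289086) (nat_lit 150) (nat_lit 5) (nat_lit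 160) (nat_lit 5) (nat_lit 161) (nat_lit 5) (nat_lit 503) (nat_lit 497) (nat_lit 200))) (XT.nd (nat_lit 78) (nat_lit 0) (nat_lit 76) (XT.lf (nat_lit 76) (nat_lit 152189239610) (nat_lit 0) (nat_lit 183817063083) (nat_lit 836) (nat_lit 213829422012) (nat_lit 151) (nat_lit 5) (nat_lit 150) (nat_lit 5) (nat_lit 161) (nat_lit 5) (nat_lit 504) (nat_lit 497) (nat_lit 199)) (XT.lf (nat_lit 0) (nat_lit 377821616734) (nat_lit 760) (nat_lit 111422417281) (nat_lit 836) (nat_lit 75062631386) (nat_lit 151) (nat_lit 5) (nat_lit 161) (nat_lit 5) (nat_lit 162) (nat_lit 5) (nat_lit 505) (nat_lit 497) (nat_lit 198))))) (XT.nd (nat_lit 312) (nat_lit 1216) (nat_lit 0) (XT.nd (nat_lit 156) (nat_lit 684) (nat_lit 0) (XT.nd (nat_lit 78) (nat_lit 0) (nat_lit 76) (XT.lf (nat_lit 76) (nat_lit 192252736162) (nat_lit 0) (nat_lit 235489944780) (nat_lit 836) (nat_lit 151457722970) (nat_lit 152) (nat_lit 5) (nat_lit 151) (nat_lit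 5) (nat_lit 162) (nat_lit 5) (nat_lit 506) (nat_lit 497) (nat_lit 197)) (XT.lf (nat_lit 0) (nat_lit 482560956835) (nat_lit 760) (nat_lit 80278689132) (nat_lit 76) (nat_lit 31879125459) (nat_lit 152) (nat_lit 5) (nat_lit 162) (nat_lit 5) (nat_lit 153) (nat_lit 5) (nat_lit 507) (nat_lit 497) (nat_lit 196))) (XT.nd (nat_lit 78) (nat_lit 0) (nat_lit 0) (XT.lf (nat_lit 0) (nat_lit 245728068885) (nat_lit 760) (nat_lit 302089059499) (nat_lit 836) (nat_lit 62811079840) (nat_lit 142) (nat_lit 5) (nat_lit 152) (nat_lit 5) (nat_lit 153) (nat_lit 5) (nat_lit 508) (nat_lit 497) (nat_lit 195)) (XT.lf (nat_lit 0) (nat_lit 590822248363) (nat_lit 760) (nat_lit 26873406187) (nat_lit 836) (nat_lit 9569485014) (nat_lit 142) (nat_lit 5) (nat_lit 152) (nat_lit 5) (nat_lit 153) (nat_lit 5) (nat_lit 509) (nat_lit 497) (nat_lit 194)))) (XT.nd (nat_lit 156) (nat_lit 380) (nat_lit 0) (XT.nd (nat_lit 78) (nat_lit 380) (nat_lit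 0) (XT.lf (nat_lit 0) (nat_lit 53999704641) (nat_lit 456) (nat_lit 330746766513) (nat_lit 76) (nat_lit 259493851064) (nat_lit 136) (nat_lit 5) (nat_lit 142) (nat_lit 5) (nat_lit 137) (nat_lit 5) (nat_lit 510) (nat_lit 497) (nat_lit 193)) (XT.lf (nat_lit 0) (nat_lit 20197528132) (nat_lit 380) (nat_lit 101611399928) (nat_lit 456) (nat_lit 540178333520) (nat_lit 131) (nat_lit 5) (nat_lit 136) (nat_lit 5) (nat_lit 137) (nat_lit 5) (nat_lit 511) (nat_lit 497) (nat_lit 192))) (XT.nd (nat_lit 78) (nat_lit 380) (nat_lit 0) (XT.lf (nat_lit 0) (nat_lit 201756903298) (nat_lit 456) (nat_lit 283316618935) (nat_lit 76) (nat_lit 195110611146) (nat_lit 131) (nat_lit 5) (nat_lit 137) (nat_lit 5) (nat_lit 132) (nat_lit 5) (nat_lit 512) (nat_lit 497) (nat_lit 191)) (XT.lf (nat_lit 0) (nat_lit 94436951529) (nat_lit 380) (nat_lit 194405501202) (nat_lit 456) (nat_lit 410291387267) (nat_lit 126) (nat_lit 5) (nat_lit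 131) (nat_lit 5) (nat_lit 132) (nat_lit 5) (nat_lit 513) (nat_lit 497) (nat_lit 190))))))) (XT.nd (nat_lit 1170) (nat_lit 1064) (nat_lit 0) (XT.nd (nat_lit 546) (nat_lit 988) (nat_lit 0) (XT.nd (nat_lit 234) (nat_lit 988) (nat_lit 0) (XT.nd (nat_lit 78) (nat_lit 304) (nat_lit 0) (XT.lf (nat_lit 0) (nat_lit 386888865572) (nat_lit 456) (nat_lit 219685316903) (nat_lit 76) (nat_lit 112126520178) (nat_lit 126) (nat_lit 5) (nat_lit 132) (nat_lit 5) (nat_lit 127) (nat_lit 5) (nat_lit 514) (nat_lit 497) (nat_lit 189)) (XT.nd (nat_lit 78) (nat_lit 0) (nat_lit 0) (XT.lf (nat_lit 0) (nat_lit 187387414217) (nat_lit 304) (nat_lit 308562793078) (nat_lit 380) (nat_lit 242990070733) (nat_lit 122) (nat_lit 5) (nat_lit 126) (nat_lit 5) (nat_lit 127) (nat_lit 5) (nat_lit 515) (nat_lit 497) (nat_lit 188)) (XT.lf (nat_lit 0) (nat_lit 614313977746) (nat_lit 380) (nat_lit 137693953765) (nat_lit 76) (nat_lit 7991432582)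 (nat_lit 122) (nat_lit 5) (nat_lit 127) (nat_lit 5) (nat_lit 123) (nat_lit 5) (nat_lit 516) (nat_lit 497) (nat_lit 187)))) (XT.nd (nat_lit 156) (nat_lit 608) (nat_lit 0) (XT.nd (nat_lit 78) (nat_lit 76) (nat_lit 0) (XT.lf (nat_lit 0) (nat_lit 301447693256) (nat_lit 304) (nat_lit 446913084064) (nat_lit 380) (nat_lit 33262385112) (nat_lit 118) (nat_lit 5) (nat_lit 122) (nat_lit 5) (nat_lit 123) (nat_lit 5) (nat_lit 517) (nat_lit 497) (nat_lit 186)) (XT.lf (nat_lit 0) (nat_lit 84438353003) (nat_lit 380) (nat_lit 38246629252) (nat_lit 76) (nat_lit 681458477744) (nat_lit 117) (nat_lit 5) (nat_lit 122) (nat_lit 5) (nat_lit 118) (nat_lit 5) (nat_lit 518) (nat_lit 497) (nat_lit 185))) (XT.nd (nat_lit 78) (nat_lit 304) (nat_lit 0) (XT.lf (nat_lit 0) (nat_lit 217286021282) (nat_lit 380) (nat_lit 391647219645) (nat_lit 76) (nat_lit 218310280894) (nat_lit 113) (nat_lit 5) (nat_lit 118) (nat_lit 5) (nat_lit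 114) (nat_lit 5) (nat_lit 519) (nat_lit 497) (nat_lit 184)) (XT.lf (nat_lit 0) (nat_lit 83648430136) (nat_lit 304) (nat_lit 277103193722) (nat_lit 380) (nat_lit 490548185333) (nat_lit 109) (nat_lit 5) (nat_lit 113) (nat_lit 5) (nat_lit 114) (nat_lit 5) (nat_lit 520) (nat_lit 497) (nat_lit 183))))) (XT.nd (nat_lit 312) (nat_lit 456) (nat_lit 0) (XT.nd (nat_lit 156) (nat_lit 304) (nat_lit 0) (XT.nd (nat_lit 78) (nat_lit 228) (nat_lit 0) (XT.lf (nat_lit 0) (nat_lit 519245446330) (nat_lit 380) (nat_lit 281143528295) (nat_lit 76) (nat_lit 75777189316) (nat_lit 109) (nat_lit 5) (nat_lit 114) (nat_lit 5) (nat_lit 110) (nat_lit 5) (nat_lit 521) (nat_lit 497) (nat_lit 182)) (XT.lf (nat_lit 0) (nat_lit 232591406933) (nat_lit 228) (nat_lit 461246624216) (nat_lit 304) (nat_lit 208029101720) (nat_lit 106) (nat_lit 5) (nat_lit 109) (nat_lit 5) (nat_lit 110) (nat_lit 5) (nat_lit 522) (nat_lit 497) (nat_lit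 181))) (XT.nd (nat_lit 78) (nat_lit 304) (nat_lit 0) (XT.lf (nat_lit 0) (nat_lit 781773747205) (nat_lit 228) (nat_lit 100147792121) (nat_lit 304) (nat_lit 46693546212) (nat_lit 106) (nat_lit 5) (nat_lit 109) (nat_lit 5) (nat_lit 110) (nat_lit 5) (nat_lit 523) (nat_lit 497) (nat_lit 180)) (XT.lf (nat_lit 0) (nat_lit 129722885316) (nat_lit 304) (nat_lit 547757320714) (nat_lit 76) (nat_lit 278577361121) (nat_lit 102) (nat_lit 5) (nat_lit 106) (nat_lit 5) (nat_lit 103) (nat_lit 5) (nat_lit 524) (nat_lit 497) (nat_lit 179)))) (XT.nd (nat_lit 156) (nat_lit 228) (nat_lit 0) (XT.nd (nat_lit 78) (nat_lit 0) (nat_lit 0) (XT.lf (nat_lit 0) (nat_lit 9401988250) (nat_lit 228) (nat_lit 308305088933) (nat_lit 304) (nat_lit 666911014857) (nat_lit 99) (nat_lit 5) (nat_lit 102) (nat_lit 5) (nat_lit 103) (nat_lit 5) (nat_lit 525) (nat_lit 497) (nat_lit 178)) (XT.lf (nat_lit 0) (nat_lit 525757625866) (nat_lit 304)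 (nat_lit 402097285667) (nat_lit 76) (nat_lit 86218374281) (nat_lit 99) (nat_lit 5) (nat_lit 103) (nat_lit 5) (nat_lit 100) (nat_lit 5) (nat_lit 526) (nat_lit 497) (nat_lit 177))) (XT.nd (nat_lit 78) (nat_lit 0) (nat_lit 0) (XT.lf (nat_lit 0) (nat_lit 201058406469) (nat_lit 228) (nat_lit 551345555791) (nat_lit 304) (nat_lit 292187614004) (nat_lit 96) (nat_lit 5) (nat_lit 99) (nat_lit 5) (nat_lit 100) (nat_lit 5) (nat_lit 527) (nat_lit 497) (nat_lit 176)) (XT.lf (nat_lit 0) (nat_lit 848331783419) (nat_lit 228) (nat_lit 148860537622) (nat_lit 304) (nat_lit 79102974918) (nat_lit 96) (nat_lit 5) (nat_lit 99) (nat_lit 5) (nat_lit 100) (nat_lit 5) (nat_lit 528) (nat_lit 497) (nat_lit 175)))))) (XT.nd (nat_lit 60138) (nat_lit 0) (nat_lit 4940) (XT.nd (nat_lit 390) (nat_lit 456) (nat_lit 0) (XT.nd (nat_lit 156) (nat_lit 380) (nat_lit 0) (XT.nd (nat_lit 78) (nat_lit 0) (nat_lit 0) (XT.lf (nat_lit 0) (nat_lit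 151139386920) (nat_lit 228) (nat_lit 683671273555) (nat_lit 76) (nat_lit 274103995443) (nat_lit 93) (nat_lit 5) (nat_lit 96) (nat_lit 5) (nat_lit 94) (nat_lit 5) (nat_lit 529) (nat_lit 497) (nat_lit 174)) (XT.lf (nat_lit 0) (nat_lit 396599780757) (nat_lit 228) (nat_lit 27747355772) (nat_lit 76) (nat_lit 718434794212) (nat_lit 93) (nat_lit 5) (nat_lit 96) (nat_lit 5) (nat_lit 94) (nat_lit 5) (nat_lit 530) (nat_lit 497) (nat_lit 173))) (XT.nd (nat_lit 78) (nat_lit 152) (nat_lit 0) (XT.lf (nat_lit 0) (nat_lit 665272469352) (nat_lit 304) (nat_lit 495260464247) (nat_lit 76) (nat_lit 17262671956) (nat_lit 90) (nat_lit 5) (nat_lit 94) (nat_lit 5) (nat_lit 91) (nat_lit 5) (nat_lit 531) (nat_lit 497) (nat_lit 172)) (XT.lf (nat_lit 0) (nat_lit 214665018561) (nat_lit 152) (nat_lit 743499419386) (nat_lit 228) (nat_lit 255856243882) (nat_lit 88) (nat_lit 5) (nat_lit 90) (nat_lit 5) (nat_lit 91) (nat_lit 5)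 (nat_lit 532) (nat_lit 497) (nat_lit 171)))) (XT.nd (nat_lit 156) (nat_lit 152) (nat_lit 0) (XT.nd (nat_lit 78) (nat_lit 0) (nat_lit 0) (XT.lf (nat_lit 0) (nat_lit 315272425192) (nat_lit 304) (nat_lit 795481901989) (nat_lit 76) (nat_lit 179601935874) (nat_lit 84) (nat_lit 5) (nat_lit 88) (nat_lit 5) (nat_lit 85) (nat_lit 5) (nat_lit 534) (nat_lit 497) (nat_lit 169)) (XT.lf (nat_lit 0) (nat_lit 633077808785) (nat_lit 304) (nat_lit 23260473621) (nat_lit 76) (nat_lit 674211527834) (nat_lit 84) (nat_lit 5) (nat_lit 88) (nat_lit 5) (nat_lit 85) (nat_lit 5) (nat_lit 535) (nat_lit 497) (nat_lit 168))) (XT.nd (nat_lit 59514) (nat_lit 0) (nat_lit 4940) (XT.lf (nat_lit 0) (nat_lit 813612705479) (nat_lit 152) (nat_lit 165863525393) (nat_lit 228) (nat_lit 392641665446) (nat_lit 82) (nat_lit 5) (nat_lit 84) (nat_lit 5) (nat_lit 85) (nat_lit 5) (nat_lit 536) (nat_lit 497) (nat_lit 167)) (XT.lf (nat_lit 0)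 (nat_lit 100702962479) (nat_lit 836) (nat_lit 70716948101) (nat_lit 836) (nat_lit 70716948101) (nat_lit 147) (nat_lit 3) (nat_lit 158) (nat_lit 3) (nat_lit 158) (nat_lit 5) (nat_lit 498) (nat_lit 498) (nat_lit 204))))) (XT.nd (nat_lit 312) (nat_lit 0) (nat_lit 152) (XT.nd (nat_lit 156) (nat_lit 0) (nat_lit 76) (XT.nd (nat_lit 78) (nat_lit 0) (nat_lit 76) (XT.lf (nat_lit 76) (nat_lit 102006344693) (nat_lit 0) (nat_lit 106027607399) (nat_lit 836) (nat_lit 288266964214) (nat_lit 148) (nat_lit 5) (nat_lit 147) (nat_lit 3) (nat_lit 158) (nat_lit 5) (nat_lit 499) (nat_lit 498) (nat_lit 203)) (XT.lf (nat_lit 0) (nat_lit 219654660248) (nat_lit 760) (nat_lit 148546905772) (nat_lit 836) (nat_lit 140494845194) (nat_lit 148) (nat_lit 5) (nat_lit 158) (nat_lit 5) (nat_lit 159) (nat_lit 5) (nat_lit 500) (nat_lit 498) (nat_lit 202))) (XT.nd (nat_lit 78) (nat_lit 0) (nat_lit 76) (XT.lf (nat_lit 76) (nat_lit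 111312676645) (nat_lit 0) (nat_lit 124019770769) (nat_lit 836) (nat_lit 286205431275) (nat_lit 149) (nat_lit 5) (nat_lit 148) (nat_lit 5) (nat_lit 159) (nat_lit 5) (nat_lit 501) (nat_lit 498) (nat_lit 201)) (XT.lf (nat_lit 0) (nat_lit 256417746948) (nat_lit 760) (nat_lit 147681118573) (nat_lit 836) (nat_lit 130691372869) (nat_lit 149) (nat_lit 5) (nat_lit 159) (nat_lit 5) (nat_lit 160) (nat_lit 5) (nat_lit 502) (nat_lit 498) (nat_lit 200)))) (XT.nd (nat_lit 156) (nat_lit 0) (nat_lit 76) (XT.nd (nat_lit 78) (nat_lit 0) (nat_lit 76) (XT.lf (nat_lit 76) (nat_lit 130121756653) (nat_lit 0) (nat_lit 152500215860) (nat_lit 836) (nat_lit 265880010515) (nat_lit 150) (nat_lit 5) (nat_lit 149) (nat_lit 5) (nat_lit 160) (nat_lit 5) (nat_lit 503) (nat_lit 498) (nat_lit 199)) (XT.lf (nat_lit 0) (nat_lit 314422059083) (nat_lit 760) (nat_lit 137616955747) (nat_lit 836) (nat_lit 110646017581) (nat_lit 150) (nat_lit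 5) (nat_lit 160) (nat_lit 5) (nat_lit 161) (nat_lit 5) (nat_lit 504) (nat_lit 498) (nat_lit 198))) (XT.nd (nat_lit 78) (nat_lit 0) (nat_lit 76) (XT.lf (nat_lit 76) (nat_lit 159799031461) (nat_lit 0) (nat_lit 193008018881) (nat_lit 836) (nat_lit 224520438906) (nat_lit 151) (nat_lit 5) (nat_lit 150) (nat_lit 5) (nat_lit 161) (nat_lit 5) (nat_lit 505) (nat_lit 498) (nat_lit 197)) (XT.lf (nat_lit 0) (nat_lit 396713107963) (nat_lit 760) (nat_lit 116993201798) (nat_lit 836) (nat_lit 78815668328) (nat_lit 151) (nat_lit 5) (nat_lit 161) (nat_lit 5) (nat_lit 162) (nat_lit 5) (nat_lit 506) (nat_lit 498) (nat_lit 196))))))))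
noncomputable def xc247 : XT := (XT.nd (nat_lit 61932) (nat_lit 0) (nat_lit 684) (XT.nd (nat_lit 1170) (nat_lit 1900) (nat_lit 0) (XT.nd (nat_lit 546) (nat_lit 1672) (nat_lit 0) (XT.nd (nat_lit 234) (nat_lit 836) (nat_lit 0) (XT.nd (nat_lit 78) (nat_lit 684) (nat_lit 0) (XT.lf (nat_lit 76) (nat_lit 201865703892) (nat_lit 0) (nat_lit 247264507113) (nat_lit 836) (nat_lit 159030193241) (nat_lit 152) (nat_lit 5) (nat_lit 151) (nat_lit 5) (nat_lit 162) (nat_lit 5) (nat_lit 507) (nat_lit 498) (nat_lit 195)) (XT.nd (nat_lit 78) (nat_lit 760) (nat_lit 0) (XT.lf (nat_lit 0) (nat_lit 506689380868) (nat_lit 760) (nat_lit 84292288542) (nat_lit 76) (nat_lit 33473021721) (nat_lit 152) (nat_lit 5) (nat_lit 162) (nat_lit 5) (nat_lit 153) (nat_lit 5) (nat_lit 508) (nat_lit 498) (nat_lit 194)) (XT.lf (nat_lit 0) (nat_lit 258014801972) (nat_lit 760) (nat_lit 317193546255) (nat_lit 836) (nat_lit 65951252184) (nat_lit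 142) (nat_lit 5) (nat_lit 152) (nat_lit 5) (nat_lit 153) (nat_lit 5) (nat_lit 509) (nat_lit 498) (nat_lit 193)))) (XT.nd (nat_lit 156) (nat_lit 380) (nat_lit 0) (XT.nd (nat_lit 78) (nat_lit 456) (nat_lit 0) (XT.lf (nat_lit 0) (nat_lit 620363674726) (nat_lit 760) (nat_lit 28217108669) (nat_lit 836) (nat_lit 10047595789) (nat_lit 142) (nat_lit 5) (nat_lit 152) (nat_lit 5) (nat_lit 153) (nat_lit 5) (nat_lit 510) (nat_lit 498) (nat_lit 192)) (XT.lf (nat_lit 0) (nat_lit 56700029655) (nat_lit 456) (nat_lit 347283767105) (nat_lit 76) (nat_lit 272468524534) (nat_lit 136) (nat_lit 5) (nat_lit 142) (nat_lit 5) (nat_lit 137) (nat_lit 5) (nat_lit 511) (nat_lit 498) (nat_lit 191))) (XT.nd (nat_lit 78) (nat_lit 0) (nat_lit 0) (XT.lf (nat_lit 0) (nat_lit 21207736826) (nat_lit 380) (nat_lit 106691966427) (nat_lit 456) (nat_lit 567186904923) (nat_lit 131) (nat_lit 5) (nat_lit 136) (nat_lit 5) (nat_lit 137) (nat_lit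 5) (nat_lit 512) (nat_lit 498) (nat_lit 190)) (XT.lf (nat_lit 0) (nat_lit 211845061647) (nat_lit 456) (nat_lit 297482117772) (nat_lit 76) (nat_lit 204866144928) (nat_lit 131) (nat_lit 5) (nat_lit 137) (nat_lit 5) (nat_lit 132) (nat_lit 5) (nat_lit 513) (nat_lit 498) (nat_lit 189))))) (XT.nd (nat_lit 312) (nat_lit 988) (nat_lit 0) (XT.nd (nat_lit 156) (nat_lit 304) (nat_lit 0) (XT.nd (nat_lit 78) (nat_lit 0) (nat_lit 0) (XT.lf (nat_lit 0) (nat_lit 99159125859) (nat_lit 380) (nat_lit 204125752881) (nat_lit 456) (nat_lit 430805638049) (nat_lit 126) (nat_lit 5) (nat_lit 131) (nat_lit 5) (nat_lit 132) (nat_lit 5) (nat_lit 514) (nat_lit 498) (nat_lit 188)) (XT.lf (nat_lit 0) (nat_lit 406233598124) (nat_lit 456) (nat_lit 230669257417) (nat_lit 76) (nat_lit 117732867742) (nat_lit 126) (nat_lit 5) (nat_lit 132) (nat_lit 5) (nat_lit 127) (nat_lit 5) (nat_lit 515) (nat_lit 498) (nat_lit 187))) (XT.nd (nat_lit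 78) (nat_lit 0) (nat_lit 0) (XT.lf (nat_lit 0) (nat_lit 196757105012) (nat_lit 304) (nat_lit 323990893145) (nat_lit 380) (nat_lit 255139279712) (nat_lit 122) (nat_lit 5) (nat_lit 126) (nat_lit 5) (nat_lit 127) (nat_lit 5) (nat_lit 516) (nat_lit 498) (nat_lit 186)) (XT.lf (nat_lit 0) (nat_lit 645029944362) (nat_lit 380) (nat_lit 144578333809) (nat_lit 76) (nat_lit 8391040707) (nat_lit 122) (nat_lit 5) (nat_lit 127) (nat_lit 5) (nat_lit 123) (nat_lit 5) (nat_lit 517) (nat_lit 498) (nat_lit 185)))) (XT.nd (nat_lit 156) (nat_lit 608) (nat_lit 0) (XT.nd (nat_lit 78) (nat_lit 76) (nat_lit 0) (XT.lf (nat_lit 0) (nat_lit 316520390441) (nat_lit 304) (nat_lit 469258685604) (nat_lit 380) (nat_lit 34925231483) (nat_lit 118) (nat_lit 5) (nat_lit 122) (nat_lit 5) (nat_lit 123) (nat_lit 5) (nat_lit 518) (nat_lit 498) (nat_lit 184)) (XT.lf (nat_lit 0) (nat_lit 88660522225) (nat_lit 380) (nat_lit 40158654727)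 (nat_lit 76) (nat_lit 715531443439) (nat_lit 117) (nat_lit 5) (nat_lit 122) (nat_lit 5) (nat_lit 118) (nat_lit 5) (nat_lit 519) (nat_lit 498) (nat_lit 183))) (XT.nd (nat_lit 78) (nat_lit 304) (nat_lit 0) (XT.lf (nat_lit 0) (nat_lit 228150567525) (nat_lit 380) (nat_lit 411229268218) (nat_lit 76) (nat_lit 229225849882) (nat_lit 113) (nat_lit 5) (nat_lit 118) (nat_lit 5) (nat_lit 114) (nat_lit 5) (nat_lit 520) (nat_lit 498) (nat_lit 182)) (XT.lf (nat_lit 0) (nat_lit 87831159013) (nat_lit 304) (nat_lit 290958284340) (nat_lit 380) (nat_lit 515075344355) (nat_lit 109) (nat_lit 5) (nat_lit 113) (nat_lit 5) (nat_lit 114) (nat_lit 5) (nat_lit 521) (nat_lit 498) (nat_lit 181)))))) (XT.nd (nat_lit 624) (nat_lit 912) (nat_lit 0) (XT.nd (nat_lit 312) (nat_lit 456) (nat_lit 0) (XT.nd (nat_lit 156) (nat_lit 304) (nat_lit 0) (XT.nd (nat_lit 78) (nat_lit 228) (nat_lit 0) (XT.lf (nat_lit 0) (nat_lit 545207946629)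 (nat_lit 380) (nat_lit 295200401629) (nat_lit 76) (nat_lit 79566112456) (nat_lit 109) (nat_lit 5) (nat_lit 114) (nat_lit 5) (nat_lit 110) (nat_lit 5) (nat_lit 522) (nat_lit 498) (nat_lit 180)) (XT.lf (nat_lit 0) (nat_lit 244221275471) (nat_lit 228) (nat_lit 484308879016) (nat_lit 304) (nat_lit 218430323911) (nat_lit 106) (nat_lit 5) (nat_lit 109) (nat_lit 5) (nat_lit 110) (nat_lit 5) (nat_lit 523) (nat_lit 498) (nat_lit 179))) (XT.nd (nat_lit 78) (nat_lit 304) (nat_lit 0) (XT.lf (nat_lit 0) (nat_lit 820862718557) (nat_lit 228) (nat_lit 105155108955) (nat_lit 304) (nat_lit 49028001718) (nat_lit 106) (nat_lit 5) (nat_lit 109) (nat_lit 5) (nat_lit 110) (nat_lit 5) (nat_lit 524) (nat_lit 498) (nat_lit 178)) (XT.lf (nat_lit 0) (nat_lit 136209239744) (nat_lit 304) (nat_lit 575144891071) (nat_lit 76) (nat_lit 292506304163) (nat_lit 102) (nat_lit 5) (nat_lit 106) (nat_lit 5) (nat_lit 103) (nat_lit 5)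 (nat_lit 525) (nat_lit 498) (nat_lit 177)))) (XT.nd (nat_lit 156) (nat_lit 228) (nat_lit 0) (XT.nd (nat_lit 78) (nat_lit 0) (nat_lit 0) (XT.lf (nat_lit 0) (nat_lit 9872378571) (nat_lit 228) (nat_lit 323720257168) (nat_lit 304) (nat_lit 700256350648) (nat_lit 99) (nat_lit 5) (nat_lit 102) (nat_lit 5) (nat_lit 103) (nat_lit 5) (nat_lit 526) (nat_lit 498) (nat_lit 176)) (XT.lf (nat_lit 0) (nat_lit 552045703391) (nat_lit 304) (nat_lit 422201864410) (nat_lit 76) (nat_lit 90529372474) (nat_lit 99) (nat_lit 5) (nat_lit 103) (nat_lit 5) (nat_lit 100) (nat_lit 5) (nat_lit 527) (nat_lit 498) (nat_lit 175))) (XT.nd (nat_lit 78) (nat_lit 0) (nat_lit 0) (XT.lf (nat_lit 0) (nat_lit 211111607728) (nat_lit 228) (nat_lit 578912743919) (nat_lit 304) (nat_lit 306796793849) (nat_lit 96) (nat_lit 5) (nat_lit 99) (nat_lit 5) (nat_lit 100) (nat_lit 5) (nat_lit 528) (nat_lit 498) (nat_lit 174)) (XT.lf (nat_lit 0) (nat_lit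 890748640147) (nat_lit 228) (nat_lit 156303479110) (nat_lit 304) (nat_lit 83057932373) (nat_lit 96) (nat_lit 5) (nat_lit 99) (nat_lit 5) (nat_lit 100) (nat_lit 5) (nat_lit 529) (nat_lit 498) (nat_lit 173))))) (XT.nd (nat_lit 312) (nat_lit 304) (nat_lit 0) (XT.nd (nat_lit 156) (nat_lit 380) (nat_lit 0) (XT.nd (nat_lit 78) (nat_lit 0) (nat_lit 0) (XT.lf (nat_lit 0) (nat_lit 158696538206) (nat_lit 228) (nat_lit 717854560292) (nat_lit 76) (nat_lit 287809281102) (nat_lit 93) (nat_lit 5) (nat_lit 96) (nat_lit 5) (nat_lit 94) (nat_lit 5) (nat_lit 530) (nat_lit 498) (nat_lit 172)) (XT.lf (nat_lit 0) (nat_lit 416429943071) (nat_lit 228) (nat_lit 29134459808) (nat_lit 76) (nat_lit 754356615721) (nat_lit 93) (nat_lit 5) (nat_lit 96) (nat_lit 5) (nat_lit 94) (nat_lit 5) (nat_lit 531) (nat_lit 498) (nat_lit 171))) (XT.nd (nat_lit 78) (nat_lit 152) (nat_lit 0) (XT.lf (nat_lit 0) (nat_lit 698536263308) (nat_lit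 304) (nat_lit 520023220904) (nat_lit 76) (nat_lit 18125893082) (nat_lit 90) (nat_lit 5) (nat_lit 94) (nat_lit 5) (nat_lit 91) (nat_lit 5) (nat_lit 532) (nat_lit 498) (nat_lit 170)) (XT.lf (nat_lit 0) (nat_lit 225398531745) (nat_lit 152) (nat_lit 780674294564) (nat_lit 228) (nat_lit 268648881275) (nat_lit 88) (nat_lit 5) (nat_lit 90) (nat_lit 5) (nat_lit 91) (nat_lit 5) (nat_lit 533) (nat_lit 498) (nat_lit 169)))) (XT.nd (nat_lit 156) (nat_lit 0) (nat_lit 0) (XT.nd (nat_lit 78) (nat_lit 228) (nat_lit 0) (XT.lf (nat_lit 0) (nat_lit 22819044119) (nat_lit 228) (nat_lit 288442165613) (nat_lit 76) (nat_lit 1002939900217) (nat_lit 87) (nat_lit 5) (nat_lit 90) (nat_lit 5) (nat_lit 88) (nat_lit 5) (nat_lit 534) (nat_lit 498) (nat_lit 168)) (XT.lf (nat_lit 0) (nat_lit 331036205307) (nat_lit 304) (nat_lit 835255739674) (nat_lit 76) (nat_lit 188582123272) (nat_lit 84) (nat_lit 5) (nat_lit 88) (nat_lit 5)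 (nat_lit 85) (nat_lit 5) (nat_lit 535) (nat_lit 498) (nat_lit 167))) (XT.nd (nat_lit 59592) (nat_lit 0) (nat_lit 4788) (XT.lf (nat_lit 0) (nat_lit 664731850515) (nat_lit 304) (nat_lit 24423252146) (nat_lit 76) (nat_lit 707922190515) (nat_lit 84) (nat_lit 5) (nat_lit 88) (nat_lit 5) (nat_lit 85) (nat_lit 5) (nat_lit 536) (nat_lit 498) (nat_lit 166)) (XT.lf (nat_lit 0) (nat_lit 105738380421) (nat_lit 836) (nat_lit 74252653831) (nat_lit 836) (nat_lit 74252653831) (nat_lit 147) (nat_lit 3) (nat_lit 158) (nat_lit 3) (nat_lit 158) (nat_lit 5) (nat_lit 499) (nat_lit 499) (nat_lit 202))))))) (XT.nd (nat_lit 1248) (nat_lit 2508) (nat_lit 0) (XT.nd (nat_lit 624) (nat_lit 1596) (nat_lit 0) (XT.nd (nat_lit 312) (nat_lit 0) (nat_lit 152) (XT.nd (nat_lit 156) (nat_lit 0) (nat_lit 76) (XT.nd (nat_lit 78) (nat_lit 0) (nat_lit 76) (XT.lf (nat_lit 76) (nat_lit 107106940708) (nat_lit 0) (nat_lit 111329227280) (nat_lit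 836) (nat_lit 302679768140) (nat_lit 148) (nat_lit 5) (nat_lit 147) (nat_lit 3) (nat_lit 158) (nat_lit 5) (nat_lit 500) (nat_lit 499) (nat_lit 201)) (XT.lf (nat_lit 0) (nat_lit 230637883309) (nat_lit 760) (nat_lit 155973957238) (nat_lit 836) (nat_lit 147519366650) (nat_lit 148) (nat_lit 5) (nat_lit 158) (nat_lit 5) (nat_lit 159) (nat_lit 5) (nat_lit 501) (nat_lit 499) (nat_lit 200))) (XT.nd (nat_lit 78) (nat_lit 0) (nat_lit 76) (XT.lf (nat_lit 76) (nat_lit 116878599561) (nat_lit 0) (nat_lit 130220941451) (nat_lit 836) (nat_lit 300515207979) (nat_lit 149) (nat_lit 5) (nat_lit 148) (nat_lit 5) (nat_lit 159) (nat_lit 5) (nat_lit 502) (nat_lit 499) (nat_lit 199)) (XT.lf (nat_lit 0) (nat_lit 269239080374) (nat_lit 760) (nat_lit 155064873968) (nat_lit 836) (nat_lit 137225773595) (nat_lit 149) (nat_lit 5) (nat_lit 159) (nat_lit 5) (nat_lit 160) (nat_lit 5) (nat_lit 503) (nat_lit 499) (nat_lit 198))))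 (XT.nd (nat_lit 156) (nat_lit 0) (nat_lit 76) (XT.nd (nat_lit 78) (nat_lit 0) (nat_lit 76) (XT.lf (nat_lit 76) (nat_lit 136628140172) (nat_lit 0) (nat_lit 160125360420) (nat_lit 836) (nat_lit 279173560049) (nat_lit 150) (nat_lit 5) (nat_lit 149) (nat_lit 5) (nat_lit 160) (nat_lit 5) (nat_lit 504) (nat_lit 499) (nat_lit 197)) (XT.lf (nat_lit 0) (nat_lit 330143569051) (nat_lit 760) (nat_lit 144497499427) (nat_lit 836) (nat_lit 116178195140) (nat_lit 150) (nat_lit 5) (nat_lit 160) (nat_lit 5) (nat_lit 161) (nat_lit 5) (nat_lit 505) (nat_lit 499) (nat_lit 196))) (XT.nd (nat_lit 78) (nat_lit 0) (nat_lit 76) (XT.lf (nat_lit 76) (nat_lit 167789282237) (nat_lit 0) (nat_lit 202658512927) (nat_lit 836) (nat_lit 235746048873) (nat_lit 151) (nat_lit 5) (nat_lit 150) (nat_lit 5) (nat_lit 161) (nat_lit 5) (nat_lit 506) (nat_lit 499) (nat_lit 195)) (XT.lf (nat_lit 0) (nat_lit 416549135600) (nat_lit 760) (nat_lit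 122842556811) (nat_lit 836) (nat_lit 82756365914) (nat_lit 151) (nat_lit 5) (nat_lit 161) (nat_lit 5) (nat_lit 162) (nat_lit 5) (nat_lit 507) (nat_lit 499) (nat_lit 194))))) (XT.nd (nat_lit 312) (nat_lit 1216) (nat_lit 0) (XT.nd (nat_lit 156) (nat_lit 684) (nat_lit 0) (XT.nd (nat_lit 78) (nat_lit 0) (nat_lit 76) (XT.lf (nat_lit 76) (nat_lit 211959289243) (nat_lit 0) (nat_lit 259627791512) (nat_lit 836) (nat_lit 166981325690) (nat_lit 152) (nat_lit 5) (nat_lit 151) (nat_lit 5) (nat_lit 162) (nat_lit 5) (nat_lit 508) (nat_lit 499) (nat_lit 193)) (XT.lf (nat_lit 0) (nat_lit 532024191128) (nat_lit 760) (nat_lit 88506599072) (nat_lit 76) (nat_lit 35146618376) (nat_lit 152) (nat_lit 5) (nat_lit 162) (nat_lit 5) (nat_lit 153) (nat_lit 5) (nat_lit 509) (nat_lit 499) (nat_lit 192))) (XT.nd (nat_lit 78) (nat_lit 0) (nat_lit 0) (XT.lf (nat_lit 0) (nat_lit 270915841066) (nat_lit 760) (nat_lit 333053254209)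 (nat_lit 836) (nat_lit 69248468626) (nat_lit 142) (nat_lit 5) (nat_lit 152) (nat_lit 5) (nat_lit 153) (nat_lit 5) (nat_lit 510) (nat_lit 499) (nat_lit 191)) (XT.lf (nat_lit 0) (nat_lit 651382143220) (nat_lit 760) (nat_lit 29627993284) (nat_lit 836) (nat_lit 10549645896) (nat_lit 142) (nat_lit 5) (nat_lit 152) (nat_lit 5) (nat_lit 153) (nat_lit 5) (nat_lit 511) (nat_lit 499) (nat_lit 190)))) (XT.nd (nat_lit 156) (nat_lit 380) (nat_lit 0) (XT.nd (nat_lit 78) (nat_lit 380) (nat_lit 0) (XT.lf (nat_lit 0) (nat_lit 59535339329) (nat_lit 456) (nat_lit 364647649125) (nat_lit 76) (nat_lit 286091933452) (nat_lit 136) (nat_lit 5) (nat_lit 142) (nat_lit 5) (nat_lit 137) (nat_lit 5) (nat_lit 512) (nat_lit 499) (nat_lit 189)) (XT.lf (nat_lit 0) (nat_lit 22268425061) (nat_lit 380) (nat_lit 112026561576) (nat_lit 456) (nat_lit 595545936996) (nat_lit 131) (nat_lit 5) (nat_lit 136) (nat_lit 5) (nat_lit 137) (nat_lit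 5) (nat_lit 513) (nat_lit 499) (nat_lit 188))) (XT.nd (nat_lit 78) (nat_lit 380) (nat_lit 0) (XT.lf (nat_lit 0) (nat_lit 222437598797) (nat_lit 456) (nat_lit 312355922426) (nat_lit 76) (nat_lit 215109455099) (nat_lit 131) (nat_lit 5) (nat_lit 137) (nat_lit 5) (nat_lit 132) (nat_lit 5) (nat_lit 514) (nat_lit 499) (nat_lit 187)) (XT.lf (nat_lit 0) (nat_lit 104117378528) (nat_lit 380) (nat_lit 214332019318) (nat_lit 456) (nat_lit 452345630988) (nat_lit 126) (nat_lit 5) (nat_lit 131) (nat_lit 5) (nat_lit 132) (nat_lit 5) (nat_lit 515) (nat_lit 499) (nat_lit 186)))))) (XT.nd (nat_lit 624) (nat_lit 1216) (nat_lit 0) (XT.nd (nat_lit 312) (nat_lit 684) (nat_lit 0) (XT.nd (nat_lit 156) (nat_lit 304) (nat_lit 0) (XT.nd (nat_lit 78) (nat_lit 304) (nat_lit 0) (XT.lf (nat_lit 0) (nat_lit 426545540411) (nat_lit 456) (nat_lit 242202425203) (nat_lit 76) (nat_lit 123619530680) (nat_lit 126) (nat_lit 5) (nat_lit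 132) (nat_lit 5) (nat_lit 127) (nat_lit 5) (nat_lit 516) (nat_lit 499) (nat_lit 185)) (XT.lf (nat_lit 0) (nat_lit 206595250588) (nat_lit 304) (nat_lit 340190401896) (nat_lit 380) (nat_lit 267895976525) (nat_lit 122) (nat_lit 5) (nat_lit 126) (nat_lit 5) (nat_lit 127) (nat_lit 5) (nat_lit 517) (nat_lit 499) (nat_lit 184))) (XT.nd (nat_lit 78) (nat_lit 304) (nat_lit 0) (XT.lf (nat_lit 0) (nat_lit 677281684417) (nat_lit 380) (nat_lit 151806962386) (nat_lit 76) (nat_lit 8810625844) (nat_lit 122) (nat_lit 5) (nat_lit 127) (nat_lit 5) (nat_lit 123) (nat_lit 5) (nat_lit 518) (nat_lit 499) (nat_lit 183)) (XT.lf (nat_lit 0) (nat_lit 332346693429) (nat_lit 304) (nat_lit 492721572117) (nat_lit 380) (nat_lit 36671245543) (nat_lit 118) (nat_lit 5) (nat_lit 122) (nat_lit 5) (nat_lit 123) (nat_lit 5) (nat_lit 519) (nat_lit 499) (nat_lit 182)))) (XT.nd (nat_lit 156) (nat_lit 304) (nat_lit 0) (XT.nd (nat_lit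 78) (nat_lit 304) (nat_lit 0) (XT.lf (nat_lit 0) (nat_lit 93093776520) (nat_lit 380) (nat_lit 42166309924) (nat_lit 76) (nat_lit 751308053531) (nat_lit 117) (nat_lit 5) (nat_lit 122) (nat_lit 5) (nat_lit 118) (nat_lit 5) (nat_lit 520) (nat_lit 499) (nat_lit 181)) (XT.lf (nat_lit 0) (nat_lit 239558318285) (nat_lit 380) (nat_lit 431790448265) (nat_lit 76) (nat_lit 240687192211) (nat_lit 113) (nat_lit 5) (nat_lit 118) (nat_lit 5) (nat_lit 114) (nat_lit 5) (nat_lit 521) (nat_lit 499) (nat_lit 180))) (XT.nd (nat_lit 78) (nat_lit 0) (nat_lit 0) (XT.lf (nat_lit 0) (nat_lit 92222995757) (nat_lit 304) (nat_lit 305506135911) (nat_lit 380) (nat_lit 540828884593) (nat_lit 109) (nat_lit 5) (nat_lit 113) (nat_lit 5) (nat_lit 114) (nat_lit 5) (nat_lit 522) (nat_lit 499) (nat_lit 179)) (XT.lf (nat_lit 0) (nat_lit 572468550746) (nat_lit 380) (nat_lit 309960146808) (nat_lit 76) (nat_lit 83544475832) (nat_lit 109)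 (nat_lit 5) (nat_lit 114) (nat_lit 5) (nat_lit 110) (nat_lit 5) (nat_lit 523) (nat_lit 499) (nat_lit 178))))) (XT.nd (nat_lit 312) (nat_lit 456) (nat_lit 0) (XT.nd (nat_lit 156) (nat_lit 532) (nat_lit 0) (XT.nd (nat_lit 78) (nat_lit 0) (nat_lit 0) (XT.lf (nat_lit 0) (nat_lit 256432609714) (nat_lit 228) (nat_lit 508524253660) (nat_lit 304) (nat_lit 229351628865) (nat_lit 106) (nat_lit 5) (nat_lit 109) (nat_lit 5) (nat_lit 110) (nat_lit 5) (nat_lit 524) (nat_lit 499) (nat_lit 177)) (XT.lf (nat_lit 0) (nat_lit 861906112075) (nat_lit 228) (nat_lit 110412798396) (nat_lit 304) (nat_lit 51479200621) (nat_lit 106) (nat_lit 5) (nat_lit 109) (nat_lit 5) (nat_lit 110) (nat_lit 5) (nat_lit 525) (nat_lit 499) (nat_lit 176))) (XT.nd (nat_lit 78) (nat_lit 228) (nat_lit 0) (XT.lf (nat_lit 0) (nat_lit 143019892355) (nat_lit 304) (nat_lit 603901867437) (nat_lit 76) (nat_lit 307131687385) (nat_lit 102) (nat_lit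 5) (nat_lit 106) (nat_lit 5) (nat_lit 103) (nat_lit 5) (nat_lit 526) (nat_lit 499) (nat_lit 175)) (XT.lf (nat_lit 0) (nat_lit 10366261363) (nat_lit 228) (nat_lit 339906191829) (nat_lit 304) (nat_lit 735268973213) (nat_lit 99) (nat_lit 5) (nat_lit 102) (nat_lit 5) (nat_lit 103) (nat_lit 5) (nat_lit 527) (nat_lit 499) (nat_lit 174)))) (XT.nd (nat_lit 156) (nat_lit 228) (nat_lit 0) (XT.nd (nat_lit 78) (nat_lit 228) (nat_lit 0) (XT.lf (nat_lit 0) (nat_lit 579648166548) (nat_lit 304) (nat_lit 443311698636) (nat_lit 76) (nat_lit 95055913187) (nat_lit 99) (nat_lit 5) (nat_lit 103) (nat_lit 5) (nat_lit 100) (nat_lit 5) (nat_lit 528) (nat_lit 499) (nat_lit 173)) (XT.lf (nat_lit 0) (nat_lit 221667442931) (nat_lit 228) (nat_lit 607858299788) (nat_lit 304) (nat_lit 322136451360) (nat_lit 96) (nat_lit 5) (nat_lit 99) (nat_lit 5) (nat_lit 100) (nat_lit 5) (nat_lit 529) (nat_lit 499) (nat_lit 172))) (XT.nd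 (nat_lit 78) (nat_lit 228) (nat_lit 0) (XT.lf (nat_lit 0) (nat_lit 935286314837) (nat_lit 228) (nat_lit 164118575612) (nat_lit 304) (nat_lit 87210655486) (nat_lit 96) (nat_lit 5) (nat_lit 99) (nat_lit 5) (nat_lit 100) (nat_lit 5) (nat_lit 530) (nat_lit 499) (nat_lit 171)) (XT.lf (nat_lit 0) (nat_lit 166631530141) (nat_lit 228) (nat_lit 753747037113) (nat_lit 76) (nat_lit 302199823060) (nat_lit 93) (nat_lit 5) (nat_lit 96) (nat_lit 5) (nat_lit 94) (nat_lit 5) (nat_lit 531) (nat_lit 499) (nat_lit 170))))))))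
noncomputable def xc248 : XT := (XT.nd (nat_lit 62010) (nat_lit 0) (nat_lit 304) (XT.nd (nat_lit 60762) (nat_lit 0) (nat_lit 1672) (XT.nd (nat_lit 60138) (nat_lit 0) (nat_lit 4864) (XT.nd (nat_lit 234) (nat_lit 228) (nat_lit 0) (XT.nd (nat_lit 78) (nat_lit 228) (nat_lit 0) (XT.lf (nat_lit 0) (nat_lit 733463231111) (nat_lit 304) (nat_lit 546024140175) (nat_lit 76) (nat_lit 19032267127) (nat_lit 90) (nat_lit 5) (nat_lit 94) (nat_lit 5) (nat_lit 91) (nat_lit 5) (nat_lit 533) (nat_lit 499) (nat_lit 168)) (XT.nd (nat_lit 78) (nat_lit 76) (nat_lit 0) (XT.lf (nat_lit 0) (nat_lit 236668696207) (nat_lit 152) (nat_lit 819707922406) (nat_lit 228) (nat_lit 282081166789) (nat_lit 88) (nat_lit 5) (nat_lit 90) (nat_lit 5) (nat_lit 91) (nat_lit 5) (nat_lit 534) (nat_lit 499) (nat_lit 167)) (XT.lf (nat_lit 0) (nat_lit 23960142492) (nat_lit 228) (nat_lit 302864042502) (nat_lit 76) (nat_lit 1053086973133) (nat_lit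 87) (nat_lit 5) (nat_lit 90) (nat_lit 5) (nat_lit 88) (nat_lit 5) (nat_lit 535) (nat_lit 499) (nat_lit 166)))) (XT.nd (nat_lit 59748) (nat_lit 0) (nat_lit 4788) (XT.nd (nat_lit 59670) (nat_lit 0) (nat_lit 4788) (XT.lf (nat_lit 0) (nat_lit 347588159659) (nat_lit 304) (nat_lit 877018293176) (nat_lit 76) (nat_lit 198011311616) (nat_lit 84) (nat_lit 5) (nat_lit 88) (nat_lit 5) (nat_lit 85) (nat_lit 5) (nat_lit 536) (nat_lit 499) (nat_lit 165)) (XT.lf (nat_lit 0) (nat_lit 111025544174) (nat_lit 836) (nat_lit 77965158019) (nat_lit 836) (nat_lit 77965158019) (nat_lit 147) (nat_lit 3) (nat_lit 158) (nat_lit 3) (nat_lit 158) (nat_lit 5) (nat_lit 500) (nat_lit 500) (nat_lit 200))) (XT.nd (nat_lit 78) (nat_lit 0) (nat_lit 76) (XT.lf (nat_lit 76) (nat_lit 112462540605) (nat_lit 0) (nat_lit 116895905887) (nat_lit 836) (nat_lit 317813262864) (nat_lit 148) (nat_lit 5) (nat_lit 147) (nat_lit 3) (nat_lit 158)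 (nat_lit 5) (nat_lit 501) (nat_lit 500) (nat_lit 199)) (XT.lf (nat_lit 0) (nat_lit 242170221963) (nat_lit 760) (nat_lit 163772388594) (nat_lit 836) (nat_lit 154895134706) (nat_lit 148) (nat_lit 5) (nat_lit 158) (nat_lit 5) (nat_lit 159) (nat_lit 5) (nat_lit 502) (nat_lit 500) (nat_lit 198))))) (XT.nd (nat_lit 312) (nat_lit 0) (nat_lit 152) (XT.nd (nat_lit 156) (nat_lit 0) (nat_lit 76) (XT.nd (nat_lit 78) (nat_lit 0) (nat_lit 76) (XT.lf (nat_lit 76) (nat_lit 122722791746) (nat_lit 0) (nat_lit 136732153732) (nat_lit 836) (nat_lit 315540519525) (nat_lit 149) (nat_lit 5) (nat_lit 148) (nat_lit 5) (nat_lit 159) (nat_lit 5) (nat_lit 503) (nat_lit 500) (nat_lit 197)) (XT.lf (nat_lit 0) (nat_lit 282701439000) (nat_lit 760) (nat_lit 162817845074) (nat_lit 836) (nat_lit 144086909969) (nat_lit 149) (nat_lit 5) (nat_lit 159) (nat_lit 5) (nat_lit 160) (nat_lit 5) (nat_lit 504) (nat_lit 500) (nat_lit 196)))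 (XT.nd (nat_lit 78) (nat_lit 0) (nat_lit 76) (XT.lf (nat_lit 76) (nat_lit 143459815377) (nat_lit 0) (nat_lit 168131749771) (nat_lit 836) (nat_lit 293131828989) (nat_lit 150) (nat_lit 5) (nat_lit 149) (nat_lit 5) (nat_lit 160) (nat_lit 5) (nat_lit 505) (nat_lit 500) (nat_lit 195)) (XT.lf (nat_lit 0) (nat_lit 346651116678) (nat_lit 760) (nat_lit 151722098564) (nat_lit 836) (nat_lit 121986993042) (nat_lit 150) (nat_lit 5) (nat_lit 160) (nat_lit 5) (nat_lit 161) (nat_lit 5) (nat_lit 506) (nat_lit 500) (nat_lit 194)))) (XT.nd (nat_lit 156) (nat_lit 0) (nat_lit 76) (XT.nd (nat_lit 78) (nat_lit 0) (nat_lit 76) (XT.lf (nat_lit 76) (nat_lit 176179017734) (nat_lit 0) (nat_lit 212791523019) (nat_lit 836) (nat_lit 247532977640) (nat_lit 151) (nat_lit 5) (nat_lit 150) (nat_lit 5) (nat_lit 161) (nat_lit 5) (nat_lit 507) (nat_lit 500) (nat_lit 193)) (XT.lf (nat_lit 0) (nat_lit 437376930011) (nat_lit 760) (nat_lit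 128984407937) (nat_lit 836) (nat_lit 86894106360) (nat_lit 151) (nat_lit 5) (nat_lit 161) (nat_lit 5) (nat_lit 162) (nat_lit 5) (nat_lit 508) (nat_lit 500) (nat_lit 192))) (XT.nd (nat_lit 78) (nat_lit 0) (nat_lit 76) (XT.lf (nat_lit 76) (nat_lit 222557525956) (nat_lit 0) (nat_lit 272609234641) (nat_lit 836) (nat_lit 175330049831) (nat_lit 152) (nat_lit 5) (nat_lit 151) (nat_lit 5) (nat_lit 162) (nat_lit 5) (nat_lit 509) (nat_lit 500) (nat_lit 191)) (XT.lf (nat_lit 0) (nat_lit 558625710178) (nat_lit 760) (nat_lit 92931653382) (nat_lit 76) (nat_lit 36903899924) (nat_lit 152) (nat_lit 5) (nat_lit 162) (nat_lit 5) (nat_lit 153) (nat_lit 5) (nat_lit 510) (nat_lit 500) (nat_lit 190)))))) (XT.nd (nat_lit 624) (nat_lit 1216) (nat_lit 0) (XT.nd (nat_lit 312) (nat_lit 684) (nat_lit 0) (XT.nd (nat_lit 156) (nat_lit 836) (nat_lit 0) (XT.nd (nat_lit 78) (nat_lit 0) (nat_lit 0) (XT.lf (nat_lit 0) (nat_lit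 284461904317) (nat_lit 760) (nat_lit 349705944712) (nat_lit 836) (nat_lit 72710578074) (nat_lit 142) (nat_lit 5) (nat_lit 152) (nat_lit 5) (nat_lit 153) (nat_lit 5) (nat_lit 511) (nat_lit 500) (nat_lit 189)) (XT.lf (nat_lit 0) (nat_lit 683951508665) (nat_lit 760) (nat_lit 31109419417) (nat_lit 836) (nat_lit 11076829159) (nat_lit 142) (nat_lit 5) (nat_lit 152) (nat_lit 5) (nat_lit 153) (nat_lit 5) (nat_lit 512) (nat_lit 500) (nat_lit 188))) (XT.nd (nat_lit 78) (nat_lit 380) (nat_lit 0) (XT.lf (nat_lit 0) (nat_lit 62512385835) (nat_lit 456) (nat_lit 382879753727) (nat_lit 76) (nat_lit 300396514425) (nat_lit 136) (nat_lit 5) (nat_lit 142) (nat_lit 5) (nat_lit 137) (nat_lit 5) (nat_lit 513) (nat_lit 500) (nat_lit 187)) (XT.lf (nat_lit 0) (nat_lit 23382119687) (nat_lit 380) (nat_lit 117627886778) (nat_lit 456) (nat_lit 625322949789) (nat_lit 131) (nat_lit 5) (nat_lit 136) (nat_lit 5) (nat_lit 137)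 (nat_lit 5) (nat_lit 514) (nat_lit 500) (nat_lit 186)))) (XT.nd (nat_lit 156) (nat_lit 304) (nat_lit 0) (XT.nd (nat_lit 78) (nat_lit 380) (nat_lit 0) (XT.lf (nat_lit 0) (nat_lit 233559736395) (nat_lit 456) (nat_lit 327973445319) (nat_lit 76) (nat_lit 225864930507) (nat_lit 131) (nat_lit 5) (nat_lit 137) (nat_lit 5) (nat_lit 132) (nat_lit 5) (nat_lit 515) (nat_lit 500) (nat_lit 185)) (XT.lf (nat_lit 0) (nat_lit 109323516275) (nat_lit 380) (nat_lit 225048601048) (nat_lit 456) (nat_lit 474962650440) (nat_lit 126) (nat_lit 5) (nat_lit 131) (nat_lit 5) (nat_lit 132) (nat_lit 5) (nat_lit 516) (nat_lit 500) (nat_lit 184))) (XT.nd (nat_lit 78) (nat_lit 304) (nat_lit 0) (XT.lf (nat_lit 0) (nat_lit 447873055418) (nat_lit 456) (nat_lit 254312278812) (nat_lit 76) (nat_lit 129800524948) (nat_lit 126) (nat_lit 5) (nat_lit 132) (nat_lit 5) (nat_lit 127) (nat_lit 5) (nat_lit 517) (nat_lit 500) (nat_lit 183))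 (XT.lf (nat_lit 0) (nat_lit 216925276451) (nat_lit 304) (nat_lit 357199889422) (nat_lit 380) (nat_lit 281290533018) (nat_lit 122) (nat_lit 5) (nat_lit 126) (nat_lit 5) (nat_lit 127) (nat_lit 5) (nat_lit 518) (nat_lit 500) (nat_lit 182))))) (XT.nd (nat_lit 312) (nat_lit 532) (nat_lit 0) (XT.nd (nat_lit 156) (nat_lit 380) (nat_lit 0) (XT.nd (nat_lit 78) (nat_lit 304) (nat_lit 0) (XT.lf (nat_lit 0) (nat_lit 711145988899) (nat_lit 380) (nat_lit 159397049178) (nat_lit 76) (nat_lit 9251187161) (nat_lit 122) (nat_lit 5) (nat_lit 127) (nat_lit 5) (nat_lit 123) (nat_lit 5) (nat_lit 519) (nat_lit 500) (nat_lit 181)) (XT.lf (nat_lit 0) (nat_lit 348964285212) (nat_lit 304) (nat_lit 517357607398) (nat_lit 380) (nat_lit 38504583317) (nat_lit 118) (nat_lit 5) (nat_lit 122) (nat_lit 5) (nat_lit 123) (nat_lit 5) (nat_lit 520) (nat_lit 500) (nat_lit 180))) (XT.nd (nat_lit 78) (nat_lit 304) (nat_lit 0) (XT.lf (nat_lit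 0) (nat_lit 97748672315) (nat_lit 380) (nat_lit 44274373683) (nat_lit 76) (nat_lit 788873490602) (nat_lit 117) (nat_lit 5) (nat_lit 122) (nat_lit 5) (nat_lit 118) (nat_lit 5) (nat_lit 521) (nat_lit 500) (nat_lit 179)) (XT.lf (nat_lit 0) (nat_lit 251536435909) (nat_lit 380) (nat_lit 453379713658) (nat_lit 76) (nat_lit 252721597023) (nat_lit 113) (nat_lit 5) (nat_lit 118) (nat_lit 5) (nat_lit 114) (nat_lit 5) (nat_lit 522) (nat_lit 500) (nat_lit 178)))) (XT.nd (nat_lit 156) (nat_lit 228) (nat_lit 0) (XT.nd (nat_lit 78) (nat_lit 0) (nat_lit 0) (XT.lf (nat_lit 0) (nat_lit 96834398420) (nat_lit 304) (nat_lit 320781385884) (nat_lit 380) (nat_lit 567870122946) (nat_lit 109) (nat_lit 5) (nat_lit 113) (nat_lit 5) (nat_lit 114) (nat_lit 5) (nat_lit 523) (nat_lit 500) (nat_lit 177)) (XT.lf (nat_lit 0) (nat_lit 601092165845) (nat_lit 380) (nat_lit 325457904803) (nat_lit 76) (nat_lit 87721752008) (nat_lit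 109) (nat_lit 5) (nat_lit 114) (nat_lit 5) (nat_lit 110) (nat_lit 5) (nat_lit 524) (nat_lit 500) (nat_lit 176))) (XT.nd (nat_lit 78) (nat_lit 0) (nat_lit 0) (XT.lf (nat_lit 0) (nat_lit 269254485523) (nat_lit 228) (nat_lit 533950403480) (nat_lit 304) (nat_lit 240819018705) (nat_lit 106) (nat_lit 5) (nat_lit 109) (nat_lit 5) (nat_lit 110) (nat_lit 5) (nat_lit 525) (nat_lit 500) (nat_lit 175)) (XT.lf (nat_lit 0) (nat_lit 905001651319) (nat_lit 228) (nat_lit 115933378446) (nat_lit 304) (nat_lit 54052978173) (nat_lit 106) (nat_lit 5) (nat_lit 109) (nat_lit 5) (nat_lit 110) (nat_lit 5) (nat_lit 526) (nat_lit 500) (nat_lit 174))))))) (XT.nd (nat_lit 60996) (nat_lit 0) (nat_lit 1900) (XT.nd (nat_lit 624) (nat_lit 152) (nat_lit 0) (XT.nd (nat_lit 234) (nat_lit 684) (nat_lit 0) (XT.nd (nat_lit 78) (nat_lit 228) (nat_lit 0) (XT.lf (nat_lit 0) (nat_lit 150171059874) (nat_lit 304) (nat_lit 634096717553) (nat_lit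 76) (nat_lit 322488333446) (nat_lit 102) (nat_lit 5) (nat_lit 106) (nat_lit 5) (nat_lit 103) (nat_lit 5) (nat_lit 527) (nat_lit 500) (nat_lit 173)) (XT.nd (nat_lit 78) (nat_lit 0) (nat_lit 0) (XT.lf (nat_lit 0) (nat_lit 10884813762) (nat_lit 228) (nat_lit 356901430494) (nat_lit 304) (nat_lit 772032245032) (nat_lit 99) (nat_lit 5) (nat_lit 102) (nat_lit 5) (nat_lit 103) (nat_lit 5) (nat_lit 528) (nat_lit 500) (nat_lit 172)) (XT.lf (nat_lit 0) (nat_lit 608630736315) (nat_lit 304) (nat_lit 465477048653) (nat_lit 76) (nat_lit 99808774234) (nat_lit 99) (nat_lit 5) (nat_lit 103) (nat_lit 5) (nat_lit 100) (nat_lit 5) (nat_lit 529) (nat_lit 500) (nat_lit 171)))) (XT.nd (nat_lit 234) (nat_lit 456) (nat_lit 0) (XT.nd (nat_lit 78) (nat_lit 0) (nat_lit 0) (XT.lf (nat_lit 0) (nat_lit 232751046204) (nat_lit 228) (nat_lit 638251141012) (nat_lit 304) (nat_lit 338243108684) (nat_lit 96) (nat_lit 5) (nat_lit 99)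 (nat_lit 5) (nat_lit 100) (nat_lit 5) (nat_lit 530) (nat_lit 500) (nat_lit 170)) (XT.lf (nat_lit 0) (nat_lit 982050850699) (nat_lit 228) (nat_lit 172324434140) (nat_lit 304) (nat_lit 91571030885) (nat_lit 96) (nat_lit 5) (nat_lit 99) (nat_lit 5) (nat_lit 100) (nat_lit 5) (nat_lit 531) (nat_lit 500) (nat_lit 169))) (XT.nd (nat_lit 78) (nat_lit 228) (nat_lit 0) (XT.lf (nat_lit 0) (nat_lit 459114319816) (nat_lit 228) (nat_lit 32120273755) (nat_lit 76) (nat_lit 831678314030) (nat_lit 93) (nat_lit 5) (nat_lit 96) (nat_lit 5) (nat_lit 94) (nat_lit 5) (nat_lit 533) (nat_lit 500) (nat_lit 167)) (XT.lf (nat_lit 0) (nat_lit 770136532928) (nat_lit 304) (nat_lit 573325127888) (nat_lit 76) (nat_lit 19983952493) (nat_lit 90) (nat_lit 5) (nat_lit 94) (nat_lit 5) (nat_lit 91) (nat_lit 5) (nat_lit 534) (nat_lit 500) (nat_lit 166))))) (XT.nd (nat_lit 60060) (nat_lit 0) (nat_lit 4560) (XT.nd (nat_lit 59904) (nat_lit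 0) (nat_lit 4484) (XT.nd (nat_lit 59826) (nat_lit 0) (nat_lit 4484) (XT.lf (nat_lit 0) (nat_lit 248502346776) (nat_lit 152) (nat_lit 860693239718) (nat_lit 228) (nat_lit 296185081319) (nat_lit 88) (nat_lit 5) (nat_lit 90) (nat_lit 5) (nat_lit 91) (nat_lit 5) (nat_lit 535) (nat_lit 500) (nat_lit 165)) (XT.lf (nat_lit 0) (nat_lit 116577043362) (nat_lit 836) (nat_lit 81863299364) (nat_lit 836) (nat_lit 81863299364) (nat_lit 147) (nat_lit 3) (nat_lit 158) (nat_lit 3) (nat_lit 158) (nat_lit 5) (nat_lit 501) (nat_lit 501) (nat_lit 198))) (XT.nd (nat_lit 78) (nat_lit 0) (nat_lit 76) (XT.lf (nat_lit 76) (nat_lit 118085896988) (nat_lit 0) (nat_lit 122740898228) (nat_lit 836) (nat_lit 333703478223) (nat_lit 148) (nat_lit 5) (nat_lit 147) (nat_lit 3) (nat_lit 158) (nat_lit 5) (nat_lit 502) (nat_lit 501) (nat_lit 197)) (XT.lf (nat_lit 0) (nat_lit 254279136226) (nat_lit 760) (nat_lit 171960766296) (nat_lit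 836) (nat_lit 162639709785) (nat_lit 148) (nat_lit 5) (nat_lit 158) (nat_lit 5) (nat_lit 159) (nat_lit 5) (nat_lit 503) (nat_lit 501) (nat_lit 196)))) (XT.nd (nat_lit 156) (nat_lit 0) (nat_lit 76) (XT.nd (nat_lit 78) (nat_lit 0) (nat_lit 76) (XT.lf (nat_lit 76) (nat_lit 128859169163) (nat_lit 0) (nat_lit 143568911269) (nat_lit 836) (nat_lit 331317138379) (nat_lit 149) (nat_lit 5) (nat_lit 148) (nat_lit 5) (nat_lit 159) (nat_lit 5) (nat_lit 504) (nat_lit 501) (nat_lit 195)) (XT.lf (nat_lit 0) (nat_lit 296836877940) (nat_lit 760) (nat_lit 170958490078) (nat_lit 836) (nat_lit 151291117321) (nat_lit 149) (nat_lit 5) (nat_lit 159) (nat_lit 5) (nat_lit 160) (nat_lit 5) (nat_lit 505) (nat_lit 501) (nat_lit 194))) (XT.nd (nat_lit 78) (nat_lit 0) (nat_lit 76) (XT.lf (nat_lit 76) (nat_lit 150633049408) (nat_lit 0) (nat_lit 176538447310) (nat_lit 836) (nat_lit 307788049406) (nat_lit 150) (nat_lit 5) (nat_lit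 149) (nat_lit 5) (nat_lit 160) (nat_lit 5) (nat_lit 506) (nat_lit 501) (nat_lit 193)) (XT.lf (nat_lit 0) (nat_lit 363984007364) (nat_lit 760) (nat_lit 159307953302) (nat_lit 836) (nat_lit 128086241239) (nat_lit 150) (nat_lit 5) (nat_lit 160) (nat_lit 5) (nat_lit 161) (nat_lit 5) (nat_lit 507) (nat_lit 501) (nat_lit 192)))))) (XT.nd (nat_lit 624) (nat_lit 1368) (nat_lit 0) (XT.nd (nat_lit 312) (nat_lit 1444) (nat_lit 0) (XT.nd (nat_lit 156) (nat_lit 0) (nat_lit 76) (XT.nd (nat_lit 78) (nat_lit 0) (nat_lit 76) (XT.lf (nat_lit 76) (nat_lit 184988214776) (nat_lit 0) (nat_lit 223431175764) (nat_lit 836) (nat_lit 259909287586) (nat_lit 151) (nat_lit 5) (nat_lit 150) (nat_lit 5) (nat_lit 161) (nat_lit 5) (nat_lit 508) (nat_lit 501) (nat_lit 191)) (XT.lf (nat_lit 0) (nat_lit 459246082753) (nat_lit 760) (nat_lit 135433377347) (nat_lit 836) (nat_lit 91238741065) (nat_lit 151) (nat_lit 5) (nat_lit 161)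 (nat_lit 5) (nat_lit 162) (nat_lit 5) (nat_lit 509) (nat_lit 501) (nat_lit 190))) (XT.nd (nat_lit 78) (nat_lit 0) (nat_lit 76) (XT.lf (nat_lit 76) (nat_lit 233685649193) (nat_lit 0) (nat_lit 286239744948) (nat_lit 836) (nat_lit 184096241989) (nat_lit 152) (nat_lit 5) (nat_lit 151) (nat_lit 5) (nat_lit 162) (nat_lit 5) (nat_lit 510) (nat_lit 501) (nat_lit 189)) (XT.lf (nat_lit 0) (nat_lit 586557276406) (nat_lit 760) (nat_lit 97577986035) (nat_lit 76) (nat_lit 38749050139) (nat_lit 152) (nat_lit 5) (nat_lit 162) (nat_lit 5) (nat_lit 153) (nat_lit 5) (nat_lit 511) (nat_lit 501) (nat_lit 188)))) (XT.nd (nat_lit 156) (nat_lit 836) (nat_lit 0) (XT.nd (nat_lit 78) (nat_lit 0) (nat_lit 0) (XT.lf (nat_lit 0) (nat_lit 298685245518) (nat_lit 760) (nat_lit 367191267156) (nat_lit 836) (nat_lit 76345822185) (nat_lit 142) (nat_lit 5) (nat_lit 152) (nat_lit 5) (nat_lit 153) (nat_lit 5) (nat_lit 512) (nat_lit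 501) (nat_lit 187)) (XT.lf (nat_lit 0) (nat_lit 718149318369) (nat_lit 760) (nat_lit 32664914396) (nat_lit 836) (nat_lit 11630399386) (nat_lit 142) (nat_lit 5) (nat_lit 152) (nat_lit 5) (nat_lit 153) (nat_lit 5) (nat_lit 513) (nat_lit 501) (nat_lit 186))) (XT.nd (nat_lit 78) (nat_lit 380) (nat_lit 0) (XT.lf (nat_lit 0) (nat_lit 65638258677) (nat_lit 456) (nat_lit 402023489390) (nat_lit 76) (nat_lit 315416325907) (nat_lit 136) (nat_lit 5) (nat_lit 142) (nat_lit 5) (nat_lit 137) (nat_lit 5) (nat_lit 514) (nat_lit 501) (nat_lit 185)) (XT.lf (nat_lit 0) (nat_lit 24551473629) (nat_lit 380) (nat_lit 123509278507) (nat_lit 456) (nat_lit 656588839630) (nat_lit 131) (nat_lit 5) (nat_lit 136) (nat_lit 5) (nat_lit 137) (nat_lit 5) (nat_lit 515) (nat_lit 501) (nat_lit 184))))) (XT.nd (nat_lit 312) (nat_lit 684) (nat_lit 0) (XT.nd (nat_lit 156) (nat_lit 304) (nat_lit 0) (XT.nd (nat_lit 78) (nat_lit 380) (nat_lit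 0) (XT.lf (nat_lit 0) (nat_lit 245237956918) (nat_lit 456) (nat_lit 344371869759) (nat_lit 76) (nat_lit 237158179438) (nat_lit 131) (nat_lit 5) (nat_lit 137) (nat_lit 5) (nat_lit 132) (nat_lit 5) (nat_lit 516) (nat_lit 501) (nat_lit 183)) (XT.lf (nat_lit 0) (nat_lit 114789935918) (nat_lit 380) (nat_lit 236301013653) (nat_lit 456) (nat_lit 498710545232) (nat_lit 126) (nat_lit 5) (nat_lit 131) (nat_lit 5) (nat_lit 132) (nat_lit 5) (nat_lit 517) (nat_lit 501) (nat_lit 182))) (XT.nd (nat_lit 78) (nat_lit 304) (nat_lit 0) (XT.lf (nat_lit 0) (nat_lit 470266924049) (nat_lit 456) (nat_lit 267027649986) (nat_lit 76) (nat_lit 136290567280) (nat_lit 126) (nat_lit 5) (nat_lit 132) (nat_lit 5) (nat_lit 127) (nat_lit 5) (nat_lit 518) (nat_lit 501) (nat_lit 181)) (XT.lf (nat_lit 0) (nat_lit 227771779125) (nat_lit 304) (nat_lit 375059854352) (nat_lit 380) (nat_lit 295354839865) (nat_lit 122) (nat_lit 5) (nat_lit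 126) (nat_lit 5) (nat_lit 127) (nat_lit 5) (nat_lit 519) (nat_lit 501) (nat_lit 180)))) (XT.nd (nat_lit 156) (nat_lit 380) (nat_lit 0) (XT.nd (nat_lit 78) (nat_lit 304) (nat_lit 0) (XT.lf (nat_lit 0) (nat_lit 746703488126) (nat_lit 380) (nat_lit 167366664606) (nat_lit 76) (nat_lit 9713773753) (nat_lit 122) (nat_lit 5) (nat_lit 127) (nat_lit 5) (nat_lit 123) (nat_lit 5) (nat_lit 520) (nat_lit 501) (nat_lit 179)) (XT.lf (nat_lit 0) (nat_lit 366412732681) (nat_lit 304) (nat_lit 543225448470) (nat_lit 380) (nat_lit 40429608853) (nat_lit 118) (nat_lit 5) (nat_lit 122) (nat_lit 5) (nat_lit 123) (nat_lit 5) (nat_lit 521) (nat_lit 501) (nat_lit 178))) (XT.nd (nat_lit 78) (nat_lit 304) (nat_lit 0) (XT.lf (nat_lit 0) (nat_lit 102636293657) (nat_lit 380) (nat_lit 46487864035) (nat_lit 76) (nat_lit 828317196329) (nat_lit 117) (nat_lit 5) (nat_lit 122) (nat_lit 5) (nat_lit 118) (nat_lit 5) (nat_lit 522) (nat_lit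 501) (nat_lit 177)) (XT.lf (nat_lit 0) (nat_lit 264113440660) (nat_lit 380) (nat_lit 476048466217) (nat_lit 76) (nat_lit 265357717874) (nat_lit 113) (nat_lit 5) (nat_lit 118) (nat_lit 5) (nat_lit 114) (nat_lit 5) (nat_lit 523) (nat_lit 501) (nat_lit 176))))))))
noncomputable def xc249 : XT := (XT.nd (nat_lit 62322) (nat_lit 0) (nat_lit 228) (XT.nd (nat_lit 61074) (nat_lit 0) (nat_lit 2432) (XT.nd (nat_lit 546) (nat_lit 684) (nat_lit 0) (XT.nd (nat_lit 234) (nat_lit 532) (nat_lit 0) (XT.nd (nat_lit 78) (nat_lit 228) (nat_lit 0) (XT.lf (nat_lit 0) (nat_lit 101676347705) (nat_lit 304) (nat_lit 336820403639) (nat_lit 380) (nat_lit 596263442357) (nat_lit 109) (nat_lit 5) (nat_lit 113) (nat_lit 5) (nat_lit 114) (nat_lit 5) (nat_lit 524) (nat_lit 501) (nat_lit 175)) (XT.nd (nat_lit 78) (nat_lit 228) (nat_lit 0) (XT.lf (nat_lit 0) (nat_lit 631146944261) (nat_lit 380) (nat_lit 341730573880) (nat_lit 76)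 (nat_lit 92107887123) (nat_lit 109) (nat_lit 5) (nat_lit 114) (nat_lit 5) (nat_lit 110) (nat_lit 5) (nat_lit 525) (nat_lit 501) (nat_lit 174)) (XT.lf (nat_lit 0) (nat_lit 282717432314) (nat_lit 228) (nat_lit 560647866635) (nat_lit 304) (nat_lit 252859795850) (nat_lit 106) (nat_lit 5) (nat_lit 109) (nat_lit 5) (nat_lit 110) (nat_lit 5) (nat_lit 526) (nat_lit 501) (nat_lit 173)))) (XT.nd (nat_lit 156) (nat_lit 228) (nat_lit 0) (XT.nd (nat_lit 78) (nat_lit 304) (nat_lit 0) (XT.lf (nat_lit 0) (nat_lit 950251945805) (nat_lit 228) (nat_lit 121729993065) (nat_lit 304) (nat_lit 56755461568) (nat_lit 106) (nat_lit 5) (nat_lit 109) (nat_lit 5) (nat_lit 110) (nat_lit 5) (nat_lit 527) (nat_lit 501) (nat_lit 172)) (XT.lf (nat_lit 0) (nat_lit 157679769694) (nat_lit 304) (nat_lit 665801332792) (nat_lit 76) (nat_lit 338612806074) (nat_lit 102) (nat_lit 5) (nat_lit 106) (nat_lit 5) (nat_lit 103) (nat_lit 5) (nat_lit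 528) (nat_lit 501) (nat_lit 171))) (XT.nd (nat_lit 78) (nat_lit 0) (nat_lit 0) (XT.lf (nat_lit 0) (nat_lit 11429271531) (nat_lit 228) (nat_lit 374746437686) (nat_lit 304) (nat_lit 810633696884) (nat_lit 99) (nat_lit 5) (nat_lit 102) (nat_lit 5) (nat_lit 103) (nat_lit 5) (nat_lit 529) (nat_lit 501) (nat_lit 170)) (XT.lf (nat_lit 0) (nat_lit 639062419562) (nat_lit 304) (nat_lit 488750688010) (nat_lit 76) (nat_lit 104799272254) (nat_lit 99) (nat_lit 5) (nat_lit 103) (nat_lit 5) (nat_lit 100) (nat_lit 5) (nat_lit 530) (nat_lit 501) (nat_lit 169))))) (XT.nd (nat_lit 60216) (nat_lit 0) (nat_lit 4332) (XT.nd (nat_lit 234) (nat_lit 228) (nat_lit 0) (XT.nd (nat_lit 156) (nat_lit 228) (nat_lit 0) (XT.lf (nat_lit 0) (nat_lit 244388808153) (nat_lit 228) (nat_lit 670163631155) (nat_lit 304) (nat_lit 355155114237) (nat_lit 96) (nat_lit 5) (nat_lit 99) (nat_lit 5) (nat_lit 100) (nat_lit 5) (nat_lit 531) (nat_lit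 501) (nat_lit 168)) (XT.lf (nat_lit 0) (nat_lit 183711554914) (nat_lit 228) (nat_lit 831005662528) (nat_lit 76) (nat_lit 333175443208) (nat_lit 93) (nat_lit 5) (nat_lit 96) (nat_lit 5) (nat_lit 94) (nat_lit 5) (nat_lit 533) (nat_lit 501) (nat_lit 166))) (XT.nd (nat_lit 78) (nat_lit 228) (nat_lit 0) (XT.lf (nat_lit 0) (nat_lit 482070165108) (nat_lit 228) (nat_lit 33726090626) (nat_lit 76) (nat_lit 873262290770) (nat_lit 93) (nat_lit 5) (nat_lit 96) (nat_lit 5) (nat_lit 94) (nat_lit 5) (nat_lit 534) (nat_lit 501) (nat_lit 165)) (XT.lf (nat_lit 0) (nat_lit 808643486795) (nat_lit 304) (nat_lit 601991185375) (nat_lit 76) (nat_lit 20983215432) (nat_lit 90) (nat_lit 5) (nat_lit 94) (nat_lit 5) (nat_lit 91) (nat_lit 5) (nat_lit 535) (nat_lit 501) (nat_lit 164)))) (XT.nd (nat_lit 156) (nat_lit 0) (nat_lit 76) (XT.nd (nat_lit 78) (nat_lit 0) (nat_lit 0) (XT.lf (nat_lit 0) (nat_lit 122406096873) (nat_lit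 836) (nat_lit 85956358612) (nat_lit 836) (nat_lit 85956358612) (nat_lit 147) (nat_lit 3) (nat_lit 158) (nat_lit 3) (nat_lit 158) (nat_lit 5) (nat_lit 502) (nat_lit 502) (nat_lit 196)) (XT.lf (nat_lit 76) (nat_lit 123990399868) (nat_lit 0) (nat_lit 128878121865) (nat_lit 836) (nat_lit 350388245981) (nat_lit 148) (nat_lit 5) (nat_lit 147) (nat_lit 3) (nat_lit 158) (nat_lit 5) (nat_lit 503) (nat_lit 502) (nat_lit 195))) (XT.nd (nat_lit 78) (nat_lit 0) (nat_lit 0) (XT.lf (nat_lit 0) (nat_lit 266993458719) (nat_lit 760) (nat_lit 180558585356) (nat_lit 836) (nat_lit 170771530506) (nat_lit 148) (nat_lit 5) (nat_lit 158) (nat_lit 5) (nat_lit 159) (nat_lit 5) (nat_lit 504) (nat_lit 502) (nat_lit 194)) (XT.lf (nat_lit 76) (nat_lit 135302343339) (nat_lit 0) (nat_lit 150747492750) (nat_lit 836) (nat_lit 347882626026) (nat_lit 149) (nat_lit 5) (nat_lit 148) (nat_lit 5) (nat_lit 159) (nat_lit 5) (nat_lit 505)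 (nat_lit 502) (nat_lit 193)))))) (XT.nd (nat_lit 624) (nat_lit 1520) (nat_lit 0) (XT.nd (nat_lit 312) (nat_lit 532) (nat_lit 0) (XT.nd (nat_lit 156) (nat_lit 0) (nat_lit 76) (XT.nd (nat_lit 78) (nat_lit 0) (nat_lit 0) (XT.lf (nat_lit 0) (nat_lit 311679054708) (nat_lit 760) (nat_lit 179506190319) (nat_lit 836) (nat_lit 158855547884) (nat_lit 149) (nat_lit 5) (nat_lit 159) (nat_lit 5) (nat_lit 160) (nat_lit 5) (nat_lit 506) (nat_lit 502) (nat_lit 192)) (XT.lf (nat_lit 76) (nat_lit 158164922524) (nat_lit 0) (nat_lit 185365469495) (nat_lit 836) (nat_lit 323177115340) (nat_lit 150) (nat_lit 5) (nat_lit 149) (nat_lit 5) (nat_lit 160) (nat_lit 5) (nat_lit 507) (nat_lit 502) (nat_lit 191))) (XT.nd (nat_lit 78) (nat_lit 0) (nat_lit 0) (XT.lf (nat_lit 0) (nat_lit 382183511452) (nat_lit 760) (nat_lit 167273124037) (nat_lit 836) (nat_lit 134490461278) (nat_lit 150) (nat_lit 5) (nat_lit 160) (nat_lit 5) (nat_lit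 161) (nat_lit 5) (nat_lit 508) (nat_lit 502) (nat_lit 190)) (XT.lf (nat_lit 76) (nat_lit 194237848784) (nat_lit 0) (nat_lit 234602804026) (nat_lit 836) (nat_lit 272904444540) (nat_lit 151) (nat_lit 5) (nat_lit 150) (nat_lit 5) (nat_lit 161) (nat_lit 5) (nat_lit 509) (nat_lit 502) (nat_lit 189)))) (XT.nd (nat_lit 156) (nat_lit 684) (nat_lit 0) (XT.nd (nat_lit 78) (nat_lit 0) (nat_lit 0) (XT.lf (nat_lit 0) (nat_lit 482208664661) (nat_lit 760) (nat_lit 142204818561) (nat_lit 836) (nat_lit 95800614071) (nat_lit 151) (nat_lit 5) (nat_lit 161) (nat_lit 5) (nat_lit 162) (nat_lit 5) (nat_lit 510) (nat_lit 502) (nat_lit 188)) (XT.lf (nat_lit 76) (nat_lit 245370155634) (nat_lit 0) (nat_lit 300551776254) (nat_lit 836) (nat_lit 193300772606) (nat_lit 152) (nat_lit 5) (nat_lit 151) (nat_lit 5) (nat_lit 162) (nat_lit 5) (nat_lit 511) (nat_lit 502) (nat_lit 187))) (XT.nd (nat_lit 78) (nat_lit 760) (nat_lit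 0) (XT.lf (nat_lit 0) (nat_lit 615885394847) (nat_lit 760) (nat_lit 102456658564) (nat_lit 76) (nat_lit 40686462028) (nat_lit 152) (nat_lit 5) (nat_lit 162) (nat_lit 5) (nat_lit 153) (nat_lit 5) (nat_lit 512) (nat_lit 502) (nat_lit 186)) (XT.lf (nat_lit 0) (nat_lit 313619730908) (nat_lit 760) (nat_lit 385550853378) (nat_lit 836) (nat_lit 80162854979) (nat_lit 142) (nat_lit 5) (nat_lit 152) (nat_lit 5) (nat_lit 153) (nat_lit 5) (nat_lit 513) (nat_lit 502) (nat_lit 185))))) (XT.nd (nat_lit 312) (nat_lit 684) (nat_lit 0) (XT.nd (nat_lit 156) (nat_lit 380) (nat_lit 0) (XT.nd (nat_lit 78) (nat_lit 456) (nat_lit 0) (XT.lf (nat_lit 0) (nat_lit 754056996778) (nat_lit 760) (nat_lit 34298181892) (nat_lit 836) (nat_lit 12211673341) (nat_lit 142) (nat_lit 5) (nat_lit 152) (nat_lit 5) (nat_lit 153) (nat_lit 5) (nat_lit 514) (nat_lit 502) (nat_lit 184)) (XT.lf (nat_lit 0) (nat_lit 68920401588) (nat_lit 456)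 (nat_lit 422124435268) (nat_lit 76) (nat_lit 331187129286) (nat_lit 136) (nat_lit 5) (nat_lit 142) (nat_lit 5) (nat_lit 137) (nat_lit 5) (nat_lit 515) (nat_lit 502) (nat_lit 183))) (XT.nd (nat_lit 78) (nat_lit 0) (nat_lit 0) (XT.lf (nat_lit 0) (nat_lit 25779272216) (nat_lit 380) (nat_lit 129684740065) (nat_lit 456) (nat_lit 689418047917) (nat_lit 131) (nat_lit 5) (nat_lit 136) (nat_lit 5) (nat_lit 137) (nat_lit 5) (nat_lit 516) (nat_lit 502) (nat_lit 182)) (XT.lf (nat_lit 0) (nat_lit 257500066740) (nat_lit 456) (nat_lit 361590238462) (nat_lit 76) (nat_lit 249016090592) (nat_lit 131) (nat_lit 5) (nat_lit 137) (nat_lit 5) (nat_lit 132) (nat_lit 5) (nat_lit 517) (nat_lit 502) (nat_lit 181)))) (XT.nd (nat_lit 156) (nat_lit 304) (nat_lit 0) (XT.nd (nat_lit 78) (nat_lit 0) (nat_lit 0) (XT.lf (nat_lit 0) (nat_lit 120529653873) (nat_lit 380) (nat_lit 248116048511) (nat_lit 456) (nat_lit 523645856865)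 (nat_lit 126) (nat_lit 5) (nat_lit 131) (nat_lit 5) (nat_lit 132) (nat_lit 5) (nat_lit 518) (nat_lit 502) (nat_lit 180)) (XT.lf (nat_lit 0) (nat_lit 493780466044) (nat_lit 456) (nat_lit 280378812289) (nat_lit 76) (nat_lit 143105110233) (nat_lit 126) (nat_lit 5) (nat_lit 132) (nat_lit 5) (nat_lit 127) (nat_lit 5) (nat_lit 519) (nat_lit 502) (nat_lit 179))) (XT.nd (nat_lit 78) (nat_lit 0) (nat_lit 0) (XT.lf (nat_lit 0) (nat_lit 239160584727) (nat_lit 304) (nat_lit 393812820276) (nat_lit 380) (nat_lit 310122382490) (nat_lit 122) (nat_lit 5) (nat_lit 126) (nat_lit 5) (nat_lit 127) (nat_lit 5) (nat_lit 520) (nat_lit 502) (nat_lit 178)) (XT.lf (nat_lit 0) (nat_lit 784038843742) (nat_lit 380) (nat_lit 175734782842) (nat_lit 76) (nat_lit 10199487142) (nat_lit 122) (nat_lit 5) (nat_lit 127) (nat_lit 5) (nat_lit 123) (nat_lit 5) (nat_lit 521) (nat_lit 502) (nat_lit 177))))))) (XT.nd (nat_lit 61074) (nat_lit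 0) (nat_lit 2508) (XT.nd (nat_lit 546) (nat_lit 988) (nat_lit 0) (XT.nd (nat_lit 234) (nat_lit 532) (nat_lit 0) (XT.nd (nat_lit 78) (nat_lit 380) (nat_lit 0) (XT.lf (nat_lit 0) (nat_lit 384733580842) (nat_lit 304) (nat_lit 570386685249) (nat_lit 380) (nat_lit 42450904596) (nat_lit 118) (nat_lit 5) (nat_lit 122) (nat_lit 5) (nat_lit 123) (nat_lit 5) (nat_lit 522) (nat_lit 502) (nat_lit 176)) (XT.nd (nat_lit 78) (nat_lit 304) (nat_lit 0) (XT.lf (nat_lit 0) (nat_lit 107768278614) (nat_lit 380) (nat_lit 48812050132) (nat_lit 76) (nat_lit 869733084442) (nat_lit 117) (nat_lit 5) (nat_lit 122) (nat_lit 5) (nat_lit 118) (nat_lit 5) (nat_lit 523) (nat_lit 502) (nat_lit 175)) (XT.lf (nat_lit 0) (nat_lit 277319278640) (nat_lit 380) (nat_lit 499850678077) (nat_lit 76) (nat_lit 278625640955) (nat_lit 113) (nat_lit 5) (nat_lit 118) (nat_lit 5) (nat_lit 114) (nat_lit 5) (nat_lit 524) (nat_lit 502) (nat_lit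 174)))) (XT.nd (nat_lit 156) (nat_lit 228) (nat_lit 0) (XT.nd (nat_lit 78) (nat_lit 0) (nat_lit 0) (XT.lf (nat_lit 0) (nat_lit 106760373131) (nat_lit 304) (nat_lit 353661377073) (nat_lit 380) (nat_lit 626076445099) (nat_lit 109) (nat_lit 5) (nat_lit 113) (nat_lit 5) (nat_lit 114) (nat_lit 5) (nat_lit 525) (nat_lit 502) (nat_lit 173)) (XT.lf (nat_lit 0) (nat_lit 662704445781) (nat_lit 380) (nat_lit 358816897438) (nat_lit 76) (nat_lit 96713324576) (nat_lit 109) (nat_lit 5) (nat_lit 114) (nat_lit 5) (nat_lit 110) (nat_lit 5) (nat_lit 526) (nat_lit 502) (nat_lit 172))) (XT.nd (nat_lit 78) (nat_lit 0) (nat_lit 0) (XT.lf (nat_lit 0) (nat_lit 296853505758) (nat_lit 228) (nat_lit 588680208249) (nat_lit 304) (nat_lit 265502628011) (nat_lit 106) (nat_lit 5) (nat_lit 109) (nat_lit 5) (nat_lit 110) (nat_lit 5) (nat_lit 527) (nat_lit 502) (nat_lit 171)) (XT.lf (nat_lit 0) (nat_lit 997764735312) (nat_lit 228)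 (nat_lit 127816443463) (nat_lit 304) (nat_lit 59593084520) (nat_lit 106) (nat_lit 5) (nat_lit 109) (nat_lit 5) (nat_lit 110) (nat_lit 5) (nat_lit 528) (nat_lit 502) (nat_lit 170))))) (XT.nd (nat_lit 312) (nat_lit 228) (nat_lit 0) (XT.nd (nat_lit 156) (nat_lit 228) (nat_lit 0) (XT.nd (nat_lit 78) (nat_lit 228) (nat_lit 0) (XT.lf (nat_lit 0) (nat_lit 165563900426) (nat_lit 304) (nat_lit 699091199305) (nat_lit 76) (nat_lit 355543497131) (nat_lit 102) (nat_lit 5) (nat_lit 106) (nat_lit 5) (nat_lit 103) (nat_lit 5) (nat_lit 529) (nat_lit 502) (nat_lit 169)) (XT.lf (nat_lit 0) (nat_lit 12000932006) (nat_lit 228) (nat_lit 393483701218) (nat_lit 304) (nat_lit 851165236240) (nat_lit 99) (nat_lit 5) (nat_lit 102) (nat_lit 5) (nat_lit 103) (nat_lit 5) (nat_lit 530) (nat_lit 502) (nat_lit 168))) (XT.nd (nat_lit 78) (nat_lit 228) (nat_lit 0) (XT.lf (nat_lit 0) (nat_lit 671015673357) (nat_lit 304) (nat_lit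 513188029145) (nat_lit 76) (nat_lit 110039289661) (nat_lit 99) (nat_lit 5) (nat_lit 103) (nat_lit 5) (nat_lit 100) (nat_lit 5) (nat_lit 531) (nat_lit 502) (nat_lit 167)) (XT.lf (nat_lit 0) (nat_lit 256608438708) (nat_lit 228) (nat_lit 703671752026) (nat_lit 304) (nat_lit 372912734002) (nat_lit 96) (nat_lit 5) (nat_lit 99) (nat_lit 5) (nat_lit 100) (nat_lit 5) (nat_lit 532) (nat_lit 502) (nat_lit 166)))) (XT.nd (nat_lit 156) (nat_lit 0) (nat_lit 0) (XT.nd (nat_lit 78) (nat_lit 228) (nat_lit 0) (XT.lf (nat_lit 0) (nat_lit 1082711453628) (nat_lit 228) (nat_lit 189987563935) (nat_lit 304) (nat_lit 100956782196) (nat_lit 96) (nat_lit 5) (nat_lit 99) (nat_lit 5) (nat_lit 100) (nat_lit 5) (nat_lit 533) (nat_lit 502) (nat_lit 165)) (XT.lf (nat_lit 0) (nat_lit 192897255804) (nat_lit 228) (nat_lit 872555758210) (nat_lit 76) (nat_lit 349834273500) (nat_lit 93) (nat_lit 5) (nat_lit 96) (nat_lit 5) (nat_lit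 94) (nat_lit 5) (nat_lit 534) (nat_lit 502) (nat_lit 164))) (XT.nd (nat_lit 59982) (nat_lit 0) (nat_lit 4104) (XT.lf (nat_lit 0) (nat_lit 506173790643) (nat_lit 228) (nat_lit 35412216639) (nat_lit 76) (nat_lit 916925460673) (nat_lit 93) (nat_lit 5) (nat_lit 96) (nat_lit 5) (nat_lit 94) (nat_lit 5) (nat_lit 535) (nat_lit 502) (nat_lit 163)) (XT.lf (nat_lit 0) (nat_lit 128526584339) (nat_lit 836) (nat_lit 90254080651) (nat_lit 836) (nat_lit 90254080651) (nat_lit 147) (nat_lit 3) (nat_lit 158) (nat_lit 3) (nat_lit 158) (nat_lit 5) (nat_lit 503) (nat_lit 503) (nat_lit 194)))))) (XT.nd (nat_lit 624) (nat_lit 1596) (nat_lit 0) (XT.nd (nat_lit 312) (nat_lit 0) (nat_lit 152) (XT.nd (nat_lit 156) (nat_lit 0) (nat_lit 76) (XT.nd (nat_lit 78) (nat_lit 0) (nat_lit 76) (XT.lf (nat_lit 76) (nat_lit 130190108550) (nat_lit 0) (nat_lit 135322190069) (nat_lit 836) (nat_lit 367907289887) (nat_lit 148) (nat_lit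 5) (nat_lit 147) (nat_lit 3) (nat_lit 158) (nat_lit 5) (nat_lit 504) (nat_lit 503) (nat_lit 193)) (XT.lf (nat_lit 0) (nat_lit 280343463339) (nat_lit 760) (nat_lit 189586315753) (nat_lit 836) (nat_lit 179309957582) (nat_lit 148) (nat_lit 5) (nat_lit 158) (nat_lit 5) (nat_lit 159) (nat_lit 5) (nat_lit 505) (nat_lit 503) (nat_lit 192))) (XT.nd (nat_lit 78) (nat_lit 0) (nat_lit 76) (XT.lf (nat_lit 76) (nat_lit 142067656169) (nat_lit 0) (nat_lit 158284990670) (nat_lit 836) (nat_lit 365276422387) (nat_lit 149) (nat_lit 5) (nat_lit 148) (nat_lit 5) (nat_lit 159) (nat_lit 5) (nat_lit 506) (nat_lit 503) (nat_lit 191)) (XT.lf (nat_lit 0) (nat_lit 327263309367) (nat_lit 760) (nat_lit 188481296422) (nat_lit 836) (nat_lit 166798211625) (nat_lit 149) (nat_lit 5) (nat_lit 159) (nat_lit 5) (nat_lit 160) (nat_lit 5) (nat_lit 507) (nat_lit 503) (nat_lit 190)))) (XT.nd (nat_lit 156) (nat_lit 0) (nat_lit 76) (XT.nd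 (nat_lit 78) (nat_lit 0) (nat_lit 76) (XT.lf (nat_lit 76) (nat_lit 166073368782) (nat_lit 0) (nat_lit 194633833509) (nat_lit 836) (nat_lit 339335665858) (nat_lit 150) (nat_lit 5) (nat_lit 149) (nat_lit 5) (nat_lit 160) (nat_lit 5) (nat_lit 508) (nat_lit 503) (nat_lit 189)) (XT.lf (nat_lit 0) (nat_lit 401292962508) (nat_lit 760) (nat_lit 175636574407) (nat_lit 836) (nat_lit 141214900874) (nat_lit 150) (nat_lit 5) (nat_lit 160) (nat_lit 5) (nat_lit 161) (nat_lit 5) (nat_lit 509) (nat_lit 503) (nat_lit 188))) (XT.nd (nat_lit 78) (nat_lit 0) (nat_lit 76) (XT.lf (nat_lit 76) (nat_lit 203949943735) (nat_lit 0) (nat_lit 246333007242) (nat_lit 836) (nat_lit 286549387924) (nat_lit 151) (nat_lit 5) (nat_lit 150) (nat_lit 5) (nat_lit 161) (nat_lit 5) (nat_lit 510) (nat_lit 503) (nat_lit 187)) (XT.lf (nat_lit 0) (nat_lit 506319349840) (nat_lit 760) (nat_lit 149314853001) (nat_lit 836) (nat_lit 100590586681)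 (nat_lit 151) (nat_lit 5) (nat_lit 161) (nat_lit 5) (nat_lit 162) (nat_lit 5) (nat_lit 511) (nat_lit 503) (nat_lit 186))))) (XT.nd (nat_lit 312) (nat_lit 1216) (nat_lit 0) (XT.nd (nat_lit 156) (nat_lit 684) (nat_lit 0) (XT.nd (nat_lit 78) (nat_lit 0) (nat_lit 76) (XT.lf (nat_lit 76) (nat_lit 257638866574) (nat_lit 0) (nat_lit 315579405029) (nat_lit 836) (nat_lit 202965555924) (nat_lit 152) (nat_lit 5) (nat_lit 151) (nat_lit 5) (nat_lit 162) (nat_lit 5) (nat_lit 512) (nat_lit 503) (nat_lit 185)) (XT.lf (nat_lit 0) (nat_lit 646679895539) (nat_lit 760) (nat_lit 107579285802) (nat_lit 76) (nat_lit 42720748288) (nat_lit 152) (nat_lit 5) (nat_lit 162) (nat_lit 5) (nat_lit 153) (nat_lit 5) (nat_lit 513) (nat_lit 503) (nat_lit 184))) (XT.nd (nat_lit 78) (nat_lit 0) (nat_lit 0) (XT.lf (nat_lit 0) (nat_lit 329300919826) (nat_lit 760) (nat_lit 404828416786) (nat_lit 836) (nat_lit 84170763429) (nat_lit 142)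 (nat_lit 5) (nat_lit 152) (nat_lit 5) (nat_lit 153) (nat_lit 5) (nat_lit 514) (nat_lit 503) (nat_lit 183)) (XT.lf (nat_lit 0) (nat_lit 791760039352) (nat_lit 760) (nat_lit 36013110738) (nat_lit 836) (nat_lit 12822033866) (nat_lit 142) (nat_lit 5) (nat_lit 152) (nat_lit 5) (nat_lit 153) (nat_lit 5) (nat_lit 515) (nat_lit 503) (nat_lit 182)))) (XT.nd (nat_lit 156) (nat_lit 380) (nat_lit 0) (XT.nd (nat_lit 78) (nat_lit 380) (nat_lit 0) (XT.lf (nat_lit 0) (nat_lit 72366630264) (nat_lit 456) (nat_lit 443230449692) (nat_lit 76) (nat_lit 347746474035) (nat_lit 136) (nat_lit 5) (nat_lit 142) (nat_lit 5) (nat_lit 137) (nat_lit 5) (nat_lit 516) (nat_lit 503) (nat_lit 181)) (XT.lf (nat_lit 0) (nat_lit 27068439822) (nat_lit 380) (nat_lit 136168974921) (nat_lit 456) (nat_lit 723888738345) (nat_lit 131) (nat_lit 5) (nat_lit 136) (nat_lit 5) (nat_lit 137) (nat_lit 5) (nat_lit 517) (nat_lit 503) (nat_lit 180)))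 (XT.nd (nat_lit 78) (nat_lit 380) (nat_lit 0) (XT.lf (nat_lit 0) (nat_lit 270375262345) (nat_lit 456) (nat_lit 379669546498) (nat_lit 76) (nat_lit 261466897101) (nat_lit 131) (nat_lit 5) (nat_lit 137) (nat_lit 5) (nat_lit 132) (nat_lit 5) (nat_lit 518) (nat_lit 503) (nat_lit 179)) (XT.lf (nat_lit 0) (nat_lit 126556337166) (nat_lit 380) (nat_lit 260521836582) (nat_lit 456) (nat_lit 549827954126) (nat_lit 126) (nat_lit 5) (nat_lit 131) (nat_lit 5) (nat_lit 132) (nat_lit 5) (nat_lit 519) (nat_lit 503) (nat_lit 178))))))))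
noncomputable def xc250 : XT := (XT.nd (nat_lit 62556) (nat_lit 0) (nat_lit 0) (XT.nd (nat_lit 61308) (nat_lit 0) (nat_lit 2280) (XT.nd (nat_lit 546) (nat_lit 988) (nat_lit 0) (XT.nd (nat_lit 234) (nat_lit 988) (nat_lit 0) (XT.nd (nat_lit 78) (nat_lit 304) (nat_lit 0) (XT.lf (nat_lit 0) (nat_lit 518469666935) (nat_lit 456) (nat_lit 294397553178) (nat_lit 76) (nat_lit 150260378978) (nat_lit 126) (nat_lit 5) (nat_lit 132) (nat_lit 5) (nat_lit 127) (nat_lit 5) (nat_lit 520) (nat_lit 503) (nat_lit 177)) (XT.nd (nat_lit 78) (nat_lit 0) (nat_lit 0) (XT.lf (nat_lit 0) (nat_lit 251118810467) (nat_lit 304) (nat_lit 413503436987) (nat_lit 380) (nat_lit 325628320782) (nat_lit 122) (nat_lit 5) (nat_lit 126) (nat_lit 5) (nat_lit 127) (nat_lit 5) (nat_lit 521) (nat_lit 503) (nat_lit 176)) (XT.lf (nat_lit 0) (nat_lit 823240950291) (nat_lit 380) (nat_lit 184521326978) (nat_lit 76) (nat_lit 10709483904) (nat_lit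 122) (nat_lit 5) (nat_lit 127) (nat_lit 5) (nat_lit 123) (nat_lit 5) (nat_lit 522) (nat_lit 503) (nat_lit 175)))) (XT.nd (nat_lit 156) (nat_lit 608) (nat_lit 0) (XT.nd (nat_lit 78) (nat_lit 76) (nat_lit 0) (XT.lf (nat_lit 0) (nat_lit 403970451745) (nat_lit 304) (nat_lit 598905987181) (nat_lit 380) (nat_lit 44573282299) (nat_lit 118) (nat_lit 5) (nat_lit 122) (nat_lit 5) (nat_lit 123) (nat_lit 5) (nat_lit 523) (nat_lit 503) (nat_lit 174)) (XT.lf (nat_lit 0) (nat_lit 113156846988) (nat_lit 380) (nat_lit 51252464789) (nat_lit 76) (nat_lit 913219764330) (nat_lit 117) (nat_lit 5) (nat_lit 122) (nat_lit 5) (nat_lit 118) (nat_lit 5) (nat_lit 524) (nat_lit 503) (nat_lit 173))) (XT.nd (nat_lit 78) (nat_lit 304) (nat_lit 0) (XT.lf (nat_lit 0) (nat_lit 291185393090) (nat_lit 380) (nat_lit 524843020189) (nat_lit 76) (nat_lit 292556956733) (nat_lit 113) (nat_lit 5) (nat_lit 118) (nat_lit 5) (nat_lit 114)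 (nat_lit 5) (nat_lit 525) (nat_lit 503) (nat_lit 172)) (XT.lf (nat_lit 0) (nat_lit 112098580486) (nat_lit 304) (nat_lit 371344403525) (nat_lit 380) (nat_lit 657380113725) (nat_lit 109) (nat_lit 5) (nat_lit 113) (nat_lit 5) (nat_lit 114) (nat_lit 5) (nat_lit 526) (nat_lit 503) (nat_lit 171))))) (XT.nd (nat_lit 390) (nat_lit 456) (nat_lit 0) (XT.nd (nat_lit 156) (nat_lit 304) (nat_lit 0) (XT.nd (nat_lit 78) (nat_lit 228) (nat_lit 0) (XT.lf (nat_lit 0) (nat_lit 695839808031) (nat_lit 380) (nat_lit 376757556245) (nat_lit 76) (nat_lit 101549029895) (nat_lit 109) (nat_lit 5) (nat_lit 114) (nat_lit 5) (nat_lit 110) (nat_lit 5) (nat_lit 527) (nat_lit 503) (nat_lit 170)) (XT.lf (nat_lit 0) (nat_lit 311696364110) (nat_lit 228) (nat_lit 618114171751) (nat_lit 304) (nat_lit 278777616434) (nat_lit 106) (nat_lit 5) (nat_lit 109) (nat_lit 5) (nat_lit 110) (nat_lit 5) (nat_lit 528) (nat_lit 503) (nat_lit 169)))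 (XT.nd (nat_lit 78) (nat_lit 304) (nat_lit 0) (XT.lf (nat_lit 0) (nat_lit 1047653146425) (nat_lit 228) (nat_lit 134207220960) (nat_lit 304) (nat_lit 62572602577) (nat_lit 106) (nat_lit 5) (nat_lit 109) (nat_lit 5) (nat_lit 110) (nat_lit 5) (nat_lit 529) (nat_lit 503) (nat_lit 168)) (XT.lf (nat_lit 0) (nat_lit 173842224468) (nat_lit 304) (nat_lit 734045577750) (nat_lit 76) (nat_lit 373320718022) (nat_lit 102) (nat_lit 5) (nat_lit 106) (nat_lit 5) (nat_lit 103) (nat_lit 5) (nat_lit 530) (nat_lit 503) (nat_lit 167)))) (XT.nd (nat_lit 156) (nat_lit 0) (nat_lit 0) (XT.nd (nat_lit 78) (nat_lit 228) (nat_lit 0) (XT.lf (nat_lit 0) (nat_lit 704566577494) (nat_lit 304) (nat_lit 538847255305) (nat_lit 76) (nat_lit 115541302937) (nat_lit 99) (nat_lit 5) (nat_lit 103) (nat_lit 5) (nat_lit 100) (nat_lit 5) (nat_lit 532) (nat_lit 503) (nat_lit 165)) (XT.lf (nat_lit 0) (nat_lit 269439033114) (nat_lit 228) (nat_lit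 738855284583) (nat_lit 304) (nat_lit 391558247394) (nat_lit 96) (nat_lit 5) (nat_lit 99) (nat_lit 5) (nat_lit 100) (nat_lit 5) (nat_lit 533) (nat_lit 503) (nat_lit 164))) (XT.nd (nat_lit 60138) (nat_lit 0) (nat_lit 3876) (XT.lf (nat_lit 0) (nat_lit 1136847190567) (nat_lit 228) (nat_lit 199486889708) (nat_lit 304) (nat_lit 106004503870) (nat_lit 96) (nat_lit 5) (nat_lit 99) (nat_lit 5) (nat_lit 100) (nat_lit 5) (nat_lit 534) (nat_lit 503) (nat_lit 163)) (XT.lf (nat_lit 0) (nat_lit 134953079201) (nat_lit 836) (nat_lit 94766697708) (nat_lit 836) (nat_lit 94766697708) (nat_lit 147) (nat_lit 3) (nat_lit 158) (nat_lit 3) (nat_lit 158) (nat_lit 5) (nat_lit 504) (nat_lit 504) (nat_lit 192)))))) (XT.nd (nat_lit 624) (nat_lit 1596) (nat_lit 0) (XT.nd (nat_lit 312) (nat_lit 0) (nat_lit 152) (XT.nd (nat_lit 156) (nat_lit 0) (nat_lit 76) (XT.nd (nat_lit 78) (nat_lit 0) (nat_lit 76) (XT.lf (nat_lit 76) (nat_lit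 136699785125) (nat_lit 0) (nat_lit 142088446611) (nat_lit 836) (nat_lit 386302320237) (nat_lit 148) (nat_lit 5) (nat_lit 147) (nat_lit 3) (nat_lit 158) (nat_lit 5) (nat_lit 505) (nat_lit 504) (nat_lit 191)) (XT.lf (nat_lit 0) (nat_lit 294360937354) (nat_lit 760) (nat_lit 199065451159) (nat_lit 836) (nat_lit 188275319906) (nat_lit 148) (nat_lit 5) (nat_lit 158) (nat_lit 5) (nat_lit 159) (nat_lit 5) (nat_lit 506) (nat_lit 504) (nat_lit 190))) (XT.nd (nat_lit 78) (nat_lit 0) (nat_lit 76) (XT.lf (nat_lit 76) (nat_lit 149171216450) (nat_lit 0) (nat_lit 166199352023) (nat_lit 836) (nat_lit 383539939705) (nat_lit 149) (nat_lit 5) (nat_lit 148) (nat_lit 5) (nat_lit 159) (nat_lit 5) (nat_lit 507) (nat_lit 504) (nat_lit 189)) (XT.lf (nat_lit 0) (nat_lit 343626748689) (nat_lit 760) (nat_lit 197905176741) (nat_lit 836) (nat_lit 175138019119) (nat_lit 149) (nat_lit 5) (nat_lit 159) (nat_lit 5) (nat_lit 160)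 (nat_lit 5) (nat_lit 508) (nat_lit 504) (nat_lit 188)))) (XT.nd (nat_lit 156) (nat_lit 0) (nat_lit 76) (XT.nd (nat_lit 78) (nat_lit 0) (nat_lit 76) (XT.lf (nat_lit 76) (nat_lit 174377218747) (nat_lit 0) (nat_lit 204365607305) (nat_lit 836) (nat_lit 356302172281) (nat_lit 150) (nat_lit 5) (nat_lit 149) (nat_lit 5) (nat_lit 160) (nat_lit 5) (nat_lit 509) (nat_lit 504) (nat_lit 187)) (XT.lf (nat_lit 0) (nat_lit 421357860505) (nat_lit 760) (nat_lit 184418216432) (nat_lit 836) (nat_lit 148275570211) (nat_lit 150) (nat_lit 5) (nat_lit 160) (nat_lit 5) (nat_lit 161) (nat_lit 5) (nat_lit 510) (nat_lit 504) (nat_lit 186))) (XT.nd (nat_lit 78) (nat_lit 0) (nat_lit 76) (XT.lf (nat_lit 76) (nat_lit 214147624607) (nat_lit 0) (nat_lit 258649714761) (nat_lit 836) (nat_lit 300876604401) (nat_lit 151) (nat_lit 5) (nat_lit 150) (nat_lit 5) (nat_lit 161) (nat_lit 5) (nat_lit 511) (nat_lit 504) (nat_lit 185)) (XT.lf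 (nat_lit 0) (nat_lit 531635545854) (nat_lit 760) (nat_lit 156780408361) (nat_lit 836) (nat_lit 105620063323) (nat_lit 151) (nat_lit 5) (nat_lit 161) (nat_lit 5) (nat_lit 162) (nat_lit 5) (nat_lit 512) (nat_lit 504) (nat_lit 184))))) (XT.nd (nat_lit 312) (nat_lit 1216) (nat_lit 0) (XT.nd (nat_lit 156) (nat_lit 684) (nat_lit 0) (XT.nd (nat_lit 78) (nat_lit 0) (nat_lit 76) (XT.lf (nat_lit 76) (nat_lit 270520994172) (nat_lit 0) (nat_lit 331358411528) (nat_lit 836) (nat_lit 213113602144) (nat_lit 152) (nat_lit 5) (nat_lit 151) (nat_lit 5) (nat_lit 162) (nat_lit 5) (nat_lit 513) (nat_lit 504) (nat_lit 183)) (XT.lf (nat_lit 0) (nat_lit 679014099793) (nat_lit 760) (nat_lit 112958063526) (nat_lit 76) (nat_lit 44856752286) (nat_lit 152) (nat_lit 5) (nat_lit 162) (nat_lit 5) (nat_lit 153) (nat_lit 5) (nat_lit 514) (nat_lit 504) (nat_lit 182))) (XT.nd (nat_lit 78) (nat_lit 0) (nat_lit 0) (XT.lf (nat_lit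 0) (nat_lit 345766149374) (nat_lit 760) (nat_lit 425069856436) (nat_lit 836) (nat_lit 88379089084) (nat_lit 142) (nat_lit 5) (nat_lit 152) (nat_lit 5) (nat_lit 153) (nat_lit 5) (nat_lit 515) (nat_lit 504) (nat_lit 181)) (XT.lf (nat_lit 0) (nat_lit 831348216136) (nat_lit 760) (nat_lit 37813784190) (nat_lit 836) (nat_lit 13462933163) (nat_lit 142) (nat_lit 5) (nat_lit 152) (nat_lit 5) (nat_lit 153) (nat_lit 5) (nat_lit 516) (nat_lit 504) (nat_lit 180)))) (XT.nd (nat_lit 156) (nat_lit 380) (nat_lit 0) (XT.nd (nat_lit 78) (nat_lit 380) (nat_lit 0) (XT.lf (nat_lit 0) (nat_lit 75985150980) (nat_lit 456) (nat_lit 465391784114) (nat_lit 76) (nat_lit 365133787111) (nat_lit 136) (nat_lit 5) (nat_lit 142) (nat_lit 5) (nat_lit 137) (nat_lit 5) (nat_lit 517) (nat_lit 504) (nat_lit 179)) (XT.lf (nat_lit 0) (nat_lit 28422046843) (nat_lit 380) (nat_lit 142977421719) (nat_lit 456) (nat_lit 760082983001) (nat_lit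 131) (nat_lit 5) (nat_lit 136) (nat_lit 5) (nat_lit 137) (nat_lit 5) (nat_lit 518) (nat_lit 504) (nat_lit 178))) (XT.nd (nat_lit 78) (nat_lit 380) (nat_lit 0) (XT.lf (nat_lit 0) (nat_lit 283894199856) (nat_lit 456) (nat_lit 398652838892) (nat_lit 76) (nat_lit 274540243752) (nat_lit 131) (nat_lit 5) (nat_lit 137) (nat_lit 5) (nat_lit 132) (nat_lit 5) (nat_lit 519) (nat_lit 504) (nat_lit 177)) (XT.lf (nat_lit 0) (nat_lit 132884335973) (nat_lit 380) (nat_lit 273547915392) (nat_lit 456) (nat_lit 577319174435) (nat_lit 126) (nat_lit 5) (nat_lit 131) (nat_lit 5) (nat_lit 132) (nat_lit 5) (nat_lit 520) (nat_lit 504) (nat_lit 176))))))) (XT.nd (nat_lit 61386) (nat_lit 0) (nat_lit 2280) (XT.nd (nat_lit 546) (nat_lit 988) (nat_lit 0) (XT.nd (nat_lit 234) (nat_lit 988) (nat_lit 0) (XT.nd (nat_lit 78) (nat_lit 304) (nat_lit 0) (XT.lf (nat_lit 0) (nat_lit 544393311361) (nat_lit 456) (nat_lit 309117249680)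 (nat_lit 76) (nat_lit 157773409929) (nat_lit 126) (nat_lit 5) (nat_lit 132) (nat_lit 5) (nat_lit 127) (nat_lit 5) (nat_lit 521) (nat_lit 504) (nat_lit 175)) (XT.nd (nat_lit 78) (nat_lit 0) (nat_lit 0) (XT.lf (nat_lit 0) (nat_lit 263674929225) (nat_lit 304) (nat_lit 434178586792) (nat_lit 380) (nat_lit 341909572800) (nat_lit 122) (nat_lit 5) (nat_lit 126) (nat_lit 5) (nat_lit 127) (nat_lit 5) (nat_lit 522) (nat_lit 504) (nat_lit 174)) (XT.lf (nat_lit 0) (nat_lit 864403146886) (nat_lit 380) (nat_lit 193747216450) (nat_lit 76) (nat_lit 11244978422) (nat_lit 122) (nat_lit 5) (nat_lit 127) (nat_lit 5) (nat_lit 123) (nat_lit 5) (nat_lit 523) (nat_lit 504) (nat_lit 173)))) (XT.nd (nat_lit 156) (nat_lit 608) (nat_lit 0) (XT.nd (nat_lit 78) (nat_lit 76) (nat_lit 0) (XT.lf (nat_lit 0) (nat_lit 424169148356) (nat_lit 304) (nat_lit 628851257215) (nat_lit 380) (nat_lit 46801794461) (nat_lit 118) (nat_lit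 5) (nat_lit 122) (nat_lit 5) (nat_lit 123) (nat_lit 5) (nat_lit 524) (nat_lit 504) (nat_lit 172)) (XT.lf (nat_lit 0) (nat_lit 118814829422) (nat_lit 380) (nat_lit 53814917644) (nat_lit 76) (nat_lit 958880775827) (nat_lit 117) (nat_lit 5) (nat_lit 122) (nat_lit 5) (nat_lit 118) (nat_lit 5) (nat_lit 525) (nat_lit 504) (nat_lit 171))) (XT.nd (nat_lit 78) (nat_lit 304) (nat_lit 0) (XT.lf (nat_lit 0) (nat_lit 305744799270) (nat_lit 380) (nat_lit 551084997237) (nat_lit 76) (nat_lit 307184835164) (nat_lit 113) (nat_lit 5) (nat_lit 118) (nat_lit 5) (nat_lit 114) (nat_lit 5) (nat_lit 526) (nat_lit 504) (nat_lit 170)) (XT.lf (nat_lit 0) (nat_lit 117703680666) (nat_lit 304) (nat_lit 389911585242) (nat_lit 380) (nat_lit 690248980066) (nat_lit 109) (nat_lit 5) (nat_lit 113) (nat_lit 5) (nat_lit 114) (nat_lit 5) (nat_lit 527) (nat_lit 504) (nat_lit 169))))) (XT.nd (nat_lit 390) (nat_lit 228) (nat_lit 0) (XT.nd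 (nat_lit 156) (nat_lit 532) (nat_lit 0) (XT.nd (nat_lit 78) (nat_lit 228) (nat_lit 0) (XT.lf (nat_lit 0) (nat_lit 730631925381) (nat_lit 380) (nat_lit 395595265290) (nat_lit 76) (nat_lit 106626516845) (nat_lit 109) (nat_lit 5) (nat_lit 114) (nat_lit 5) (nat_lit 110) (nat_lit 5) (nat_lit 528) (nat_lit 504) (nat_lit 168)) (XT.lf (nat_lit 0) (nat_lit 327281348360) (nat_lit 228) (nat_lit 649019837791) (nat_lit 304) (nat_lit 292716367571) (nat_lit 106) (nat_lit 5) (nat_lit 109) (nat_lit 5) (nat_lit 110) (nat_lit 5) (nat_lit 529) (nat_lit 504) (nat_lit 167))) (XT.nd (nat_lit 156) (nat_lit 532) (nat_lit 0) (XT.lf (nat_lit 0) (nat_lit 1100035961883) (nat_lit 228) (nat_lit 140917541486) (nat_lit 304) (nat_lit 65701109197) (nat_lit 106) (nat_lit 5) (nat_lit 109) (nat_lit 5) (nat_lit 110) (nat_lit 5) (nat_lit 530) (nat_lit 504) (nat_lit 166)) (XT.lf (nat_lit 0) (nat_lit 13231377049) (nat_lit 228) (nat_lit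 433815677014) (nat_lit 304) (nat_lit 938409414701) (nat_lit 99) (nat_lit 5) (nat_lit 102) (nat_lit 5) (nat_lit 103) (nat_lit 5) (nat_lit 532) (nat_lit 504) (nat_lit 164)))) (XT.nd (nat_lit 60294) (nat_lit 0) (nat_lit 3876) (XT.nd (nat_lit 78) (nat_lit 228) (nat_lit 0) (XT.lf (nat_lit 0) (nat_lit 739795015638) (nat_lit 304) (nat_lit 565789459071) (nat_lit 76) (nat_lit 121318412341) (nat_lit 99) (nat_lit 5) (nat_lit 103) (nat_lit 5) (nat_lit 100) (nat_lit 5) (nat_lit 533) (nat_lit 504) (nat_lit 163)) (XT.lf (nat_lit 0) (nat_lit 282911141205) (nat_lit 228) (nat_lit 775797998884) (nat_lit 304) (nat_lit 411136047921) (nat_lit 96) (nat_lit 5) (nat_lit 99) (nat_lit 5) (nat_lit 100) (nat_lit 5) (nat_lit 534) (nat_lit 504) (nat_lit 162))) (XT.nd (nat_lit 78) (nat_lit 0) (nat_lit 0) (XT.lf (nat_lit 0) (nat_lit 141700883405) (nat_lit 836) (nat_lit 99504953703) (nat_lit 836) (nat_lit 99504953703) (nat_lit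 147) (nat_lit 3) (nat_lit 158) (nat_lit 3) (nat_lit 158) (nat_lit 5) (nat_lit 505) (nat_lit 505) (nat_lit 190)) (XT.lf (nat_lit 76) (nat_lit 143534929616) (nat_lit 0) (nat_lit 149193002310) (nat_lit 836) (nat_lit 405617133171) (nat_lit 148) (nat_lit 5) (nat_lit 147) (nat_lit 3) (nat_lit 158) (nat_lit 5) (nat_lit 506) (nat_lit 505) (nat_lit 189)))))) (XT.nd (nat_lit 624) (nat_lit 1672) (nat_lit 0) (XT.nd (nat_lit 312) (nat_lit 0) (nat_lit 152) (XT.nd (nat_lit 156) (nat_lit 0) (nat_lit 76) (XT.nd (nat_lit 78) (nat_lit 0) (nat_lit 0) (XT.lf (nat_lit 0) (nat_lit 309079257099) (nat_lit 760) (nat_lit 209018560106) (nat_lit 836) (nat_lit 197688962949) (nat_lit 148) (nat_lit 5) (nat_lit 158) (nat_lit 5) (nat_lit 159) (nat_lit 5) (nat_lit 507) (nat_lit 505) (nat_lit 188)) (XT.lf (nat_lit 76) (nat_lit 156629938245) (nat_lit 0) (nat_lit 174509421049) (nat_lit 836) (nat_lit 402716661134) (nat_lit 149) (nat_lit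 5) (nat_lit 148) (nat_lit 5) (nat_lit 159) (nat_lit 5) (nat_lit 508) (nat_lit 505) (nat_lit 187))) (XT.nd (nat_lit 78) (nat_lit 0) (nat_lit 0) (XT.lf (nat_lit 0) (nat_lit 360808334517) (nat_lit 760) (nat_lit 207800268230) (nat_lit 836) (nat_lit 183894826572) (nat_lit 149) (nat_lit 5) (nat_lit 159) (nat_lit 5) (nat_lit 160) (nat_lit 5) (nat_lit 509) (nat_lit 505) (nat_lit 186)) (XT.lf (nat_lit 76) (nat_lit 183096244334) (nat_lit 0) (nat_lit 214583962157) (nat_lit 836) (nat_lit 374117029766) (nat_lit 150) (nat_lit 5) (nat_lit 149) (nat_lit 5) (nat_lit 160) (nat_lit 5) (nat_lit 510) (nat_lit 505) (nat_lit 185)))) (XT.nd (nat_lit 156) (nat_lit 0) (nat_lit 76) (XT.nd (nat_lit 78) (nat_lit 0) (nat_lit 0) (XT.lf (nat_lit 0) (nat_lit 442425980171) (nat_lit 760) (nat_lit 193638957915) (nat_lit 836) (nat_lit 155689280052) (nat_lit 150) (nat_lit 5) (nat_lit 160) (nat_lit 5) (nat_lit 161) (nat_lit 5) (nat_lit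 511) (nat_lit 505) (nat_lit 184)) (XT.lf (nat_lit 76) (nat_lit 224855172444) (nat_lit 0) (nat_lit 271582252341) (nat_lit 836) (nat_lit 315920205216) (nat_lit 151) (nat_lit 5) (nat_lit 150) (nat_lit 5) (nat_lit 161) (nat_lit 5) (nat_lit 512) (nat_lit 505) (nat_lit 183))) (XT.nd (nat_lit 78) (nat_lit 0) (nat_lit 0) (XT.lf (nat_lit 0) (nat_lit 558217530423) (nat_lit 760) (nat_lit 164619258900) (nat_lit 836) (nat_lit 110901018696) (nat_lit 151) (nat_lit 5) (nat_lit 161) (nat_lit 5) (nat_lit 162) (nat_lit 5) (nat_lit 513) (nat_lit 505) (nat_lit 182)) (XT.lf (nat_lit 76) (nat_lit 284047211019) (nat_lit 0) (nat_lit 347926364982) (nat_lit 836) (nat_lit 223769072205) (nat_lit 152) (nat_lit 5) (nat_lit 151) (nat_lit 5) (nat_lit 162) (nat_lit 5) (nat_lit 514) (nat_lit 505) (nat_lit 181))))) (XT.nd (nat_lit 312) (nat_lit 760) (nat_lit 0) (XT.nd (nat_lit 156) (nat_lit 456) (nat_lit 0) (XT.nd (nat_lit 78)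 (nat_lit 760) (nat_lit 0) (XT.lf (nat_lit 0) (nat_lit 712964994785) (nat_lit 760) (nat_lit 118605797481) (nat_lit 76) (nat_lit 47099559591) (nat_lit 152) (nat_lit 5) (nat_lit 162) (nat_lit 5) (nat_lit 153) (nat_lit 5) (nat_lit 515) (nat_lit 505) (nat_lit 180)) (XT.lf (nat_lit 0) (nat_lit 363054623335) (nat_lit 760) (nat_lit 446323366320) (nat_lit 836) (nat_lit 92797850779) (nat_lit 142) (nat_lit 5) (nat_lit 152) (nat_lit 5) (nat_lit 153) (nat_lit 5) (nat_lit 516) (nat_lit 505) (nat_lit 179))) (XT.nd (nat_lit 78) (nat_lit 456) (nat_lit 0) (XT.lf (nat_lit 0) (nat_lit 872915785507) (nat_lit 760) (nat_lit 39704489649) (nat_lit 836) (nat_lit 14135896241) (nat_lit 142) (nat_lit 5) (nat_lit 152) (nat_lit 5) (nat_lit 153) (nat_lit 5) (nat_lit 517) (nat_lit 505) (nat_lit 178)) (XT.lf (nat_lit 0) (nat_lit 79784580142) (nat_lit 456) (nat_lit 488661202741) (nat_lit 76) (nat_lit 383390466828) (nat_lit 136)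 (nat_lit 5) (nat_lit 142) (nat_lit 5) (nat_lit 137) (nat_lit 5) (nat_lit 518) (nat_lit 505) (nat_lit 177)))) (XT.nd (nat_lit 156) (nat_lit 380) (nat_lit 0) (XT.nd (nat_lit 78) (nat_lit 0) (nat_lit 0) (XT.lf (nat_lit 0) (nat_lit 29843317012) (nat_lit 380) (nat_lit 150126291039) (nat_lit 456) (nat_lit 798086957765) (nat_lit 131) (nat_lit 5) (nat_lit 136) (nat_lit 5) (nat_lit 137) (nat_lit 5) (nat_lit 519) (nat_lit 505) (nat_lit 176)) (XT.lf (nat_lit 0) (nat_lit 298089068028) (nat_lit 456) (nat_lit 418585313098) (nat_lit 76) (nat_lit 288267257568) (nat_lit 131) (nat_lit 5) (nat_lit 137) (nat_lit 5) (nat_lit 132) (nat_lit 5) (nat_lit 520) (nat_lit 505) (nat_lit 175))) (XT.nd (nat_lit 78) (nat_lit 0) (nat_lit 0) (XT.lf (nat_lit 0) (nat_lit 139528717804) (nat_lit 380) (nat_lit 287225299353) (nat_lit 456) (nat_lit 606184972251) (nat_lit 126) (nat_lit 5) (nat_lit 131) (nat_lit 5) (nat_lit 132) (nat_lit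 5) (nat_lit 521) (nat_lit 505) (nat_lit 174)) (XT.lf (nat_lit 0) (nat_lit 571613123032) (nat_lit 456) (nat_lit 324572947850) (nat_lit 76) (nat_lit 165662091312) (nat_lit 126) (nat_lit 5) (nat_lit 132) (nat_lit 5) (nat_lit 127) (nat_lit 5) (nat_lit 522) (nat_lit 505) (nat_lit 173))))))))
noncomputable def xc251 : XT := (XT.nd (nat_lit 62712) (nat_lit 0) (nat_lit 228) (XT.nd (nat_lit 61464) (nat_lit 0) (nat_lit 1748) (XT.nd (nat_lit 546) (nat_lit 760) (nat_lit 0) (XT.nd (nat_lit 234) (nat_lit 684) (nat_lit 0) (XT.nd (nat_lit 78) (nat_lit 304) (nat_lit 0) (XT.lf (nat_lit 0) (nat_lit 276858837350) (nat_lit 304) (nat_lit 455887496138) (nat_lit 380) (nat_lit 359004902668) (nat_lit 122) (nat_lit 5) (nat_lit 126) (nat_lit 5) (nat_lit 127) (nat_lit 5) (nat_lit 523) (nat_lit 505) (nat_lit 172)) (XT.nd (nat_lit 78) (nat_lit 304) (nat_lit 0) (XT.lf (nat_lit 0) (nat_lit 907623439452) (nat_lit 380) (nat_lit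 203434416840) (nat_lit 76) (nat_lit 11807245775) (nat_lit 122) (nat_lit 5) (nat_lit 127) (nat_lit 5) (nat_lit 123) (nat_lit 5) (nat_lit 524) (nat_lit 505) (nat_lit 171)) (XT.lf (nat_lit 0) (nat_lit 445377763619) (nat_lit 304) (nat_lit 660293793478) (nat_lit 380) (nat_lit 49141746359) (nat_lit 118) (nat_lit 5) (nat_lit 122) (nat_lit 5) (nat_lit 123) (nat_lit 5) (nat_lit 525) (nat_lit 505) (nat_lit 170)))) (XT.nd (nat_lit 156) (nat_lit 304) (nat_lit 0) (XT.nd (nat_lit 78) (nat_lit 304) (nat_lit 0) (XT.lf (nat_lit 0) (nat_lit 124755697954) (nat_lit 380) (nat_lit 56505508981) (nat_lit 76) (nat_lit 1006824835733) (nat_lit 117) (nat_lit 5) (nat_lit 122) (nat_lit 5) (nat_lit 118) (nat_lit 5) (nat_lit 526) (nat_lit 505) (nat_lit 169)) (XT.lf (nat_lit 0) (nat_lit 321032163065) (nat_lit 380) (nat_lit 578639089311) (nat_lit 76) (nat_lit 322544104672) (nat_lit 113) (nat_lit 5) (nat_lit 118) (nat_lit 5) (nat_lit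 114) (nat_lit 5) (nat_lit 527) (nat_lit 505) (nat_lit 168))) (XT.nd (nat_lit 78) (nat_lit 0) (nat_lit 0) (XT.lf (nat_lit 0) (nat_lit 123589019942) (nat_lit 304) (nat_lit 409407129620) (nat_lit 380) (nat_lit 724761302679) (nat_lit 109) (nat_lit 5) (nat_lit 113) (nat_lit 5) (nat_lit 114) (nat_lit 5) (nat_lit 528) (nat_lit 505) (nat_lit 167)) (XT.lf (nat_lit 0) (nat_lit 767163636797) (nat_lit 380) (nat_lit 415374875479) (nat_lit 76) (nat_lit 111957874847) (nat_lit 109) (nat_lit 5) (nat_lit 114) (nat_lit 5) (nat_lit 110) (nat_lit 5) (nat_lit 529) (nat_lit 505) (nat_lit 166))))) (XT.nd (nat_lit 60606) (nat_lit 0) (nat_lit 3648) (XT.nd (nat_lit 234) (nat_lit 228) (nat_lit 0) (XT.nd (nat_lit 156) (nat_lit 304) (nat_lit 0) (XT.lf (nat_lit 0) (nat_lit 343645566385) (nat_lit 228) (nat_lit 681470791087) (nat_lit 304) (nat_lit 307352068322) (nat_lit 106) (nat_lit 5) (nat_lit 109) (nat_lit 5) (nat_lit 110)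 (nat_lit 5) (nat_lit 530) (nat_lit 505) (nat_lit 165)) (XT.lf (nat_lit 0) (nat_lit 191661281501) (nat_lit 304) (nat_lit 809284927255) (nat_lit 76) (nat_lit 411586173335) (nat_lit 102) (nat_lit 5) (nat_lit 106) (nat_lit 5) (nat_lit 103) (nat_lit 5) (nat_lit 532) (nat_lit 505) (nat_lit 163))) (XT.nd (nat_lit 78) (nat_lit 0) (nat_lit 0) (XT.lf (nat_lit 0) (nat_lit 13893092830) (nat_lit 228) (nat_lit 455506417322) (nat_lit 304) (nat_lit 985329776871) (nat_lit 99) (nat_lit 5) (nat_lit 102) (nat_lit 5) (nat_lit 103) (nat_lit 5) (nat_lit 533) (nat_lit 505) (nat_lit 162)) (XT.lf (nat_lit 0) (nat_lit 776784865530) (nat_lit 304) (nat_lit 594078787807) (nat_lit 76) (nat_lit 127384373100) (nat_lit 99) (nat_lit 5) (nat_lit 103) (nat_lit 5) (nat_lit 100) (nat_lit 5) (nat_lit 534) (nat_lit 505) (nat_lit 161)))) (XT.nd (nat_lit 156) (nat_lit 0) (nat_lit 76) (XT.nd (nat_lit 78) (nat_lit 0) (nat_lit 0) (XT.lf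 (nat_lit 0) (nat_lit 148786063852) (nat_lit 836) (nat_lit 104480129833) (nat_lit 836) (nat_lit 104480129833) (nat_lit 147) (nat_lit 3) (nat_lit 158) (nat_lit 3) (nat_lit 158) (nat_lit 5) (nat_lit 506) (nat_lit 506) (nat_lit 188)) (XT.lf (nat_lit 76) (nat_lit 150711816900) (nat_lit 0) (nat_lit 156652773395) (nat_lit 836) (nat_lit 425897714929) (nat_lit 148) (nat_lit 5) (nat_lit 147) (nat_lit 3) (nat_lit 158) (nat_lit 5) (nat_lit 507) (nat_lit 506) (nat_lit 187))) (XT.nd (nat_lit 78) (nat_lit 0) (nat_lit 0) (XT.lf (nat_lit 0) (nat_lit 324533467462) (nat_lit 760) (nat_lit 219469339711) (nat_lit 836) (nat_lit 207573299575) (nat_lit 148) (nat_lit 5) (nat_lit 158) (nat_lit 5) (nat_lit 159) (nat_lit 5) (nat_lit 508) (nat_lit 506) (nat_lit 186)) (XT.lf (nat_lit 76) (nat_lit 164461581164) (nat_lit 0) (nat_lit 183234984096) (nat_lit 836) (nat_lit 422852244253) (nat_lit 149) (nat_lit 5) (nat_lit 148) (nat_lit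 5) (nat_lit 159) (nat_lit 5) (nat_lit 509) (nat_lit 506) (nat_lit 185)))))) (XT.nd (nat_lit 624) (nat_lit 1520) (nat_lit 0) (XT.nd (nat_lit 312) (nat_lit 532) (nat_lit 0) (XT.nd (nat_lit 156) (nat_lit 0) (nat_lit 76) (XT.nd (nat_lit 78) (nat_lit 0) (nat_lit 0) (XT.lf (nat_lit 0) (nat_lit 378848976543) (nat_lit 760) (nat_lit 218190129851) (nat_lit 836) (nat_lit 193089483091) (nat_lit 149) (nat_lit 5) (nat_lit 159) (nat_lit 5) (nat_lit 160) (nat_lit 5) (nat_lit 510) (nat_lit 506) (nat_lit 184)) (XT.lf (nat_lit 76) (nat_lit 192251205892) (nat_lit 0) (nat_lit 225313227826) (nat_lit 836) (nat_lit 392822653473) (nat_lit 150) (nat_lit 5) (nat_lit 149) (nat_lit 5) (nat_lit 160) (nat_lit 5) (nat_lit 511) (nat_lit 506) (nat_lit 183))) (XT.nd (nat_lit 78) (nat_lit 0) (nat_lit 0) (XT.lf (nat_lit 0) (nat_lit 464547484749) (nat_lit 760) (nat_lit 203320752216) (nat_lit 836) (nat_lit 163473681770) (nat_lit 150)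 (nat_lit 5) (nat_lit 160) (nat_lit 5) (nat_lit 161) (nat_lit 5) (nat_lit 512) (nat_lit 506) (nat_lit 182)) (XT.lf (nat_lit 76) (nat_lit 236098082184) (nat_lit 0) (nat_lit 285161411981) (nat_lit 836) (nat_lit 331716007400) (nat_lit 151) (nat_lit 5) (nat_lit 150) (nat_lit 5) (nat_lit 161) (nat_lit 5) (nat_lit 513) (nat_lit 506) (nat_lit 181)))) (XT.nd (nat_lit 156) (nat_lit 684) (nat_lit 0) (XT.nd (nat_lit 78) (nat_lit 0) (nat_lit 0) (XT.lf (nat_lit 0) (nat_lit 586128594950) (nat_lit 760) (nat_lit 172850067761) (nat_lit 836) (nat_lit 116446026280) (nat_lit 151) (nat_lit 5) (nat_lit 161) (nat_lit 5) (nat_lit 162) (nat_lit 5) (nat_lit 514) (nat_lit 506) (nat_lit 180)) (XT.lf (nat_lit 76) (nat_lit 298249723169) (nat_lit 0) (nat_lit 365322713052) (nat_lit 836) (nat_lit 234957335298) (nat_lit 152) (nat_lit 5) (nat_lit 151) (nat_lit 5) (nat_lit 162) (nat_lit 5) (nat_lit 515) (nat_lit 506) (nat_lit 179)))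 (XT.nd (nat_lit 78) (nat_lit 760) (nat_lit 0) (XT.lf (nat_lit 0) (nat_lit 748613416862) (nat_lit 760) (nat_lit 124535933867) (nat_lit 76) (nat_lit 49454510079) (nat_lit 152) (nat_lit 5) (nat_lit 162) (nat_lit 5) (nat_lit 153) (nat_lit 5) (nat_lit 516) (nat_lit 506) (nat_lit 178)) (XT.lf (nat_lit 0) (nat_lit 381207505515) (nat_lit 760) (nat_lit 468639550111) (nat_lit 836) (nat_lit 97437568481) (nat_lit 142) (nat_lit 5) (nat_lit 152) (nat_lit 5) (nat_lit 153) (nat_lit 5) (nat_lit 517) (nat_lit 506) (nat_lit 177))))) (XT.nd (nat_lit 312) (nat_lit 684) (nat_lit 0) (XT.nd (nat_lit 156) (nat_lit 380) (nat_lit 0) (XT.nd (nat_lit 78) (nat_lit 456) (nat_lit 0) (XT.lf (nat_lit 0) (nat_lit 916561718604) (nat_lit 760) (nat_lit 41689728870) (nat_lit 836) (nat_lit 14842524541) (nat_lit 142) (nat_lit 5) (nat_lit 152) (nat_lit 5) (nat_lit 153) (nat_lit 5) (nat_lit 518) (nat_lit 506) (nat_lit 176)) (XT.lf (nat_lit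 0) (nat_lit 83773964807) (nat_lit 456) (nat_lit 513094108158) (nat_lit 76) (nat_lit 402559981427) (nat_lit 136) (nat_lit 5) (nat_lit 142) (nat_lit 5) (nat_lit 137) (nat_lit 5) (nat_lit 519) (nat_lit 506) (nat_lit 175))) (XT.nd (nat_lit 78) (nat_lit 0) (nat_lit 0) (XT.lf (nat_lit 0) (nat_lit 31335635087) (nat_lit 380) (nat_lit 157632603989) (nat_lit 456) (nat_lit 837991147480) (nat_lit 131) (nat_lit 5) (nat_lit 136) (nat_lit 5) (nat_lit 137) (nat_lit 5) (nat_lit 520) (nat_lit 506) (nat_lit 174)) (XT.lf (nat_lit 0) (nat_lit 312993664903) (nat_lit 456) (nat_lit 439514426609) (nat_lit 76) (nat_lit 302680621923) (nat_lit 131) (nat_lit 5) (nat_lit 137) (nat_lit 5) (nat_lit 132) (nat_lit 5) (nat_lit 521) (nat_lit 506) (nat_lit 173)))) (XT.nd (nat_lit 156) (nat_lit 304) (nat_lit 0) (XT.nd (nat_lit 78) (nat_lit 0) (nat_lit 0) (XT.lf (nat_lit 0) (nat_lit 146505303384) (nat_lit 380) (nat_lit 301586553609)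 (nat_lit 456) (nat_lit 636494074918) (nat_lit 126) (nat_lit 5) (nat_lit 131) (nat_lit 5) (nat_lit 132) (nat_lit 5) (nat_lit 522) (nat_lit 506) (nat_lit 172)) (XT.lf (nat_lit 0) (nat_lit 600193911703) (nat_lit 456) (nat_lit 340801446205) (nat_lit 76) (nat_lit 173945205753) (nat_lit 126) (nat_lit 5) (nat_lit 132) (nat_lit 5) (nat_lit 127) (nat_lit 5) (nat_lit 523) (nat_lit 506) (nat_lit 171))) (XT.nd (nat_lit 78) (nat_lit 0) (nat_lit 0) (XT.lf (nat_lit 0) (nat_lit 290701925852) (nat_lit 304) (nat_lit 478681852809) (nat_lit 380) (nat_lit 376955012862) (nat_lit 122) (nat_lit 5) (nat_lit 126) (nat_lit 5) (nat_lit 127) (nat_lit 5) (nat_lit 524) (nat_lit 506) (nat_lit 170)) (XT.lf (nat_lit 0) (nat_lit 953004734074) (nat_lit 380) (nat_lit 213605992166) (nat_lit 76) (nat_lit 12397624783) (nat_lit 122) (nat_lit 5) (nat_lit 127) (nat_lit 5) (nat_lit 123) (nat_lit 5) (nat_lit 525) (nat_lit 506) (nat_lit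 169))))))) (XT.nd (nat_lit 61698) (nat_lit 0) (nat_lit 304) (XT.nd (nat_lit 61074) (nat_lit 0) (nat_lit 3420) (XT.nd (nat_lit 390) (nat_lit 532) (nat_lit 0) (XT.nd (nat_lit 156) (nat_lit 608) (nat_lit 0) (XT.nd (nat_lit 78) (nat_lit 76) (nat_lit 0) (XT.lf (nat_lit 0) (nat_lit 467646794969) (nat_lit 304) (nat_lit 693308459026) (nat_lit 380) (nat_lit 51598708666) (nat_lit 118) (nat_lit 5) (nat_lit 122) (nat_lit 5) (nat_lit 123) (nat_lit 5) (nat_lit 526) (nat_lit 506) (nat_lit 168)) (XT.lf (nat_lit 0) (nat_lit 130993598100) (nat_lit 380) (nat_lit 59330644254) (nat_lit 76) (nat_lit 1057166096672) (nat_lit 117) (nat_lit 5) (nat_lit 122) (nat_lit 5) (nat_lit 118) (nat_lit 5) (nat_lit 527) (nat_lit 506) (nat_lit 167))) (XT.nd (nat_lit 78) (nat_lit 304) (nat_lit 0) (XT.lf (nat_lit 0) (nat_lit 337083883538) (nat_lit 380) (nat_lit 607570900658) (nat_lit 76) (nat_lit 338671335076) (nat_lit 113) (nat_lit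 5) (nat_lit 118) (nat_lit 5) (nat_lit 114) (nat_lit 5) (nat_lit 528) (nat_lit 506) (nat_lit 166)) (XT.lf (nat_lit 0) (nat_lit 129768611749) (nat_lit 304) (nat_lit 429877454460) (nat_lit 380) (nat_lit 760999253173) (nat_lit 109) (nat_lit 5) (nat_lit 113) (nat_lit 5) (nat_lit 114) (nat_lit 5) (nat_lit 529) (nat_lit 506) (nat_lit 165)))) (XT.nd (nat_lit 156) (nat_lit 304) (nat_lit 0) (XT.nd (nat_lit 78) (nat_lit 0) (nat_lit 0) (XT.lf (nat_lit 0) (nat_lit 360827981309) (nat_lit 228) (nat_lit 715544295637) (nat_lit 304) (nat_lit 322719565046) (nat_lit 106) (nat_lit 5) (nat_lit 109) (nat_lit 5) (nat_lit 110) (nat_lit 5) (nat_lit 531) (nat_lit 506) (nat_lit 163)) (XT.lf (nat_lit 0) (nat_lit 1212789928684) (nat_lit 228) (nat_lit 155361517558) (nat_lit 304) (nat_lit 72435253651) (nat_lit 106) (nat_lit 5) (nat_lit 109) (nat_lit 5) (nat_lit 110) (nat_lit 5) (nat_lit 532) (nat_lit 506) (nat_lit 162))) (XT.nd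 (nat_lit 60450) (nat_lit 0) (nat_lit 3420) (XT.lf (nat_lit 0) (nat_lit 201244441854) (nat_lit 304) (nat_lit 849749038164) (nat_lit 76) (nat_lit 432165516354) (nat_lit 102) (nat_lit 5) (nat_lit 106) (nat_lit 5) (nat_lit 103) (nat_lit 5) (nat_lit 533) (nat_lit 506) (nat_lit 161)) (XT.lf (nat_lit 0) (nat_lit 156225490651) (nat_lit 836) (nat_lit 109704071422) (nat_lit 836) (nat_lit 109704071422) (nat_lit 147) (nat_lit 3) (nat_lit 158) (nat_lit 3) (nat_lit 158) (nat_lit 5) (nat_lit 507) (nat_lit 507) (nat_lit 186))))) (XT.nd (nat_lit 312) (nat_lit 0) (nat_lit 152) (XT.nd (nat_lit 156) (nat_lit 0) (nat_lit 76) (XT.nd (nat_lit 78) (nat_lit 0) (nat_lit 76) (XT.lf (nat_lit 76) (nat_lit 158247535457) (nat_lit 0) (nat_lit 164485521788) (nat_lit 836) (nat_lit 447192351332) (nat_lit 148) (nat_lit 5) (nat_lit 147) (nat_lit 3) (nat_lit 158) (nat_lit 5) (nat_lit 508) (nat_lit 507) (nat_lit 185)) (XT.lf (nat_lit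 0) (nat_lit 340760365332) (nat_lit 760) (nat_lit 230442672093) (nat_lit 836) (nat_lit 217951863401) (nat_lit 148) (nat_lit 5) (nat_lit 158) (nat_lit 5) (nat_lit 159) (nat_lit 5) (nat_lit 509) (nat_lit 507) (nat_lit 184))) (XT.nd (nat_lit 78) (nat_lit 0) (nat_lit 76) (XT.lf (nat_lit 76) (nat_lit 172684792654) (nat_lit 0) (nat_lit 192396816743) (nat_lit 836) (nat_lit 443994629764) (nat_lit 149) (nat_lit 5) (nat_lit 148) (nat_lit 5) (nat_lit 159) (nat_lit 5) (nat_lit 510) (nat_lit 507) (nat_lit 183)) (XT.lf (nat_lit 0) (nat_lit 397791629724) (nat_lit 760) (nat_lit 229099498666) (nat_lit 836) (nat_lit 202743880321) (nat_lit 149) (nat_lit 5) (nat_lit 159) (nat_lit 5) (nat_lit 160) (nat_lit 5) (nat_lit 511) (nat_lit 507) (nat_lit 182)))) (XT.nd (nat_lit 156) (nat_lit 0) (nat_lit 76) (XT.nd (nat_lit 78) (nat_lit 0) (nat_lit 76) (XT.lf (nat_lit 76) (nat_lit 201863901644) (nat_lit 0) (nat_lit 236578950498)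 (nat_lit 836) (nat_lit 412463579543) (nat_lit 150) (nat_lit 5) (nat_lit 149) (nat_lit 5) (nat_lit 160) (nat_lit 5) (nat_lit 512) (nat_lit 507) (nat_lit 181)) (XT.lf (nat_lit 0) (nat_lit 487775045445) (nat_lit 760) (nat_lit 213486650511) (nat_lit 836) (nat_lit 171647309364) (nat_lit 150) (nat_lit 5) (nat_lit 160) (nat_lit 5) (nat_lit 161) (nat_lit 5) (nat_lit 513) (nat_lit 507) (nat_lit 180))) (XT.nd (nat_lit 78) (nat_lit 0) (nat_lit 76) (XT.lf (nat_lit 76) (nat_lit 247903123362) (nat_lit 0) (nat_lit 299419525230) (nat_lit 836) (nat_lit 348301619038) (nat_lit 151) (nat_lit 5) (nat_lit 150) (nat_lit 5) (nat_lit 161) (nat_lit 5) (nat_lit 514) (nat_lit 507) (nat_lit 179)) (XT.lf (nat_lit 0) (nat_lit 615435195225) (nat_lit 760) (nat_lit 181492431390) (nat_lit 836) (nat_lit 122268288275) (nat_lit 151) (nat_lit 5) (nat_lit 161) (nat_lit 5) (nat_lit 162) (nat_lit 5) (nat_lit 515) (nat_lit 507) (nat_lit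 178)))))) (XT.nd (nat_lit 624) (nat_lit 1520) (nat_lit 0) (XT.nd (nat_lit 312) (nat_lit 1216) (nat_lit 0) (XT.nd (nat_lit 156) (nat_lit 684) (nat_lit 0) (XT.nd (nat_lit 78) (nat_lit 0) (nat_lit 76) (XT.lf (nat_lit 76) (nat_lit 313162346833) (nat_lit 0) (nat_lit 383588875752) (nat_lit 836) (nat_lit 246705029257) (nat_lit 152) (nat_lit 5) (nat_lit 151) (nat_lit 5) (nat_lit 162) (nat_lit 5) (nat_lit 516) (nat_lit 507) (nat_lit 177)) (XT.lf (nat_lit 0) (nat_lit 786044244020) (nat_lit 760) (nat_lit 130762591341) (nat_lit 76) (nat_lit 51927210647) (nat_lit 152) (nat_lit 5) (nat_lit 162) (nat_lit 5) (nat_lit 153) (nat_lit 5) (nat_lit 517) (nat_lit 507) (nat_lit 176))) (XT.nd (nat_lit 78) (nat_lit 0) (nat_lit 0) (XT.lf (nat_lit 0) (nat_lit 400268017764) (nat_lit 760) (nat_lit 492071541654) (nat_lit 836) (nat_lit 102309288322) (nat_lit 142) (nat_lit 5) (nat_lit 152) (nat_lit 5) (nat_lit 153) (nat_lit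 5) (nat_lit 518) (nat_lit 507) (nat_lit 175)) (XT.lf (nat_lit 0) (nat_lit 962389934985) (nat_lit 760) (nat_lit 43774228682) (nat_lit 836) (nat_lit 15584499737) (nat_lit 142) (nat_lit 5) (nat_lit 152) (nat_lit 5) (nat_lit 153) (nat_lit 5) (nat_lit 519) (nat_lit 507) (nat_lit 174)))) (XT.nd (nat_lit 156) (nat_lit 380) (nat_lit 0) (XT.nd (nat_lit 78) (nat_lit 380) (nat_lit 0) (XT.lf (nat_lit 0) (nat_lit 87962804234) (nat_lit 456) (nat_lit 538748673230) (nat_lit 76) (nat_lit 422687972569) (nat_lit 136) (nat_lit 5) (nat_lit 142) (nat_lit 5) (nat_lit 137) (nat_lit 5) (nat_lit 520) (nat_lit 507) (nat_lit 173)) (XT.lf (nat_lit 0) (nat_lit 32902554914) (nat_lit 380) (nat_lit 165514232735) (nat_lit 456) (nat_lit 879890561386) (nat_lit 131) (nat_lit 5) (nat_lit 136) (nat_lit 5) (nat_lit 137) (nat_lit 5) (nat_lit 521) (nat_lit 507) (nat_lit 172))) (XT.nd (nat_lit 78) (nat_lit 380) (nat_lit 0) (XT.lf (nat_lit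 0) (nat_lit 328643478283) (nat_lit 456) (nat_lit 461490009941) (nat_lit 76) (nat_lit 317814654359) (nat_lit 131) (nat_lit 5) (nat_lit 137) (nat_lit 5) (nat_lit 132) (nat_lit 5) (nat_lit 522) (nat_lit 507) (nat_lit 171)) (XT.lf (nat_lit 0) (nat_lit 153830704326) (nat_lit 380) (nat_lit 316665871574) (nat_lit 456) (nat_lit 668318646287) (nat_lit 126) (nat_lit 5) (nat_lit 131) (nat_lit 5) (nat_lit 132) (nat_lit 5) (nat_lit 523) (nat_lit 507) (nat_lit 170))))) (XT.nd (nat_lit 312) (nat_lit 912) (nat_lit 0) (XT.nd (nat_lit 156) (nat_lit 304) (nat_lit 0) (XT.nd (nat_lit 78) (nat_lit 304) (nat_lit 0) (XT.lf (nat_lit 0) (nat_lit 630203727488) (nat_lit 456) (nat_lit 357841383333) (nat_lit 76) (nat_lit 182642474997) (nat_lit 126) (nat_lit 5) (nat_lit 132) (nat_lit 5) (nat_lit 127) (nat_lit 5) (nat_lit 524) (nat_lit 507) (nat_lit 169)) (XT.lf (nat_lit 0) (nat_lit 305237155146) (nat_lit 304) (nat_lit 502615929000)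 (nat_lit 380) (nat_lit 395802641110) (nat_lit 122) (nat_lit 5) (nat_lit 126) (nat_lit 5) (nat_lit 127) (nat_lit 5) (nat_lit 525) (nat_lit 507) (nat_lit 168))) (XT.nd (nat_lit 78) (nat_lit 304) (nat_lit 0) (XT.lf (nat_lit 0) (nat_lit 1000655082024) (nat_lit 380) (nat_lit 224286159786) (nat_lit 76) (nat_lit 13017521187) (nat_lit 122) (nat_lit 5) (nat_lit 127) (nat_lit 5) (nat_lit 123) (nat_lit 5) (nat_lit 526) (nat_lit 507) (nat_lit 167)) (XT.lf (nat_lit 0) (nat_lit 491029264577) (nat_lit 304) (nat_lit 727973860095) (nat_lit 380) (nat_lit 54178530710) (nat_lit 118) (nat_lit 5) (nat_lit 122) (nat_lit 5) (nat_lit 123) (nat_lit 5) (nat_lit 527) (nat_lit 507) (nat_lit 166)))) (XT.nd (nat_lit 234) (nat_lit 532) (nat_lit 0) (XT.nd (nat_lit 78) (nat_lit 304) (nat_lit 0) (XT.lf (nat_lit 0) (nat_lit 137543382538) (nat_lit 380) (nat_lit 62297049323) (nat_lit 76) (nat_lit 1110024418878) (nat_lit 117) (nat_lit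 5) (nat_lit 122) (nat_lit 5) (nat_lit 118) (nat_lit 5) (nat_lit 528) (nat_lit 507) (nat_lit 165)) (XT.lf (nat_lit 0) (nat_lit 353938179591) (nat_lit 380) (nat_lit 637949315879) (nat_lit 76) (nat_lit 355604924660) (nat_lit 113) (nat_lit 5) (nat_lit 118) (nat_lit 5) (nat_lit 114) (nat_lit 5) (nat_lit 529) (nat_lit 507) (nat_lit 164))) (XT.nd (nat_lit 78) (nat_lit 228) (nat_lit 0) (XT.lf (nat_lit 0) (nat_lit 845798113962) (nat_lit 380) (nat_lit 457950528493) (nat_lit 76) (nat_lit 123433614105) (nat_lit 109) (nat_lit 5) (nat_lit 114) (nat_lit 5) (nat_lit 110) (nat_lit 5) (nat_lit 531) (nat_lit 507) (nat_lit 162)) (XT.lf (nat_lit 0) (nat_lit 378869504280) (nat_lit 228) (nat_lit 751321478669) (nat_lit 304) (nat_lit 338855446526) (nat_lit 106) (nat_lit 5) (nat_lit 109) (nat_lit 5) (nat_lit 110) (nat_lit 5) (nat_lit 532) (nat_lit 507) (nat_lit 161))))))))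
noncomputable def xc252 : XT := (XT.nd (nat_lit 123474) (nat_lit 0) (nat_lit 228) (XT.nd (nat_lit 61620) (nat_lit 0) (nat_lit 0) (XT.nd (nat_lit 60996) (nat_lit 0) (nat_lit 2280) (XT.nd (nat_lit 60684) (nat_lit 0) (nat_lit 3192) (XT.nd (nat_lit 60528) (nat_lit 0) (nat_lit 3116) (XT.lf (nat_lit 0) (nat_lit 1273429543123) (nat_lit 228) (nat_lit 163129563197) (nat_lit 304) (nat_lit 76056924169) (nat_lit 106) (nat_lit 5) (nat_lit 109) (nat_lit 5) (nat_lit 110) (nat_lit 5) (nat_lit 533) (nat_lit 507) (nat_lit 160)) (XT.nd (nat_lit 78) (nat_lit 0) (nat_lit 0) (XT.lf (nat_lit 0) (nat_lit 164036877298) (nat_lit 836) (nat_lit 115189216124) (nat_lit 836) (nat_lit 115189216124) (nat_lit 147) (nat_lit 3) (nat_lit 158) (nat_lit 3) (nat_lit 158) (nat_lit 5) (nat_lit 508) (nat_lit 508) (nat_lit 184)) (XT.lf (nat_lit 76) (nat_lit 166160028069) (nat_lit 0) (nat_lit 172709897399) (nat_lit 836) (nat_lit 469551742737)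 (nat_lit 148) (nat_lit 5) (nat_lit 147) (nat_lit 3) (nat_lit 158) (nat_lit 5) (nat_lit 509) (nat_lit 508) (nat_lit 183)))) (XT.nd (nat_lit 156) (nat_lit 0) (nat_lit 76) (XT.nd (nat_lit 78) (nat_lit 0) (nat_lit 0) (XT.lf (nat_lit 0) (nat_lit 357798587224) (nat_lit 760) (nat_lit 241964683609) (nat_lit 836) (nat_lit 228849364822) (nat_lit 148) (nat_lit 5) (nat_lit 158) (nat_lit 5) (nat_lit 159) (nat_lit 5) (nat_lit 510) (nat_lit 508) (nat_lit 182)) (XT.lf (nat_lit 76) (nat_lit 181319152407) (nat_lit 0) (nat_lit 202016733264) (nat_lit 836) (nat_lit 466194155628) (nat_lit 149) (nat_lit 5) (nat_lit 148) (nat_lit 5) (nat_lit 159) (nat_lit 5) (nat_lit 511) (nat_lit 508) (nat_lit 181))) (XT.nd (nat_lit 78) (nat_lit 0) (nat_lit 0) (XT.lf (nat_lit 0) (nat_lit 417681396565) (nat_lit 760) (nat_lit 240554348721) (nat_lit 836) (nat_lit 212881004564) (nat_lit 149) (nat_lit 5) (nat_lit 159) (nat_lit 5) (nat_lit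 160) (nat_lit 5) (nat_lit 512) (nat_lit 508) (nat_lit 180)) (XT.lf (nat_lit 76) (nat_lit 211957219590) (nat_lit 0) (nat_lit 248407953606) (nat_lit 836) (nat_lit 433086571123) (nat_lit 150) (nat_lit 5) (nat_lit 149) (nat_lit 5) (nat_lit 160) (nat_lit 5) (nat_lit 513) (nat_lit 508) (nat_lit 179))))) (XT.nd (nat_lit 312) (nat_lit 1064) (nat_lit 0) (XT.nd (nat_lit 156) (nat_lit 0) (nat_lit 76) (XT.nd (nat_lit 78) (nat_lit 0) (nat_lit 0) (XT.lf (nat_lit 0) (nat_lit 512163966840) (nat_lit 760) (nat_lit 224160856674) (nat_lit 836) (nat_lit 180229623591) (nat_lit 150) (nat_lit 5) (nat_lit 160) (nat_lit 5) (nat_lit 161) (nat_lit 5) (nat_lit 514) (nat_lit 508) (nat_lit 178)) (XT.lf (nat_lit 76) (nat_lit 260298403855) (nat_lit 0) (nat_lit 314390540177) (nat_lit 836) (nat_lit 365716528804) (nat_lit 151) (nat_lit 5) (nat_lit 150) (nat_lit 5) (nat_lit 161) (nat_lit 5) (nat_lit 515) (nat_lit 508) (nat_lit 177)))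 (XT.nd (nat_lit 78) (nat_lit 0) (nat_lit 0) (XT.lf (nat_lit 0) (nat_lit 646207109659) (nat_lit 760) (nat_lit 190566926193) (nat_lit 836) (nat_lit 128381667024) (nat_lit 151) (nat_lit 5) (nat_lit 161) (nat_lit 5) (nat_lit 162) (nat_lit 5) (nat_lit 516) (nat_lit 508) (nat_lit 176)) (XT.lf (nat_lit 76) (nat_lit 328820588896) (nat_lit 0) (nat_lit 402768344074) (nat_lit 836) (nat_lit 259040123980) (nat_lit 152) (nat_lit 5) (nat_lit 151) (nat_lit 5) (nat_lit 162) (nat_lit 5) (nat_lit 517) (nat_lit 508) (nat_lit 175)))) (XT.nd (nat_lit 156) (nat_lit 456) (nat_lit 0) (XT.nd (nat_lit 78) (nat_lit 760) (nat_lit 0) (XT.lf (nat_lit 0) (nat_lit 825346598003) (nat_lit 760) (nat_lit 137300594633) (nat_lit 76) (nat_lit 54523548562) (nat_lit 152) (nat_lit 5) (nat_lit 162) (nat_lit 5) (nat_lit 153) (nat_lit 5) (nat_lit 518) (nat_lit 508) (nat_lit 174)) (XT.lf (nat_lit 0) (nat_lit 420281542891) (nat_lit 760) (nat_lit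 516675131469) (nat_lit 836) (nat_lit 107424608898) (nat_lit 142) (nat_lit 5) (nat_lit 152) (nat_lit 5) (nat_lit 153) (nat_lit 5) (nat_lit 519) (nat_lit 508) (nat_lit 173))) (XT.nd (nat_lit 78) (nat_lit 456) (nat_lit 0) (XT.lf (nat_lit 0) (nat_lit 1010509550057) (nat_lit 760) (nat_lit 45962952241) (nat_lit 836) (nat_lit 16363587734) (nat_lit 142) (nat_lit 5) (nat_lit 152) (nat_lit 5) (nat_lit 153) (nat_lit 5) (nat_lit 520) (nat_lit 508) (nat_lit 172)) (XT.lf (nat_lit 0) (nat_lit 92361072506) (nat_lit 456) (nat_lit 565685979603) (nat_lit 76) (nat_lit 443822364006) (nat_lit 136) (nat_lit 5) (nat_lit 142) (nat_lit 5) (nat_lit 137) (nat_lit 5) (nat_lit 521) (nat_lit 508) (nat_lit 171)))))) (XT.nd (nat_lit 702) (nat_lit 836) (nat_lit 0) (XT.nd (nat_lit 312) (nat_lit 684) (nat_lit 0) (XT.nd (nat_lit 156) (nat_lit 380) (nat_lit 0) (XT.nd (nat_lit 78) (nat_lit 0) (nat_lit 0) (XT.lf (nat_lit 0) (nat_lit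 34547807895) (nat_lit 380) (nat_lit 173789943054) (nat_lit 456) (nat_lit 923884959325) (nat_lit 131) (nat_lit 5) (nat_lit 136) (nat_lit 5) (nat_lit 137) (nat_lit 5) (nat_lit 522) (nat_lit 508) (nat_lit 170)) (XT.lf (nat_lit 0) (nat_lit 345075770233) (nat_lit 456) (nat_lit 484564385269) (nat_lit 76) (nat_lit 333705388293) (nat_lit 131) (nat_lit 5) (nat_lit 137) (nat_lit 5) (nat_lit 132) (nat_lit 5) (nat_lit 523) (nat_lit 508) (nat_lit 169))) (XT.nd (nat_lit 78) (nat_lit 0) (nat_lit 0) (XT.lf (nat_lit 0) (nat_lit 161522362693) (nat_lit 380) (nat_lit 332499156341) (nat_lit 456) (nat_lit 701734458531) (nat_lit 126) (nat_lit 5) (nat_lit 131) (nat_lit 5) (nat_lit 132) (nat_lit 5) (nat_lit 524) (nat_lit 508) (nat_lit 168)) (XT.lf (nat_lit 0) (nat_lit 661714022887) (nat_lit 456) (nat_lit 375733329886) (nat_lit 76) (nat_lit 191774606870) (nat_lit 126) (nat_lit 5) (nat_lit 132) (nat_lit 5) (nat_lit 127)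 (nat_lit 5) (nat_lit 525) (nat_lit 508) (nat_lit 167)))) (XT.nd (nat_lit 156) (nat_lit 380) (nat_lit 0) (XT.nd (nat_lit 78) (nat_lit 0) (nat_lit 0) (XT.lf (nat_lit 0) (nat_lit 320499133539) (nat_lit 304) (nat_lit 527746710530) (nat_lit 380) (nat_lit 415592662150) (nat_lit 122) (nat_lit 5) (nat_lit 126) (nat_lit 5) (nat_lit 127) (nat_lit 5) (nat_lit 526) (nat_lit 508) (nat_lit 166)) (XT.lf (nat_lit 0) (nat_lit 1050687937029) (nat_lit 380) (nat_lit 235500348059) (nat_lit 76) (nat_lit 13668411001) (nat_lit 122) (nat_lit 5) (nat_lit 127) (nat_lit 5) (nat_lit 123) (nat_lit 5) (nat_lit 527) (nat_lit 508) (nat_lit 165))) (XT.nd (nat_lit 78) (nat_lit 76) (nat_lit 0) (XT.lf (nat_lit 0) (nat_lit 515580845592) (nat_lit 304) (nat_lit 764372533252) (nat_lit 380) (nat_lit 56887354398) (nat_lit 118) (nat_lit 5) (nat_lit 122) (nat_lit 5) (nat_lit 123) (nat_lit 5) (nat_lit 528) (nat_lit 508) (nat_lit 164)) (XT.lf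 (nat_lit 0) (nat_lit 144420646480) (nat_lit 380) (nat_lit 65411786465) (nat_lit 76) (nat_lit 1165525655578) (nat_lit 117) (nat_lit 5) (nat_lit 122) (nat_lit 5) (nat_lit 118) (nat_lit 5) (nat_lit 529) (nat_lit 508) (nat_lit 163))))) (XT.nd (nat_lit 60840) (nat_lit 0) (nat_lit 3116) (XT.nd (nat_lit 156) (nat_lit 228) (nat_lit 0) (XT.nd (nat_lit 78) (nat_lit 0) (nat_lit 0) (XT.lf (nat_lit 0) (nat_lit 143070144403) (nat_lit 304) (nat_lit 473939837377) (nat_lit 380) (nat_lit 839001473127) (nat_lit 109) (nat_lit 5) (nat_lit 113) (nat_lit 5) (nat_lit 114) (nat_lit 5) (nat_lit 531) (nat_lit 508) (nat_lit 161)) (XT.lf (nat_lit 0) (nat_lit 888088105585) (nat_lit 380) (nat_lit 480847940689) (nat_lit 76) (nat_lit 129605318808) (nat_lit 109) (nat_lit 5) (nat_lit 114) (nat_lit 5) (nat_lit 110) (nat_lit 5) (nat_lit 532) (nat_lit 508) (nat_lit 160))) (XT.nd (nat_lit 60606) (nat_lit 0) (nat_lit 3116) (XT.lf (nat_lit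 0) (nat_lit 397813091879) (nat_lit 228) (nat_lit 788887523804) (nat_lit 304) (nat_lit 355798131077) (nat_lit 106) (nat_lit 5) (nat_lit 109) (nat_lit 5) (nat_lit 110) (nat_lit 5) (nat_lit 533) (nat_lit 508) (nat_lit 159)) (XT.lf (nat_lit 0) (nat_lit 172238822855) (nat_lit 836) (nat_lit 120948623534) (nat_lit 836) (nat_lit 120948623534) (nat_lit 147) (nat_lit 3) (nat_lit 158) (nat_lit 3) (nat_lit 158) (nat_lit 5) (nat_lit 509) (nat_lit 509) (nat_lit 182)))) (XT.nd (nat_lit 156) (nat_lit 0) (nat_lit 76) (XT.nd (nat_lit 78) (nat_lit 0) (nat_lit 76) (XT.lf (nat_lit 76) (nat_lit 174468134541) (nat_lit 0) (nat_lit 181345482538) (nat_lit 836) (nat_lit 493029124739) (nat_lit 148) (nat_lit 5) (nat_lit 147) (nat_lit 3) (nat_lit 158) (nat_lit 5) (nat_lit 510) (nat_lit 509) (nat_lit 181)) (XT.lf (nat_lit 0) (nat_lit 375688701279) (nat_lit 760) (nat_lit 254062807051) (nat_lit 836) (nat_lit 240291749844) (nat_lit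 148) (nat_lit 5) (nat_lit 158) (nat_lit 5) (nat_lit 159) (nat_lit 5) (nat_lit 511) (nat_lit 509) (nat_lit 180))) (XT.nd (nat_lit 78) (nat_lit 0) (nat_lit 76) (XT.lf (nat_lit 76) (nat_lit 190385218980) (nat_lit 0) (nat_lit 212117638575) (nat_lit 836) (nat_lit 489503676902) (nat_lit 149) (nat_lit 5) (nat_lit 148) (nat_lit 5) (nat_lit 159) (nat_lit 5) (nat_lit 512) (nat_lit 509) (nat_lit 179)) (XT.lf (nat_lit 0) (nat_lit 438565634516) (nat_lit 760) (nat_lit 252581952889) (nat_lit 836) (nat_lit 223524991505) (nat_lit 149) (nat_lit 5) (nat_lit 159) (nat_lit 5) (nat_lit 160) (nat_lit 5) (nat_lit 513) (nat_lit 509) (nat_lit 178))))))) (XT.nd (nat_lit 1170) (nat_lit 988) (nat_lit 0) (XT.nd (nat_lit 546) (nat_lit 1520) (nat_lit 0) (XT.nd (nat_lit 234) (nat_lit 532) (nat_lit 0) (XT.nd (nat_lit 78) (nat_lit 0) (nat_lit 76) (XT.lf (nat_lit 76) (nat_lit 222555192011) (nat_lit 0) (nat_lit 260828401702) (nat_lit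 836) (nat_lit 454740729706) (nat_lit 150) (nat_lit 5) (nat_lit 149) (nat_lit 5) (nat_lit 160) (nat_lit 5) (nat_lit 514) (nat_lit 509) (nat_lit 177)) (XT.nd (nat_lit 78) (nat_lit 0) (nat_lit 0) (XT.lf (nat_lit 0) (nat_lit 537772318581) (nat_lit 760) (nat_lit 235368784893) (nat_lit 836) (nat_lit 189241058292) (nat_lit 150) (nat_lit 5) (nat_lit 160) (nat_lit 5) (nat_lit 161) (nat_lit 5) (nat_lit 515) (nat_lit 509) (nat_lit 176)) (XT.lf (nat_lit 76) (nat_lit 273313436814) (nat_lit 0) (nat_lit 330110102275) (nat_lit 836) (nat_lit 384002199974) (nat_lit 151) (nat_lit 5) (nat_lit 150) (nat_lit 5) (nat_lit 161) (nat_lit 5) (nat_lit 516) (nat_lit 509) (nat_lit 175)))) (XT.nd (nat_lit 156) (nat_lit 684) (nat_lit 0) (XT.nd (nat_lit 78) (nat_lit 0) (nat_lit 0) (XT.lf (nat_lit 0) (nat_lit 678517605434) (nat_lit 760) (nat_lit 200095157523) (nat_lit 836) (nat_lit 134800718027) (nat_lit 151) (nat_lit 5) (nat_lit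 161) (nat_lit 5) (nat_lit 162) (nat_lit 5) (nat_lit 517) (nat_lit 509) (nat_lit 174)) (XT.lf (nat_lit 76) (nat_lit 345261731466) (nat_lit 0) (nat_lit 422906783530) (nat_lit 836) (nat_lit 271991988011) (nat_lit 152) (nat_lit 5) (nat_lit 151) (nat_lit 5) (nat_lit 162) (nat_lit 5) (nat_lit 518) (nat_lit 509) (nat_lit 173))) (XT.nd (nat_lit 78) (nat_lit 760) (nat_lit 0) (XT.lf (nat_lit 0) (nat_lit 866614056504) (nat_lit 760) (nat_lit 144165509829) (nat_lit 76) (nat_lit 57249705476) (nat_lit 152) (nat_lit 5) (nat_lit 162) (nat_lit 5) (nat_lit 153) (nat_lit 5) (nat_lit 519) (nat_lit 509) (nat_lit 172)) (XT.lf (nat_lit 0) (nat_lit 441295732724) (nat_lit 760) (nat_lit 542508899590) (nat_lit 836) (nat_lit 112795708876) (nat_lit 142) (nat_lit 5) (nat_lit 152) (nat_lit 5) (nat_lit 153) (nat_lit 5) (nat_lit 520) (nat_lit 509) (nat_lit 171))))) (XT.nd (nat_lit 312) (nat_lit 684) (nat_lit 0) (XT.nd (nat_lit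 156) (nat_lit 380) (nat_lit 0) (XT.nd (nat_lit 78) (nat_lit 456) (nat_lit 0) (XT.lf (nat_lit 0) (nat_lit 1061035134882) (nat_lit 760) (nat_lit 48261110852) (nat_lit 836) (nat_lit 17181642866) (nat_lit 142) (nat_lit 5) (nat_lit 152) (nat_lit 5) (nat_lit 153) (nat_lit 5) (nat_lit 521) (nat_lit 509) (nat_lit 170)) (XT.lf (nat_lit 0) (nat_lit 96979242285) (nat_lit 456) (nat_lit 593970163129) (nat_lit 76) (nat_lit 466013475683) (nat_lit 136) (nat_lit 5) (nat_lit 142) (nat_lit 5) (nat_lit 137) (nat_lit 5) (nat_lit 522) (nat_lit 509) (nat_lit 169))) (XT.nd (nat_lit 78) (nat_lit 0) (nat_lit 0) (XT.lf (nat_lit 0) (nat_lit 36275311882) (nat_lit 380) (nat_lit 182479439011) (nat_lit 456) (nat_lit 970079089260) (nat_lit 131) (nat_lit 5) (nat_lit 136) (nat_lit 5) (nat_lit 137) (nat_lit 5) (nat_lit 523) (nat_lit 509) (nat_lit 168)) (XT.lf (nat_lit 0) (nat_lit 362329665807) (nat_lit 456) (nat_lit 508792491000)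 (nat_lit 76) (nat_lit 350390658809) (nat_lit 131) (nat_lit 5) (nat_lit 137) (nat_lit 5) (nat_lit 132) (nat_lit 5) (nat_lit 524) (nat_lit 509) (nat_lit 167)))) (XT.nd (nat_lit 156) (nat_lit 304) (nat_lit 0) (XT.nd (nat_lit 78) (nat_lit 0) (nat_lit 0) (XT.lf (nat_lit 0) (nat_lit 169598592528) (nat_lit 380) (nat_lit 349124106165) (nat_lit 456) (nat_lit 736821072550) (nat_lit 126) (nat_lit 5) (nat_lit 131) (nat_lit 5) (nat_lit 132) (nat_lit 5) (nat_lit 525) (nat_lit 509) (nat_lit 166)) (XT.lf (nat_lit 0) (nat_lit 694799822919) (nat_lit 456) (nat_lit 394519885166) (nat_lit 76) (nat_lit 201363344583) (nat_lit 126) (nat_lit 5) (nat_lit 132) (nat_lit 5) (nat_lit 127) (nat_lit 5) (nat_lit 526) (nat_lit 509) (nat_lit 165))) (XT.nd (nat_lit 78) (nat_lit 0) (nat_lit 0) (XT.lf (nat_lit 0) (nat_lit 336524199637) (nat_lit 304) (nat_lit 554134032524) (nat_lit 380) (nat_lit 436372194563) (nat_lit 122) (nat_lit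 5) (nat_lit 126) (nat_lit 5) (nat_lit 127) (nat_lit 5) (nat_lit 527) (nat_lit 509) (nat_lit 164)) (XT.lf (nat_lit 0) (nat_lit 1103222425403) (nat_lit 380) (nat_lit 247275256875) (nat_lit 76) (nat_lit 14351844027) (nat_lit 122) (nat_lit 5) (nat_lit 127) (nat_lit 5) (nat_lit 123) (nat_lit 5) (nat_lit 528) (nat_lit 509) (nat_lit 163)))))) (XT.nd (nat_lit 61230) (nat_lit 0) (nat_lit 2964) (XT.nd (nat_lit 312) (nat_lit 0) (nat_lit 0) (XT.nd (nat_lit 156) (nat_lit 608) (nat_lit 0) (XT.nd (nat_lit 78) (nat_lit 76) (nat_lit 0) (XT.lf (nat_lit 0) (nat_lit 541359994707) (nat_lit 304) (nat_lit 802591141912) (nat_lit 380) (nat_lit 59731628832) (nat_lit 118) (nat_lit 5) (nat_lit 122) (nat_lit 5) (nat_lit 123) (nat_lit 5) (nat_lit 529) (nat_lit 509) (nat_lit 162)) (XT.lf (nat_lit 0) (nat_lit 151641764804) (nat_lit 380) (nat_lit 68682271187) (nat_lit 76) (nat_lit 1223801952649) (nat_lit 117) (nat_lit 5) (nat_lit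 122) (nat_lit 5) (nat_lit 118) (nat_lit 5) (nat_lit 530) (nat_lit 509) (nat_lit 161))) (XT.nd (nat_lit 78) (nat_lit 304) (nat_lit 0) (XT.lf (nat_lit 0) (nat_lit 390217023839) (nat_lit 380) (nat_lit 703338890328) (nat_lit 76) (nat_lit 392054469962) (nat_lit 113) (nat_lit 5) (nat_lit 118) (nat_lit 5) (nat_lit 114) (nat_lit 5) (nat_lit 531) (nat_lit 509) (nat_lit 160)) (XT.lf (nat_lit 0) (nat_lit 150223756697) (nat_lit 304) (nat_lit 497636805635) (nat_lit 380) (nat_lit 880951461238) (nat_lit 109) (nat_lit 5) (nat_lit 113) (nat_lit 5) (nat_lit 114) (nat_lit 5) (nat_lit 532) (nat_lit 509) (nat_lit 159)))) (XT.nd (nat_lit 60762) (nat_lit 0) (nat_lit 2888) (XT.nd (nat_lit 60684) (nat_lit 0) (nat_lit 2888) (XT.lf (nat_lit 0) (nat_lit 932492588799) (nat_lit 380) (nat_lit 504890234116) (nat_lit 76) (nat_lit 136085606515) (nat_lit 109) (nat_lit 5) (nat_lit 114) (nat_lit 5) (nat_lit 110) (nat_lit 5) (nat_lit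 533) (nat_lit 509) (nat_lit 158)) (XT.lf (nat_lit 0) (nat_lit 180850856235) (nat_lit 836) (nat_lit 126996006279) (nat_lit 836) (nat_lit 126996006279) (nat_lit 147) (nat_lit 3) (nat_lit 158) (nat_lit 3) (nat_lit 158) (nat_lit 5) (nat_lit 510) (nat_lit 510) (nat_lit 180))) (XT.nd (nat_lit 78) (nat_lit 0) (nat_lit 76) (XT.lf (nat_lit 76) (nat_lit 183191636569) (nat_lit 0) (nat_lit 190412838541) (nat_lit 836) (nat_lit 517680394913) (nat_lit 148) (nat_lit 5) (nat_lit 147) (nat_lit 3) (nat_lit 158) (nat_lit 5) (nat_lit 511) (nat_lit 510) (nat_lit 179)) (XT.lf (nat_lit 0) (nat_lit 394473303867) (nat_lit 760) (nat_lit 266765846960) (nat_lit 836) (nat_lit 252306261855) (nat_lit 148) (nat_lit 5) (nat_lit 158) (nat_lit 5) (nat_lit 159) (nat_lit 5) (nat_lit 512) (nat_lit 510) (nat_lit 178))))) (XT.nd (nat_lit 312) (nat_lit 0) (nat_lit 152) (XT.nd (nat_lit 156) (nat_lit 0) (nat_lit 76) (XT.nd (nat_lit 78)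 (nat_lit 0) (nat_lit 76) (XT.lf (nat_lit 76) (nat_lit 199904578752) (nat_lit 0) (nat_lit 222723582770) (nat_lit 836) (nat_lit 513978691579) (nat_lit 149) (nat_lit 5) (nat_lit 148) (nat_lit 5) (nat_lit 159) (nat_lit 5) (nat_lit 513) (nat_lit 510) (nat_lit 177)) (XT.lf (nat_lit 0) (nat_lit 460494068734) (nat_lit 760) (nat_lit 265210947796) (nat_lit 836) (nat_lit 234701183678) (nat_lit 149) (nat_lit 5) (nat_lit 159) (nat_lit 5) (nat_lit 160) (nat_lit 5) (nat_lit 514) (nat_lit 510) (nat_lit 176))) (XT.nd (nat_lit 78) (nat_lit 0) (nat_lit 76) (XT.lf (nat_lit 76) (nat_lit 233683052692) (nat_lit 0) (nat_lit 273869867515) (nat_lit 836) (nat_lit 477477612020) (nat_lit 150) (nat_lit 5) (nat_lit 149) (nat_lit 5) (nat_lit 160) (nat_lit 5) (nat_lit 515) (nat_lit 510) (nat_lit 175)) (XT.lf (nat_lit 0) (nat_lit 564661073648) (nat_lit 760) (nat_lit 247137120178) (nat_lit 836) (nat_lit 198703069050) (nat_lit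 150) (nat_lit 5) (nat_lit 160) (nat_lit 5) (nat_lit 161) (nat_lit 5) (nat_lit 516) (nat_lit 510) (nat_lit 174)))) (XT.nd (nat_lit 156) (nat_lit 0) (nat_lit 76) (XT.nd (nat_lit 78) (nat_lit 0) (nat_lit 76) (XT.lf (nat_lit 76) (nat_lit 286979210937) (nat_lit 0) (nat_lit 346615639216) (nat_lit 836) (nat_lit 403202169138) (nat_lit 151) (nat_lit 5) (nat_lit 150) (nat_lit 5) (nat_lit 161) (nat_lit 5) (nat_lit 517) (nat_lit 510) (nat_lit 173)) (XT.lf (nat_lit 0) (nat_lit 712443612956) (nat_lit 760) (nat_lit 210099811109) (nat_lit 836) (nat_lit 141540724588) (nat_lit 151) (nat_lit 5) (nat_lit 161) (nat_lit 5) (nat_lit 162) (nat_lit 5) (nat_lit 518) (nat_lit 510) (nat_lit 172))) (XT.nd (nat_lit 78) (nat_lit 0) (nat_lit 76) (XT.lf (nat_lit 76) (nat_lit 362524920648) (nat_lit 0) (nat_lit 444052142890) (nat_lit 836) (nat_lit 285591458462) (nat_lit 152) (nat_lit 5) (nat_lit 151) (nat_lit 5) (nat_lit 162)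 (nat_lit 5) (nat_lit 519) (nat_lit 510) (nat_lit 171)) (XT.lf (nat_lit 0) (nat_lit 909944875975) (nat_lit 760) (nat_lit 151373681433) (nat_lit 76) (nat_lit 60112172142) (nat_lit 152) (nat_lit 5) (nat_lit 162) (nat_lit 5) (nat_lit 153) (nat_lit 5) (nat_lit 520) (nat_lit 510) (nat_lit 170))))))))
noncomputable def xc253 : XT := (XT.nd (nat_lit 63336) (nat_lit 0) (nat_lit 304) (XT.nd (nat_lit 62010) (nat_lit 0) (nat_lit 380) (XT.nd (nat_lit 546) (nat_lit 988) (nat_lit 0) (XT.nd (nat_lit 234) (nat_lit 760) (nat_lit 0) (XT.nd (nat_lit 78) (nat_lit 456) (nat_lit 0) (XT.lf (nat_lit 0) (nat_lit 463360621571) (nat_lit 760) (nat_lit 569634355044) (nat_lit 836) (nat_lit 118435375983) (nat_lit 142) (nat_lit 5) (nat_lit 152) (nat_lit 5) (nat_lit 153) (nat_lit 5) (nat_lit 521) (nat_lit 510) (nat_lit 169)) (XT.nd (nat_lit 78) (nat_lit 456) (nat_lit 0) (XT.lf (nat_lit 0) (nat_lit 1114086988970) (nat_lit 760)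 (nat_lit 50674176370) (nat_lit 836) (nat_lit 18040612308) (nat_lit 142) (nat_lit 5) (nat_lit 152) (nat_lit 5) (nat_lit 153) (nat_lit 5) (nat_lit 522) (nat_lit 510) (nat_lit 168)) (XT.lf (nat_lit 0) (nat_lit 101828309755) (nat_lit 456) (nat_lit 623668566565) (nat_lit 76) (nat_lit 489314143550) (nat_lit 136) (nat_lit 5) (nat_lit 142) (nat_lit 5) (nat_lit 137) (nat_lit 5) (nat_lit 523) (nat_lit 510) (nat_lit 167)))) (XT.nd (nat_lit 156) (nat_lit 380) (nat_lit 0) (XT.nd (nat_lit 78) (nat_lit 0) (nat_lit 0) (XT.lf (nat_lit 0) (nat_lit 38089180507) (nat_lit 380) (nat_lit 191603409877) (nat_lit 456) (nat_lit 1018582936665) (nat_lit 131) (nat_lit 5) (nat_lit 136) (nat_lit 5) (nat_lit 137) (nat_lit 5) (nat_lit 524) (nat_lit 510) (nat_lit 166)) (XT.lf (nat_lit 0) (nat_lit 380446246206) (nat_lit 456) (nat_lit 534232012574) (nat_lit 76) (nat_lit 367910192750) (nat_lit 131) (nat_lit 5) (nat_lit 137) (nat_lit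 5) (nat_lit 132) (nat_lit 5) (nat_lit 525) (nat_lit 510) (nat_lit 165))) (XT.nd (nat_lit 78) (nat_lit 0) (nat_lit 0) (XT.lf (nat_lit 0) (nat_lit 178078623471) (nat_lit 380) (nat_lit 366580304224) (nat_lit 456) (nat_lit 773662027396) (nat_lit 126) (nat_lit 5) (nat_lit 131) (nat_lit 5) (nat_lit 132) (nat_lit 5) (nat_lit 526) (nat_lit 510) (nat_lit 164)) (XT.lf (nat_lit 0) (nat_lit 729539903760) (nat_lit 456) (nat_lit 414245778550) (nat_lit 76) (nat_lit 211431518495) (nat_lit 126) (nat_lit 5) (nat_lit 132) (nat_lit 5) (nat_lit 127) (nat_lit 5) (nat_lit 527) (nat_lit 510) (nat_lit 163))))) (XT.nd (nat_lit 61152) (nat_lit 0) (nat_lit 2584) (XT.nd (nat_lit 234) (nat_lit 380) (nat_lit 0) (XT.nd (nat_lit 156) (nat_lit 304) (nat_lit 0) (XT.lf (nat_lit 0) (nat_lit 353350508866) (nat_lit 304) (nat_lit 581840721876) (nat_lit 380) (nat_lit 458190712958) (nat_lit 122) (nat_lit 5) (nat_lit 126) (nat_lit 5)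 (nat_lit 127) (nat_lit 5) (nat_lit 528) (nat_lit 510) (nat_lit 162)) (XT.lf (nat_lit 0) (nat_lit 568428091345) (nat_lit 304) (nat_lit 842720682678) (nat_lit 380) (nat_lit 62718125661) (nat_lit 118) (nat_lit 5) (nat_lit 122) (nat_lit 5) (nat_lit 123) (nat_lit 5) (nat_lit 530) (nat_lit 510) (nat_lit 160))) (XT.nd (nat_lit 78) (nat_lit 304) (nat_lit 0) (XT.lf (nat_lit 0) (nat_lit 159223931049) (nat_lit 380) (nat_lit 72116289869) (nat_lit 76) (nat_lit 1284992063244) (nat_lit 117) (nat_lit 5) (nat_lit 122) (nat_lit 5) (nat_lit 118) (nat_lit 5) (nat_lit 531) (nat_lit 510) (nat_lit 159)) (XT.lf (nat_lit 0) (nat_lit 409727951053) (nat_lit 380) (nat_lit 738505737977) (nat_lit 76) (nat_lit 411657210497) (nat_lit 113) (nat_lit 5) (nat_lit 118) (nat_lit 5) (nat_lit 114) (nat_lit 5) (nat_lit 532) (nat_lit 510) (nat_lit 158)))) (XT.nd (nat_lit 156) (nat_lit 0) (nat_lit 76) (XT.nd (nat_lit 78) (nat_lit 0) (nat_lit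 0) (XT.lf (nat_lit 0) (nat_lit 189893482708) (nat_lit 836) (nat_lit 133345762664) (nat_lit 836) (nat_lit 133345762664) (nat_lit 147) (nat_lit 3) (nat_lit 158) (nat_lit 3) (nat_lit 158) (nat_lit 5) (nat_lit 511) (nat_lit 511) (nat_lit 178)) (XT.lf (nat_lit 76) (nat_lit 192351304839) (nat_lit 0) (nat_lit 199933554733) (nat_lit 836) (nat_lit 543564245893) (nat_lit 148) (nat_lit 5) (nat_lit 147) (nat_lit 3) (nat_lit 158) (nat_lit 5) (nat_lit 512) (nat_lit 511) (nat_lit 177))) (XT.nd (nat_lit 78) (nat_lit 0) (nat_lit 0) (XT.lf (nat_lit 0) (nat_lit 414197121008) (nat_lit 760) (nat_lit 280104048204) (nat_lit 836) (nat_lit 264921506483) (nat_lit 148) (nat_lit 5) (nat_lit 158) (nat_lit 5) (nat_lit 159) (nat_lit 5) (nat_lit 513) (nat_lit 511) (nat_lit 176)) (XT.lf (nat_lit 76) (nat_lit 209899897325) (nat_lit 0) (nat_lit 233859818385) (nat_lit 836) (nat_lit 539677472718) (nat_lit 149) (nat_lit 5) (nat_lit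 148) (nat_lit 5) (nat_lit 159) (nat_lit 5) (nat_lit 514) (nat_lit 511) (nat_lit 175)))))) (XT.nd (nat_lit 624) (nat_lit 1824) (nat_lit 0) (XT.nd (nat_lit 312) (nat_lit 532) (nat_lit 0) (XT.nd (nat_lit 156) (nat_lit 0) (nat_lit 76) (XT.nd (nat_lit 78) (nat_lit 0) (nat_lit 0) (XT.lf (nat_lit 0) (nat_lit 483518910485) (nat_lit 760) (nat_lit 278471402000) (nat_lit 836) (nat_lit 246436190796) (nat_lit 149) (nat_lit 5) (nat_lit 159) (nat_lit 5) (nat_lit 160) (nat_lit 5) (nat_lit 515) (nat_lit 511) (nat_lit 174)) (XT.lf (nat_lit 76) (nat_lit 245367297009) (nat_lit 0) (nat_lit 287563402368) (nat_lit 836) (nat_lit 501351352783) (nat_lit 150) (nat_lit 5) (nat_lit 149) (nat_lit 5) (nat_lit 160) (nat_lit 5) (nat_lit 516) (nat_lit 511) (nat_lit 173))) (XT.nd (nat_lit 78) (nat_lit 0) (nat_lit 0) (XT.lf (nat_lit 0) (nat_lit 592894253533) (nat_lit 760) (nat_lit 259493881893) (nat_lit 836) (nat_lit 208638184265)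 (nat_lit 150) (nat_lit 5) (nat_lit 160) (nat_lit 5) (nat_lit 161) (nat_lit 5) (nat_lit 517) (nat_lit 511) (nat_lit 172)) (XT.lf (nat_lit 76) (nat_lit 301328264257) (nat_lit 0) (nat_lit 363946450044) (nat_lit 836) (nat_lit 423362149854) (nat_lit 151) (nat_lit 5) (nat_lit 150) (nat_lit 5) (nat_lit 161) (nat_lit 5) (nat_lit 518) (nat_lit 511) (nat_lit 171)))) (XT.nd (nat_lit 156) (nat_lit 684) (nat_lit 0) (XT.nd (nat_lit 78) (nat_lit 0) (nat_lit 0) (XT.lf (nat_lit 0) (nat_lit 748065909023) (nat_lit 760) (nat_lit 220604707069) (nat_lit 836) (nat_lit 148617734204) (nat_lit 151) (nat_lit 5) (nat_lit 161) (nat_lit 5) (nat_lit 162) (nat_lit 5) (nat_lit 519) (nat_lit 511) (nat_lit 170)) (XT.lf (nat_lit 76) (nat_lit 380651259749) (nat_lit 0) (nat_lit 466254768342) (nat_lit 836) (nat_lit 299870914423) (nat_lit 152) (nat_lit 5) (nat_lit 151) (nat_lit 5) (nat_lit 162) (nat_lit 5) (nat_lit 520) (nat_lit 511)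 (nat_lit 169))) (XT.nd (nat_lit 78) (nat_lit 760) (nat_lit 0) (XT.lf (nat_lit 0) (nat_lit 955442225574) (nat_lit 760) (nat_lit 158942271276) (nat_lit 76) (nat_lit 63117763872) (nat_lit 152) (nat_lit 5) (nat_lit 162) (nat_lit 5) (nat_lit 153) (nat_lit 5) (nat_lit 521) (nat_lit 511) (nat_lit 168)) (XT.lf (nat_lit 0) (nat_lit 486528745359) (nat_lit 760) (nat_lit 598116082297) (nat_lit 836) (nat_lit 124357037447) (nat_lit 142) (nat_lit 5) (nat_lit 152) (nat_lit 5) (nat_lit 153) (nat_lit 5) (nat_lit 522) (nat_lit 511) (nat_lit 167))))) (XT.nd (nat_lit 312) (nat_lit 988) (nat_lit 0) (XT.nd (nat_lit 156) (nat_lit 380) (nat_lit 0) (XT.nd (nat_lit 78) (nat_lit 456) (nat_lit 0) (XT.lf (nat_lit 0) (nat_lit 1169791426713) (nat_lit 760) (nat_lit 53207894237) (nat_lit 836) (nat_lit 18942540699) (nat_lit 142) (nat_lit 5) (nat_lit 152) (nat_lit 5) (nat_lit 153) (nat_lit 5) (nat_lit 523) (nat_lit 511) (nat_lit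 166)) (XT.lf (nat_lit 0) (nat_lit 106919820803) (nat_lit 456) (nat_lit 654851899909) (nat_lit 76) (nat_lit 513779845360) (nat_lit 136) (nat_lit 5) (nat_lit 142) (nat_lit 5) (nat_lit 137) (nat_lit 5) (nat_lit 524) (nat_lit 511) (nat_lit 165))) (XT.nd (nat_lit 78) (nat_lit 0) (nat_lit 0) (XT.lf (nat_lit 0) (nat_lit 39993732985) (nat_lit 380) (nat_lit 201183579387) (nat_lit 456) (nat_lit 1069511986393) (nat_lit 131) (nat_lit 5) (nat_lit 136) (nat_lit 5) (nat_lit 137) (nat_lit 5) (nat_lit 525) (nat_lit 511) (nat_lit 164)) (XT.lf (nat_lit 0) (nat_lit 399468646597) (nat_lit 456) (nat_lit 560943519799) (nat_lit 76) (nat_lit 386305703294) (nat_lit 131) (nat_lit 5) (nat_lit 137) (nat_lit 5) (nat_lit 132) (nat_lit 5) (nat_lit 526) (nat_lit 511) (nat_lit 163)))) (XT.nd (nat_lit 234) (nat_lit 608) (nat_lit 0) (XT.nd (nat_lit 78) (nat_lit 0) (nat_lit 0) (XT.lf (nat_lit 0) (nat_lit 186982646541) (nat_lit 380)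 (nat_lit 384909312859) (nat_lit 456) (nat_lit 812345039168) (nat_lit 126) (nat_lit 5) (nat_lit 131) (nat_lit 5) (nat_lit 132) (nat_lit 5) (nat_lit 527) (nat_lit 511) (nat_lit 162)) (XT.lf (nat_lit 0) (nat_lit 766016980304) (nat_lit 456) (nat_lit 434957975981) (nat_lit 76) (nat_lit 222003100482) (nat_lit 126) (nat_lit 5) (nat_lit 132) (nat_lit 5) (nat_lit 127) (nat_lit 5) (nat_lit 528) (nat_lit 511) (nat_lit 161))) (XT.nd (nat_lit 78) (nat_lit 304) (nat_lit 0) (XT.lf (nat_lit 0) (nat_lit 1216302886468) (nat_lit 380) (nat_lit 272620777954) (nat_lit 76) (nat_lit 15822930186) (nat_lit 122) (nat_lit 5) (nat_lit 127) (nat_lit 5) (nat_lit 123) (nat_lit 5) (nat_lit 530) (nat_lit 511) (nat_lit 159)) (XT.lf (nat_lit 0) (nat_lit 596849583806) (nat_lit 304) (nat_lit 884856702001) (nat_lit 380) (nat_lit 65853955198) (nat_lit 118) (nat_lit 5) (nat_lit 122) (nat_lit 5) (nat_lit 123) (nat_lit 5) (nat_lit 531)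 (nat_lit 511) (nat_lit 158))))))) (XT.nd (nat_lit 62010) (nat_lit 0) (nat_lit 76) (XT.nd (nat_lit 61386) (nat_lit 0) (nat_lit 1444) (XT.nd (nat_lit 61074) (nat_lit 0) (nat_lit 2356) (XT.nd (nat_lit 60918) (nat_lit 0) (nat_lit 2280) (XT.lf (nat_lit 0) (nat_lit 167185198353) (nat_lit 380) (nat_lit 75722018307) (nat_lit 76) (nat_lit 1349241678164) (nat_lit 117) (nat_lit 5) (nat_lit 122) (nat_lit 5) (nat_lit 118) (nat_lit 5) (nat_lit 532) (nat_lit 511) (nat_lit 157)) (XT.nd (nat_lit 78) (nat_lit 0) (nat_lit 0) (XT.lf (nat_lit 0) (nat_lit 199388232727) (nat_lit 836) (nat_lit 140013010953) (nat_lit 836) (nat_lit 140013010953) (nat_lit 147) (nat_lit 3) (nat_lit 158) (nat_lit 3) (nat_lit 158) (nat_lit 5) (nat_lit 512) (nat_lit 512) (nat_lit 176)) (XT.lf (nat_lit 76) (nat_lit 201968948485) (nat_lit 0) (nat_lit 209930299830) (nat_lit 836) (nat_lit 570742305113) (nat_lit 148) (nat_lit 5) (nat_lit 147) (nat_lit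 3) (nat_lit 158) (nat_lit 5) (nat_lit 513) (nat_lit 512) (nat_lit 175)))) (XT.nd (nat_lit 156) (nat_lit 0) (nat_lit 76) (XT.nd (nat_lit 78) (nat_lit 0) (nat_lit 0) (XT.lf (nat_lit 0) (nat_lit 434907114880) (nat_lit 760) (nat_lit 294109167979) (nat_lit 836) (nat_lit 278167519708) (nat_lit 148) (nat_lit 5) (nat_lit 158) (nat_lit 5) (nat_lit 159) (nat_lit 5) (nat_lit 514) (nat_lit 512) (nat_lit 174)) (XT.lf (nat_lit 76) (nat_lit 220394973493) (nat_lit 0) (nat_lit 245552860531) (nat_lit 836) (nat_lit 566661207179) (nat_lit 149) (nat_lit 5) (nat_lit 148) (nat_lit 5) (nat_lit 159) (nat_lit 5) (nat_lit 515) (nat_lit 512) (nat_lit 173))) (XT.nd (nat_lit 78) (nat_lit 0) (nat_lit 0) (XT.lf (nat_lit 0) (nat_lit 507694981465) (nat_lit 760) (nat_lit 292394887578) (nat_lit 836) (nat_lit 258757953111) (nat_lit 149) (nat_lit 5) (nat_lit 159) (nat_lit 5) (nat_lit 160) (nat_lit 5) (nat_lit 516) (nat_lit 512) (nat_lit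 172)) (XT.lf (nat_lit 76) (nat_lit 257635745019) (nat_lit 0) (nat_lit 301941610107) (nat_lit 836) (nat_lit 526418793584) (nat_lit 150) (nat_lit 5) (nat_lit 149) (nat_lit 5) (nat_lit 160) (nat_lit 5) (nat_lit 517) (nat_lit 512) (nat_lit 171))))) (XT.nd (nat_lit 312) (nat_lit 1064) (nat_lit 0) (XT.nd (nat_lit 156) (nat_lit 0) (nat_lit 76) (XT.nd (nat_lit 78) (nat_lit 0) (nat_lit 0) (XT.lf (nat_lit 0) (nat_lit 622539080678) (nat_lit 760) (nat_lit 272468490460) (nat_lit 836) (nat_lit 219070058796) (nat_lit 150) (nat_lit 5) (nat_lit 160) (nat_lit 5) (nat_lit 161) (nat_lit 5) (nat_lit 518) (nat_lit 512) (nat_lit 170)) (XT.lf (nat_lit 76) (nat_lit 316394761617) (nat_lit 0) (nat_lit 382143798731) (nat_lit 836) (nat_lit 444530141481) (nat_lit 151) (nat_lit 5) (nat_lit 150) (nat_lit 5) (nat_lit 161) (nat_lit 5) (nat_lit 519) (nat_lit 512) (nat_lit 169))) (XT.nd (nat_lit 78) (nat_lit 0) (nat_lit 0) (XT.lf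 (nat_lit 0) (nat_lit 785469309163) (nat_lit 760) (nat_lit 231634856623) (nat_lit 836) (nat_lit 156048596775) (nat_lit 151) (nat_lit 5) (nat_lit 161) (nat_lit 5) (nat_lit 162) (nat_lit 5) (nat_lit 520) (nat_lit 512) (nat_lit 168)) (XT.lf (nat_lit 76) (nat_lit 399683907153) (nat_lit 0) (nat_lit 489567523364) (nat_lit 836) (nat_lit 314864354057) (nat_lit 152) (nat_lit 5) (nat_lit 151) (nat_lit 5) (nat_lit 162) (nat_lit 5) (nat_lit 521) (nat_lit 512) (nat_lit 167)))) (XT.nd (nat_lit 156) (nat_lit 456) (nat_lit 0) (XT.nd (nat_lit 78) (nat_lit 760) (nat_lit 0) (XT.lf (nat_lit 0) (nat_lit 1003214432816) (nat_lit 760) (nat_lit 166889299372) (nat_lit 76) (nat_lit 66273636757) (nat_lit 152) (nat_lit 5) (nat_lit 162) (nat_lit 5) (nat_lit 153) (nat_lit 5) (nat_lit 522) (nat_lit 512) (nat_lit 166)) (XT.lf (nat_lit 0) (nat_lit 510855266717) (nat_lit 760) (nat_lit 628021895030) (nat_lit 836) (nat_lit 130574791963)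 (nat_lit 142) (nat_lit 5) (nat_lit 152) (nat_lit 5) (nat_lit 153) (nat_lit 5) (nat_lit 523) (nat_lit 512) (nat_lit 165))) (XT.nd (nat_lit 78) (nat_lit 456) (nat_lit 0) (XT.lf (nat_lit 0) (nat_lit 1228281078134) (nat_lit 760) (nat_lit 55868297156) (nat_lit 836) (nat_lit 19889575014) (nat_lit 142) (nat_lit 5) (nat_lit 152) (nat_lit 5) (nat_lit 153) (nat_lit 5) (nat_lit 524) (nat_lit 512) (nat_lit 164)) (XT.lf (nat_lit 0) (nat_lit 112265898519) (nat_lit 456) (nat_lit 687594408750) (nat_lit 76) (nat_lit 539468832761) (nat_lit 136) (nat_lit 5) (nat_lit 142) (nat_lit 5) (nat_lit 137) (nat_lit 5) (nat_lit 525) (nat_lit 512) (nat_lit 163)))))) (XT.nd (nat_lit 61542) (nat_lit 0) (nat_lit 2204) (XT.nd (nat_lit 312) (nat_lit 608) (nat_lit 0) (XT.nd (nat_lit 156) (nat_lit 380) (nat_lit 0) (XT.nd (nat_lit 78) (nat_lit 0) (nat_lit 0) (XT.lf (nat_lit 0) (nat_lit 41993504399) (nat_lit 380) (nat_lit 211242757464)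 (nat_lit 456) (nat_lit 1122987497636) (nat_lit 131) (nat_lit 5) (nat_lit 136) (nat_lit 5) (nat_lit 137) (nat_lit 5) (nat_lit 526) (nat_lit 512) (nat_lit 162)) (XT.lf (nat_lit 0) (nat_lit 419442158818) (nat_lit 456) (nat_lit 588990611070) (nat_lit 76) (nat_lit 405620989281) (nat_lit 131) (nat_lit 5) (nat_lit 137) (nat_lit 5) (nat_lit 132) (nat_lit 5) (nat_lit 527) (nat_lit 512) (nat_lit 161))) (XT.nd (nat_lit 78) (nat_lit 0) (nat_lit 0) (XT.lf (nat_lit 0) (nat_lit 196331862221) (nat_lit 380) (nat_lit 404154772538) (nat_lit 456) (nat_lit 852962209858) (nat_lit 126) (nat_lit 5) (nat_lit 131) (nat_lit 5) (nat_lit 132) (nat_lit 5) (nat_lit 528) (nat_lit 512) (nat_lit 160)) (XT.lf (nat_lit 0) (nat_lit 804317903111) (nat_lit 456) (nat_lit 456705791790) (nat_lit 76) (nat_lit 233103261005) (nat_lit 126) (nat_lit 5) (nat_lit 132) (nat_lit 5) (nat_lit 127) (nat_lit 5) (nat_lit 529) (nat_lit 512) (nat_lit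 159)))) (XT.nd (nat_lit 156) (nat_lit 304) (nat_lit 0) (XT.nd (nat_lit 78) (nat_lit 0) (nat_lit 0) (XT.lf (nat_lit 0) (nat_lit 389569112198) (nat_lit 304) (nat_lit 641479374079) (nat_lit 380) (nat_lit 505155098913) (nat_lit 122) (nat_lit 5) (nat_lit 126) (nat_lit 5) (nat_lit 127) (nat_lit 5) (nat_lit 530) (nat_lit 512) (nat_lit 158)) (XT.lf (nat_lit 0) (nat_lit 1277118099087) (nat_lit 380) (nat_lit 286251735822) (nat_lit 76) (nat_lit 16614086005) (nat_lit 122) (nat_lit 5) (nat_lit 127) (nat_lit 5) (nat_lit 123) (nat_lit 5) (nat_lit 531) (nat_lit 512) (nat_lit 157))) (XT.nd (nat_lit 60996) (nat_lit 0) (nat_lit 2204) (XT.lf (nat_lit 0) (nat_lit 626692142719) (nat_lit 304) (nat_lit 929099523667) (nat_lit 380) (nat_lit 69146583347) (nat_lit 118) (nat_lit 5) (nat_lit 122) (nat_lit 5) (nat_lit 123) (nat_lit 5) (nat_lit 532) (nat_lit 512) (nat_lit 156)) (XT.lf (nat_lit 0) (nat_lit 209357713192) (nat_lit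 836) (nat_lit 147013625360) (nat_lit 836) (nat_lit 147013625360) (nat_lit 147) (nat_lit 3) (nat_lit 158) (nat_lit 3) (nat_lit 158) (nat_lit 5) (nat_lit 513) (nat_lit 513) (nat_lit 174))))) (XT.nd (nat_lit 312) (nat_lit 0) (nat_lit 152) (XT.nd (nat_lit 156) (nat_lit 0) (nat_lit 76) (XT.nd (nat_lit 78) (nat_lit 0) (nat_lit 76) (XT.lf (nat_lit 76) (nat_lit 212067467024) (nat_lit 0) (nat_lit 220426875919) (nat_lit 836) (nat_lit 599279281525) (nat_lit 148) (nat_lit 5) (nat_lit 147) (nat_lit 3) (nat_lit 158) (nat_lit 5) (nat_lit 514) (nat_lit 513) (nat_lit 173)) (XT.lf (nat_lit 0) (nat_lit 456652595633) (nat_lit 760) (nat_lit 308814551426) (nat_lit 836) (nat_lit 292075839368) (nat_lit 148) (nat_lit 5) (nat_lit 158) (nat_lit 5) (nat_lit 159) (nat_lit 5) (nat_lit 515) (nat_lit 513) (nat_lit 172))) (XT.nd (nat_lit 78) (nat_lit 0) (nat_lit 76) (XT.lf (nat_lit 76) (nat_lit 231414795911) (nat_lit 0) (nat_lit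 257830550021) (nat_lit 836) (nat_lit 594994141302) (nat_lit 149) (nat_lit 5) (nat_lit 148) (nat_lit 5) (nat_lit 159) (nat_lit 5) (nat_lit 516) (nat_lit 513) (nat_lit 171)) (XT.lf (nat_lit 0) (nat_lit 533079844330) (nat_lit 760) (nat_lit 307014555293) (nat_lit 836) (nat_lit 271695807931) (nat_lit 149) (nat_lit 5) (nat_lit 159) (nat_lit 5) (nat_lit 160) (nat_lit 5) (nat_lit 517) (nat_lit 513) (nat_lit 170)))) (XT.nd (nat_lit 156) (nat_lit 0) (nat_lit 76) (XT.nd (nat_lit 78) (nat_lit 0) (nat_lit 76) (XT.lf (nat_lit 76) (nat_lit 270517607698) (nat_lit 0) (nat_lit 317038724735) (nat_lit 836) (nat_lit 552739618219) (nat_lit 150) (nat_lit 5) (nat_lit 149) (nat_lit 5) (nat_lit 160) (nat_lit 5) (nat_lit 518) (nat_lit 513) (nat_lit 169)) (XT.lf (nat_lit 0) (nat_lit 653666138539) (nat_lit 760) (nat_lit 286091837408) (nat_lit 836) (nat_lit 230023530278) (nat_lit 150) (nat_lit 5) (nat_lit 160) (nat_lit 5)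 (nat_lit 161) (nat_lit 5) (nat_lit 519) (nat_lit 513) (nat_lit 168))) (XT.nd (nat_lit 78) (nat_lit 0) (nat_lit 76) (XT.lf (nat_lit 76) (nat_lit 332214576023) (nat_lit 0) (nat_lit 401251012417) (nat_lit 836) (nat_lit 466756543462) (nat_lit 151) (nat_lit 5) (nat_lit 150) (nat_lit 5) (nat_lit 161) (nat_lit 5) (nat_lit 520) (nat_lit 513) (nat_lit 167)) (XT.lf (nat_lit 0) (nat_lit 824742869576) (nat_lit 760) (nat_lit 243216521631) (nat_lit 836) (nat_lit 163851004719) (nat_lit 151) (nat_lit 5) (nat_lit 161) (nat_lit 5) (nat_lit 162) (nat_lit 5) (nat_lit 521) (nat_lit 513) (nat_lit 166))))))))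
noncomputable def xc254 : XT := (XT.nd (nat_lit 124722) (nat_lit 0) (nat_lit 684) (XT.nd (nat_lit 62322) (nat_lit 0) (nat_lit 304) (XT.nd (nat_lit 624) (nat_lit 304) (nat_lit 0) (XT.nd (nat_lit 234) (nat_lit 1216) (nat_lit 0) (XT.nd (nat_lit 78) (nat_lit 684) (nat_lit 0) (XT.lf (nat_lit 76) (nat_lit 419668179079) (nat_lit 0) (nat_lit 514045914594) (nat_lit 836) (nat_lit 330607475535) (nat_lit 152) (nat_lit 5) (nat_lit 151) (nat_lit 5) (nat_lit 162) (nat_lit 5) (nat_lit 522) (nat_lit 513) (nat_lit 165)) (XT.nd (nat_lit 78) (nat_lit 760) (nat_lit 0) (XT.lf (nat_lit 0) (nat_lit 1053375241499) (nat_lit 760) (nat_lit 175233686818) (nat_lit 76) (nat_lit 69587304710) (nat_lit 152) (nat_lit 5) (nat_lit 162) (nat_lit 5) (nat_lit 153) (nat_lit 5) (nat_lit 523) (nat_lit 513) (nat_lit 164)) (XT.lf (nat_lit 0) (nat_lit 536398106324) (nat_lit 760) (nat_lit 659422997597) (nat_lit 836) (nat_lit 137103443257)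 (nat_lit 142) (nat_lit 5) (nat_lit 152) (nat_lit 5) (nat_lit 153) (nat_lit 5) (nat_lit 524) (nat_lit 513) (nat_lit 163)))) (XT.nd (nat_lit 156) (nat_lit 760) (nat_lit 0) (XT.nd (nat_lit 78) (nat_lit 456) (nat_lit 0) (XT.lf (nat_lit 0) (nat_lit 1289695204681) (nat_lit 760) (nat_lit 58661719458) (nat_lit 836) (nat_lit 20883969665) (nat_lit 142) (nat_lit 5) (nat_lit 152) (nat_lit 5) (nat_lit 153) (nat_lit 5) (nat_lit 525) (nat_lit 513) (nat_lit 162)) (XT.lf (nat_lit 0) (nat_lit 117879272063) (nat_lit 456) (nat_lit 721974051044) (nat_lit 76) (nat_lit 566442269983) (nat_lit 136) (nat_lit 5) (nat_lit 142) (nat_lit 5) (nat_lit 137) (nat_lit 5) (nat_lit 526) (nat_lit 513) (nat_lit 161))) (XT.nd (nat_lit 156) (nat_lit 380) (nat_lit 0) (XT.lf (nat_lit 0) (nat_lit 44093256503) (nat_lit 380) (nat_lit 221804894528) (nat_lit 456) (nat_lit 1179136792629) (nat_lit 131) (nat_lit 5) (nat_lit 136) (nat_lit 5) (nat_lit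 137) (nat_lit 5) (nat_lit 527) (nat_lit 513) (nat_lit 160)) (XT.lf (nat_lit 0) (nat_lit 206148530935) (nat_lit 380) (nat_lit 424362505755) (nat_lit 456) (nat_lit 895610246638) (nat_lit 126) (nat_lit 5) (nat_lit 131) (nat_lit 5) (nat_lit 132) (nat_lit 5) (nat_lit 529) (nat_lit 513) (nat_lit 158))))) (XT.nd (nat_lit 61386) (nat_lit 0) (nat_lit 1976) (XT.nd (nat_lit 61230) (nat_lit 0) (nat_lit 1900) (XT.nd (nat_lit 78) (nat_lit 304) (nat_lit 0) (XT.lf (nat_lit 0) (nat_lit 844533865198) (nat_lit 456) (nat_lit 479541006105) (nat_lit 76) (nat_lit 244758429042) (nat_lit 126) (nat_lit 5) (nat_lit 132) (nat_lit 5) (nat_lit 127) (nat_lit 5) (nat_lit 530) (nat_lit 513) (nat_lit 157)) (XT.lf (nat_lit 0) (nat_lit 409047641868) (nat_lit 304) (nat_lit 673553333624) (nat_lit 380) (nat_lit 530412785704) (nat_lit 122) (nat_lit 5) (nat_lit 126) (nat_lit 5) (nat_lit 127) (nat_lit 5) (nat_lit 531) (nat_lit 513) (nat_lit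 156))) (XT.nd (nat_lit 78) (nat_lit 0) (nat_lit 0) (XT.lf (nat_lit 0) (nat_lit 219825661282) (nat_lit 836) (nat_lit 154364273848) (nat_lit 836) (nat_lit 154364273848) (nat_lit 147) (nat_lit 3) (nat_lit 158) (nat_lit 3) (nat_lit 158) (nat_lit 5) (nat_lit 514) (nat_lit 514) (nat_lit 172)) (XT.lf (nat_lit 76) (nat_lit 222670904879) (nat_lit 0) (nat_lit 231448275132) (nat_lit 836) (nat_lit 629243119666) (nat_lit 148) (nat_lit 5) (nat_lit 147) (nat_lit 3) (nat_lit 158) (nat_lit 5) (nat_lit 515) (nat_lit 514) (nat_lit 171)))) (XT.nd (nat_lit 156) (nat_lit 0) (nat_lit 76) (XT.nd (nat_lit 78) (nat_lit 0) (nat_lit 0) (XT.lf (nat_lit 0) (nat_lit 479485338801) (nat_lit 760) (nat_lit 324255211013) (nat_lit 836) (nat_lit 306679580247) (nat_lit 148) (nat_lit 5) (nat_lit 158) (nat_lit 5) (nat_lit 159) (nat_lit 5) (nat_lit 516) (nat_lit 514) (nat_lit 170)) (XT.lf (nat_lit 76) (nat_lit 242985602594) (nat_lit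 0) (nat_lit 270722119666) (nat_lit 836) (nat_lit 624743733868) (nat_lit 149) (nat_lit 5) (nat_lit 148) (nat_lit 5) (nat_lit 159) (nat_lit 5) (nat_lit 517) (nat_lit 514) (nat_lit 169))) (XT.nd (nat_lit 78) (nat_lit 0) (nat_lit 0) (XT.lf (nat_lit 0) (nat_lit 559733939759) (nat_lit 760) (nat_lit 322365213521) (nat_lit 836) (nat_lit 285280559476) (nat_lit 149) (nat_lit 5) (nat_lit 159) (nat_lit 5) (nat_lit 160) (nat_lit 5) (nat_lit 518) (nat_lit 514) (nat_lit 168)) (XT.lf (nat_lit 76) (nat_lit 284043556498) (nat_lit 0) (nat_lit 332890691923) (nat_lit 836) (nat_lit 580376494780) (nat_lit 150) (nat_lit 5) (nat_lit 149) (nat_lit 5) (nat_lit 160) (nat_lit 5) (nat_lit 519) (nat_lit 514) (nat_lit 167)))))) (XT.nd (nat_lit 624) (nat_lit 760) (nat_lit 0) (XT.nd (nat_lit 312) (nat_lit 1064) (nat_lit 0) (XT.nd (nat_lit 156) (nat_lit 0) (nat_lit 76) (XT.nd (nat_lit 78) (nat_lit 0) (nat_lit 0) (XT.lf (nat_lit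 0) (nat_lit 686349539640) (nat_lit 760) (nat_lit 300396358914) (nat_lit 836) (nat_lit 241524678258) (nat_lit 150) (nat_lit 5) (nat_lit 160) (nat_lit 5) (nat_lit 161) (nat_lit 5) (nat_lit 520) (nat_lit 514) (nat_lit 166)) (XT.lf (nat_lit 76) (nat_lit 348825374053) (nat_lit 0) (nat_lit 421313584579) (nat_lit 836) (nat_lit 490094275313) (nat_lit 151) (nat_lit 5) (nat_lit 150) (nat_lit 5) (nat_lit 161) (nat_lit 5) (nat_lit 521) (nat_lit 514) (nat_lit 165))) (XT.nd (nat_lit 78) (nat_lit 0) (nat_lit 0) (XT.lf (nat_lit 0) (nat_lit 865980099183) (nat_lit 760) (nat_lit 255377277125) (nat_lit 836) (nat_lit 172043535096) (nat_lit 151) (nat_lit 5) (nat_lit 161) (nat_lit 5) (nat_lit 162) (nat_lit 5) (nat_lit 522) (nat_lit 514) (nat_lit 164)) (XT.lf (nat_lit 76) (nat_lit 440651657482) (nat_lit 0) (nat_lit 539748223985) (nat_lit 836) (nat_lit 347137762033) (nat_lit 152) (nat_lit 5) (nat_lit 151) (nat_lit 5)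 (nat_lit 162) (nat_lit 5) (nat_lit 523) (nat_lit 514) (nat_lit 163)))) (XT.nd (nat_lit 156) (nat_lit 456) (nat_lit 0) (XT.nd (nat_lit 78) (nat_lit 760) (nat_lit 0) (XT.lf (nat_lit 0) (nat_lit 1106044082524) (nat_lit 760) (nat_lit 183995300844) (nat_lit 76) (nat_lit 73066657351) (nat_lit 152) (nat_lit 5) (nat_lit 162) (nat_lit 5) (nat_lit 153) (nat_lit 5) (nat_lit 524) (nat_lit 514) (nat_lit 162)) (XT.lf (nat_lit 0) (nat_lit 563218080821) (nat_lit 760) (nat_lit 692394154567) (nat_lit 836) (nat_lit 143958535324) (nat_lit 142) (nat_lit 5) (nat_lit 152) (nat_lit 5) (nat_lit 153) (nat_lit 5) (nat_lit 525) (nat_lit 514) (nat_lit 161))) (XT.nd (nat_lit 78) (nat_lit 456) (nat_lit 0) (XT.lf (nat_lit 0) (nat_lit 1354180030801) (nat_lit 760) (nat_lit 61594812183) (nat_lit 836) (nat_lit 21928091867) (nat_lit 142) (nat_lit 5) (nat_lit 152) (nat_lit 5) (nat_lit 153) (nat_lit 5) (nat_lit 526) (nat_lit 514)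 (nat_lit 160)) (XT.lf (nat_lit 0) (nat_lit 123773306975) (nat_lit 456) (nat_lit 758072682717) (nat_lit 76) (nat_lit 594764379478) (nat_lit 136) (nat_lit 5) (nat_lit 142) (nat_lit 5) (nat_lit 137) (nat_lit 5) (nat_lit 527) (nat_lit 514) (nat_lit 159))))) (XT.nd (nat_lit 61464) (nat_lit 0) (nat_lit 1596) (XT.nd (nat_lit 156) (nat_lit 380) (nat_lit 0) (XT.nd (nat_lit 78) (nat_lit 0) (nat_lit 0) (XT.lf (nat_lit 0) (nat_lit 46297989064) (nat_lit 380) (nat_lit 232895138521) (nat_lit 456) (nat_lit 1238093559799) (nat_lit 131) (nat_lit 5) (nat_lit 136) (nat_lit 5) (nat_lit 137) (nat_lit 5) (nat_lit 528) (nat_lit 514) (nat_lit 158)) (XT.lf (nat_lit 0) (nat_lit 462435121911) (nat_lit 456) (nat_lit 649361998321) (nat_lit 76) (nat_lit 447197142143) (nat_lit 131) (nat_lit 5) (nat_lit 137) (nat_lit 5) (nat_lit 132) (nat_lit 5) (nat_lit 529) (nat_lit 514) (nat_lit 157))) (XT.nd (nat_lit 78) (nat_lit 0) (nat_lit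 0) (XT.lf (nat_lit 0) (nat_lit 216456026056) (nat_lit 380) (nat_lit 445580626136) (nat_lit 456) (nat_lit 940390692111) (nat_lit 126) (nat_lit 5) (nat_lit 131) (nat_lit 5) (nat_lit 132) (nat_lit 5) (nat_lit 530) (nat_lit 514) (nat_lit 156)) (XT.lf (nat_lit 0) (nat_lit 886760619167) (nat_lit 456) (nat_lit 503517988135) (nat_lit 76) (nat_lit 256996355018) (nat_lit 126) (nat_lit 5) (nat_lit 132) (nat_lit 5) (nat_lit 127) (nat_lit 5) (nat_lit 531) (nat_lit 514) (nat_lit 155)))) (XT.nd (nat_lit 156) (nat_lit 0) (nat_lit 76) (XT.nd (nat_lit 78) (nat_lit 0) (nat_lit 0) (XT.lf (nat_lit 0) (nat_lit 230817000971) (nat_lit 836) (nat_lit 162082457807) (nat_lit 836) (nat_lit 162082457807) (nat_lit 147) (nat_lit 3) (nat_lit 158) (nat_lit 3) (nat_lit 158) (nat_lit 5) (nat_lit 515) (nat_lit 515) (nat_lit 170)) (XT.lf (nat_lit 76) (nat_lit 233804508629) (nat_lit 0) (nat_lit 243020739154) (nat_lit 836) (nat_lit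 660705161422) (nat_lit 148) (nat_lit 5) (nat_lit 147) (nat_lit 3) (nat_lit 158) (nat_lit 5) (nat_lit 516) (nat_lit 515) (nat_lit 169))) (XT.nd (nat_lit 78) (nat_lit 0) (nat_lit 0) (XT.lf (nat_lit 0) (nat_lit 503459708585) (nat_lit 760) (nat_lit 340467909900) (nat_lit 836) (nat_lit 322013512920) (nat_lit 148) (nat_lit 5) (nat_lit 158) (nat_lit 5) (nat_lit 159) (nat_lit 5) (nat_lit 517) (nat_lit 515) (nat_lit 168)) (XT.lf (nat_lit 76) (nat_lit 255134943393) (nat_lit 0) (nat_lit 284258263875) (nat_lit 836) (nat_lit 655980816707) (nat_lit 149) (nat_lit 5) (nat_lit 148) (nat_lit 5) (nat_lit 159) (nat_lit 5) (nat_lit 518) (nat_lit 515) (nat_lit 167))))))) (XT.nd (nat_lit 62556) (nat_lit 0) (nat_lit 0) (XT.nd (nat_lit 546) (nat_lit 1368) (nat_lit 0) (XT.nd (nat_lit 234) (nat_lit 0) (nat_lit 76) (XT.nd (nat_lit 78) (nat_lit 0) (nat_lit 0) (XT.lf (nat_lit 0) (nat_lit 587720730364) (nat_lit 760) (nat_lit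 338483411125) (nat_lit 836) (nat_lit 299544552209) (nat_lit 149) (nat_lit 5) (nat_lit 159) (nat_lit 5) (nat_lit 160) (nat_lit 5) (nat_lit 519) (nat_lit 515) (nat_lit 166)) (XT.nd (nat_lit 78) (nat_lit 0) (nat_lit 76) (XT.lf (nat_lit 76) (nat_lit 298245796377) (nat_lit 0) (nat_lit 349535254592) (nat_lit 836) (nat_lit 609395224872) (nat_lit 150) (nat_lit 5) (nat_lit 149) (nat_lit 5) (nat_lit 160) (nat_lit 5) (nat_lit 520) (nat_lit 515) (nat_lit 165)) (XT.lf (nat_lit 0) (nat_lit 720667102040) (nat_lit 760) (nat_lit 315416113038) (nat_lit 836) (nat_lit 253600886291) (nat_lit 150) (nat_lit 5) (nat_lit 160) (nat_lit 5) (nat_lit 161) (nat_lit 5) (nat_lit 521) (nat_lit 515) (nat_lit 164)))) (XT.nd (nat_lit 156) (nat_lit 0) (nat_lit 76) (XT.nd (nat_lit 78) (nat_lit 0) (nat_lit 76) (XT.lf (nat_lit 76) (nat_lit 366266705548) (nat_lit 0) (nat_lit 442379283347) (nat_lit 836) (nat_lit 514598902618) (nat_lit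 151) (nat_lit 5) (nat_lit 150) (nat_lit 5) (nat_lit 161) (nat_lit 5) (nat_lit 522) (nat_lit 515) (nat_lit 163)) (XT.lf (nat_lit 0) (nat_lit 909279182262) (nat_lit 760) (nat_lit 268146076956) (nat_lit 836) (nat_lit 180645693838) (nat_lit 151) (nat_lit 5) (nat_lit 161) (nat_lit 5) (nat_lit 162) (nat_lit 5) (nat_lit 523) (nat_lit 515) (nat_lit 162))) (XT.nd (nat_lit 78) (nat_lit 0) (nat_lit 76) (XT.lf (nat_lit 76) (nat_lit 462684303349) (nat_lit 0) (nat_lit 566735647575) (nat_lit 836) (nat_lit 364494570971) (nat_lit 152) (nat_lit 5) (nat_lit 151) (nat_lit 5) (nat_lit 162) (nat_lit 5) (nat_lit 524) (nat_lit 515) (nat_lit 161)) (XT.lf (nat_lit 0) (nat_lit 1161346358260) (nat_lit 760) (nat_lit 193195002109) (nat_lit 76) (nat_lit 76719978795) (nat_lit 152) (nat_lit 5) (nat_lit 162) (nat_lit 5) (nat_lit 153) (nat_lit 5) (nat_lit 525) (nat_lit 515) (nat_lit 160))))) (XT.nd (nat_lit 61698) (nat_lit 0)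 (nat_lit 1216) (XT.nd (nat_lit 234) (nat_lit 380) (nat_lit 0) (XT.nd (nat_lit 156) (nat_lit 456) (nat_lit 0) (XT.lf (nat_lit 0) (nat_lit 591379047611) (nat_lit 760) (nat_lit 727013868726) (nat_lit 836) (nat_lit 151156389442) (nat_lit 142) (nat_lit 5) (nat_lit 152) (nat_lit 5) (nat_lit 153) (nat_lit 5) (nat_lit 526) (nat_lit 515) (nat_lit 159)) (XT.lf (nat_lit 0) (nat_lit 129962037003) (nat_lit 456) (nat_lit 795976252564) (nat_lit 76) (nat_lit 624502594819) (nat_lit 136) (nat_lit 5) (nat_lit 142) (nat_lit 5) (nat_lit 137) (nat_lit 5) (nat_lit 528) (nat_lit 515) (nat_lit 157))) (XT.nd (nat_lit 78) (nat_lit 0) (nat_lit 0) (XT.lf (nat_lit 0) (nat_lit 48612951769) (nat_lit 380) (nat_lit 244539894781) (nat_lit 456) (nat_lit 1299998172065) (nat_lit 131) (nat_lit 5) (nat_lit 136) (nat_lit 5) (nat_lit 137) (nat_lit 5) (nat_lit 529) (nat_lit 515) (nat_lit 156)) (XT.lf (nat_lit 0) (nat_lit 485556937623)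 (nat_lit 456) (nat_lit 681830035018) (nat_lit 76) (nat_lit 469556999863) (nat_lit 131) (nat_lit 5) (nat_lit 137) (nat_lit 5) (nat_lit 132) (nat_lit 5) (nat_lit 530) (nat_lit 515) (nat_lit 155)))) (XT.nd (nat_lit 156) (nat_lit 0) (nat_lit 76) (XT.nd (nat_lit 78) (nat_lit 0) (nat_lit 0) (XT.lf (nat_lit 0) (nat_lit 242357902381) (nat_lit 836) (nat_lit 170186553729) (nat_lit 836) (nat_lit 170186553729) (nat_lit 147) (nat_lit 3) (nat_lit 158) (nat_lit 3) (nat_lit 158) (nat_lit 5) (nat_lit 516) (nat_lit 516) (nat_lit 168)) (XT.lf (nat_lit 76) (nat_lit 245494787128) (nat_lit 0) (nat_lit 255171821704) (nat_lit 836) (nat_lit 693740315886) (nat_lit 148) (nat_lit 5) (nat_lit 147) (nat_lit 3) (nat_lit 158) (nat_lit 5) (nat_lit 517) (nat_lit 516) (nat_lit 167))) (XT.nd (nat_lit 78) (nat_lit 0) (nat_lit 0) (XT.lf (nat_lit 0) (nat_lit 528632787298) (nat_lit 760) (nat_lit 357491249465) (nat_lit 836) (nat_lit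 338114146534) (nat_lit 148) (nat_lit 5) (nat_lit 158) (nat_lit 5) (nat_lit 159) (nat_lit 5) (nat_lit 518) (nat_lit 516) (nat_lit 166)) (XT.lf (nat_lit 76) (nat_lit 267891745591) (nat_lit 0) (nat_lit 298471211740) (nat_lit 836) (nat_lit 688779763343) (nat_lit 149) (nat_lit 5) (nat_lit 148) (nat_lit 5) (nat_lit 159) (nat_lit 5) (nat_lit 519) (nat_lit 516) (nat_lit 165)))))) (XT.nd (nat_lit 624) (nat_lit 836) (nat_lit 0) (XT.nd (nat_lit 312) (nat_lit 532) (nat_lit 0) (XT.nd (nat_lit 156) (nat_lit 0) (nat_lit 76) (XT.nd (nat_lit 78) (nat_lit 0) (nat_lit 0) (XT.lf (nat_lit 0) (nat_lit 617106851796) (nat_lit 760) (nat_lit 355407524473) (nat_lit 836) (nat_lit 314521747856) (nat_lit 149) (nat_lit 5) (nat_lit 159) (nat_lit 5) (nat_lit 160) (nat_lit 5) (nat_lit 520) (nat_lit 516) (nat_lit 164)) (XT.lf (nat_lit 76) (nat_lit 313158142482) (nat_lit 0) (nat_lit 367012042785) (nat_lit 836) (nat_lit 639864900267)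 (nat_lit 150) (nat_lit 5) (nat_lit 149) (nat_lit 5) (nat_lit 160) (nat_lit 5) (nat_lit 521) (nat_lit 516) (nat_lit 163))) (XT.nd (nat_lit 78) (nat_lit 0) (nat_lit 0) (XT.lf (nat_lit 0) (nat_lit 756700534620) (nat_lit 760) (nat_lit 331186860802) (nat_lit 836) (nat_lit 266280907131) (nat_lit 150) (nat_lit 5) (nat_lit 160) (nat_lit 5) (nat_lit 161) (nat_lit 5) (nat_lit 522) (nat_lit 516) (nat_lit 162)) (XT.lf (nat_lit 76) (nat_lit 384580097780) (nat_lit 0) (nat_lit 464498265237) (nat_lit 836) (nat_lit 540328769327) (nat_lit 151) (nat_lit 5) (nat_lit 150) (nat_lit 5) (nat_lit 161) (nat_lit 5) (nat_lit 523) (nat_lit 516) (nat_lit 161)))) (XT.nd (nat_lit 156) (nat_lit 684) (nat_lit 0) (XT.nd (nat_lit 78) (nat_lit 0) (nat_lit 0) (XT.lf (nat_lit 0) (nat_lit 954743212233) (nat_lit 760) (nat_lit 281553322730) (nat_lit 836) (nat_lit 189677962192) (nat_lit 151) (nat_lit 5) (nat_lit 161) (nat_lit 5) (nat_lit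 162) (nat_lit 5) (nat_lit 524) (nat_lit 516) (nat_lit 160)) (XT.lf (nat_lit 76) (nat_lit 485818575652) (nat_lit 0) (nat_lit 595072441193) (nat_lit 836) (nat_lit 382719227715) (nat_lit 152) (nat_lit 5) (nat_lit 151) (nat_lit 5) (nat_lit 162) (nat_lit 5) (nat_lit 525) (nat_lit 516) (nat_lit 159))) (XT.nd (nat_lit 78) (nat_lit 760) (nat_lit 0) (XT.lf (nat_lit 0) (nat_lit 1219413741125) (nat_lit 760) (nat_lit 202854694366) (nat_lit 76) (nat_lit 80555967374) (nat_lit 152) (nat_lit 5) (nat_lit 162) (nat_lit 5) (nat_lit 153) (nat_lit 5) (nat_lit 526) (nat_lit 516) (nat_lit 158)) (XT.lf (nat_lit 0) (nat_lit 620948056907) (nat_lit 760) (nat_lit 763364567995) (nat_lit 836) (nat_lit 158714143019) (nat_lit 142) (nat_lit 5) (nat_lit 152) (nat_lit 5) (nat_lit 153) (nat_lit 5) (nat_lit 527) (nat_lit 516) (nat_lit 157))))) (XT.nd (nat_lit 61698) (nat_lit 0) (nat_lit 1216) (XT.nd (nat_lit 156) (nat_lit 380) (nat_lit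 0) (XT.nd (nat_lit 78) (nat_lit 456) (nat_lit 0) (XT.lf (nat_lit 0) (nat_lit 1492983600912) (nat_lit 760) (nat_lit 67908292417) (nat_lit 836) (nat_lit 24175585878) (nat_lit 142) (nat_lit 5) (nat_lit 152) (nat_lit 5) (nat_lit 153) (nat_lit 5) (nat_lit 528) (nat_lit 516) (nat_lit 156)) (XT.lf (nat_lit 0) (nat_lit 136460197519) (nat_lit 456) (nat_lit 835775006879) (nat_lit 76) (nat_lit 655727721265) (nat_lit 136) (nat_lit 5) (nat_lit 142) (nat_lit 5) (nat_lit 137) (nat_lit 5) (nat_lit 529) (nat_lit 516) (nat_lit 155))) (XT.nd (nat_lit 61464) (nat_lit 0) (nat_lit 1216) (XT.lf (nat_lit 0) (nat_lit 51043656729) (nat_lit 380) (nat_lit 256766888916) (nat_lit 456) (nat_lit 1364998021054) (nat_lit 131) (nat_lit 5) (nat_lit 136) (nat_lit 5) (nat_lit 137) (nat_lit 5) (nat_lit 530) (nat_lit 516) (nat_lit 154)) (XT.lf (nat_lit 0) (nat_lit 254475844086) (nat_lit 836) (nat_lit 178695856954) (nat_lit 836) (nat_lit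 178695856954) (nat_lit 147) (nat_lit 3) (nat_lit 158) (nat_lit 3) (nat_lit 158) (nat_lit 5) (nat_lit 517) (nat_lit 517) (nat_lit 166)))) (XT.nd (nat_lit 156) (nat_lit 0) (nat_lit 76) (XT.nd (nat_lit 78) (nat_lit 0) (nat_lit 76) (XT.lf (nat_lit 76) (nat_lit 257769574618) (nat_lit 0) (nat_lit 267930454142) (nat_lit 836) (nat_lit 728427237706) (nat_lit 148) (nat_lit 5) (nat_lit 147) (nat_lit 3) (nat_lit 158) (nat_lit 5) (nat_lit 518) (nat_lit 517) (nat_lit 165)) (XT.lf (nat_lit 0) (nat_lit 555064511273) (nat_lit 760) (nat_lit 375365761208) (nat_lit 836) (nat_lit 355019815738) (nat_lit 148) (nat_lit 5) (nat_lit 158) (nat_lit 5) (nat_lit 159) (nat_lit 5) (nat_lit 519) (nat_lit 517) (nat_lit 164))) (XT.nd (nat_lit 78) (nat_lit 0) (nat_lit 76) (XT.lf (nat_lit 76) (nat_lit 281286382783) (nat_lit 0) (nat_lit 313394803776) (nat_lit 836) (nat_lit 723218666069) (nat_lit 149) (nat_lit 5) (nat_lit 148) (nat_lit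 5) (nat_lit 159) (nat_lit 5) (nat_lit 520) (nat_lit 517) (nat_lit 163)) (XT.lf (nat_lit 0) (nat_lit 647962271404) (nat_lit 760) (nat_lit 373177848807) (nat_lit 836) (nat_lit 330247806256) (nat_lit 149) (nat_lit 5) (nat_lit 159) (nat_lit 5) (nat_lit 160) (nat_lit 5) (nat_lit 521) (nat_lit 517) (nat_lit 162))))))))
noncomputable def xc255 : XT := (XT.nd (nat_lit 125502) (nat_lit 0) (nat_lit 836) (XT.nd (nat_lit 62634) (nat_lit 0) (nat_lit 456) (XT.nd (nat_lit 546) (nat_lit 456) (nat_lit 0) (XT.nd (nat_lit 234) (nat_lit 532) (nat_lit 0) (XT.nd (nat_lit 78) (nat_lit 0) (nat_lit 76) (XT.lf (nat_lit 76) (nat_lit 328816100658) (nat_lit 0) (nat_lit 385362668020) (nat_lit 836) (nat_lit 671858067413) (nat_lit 150) (nat_lit 5) (nat_lit 149) (nat_lit 5) (nat_lit 160) (nat_lit 5) (nat_lit 522) (nat_lit 517) (nat_lit 161)) (XT.nd (nat_lit 78) (nat_lit 0) (nat_lit 0) (XT.lf (nat_lit 0) (nat_lit 794535631625)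 (nat_lit 760) (nat_lit 347746151335) (nat_lit 836) (nat_lit 279594931195) (nat_lit 150) (nat_lit 5) (nat_lit 160) (nat_lit 5) (nat_lit 161) (nat_lit 5) (nat_lit 523) (nat_lit 517) (nat_lit 160)) (XT.lf (nat_lit 76) (nat_lit 403809154329) (nat_lit 0) (nat_lit 487723194573) (nat_lit 836) (nat_lit 567345136662) (nat_lit 151) (nat_lit 5) (nat_lit 150) (nat_lit 5) (nat_lit 161) (nat_lit 5) (nat_lit 524) (nat_lit 517) (nat_lit 159)))) (XT.nd (nat_lit 156) (nat_lit 684) (nat_lit 0) (XT.nd (nat_lit 78) (nat_lit 0) (nat_lit 0) (XT.lf (nat_lit 0) (nat_lit 1002480437114) (nat_lit 760) (nat_lit 295630936193) (nat_lit 836) (nat_lit 199161845482) (nat_lit 151) (nat_lit 5) (nat_lit 161) (nat_lit 5) (nat_lit 162) (nat_lit 5) (nat_lit 525) (nat_lit 517) (nat_lit 158)) (XT.lf (nat_lit 76) (nat_lit 510109556259) (nat_lit 0) (nat_lit 624826073447) (nat_lit 836) (nat_lit 401855123972) (nat_lit 152) (nat_lit 5) (nat_lit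 151) (nat_lit 5) (nat_lit 162) (nat_lit 5) (nat_lit 526) (nat_lit 517) (nat_lit 157))) (XT.nd (nat_lit 78) (nat_lit 760) (nat_lit 0) (XT.lf (nat_lit 0) (nat_lit 1280384487095) (nat_lit 760) (nat_lit 212997376614) (nat_lit 76) (nat_lit 84583756345) (nat_lit 152) (nat_lit 5) (nat_lit 162) (nat_lit 5) (nat_lit 153) (nat_lit 5) (nat_lit 527) (nat_lit 517) (nat_lit 156)) (XT.lf (nat_lit 0) (nat_lit 651995511376) (nat_lit 760) (nat_lit 801532801685) (nat_lit 836) (nat_lit 166649790402) (nat_lit 142) (nat_lit 5) (nat_lit 152) (nat_lit 5) (nat_lit 153) (nat_lit 5) (nat_lit 528) (nat_lit 517) (nat_lit 155))))) (XT.nd (nat_lit 61776) (nat_lit 0) (nat_lit 912) (XT.nd (nat_lit 61620) (nat_lit 0) (nat_lit 836) (XT.nd (nat_lit 78) (nat_lit 456) (nat_lit 0) (XT.lf (nat_lit 0) (nat_lit 1567632830123) (nat_lit 760) (nat_lit 71303712076) (nat_lit 836) (nat_lit 25384308249) (nat_lit 142) (nat_lit 5) (nat_lit 152)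 (nat_lit 5) (nat_lit 153) (nat_lit 5) (nat_lit 529) (nat_lit 517) (nat_lit 154)) (XT.lf (nat_lit 0) (nat_lit 143283260606) (nat_lit 456) (nat_lit 877563704332) (nat_lit 76) (nat_lit 688514104340) (nat_lit 136) (nat_lit 5) (nat_lit 142) (nat_lit 5) (nat_lit 137) (nat_lit 5) (nat_lit 530) (nat_lit 517) (nat_lit 153))) (XT.nd (nat_lit 78) (nat_lit 0) (nat_lit 0) (XT.lf (nat_lit 0) (nat_lit 267199678545) (nat_lit 836) (nat_lit 187630627615) (nat_lit 836) (nat_lit 187630627615) (nat_lit 147) (nat_lit 3) (nat_lit 158) (nat_lit 3) (nat_lit 158) (nat_lit 5) (nat_lit 518) (nat_lit 518) (nat_lit 164)) (XT.lf (nat_lit 76) (nat_lit 270658097007) (nat_lit 0) (nat_lit 281327014358) (nat_lit 836) (nat_lit 764848514353) (nat_lit 148) (nat_lit 5) (nat_lit 147) (nat_lit 3) (nat_lit 158) (nat_lit 5) (nat_lit 519) (nat_lit 518) (nat_lit 163)))) (XT.nd (nat_lit 156) (nat_lit 0) (nat_lit 76) (XT.nd (nat_lit 78) (nat_lit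 0) (nat_lit 0) (XT.lf (nat_lit 0) (nat_lit 582817813581) (nat_lit 760) (nat_lit 394134003254) (nat_lit 836) (nat_lit 372770771945) (nat_lit 148) (nat_lit 5) (nat_lit 158) (nat_lit 5) (nat_lit 159) (nat_lit 5) (nat_lit 520) (nat_lit 518) (nat_lit 162)) (XT.lf (nat_lit 76) (nat_lit 295350747194) (nat_lit 0) (nat_lit 329064572489) (nat_lit 836) (nat_lit 759379521875) (nat_lit 149) (nat_lit 5) (nat_lit 148) (nat_lit 5) (nat_lit 159) (nat_lit 5) (nat_lit 521) (nat_lit 518) (nat_lit 161))) (XT.nd (nat_lit 78) (nat_lit 0) (nat_lit 0) (XT.lf (nat_lit 0) (nat_lit 680360454833) (nat_lit 760) (nat_lit 391836694183) (nat_lit 836) (nat_lit 346760170272) (nat_lit 149) (nat_lit 5) (nat_lit 159) (nat_lit 5) (nat_lit 160) (nat_lit 5) (nat_lit 522) (nat_lit 518) (nat_lit 160)) (XT.lf (nat_lit 76) (nat_lit 345256951997) (nat_lit 0) (nat_lit 404630822370) (nat_lit 836) (nat_lit 705450900156) (nat_lit 150) (nat_lit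 5) (nat_lit 149) (nat_lit 5) (nat_lit 160) (nat_lit 5) (nat_lit 523) (nat_lit 518) (nat_lit 159)))))) (XT.nd (nat_lit 62244) (nat_lit 0) (nat_lit 456) (XT.nd (nat_lit 312) (nat_lit 608) (nat_lit 0) (XT.nd (nat_lit 156) (nat_lit 0) (nat_lit 76) (XT.nd (nat_lit 78) (nat_lit 0) (nat_lit 0) (XT.lf (nat_lit 0) (nat_lit 834262476946) (nat_lit 760) (nat_lit 365133411277) (nat_lit 836) (nat_lit 293574658443) (nat_lit 150) (nat_lit 5) (nat_lit 160) (nat_lit 5) (nat_lit 161) (nat_lit 5) (nat_lit 524) (nat_lit 518) (nat_lit 158)) (XT.lf (nat_lit 76) (nat_lit 423999658902) (nat_lit 0) (nat_lit 512109368882) (nat_lit 836) (nat_lit 595712328977) (nat_lit 151) (nat_lit 5) (nat_lit 150) (nat_lit 5) (nat_lit 161) (nat_lit 5) (nat_lit 525) (nat_lit 518) (nat_lit 157))) (XT.nd (nat_lit 78) (nat_lit 0) (nat_lit 0) (XT.lf (nat_lit 0) (nat_lit 1052604517265) (nat_lit 760) (nat_lit 310412435226) (nat_lit 836) (nat_lit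 209119924315) (nat_lit 151) (nat_lit 5) (nat_lit 161) (nat_lit 5) (nat_lit 162) (nat_lit 5) (nat_lit 526) (nat_lit 518) (nat_lit 156)) (XT.lf (nat_lit 76) (nat_lit 535615081078) (nat_lit 0) (nat_lit 656067386366) (nat_lit 836) (nat_lit 421947821097) (nat_lit 152) (nat_lit 5) (nat_lit 151) (nat_lit 5) (nat_lit 162) (nat_lit 5) (nat_lit 527) (nat_lit 518) (nat_lit 155)))) (XT.nd (nat_lit 61776) (nat_lit 0) (nat_lit 380) (XT.nd (nat_lit 78) (nat_lit 760) (nat_lit 0) (XT.lf (nat_lit 0) (nat_lit 1344403764886) (nat_lit 760) (nat_lit 223647197853) (nat_lit 76) (nat_lit 88812935638) (nat_lit 152) (nat_lit 5) (nat_lit 162) (nat_lit 5) (nat_lit 153) (nat_lit 5) (nat_lit 528) (nat_lit 518) (nat_lit 154)) (XT.lf (nat_lit 0) (nat_lit 684595333770) (nat_lit 760) (nat_lit 841609446567) (nat_lit 836) (nat_lit 174982225710) (nat_lit 142) (nat_lit 5) (nat_lit 152) (nat_lit 5) (nat_lit 153) (nat_lit 5) (nat_lit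 529) (nat_lit 518) (nat_lit 153))) (XT.nd (nat_lit 78) (nat_lit 0) (nat_lit 0) (XT.lf (nat_lit 0) (nat_lit 280559700799) (nat_lit 836) (nat_lit 197012138872) (nat_lit 836) (nat_lit 197012138872) (nat_lit 147) (nat_lit 3) (nat_lit 158) (nat_lit 3) (nat_lit 158) (nat_lit 5) (nat_lit 519) (nat_lit 519) (nat_lit 162)) (XT.lf (nat_lit 76) (nat_lit 284191041457) (nat_lit 0) (nat_lit 295393399097) (nat_lit 836) (nat_lit 803090862757) (nat_lit 148) (nat_lit 5) (nat_lit 147) (nat_lit 3) (nat_lit 158) (nat_lit 5) (nat_lit 520) (nat_lit 519) (nat_lit 161))))) (XT.nd (nat_lit 312) (nat_lit 0) (nat_lit 152) (XT.nd (nat_lit 156) (nat_lit 0) (nat_lit 76) (XT.nd (nat_lit 78) (nat_lit 0) (nat_lit 0) (XT.lf (nat_lit 0) (nat_lit 611958773870) (nat_lit 760) (nat_lit 413840661680) (nat_lit 836) (nat_lit 391409279178) (nat_lit 148) (nat_lit 5) (nat_lit 158) (nat_lit 5) (nat_lit 159) (nat_lit 5) (nat_lit 521) (nat_lit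 519) (nat_lit 160)) (XT.lf (nat_lit 76) (nat_lit 310118325617) (nat_lit 0) (nat_lit 345517826986) (nat_lit 836) (nat_lit 797348427676) (nat_lit 149) (nat_lit 5) (nat_lit 148) (nat_lit 5) (nat_lit 159) (nat_lit 5) (nat_lit 522) (nat_lit 519) (nat_lit 159))) (XT.nd (nat_lit 78) (nat_lit 0) (nat_lit 0) (XT.lf (nat_lit 0) (nat_lit 714378540938) (nat_lit 760) (nat_lit 411428486202) (nat_lit 836) (nat_lit 364098154934) (nat_lit 149) (nat_lit 5) (nat_lit 159) (nat_lit 5) (nat_lit 160) (nat_lit 5) (nat_lit 523) (nat_lit 519) (nat_lit 158)) (XT.lf (nat_lit 76) (nat_lit 362519841598) (nat_lit 0) (nat_lit 424862382489) (nat_lit 836) (nat_lit 740723381102) (nat_lit 150) (nat_lit 5) (nat_lit 149) (nat_lit 5) (nat_lit 160) (nat_lit 5) (nat_lit 524) (nat_lit 519) (nat_lit 157)))) (XT.nd (nat_lit 156) (nat_lit 0) (nat_lit 76) (XT.nd (nat_lit 78) (nat_lit 0) (nat_lit 0) (XT.lf (nat_lit 0) (nat_lit 875975658608)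 (nat_lit 760) (nat_lit 383390038644) (nat_lit 836) (nat_lit 308253373848) (nat_lit 150) (nat_lit 5) (nat_lit 160) (nat_lit 5) (nat_lit 161) (nat_lit 5) (nat_lit 525) (nat_lit 519) (nat_lit 156)) (XT.lf (nat_lit 76) (nat_lit 445199684348) (nat_lit 0) (nat_lit 537714850551) (nat_lit 836) (nat_lit 625497886906) (nat_lit 151) (nat_lit 5) (nat_lit 150) (nat_lit 5) (nat_lit 161) (nat_lit 5) (nat_lit 526) (nat_lit 519) (nat_lit 155))) (XT.nd (nat_lit 78) (nat_lit 0) (nat_lit 0) (XT.lf (nat_lit 0) (nat_lit 1105234796003) (nat_lit 760) (nat_lit 325933013653) (nat_lit 836) (nat_lit 219575908339) (nat_lit 151) (nat_lit 5) (nat_lit 161) (nat_lit 5) (nat_lit 162) (nat_lit 5) (nat_lit 527) (nat_lit 519) (nat_lit 154)) (XT.lf (nat_lit 76) (nat_lit 562395877768) (nat_lit 0) (nat_lit 688870764071) (nat_lit 836) (nat_lit 443045158571) (nat_lit 152) (nat_lit 5) (nat_lit 151) (nat_lit 5) (nat_lit 162) (nat_lit 5)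 (nat_lit 528) (nat_lit 519) (nat_lit 153))))))) (XT.nd (nat_lit 124800) (nat_lit 0) (nat_lit 0) (XT.nd (nat_lit 62322) (nat_lit 0) (nat_lit 0) (XT.nd (nat_lit 62010) (nat_lit 0) (nat_lit 76) (XT.nd (nat_lit 61854) (nat_lit 0) (nat_lit 0) (XT.nd (nat_lit 61776) (nat_lit 380) (nat_lit 0) (XT.lf (nat_lit 0) (nat_lit 1411624001599) (nat_lit 760) (nat_lit 234829514579) (nat_lit 76) (nat_lit 93253574688) (nat_lit 152) (nat_lit 5) (nat_lit 162) (nat_lit 5) (nat_lit 153) (nat_lit 5) (nat_lit 529) (nat_lit 519) (nat_lit 152)) (XT.lf (nat_lit 0) (nat_lit 294587720602) (nat_lit 836) (nat_lit 206862727562) (nat_lit 836) (nat_lit 206862727562) (nat_lit 147) (nat_lit 3) (nat_lit 158) (nat_lit 3) (nat_lit 158) (nat_lit 5) (nat_lit 520) (nat_lit 520) (nat_lit 160))) (XT.nd (nat_lit 78) (nat_lit 0) (nat_lit 76) (XT.lf (nat_lit 76) (nat_lit 298400629447) (nat_lit 0) (nat_lit 310163099911) (nat_lit 836) (nat_lit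 843245335770) (nat_lit 148) (nat_lit 5) (nat_lit 147) (nat_lit 3) (nat_lit 158) (nat_lit 5) (nat_lit 521) (nat_lit 520) (nat_lit 159)) (XT.lf (nat_lit 0) (nat_lit 642556775701) (nat_lit 760) (nat_lit 434532656909) (nat_lit 836) (nat_lit 410979714689) (nat_lit 148) (nat_lit 5) (nat_lit 158) (nat_lit 5) (nat_lit 159) (nat_lit 5) (nat_lit 522) (nat_lit 520) (nat_lit 158)))) (XT.nd (nat_lit 156) (nat_lit 0) (nat_lit 76) (XT.nd (nat_lit 78) (nat_lit 0) (nat_lit 76) (XT.lf (nat_lit 76) (nat_lit 325624279143) (nat_lit 0) (nat_lit 362793741803) (nat_lit 836) (nat_lit 837215785303) (nat_lit 149) (nat_lit 5) (nat_lit 148) (nat_lit 5) (nat_lit 159) (nat_lit 5) (nat_lit 523) (nat_lit 520) (nat_lit 157)) (XT.lf (nat_lit 0) (nat_lit 750097525457) (nat_lit 760) (nat_lit 431999871792) (nat_lit 836) (nat_lit 382303041046) (nat_lit 149) (nat_lit 5) (nat_lit 159) (nat_lit 5) (nat_lit 160) (nat_lit 5) (nat_lit 524)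 (nat_lit 520) (nat_lit 156))) (XT.nd (nat_lit 78) (nat_lit 0) (nat_lit 76) (XT.lf (nat_lit 76) (nat_lit 380645871774) (nat_lit 0) (nat_lit 446105518848) (nat_lit 836) (nat_lit 777759492052) (nat_lit 150) (nat_lit 5) (nat_lit 149) (nat_lit 5) (nat_lit 160) (nat_lit 5) (nat_lit 525) (nat_lit 520) (nat_lit 155)) (XT.lf (nat_lit 0) (nat_lit 919774493978) (nat_lit 760) (nat_lit 402559501395) (nat_lit 836) (nat_lit 323666026652) (nat_lit 150) (nat_lit 5) (nat_lit 160) (nat_lit 5) (nat_lit 161) (nat_lit 5) (nat_lit 526) (nat_lit 520) (nat_lit 154))))) (XT.nd (nat_lit 62166) (nat_lit 0) (nat_lit 76) (XT.nd (nat_lit 62010) (nat_lit 228) (nat_lit 0) (XT.nd (nat_lit 78) (nat_lit 0) (nat_lit 76) (XT.lf (nat_lit 76) (nat_lit 467459707114) (nat_lit 0) (nat_lit 564600605073) (nat_lit 836) (nat_lit 656772728172) (nat_lit 151) (nat_lit 5) (nat_lit 150) (nat_lit 5) (nat_lit 161) (nat_lit 5) (nat_lit 527) (nat_lit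 520) (nat_lit 153)) (XT.lf (nat_lit 0) (nat_lit 1160496583762) (nat_lit 760) (nat_lit 342229625029) (nat_lit 836) (nat_lit 230554692698) (nat_lit 151) (nat_lit 5) (nat_lit 161) (nat_lit 5) (nat_lit 162) (nat_lit 5) (nat_lit 528) (nat_lit 520) (nat_lit 152))) (XT.nd (nat_lit 78) (nat_lit 0) (nat_lit 0) (XT.lf (nat_lit 0) (nat_lit 309317138163) (nat_lit 836) (nat_lit 217205847384) (nat_lit 836) (nat_lit 217205847384) (nat_lit 147) (nat_lit 3) (nat_lit 158) (nat_lit 3) (nat_lit 158) (nat_lit 5) (nat_lit 521) (nat_lit 521) (nat_lit 158)) (XT.lf (nat_lit 76) (nat_lit 313320693498) (nat_lit 0) (nat_lit 325671282896) (nat_lit 836) (nat_lit 885407538953) (nat_lit 148) (nat_lit 5) (nat_lit 147) (nat_lit 3) (nat_lit 158) (nat_lit 5) (nat_lit 522) (nat_lit 521) (nat_lit 157)))) (XT.nd (nat_lit 156) (nat_lit 0) (nat_lit 76) (XT.nd (nat_lit 78) (nat_lit 0) (nat_lit 0) (XT.lf (nat_lit 0) (nat_lit 674684671754)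 (nat_lit 760) (nat_lit 456259255418) (nat_lit 836) (nat_lit 431528674620) (nat_lit 148) (nat_lit 5) (nat_lit 158) (nat_lit 5) (nat_lit 159) (nat_lit 5) (nat_lit 523) (nat_lit 521) (nat_lit 156)) (XT.lf (nat_lit 76) (nat_lit 341905526883) (nat_lit 0) (nat_lit 380933450178) (nat_lit 836) (nat_lit 879076516738) (nat_lit 149) (nat_lit 5) (nat_lit 148) (nat_lit 5) (nat_lit 159) (nat_lit 5) (nat_lit 524) (nat_lit 521) (nat_lit 155))) (XT.nd (nat_lit 78) (nat_lit 0) (nat_lit 0) (XT.lf (nat_lit 0) (nat_lit 787602453860) (nat_lit 760) (nat_lit 453599830261) (nat_lit 836) (nat_lit 401418173476) (nat_lit 149) (nat_lit 5) (nat_lit 159) (nat_lit 5) (nat_lit 160) (nat_lit 5) (nat_lit 525) (nat_lit 521) (nat_lit 154)) (XT.lf (nat_lit 76) (nat_lit 399678199917) (nat_lit 0) (nat_lit 468410810423) (nat_lit 836) (nat_lit 816647413951) (nat_lit 150) (nat_lit 5) (nat_lit 149) (nat_lit 5) (nat_lit 160) (nat_lit 5)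 (nat_lit 526) (nat_lit 521) (nat_lit 153)))))) (XT.nd (nat_lit 124722) (nat_lit 0) (nat_lit 0) (XT.nd (nat_lit 62322) (nat_lit 0) (nat_lit 0) (XT.nd (nat_lit 62166) (nat_lit 228) (nat_lit 0) (XT.nd (nat_lit 78) (nat_lit 0) (nat_lit 0) (XT.lf (nat_lit 0) (nat_lit 965763266242) (nat_lit 760) (nat_lit 422687440927) (nat_lit 836) (nat_lit 339849313573) (nat_lit 150) (nat_lit 5) (nat_lit 160) (nat_lit 5) (nat_lit 161) (nat_lit 5) (nat_lit 527) (nat_lit 521) (nat_lit 152)) (XT.lf (nat_lit 76) (nat_lit 490832727435) (nat_lit 0) (nat_lit 592830646207) (nat_lit 836) (nat_lit 689611316437) (nat_lit 151) (nat_lit 5) (nat_lit 150) (nat_lit 5) (nat_lit 161) (nat_lit 5) (nat_lit 528) (nat_lit 521) (nat_lit 151))) (XT.nd (nat_lit 78) (nat_lit 0) (nat_lit 76) (XT.lf (nat_lit 76) (nat_lit 328986757723) (nat_lit 0) (nat_lit 341954872428) (nat_lit 836) (nat_lit 929677858208) (nat_lit 148) (nat_lit 5) (nat_lit 147)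 (nat_lit 3) (nat_lit 158) (nat_lit 5) (nat_lit 523) (nat_lit 522) (nat_lit 155)) (XT.lf (nat_lit 0) (nat_lit 708418957285) (nat_lit 760) (nat_lit 479072187044) (nat_lit 836) (nat_lit 453105084946) (nat_lit 148) (nat_lit 5) (nat_lit 158) (nat_lit 5) (nat_lit 159) (nat_lit 5) (nat_lit 524) (nat_lit 522) (nat_lit 154)))) (XT.nd (nat_lit 156) (nat_lit 76) (nat_lit 0) (XT.nd (nat_lit 78) (nat_lit 0) (nat_lit 76) (XT.lf (nat_lit 76) (nat_lit 359000833869) (nat_lit 0) (nat_lit 399980141994) (nat_lit 836) (nat_lit 923030290121) (nat_lit 149) (nat_lit 5) (nat_lit 148) (nat_lit 5) (nat_lit 159) (nat_lit 5) (nat_lit 525) (nat_lit 522) (nat_lit 153)) (XT.lf (nat_lit 0) (nat_lit 826982623836) (nat_lit 760) (nat_lit 476279789918) (nat_lit 836) (nat_lit 421489064351) (nat_lit 149) (nat_lit 5) (nat_lit 159) (nat_lit 5) (nat_lit 160) (nat_lit 5) (nat_lit 526) (nat_lit 522) (nat_lit 152))) (XT.nd (nat_lit 62166)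 (nat_lit 152) (nat_lit 0) (XT.lf (nat_lit 76) (nat_lit 419662141255) (nat_lit 0) (nat_lit 491831365123) (nat_lit 836) (nat_lit 857479736845) (nat_lit 150) (nat_lit 5) (nat_lit 149) (nat_lit 5) (nat_lit 160) (nat_lit 5) (nat_lit 527) (nat_lit 522) (nat_lit 151)) (XT.lf (nat_lit 0) (nat_lit 341022200796) (nat_lit 836) (nat_lit 239469417352) (nat_lit 836) (nat_lit 239469417352) (nat_lit 147) (nat_lit 3) (nat_lit 158) (nat_lit 3) (nat_lit 158) (nat_lit 5) (nat_lit 523) (nat_lit 523) (nat_lit 154))))) (XT.nd (nat_lit 62556) (nat_lit 0) (nat_lit 0) (XT.nd (nat_lit 156) (nat_lit 0) (nat_lit 76) (XT.nd (nat_lit 78) (nat_lit 0) (nat_lit 76) (XT.lf (nat_lit 76) (nat_lit 345436122412) (nat_lit 0) (nat_lit 359052639077) (nat_lit 836) (nat_lit 976161698790) (nat_lit 148) (nat_lit 5) (nat_lit 147) (nat_lit 3) (nat_lit 158) (nat_lit 5) (nat_lit 524) (nat_lit 523) (nat_lit 153)) (XT.lf (nat_lit 0) (nat_lit 743839952264)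 (nat_lit 760) (nat_lit 503025768148) (nat_lit 836) (nat_lit 475760317965) (nat_lit 148) (nat_lit 5) (nat_lit 158) (nat_lit 5) (nat_lit 159) (nat_lit 5) (nat_lit 525) (nat_lit 523) (nat_lit 152))) (XT.nd (nat_lit 78) (nat_lit 0) (nat_lit 76) (XT.lf (nat_lit 76) (nat_lit 376950903355) (nat_lit 0) (nat_lit 419979166605) (nat_lit 836) (nat_lit 969181757050) (nat_lit 149) (nat_lit 5) (nat_lit 148) (nat_lit 5) (nat_lit 159) (nat_lit 5) (nat_lit 526) (nat_lit 523) (nat_lit 151)) (XT.lf (nat_lit 0) (nat_lit 868331797914) (nat_lit 760) (nat_lit 500093750520) (nat_lit 836) (nat_lit 442563501424) (nat_lit 149) (nat_lit 5) (nat_lit 159) (nat_lit 5) (nat_lit 160) (nat_lit 5) (nat_lit 527) (nat_lit 523) (nat_lit 150)))) (XT.nd (nat_lit 156) (nat_lit 0) (nat_lit 0) (XT.nd (nat_lit 78) (nat_lit 0) (nat_lit 76) (XT.lf (nat_lit 76) (nat_lit 362707952843) (nat_lit 0) (nat_lit 377005291917) (nat_lit 836) (nat_lit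 1024969736265) (nat_lit 148) (nat_lit 5) (nat_lit 147) (nat_lit 3) (nat_lit 158) (nat_lit 5) (nat_lit 525) (nat_lit 524) (nat_lit 151)) (XT.lf (nat_lit 0) (nat_lit 781031992611) (nat_lit 760) (nat_lit 528177030933) (nat_lit 836) (nat_lit 499548314608) (nat_lit 148) (nat_lit 5) (nat_lit 158) (nat_lit 5) (nat_lit 159) (nat_lit 5) (nat_lit 526) (nat_lit 524) (nat_lit 150))) (XT.nd (nat_lit 62400) (nat_lit 76) (nat_lit 0) (XT.lf (nat_lit 76) (nat_lit 395798473732) (nat_lit 0) (nat_lit 440978140819) (nat_lit 836) (nat_lit 1017640801749) (nat_lit 149) (nat_lit 5) (nat_lit 148) (nat_lit 5) (nat_lit 159) (nat_lit 5) (nat_lit 527) (nat_lit 524) (nat_lit 149)) (XT.lf (nat_lit 76) (nat_lit 380843372536) (nat_lit 0) (nat_lit 395855575457) (nat_lit 836) (nat_lit 1076218180028) (nat_lit 148) (nat_lit 5) (nat_lit 147) (nat_lit 3) (nat_lit 158) (nat_lit 5) (nat_lit 526) (nat_lit 525) (nat_lit 149))))))))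

set_option maxRecDepth 10000000 in
noncomputable def Tp : PT := (PT.nd (nat_lit 12823434) (PT.nd (nat_lit 11949366) (PT.nd (nat_lit 10825308) (PT.nd (nat_lit 9514128) (PT.nd (nat_lit 8639982) pc0 pc1) (PT.nd (nat_lit 749268) pc2 pc3)) (PT.nd (nat_lit 686946) (PT.nd (nat_lit 374790) pc4 pc5) (PT.nd (nat_lit 249600) pc6 pc7))) (PT.nd (nat_lit 561132) (PT.nd (nat_lit 311922) (PT.nd (nat_lit 186810) pc8 pc9) (PT.nd (nat_lit 124722) pc10 pc11)) (PT.nd (nat_lit 187044) (PT.nd (nat_lit 63336) pc12 pc13) (PT.nd (nat_lit 63024) pc14 pc15)))) (PT.nd (nat_lit 560430) (PT.nd (nat_lit 250068) (PT.nd (nat_lit 125346) (PT.nd (nat_lit 62712) pc16 pc17) (PT.nd (nat_lit 62400) pc18 pc19)) (PT.nd (nat_lit 123942) (PT.nd (nat_lit 62010) pc20 pc21) (PT.nd (nat_lit 64194) pc22 pc23))) (PT.nd (nat_lit 628524) (PT.nd (nat_lit 249366) (PT.nd (nat_lit 124488) pc24 pc25) (PT.nd (nat_lit 186732) pc26 pc27)) (PT.nd (nat_lit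 430950) (PT.nd (nat_lit 187980) pc28 pc29) (PT.nd (nat_lit 194922) pc30 pc31)))))

set_option maxRecDepth 10000000 in
noncomputable def Tx : XT := (XT.nd (nat_lit 20285928) (nat_lit 0) (nat_lit 76) XT.nil (XT.nd (nat_lit 12556128) (nat_lit 0) (nat_lit 0) (XT.nd (nat_lit 5622396) (nat_lit 0) (nat_lit 456) (XT.nd (nat_lit 3871530) (nat_lit 0) (nat_lit 76) (XT.nd (nat_lit 2743338) (nat_lit 0) (nat_lit 76) (XT.nd (nat_lit 1932216) (nat_lit 0) (nat_lit 0) (XT.nd (nat_lit 1311492) (nat_lit 0) (nat_lit 0) (XT.nd (nat_lit 935454) (nat_lit 0) (nat_lit 0) (XT.nd (nat_lit 624312) (nat_lit 0) (nat_lit 0) (XT.nd (nat_lit 436722) (nat_lit 0) (nat_lit 0) xc0 xc1) (XT.nd (nat_lit 186186) (nat_lit 0) (nat_lit 0) xc2 xc3)) (XT.nd (nat_lit 188682) (nat_lit 0) (nat_lit 0) (XT.nd (nat_lit 124332) (nat_lit 0) (nat_lit 0) xc4 xc5) (XT.nd (nat_lit 123396) (nat_lit 0) (nat_lit 0) xc6 xc7))) (XT.nd (nat_lit 312312) (nat_lit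 0) (nat_lit 0) (XT.nd (nat_lit 185874) (nat_lit 0) (nat_lit 0) (XT.nd (nat_lit 122460) (nat_lit 0) (nat_lit 0) xc8 xc9) (XT.nd (nat_lit 63258) (nat_lit 0) (nat_lit 0) xc10 xc11)) (XT.nd (nat_lit 183534) (nat_lit 0) (nat_lit 0) (XT.nd (nat_lit 62946) (nat_lit 0) (nat_lit 0) xc12 xc13) (XT.nd (nat_lit 62478) (nat_lit 0) (nat_lit 0) xc14 xc15)))) (XT.nd (nat_lit 436800) (nat_lit 0) (nat_lit 0) (XT.nd (nat_lit 190866) (nat_lit 0) (nat_lit 0) (XT.nd (nat_lit 67002) (nat_lit 0) (nat_lit 0) (XT.nd (nat_lit 62166) (nat_lit 0) (nat_lit 0) xc16 xc17) (XT.nd (nat_lit 62010) (nat_lit 0) (nat_lit 0) xc18 xc19)) (XT.nd (nat_lit 123240) (nat_lit 0) (nat_lit 0) (XT.nd (nat_lit 61698) (nat_lit 0) (nat_lit 0) xc20 xc21) (XT.nd (nat_lit 61386) (nat_lit 0) (nat_lit 0) xc22 xc23))) (XT.nd (nat_lit 187824) (nat_lit 0) (nat_lit 0) (XT.nd (nat_lit 65910) (nat_lit 0) (nat_lit 0) (XT.nd (nat_lit 4836) (nat_lit 76) (nat_lit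 0) xc24 xc25) (XT.nd (nat_lit 60996) (nat_lit 0) (nat_lit 0) xc26 xc27)) (XT.nd (nat_lit 65520) (nat_lit 0) (nat_lit 0) (XT.nd (nat_lit 60684) (nat_lit 0) (nat_lit 76) xc28 xc29) (XT.nd (nat_lit 60528) (nat_lit 0) (nat_lit 0) xc30 xc31))))) (XT.nd (nat_lit 624390) (nat_lit 0) (nat_lit 0) (XT.nd (nat_lit 314106) (nat_lit 0) (nat_lit 0) (XT.nd (nat_lit 129948) (nat_lit 0) (nat_lit 0) (XT.nd (nat_lit 65052) (nat_lit 0) (nat_lit 0) (XT.nd (nat_lit 4836) (nat_lit 0) (nat_lit 0) xc32 xc33) (XT.nd (nat_lit 60060) (nat_lit 0) (nat_lit 0) xc34 xc35)) (XT.nd (nat_lit 119652) (nat_lit 0) (nat_lit 0) (XT.nd (nat_lit 59904) (nat_lit 0) (nat_lit 0) xc36 xc37) (XT.nd (nat_lit 4836) (nat_lit 0) (nat_lit 0) xc38 xc39))) (XT.nd (nat_lit 128466) (nat_lit 0) (nat_lit 0) (XT.nd (nat_lit 64272) (nat_lit 0) (nat_lit 0) (XT.nd (nat_lit 59436) (nat_lit 0) (nat_lit 152) xc40 xc41) (XT.nd (nat_lit 59280) (nat_lit 0) (nat_lit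 0) xc42 xc43)) (XT.nd (nat_lit 118092) (nat_lit 0) (nat_lit 0) (XT.nd (nat_lit 59124) (nat_lit 0) (nat_lit 0) xc44 xc45) (XT.nd (nat_lit 4836) (nat_lit 228) (nat_lit 0) xc46 xc47)))) (XT.nd (nat_lit 253110) (nat_lit 0) (nat_lit 0) (XT.nd (nat_lit 126828) (nat_lit 0) (nat_lit 0) (XT.nd (nat_lit 63492) (nat_lit 0) (nat_lit 0) (XT.nd (nat_lit 4836) (nat_lit 152) (nat_lit 0) xc48 xc49) (XT.nd (nat_lit 4836) (nat_lit 0) (nat_lit 0) xc50 xc51)) (XT.nd (nat_lit 63180) (nat_lit 0) (nat_lit 0) (XT.nd (nat_lit 58344) (nat_lit 0) (nat_lit 608) xc52 xc53) (XT.nd (nat_lit 58188) (nat_lit 0) (nat_lit 456) xc54 xc55))) (XT.nd (nat_lit 125658) (nat_lit 0) (nat_lit 0) (XT.nd (nat_lit 62868) (nat_lit 0) (nat_lit 0) (XT.nd (nat_lit 58032) (nat_lit 0) (nat_lit 380) xc56 xc57) (XT.nd (nat_lit 57876) (nat_lit 0) (nat_lit 304) xc58 xc59)) (XT.nd (nat_lit 62556) (nat_lit 0) (nat_lit 0) (XT.nd (nat_lit 57720) (nat_lit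 0) (nat_lit 304) xc60 xc61) (XT.nd (nat_lit 57564) (nat_lit 0) (nat_lit 380) xc62 xc63)))))) (XT.nd (nat_lit 928668) (nat_lit 0) (nat_lit 152) (XT.nd (nat_lit 494286) (nat_lit 0) (nat_lit 152) (XT.nd (nat_lit 248274) (nat_lit 0) (nat_lit 0) (XT.nd (nat_lit 124332) (nat_lit 0) (nat_lit 0) (XT.nd (nat_lit 62244) (nat_lit 0) (nat_lit 0) (XT.nd (nat_lit 57408) (nat_lit 0) (nat_lit 380) xc64 xc65) (XT.nd (nat_lit 57252) (nat_lit 0) (nat_lit 532) xc66 xc67)) (XT.nd (nat_lit 62010) (nat_lit 0) (nat_lit 0) (XT.nd (nat_lit 57174) (nat_lit 0) (nat_lit 684) xc68 xc69) (XT.nd (nat_lit 57018) (nat_lit 0) (nat_lit 1064) xc70 xc71))) (XT.nd (nat_lit 123318) (nat_lit 0) (nat_lit 0) (XT.nd (nat_lit 61698) (nat_lit 0) (nat_lit 0) (XT.nd (nat_lit 56862) (nat_lit 0) (nat_lit 1520) xc72 xc73) (XT.nd (nat_lit 56706) (nat_lit 0) (nat_lit 2128) xc74 xc75)) (XT.nd (nat_lit 61386) (nat_lit 0) (nat_lit 152) (XT.nd (nat_lit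 4836) (nat_lit 152) (nat_lit 0) xc76 xc77) (XT.nd (nat_lit 4836) (nat_lit 228) (nat_lit 0) xc78 xc79)))) (XT.nd (nat_lit 192504) (nat_lit 0) (nat_lit 0) (XT.nd (nat_lit 121992) (nat_lit 0) (nat_lit 0) (XT.nd (nat_lit 61074) (nat_lit 0) (nat_lit 0) (XT.nd (nat_lit 4836) (nat_lit 532) (nat_lit 0) xc80 xc81) (XT.nd (nat_lit 4836) (nat_lit 1368) (nat_lit 0) xc82 xc83)) (XT.nd (nat_lit 9672) (nat_lit 76) (nat_lit 0) (XT.nd (nat_lit 4836) (nat_lit 2432) (nat_lit 0) xc84 xc85) (XT.nd (nat_lit 55926) (nat_lit 0) (nat_lit 532) xc86 xc87))) (XT.nd (nat_lit 121134) (nat_lit 0) (nat_lit 0) (XT.nd (nat_lit 60606) (nat_lit 0) (nat_lit 0) (XT.nd (nat_lit 55770) (nat_lit 0) (nat_lit 1596) xc88 xc89) (XT.nd (nat_lit 55614) (nat_lit 0) (nat_lit 3268) xc90 xc91)) (XT.nd (nat_lit 60294) (nat_lit 0) (nat_lit 0) (XT.nd (nat_lit 4836) (nat_lit 304) (nat_lit 0) xc92 xc93) (XT.nd (nat_lit 4836) (nat_lit 1216) (nat_lit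 0) xc94 xc95))))) (XT.nd (nat_lit 383682) (nat_lit 0) (nat_lit 76) (XT.nd (nat_lit 191334) (nat_lit 0) (nat_lit 76) (XT.nd (nat_lit 70122) (nat_lit 0) (nat_lit 0) (XT.nd (nat_lit 9672) (nat_lit 228) (nat_lit 0) (XT.nd (nat_lit 4836) (nat_lit 2584) (nat_lit 0) xc96 xc97) (XT.nd (nat_lit 55614) (nat_lit 0) (nat_lit 912) xc98 xc99)) (XT.nd (nat_lit 60528) (nat_lit 0) (nat_lit 0) (XT.nd (nat_lit 55692) (nat_lit 0) (nat_lit 2280) xc100 xc101) (XT.nd (nat_lit 4836) (nat_lit 0) (nat_lit 0) xc102 xc103))) (XT.nd (nat_lit 121680) (nat_lit 0) (nat_lit 0) (XT.nd (nat_lit 60762) (nat_lit 0) (nat_lit 0) (XT.nd (nat_lit 4836) (nat_lit 456) (nat_lit 0) xc104 xc105) (XT.nd (nat_lit 4836) (nat_lit 1368) (nat_lit 0) xc106 xc107)) (XT.nd (nat_lit 9672) (nat_lit 0) (nat_lit 0) (XT.nd (nat_lit 4836) (nat_lit 2508) (nat_lit 0) xc108 xc109) (XT.nd (nat_lit 56082) (nat_lit 0) (nat_lit 456) xc110 xc111)))) (XT.nd (nat_lit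 244530) (nat_lit 0) (nat_lit 0) (XT.nd (nat_lit 122070) (nat_lit 0) (nat_lit 0) (XT.nd (nat_lit 60996) (nat_lit 0) (nat_lit 0) (XT.nd (nat_lit 56160) (nat_lit 0) (nat_lit 1292) xc112 xc113) (XT.nd (nat_lit 56238) (nat_lit 0) (nat_lit 2280) xc114 xc115)) (XT.nd (nat_lit 61152) (nat_lit 0) (nat_lit 0) (XT.nd (nat_lit 56316) (nat_lit 0) (nat_lit 3496) xc116 xc117) (XT.nd (nat_lit 4836) (nat_lit 380) (nat_lit 0) xc118 xc119))) (XT.nd (nat_lit 122772) (nat_lit 0) (nat_lit 152) (XT.nd (nat_lit 61308) (nat_lit 0) (nat_lit 152) (XT.nd (nat_lit 4836) (nat_lit 912) (nat_lit 0) xc120 xc121) (XT.nd (nat_lit 4836) (nat_lit 1444) (nat_lit 0) xc122 xc123)) (XT.nd (nat_lit 61464) (nat_lit 0) (nat_lit 76) (XT.nd (nat_lit 4836) (nat_lit 2356) (nat_lit 0) xc124 xc125) (XT.nd (nat_lit 4836) (nat_lit 3192) (nat_lit 0) xc126 xc127))))))) (XT.nd (nat_lit 2123394) (nat_lit 0) (nat_lit 1216) (XT.nd (nat_lit 995826) (nat_lit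 0) (nat_lit 456) (XT.nd (nat_lit 495144) (nat_lit 0) (nat_lit 228) (XT.nd (nat_lit 246792) (nat_lit 0) (nat_lit 76) (XT.nd (nat_lit 123162) (nat_lit 0) (nat_lit 0) (XT.nd (nat_lit 61542) (nat_lit 0) (nat_lit 0) (XT.nd (nat_lit 56706) (nat_lit 0) (nat_lit 532) xc128 xc129) (XT.nd (nat_lit 56784) (nat_lit 0) (nat_lit 988) xc130 xc131)) (XT.nd (nat_lit 61698) (nat_lit 0) (nat_lit 76) (XT.nd (nat_lit 56862) (nat_lit 0) (nat_lit 1596) xc132 xc133) (XT.nd (nat_lit 57018) (nat_lit 0) (nat_lit 1900) xc134 xc135))) (XT.nd (nat_lit 124020) (nat_lit 0) (nat_lit 0) (XT.nd (nat_lit 61932) (nat_lit 0) (nat_lit 0) (XT.nd (nat_lit 57096) (nat_lit 0) (nat_lit 2432) xc136 xc137) (XT.nd (nat_lit 57174) (nat_lit 0) (nat_lit 2812) xc138 xc139)) (XT.nd (nat_lit 62088) (nat_lit 0) (nat_lit 0) (XT.nd (nat_lit 57252) (nat_lit 0) (nat_lit 3192) xc140 xc141) (XT.nd (nat_lit 4836) (nat_lit 152) (nat_lit 0) xc142 xc143))))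 (XT.nd (nat_lit 249522) (nat_lit 0) (nat_lit 76) (XT.nd (nat_lit 124566) (nat_lit 0) (nat_lit 0) (XT.nd (nat_lit 62244) (nat_lit 0) (nat_lit 0) (XT.nd (nat_lit 4836) (nat_lit 76) (nat_lit 0) xc144 xc145) (XT.nd (nat_lit 4836) (nat_lit 228) (nat_lit 0) xc146 xc147)) (XT.nd (nat_lit 62400) (nat_lit 0) (nat_lit 0) (XT.nd (nat_lit 4836) (nat_lit 304) (nat_lit 0) xc148 xc149) (XT.nd (nat_lit 4836) (nat_lit 304) (nat_lit 0) xc150 xc151))) (XT.nd (nat_lit 125424) (nat_lit 0) (nat_lit 0) (XT.nd (nat_lit 62634) (nat_lit 0) (nat_lit 0) (XT.nd (nat_lit 4836) (nat_lit 228) (nat_lit 0) xc152 xc153) (XT.nd (nat_lit 4836) (nat_lit 228) (nat_lit 0) xc154 xc155)) (XT.nd (nat_lit 62790) (nat_lit 0) (nat_lit 152) (XT.nd (nat_lit 4836) (nat_lit 152) (nat_lit 0) xc156 xc157) (XT.nd (nat_lit 58032) (nat_lit 0) (nat_lit 2888) xc158 xc159))))) (XT.nd (nat_lit 560196) (nat_lit 0) (nat_lit 304) (XT.nd (nat_lit 252330)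 (nat_lit 0) (nat_lit 76) (XT.nd (nat_lit 125970) (nat_lit 0) (nat_lit 76) (XT.nd (nat_lit 62946) (nat_lit 0) (nat_lit 0) (XT.nd (nat_lit 58110) (nat_lit 0) (nat_lit 2584) xc160 xc161) (XT.nd (nat_lit 58188) (nat_lit 0) (nat_lit 2128) xc162 xc163)) (XT.nd (nat_lit 63102) (nat_lit 0) (nat_lit 0) (XT.nd (nat_lit 58266) (nat_lit 0) (nat_lit 1596) xc164 xc165) (XT.nd (nat_lit 58344) (nat_lit 0) (nat_lit 1140) xc166 xc167))) (XT.nd (nat_lit 180570) (nat_lit 0) (nat_lit 228) (XT.nd (nat_lit 63258) (nat_lit 0) (nat_lit 152) (XT.nd (nat_lit 58422) (nat_lit 0) (nat_lit 684) xc168 xc169) (XT.nd (nat_lit 58578) (nat_lit 0) (nat_lit 0) xc170 xc171)) (XT.nd (nat_lit 63570) (nat_lit 0) (nat_lit 0) (XT.nd (nat_lit 4836) (nat_lit 2736) (nat_lit 0) xc172 xc173) (XT.nd (nat_lit 4836) (nat_lit 1824) (nat_lit 0) xc174 xc175)))) (XT.nd (nat_lit 255528) (nat_lit 0) (nat_lit 228) (XT.nd (nat_lit 127530) (nat_lit 0)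 (nat_lit 152) (XT.nd (nat_lit 63726) (nat_lit 0) (nat_lit 152) (XT.nd (nat_lit 4836) (nat_lit 912) (nat_lit 0) xc176 xc177) (XT.nd (nat_lit 4836) (nat_lit 0) (nat_lit 0) xc178 xc179)) (XT.nd (nat_lit 63882) (nat_lit 0) (nat_lit 76) (XT.nd (nat_lit 59046) (nat_lit 0) (nat_lit 1672) xc180 xc181) (XT.nd (nat_lit 59202) (nat_lit 0) (nat_lit 380) xc182 xc183))) (XT.nd (nat_lit 182988) (nat_lit 0) (nat_lit 228) (XT.nd (nat_lit 118638) (nat_lit 0) (nat_lit 152) (XT.nd (nat_lit 59280) (nat_lit 0) (nat_lit 152) xc184 xc185) (XT.nd (nat_lit 4836) (nat_lit 1444) (nat_lit 0) xc186 xc187)) (XT.nd (nat_lit 64350) (nat_lit 0) (nat_lit 0) (XT.nd (nat_lit 4836) (nat_lit 0) (nat_lit 0) xc188 xc189) (XT.nd (nat_lit 59592) (nat_lit 0) (nat_lit 836) xc190 xc191)))))) (XT.nd (nat_lit 1496586) (nat_lit 0) (nat_lit 1748) (XT.nd (nat_lit 685932) (nat_lit 0) (nat_lit 760) (XT.nd (nat_lit 369252) (nat_lit 0) (nat_lit 456)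 (XT.nd (nat_lit 184158) (nat_lit 0) (nat_lit 228) (XT.nd (nat_lit 119418) (nat_lit 0) (nat_lit 228) (XT.nd (nat_lit 59670) (nat_lit 0) (nat_lit 152) xc192 xc193) (XT.nd (nat_lit 4836) (nat_lit 1292) (nat_lit 0) xc194 xc195)) (XT.nd (nat_lit 64818) (nat_lit 0) (nat_lit 152) (XT.nd (nat_lit 59982) (nat_lit 0) (nat_lit 1596) xc196 xc197) (XT.nd (nat_lit 60060) (nat_lit 0) (nat_lit 0) xc198 xc199))) (XT.nd (nat_lit 130260) (nat_lit 0) (nat_lit 76) (XT.nd (nat_lit 65052) (nat_lit 0) (nat_lit 0) (XT.nd (nat_lit 4836) (nat_lit 1368) (nat_lit 0) xc200 xc201) (XT.nd (nat_lit 60294) (nat_lit 0) (nat_lit 1140) xc202 xc203)) (XT.nd (nat_lit 120900) (nat_lit 0) (nat_lit 152) (XT.nd (nat_lit 60372) (nat_lit 0) (nat_lit 152) xc204 xc205) (XT.nd (nat_lit 4836) (nat_lit 456) (nat_lit 0) xc206 xc207)))) (XT.nd (nat_lit 375180) (nat_lit 0) (nat_lit 456) (XT.nd (nat_lit 187122) (nat_lit 0) (nat_lit 152) (XT.nd (nat_lit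 121446) (nat_lit 0) (nat_lit 152) (XT.nd (nat_lit 60684) (nat_lit 0) (nat_lit 76) xc208 xc209) (XT.nd (nat_lit 4836) (nat_lit 760) (nat_lit 0) xc210 xc211)) (XT.nd (nat_lit 121992) (nat_lit 0) (nat_lit 228) (XT.nd (nat_lit 60918) (nat_lit 0) (nat_lit 228) xc212 xc213) (XT.nd (nat_lit 4836) (nat_lit 532) (nat_lit 0) xc214 xc215))) (XT.nd (nat_lit 188838) (nat_lit 0) (nat_lit 152) (XT.nd (nat_lit 122538) (nat_lit 0) (nat_lit 152) (XT.nd (nat_lit 61230) (nat_lit 0) (nat_lit 76) xc216 xc217) (XT.nd (nat_lit 61386) (nat_lit 0) (nat_lit 456) xc218 xc219)) (XT.nd (nat_lit 123084) (nat_lit 0) (nat_lit 228) (XT.nd (nat_lit 61464) (nat_lit 0) (nat_lit 152) xc220 xc221) (XT.nd (nat_lit 61698) (nat_lit 0) (nat_lit 76) xc222 xc223))))) (XT.nd (nat_lit 1001364) (nat_lit 0) (nat_lit 1520) (XT.nd (nat_lit 439920) (nat_lit 0) (nat_lit 608) (XT.nd (nat_lit 190710) (nat_lit 0) (nat_lit 304) (XT.nd (nat_lit 123786)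 (nat_lit 0) (nat_lit 152) (XT.nd (nat_lit 61854) (nat_lit 0) (nat_lit 76) xc224 xc225) (XT.nd (nat_lit 62088) (nat_lit 0) (nat_lit 380) xc226 xc227)) (XT.nd (nat_lit 124410) (nat_lit 0) (nat_lit 76) (XT.nd (nat_lit 62166) (nat_lit 0) (nat_lit 0) xc228 xc229) (XT.nd (nat_lit 62322) (nat_lit 0) (nat_lit 0) xc230 xc231))) (XT.nd (nat_lit 250770) (nat_lit 0) (nat_lit 304) (XT.nd (nat_lit 125190) (nat_lit 0) (nat_lit 228) (XT.nd (nat_lit 62556) (nat_lit 0) (nat_lit 0) xc232 xc233) (XT.nd (nat_lit 62712) (nat_lit 0) (nat_lit 0) xc234 xc235)) (XT.nd (nat_lit 184158) (nat_lit 0) (nat_lit 304) (XT.nd (nat_lit 121056) (nat_lit 0) (nat_lit 304) xc236 xc237) (XT.nd (nat_lit 63180) (nat_lit 0) (nat_lit 152) xc238 xc239)))) (XT.nd (nat_lit 688428) (nat_lit 0) (nat_lit 1368) (XT.nd (nat_lit 313092) (nat_lit 0) (nat_lit 684) (XT.nd (nat_lit 185640) (nat_lit 0) (nat_lit 304) (XT.nd (nat_lit 63414) (nat_lit 0)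 (nat_lit 152) xc240 xc241) (XT.nd (nat_lit 63648) (nat_lit 0) (nat_lit 152) xc242 xc243)) (XT.nd (nat_lit 187044) (nat_lit 0) (nat_lit 380) (XT.nd (nat_lit 123006) (nat_lit 0) (nat_lit 152) xc244 xc245) (XT.nd (nat_lit 123786) (nat_lit 0) (nat_lit 304) xc246 xc247))) (XT.nd (nat_lit 499824) (nat_lit 0) (nat_lit 1672) (XT.nd (nat_lit 248898) (nat_lit 0) (nat_lit 912) (XT.nd (nat_lit 124254) (nat_lit 0) (nat_lit 456) xc248 xc249) (XT.nd (nat_lit 125190) (nat_lit 0) (nat_lit 228) xc250 xc251)) (XT.nd (nat_lit 374010) (nat_lit 0) (nat_lit 1216) (XT.nd (nat_lit 186498) (nat_lit 0) (nat_lit 532) xc252 xc253) (XT.nd (nat_lit 249912) (nat_lit 0) (nat_lit 1064) xc254 xc255)))))))) XT.nil))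

set_option maxRecDepth 10000000 in
noncomputable def Te : XT := XT.nil

set_option maxRecDepth 10000000 in
noncomputable def Tz : ZL := (ZL.cons (nat_lit 76) (nat_lit 3) (nat_lit 236034941541369003752) (ZL.cons (nat_lit 152) (nat_lit 6) (nat_lit 460896908417651142338) (ZL.cons (nat_lit 228) (nat_lit 6) (nat_lit 450260396556628040200) (ZL.cons (nat_lit 304) (nat_lit 3) (nat_lit 224863097903358384420) (ZL.cons (nat_lit 380) (nat_lit 6) (nat_lit 439092059102553782958) (ZL.cons (nat_lit 456) (nat_lit 6) (nat_lit 428969178932057034722) (ZL.cons (nat_lit 532) (nat_lit 3) (nat_lit 214230208156546959570) (ZL.cons (nat_lit 608) (nat_lit 6) (nat_lit 418340154753035449074) (ZL.cons (nat_lit 684) (nat_lit 6) (nat_lit 408707178561521090686) (ZL.cons (nat_lit 760) (nat_lit 3) (nat_lit 204111321366968585543) (ZL.cons (nat_lit 836) (nat_lit 6) (nat_lit 398592553560431014380) (ZL.cons (nat_lit 912) (nat_lit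 6) (nat_lit 389426958448770535726) (ZL.cons (nat_lit 988) (nat_lit 3) (nat_lit 194482747877916734719) (ZL.cons (nat_lit 1064) (nat_lit 6) (nat_lit 379803083581527033140) (ZL.cons (nat_lit 1140) (nat_lit 6) (nat_lit 371083501770430023488) (ZL.cons (nat_lit 1216) (nat_lit 3) (nat_lit 185322006745721170656) (ZL.cons (nat_lit 1292) (nat_lit 6) (nat_lit 361927940868778163356) (ZL.cons (nat_lit 1368) (nat_lit 6) (nat_lit 353634113159671013136) (ZL.cons (nat_lit 1444) (nat_lit 3) (nat_lit 176607776446984229340) (ZL.cons (nat_lit 1520) (nat_lit 6) (nat_lit 344925594065108505402) (ZL.cons (nat_lit 1596) (nat_lit 6) (nat_lit 337038326384986732208) (ZL.cons (nat_lit 1672) (nat_lit 3) (nat_lit 168319848780254054459) (ZL.cons (nat_lit 1748) (nat_lit 6) (nat_lit 328756695320858870354) (ZL.cons (nat_lit 1824) (nat_lit 6) (nat_lit 321257818293209243906) (ZL.cons (nat_lit 1900) (nat_lit 3) (nat_lit 160439085896852896576)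 (ZL.cons (nat_lit 1976) (nat_lit 6) (nat_lit 313383997414177136134) (ZL.cons (nat_lit 2052) (nat_lit 6) (nat_lit 306256328909940688210) (ZL.cons (nat_lit 2128) (nat_lit 3) (nat_lit 152947380407587748509) (ZL.cons (nat_lit 2204) (nat_lit 6) (nat_lit 298772276980492417892) (ZL.cons (nat_lit 2280) (nat_lit 6) (nat_lit 291999587615283415234) (ZL.cons (nat_lit 2356) (nat_lit 3) (nat_lit 145827618524420188001) (ZL.cons (nat_lit 2432) (nat_lit 6) (nat_lit 284888263781813962442) (ZL.cons (nat_lit 2508) (nat_lit 6) (nat_lit 278455245338301209562) (ZL.cons (nat_lit 2584) (nat_lit 3) (nat_lit 139063646208939633718) (ZL.cons (nat_lit 2660) (nat_lit 6) (nat_lit 271700575972612819038) (ZL.cons (nat_lit 2736) (nat_lit 6) (nat_lit 265592812740192554274) (ZL.cons (nat_lit 2812) (nat_lit 3) (nat_lit 132640238312752495173) (ZL.cons (nat_lit 2888) (nat_lit 6) (nat_lit 259179661346151276272) (ZL.cons (nat_lit 2964)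 (nat_lit 6) (nat_lit 253383604383886548926) (ZL.cons (nat_lit 3040) (nat_lit 3) (nat_lit 126543070708758720211) (ZL.cons (nat_lit 3116) (nat_lit 6) (nat_lit 247297744573508585214) (ZL.cons (nat_lit 3192) (nat_lit 6) (nat_lit 241800688916877070514) (ZL.cons (nat_lit 3268) (nat_lit 3) (nat_lit 120758695426834197874) (ZL.cons (nat_lit 3344) (nat_lit 6) (nat_lit 236028780477413980080) (ZL.cons (nat_lit 3420) (nat_lit 6) (nat_lit 230818845324801875310) (ZL.cons (nat_lit 3496) (nat_lit 3) (nat_lit 115274518822777759196) (ZL.cons (nat_lit 3572) (nat_lit 6) (nat_lit 225348413414559165306) (ZL.cons (nat_lit 3648) (nat_lit 6) (nat_lit 220414525345779691406) (ZL.cons (nat_lit 3724) (nat_lit 3) (nat_lit 110078782825629675741) (ZL.cons (nat_lit 3800) (nat_lit 6) (nat_lit 215233942873561243812) (ZL.cons (nat_lit 3876) (nat_lit 6) (nat_lit 210565822170089370610) (ZL.cons (nat_lit 3952) (nat_lit 3) (nat_lit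 105160549325749285341) (ZL.cons (nat_lit 4028) (nat_lit 6) (nat_lit 205664295431443903746) (ZL.cons (nat_lit 4104) (nat_lit 6) (nat_lit 201252445586682827128) (ZL.cons (nat_lit 4180) (nat_lit 3) (nat_lit 100509687784488651695) (ZL.cons (nat_lit 4256) (nat_lit 6) (nat_lit 197075044712823052554) (ZL.cons (nat_lit 4332) (nat_lit 6) (nat_lit 196620003249683696682) (ZL.cons (nat_lit 4408) (nat_lit 6) (nat_lit 192455703777564765512) (ZL.cons (nat_lit 4484) (nat_lit 3) (nat_lit 96116866166065466689) (ZL.cons (nat_lit 4560) (nat_lit 6) (nat_lit 188516562153877369568) (ZL.cons (nat_lit 4636) (nat_lit 6) (nat_lit 188083189331839887782) (ZL.cons (nat_lit 4712) (nat_lit 6) (nat_lit 184158492003571771692) (ZL.cons (nat_lit 4788) (nat_lit 3) (nat_lit 91973545313484061020) (ZL.cons (nat_lit 4864) (nat_lit 6) (nat_lit 180450295829878327688) (ZL.cons (nat_lit 4940) (nat_lit 6) (nat_lit 180037559808890249798)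 (ZL.cons (nat_lit 5016) (nat_lit 6) (nat_lit 176345288470896561830) (ZL.cons (nat_lit 5092) (nat_lit 3) (nat_lit 88071976913256066796) (ZL.cons (nat_lit 5168) (nat_lit 6) (nat_lit 172861485490753739836) (ZL.cons (nat_lit 5244) (nat_lit 6) (nat_lit 172468403566003189466) (ZL.cons (nat_lit 5320) (nat_lit 6) (nat_lit 169002157717219348504) (ZL.cons (nat_lit 5396) (nat_lit 3) (nat_lit 84405205218426613186) (ZL.cons (nat_lit 5472) (nat_lit 6) (nat_lit 165736963313853982514) (ZL.cons (nat_lit 5548) (nat_lit 6) (nat_lit 165362599575996315494) (ZL.cons (nat_lit 5624) (nat_lit 6) (nat_lit 162665046083518126338) (ZL.cons (nat_lit 5700) (nat_lit 6) (nat_lit 162116761909954226092) (ZL.cons (nat_lit 5776) (nat_lit 3) (nat_lit 80967072726231340602) (ZL.cons (nat_lit 5852) (nat_lit 6) (nat_lit 159065169253807810334) (ZL.cons (nat_lit 5928) (nat_lit 6) (nat_lit 158708632360610032220) (ZL.cons (nat_lit 6004)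 (nat_lit 6) (nat_lit 156200555910756719614) (ZL.cons (nat_lit 6080) (nat_lit 6) (nat_lit 155678380507362528902) (ZL.cons (nat_lit 6156) (nat_lit 3) (nat_lit 77752230035828147838) (ZL.cons (nat_lit 6232) (nat_lit 6) (nat_lit 152836175007355296240) (ZL.cons (nat_lit 6308) (nat_lit 6) (nat_lit 152496616061452650416) (ZL.cons (nat_lit 6384) (nat_lit 6) (nat_lit 150175248704635936062) (ZL.cons (nat_lit 6460) (nat_lit 6) (nat_lit 149677938796641468720) (ZL.cons (nat_lit 6536) (nat_lit 3) (nat_lit 74756150143222528061) (ZL.cons (nat_lit 6612) (nat_lit 6) (nat_lit 147689266060388449892) (ZL.cons (nat_lit 6688) (nat_lit 6) (nat_lit 147041717140877962052) (ZL.cons (nat_lit 6764) (nat_lit 6) (nat_lit 146718327668589727936) (ZL.cons (nat_lit 6840) (nat_lit 6) (nat_lit 144581674375934122070) (ZL.cons (nat_lit 6916) (nat_lit 6) (nat_lit 144108045892129867456) (ZL.cons (nat_lit 6992) (nat_lit 3) (nat_lit 71975147465019022969)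 (ZL.cons (nat_lit 7068) (nat_lit 6) (nat_lit 142291953257131511056) (ZL.cons (nat_lit 7144) (nat_lit 6) (nat_lit 141675240000454855970) (ZL.cons (nat_lit 7220) (nat_lit 6) (nat_lit 141367250026847013954) (ZL.cons (nat_lit 7296) (nat_lit 6) (nat_lit 139414117598584514880) (ZL.cons (nat_lit 7372) (nat_lit 6) (nat_lit 138963042852104272392) (ZL.cons (nat_lit 7448) (nat_lit 3) (nat_lit 69406401920294125947) (ZL.cons (nat_lit 7524) (nat_lit 6) (nat_lit 137319295061752486226) (ZL.cons (nat_lit 7600) (nat_lit 6) (nat_lit 136731949103012814718) (ZL.cons (nat_lit 7676) (nat_lit 6) (nat_lit 136438625318624393748) (ZL.cons (nat_lit 7752) (nat_lit 6) (nat_lit 135385784717252027086) (ZL.cons (nat_lit 7828) (nat_lit 6) (nat_lit 134668656651598613652) (ZL.cons (nat_lit 7904) (nat_lit 6) (nat_lit 134239061654950763662) (ZL.cons (nat_lit 7980) (nat_lit 3) (nat_lit 67047988441039181595) (ZL.cons (nat_lit 8056)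 (nat_lit 6) (nat_lit 132768252896786873480) (ZL.cons (nat_lit 8132) (nat_lit 6) (nat_lit 132208875793225281564) (ZL.cons (nat_lit 8208) (nat_lit 6) (nat_lit 131929519808093452072) (ZL.cons (nat_lit 8284) (nat_lit 6) (nat_lit 131026213067732804344) (ZL.cons (nat_lit 8360) (nat_lit 6) (nat_lit 130343233957586696308) (ZL.cons (nat_lit 8436) (nat_lit 6) (nat_lit 129934095865541124890) (ZL.cons (nat_lit 8512) (nat_lit 3) (nat_lit 64898912326640847935) (ZL.cons (nat_lit 8588) (nat_lit 6) (nat_lit 129438389450557706076) (ZL.cons (nat_lit 8664) (nat_lit 6) (nat_lit 128637694143664439834) (ZL.cons (nat_lit 8740) (nat_lit 6) (nat_lit 128104954045034352296) (ZL.cons (nat_lit 8816) (nat_lit 6) (nat_lit 127838900725861181350) (ZL.cons (nat_lit 8892) (nat_lit 6) (nat_lit 128001001512839733208) (ZL.cons (nat_lit 8968) (nat_lit 6) (nat_lit 127088195542377744862) (ZL.cons (nat_lit 9044) (nat_lit 6) (nat_lit 126437739247000499118)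 (ZL.cons (nat_lit 9120) (nat_lit 6) (nat_lit 126048083921242812052) (ZL.cons (nat_lit 9196) (nat_lit 3) (nat_lit 62959150907164535063) (ZL.cons (nat_lit 9272) (nat_lit 6) (nat_lit 125691048871342595454) (ZL.cons (nat_lit 9348) (nat_lit 6) (nat_lit 124928481912396627606) (ZL.cons (nat_lit 9424) (nat_lit 6) (nat_lit 124421110389891782334) (ZL.cons (nat_lit 9500) (nat_lit 6) (nat_lit 124167726276393524288) (ZL.cons (nat_lit 9576) (nat_lit 6) (nat_lit 124442927590866050780) (ZL.cons (nat_lit 9652) (nat_lit 6) (nat_lit 123573588571378442832) (ZL.cons (nat_lit 9728) (nat_lit 6) (nat_lit 122954106385304875456) (ZL.cons (nat_lit 9804) (nat_lit 6) (nat_lit 122583006075059459204) (ZL.cons (nat_lit 9880) (nat_lit 3) (nat_lit 61229702034237471542) (ZL.cons (nat_lit 9956) (nat_lit 6) (nat_lit 123340859983613642870) (ZL.cons (nat_lit 10032) (nat_lit 6) (nat_lit 122369833287419711020) (ZL.cons (nat_lit 10108)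 (nat_lit 6) (nat_lit 121643579040804503544) (ZL.cons (nat_lit 10184) (nat_lit 6) (nat_lit 121160368066990365188) (ZL.cons (nat_lit 10260) (nat_lit 6) (nat_lit 120919049863658690862) (ZL.cons (nat_lit 10336) (nat_lit 6) (nat_lit 122382222079091913616) (ZL.cons (nat_lit 10412) (nat_lit 6) (nat_lit 121314349976511006620) (ZL.cons (nat_lit 10488) (nat_lit 6) (nat_lit 120486408053189475242) (ZL.cons (nat_lit 10564) (nat_lit 6) (nat_lit 119896425018833696786) (ZL.cons (nat_lit 10640) (nat_lit 6) (nat_lit 119542996151933300356) (ZL.cons (nat_lit 10716) (nat_lit 3) (nat_lit 59712639977593071075) (ZL.cons (nat_lit 10792) (nat_lit 6) (nat_lit 120404625583150166048) (ZL.cons (nat_lit 10868) (nat_lit 6) (nat_lit 119479838253441659524) (ZL.cons (nat_lit 10944) (nat_lit 6) (nat_lit 118788167542379557166) (ZL.cons (nat_lit 11020) (nat_lit 6) (nat_lit 118327966614937520636) (ZL.cons (nat_lit 11096) (nat_lit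 6) (nat_lit 118098139754621640326) (ZL.cons (nat_lit 11172) (nat_lit 3) (nat_lit 58954815639000919652) (ZL.cons (nat_lit 11248) (nat_lit 6) (nat_lit 117978457500229926972) (ZL.cons (nat_lit 11324) (nat_lit 6) (nat_lit 118185100038871875900) (ZL.cons (nat_lit 11400) (nat_lit 6) (nat_lit 118530050899972071678) (ZL.cons (nat_lit 11476) (nat_lit 6) (nat_lit 119014131395104562392) (ZL.cons (nat_lit 11552) (nat_lit 6) (nat_lit 119638494096876806356) (ZL.cons (nat_lit 11628) (nat_lit 6) (nat_lit 118621473046799752072) (ZL.cons (nat_lit 11704) (nat_lit 6) (nat_lit 117832956929350674568) (ZL.cons (nat_lit 11780) (nat_lit 6) (nat_lit 117271068325202314136) (ZL.cons (nat_lit 11856) (nat_lit 6) (nat_lit 116934469404344793726) (ZL.cons (nat_lit 11932) (nat_lit 3) (nat_lit 58411179370388035811) (ZL.cons (nat_lit 12008) (nat_lit 6) (nat_lit 116493286487343670884) (ZL.cons (nat_lit 12084) (nat_lit 6) (nat_lit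 116634380242911250604) (ZL.cons (nat_lit 12160) (nat_lit 6) (nat_lit 116916903691559666186) (ZL.cons (nat_lit 12236) (nat_lit 6) (nat_lit 117341529508166651950) (ZL.cons (nat_lit 12312) (nat_lit 6) (nat_lit 117909268706581272150) (ZL.cons (nat_lit 12388) (nat_lit 6) (nat_lit 117028518868763646886) (ZL.cons (nat_lit 12464) (nat_lit 6) (nat_lit 116369784858228311308) (ZL.cons (nat_lit 12540) (nat_lit 6) (nat_lit 115931498260664466996) (ZL.cons (nat_lit 12616) (nat_lit 6) (nat_lit 115712615536554104792) (ZL.cons (nat_lit 12692) (nat_lit 3) (nat_lit 57606606454472465742) (ZL.cons (nat_lit 12768) (nat_lit 6) (nat_lit 115285480442284423536) (ZL.cons (nat_lit 12844) (nat_lit 6) (nat_lit 115502455107858469910) (ZL.cons (nat_lit 12920) (nat_lit 6) (nat_lit 115864653512013675478) (ZL.cons (nat_lit 12996) (nat_lit 6) (nat_lit 116372938031902790728) (ZL.cons (nat_lit 13072) (nat_lit 6) (nat_lit 115621970300998907390)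 (ZL.cons (nat_lit 13148) (nat_lit 6) (nat_lit 115086838297048087932) (ZL.cons (nat_lit 13224) (nat_lit 6) (nat_lit 114766267896231401826) (ZL.cons (nat_lit 13300) (nat_lit 3) (nat_lit 57329747917844880863) (ZL.cons (nat_lit 13376) (nat_lit 6) (nat_lit 114135188970799426062) (ZL.cons (nat_lit 13452) (nat_lit 6) (nat_lit 114283337414145384768) (ZL.cons (nat_lit 13528) (nat_lit 6) (nat_lit 114579987035226221128) (ZL.cons (nat_lit 13604) (nat_lit 6) (nat_lit 115025844142663556182) (ZL.cons (nat_lit 13680) (nat_lit 6) (nat_lit 114398478418344188964) (ZL.cons (nat_lit 13756) (nat_lit 6) (nat_lit 113981062611140527712) (ZL.cons (nat_lit 13832) (nat_lit 6) (nat_lit 113772602873892563710) (ZL.cons (nat_lit 13908) (nat_lit 3) (nat_lit 56590383519619218380) (ZL.cons (nat_lit 13984) (nat_lit 6) (nat_lit 113256647949244903414) (ZL.cons (nat_lit 14060) (nat_lit 6) (nat_lit 113484471348097652106) (ZL.cons (nat_lit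 14136) (nat_lit 6) (nat_lit 113864779672460617952) (ZL.cons (nat_lit 14212) (nat_lit 6) (nat_lit 113355130144888408940) (ZL.cons (nat_lit 14288) (nat_lit 6) (nat_lit 113049825001253469792) (ZL.cons (nat_lit 14364) (nat_lit 3) (nat_lit 56474068662273572945) (ZL.cons (nat_lit 14440) (nat_lit 6) (nat_lit 112419942214431072318) (ZL.cons (nat_lit 14516) (nat_lit 6) (nat_lit 112575498079944328958) (ZL.cons (nat_lit 14592) (nat_lit 6) (nat_lit 112886980182079207136) (ZL.cons (nat_lit 14668) (nat_lit 6) (nat_lit 112489441318075720228) (ZL.cons (nat_lit 14744) (nat_lit 6) (nat_lit 112290908234982421180) (ZL.cons (nat_lit 14820) (nat_lit 3) (nat_lit 55885614026596214990) (ZL.cons (nat_lit 14896) (nat_lit 6) (nat_lit 111850903008699219966) (ZL.cons (nat_lit 14972) (nat_lit 6) (nat_lit 112090117577494606092) (ZL.cons (nat_lit 15048) (nat_lit 6) (nat_lit 111799350774032759284) (ZL.cons (nat_lit 15124) (nat_lit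 3) (nat_lit 55851252683822892069) (ZL.cons (nat_lit 15200) (nat_lit 6) (nat_lit 111308960908002217728) (ZL.cons (nat_lit 15276) (nat_lit 6) (nat_lit 111472294566791137200) (ZL.cons (nat_lit 15352) (nat_lit 6) (nat_lit 111283215440035614294) (ZL.cons (nat_lit 15428) (nat_lit 3) (nat_lit 55474190719759164689) (ZL.cons (nat_lit 15504) (nat_lit 6) (nat_lit 111032040142800458864) (ZL.cons (nat_lit 15580) (nat_lit 3) (nat_lit 55469903211215955552) (ZL.cons (nat_lit 15656) (nat_lit 6) (nat_lit 110768306080703545660) (ZL.cons (nat_lit 15732) (nat_lit 1) (nat_lit 18446744073709551617) ZL.nil)))))))))))))))))))))))))))))))))))))))))))))))))))))))))))))))))))))))))))))))))))))))))))))))))))))))))))))))))))))))))))))))))))))))))))))))))))))))))))))))))))))))))))))))))))))))))))))))))))))))))))))))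

noncomputable def vl : XL := ⟨(nat_lit 0), (nat_lit 76), (nat_lit 106765687), (nat_lit 152), (nat_lit 74248033), (nat_lit 152), (nat_lit 74248033), (nat_lit 1), (nat_lit 4), (nat_lit 2), (nat_lit 5), (nat_lit 2), (nat_lit 4), (nat_lit 0), (nat_lit 0), (nat_lit 0)⟩

noncomputable def cp0 : Nat := (nat_lit 378107423879824692114105535601964572198100528210297461098972450156918190903853654592375576634513617950684473157191421430567603295464459686744147332966044989690172415427910506999586398244223670803221177214674502940514118465243730874607832675471625807096666741614129036820029517183648173850553196950116341498173746429360589243770460939687909621520676526666605871777845590886013021950198308702166920652028987081074322853360935127507239106393062364069847778100393417815244754631091089815991557204154658049373319738998572846704640710701342547665060147001987967999313483454892678707766996038437155527197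87466956899473674149496458163503479025556286309893574835440943353750339162997894643165510828478680453167432920260011100146932212847511059839924120440489147814518135934072816261858300607551087495673767273259264553901282704408805749458410665150423082343451671259732146640504507770587680634388795227335842529473218864050298623674677621105455028896814535715212402830942253848621382728930352853081475943181762842518966337112482564443654939758444833317907159338773435605333448092022716963532824975392074565012785674259333019715129577996763970607546803331584444442819311147695045763800654354126555357702057158445287392095404811374890332215322135181337102775073878499991199333393682723927980231071364766075428669625780780119470800292736094124903043198871271375142188628538262846560728042330824407731589832154264021713434573307175666360344411852587109854142108874496293840009372829304275593283044719603414330297917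63259874939095779687239321077621357316095044261705909547610141749996373628754516082500813118668786413967419836530425547859429319170222699384405619290203028760137569209675658350231960837556613663778979934783095821821922995157623037448949604847239001663541433615496420777707007032231974209017354245328691531799647187118893206322619469741954066149388052965050921636375673868823794062779909052709771743265944668436630992560005189248911658410787878584537956556781074509986215568541908912267305213040009296114167546565874981972171013698839543886422900482641763792300804789770813395442972199288609096625698959748199255468911060900606497671965940953684006924431626017714535096249870774213786849220081278954887701477487666501282088943058664311262327876494493161571720396731475689117837435122171662059510799685966954859209393770378240123447872361565769737030490427950534884734322194541993060070008760522529932877655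03593756819576208481930949276816688139007090656436756097473428837335645427345055338866501850436909427740823384328931108663888578079184437022240560476111237908157539464642580875715905700593643572084340717811901320254847134678537754942524621796895369474446348791669104104333776384644503195040230023792480302187923999633952498958837736253899401965421567873000337826187092026013289007252372349311916499073848695691174722320459451833019163483008586392522772436264917438871230252068492511485730834932457934207970686037244839724282280340728112093626238626100173982834240852425520403865571308809286772087632483063983356155790267825536086462398549035887824351933132232519563402313130119990105954485316679156919581428290037858779607646317406989605867555957886960982193078265702078873697443755329925613568782857233416140842471620015700543352577452772490100841840307182327843311039441449588686647855321036825324096033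27909676965709929628005026057148557909821427551389790686140013308305918022044995072058622095302063784283692104927648933704797029812927904207860793680947696520094655401177100122349019272710558002564939299335953800783429758774714827017756032671864546360916659630263846309384669680896218086116004231812308328218528646539107273221193283811521585512993295453093766973960188227846136808650687209355929963017268167185242458747380182942002704102675903929388207458416141830765806922317465513615808672409319375485748296802368685715603174502794884728195770705582546713144217638426831219052164033124887617299897718713331274290046990438373590931183550000747048679904249554672326072942774063635308582932081781103161901821733318083414459734902155267283039013589984829865802086335583594740638686414147074588490350623209134415549870753268960095261913868934157163925530425433556259102309225030908725934331178985834501958829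0716105871569066480022956777049926196598285983038460951596892931284423643045493213963721101583340875166073944944505022376329887914985019958414954423859494816794481052173541066834344705648803379722336230870771973719920463201111619434179498075360894159804556036877084979704781618157170697468716418922541060473864901179128777740492078993836211978828983577724150436228816303035174819122325451692754088613103427456235386537689348153678692496329314939422208906010966657930997711764749028539207203287978065871842053681164380273185087528907046912)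

noncomputable def cp1 : Nat := (nat_lit 42963071385678164587520105082393979204280349541871397109286921882173280018323301863021666158436943816784887681318239220252292970838399055255730468485604149319116114956124428667084201905843859700872562381627435034285323536160449890337130491471231274734483257407894231203872346718487328315432995135231245412834622279753522936945936278694158736636589964221223806339713722654230984721671549545228448669059636560695034879899370265562016649421574634817137594531897253286044994372291357061177117271584193959507741674272878632081090614128225417372045412156473208320947041599266870489201986523859725437962678916702228903779432624799644071381800522731967166349456097885222442912934960307621348947519566903684459763837535859274336266282464045665842430202106297868146356625755967541498982714249089018344368026565444534543574741608566837655504087504410773127543855083981178295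99191534595701128676694772999151185371152048669208975381744663461171378406296513534453716488399438490461844300342942984945331804893380153103534602703505117256335072048938507794630714032089003803897814881197330983798477340932020267584328210885025564388503339944575110883183029014222034220656917597090321301491350017590392713001600559268832365534157757677859370719434606208453665667183806040403041196918153218356003375793181327380315725985104385222927144017577983070053790339413685435638078610778657186388844669486490639837903516541837572281478942580793206448675886597836289597324472559295918627297496446094283156143054741743018948848449716154794647836022965756013187197617001948786597617967005396425740747883121704787017103284980564297086817701241629606035039633538303055765345720121338900253753278607009380789369040399588164943093452955327782461110992252843926146652359593022611648752811154805899821121269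79182569128310091851012462686056340559184650318185990748188575096122991155785229109281287103167651591362365557711975447319377328914696459679319993201398715195236904143367791531450673064169111120433619147994900288949156127776574926259345405257665187090798045006769945370521104018700957869851602349228790906295469469659131812515279045160150747042341921398034709297793640299895935064464341285299793175369360558387106097482806747379089571130150091899669318355121850920517864357854850069528328092138314546971394600123249327436065499838202683582002993035947988051650278860743476332967261666141200894722064863502523372162560048803184191037762319781264457659074872289996587581530744373736262875749533690217432469946869037709144299227769204727806358828729984420427928699227285700964472499200560099348599455130637307296776242417743424464403407845692019119478982342094899070966735715609891209474677575122218270206786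97721174379513369642567077598170295697709250286426357930705151163486678196028496895269049198210700547195574730881524922963605118504518379525028275207682090125394594667567620824691265033603282015593320873790813377388541990477064435978753883846364218478100737927976053012586782125216993288986022552816550865264008975584747568116413413095845182062676029116117482197276340143752712351221666719013793917593533972851022055554767316137203123962920084481041713076974502364313884755911791480309840712968501020159317841370524985123103617226825092325920186050356921245277670285895822715575013877027680767674544235735323405182748301609382088044432721615851857201965584229518603851582795499524038925281066066777153980583733322819734129939903941004598810168202288270538748521306370911560702103599562088329502390567861718908364791381618884023387336109877942592669481840091288517436927034654556238526786136475119512004289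6499599660442064019599076616143561915815514285721884510374379683993452726118316526761293402339597295457837474372601977148678826335062113333907617906431802474197664473842435312116276783481451499212284643053879386493667443600679800876724774651130829788417121039449483821434836661024281090069460545336664173932100831932506393915338931242920426841876051214432017178199298979250535925617865280544403569367960008617663231296131460405187622115134003009691391068967277386958890040746277712222124884660358677014446283768065928789880742974596407953492482116712335180485549016445477431175216534387450181755033007333490502228007008647751636691123278994691613093644492270868673371643993937517868118111737779996373011729239447418097291071361372104877567830655511179307368376540890358255590047124203375301198168458670713855386760457145904590775097494783909348414948118644940500276011565871711450596089625967256474385875146468395823750591772386528063215079268258322986803358981051969473608337381043397045067447020116699076495391668644068330268971681326313781057847131330800825064284804615152747834339231020325934817296835570221654400816603371008299010697661990368295126351562084147762477137920)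

noncomputable def rc0 : Nat := (nat_lit 37634491062915546194387980905947261017240430675233713620628604545676832866356194259989768706513539909568497958844082074748939718457333395591206917715762224593013500734825821808459598087182556864787150589957191394305981621376841575627794433237985412193474340376851567059605073115867720459266511948740266980447659993859831500469340672960298107733985700147500594899232515463519803550520356544304745884869836848014467368507242051413910336691558086268980826656221179907673337164864141456159069773964463456140654852074538551752039503324074432405941140823284044196800253111681724255644407620395378502336571218836159692725438117050232037706115969254601912777285602224601021928302856629316333210770408514108514149577375888289156124804483616863522872820806598937327712172770303365163011180765757272441533502217207445677592373732429830645679315240775590790716754360540341060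21531422906339241814841528987430403453962691112940689622983794095673256055562100832295769852433425479212643465204707818336489312373955232021126952498113994811807720176088065980805602483556299847194600962917996765621767808289713103689735318224106468753237988485439345877960622098212322272342689163821550876207165551205154315904488819866421607967944077346346683131056085284173568849993346369910170474390592785650575363054714281369154681126799787129348342462616886117330999929014663468508513475832659716624133489194533190414001731586765428384307179534028588408324753589426378771308986392634199893543195878708788199761221631322457272900800257130425944824043474778112481327476312241072335393348149916138349444324220575447016555111197714911814916202206784631148892581407886260887309402502986111576740797510850181038671184407425068671422892545237211736271171093347048685376170455196167621461600569402141369330225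31336066279471075631037730739764659119620107721560814519948877406423840469809802425759309392974722032866519865158928312178432642565953671487056796247233857410886510862782259920617698815016635928387234982666533146095767734370658596947931249806498898914586786301108703991924862022340376417374819394945960269095535286602276650133827645689741702169627416530830258968726987737512908228811202691335137668055889637980583782961598554796952760253136511857142088582710736647568906356440054987624401829873839851077214050877166391055522830963807146356921585924197364819032447332704982791439168201858683052842412701139626528325672485065359419741271000047438954428768480004752575285564804147098371482891581459929308628725048277557695197541642313949506921526247354358724713087002947479065528842968134163972179150811263571642034029898737880344003211956184846348340618467767480713302910167999039516260375942492668668025203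31592357596050997101019520320719117113072728573797267813063109751449837497184671958729243027508066120751452409004763094521605315001470982851545944527836446636094405242519846997826569840961554626915494804803458287431457162418555855187168656607226941378064641830033397656856014706596876402672844197769381593001687363701858162938026043472659502666573251987482016158832534935914527747453620546737816145594180376485163204862422330095506747069626933470055982560545842282060835973331405999513942489823075211830862722277120457835139429410113471520461862724381543145107660048355310333631237935103733736209537032726640124469252120823088674500049177705500867088043167535091819051155029020982966417067184340273207640748254192609570419593334845540223930930187696626075099216848290791254152076459692909435002035623188046293717794072485709019260549377089778220377935679457699726997880705274605334458029533411318506480416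0173119628318373095004110349452203243937611647217790267538729310482332909441198717078249639892370762955664809019439997230379928908040744981356426838725389268923625754915979782415201658629776798190114712877217536838269128760395499854318563799747496665652286954188552860335033041412027746409305056716656353708984736759572283136663401033633115841926294035739756063525797792591924630825062236553739802459670613195581885261853525537838242205423268103468931835138606183440195502536791608617723315869328130590142304088294399262424931907546642711471841643879378046554209455856708682366444450746699394880561533215979943210682666140579587057070982619119988161886437685397784950641762123382454618452976851703745499208800600909428673261036041603522741694935742613716060421632114480081893222643051965677844912450214901261199429186338068129210106662366779445083096991360240446456900252718313061339363270700131649887022783978943475685856504109532139571277088310041593221586741925559708854908992286562882582968492396773366438878588744850325575685378922672187232463085359162223495421975149994006479394257930021028967252752452313626227617339511318655635875443579012812279246058640817593704775680)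

noncomputable def rc1 : Nat := (nat_lit 38277129225309435257505267599997576799642211599700853012295035709019775000355848989321693857228688838707523812974532897492074867345270486859659756493845836165446427092070799299877724122223386465822262218993815163311779916229757869111233016077073381801241534150811805843317342974734801929025822064754661802706303717599765853264414467558546658894242690648708757315575041528519314937616904838473651266096624340760226639432812426757598627543044989724562382636574263923088994360808114781057054469925500599583995275604924644267006702291633462126244770287326622890002781364037419160867481707598949224238412844085234033974038663353717797416860478441016756107539748526162130582685497553132244512595910144125958030642077255873425218986867760172870283937065180307767121030757619306183077302514616309008651102096541348259025705361014444246891726341920932757341366090565421759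85899167064976580760668484361222782920295815971176268000258207001297200902517485137676459617216548845928985195448866475787854161383660367175573527023467742462783650027217563524614787290871287948408706891085484067432268332710983506709299746797364644578155121565948580546886515974139294777753200007878227129627150723143538191464524147629092523711887066900487141571154089684400576489767004380231701887157192559518327927612203291749735859409982192994001681415450535610843479862207536808655007432949586436740462902468761552468118905744866538559684662619316458119677884510235016921284338022806626145243608964897156866784837211622884924257639229056673543506472568636611100546926974516998331880056465558486081139781561978828194505429675252500873018079858654619281432375947317356257780142671669803603228140556547065412258655137951863157142840743127327934783118199983277337941948996995021963723444878656786438227818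23166002784424548294102758162353161119990161047466102882042993707169967294549958495102776194110736140028523054282037862127996781134163186817520137979483521982339763936667936494709285654302157217280185627273162374412787929002771719445807648925114823159865487221533594603672185756275750960293832241839266639622204990702640808898082525058776292358083031701608687777840302208876398414580187187068011799603113062947326195289138420287681211490527532051882487359069906486656448518859868776083742438368694665678691992980521336420408746824190684336488694328382483119354235536649881112136975488543228249884113471629399993076071349560430449585903643514654787033245243116273042604863697200714884401257632802449281307595817111520574328537053758088279824895275117191182038510675741540357180584851410451929047678910579509332210442448189500841934545496116421079728454006057571413427416738355145091972257127624597731025079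62201118742338881947378385658082318886384932170340428106987173039406186845428638210712759617425069482962687445067702114634477253805126359379176254887126513015680075501336355951324582830720838878795454896957998521913253720060177145197528995218296260454028237334514673341310750009527938878739489620601480852404618350147626867622143475056708750083917455062145712244411489355546543831702986965357709349936199434300093658464907254157799585787729433099445472703481135002882517704342872480618089145914696902571123920523856896199528273235802525539312187354124036862161800917635001912289716464277984614315241988347024554770424042560294831744489240810410753071215764422436904683611573664924204626824180759806899744534282033975085196984409259966845043450150521906686931973811281602812509186631579207036676708998519211119917229728533150778297006446038347781629821569785027085900747346486334179283094648175894816162520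9967427109789839285853304525744449811446110599925491054083553837838836321436944586306864027194534030553694151740481488120144369244793853722576868559021402640940847870053109886897390255625250200246219279641175973386611874837920003633873252431198952225528798135366433946811802501964122216442097244526533841096128203712304774231135621235084026575195559433856582609328402401382217752438693550342791627328727398135357303371778865794021340313020725648032390612393984519905998948870320208180900901372198480995224531889918550278115131117835778782348383230647548127399365902308193164475186858454477268024147504066086914933752726802571670955952535838047794116937541502174540177452853015366948223072710168134656895283987801936702952905169686698974395142190799085112394187152848071499224022611558569411610060557742079468190600348379308961377065467711226317788861739218746073951669973497384320508744193728500317363186465522720688170217528064354218770541758207850827029024137156679873936626667733221361705399079299182293556598298337500948642367442078726213002273690406674211475601484149619512419162874804900585694752880339984608785234224756516386540857282904742067143074780845557807113568256)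

noncomputable def rc2 : Nat := (nat_lit 38989615113600430121014868798979580622318912457718262920162279788443515631072163104262311546688563957772612682536445063292894933603014790228254545632375882440613859696436856453199537358456688974709971262791874364744124100892231124020239181714543381056803767011626077341096259556838656900083646270659518202744134305318477151512626822145540772332303795157163297855474371535043261124700787017075065471633970753993762750408392517736983488612195911912842357968191630421928776607340758319472058157215799151822999444826043783273116287728106494752062991584609145572701555035650220451533768785264840317032547204761471447971701615924950368793076609100666003746380836984767961364523419196418652065873376443428792209497771079143010246207265554194681439446292643954482726577656190302438459139731957740427712269847921494470690442490751964841055434593058435974801029703435468892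55274342393477617202767687116233785860764955847691125349641887786402718183484195812096266842888324812170939574457632705982908702182323880525660665000124034044282142828386731459132978711791618977376921365943976677126362222069978663439636907389198257608167452630121111060302106113998886050917838064825559666661070099848930700001975095330661425910291486390020707573748628619774278089917567781681136404511649567621224762575724935511862607899902753285539708430788203663457203361804585008187925472807843018937882732363519995333465061349948322020333611049222407782517302415363010530887564201606019512479123394266282685892000610176200120080517623076490420938137576836070188446254443118175760248155304379642092223385584522079022468544353806506502865660358338121337063780571488897022902610060736383188397505250208396331736821321591272753832217771446301752008244514749032736914675795415498832598989474916157061425953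50086493779815127421024962464043957611307172414530295702537019151630995240138084821762088130195353107774091424499960402077333794099860444528897532287349438062873161145843777664419873604276454748709028973924707312973927644946577097078672249368013122566685421767928986593357014757416262110701822886088399143899157148303985581076876258494570341995417644766032852541367589776778941092758164034195707212414011694035753830779134011966717093688084432488836894882963100698925623051922868365925661899496916649820751146142993225735416968775681921160412960807468319530080577361315088818691080945239410748292550412842054984950343912129745084868637833362996064853367654774436985754404682194800352894860928294330784644731253508416134300677208820422918467250032127452609675531540014507579609376571846452220555053785991551103720507177081888231441686710038644939937501126708389843121363385675069244961454203971744979877990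99673933914826052276333793315521247142045948718904200366861521409507153609907345829883365455978303562083805622697408981145242192419178173769482528245589132254049673922954911828535897098923887443329537344033272933149681613097039777261466845515294235642515662572007838293729669753121263171133769829640202096686055835913805730581795679720126219397239793955371135588139213447132419908853189536298667501174680293048362741414055488428192607629307661785251627686908790355349306371340528965778943090429555869667649031106961887725298956716698947463236388880860867595915399182177847961433861083135089436533079636811611321982206222923185182731193481909913654840153914212336798966217793564574580862707178783531724500118686585010180377764122305217060527053789377998572308680314582078760690470467778169994363117852317194176035831897960140734472799704379619612195014042475210536719246639227507600021764119689883076093601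8930534757897645795783054470374542703537588774623518397034454760920574732455502196393354589743737298314054560684016559880897619168514810235857333585615005177879885352035078745723724819355916255667804467659477904234037435862162845978085668658576979442505806351904028676701009332307464396172459179985056487767859458504727347083174020857672103405277070844271538245829993926646574843837697063460386254590443483566655726434674654157593242868224666854505020141291361665664551332930609005554575414847563600203547226878189152307635743987969700353152857972759283346640506260118824089139992300935530755286125387677157767326419436070363091173192678174582613553173842575087888579173721307125748465611832390564288009473028643061597790805169742049651324274187408753280403991258740852737532365980578257243204116437796025201392156286818776847278069420283729962161447460101401472765180056724878316548706645426399431838429062094297289294450938635647757890091007214183838238780169852323989653756111074917612708722630933501879300447839405359683495578032329711901825609733489814571704169878268751327303686327305499851073270018766565615226945116873700638716983306762798283700387462179059832968970240)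

noncomputable def rc3 : Nat := (nat_lit 39770148701884236815376436381000885873848820227924930984034313381809726593772455101912983767950636593566098584684837258788459816934850185913689645650981495027090615705110092153604053958786924163104825590643768105992418101269294824753899799378471993711117787426023390292956613659380755920109379016465917079936194251496317757187707748149784112589540591390150222641607040975456035234912873855914236973199998203357158888693545267265871726952011192215372045013602381867318406585809923744769851989467657670094736175535851770857587457698624795715275887726400058621255364160685085768703203355139400616563370932467657867313530044201250503804486768319196692803525435836342320341313130703598175808832738327316999980322358724522794144038026500798975756784378139823453754083146485713881687184146627530964548356737277370569557576875344941798470907264322170715865225343362976503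83418296304864425198541945201155511388790955349871728919321295122758162496686018511702941923387266633401662025750166478376896202558957749261035898980102717442128569966828924819799649608086904540241095327094746778771488045573447841716647988730254614635801070106769070213917481638852877237110238627473036175669166808496274862901113809235852076578709425487514958058729388513109110683255624734515848174062793115810045056711292596013628410721965728113011156614735751026199937992442954408050275513217424283865414462923442375256795228505765935661722926687767180708647568855750128663115542082335109579031893660974045693517440883069421475358169727093065042332591327587311336687239519152511496743128142830303852298636231024214422315190534857629952388201639547774211469387347520012195720715515035509598565080283434501153311171167014714995776639098703950570623796873288214116394731539480897627742376827840808439808767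96447898759960700335446324368317893004696457751585859856846436040747848892636225310187368068346376821902975292497265814620128349596345937905636162893300866777354567176723100814599090458250202027160888822670184014617132110664165919037801915277027553005428076932159984933767810883017672536047550797537865288734373341561100953979734506082168796486904100485245768921697773133406155880423216361122972987888785381772330356649535437396141325094942422239516818425261150906314061498815337162754540014561021601324152152245238468232575005897000397823335020319431506357921209071862259786986597517597292330042413398393855394572520987689308451015819637878010048395208753364740349040509231882711031969649549819197504113293945672396605708859224760901273063140397526598815525909315372347203876268508893766522872227160564837291028332589599604527723570135728799950251778307862164097732120096724552388899483994785506664963437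42198776279638717716091130977867137303066523517345649696116896925450176682553470868138514494641201420925457066671864188693787149048447073795341571669549763684151505523876708519296118515334278769005571201561017083747137805529241950746998919744287905989900833964162026012937976777759036552065958573784822953733262790483512362301703452226334324973124963057819284800527292708038573741840227144832217907640416633718813368165539658954453044618907979843616484479157025799508396072856607616668370723091034036066585162991131943725518281270697891157146412203615655330908284704467988748529951340984716753249151224939346455528614768211342295548044409093618182927347907119335417653117949249411680060101033982058554510426760830958658869387935802634801324757754697520859120843053293021817497857597737321694134603853919763232309207288711122342051250417296399211124993877736310747630183225306666837265359912348474931902623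8030185382592811725045419969375678992368436247566051483615519998740686867831434606272628014263902194329127894638569609610081892652094160662562212562069850919855079141225594723416839177707676397612110761021600454887042282686597152356466351657940224369539293631905032229265497974593034566828847045809449305163655614617857564840659854927546132121025408794919530172703978351246117209047387565462950657453591181328737051957969714322731213654460673928006579744206592809352765016658602838336996324839208048079069078027370266105973417117913654523713446196611768466299916356182706215387492395642319845598384873018552051486150153597998773933243456276272321381837473362408449130664855656739592452945114922733148126919319548783265124093268804356624825943385856197174467198454850478203358061607454721119375234902018368577633098344554167617741730522077005632946950605859490965575326255424851814019483754260400535584427311338431150848947332510489389873689207809716860964411530034934418211496932320477562393926914597711577558110097945559843016063701653882451844127994770117291556122416195350880179640545871590385609468894017885333555179718565940431643571425913248574442174331548339338353836032)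

noncomputable def rc4 : Nat := (nat_lit 40614225367236779649661205017480068418439794396449051785570901790531726301603607838483276657089390411269664272645413661364131607572245466898316492407667089111282885111709498778534272755748061172729160633000563471098816000852855583600168944163852110033211707119166436443737971411002496704974642634306296828825733154320782470882910558627348874092651757528910647139888381541187355650525951539956799014161501765125670239343535310959369343054046335581526718369204016559635595874543336335349852432554428806361743521772036823381728610065985316036068976285362480957924301217138489910674313524119316553057449017018941102434814983678824865282568969299875431701773082052132701061091168083110193951459167028019364085055895929657293303328555313765665952618041543920534888593437375859476305585143984559515545146359129690768597782079959705984826948271272112386213445904803966891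71750372971555836726158730621032137476486746720947711794276978058836770815538039126884535238098950254659700808105806999428156100914340132742900192982062599327238765935150230472335082988075751404519522651470146311189045012974919774663953225467676198751852835612645593394252420219207831243347166285597857939305892866147795629861051897524182053145020983705916569261663945078388374438468819466083716195401536928233802341777515294798298324045697156859688113751357907934065830434417160769503557895883806375215634017304747610165679185745365720371016670422854940385926488322762108493926499881299607702339654422755419147398312298932638371815656313664756488198225980037061439825216194224967206755254575274688593140780729213923925166344656099638484464697458863157698562980557414140026520652973142184800834859160990583349060003437654069914351111937132027660376243435911476517396468701490507577465118615446556899434890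29557982564761658832305054450229970384548056423834113335598465168198834821803689594025600191086937419831665752835026563183894008855661260002269876694179907821264982224514865155356387535270994266498192916399871274562614758661657924760406512400332510261951443132384295730695501914476137192100951142148495914109555209012081177606412668956924461736034112811635870525243097046782081588566944388276038187310637524454164279123870460163416394087944471516837761530756091029671076242665411768752108132940156317501301136795565829957370037472694603308818761233344242067346688519394163312659953684828261269516146432825443974409167349093955206437355551287318577473033024674547244029695133234260318331136046841458532980518462178232919813785799057109622860517855243013302797497228820021533004074443902949881634838544241321616427805162309950397339342487301146362143958810707311327636332762570903966581281155892986933967863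66304014303100197387837930220381249479585395017934877218444106511597166166382682098026907145207164259034779438305193536926214195132558523877789989761887364500656372883928505957055777175327951577924581767639242074566660094764690933073577595617259122485718855234937634965801806456135418778242331504775089240289330629055151387750980538377145275459614008577894421202564310432586702017771157973578075126815230459811546670548118113078812303365245173264912743191544416786838168967629578043871100417684414212532956245796387774584327618489922894780773309278794683042740013801496208471292666533699631133102102099417506686986342653068704198455883680543888402532452154317607729230826143885499756504234452739582325166638693346018035741336628375205203597159359873828044862193455353637431710109007723360614200565209487001625338254928397304153897197462584746478092770754089623566017550207431157931193038417990900640228989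4936806170399407984517065952877053228348077245387746932975710610720428269333595310845213214012109715572829683324603977512857351629534509313260340436234188757461000350467884513551574098297610763740771366498771529921313374389674591259527978676154842010097806966081789681369084434400516218536266352394448528326648021128718023983484303363710395337704813786990058515841299169751066135086551628468753431270437449929186528119518148774156152785072558812512421895332889262831422224658333709682811912538950720746091678953174796077624447999783420874192820756059267853745196806524765850915802929666323648079870507660143852447908270841965094971230588920810552484738422316308267595493114640627712941323453130025781422838251917562595569021665537856293191069804028944789682365117297572427089278233959312805616217569859528885267469861669093076196817881120025224574248068066074165315368205998133118505506507029996080529010879717058583323110032238932943561531350800023834262360868839820447635540215449848031652319792533011221369480392840988150599346673639585735068226866719084433059776251433780963790687864192233912645116635392481465893300165701518453588871588871040368424271700101987724179800064)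

noncomputable def rc5 : Nat := (nat_lit 41516026792070234848437493119063698648543149449401826582615829313316699126941066003252815815990296260272955711518284198672425796148282858712482575407701665421838056009654560504946791489044132155764583197205015727603282064354514153917996836704967309819707791174060607428883452438442814614868062676702293838417024418218062764127048898608308741864833891466306214255564368643770556098626673180875628023747154446518004155595703850951580822397722616584708611299082775248874380458524087917574954629923875074503764941681019732746808278201770482888107423345413556153349900656773102053838260028739931231757823985672688757012757951331187547336558080788693273610037575099187067322112036399388940232873474605326951786791303483069984576929997689682901503724568220519406594578485118322906460407108905383422357772422561891264972260824052865280985322215292314206432209224907513430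22283963767507551568240656418419448658263080362170069274148672223324487706783579749611457487133547843274116799081291472576847094363109039541925521060179415453708443526351975319237238966401817517359847519142545063743163243630760424074888847499065880748894103248258589836562290086341521689362198200889492550791605395256654829279141033628185348084405698980150002830718216726335627101545107243451739342877837385875386687370124319485004188394256646871167865940217176519017233094547644118692092924552344793123350804465470277070518901275406203036179440719285684456417969269487034292967313782395633861289716968186927799795951265353745117095191073535430298172617840463875022178003175659878316787134763403369374702269207252827513876042019227940334188890704305289713614968779822120067577184509374994013329465597659702779265619515696904108176703905384128304995039932373335428036932098786452253617552818819101563841204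25598175084512513474699457332891589464016016500473974236822560997481196098716981049445304310564683825348941246307237044179739470643949890818433092699247202957816182726118496360194598735734504561010280249497932043742211910950086249279933688762459418501733439477838548027141237323296551061957860121652336281176027143557432266832395531402468172336311851670912593256832477915503008537984476526068189301751083963330273897260586075932728632528382987015981675203879317289421128322345945597314219193620119952661465181644331555219283889026359539074377301733527485339768266052277979685005934453743929978036675308187845449148672050881625918940099244240688149521625089956270371004616088777633778808275914474716839454320388039587309994481355390276527742349240134936291715909633200550102291160931081473741505420079208335425448348266879562840618583404447093911014343473998085812866524114617775859503646336933994011076120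48428947798906892145822748914311953468651196014854178037305395865275036543091228316633582658603066854678155866693505702118366043944331377415859391589390523516462537680882238790748516821094435584913647981928771952166632583076378608265257945365961186339587672681347998237169972898558043609972060173803150242046746226083111850786613496165268320666604554020116936879025445117700596120846620969438882466073787692401121349106643975715421802825940227413980978416864669673086613875446416816182297888834688530506342095807206508720572735766515914766141692223438368892916535244847286068616062211507263872063875001615446302035045319049151296671511218589860631051118568828512631534681315254402763431059773000747253949933684381345169479997053783172045659306566187470951030264763809197811359001982051140259125753165036367702915434550416786745845653731859587159074984131081213529836307314126859613896356194696127142565384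2022808482555988905732621314323629278727690431854905507395373966787856396873286606168527705299070508851406023349384728898455870161477284219331570425656309483609929083880159888555797847550143065472508078714284799071652263924314457953789290744217488577449170106122501299561309837165493126894645379361643804180801057940452266880556207419980158092722016258934811173756831745234824748653328722434267099283446649700417935228210426276986184768388545435230416033112637587773677727524962708855156293923682285418987999603541464927891081216478425794887018466500094119592887798304423975412841404532677395598596339796230309065095742844940306281288407721575373056024661557564477146545316844041062100668917165043804204714510404457079572837699079557560885158354284374401781200435312274472027956203698947157934747718731527377978074441917713690276029570329886633592887310575003698584259133986631083838566391423001458968807088289207592746999592664241995263236085569568082166310324705983676958863324634929436450665559758757682030762245060598133270158269368898283454479736618587411321305004493688430061075200504523418959622234878976117667943286040441954522493788508181676932057725569698748749053952)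

noncomputable def rc6 : Nat := (nat_lit 42469254732117309398973443615584405415006387709919007789516532058651046359274851506755741969074463991732613472806109527491150051442223843194811198723485590786228004089710322528728326678358934682113389140314594454895770414064446708204640691756726170377176153600806945569740703679386225447478117401460601956799498358785138571406989307131919853778730347825710325682333689707229977305227470142229638410958675021955306228995680698942825857533040629732569807673414124391684357866583122490581447449096865782489162301983253168139087756027529066408129891258863685963244020875119257542874361031358791397141304648403597115256782478508250812838693040448692971885492708473788057008144830029276295024313527834548864248300381287377661678843276029014527738109971142267380011397186937529633293565220025033239819984442848126111149554122806009158113455770354386471507541947026401229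43295941682933054362696358019981147504450416388716200998808793874112867546172874705171615739779664368937149715836794251792744812012823202628528471445966141875651186006926957286816589116947959255642494205616573088819873890703382379642655708838963098097694434699074268319621327030335579526289022849847018461333101116632975553038499459057494685360538358506054488950767923984382125141185990974331525909331197247147833444509476005088621924255750092325775515976048691479066621631048044833541757889750600766590762539775257472201934214099310328447855804022402105106219377726077579926117801093970334775787133277484130135695997319573765892490543674733255859304563715147505428473588303595047838511834778308868502083614765945549083460064000424329272996685989977824896379096210164753008832202501180423763443831635623952574678718457826922646731461888337173935841904581873418594173538341744996349471306513461310687247928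77010226065955817938154947335130101492852823418551656920456747505251118963894049133314115530707611014048118866116959730075359028318864255535599112819732685961853633834639645407012003360425101554262408208284332192621999047724560199940660427875376262862103723163785352767665914892737949978646286939958577896203854873613406595820889520151407627470598049083497040192428651322641937456646620534167491125108099769273233589754782778519156218844654679488092308844486416729117177759435354513002873478634874563403869294402936377356745310285681235282573089094504165612189256538926349825798761361046496872585466717677986463719956994319112010074360736174502433067031902357395643809544771663618262422123135354418932929167631179953701464002490395343370518078628104335939596307935972966164774292791074036667135994865155355446089263148877313453324054145408520995708885551765747811340343889379686516744366404335011498181969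32512202274053655996038083151251804826745118786094962571550246394785287399142214053461220221875800234618231168131909078895477482241250066655982922561750830702179738102971331202939141155812467220991651689713704218118022678875200147088031785571193948382046231684698633513315630397828267780901191269612844883055324875951094921578439231035445908929699485329030711079557386394994170093683632348038268665274473552328272159169396397214816202058030425348360579621906810690524665665795370217048657609118424487301075080116964225083606653871087988151745021167534017338262632742560597712172590948415288765911024391649290570582623343771649000911128458785638298069200063155209218666850970489548343179265978241258172539366552130132729234315870739106658022277694507672508388989070635229396674526294182661938868328417447465084903258785368046596918759788649241022753411336086325030358144161142996341163142594123859584535346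1714017934219551032205173430065417217157205971984667138662232629245866885962531364836110026157130976067817310114224052901025527663754817643012394412136212456052455896947325190984558753998913693067371106086690027456629622465109507290697182296299677818357933987114403315451238806676449237724365119647988448355731111175154903261969373707393349153414646974530824648755690268127860567619307267717859527153374183290224946143774737464677435995047042565798017248133063490165375281561708462250840136010967887669584363719723387999744047875998049940934148111194378433734817650069004657818155137181104776475087029676708185390274413289473055254399948024053010813752444200096141655403655091267749671836997787487262176083649740038975497967119122111308783992955855302155060229067441968053750655253193069931751120064019722620918733240851821664705104959926350294630449643470318562947944814665162151618355862750294801267297143413396179808580873182847570694629575601421665038119984404702864537689147752663627184970782715153795965742959095785104018294612224101818548079939695566568904798199682572982075193231230200519946375202601002753718668698862692698279341962058261976078167511326154721939423232)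

noncomputable def rc7 : Nat := (nat_lit 42963071385678164587520105082393979204280349541871397109286921882173280018323301863021666158436943816784887681318239220252292970838399055255730468485604149319116114956124428667084201905843859700872562381627435034285323536160449890337130491471231274734483257407894231203872346718487328315432995135231245412834622279753522936945936278694158736636589964221223806339713722654230984721671549545228448669059636560695034879899370265562016649421574634817137594531897253286044994372291357061177117271584193959507741674272878632081090614128225417372045412156473208320947041599266870489201986523859725437962678916702228903779432624799644071381800522731967166349456097885222442912934960307621348947519566903684459763837535859274336266282464045665842430202106297868146356625755967541498982714249089018344368026565444534543574741608566837655504087504410773127543855083981178295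99191534595701128676694772999151185371152048669208975381744663461171378406296513534453716488399438490461844300342942984945331804893380153103534602703505117256335072048938507794630714032089003803897814881197330983798477340932020267584328210885025564388503339944575110883183029014222034220656917597090321301491350017590392713001600559268832365534157757677859370719434606208453665667183806040403041196918153218356003375793181327380315725985104385222927144017577983070053790339413685435638078610778657186388844669486490639837903516541837572281478942580793206448675886597836289597324472559295918627297496446094283156143054741743018948848449716154794647836022965756013187197617001948786597617967005396425740747883121704787017103284980564297086817701241629606035039633538303055765345720121338900253753278607009380789369040399588164943093452955327782461110992252843926146652359593022611648752811154805899821121269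79182569128310091851012462686056340559184650318185990748188575096122991155785229109281287103167651591362365557711975447319377328914696459679319993201398715195236904143367791531450673064169111120433619147994900288949156127776574926259345405257665187090798045006769945370521104018700957869851602349228790906295469469659131812515279045160150747042341921398034709297793640299895935064464341285299793175369360558387106097482806747379089571130150091899669318355121850920517864357854850069528328092138314546971394600123249327436065499838202683582002993035947988051650278860743476332967261666141200894722064863502523372162560048803184191037762319781264457659074872289996587581530744373736262875749533690217432469946869037709144299227769204727806358828729984420427928699227285700964472499200560099348599455130637307296776242417743424464403407845692019119478982342094899070966735715609891209474677575122218270206786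97721174379513369642567077598170295697709250286426357930705151163486678196028496895269049198210700547195574730881524922963605118504518379525028275207682090125394594667567620824691265033603282015593320873790813377388541990477064435978753883846364218478100737927976053012586782125216993288986022552816550865264008975584747568116413413095845182062676029116117482197276340143752712351221666719013793917593533972851022055554767316137203123962920084481041713076974502364313884755911791480309840712968501020159317841370524985123103617226825092325920186050356921245277670285895822715575013877027680767674544235735323405182748301609382088044432721615851857201965584229518603851582795499524038925281066066777153980583733322819734129939903941004598810168202288270538748521306370911560702103599562088329502390567861718908364791381618884023387336109877942592669481840091288517436927034654556238526786136475119512004289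6499599660442064019599076616143561915815514285721884510374379683993452726118316526761293402339597295457837474372601977148678826335062113333907617906431802474197664473842435312116276783481451499212284643053879386493667443600679800876724774651130829788417121039449483821434836661024281090069460545336664173932100831932506393915338931242920426841876051214432017178199298979250535925617865280544403569367960008617663231296131460405187622115134003009691391068967277386958890040746277712222124884660358677014446283768065928789880742974596407953492482116712335180485549016445477431175216534387450181755033007333490502228007008647751636691123278994691613093644492270868673371643993937517868118111737779996373011729239447418097291071361372104877567830655511179307368376540890358255590047124203375301198168458670713855386760457145904590775097494783909348414948118644940500276011565871711450596089625967256474385875146468395823750591772386528063215079268258322986803358981051969473608337381043397045067447020116699076495391668644068330268971681326313781057847131330800825064284804615152747834339231020325934817296835570221654400816603371008299010697661990368295126351562084147762477137920)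

end Vale.Agent.Lib.P154.PChain.BC.S4
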