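import Vale.Agent.Lib.P154.PChain.BC.R4_0

set_option linter.all false

namespace Vale.Agent.Lib.P154.PChain.BC.S5

open Vale.Agent.Lib.P154.Chain

noncomputable def pc0 : PT := (PT.nd (nat_lit 8390304) (PT.nd (nat_lit 8202948) (PT.nd (nat_lit 8077992) (PT.nd (nat_lit 7828314) (PT.nd (nat_lit 7828236) (PT.nd (nat_lit 7765836) PT.nil (PT.lf (nat_lit 76) (nat_lit 3) (nat_lit 1) (nat_lit 1) (nat_lit 238) (nat_lit 124) (nat_lit 238))) (PT.lf (nat_lit 152) (nat_lit 6) (nat_lit 2) (nat_lit 3) (nat_lit 237) (nat_lit 125) (nat_lit 238))) (PT.nd (nat_lit 187278) (PT.lf (nat_lit 152) (nat_lit 6) (nat_lit 2) (nat_lit 1) (nat_lit 238) (nat_lit 125) (nat_lit 237)) (PT.lf (nat_lit 532) (nat_lit 3) (nat_lit 7) (nat_lit 1) (nat_lit 236) (nat_lit 128) (nat_lit 236)))) (PT.nd (nat_lit 62478) (PT.nd (nat_lit 78) (PT.lf (nat_lit 608) (nat_lit 6) (nat_lit 8) (nat_lit 3) (nat_lit 235) (nat_lit 129) (nat_lit 236)) (PT.lf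 (nat_lit 608) (nat_lit 6) (nat_lit 8) (nat_lit 1) (nat_lit 236) (nat_lit 129) (nat_lit 235))) (PT.nd (nat_lit 62400) (PT.lf (nat_lit 760) (nat_lit 3) (nat_lit 10) (nat_lit 1) (nat_lit 235) (nat_lit 130) (nat_lit 235)) (PT.lf (nat_lit 836) (nat_lit 6) (nat_lit 11) (nat_lit 3) (nat_lit 234) (nat_lit 131) (nat_lit 235))))) (PT.nd (nat_lit 124800) (PT.nd (nat_lit 62400) (PT.nd (nat_lit 62322) (PT.lf (nat_lit 836) (nat_lit 6) (nat_lit 11) (nat_lit 1) (nat_lit 235) (nat_lit 131) (nat_lit 234)) (PT.lf (nat_lit 912) (nat_lit 6) (nat_lit 12) (nat_lit 3) (nat_lit 233) (nat_lit 132) (nat_lit 235))) (PT.nd (nat_lit 78) (PT.lf (nat_lit 988) (nat_lit 3) (nat_lit 13) (nat_lit 1) (nat_lit 234) (nat_lit 132) (nat_lit 234)) (PT.lf (nat_lit 912) (nat_lit 6) (nat_lit 12) (nat_lit 1) (nat_lit 235) (nat_lit 132) (nat_lit 233)))) (PT.nd (nat_lit 62400) (PT.nd (nat_lit 78) (PT.lf (nat_lit 1064) (nat_lit 6) (nat_lit 14)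 (nat_lit 3) (nat_lit 233) (nat_lit 133) (nat_lit 234)) (PT.lf (nat_lit 1064) (nat_lit 6) (nat_lit 14) (nat_lit 1) (nat_lit 234) (nat_lit 133) (nat_lit 233))) (PT.nd (nat_lit 78) (PT.lf (nat_lit 1140) (nat_lit 6) (nat_lit 15) (nat_lit 3) (nat_lit 232) (nat_lit 134) (nat_lit 234)) (PT.lf (nat_lit 1216) (nat_lit 3) (nat_lit 16) (nat_lit 1) (nat_lit 233) (nat_lit 134) (nat_lit 233)))))) (PT.nd (nat_lit 249600) (PT.nd (nat_lit 124800) (PT.nd (nat_lit 62400) (PT.nd (nat_lit 62322) (PT.lf (nat_lit 1140) (nat_lit 6) (nat_lit 15) (nat_lit 1) (nat_lit 234) (nat_lit 134) (nat_lit 232)) (PT.lf (nat_lit 1292) (nat_lit 6) (nat_lit 17) (nat_lit 3) (nat_lit 232) (nat_lit 135) (nat_lit 233))) (PT.nd (nat_lit 62322) (PT.lf (nat_lit 1292) (nat_lit 6) (nat_lit 17) (nat_lit 1) (nat_lit 233) (nat_lit 135) (nat_lit 232)) (PT.lf (nat_lit 1368) (nat_lit 6) (nat_lit 18) (nat_lit 3) (nat_lit 231) (nat_lit 136) (nat_lit 233))))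 (PT.nd (nat_lit 62400) (PT.nd (nat_lit 78) (PT.lf (nat_lit 1444) (nat_lit 3) (nat_lit 19) (nat_lit 1) (nat_lit 232) (nat_lit 136) (nat_lit 232)) (PT.lf (nat_lit 1368) (nat_lit 6) (nat_lit 18) (nat_lit 1) (nat_lit 233) (nat_lit 136) (nat_lit 231))) (PT.nd (nat_lit 78) (PT.lf (nat_lit 1520) (nat_lit 6) (nat_lit 20) (nat_lit 3) (nat_lit 231) (nat_lit 137) (nat_lit 232)) (PT.lf (nat_lit 1520) (nat_lit 6) (nat_lit 20) (nat_lit 1) (nat_lit 232) (nat_lit 137) (nat_lit 231))))) (PT.nd (nat_lit 62556) (PT.nd (nat_lit 156) (PT.nd (nat_lit 78) (PT.lf (nat_lit 1596) (nat_lit 6) (nat_lit 21) (nat_lit 3) (nat_lit 230) (nat_lit 138) (nat_lit 232)) (PT.lf (nat_lit 1672) (nat_lit 3) (nat_lit 22) (nat_lit 1) (nat_lit 231) (nat_lit 138) (nat_lit 231))) (PT.nd (nat_lit 62322) (PT.lf (nat_lit 1596) (nat_lit 6) (nat_lit 21) (nat_lit 1) (nat_lit 232) (nat_lit 138) (nat_lit 230)) (PT.lf (nat_lit 1748) (nat_lit 6) (nat_lit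 23) (nat_lit 3) (nat_lit 230) (nat_lit 139) (nat_lit 231)))) (PT.nd (nat_lit 62400) (PT.nd (nat_lit 62322) (PT.lf (nat_lit 1748) (nat_lit 6) (nat_lit 23) (nat_lit 1) (nat_lit 231) (nat_lit 139) (nat_lit 230)) (PT.lf (nat_lit 1824) (nat_lit 6) (nat_lit 24) (nat_lit 3) (nat_lit 229) (nat_lit 140) (nat_lit 231))) (PT.nd (nat_lit 78) (PT.lf (nat_lit 1900) (nat_lit 3) (nat_lit 25) (nat_lit 1) (nat_lit 230) (nat_lit 140) (nat_lit 230)) (PT.nd (nat_lit 62322) (PT.lf (nat_lit 1824) (nat_lit 6) (nat_lit 24) (nat_lit 1) (nat_lit 231) (nat_lit 140) (nat_lit 229)) (PT.lf (nat_lit 1976) (nat_lit 6) (nat_lit 26) (nat_lit 3) (nat_lit 229) (nat_lit 141) (nat_lit 230))))))))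
noncomputable def pc1 : PT := (PT.nd (nat_lit 437034) (PT.nd (nat_lit 187356) (PT.nd (nat_lit 124800) (PT.nd (nat_lit 62400) (PT.nd (nat_lit 62322) (PT.lf (nat_lit 1976) (nat_lit 6) (nat_lit 26) (nat_lit 1) (nat_lit 230) (nat_lit 141) (nat_lit 229)) (PT.lf (nat_lit 2052) (nat_lit 6) (nat_lit 27) (nat_lit 3) (nat_lit 228) (nat_lit 142) (nat_lit 230))) (PT.nd (nat_lit 78) (PT.lf (nat_lit 2128) (nat_lit 3) (nat_lit 28) (nat_lit 1) (nat_lit 229) (nat_lit 142) (nat_lit 229)) (PT.lf (nat_lit 2052) (nat_lit 6) (nat_lit 27) (nat_lit 1) (nat_lit 230) (nat_lit 142) (nat_lit 228)))) (PT.nd (nat_lit 62400) (PT.nd (nat_lit 78) (PT.lf (nat_lit 2204) (nat_lit 6) (nat_lit 29) (nat_lit 3) (nat_lit 228) (nat_lit 143) (nat_lit 229)) (PT.lf (nat_lit 2204) (nat_lit 6) (nat_lit 29) (nat_lit 1) (nat_lit 229) (nat_lit 143) (nat_lit 228))) (PT.nd (nat_lit 78) (PT.lf (nat_lit 2280) (nat_lit 6) (nat_lit 30) (nat_lit 3) (nat_lit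 227) (nat_lit 144) (nat_lit 229)) (PT.lf (nat_lit 2356) (nat_lit 3) (nat_lit 31) (nat_lit 1) (nat_lit 228) (nat_lit 144) (nat_lit 228))))) (PT.nd (nat_lit 124800) (PT.nd (nat_lit 62400) (PT.nd (nat_lit 62322) (PT.lf (nat_lit 2280) (nat_lit 6) (nat_lit 30) (nat_lit 1) (nat_lit 229) (nat_lit 144) (nat_lit 227)) (PT.lf (nat_lit 2432) (nat_lit 6) (nat_lit 32) (nat_lit 3) (nat_lit 227) (nat_lit 145) (nat_lit 228))) (PT.nd (nat_lit 62322) (PT.lf (nat_lit 2432) (nat_lit 6) (nat_lit 32) (nat_lit 1) (nat_lit 228) (nat_lit 145) (nat_lit 227)) (PT.lf (nat_lit 2508) (nat_lit 6) (nat_lit 33) (nat_lit 3) (nat_lit 226) (nat_lit 146) (nat_lit 228)))) (PT.nd (nat_lit 62400) (PT.nd (nat_lit 78) (PT.lf (nat_lit 2584) (nat_lit 3) (nat_lit 34) (nat_lit 1) (nat_lit 227) (nat_lit 146) (nat_lit 227)) (PT.lf (nat_lit 2508) (nat_lit 6) (nat_lit 33) (nat_lit 1) (nat_lit 228) (nat_lit 146) (nat_lit 226))) (PT.nd (nat_lit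 78) (PT.lf (nat_lit 2660) (nat_lit 6) (nat_lit 35) (nat_lit 3) (nat_lit 226) (nat_lit 147) (nat_lit 227)) (PT.nd (nat_lit 62322) (PT.lf (nat_lit 2660) (nat_lit 6) (nat_lit 35) (nat_lit 1) (nat_lit 227) (nat_lit 147) (nat_lit 226)) (PT.lf (nat_lit 2736) (nat_lit 6) (nat_lit 36) (nat_lit 3) (nat_lit 225) (nat_lit 148) (nat_lit 227))))))) (PT.nd (nat_lit 187356) (PT.nd (nat_lit 124800) (PT.nd (nat_lit 62400) (PT.nd (nat_lit 78) (PT.lf (nat_lit 2812) (nat_lit 3) (nat_lit 37) (nat_lit 1) (nat_lit 226) (nat_lit 148) (nat_lit 226)) (PT.lf (nat_lit 2736) (nat_lit 6) (nat_lit 36) (nat_lit 1) (nat_lit 227) (nat_lit 148) (nat_lit 225))) (PT.nd (nat_lit 78) (PT.lf (nat_lit 2888) (nat_lit 6) (nat_lit 38) (nat_lit 3) (nat_lit 225) (nat_lit 149) (nat_lit 226)) (PT.lf (nat_lit 2888) (nat_lit 6) (nat_lit 38) (nat_lit 1) (nat_lit 226) (nat_lit 149) (nat_lit 225)))) (PT.nd (nat_lit 156) (PT.nd (nat_lit 78) (PT.lf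 (nat_lit 2964) (nat_lit 6) (nat_lit 39) (nat_lit 3) (nat_lit 224) (nat_lit 150) (nat_lit 226)) (PT.lf (nat_lit 3040) (nat_lit 3) (nat_lit 40) (nat_lit 1) (nat_lit 225) (nat_lit 150) (nat_lit 225))) (PT.nd (nat_lit 62322) (PT.lf (nat_lit 2964) (nat_lit 6) (nat_lit 39) (nat_lit 1) (nat_lit 226) (nat_lit 150) (nat_lit 224)) (PT.lf (nat_lit 3116) (nat_lit 6) (nat_lit 41) (nat_lit 3) (nat_lit 224) (nat_lit 151) (nat_lit 225))))) (PT.nd (nat_lit 124800) (PT.nd (nat_lit 62400) (PT.nd (nat_lit 62322) (PT.lf (nat_lit 3116) (nat_lit 6) (nat_lit 41) (nat_lit 1) (nat_lit 225) (nat_lit 151) (nat_lit 224)) (PT.lf (nat_lit 3192) (nat_lit 6) (nat_lit 42) (nat_lit 3) (nat_lit 223) (nat_lit 152) (nat_lit 225))) (PT.nd (nat_lit 78) (PT.lf (nat_lit 3268) (nat_lit 3) (nat_lit 43) (nat_lit 1) (nat_lit 224) (nat_lit 152) (nat_lit 224)) (PT.lf (nat_lit 3192) (nat_lit 6) (nat_lit 42) (nat_lit 1) (nat_lit 225) (nat_lit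 152) (nat_lit 223)))) (PT.nd (nat_lit 62400) (PT.nd (nat_lit 78) (PT.lf (nat_lit 3344) (nat_lit 6) (nat_lit 44) (nat_lit 3) (nat_lit 223) (nat_lit 153) (nat_lit 224)) (PT.lf (nat_lit 3344) (nat_lit 6) (nat_lit 44) (nat_lit 1) (nat_lit 224) (nat_lit 153) (nat_lit 223))) (PT.nd (nat_lit 78) (PT.lf (nat_lit 3420) (nat_lit 6) (nat_lit 45) (nat_lit 3) (nat_lit 222) (nat_lit 154) (nat_lit 224)) (PT.nd (nat_lit 78) (PT.lf (nat_lit 3496) (nat_lit 3) (nat_lit 46) (nat_lit 1) (nat_lit 223) (nat_lit 154) (nat_lit 223)) (PT.lf (nat_lit 3420) (nat_lit 6) (nat_lit 45) (nat_lit 1) (nat_lit 224) (nat_lit 154) (nat_lit 222))))))))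
noncomputable def pc2 : PT := (PT.nd (nat_lit 374712) (PT.nd (nat_lit 187356) (PT.nd (nat_lit 62556) (PT.nd (nat_lit 62400) (PT.nd (nat_lit 78) (PT.lf (nat_lit 3572) (nat_lit 6) (nat_lit 47) (nat_lit 3) (nat_lit 222) (nat_lit 155) (nat_lit 223)) (PT.lf (nat_lit 3572) (nat_lit 6) (nat_lit 47) (nat_lit 1) (nat_lit 223) (nat_lit 155) (nat_lit 222))) (PT.nd (nat_lit 78) (PT.lf (nat_lit 3648) (nat_lit 6) (nat_lit 48) (nat_lit 3) (nat_lit 221) (nat_lit 156) (nat_lit 223)) (PT.lf (nat_lit 3724) (nat_lit 3) (nat_lit 49) (nat_lit 1) (nat_lit 222) (nat_lit 156) (nat_lit 222)))) (PT.nd (nat_lit 62400) (PT.nd (nat_lit 62322) (PT.lf (nat_lit 3648) (nat_lit 6) (nat_lit 48) (nat_lit 1) (nat_lit 223) (nat_lit 156) (nat_lit 221)) (PT.lf (nat_lit 3800) (nat_lit 6) (nat_lit 50) (nat_lit 3) (nat_lit 221) (nat_lit 157) (nat_lit 222))) (PT.nd (nat_lit 62322) (PT.lf (nat_lit 3800) (nat_lit 6) (nat_lit 50) (nat_lit 1)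 (nat_lit 222) (nat_lit 157) (nat_lit 221)) (PT.lf (nat_lit 3876) (nat_lit 6) (nat_lit 51) (nat_lit 3) (nat_lit 220) (nat_lit 158) (nat_lit 222))))) (PT.nd (nat_lit 124800) (PT.nd (nat_lit 62400) (PT.nd (nat_lit 78) (PT.lf (nat_lit 3952) (nat_lit 3) (nat_lit 52) (nat_lit 1) (nat_lit 221) (nat_lit 158) (nat_lit 221)) (PT.lf (nat_lit 3876) (nat_lit 6) (nat_lit 51) (nat_lit 1) (nat_lit 222) (nat_lit 158) (nat_lit 220))) (PT.nd (nat_lit 78) (PT.lf (nat_lit 4028) (nat_lit 6) (nat_lit 53) (nat_lit 3) (nat_lit 220) (nat_lit 159) (nat_lit 221)) (PT.lf (nat_lit 4028) (nat_lit 6) (nat_lit 53) (nat_lit 1) (nat_lit 221) (nat_lit 159) (nat_lit 220)))) (PT.nd (nat_lit 156) (PT.nd (nat_lit 78) (PT.lf (nat_lit 4104) (nat_lit 6) (nat_lit 54) (nat_lit 3) (nat_lit 219) (nat_lit 160) (nat_lit 221)) (PT.lf (nat_lit 4180) (nat_lit 3) (nat_lit 55) (nat_lit 1) (nat_lit 220) (nat_lit 160) (nat_lit 220))) (PT.nd (nat_lit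 62244) (PT.lf (nat_lit 4104) (nat_lit 6) (nat_lit 54) (nat_lit 1) (nat_lit 221) (nat_lit 160) (nat_lit 219)) (PT.nd (nat_lit 78) (PT.lf (nat_lit 4256) (nat_lit 6) (nat_lit 56) (nat_lit 3) (nat_lit 218) (nat_lit 161) (nat_lit 221)) (PT.lf (nat_lit 4332) (nat_lit 6) (nat_lit 57) (nat_lit 3) (nat_lit 219) (nat_lit 161) (nat_lit 220))))))) (PT.nd (nat_lit 124956) (PT.nd (nat_lit 62478) (PT.nd (nat_lit 62322) (PT.nd (nat_lit 78) (PT.lf (nat_lit 4332) (nat_lit 6) (nat_lit 57) (nat_lit 1) (nat_lit 220) (nat_lit 161) (nat_lit 219)) (PT.lf (nat_lit 4256) (nat_lit 6) (nat_lit 56) (nat_lit 1) (nat_lit 221) (nat_lit 161) (nat_lit 218))) (PT.nd (nat_lit 78) (PT.lf (nat_lit 4408) (nat_lit 6) (nat_lit 58) (nat_lit 3) (nat_lit 218) (nat_lit 162) (nat_lit 220)) (PT.lf (nat_lit 4484) (nat_lit 3) (nat_lit 59) (nat_lit 1) (nat_lit 219) (nat_lit 162) (nat_lit 219)))) (PT.nd (nat_lit 62322) (PT.nd (nat_lit 62244) (PT.lf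 (nat_lit 4408) (nat_lit 6) (nat_lit 58) (nat_lit 1) (nat_lit 220) (nat_lit 162) (nat_lit 218)) (PT.lf (nat_lit 4560) (nat_lit 6) (nat_lit 60) (nat_lit 3) (nat_lit 217) (nat_lit 163) (nat_lit 220))) (PT.nd (nat_lit 78) (PT.lf (nat_lit 4636) (nat_lit 6) (nat_lit 61) (nat_lit 3) (nat_lit 218) (nat_lit 163) (nat_lit 219)) (PT.lf (nat_lit 4636) (nat_lit 6) (nat_lit 61) (nat_lit 1) (nat_lit 219) (nat_lit 163) (nat_lit 218))))) (PT.nd (nat_lit 124644) (PT.nd (nat_lit 62322) (PT.nd (nat_lit 62244) (PT.lf (nat_lit 4560) (nat_lit 6) (nat_lit 60) (nat_lit 1) (nat_lit 220) (nat_lit 163) (nat_lit 217)) (PT.lf (nat_lit 4712) (nat_lit 6) (nat_lit 62) (nat_lit 3) (nat_lit 217) (nat_lit 164) (nat_lit 219))) (PT.nd (nat_lit 78) (PT.lf (nat_lit 4788) (nat_lit 3) (nat_lit 63) (nat_lit 1) (nat_lit 218) (nat_lit 164) (nat_lit 218)) (PT.lf (nat_lit 4712) (nat_lit 6) (nat_lit 62) (nat_lit 1) (nat_lit 219) (nat_lit 164)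 (nat_lit 217)))) (PT.nd (nat_lit 156) (PT.nd (nat_lit 78) (PT.lf (nat_lit 4864) (nat_lit 6) (nat_lit 64) (nat_lit 3) (nat_lit 216) (nat_lit 165) (nat_lit 219)) (PT.lf (nat_lit 4940) (nat_lit 6) (nat_lit 65) (nat_lit 3) (nat_lit 217) (nat_lit 165) (nat_lit 218))) (PT.nd (nat_lit 78) (PT.lf (nat_lit 4940) (nat_lit 6) (nat_lit 65) (nat_lit 1) (nat_lit 218) (nat_lit 165) (nat_lit 217)) (PT.nd (nat_lit 62244) (PT.lf (nat_lit 4864) (nat_lit 6) (nat_lit 64) (nat_lit 1) (nat_lit 219) (nat_lit 165) (nat_lit 216)) (PT.lf (nat_lit 5016) (nat_lit 6) (nat_lit 66) (nat_lit 3) (nat_lit 216) (nat_lit 166) (nat_lit 218))))))))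
noncomputable def pc3 : PT := (PT.nd (nat_lit 249912) (PT.nd (nat_lit 124956) (PT.nd (nat_lit 62478) (PT.nd (nat_lit 62322) (PT.nd (nat_lit 78) (PT.lf (nat_lit 5092) (nat_lit 3) (nat_lit 67) (nat_lit 1) (nat_lit 217) (nat_lit 166) (nat_lit 217)) (PT.lf (nat_lit 5016) (nat_lit 6) (nat_lit 66) (nat_lit 1) (nat_lit 218) (nat_lit 166) (nat_lit 216))) (PT.nd (nat_lit 78) (PT.lf (nat_lit 5168) (nat_lit 6) (nat_lit 68) (nat_lit 3) (nat_lit 215) (nat_lit 167) (nat_lit 218)) (PT.lf (nat_lit 5244) (nat_lit 6) (nat_lit 69) (nat_lit 3) (nat_lit 216) (nat_lit 167) (nat_lit 217)))) (PT.nd (nat_lit 62322) (PT.nd (nat_lit 78) (PT.lf (nat_lit 5244) (nat_lit 6) (nat_lit 69) (nat_lit 1) (nat_lit 217) (nat_lit 167) (nat_lit 216)) (PT.lf (nat_lit 5168) (nat_lit 6) (nat_lit 68) (nat_lit 1) (nat_lit 218) (nat_lit 167) (nat_lit 215))) (PT.nd (nat_lit 78) (PT.lf (nat_lit 5320) (nat_lit 6) (nat_lit 70) (nat_lit 3) (nat_lit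 215) (nat_lit 168) (nat_lit 217)) (PT.lf (nat_lit 5396) (nat_lit 3) (nat_lit 71) (nat_lit 1) (nat_lit 216) (nat_lit 168) (nat_lit 216))))) (PT.nd (nat_lit 62478) (PT.nd (nat_lit 62322) (PT.nd (nat_lit 62244) (PT.lf (nat_lit 5320) (nat_lit 6) (nat_lit 70) (nat_lit 1) (nat_lit 217) (nat_lit 168) (nat_lit 215)) (PT.lf (nat_lit 5472) (nat_lit 6) (nat_lit 72) (nat_lit 3) (nat_lit 214) (nat_lit 169) (nat_lit 217))) (PT.nd (nat_lit 78) (PT.lf (nat_lit 5548) (nat_lit 6) (nat_lit 73) (nat_lit 3) (nat_lit 215) (nat_lit 169) (nat_lit 216)) (PT.lf (nat_lit 5548) (nat_lit 6) (nat_lit 73) (nat_lit 1) (nat_lit 216) (nat_lit 169) (nat_lit 215)))) (PT.nd (nat_lit 62244) (PT.nd (nat_lit 62166) (PT.lf (nat_lit 5472) (nat_lit 6) (nat_lit 72) (nat_lit 1) (nat_lit 217) (nat_lit 169) (nat_lit 214)) (PT.lf (nat_lit 5624) (nat_lit 6) (nat_lit 74) (nat_lit 3) (nat_lit 213) (nat_lit 170) (nat_lit 217))) (PT.nd (nat_lit 78)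 (PT.lf (nat_lit 5700) (nat_lit 6) (nat_lit 75) (nat_lit 3) (nat_lit 214) (nat_lit 170) (nat_lit 216)) (PT.nd (nat_lit 78) (PT.lf (nat_lit 5776) (nat_lit 3) (nat_lit 76) (nat_lit 1) (nat_lit 215) (nat_lit 170) (nat_lit 215)) (PT.lf (nat_lit 5700) (nat_lit 6) (nat_lit 75) (nat_lit 1) (nat_lit 216) (nat_lit 170) (nat_lit 214))))))) (PT.nd (nat_lit 124800) (PT.nd (nat_lit 62400) (PT.nd (nat_lit 62244) (PT.nd (nat_lit 62166) (PT.lf (nat_lit 5624) (nat_lit 6) (nat_lit 74) (nat_lit 1) (nat_lit 217) (nat_lit 170) (nat_lit 213)) (PT.lf (nat_lit 5852) (nat_lit 6) (nat_lit 77) (nat_lit 3) (nat_lit 213) (nat_lit 171) (nat_lit 216))) (PT.nd (nat_lit 78) (PT.lf (nat_lit 5928) (nat_lit 6) (nat_lit 78) (nat_lit 3) (nat_lit 214) (nat_lit 171) (nat_lit 215)) (PT.lf (nat_lit 5928) (nat_lit 6) (nat_lit 78) (nat_lit 1) (nat_lit 215) (nat_lit 171) (nat_lit 214)))) (PT.nd (nat_lit 62244) (PT.nd (nat_lit 62166) (PT.lf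 (nat_lit 5852) (nat_lit 6) (nat_lit 77) (nat_lit 1) (nat_lit 216) (nat_lit 171) (nat_lit 213)) (PT.lf (nat_lit 6004) (nat_lit 6) (nat_lit 79) (nat_lit 3) (nat_lit 212) (nat_lit 172) (nat_lit 216))) (PT.nd (nat_lit 78) (PT.lf (nat_lit 6080) (nat_lit 6) (nat_lit 80) (nat_lit 3) (nat_lit 213) (nat_lit 172) (nat_lit 215)) (PT.lf (nat_lit 6156) (nat_lit 3) (nat_lit 81) (nat_lit 1) (nat_lit 214) (nat_lit 172) (nat_lit 214))))) (PT.nd (nat_lit 62400) (PT.nd (nat_lit 62244) (PT.nd (nat_lit 78) (PT.lf (nat_lit 6080) (nat_lit 6) (nat_lit 80) (nat_lit 1) (nat_lit 215) (nat_lit 172) (nat_lit 213)) (PT.lf (nat_lit 6004) (nat_lit 6) (nat_lit 79) (nat_lit 1) (nat_lit 216) (nat_lit 172) (nat_lit 212))) (PT.nd (nat_lit 78) (PT.lf (nat_lit 6232) (nat_lit 6) (nat_lit 82) (nat_lit 3) (nat_lit 212) (nat_lit 173) (nat_lit 215)) (PT.lf (nat_lit 6308) (nat_lit 6) (nat_lit 83) (nat_lit 3) (nat_lit 213) (nat_lit 173) (nat_lit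 214)))) (PT.nd (nat_lit 62244) (PT.nd (nat_lit 78) (PT.lf (nat_lit 6308) (nat_lit 6) (nat_lit 83) (nat_lit 1) (nat_lit 214) (nat_lit 173) (nat_lit 213)) (PT.lf (nat_lit 6232) (nat_lit 6) (nat_lit 82) (nat_lit 1) (nat_lit 215) (nat_lit 173) (nat_lit 212))) (PT.nd (nat_lit 78) (PT.lf (nat_lit 6384) (nat_lit 6) (nat_lit 84) (nat_lit 3) (nat_lit 211) (nat_lit 174) (nat_lit 215)) (PT.nd (nat_lit 78) (PT.lf (nat_lit 6460) (nat_lit 6) (nat_lit 85) (nat_lit 3) (nat_lit 212) (nat_lit 174) (nat_lit 214)) (PT.lf (nat_lit 6536) (nat_lit 3) (nat_lit 86) (nat_lit 1) (nat_lit 213) (nat_lit 174) (nat_lit 213))))))))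
noncomputable def pc4 : PT := (PT.nd (nat_lit 187278) (PT.nd (nat_lit 124644) (PT.nd (nat_lit 62322) (PT.nd (nat_lit 62166) (PT.nd (nat_lit 78) (PT.lf (nat_lit 6460) (nat_lit 6) (nat_lit 85) (nat_lit 1) (nat_lit 214) (nat_lit 174) (nat_lit 212)) (PT.lf (nat_lit 6384) (nat_lit 6) (nat_lit 84) (nat_lit 1) (nat_lit 215) (nat_lit 174) (nat_lit 211))) (PT.nd (nat_lit 78) (PT.lf (nat_lit 6612) (nat_lit 6) (nat_lit 87) (nat_lit 3) (nat_lit 210) (nat_lit 175) (nat_lit 215)) (PT.lf (nat_lit 6688) (nat_lit 6) (nat_lit 88) (nat_lit 3) (nat_lit 211) (nat_lit 175) (nat_lit 214)))) (PT.nd (nat_lit 156) (PT.nd (nat_lit 78) (PT.lf (nat_lit 6764) (nat_lit 6) (nat_lit 89) (nat_lit 3) (nat_lit 212) (nat_lit 175) (nat_lit 213)) (PT.lf (nat_lit 6764) (nat_lit 6) (nat_lit 89) (nat_lit 1) (nat_lit 213) (nat_lit 175) (nat_lit 212))) (PT.nd (nat_lit 78) (PT.lf (nat_lit 6688) (nat_lit 6) (nat_lit 88) (nat_lit 1) (nat_lit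 214) (nat_lit 175) (nat_lit 211)) (PT.lf (nat_lit 6612) (nat_lit 6) (nat_lit 87) (nat_lit 1) (nat_lit 215) (nat_lit 175) (nat_lit 210))))) (PT.nd (nat_lit 312) (PT.nd (nat_lit 156) (PT.nd (nat_lit 78) (PT.lf (nat_lit 6840) (nat_lit 6) (nat_lit 90) (nat_lit 3) (nat_lit 210) (nat_lit 176) (nat_lit 214)) (PT.lf (nat_lit 6916) (nat_lit 6) (nat_lit 91) (nat_lit 3) (nat_lit 211) (nat_lit 176) (nat_lit 213))) (PT.nd (nat_lit 78) (PT.lf (nat_lit 6992) (nat_lit 3) (nat_lit 92) (nat_lit 1) (nat_lit 212) (nat_lit 176) (nat_lit 212)) (PT.lf (nat_lit 6916) (nat_lit 6) (nat_lit 91) (nat_lit 1) (nat_lit 213) (nat_lit 176) (nat_lit 211)))) (PT.nd (nat_lit 62166) (PT.nd (nat_lit 62088) (PT.lf (nat_lit 6840) (nat_lit 6) (nat_lit 90) (nat_lit 1) (nat_lit 214) (nat_lit 176) (nat_lit 210)) (PT.lf (nat_lit 7068) (nat_lit 6) (nat_lit 93) (nat_lit 3) (nat_lit 209) (nat_lit 177) (nat_lit 214))) (PT.nd (nat_lit 78) (PT.lf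 (nat_lit 7144) (nat_lit 6) (nat_lit 94) (nat_lit 3) (nat_lit 210) (nat_lit 177) (nat_lit 213)) (PT.lf (nat_lit 7220) (nat_lit 6) (nat_lit 95) (nat_lit 3) (nat_lit 211) (nat_lit 177) (nat_lit 212)))))) (PT.nd (nat_lit 124644) (PT.nd (nat_lit 62322) (PT.nd (nat_lit 156) (PT.nd (nat_lit 78) (PT.lf (nat_lit 7220) (nat_lit 6) (nat_lit 95) (nat_lit 1) (nat_lit 212) (nat_lit 177) (nat_lit 211)) (PT.lf (nat_lit 7144) (nat_lit 6) (nat_lit 94) (nat_lit 1) (nat_lit 213) (nat_lit 177) (nat_lit 210))) (PT.nd (nat_lit 62088) (PT.lf (nat_lit 7068) (nat_lit 6) (nat_lit 93) (nat_lit 1) (nat_lit 214) (nat_lit 177) (nat_lit 209)) (PT.lf (nat_lit 7296) (nat_lit 6) (nat_lit 96) (nat_lit 3) (nat_lit 209) (nat_lit 178) (nat_lit 213)))) (PT.nd (nat_lit 156) (PT.nd (nat_lit 78) (PT.lf (nat_lit 7372) (nat_lit 6) (nat_lit 97) (nat_lit 3) (nat_lit 210) (nat_lit 178) (nat_lit 212)) (PT.lf (nat_lit 7448) (nat_lit 3) (nat_lit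 98) (nat_lit 1) (nat_lit 211) (nat_lit 178) (nat_lit 211))) (PT.nd (nat_lit 78) (PT.lf (nat_lit 7372) (nat_lit 6) (nat_lit 97) (nat_lit 1) (nat_lit 212) (nat_lit 178) (nat_lit 210)) (PT.lf (nat_lit 7296) (nat_lit 6) (nat_lit 96) (nat_lit 1) (nat_lit 213) (nat_lit 178) (nat_lit 209))))) (PT.nd (nat_lit 312) (PT.nd (nat_lit 156) (PT.nd (nat_lit 78) (PT.lf (nat_lit 7524) (nat_lit 6) (nat_lit 99) (nat_lit 3) (nat_lit 208) (nat_lit 179) (nat_lit 213)) (PT.lf (nat_lit 7600) (nat_lit 6) (nat_lit 100) (nat_lit 3) (nat_lit 209) (nat_lit 179) (nat_lit 212))) (PT.nd (nat_lit 78) (PT.lf (nat_lit 7676) (nat_lit 6) (nat_lit 101) (nat_lit 3) (nat_lit 210) (nat_lit 179) (nat_lit 211)) (PT.lf (nat_lit 7676) (nat_lit 6) (nat_lit 101) (nat_lit 1) (nat_lit 211) (nat_lit 179) (nat_lit 210)))) (PT.nd (nat_lit 62088) (PT.nd (nat_lit 78) (PT.lf (nat_lit 7600) (nat_lit 6) (nat_lit 100) (nat_lit 1) (nat_lit 212) (nat_lit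 179) (nat_lit 209)) (PT.lf (nat_lit 7524) (nat_lit 6) (nat_lit 99) (nat_lit 1) (nat_lit 213) (nat_lit 179) (nat_lit 208))) (PT.nd (nat_lit 78) (PT.lf (nat_lit 7752) (nat_lit 6) (nat_lit 102) (nat_lit 3) (nat_lit 207) (nat_lit 180) (nat_lit 213)) (PT.nd (nat_lit 78) (PT.lf (nat_lit 7828) (nat_lit 6) (nat_lit 103) (nat_lit 3) (nat_lit 208) (nat_lit 180) (nat_lit 212)) (PT.lf (nat_lit 7904) (nat_lit 6) (nat_lit 104) (nat_lit 3) (nat_lit 209) (nat_lit 180) (nat_lit 211))))))))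
noncomputable def pc5 : PT := (PT.nd (nat_lit 187044) (PT.nd (nat_lit 62556) (PT.nd (nat_lit 62244) (PT.nd (nat_lit 156) (PT.nd (nat_lit 78) (PT.lf (nat_lit 7980) (nat_lit 3) (nat_lit 105) (nat_lit 1) (nat_lit 210) (nat_lit 180) (nat_lit 210)) (PT.lf (nat_lit 7904) (nat_lit 6) (nat_lit 104) (nat_lit 1) (nat_lit 211) (nat_lit 180) (nat_lit 209))) (PT.nd (nat_lit 78) (PT.lf (nat_lit 7828) (nat_lit 6) (nat_lit 103) (nat_lit 1) (nat_lit 212) (nat_lit 180) (nat_lit 208)) (PT.lf (nat_lit 7752) (nat_lit 6) (nat_lit 102) (nat_lit 1) (nat_lit 213) (nat_lit 180) (nat_lit 207)))) (PT.nd (nat_lit 156) (PT.nd (nat_lit 78) (PT.lf (nat_lit 8056) (nat_lit 6) (nat_lit 106) (nat_lit 3) (nat_lit 207) (nat_lit 181) (nat_lit 212)) (PT.lf (nat_lit 8132) (nat_lit 6) (nat_lit 107) (nat_lit 3) (nat_lit 208) (nat_lit 181) (nat_lit 211))) (PT.nd (nat_lit 78) (PT.lf (nat_lit 8208) (nat_lit 6) (nat_lit 108) (nat_lit 3) (nat_lit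 209) (nat_lit 181) (nat_lit 210)) (PT.lf (nat_lit 8208) (nat_lit 6) (nat_lit 108) (nat_lit 1) (nat_lit 210) (nat_lit 181) (nat_lit 209))))) (PT.nd (nat_lit 62244) (PT.nd (nat_lit 62088) (PT.nd (nat_lit 78) (PT.lf (nat_lit 8132) (nat_lit 6) (nat_lit 107) (nat_lit 1) (nat_lit 211) (nat_lit 181) (nat_lit 208)) (PT.lf (nat_lit 8056) (nat_lit 6) (nat_lit 106) (nat_lit 1) (nat_lit 212) (nat_lit 181) (nat_lit 207))) (PT.nd (nat_lit 78) (PT.lf (nat_lit 8284) (nat_lit 6) (nat_lit 109) (nat_lit 3) (nat_lit 206) (nat_lit 182) (nat_lit 212)) (PT.lf (nat_lit 8360) (nat_lit 6) (nat_lit 110) (nat_lit 3) (nat_lit 207) (nat_lit 182) (nat_lit 211)))) (PT.nd (nat_lit 156) (PT.nd (nat_lit 78) (PT.lf (nat_lit 8436) (nat_lit 6) (nat_lit 111) (nat_lit 3) (nat_lit 208) (nat_lit 182) (nat_lit 210)) (PT.lf (nat_lit 8512) (nat_lit 3) (nat_lit 112) (nat_lit 1) (nat_lit 209) (nat_lit 182) (nat_lit 209))) (PT.nd (nat_lit 78)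 (PT.lf (nat_lit 8436) (nat_lit 6) (nat_lit 111) (nat_lit 1) (nat_lit 210) (nat_lit 182) (nat_lit 208)) (PT.nd (nat_lit 78) (PT.lf (nat_lit 8360) (nat_lit 6) (nat_lit 110) (nat_lit 1) (nat_lit 211) (nat_lit 182) (nat_lit 207)) (PT.lf (nat_lit 8284) (nat_lit 6) (nat_lit 109) (nat_lit 1) (nat_lit 212) (nat_lit 182) (nat_lit 206))))))) (PT.nd (nat_lit 62400) (PT.nd (nat_lit 312) (PT.nd (nat_lit 156) (PT.nd (nat_lit 78) (PT.lf (nat_lit 8588) (nat_lit 6) (nat_lit 113) (nat_lit 3) (nat_lit 205) (nat_lit 183) (nat_lit 212)) (PT.lf (nat_lit 8664) (nat_lit 6) (nat_lit 114) (nat_lit 3) (nat_lit 206) (nat_lit 183) (nat_lit 211))) (PT.nd (nat_lit 78) (PT.lf (nat_lit 8740) (nat_lit 6) (nat_lit 115) (nat_lit 3) (nat_lit 207) (nat_lit 183) (nat_lit 210)) (PT.lf (nat_lit 8816) (nat_lit 6) (nat_lit 116) (nat_lit 3) (nat_lit 208) (nat_lit 183) (nat_lit 209)))) (PT.nd (nat_lit 156) (PT.nd (nat_lit 78) (PT.lf (nat_lit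 8816) (nat_lit 6) (nat_lit 116) (nat_lit 1) (nat_lit 209) (nat_lit 183) (nat_lit 208)) (PT.lf (nat_lit 8740) (nat_lit 6) (nat_lit 115) (nat_lit 1) (nat_lit 210) (nat_lit 183) (nat_lit 207))) (PT.nd (nat_lit 78) (PT.lf (nat_lit 8664) (nat_lit 6) (nat_lit 114) (nat_lit 1) (nat_lit 211) (nat_lit 183) (nat_lit 206)) (PT.lf (nat_lit 8588) (nat_lit 6) (nat_lit 113) (nat_lit 1) (nat_lit 212) (nat_lit 183) (nat_lit 205))))) (PT.nd (nat_lit 312) (PT.nd (nat_lit 156) (PT.nd (nat_lit 78) (PT.lf (nat_lit 8892) (nat_lit 6) (nat_lit 117) (nat_lit 3) (nat_lit 204) (nat_lit 184) (nat_lit 212)) (PT.lf (nat_lit 8968) (nat_lit 6) (nat_lit 118) (nat_lit 3) (nat_lit 205) (nat_lit 184) (nat_lit 211))) (PT.nd (nat_lit 78) (PT.lf (nat_lit 9044) (nat_lit 6) (nat_lit 119) (nat_lit 3) (nat_lit 206) (nat_lit 184) (nat_lit 210)) (PT.lf (nat_lit 9120) (nat_lit 6) (nat_lit 120) (nat_lit 3) (nat_lit 207) (nat_lit 184) (nat_lit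 209)))) (PT.nd (nat_lit 156) (PT.nd (nat_lit 78) (PT.lf (nat_lit 9196) (nat_lit 3) (nat_lit 121) (nat_lit 1) (nat_lit 208) (nat_lit 184) (nat_lit 208)) (PT.lf (nat_lit 9120) (nat_lit 6) (nat_lit 120) (nat_lit 1) (nat_lit 209) (nat_lit 184) (nat_lit 207))) (PT.nd (nat_lit 78) (PT.lf (nat_lit 9044) (nat_lit 6) (nat_lit 119) (nat_lit 1) (nat_lit 210) (nat_lit 184) (nat_lit 206)) (PT.nd (nat_lit 78) (PT.lf (nat_lit 8968) (nat_lit 6) (nat_lit 118) (nat_lit 1) (nat_lit 211) (nat_lit 184) (nat_lit 205)) (PT.lf (nat_lit 8892) (nat_lit 6) (nat_lit 117) (nat_lit 1) (nat_lit 212) (nat_lit 184) (nat_lit 204))))))))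
noncomputable def pc6 : PT := (PT.nd (nat_lit 124800) (PT.nd (nat_lit 62400) (PT.nd (nat_lit 312) (PT.nd (nat_lit 156) (PT.nd (nat_lit 78) (PT.lf (nat_lit 9272) (nat_lit 6) (nat_lit 122) (nat_lit 3) (nat_lit 204) (nat_lit 185) (nat_lit 211)) (PT.lf (nat_lit 9348) (nat_lit 6) (nat_lit 123) (nat_lit 3) (nat_lit 205) (nat_lit 185) (nat_lit 210))) (PT.nd (nat_lit 78) (PT.lf (nat_lit 9424) (nat_lit 6) (nat_lit 124) (nat_lit 3) (nat_lit 206) (nat_lit 185) (nat_lit 209)) (PT.lf (nat_lit 9500) (nat_lit 6) (nat_lit 125) (nat_lit 3) (nat_lit 207) (nat_lit 185) (nat_lit 208)))) (PT.nd (nat_lit 156) (PT.nd (nat_lit 78) (PT.lf (nat_lit 9500) (nat_lit 6) (nat_lit 125) (nat_lit 1) (nat_lit 208) (nat_lit 185) (nat_lit 207)) (PT.lf (nat_lit 9424) (nat_lit 6) (nat_lit 124) (nat_lit 1) (nat_lit 209) (nat_lit 185) (nat_lit 206))) (PT.nd (nat_lit 78) (PT.lf (nat_lit 9348) (nat_lit 6) (nat_lit 123) (nat_lit 1) (nat_lit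 210) (nat_lit 185) (nat_lit 205)) (PT.lf (nat_lit 9272) (nat_lit 6) (nat_lit 122) (nat_lit 1) (nat_lit 211) (nat_lit 185) (nat_lit 204))))) (PT.nd (nat_lit 312) (PT.nd (nat_lit 156) (PT.nd (nat_lit 78) (PT.lf (nat_lit 9576) (nat_lit 6) (nat_lit 126) (nat_lit 3) (nat_lit 203) (nat_lit 186) (nat_lit 211)) (PT.lf (nat_lit 9652) (nat_lit 6) (nat_lit 127) (nat_lit 3) (nat_lit 204) (nat_lit 186) (nat_lit 210))) (PT.nd (nat_lit 78) (PT.lf (nat_lit 9728) (nat_lit 6) (nat_lit 128) (nat_lit 3) (nat_lit 205) (nat_lit 186) (nat_lit 209)) (PT.lf (nat_lit 9804) (nat_lit 6) (nat_lit 129) (nat_lit 3) (nat_lit 206) (nat_lit 186) (nat_lit 208)))) (PT.nd (nat_lit 156) (PT.nd (nat_lit 78) (PT.lf (nat_lit 9880) (nat_lit 3) (nat_lit 130) (nat_lit 1) (nat_lit 207) (nat_lit 186) (nat_lit 207)) (PT.lf (nat_lit 9804) (nat_lit 6) (nat_lit 129) (nat_lit 1) (nat_lit 208) (nat_lit 186) (nat_lit 206))) (PT.nd (nat_lit 78) (PT.lf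 (nat_lit 9728) (nat_lit 6) (nat_lit 128) (nat_lit 1) (nat_lit 209) (nat_lit 186) (nat_lit 205)) (PT.nd (nat_lit 78) (PT.lf (nat_lit 9652) (nat_lit 6) (nat_lit 127) (nat_lit 1) (nat_lit 210) (nat_lit 186) (nat_lit 204)) (PT.lf (nat_lit 9576) (nat_lit 6) (nat_lit 126) (nat_lit 1) (nat_lit 211) (nat_lit 186) (nat_lit 203))))))) (PT.nd (nat_lit 624) (PT.nd (nat_lit 312) (PT.nd (nat_lit 156) (PT.nd (nat_lit 78) (PT.lf (nat_lit 9956) (nat_lit 6) (nat_lit 131) (nat_lit 3) (nat_lit 202) (nat_lit 187) (nat_lit 211)) (PT.lf (nat_lit 10032) (nat_lit 6) (nat_lit 132) (nat_lit 3) (nat_lit 203) (nat_lit 187) (nat_lit 210))) (PT.nd (nat_lit 78) (PT.lf (nat_lit 10108) (nat_lit 6) (nat_lit 133) (nat_lit 3) (nat_lit 204) (nat_lit 187) (nat_lit 209)) (PT.lf (nat_lit 10184) (nat_lit 6) (nat_lit 134) (nat_lit 3) (nat_lit 205) (nat_lit 187) (nat_lit 208)))) (PT.nd (nat_lit 156) (PT.nd (nat_lit 78) (PT.lf (nat_lit 10260)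 (nat_lit 6) (nat_lit 135) (nat_lit 3) (nat_lit 206) (nat_lit 187) (nat_lit 207)) (PT.lf (nat_lit 10260) (nat_lit 6) (nat_lit 135) (nat_lit 1) (nat_lit 207) (nat_lit 187) (nat_lit 206))) (PT.nd (nat_lit 78) (PT.lf (nat_lit 10184) (nat_lit 6) (nat_lit 134) (nat_lit 1) (nat_lit 208) (nat_lit 187) (nat_lit 205)) (PT.lf (nat_lit 10108) (nat_lit 6) (nat_lit 133) (nat_lit 1) (nat_lit 209) (nat_lit 187) (nat_lit 204))))) (PT.nd (nat_lit 61932) (PT.nd (nat_lit 61776) (PT.nd (nat_lit 78) (PT.lf (nat_lit 10032) (nat_lit 6) (nat_lit 132) (nat_lit 1) (nat_lit 210) (nat_lit 187) (nat_lit 203)) (PT.lf (nat_lit 9956) (nat_lit 6) (nat_lit 131) (nat_lit 1) (nat_lit 211) (nat_lit 187) (nat_lit 202))) (PT.nd (nat_lit 78) (PT.lf (nat_lit 10336) (nat_lit 6) (nat_lit 136) (nat_lit 3) (nat_lit 201) (nat_lit 188) (nat_lit 211)) (PT.lf (nat_lit 10412) (nat_lit 6) (nat_lit 137) (nat_lit 3) (nat_lit 202) (nat_lit 188) (nat_lit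 210)))) (PT.nd (nat_lit 156) (PT.nd (nat_lit 78) (PT.lf (nat_lit 10488) (nat_lit 6) (nat_lit 138) (nat_lit 3) (nat_lit 203) (nat_lit 188) (nat_lit 209)) (PT.lf (nat_lit 10564) (nat_lit 6) (nat_lit 139) (nat_lit 3) (nat_lit 204) (nat_lit 188) (nat_lit 208))) (PT.nd (nat_lit 78) (PT.lf (nat_lit 10640) (nat_lit 6) (nat_lit 140) (nat_lit 3) (nat_lit 205) (nat_lit 188) (nat_lit 207)) (PT.nd (nat_lit 78) (PT.lf (nat_lit 10716) (nat_lit 3) (nat_lit 141) (nat_lit 1) (nat_lit 206) (nat_lit 188) (nat_lit 206)) (PT.lf (nat_lit 10640) (nat_lit 6) (nat_lit 140) (nat_lit 1) (nat_lit 207) (nat_lit 188) (nat_lit 205))))))))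
noncomputable def pc7 : PT := (PT.nd (nat_lit 124566) (PT.nd (nat_lit 62244) (PT.nd (nat_lit 61932) (PT.nd (nat_lit 156) (PT.nd (nat_lit 78) (PT.lf (nat_lit 10564) (nat_lit 6) (nat_lit 139) (nat_lit 1) (nat_lit 208) (nat_lit 188) (nat_lit 204)) (PT.lf (nat_lit 10488) (nat_lit 6) (nat_lit 138) (nat_lit 1) (nat_lit 209) (nat_lit 188) (nat_lit 203))) (PT.nd (nat_lit 78) (PT.lf (nat_lit 10412) (nat_lit 6) (nat_lit 137) (nat_lit 1) (nat_lit 210) (nat_lit 188) (nat_lit 202)) (PT.lf (nat_lit 10336) (nat_lit 6) (nat_lit 136) (nat_lit 1) (nat_lit 211) (nat_lit 188) (nat_lit 201)))) (PT.nd (nat_lit 156) (PT.nd (nat_lit 78) (PT.lf (nat_lit 10792) (nat_lit 6) (nat_lit 142) (nat_lit 3) (nat_lit 201) (nat_lit 189) (nat_lit 210)) (PT.lf (nat_lit 10868) (nat_lit 6) (nat_lit 143) (nat_lit 3) (nat_lit 202) (nat_lit 189) (nat_lit 209))) (PT.nd (nat_lit 78) (PT.lf (nat_lit 10944) (nat_lit 6) (nat_lit 144) (nat_lit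 3) (nat_lit 203) (nat_lit 189) (nat_lit 208)) (PT.lf (nat_lit 11020) (nat_lit 6) (nat_lit 145) (nat_lit 3) (nat_lit 204) (nat_lit 189) (nat_lit 207))))) (PT.nd (nat_lit 312) (PT.nd (nat_lit 156) (PT.nd (nat_lit 78) (PT.lf (nat_lit 11096) (nat_lit 6) (nat_lit 146) (nat_lit 3) (nat_lit 205) (nat_lit 189) (nat_lit 206)) (PT.lf (nat_lit 11096) (nat_lit 6) (nat_lit 146) (nat_lit 1) (nat_lit 206) (nat_lit 189) (nat_lit 205))) (PT.nd (nat_lit 78) (PT.lf (nat_lit 11020) (nat_lit 6) (nat_lit 145) (nat_lit 1) (nat_lit 207) (nat_lit 189) (nat_lit 204)) (PT.lf (nat_lit 10944) (nat_lit 6) (nat_lit 144) (nat_lit 1) (nat_lit 208) (nat_lit 189) (nat_lit 203)))) (PT.nd (nat_lit 61776) (PT.nd (nat_lit 78) (PT.lf (nat_lit 10868) (nat_lit 6) (nat_lit 143) (nat_lit 1) (nat_lit 209) (nat_lit 189) (nat_lit 202)) (PT.lf (nat_lit 10792) (nat_lit 6) (nat_lit 142) (nat_lit 1) (nat_lit 210) (nat_lit 189) (nat_lit 201))) (PT.nd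 (nat_lit 78) (PT.lf (nat_lit 11552) (nat_lit 6) (nat_lit 152) (nat_lit 3) (nat_lit 200) (nat_lit 190) (nat_lit 210)) (PT.nd (nat_lit 78) (PT.lf (nat_lit 11628) (nat_lit 6) (nat_lit 153) (nat_lit 3) (nat_lit 201) (nat_lit 190) (nat_lit 209)) (PT.lf (nat_lit 11704) (nat_lit 6) (nat_lit 154) (nat_lit 3) (nat_lit 202) (nat_lit 190) (nat_lit 208))))))) (PT.nd (nat_lit 62166) (PT.nd (nat_lit 312) (PT.nd (nat_lit 156) (PT.nd (nat_lit 78) (PT.lf (nat_lit 11780) (nat_lit 6) (nat_lit 155) (nat_lit 3) (nat_lit 203) (nat_lit 190) (nat_lit 207)) (PT.lf (nat_lit 11856) (nat_lit 6) (nat_lit 156) (nat_lit 3) (nat_lit 204) (nat_lit 190) (nat_lit 206))) (PT.nd (nat_lit 78) (PT.lf (nat_lit 11932) (nat_lit 3) (nat_lit 157) (nat_lit 1) (nat_lit 205) (nat_lit 190) (nat_lit 205)) (PT.lf (nat_lit 11856) (nat_lit 6) (nat_lit 156) (nat_lit 1) (nat_lit 206) (nat_lit 190) (nat_lit 204)))) (PT.nd (nat_lit 156) (PT.nd (nat_lit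 78) (PT.lf (nat_lit 11780) (nat_lit 6) (nat_lit 155) (nat_lit 1) (nat_lit 207) (nat_lit 190) (nat_lit 203)) (PT.lf (nat_lit 11704) (nat_lit 6) (nat_lit 154) (nat_lit 1) (nat_lit 208) (nat_lit 190) (nat_lit 202))) (PT.nd (nat_lit 78) (PT.lf (nat_lit 11628) (nat_lit 6) (nat_lit 153) (nat_lit 1) (nat_lit 209) (nat_lit 190) (nat_lit 201)) (PT.lf (nat_lit 11552) (nat_lit 6) (nat_lit 152) (nat_lit 1) (nat_lit 210) (nat_lit 190) (nat_lit 200))))) (PT.nd (nat_lit 312) (PT.nd (nat_lit 156) (PT.nd (nat_lit 78) (PT.lf (nat_lit 11476) (nat_lit 6) (nat_lit 151) (nat_lit 3) (nat_lit 199) (nat_lit 191) (nat_lit 210)) (PT.lf (nat_lit 12312) (nat_lit 6) (nat_lit 162) (nat_lit 3) (nat_lit 200) (nat_lit 191) (nat_lit 209))) (PT.nd (nat_lit 78) (PT.lf (nat_lit 12388) (nat_lit 6) (nat_lit 163) (nat_lit 3) (nat_lit 201) (nat_lit 191) (nat_lit 208)) (PT.lf (nat_lit 12464) (nat_lit 6) (nat_lit 164) (nat_lit 3) (nat_lit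 202) (nat_lit 191) (nat_lit 207)))) (PT.nd (nat_lit 156) (PT.nd (nat_lit 78) (PT.lf (nat_lit 12540) (nat_lit 6) (nat_lit 165) (nat_lit 3) (nat_lit 203) (nat_lit 191) (nat_lit 206)) (PT.lf (nat_lit 12616) (nat_lit 6) (nat_lit 166) (nat_lit 3) (nat_lit 204) (nat_lit 191) (nat_lit 205))) (PT.nd (nat_lit 78) (PT.lf (nat_lit 12616) (nat_lit 6) (nat_lit 166) (nat_lit 1) (nat_lit 205) (nat_lit 191) (nat_lit 204)) (PT.nd (nat_lit 78) (PT.lf (nat_lit 12540) (nat_lit 6) (nat_lit 165) (nat_lit 1) (nat_lit 206) (nat_lit 191) (nat_lit 203)) (PT.lf (nat_lit 12464) (nat_lit 6) (nat_lit 164) (nat_lit 1) (nat_lit 207) (nat_lit 191) (nat_lit 202))))))))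
noncomputable def pc8 : PT := (PT.nd (nat_lit 124098) (PT.nd (nat_lit 62088) (PT.nd (nat_lit 61776) (PT.nd (nat_lit 156) (PT.nd (nat_lit 78) (PT.lf (nat_lit 12388) (nat_lit 6) (nat_lit 163) (nat_lit 1) (nat_lit 208) (nat_lit 191) (nat_lit 201)) (PT.lf (nat_lit 12312) (nat_lit 6) (nat_lit 162) (nat_lit 1) (nat_lit 209) (nat_lit 191) (nat_lit 200))) (PT.nd (nat_lit 61542) (PT.lf (nat_lit 11476) (nat_lit 6) (nat_lit 151) (nat_lit 1) (nat_lit 210) (nat_lit 191) (nat_lit 199)) (PT.lf (nat_lit 11400) (nat_lit 6) (nat_lit 150) (nat_lit 3) (nat_lit 198) (nat_lit 192) (nat_lit 210)))) (PT.nd (nat_lit 156) (PT.nd (nat_lit 78) (PT.lf (nat_lit 12236) (nat_lit 6) (nat_lit 161) (nat_lit 3) (nat_lit 199) (nat_lit 192) (nat_lit 209)) (PT.lf (nat_lit 12996) (nat_lit 6) (nat_lit 171) (nat_lit 3) (nat_lit 200) (nat_lit 192) (nat_lit 208))) (PT.nd (nat_lit 78) (PT.lf (nat_lit 13072) (nat_lit 6) (nat_lit 172) (nat_lit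 3) (nat_lit 201) (nat_lit 192) (nat_lit 207)) (PT.lf (nat_lit 13148) (nat_lit 6) (nat_lit 173) (nat_lit 3) (nat_lit 202) (nat_lit 192) (nat_lit 206))))) (PT.nd (nat_lit 312) (PT.nd (nat_lit 156) (PT.nd (nat_lit 78) (PT.lf (nat_lit 13224) (nat_lit 6) (nat_lit 174) (nat_lit 3) (nat_lit 203) (nat_lit 192) (nat_lit 205)) (PT.lf (nat_lit 13300) (nat_lit 3) (nat_lit 175) (nat_lit 1) (nat_lit 204) (nat_lit 192) (nat_lit 204))) (PT.nd (nat_lit 78) (PT.lf (nat_lit 13224) (nat_lit 6) (nat_lit 174) (nat_lit 1) (nat_lit 205) (nat_lit 192) (nat_lit 203)) (PT.lf (nat_lit 13148) (nat_lit 6) (nat_lit 173) (nat_lit 1) (nat_lit 206) (nat_lit 192) (nat_lit 202)))) (PT.nd (nat_lit 156) (PT.nd (nat_lit 78) (PT.lf (nat_lit 13072) (nat_lit 6) (nat_lit 172) (nat_lit 1) (nat_lit 207) (nat_lit 192) (nat_lit 201)) (PT.lf (nat_lit 12996) (nat_lit 6) (nat_lit 171) (nat_lit 1) (nat_lit 208) (nat_lit 192) (nat_lit 200))) (PT.nd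 (nat_lit 78) (PT.lf (nat_lit 12236) (nat_lit 6) (nat_lit 161) (nat_lit 1) (nat_lit 209) (nat_lit 192) (nat_lit 199)) (PT.lf (nat_lit 11400) (nat_lit 6) (nat_lit 150) (nat_lit 1) (nat_lit 210) (nat_lit 192) (nat_lit 198)))))) (PT.nd (nat_lit 624) (PT.nd (nat_lit 312) (PT.nd (nat_lit 156) (PT.nd (nat_lit 78) (PT.lf (nat_lit 11324) (nat_lit 6) (nat_lit 149) (nat_lit 3) (nat_lit 197) (nat_lit 193) (nat_lit 210)) (PT.lf (nat_lit 12160) (nat_lit 6) (nat_lit 160) (nat_lit 3) (nat_lit 198) (nat_lit 193) (nat_lit 209))) (PT.nd (nat_lit 78) (PT.lf (nat_lit 12920) (nat_lit 6) (nat_lit 170) (nat_lit 3) (nat_lit 199) (nat_lit 193) (nat_lit 208)) (PT.lf (nat_lit 13604) (nat_lit 6) (nat_lit 179) (nat_lit 3) (nat_lit 200) (nat_lit 193) (nat_lit 207)))) (PT.nd (nat_lit 156) (PT.nd (nat_lit 78) (PT.lf (nat_lit 13680) (nat_lit 6) (nat_lit 180) (nat_lit 3) (nat_lit 201) (nat_lit 193) (nat_lit 206)) (PT.lf (nat_lit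 13756) (nat_lit 6) (nat_lit 181) (nat_lit 3) (nat_lit 202) (nat_lit 193) (nat_lit 205))) (PT.nd (nat_lit 78) (PT.lf (nat_lit 13832) (nat_lit 6) (nat_lit 182) (nat_lit 3) (nat_lit 203) (nat_lit 193) (nat_lit 204)) (PT.lf (nat_lit 13832) (nat_lit 6) (nat_lit 182) (nat_lit 1) (nat_lit 204) (nat_lit 193) (nat_lit 203))))) (PT.nd (nat_lit 312) (PT.nd (nat_lit 156) (PT.nd (nat_lit 78) (PT.lf (nat_lit 13756) (nat_lit 6) (nat_lit 181) (nat_lit 1) (nat_lit 205) (nat_lit 193) (nat_lit 202)) (PT.lf (nat_lit 13680) (nat_lit 6) (nat_lit 180) (nat_lit 1) (nat_lit 206) (nat_lit 193) (nat_lit 201))) (PT.nd (nat_lit 78) (PT.lf (nat_lit 13604) (nat_lit 6) (nat_lit 179) (nat_lit 1) (nat_lit 207) (nat_lit 193) (nat_lit 200)) (PT.lf (nat_lit 12920) (nat_lit 6) (nat_lit 170) (nat_lit 1) (nat_lit 208) (nat_lit 193) (nat_lit 199)))) (PT.nd (nat_lit 61464) (PT.nd (nat_lit 78) (PT.lf (nat_lit 12160) (nat_lit 6) (nat_lit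 160) (nat_lit 1) (nat_lit 209) (nat_lit 193) (nat_lit 198)) (PT.lf (nat_lit 11324) (nat_lit 6) (nat_lit 149) (nat_lit 1) (nat_lit 210) (nat_lit 193) (nat_lit 197))) (PT.nd (nat_lit 78) (PT.lf (nat_lit 11248) (nat_lit 6) (nat_lit 148) (nat_lit 3) (nat_lit 196) (nat_lit 194) (nat_lit 210)) (PT.nd (nat_lit 78) (PT.lf (nat_lit 12084) (nat_lit 6) (nat_lit 159) (nat_lit 3) (nat_lit 197) (nat_lit 194) (nat_lit 209)) (PT.lf (nat_lit 12844) (nat_lit 6) (nat_lit 169) (nat_lit 3) (nat_lit 198) (nat_lit 194) (nat_lit 208))))))))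
noncomputable def pc9 : PT := (PT.nd (nat_lit 62556) (PT.nd (nat_lit 624) (PT.nd (nat_lit 312) (PT.nd (nat_lit 156) (PT.nd (nat_lit 78) (PT.lf (nat_lit 13528) (nat_lit 6) (nat_lit 178) (nat_lit 3) (nat_lit 199) (nat_lit 194) (nat_lit 207)) (PT.lf (nat_lit 14136) (nat_lit 6) (nat_lit 186) (nat_lit 3) (nat_lit 200) (nat_lit 194) (nat_lit 206))) (PT.nd (nat_lit 78) (PT.lf (nat_lit 14212) (nat_lit 6) (nat_lit 187) (nat_lit 3) (nat_lit 201) (nat_lit 194) (nat_lit 205)) (PT.lf (nat_lit 14288) (nat_lit 6) (nat_lit 188) (nat_lit 3) (nat_lit 202) (nat_lit 194) (nat_lit 204)))) (PT.nd (nat_lit 156) (PT.nd (nat_lit 78) (PT.lf (nat_lit 14364) (nat_lit 3) (nat_lit 189) (nat_lit 1) (nat_lit 203) (nat_lit 194) (nat_lit 203)) (PT.lf (nat_lit 14288) (nat_lit 6) (nat_lit 188) (nat_lit 1) (nat_lit 204) (nat_lit 194) (nat_lit 202))) (PT.nd (nat_lit 78) (PT.lf (nat_lit 14212) (nat_lit 6) (nat_lit 187) (nat_lit 1) (nat_lit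 205) (nat_lit 194) (nat_lit 201)) (PT.lf (nat_lit 14136) (nat_lit 6) (nat_lit 186) (nat_lit 1) (nat_lit 206) (nat_lit 194) (nat_lit 200))))) (PT.nd (nat_lit 61542) (PT.nd (nat_lit 156) (PT.nd (nat_lit 78) (PT.lf (nat_lit 13528) (nat_lit 6) (nat_lit 178) (nat_lit 1) (nat_lit 207) (nat_lit 194) (nat_lit 199)) (PT.lf (nat_lit 12844) (nat_lit 6) (nat_lit 169) (nat_lit 1) (nat_lit 208) (nat_lit 194) (nat_lit 198))) (PT.nd (nat_lit 78) (PT.lf (nat_lit 12084) (nat_lit 6) (nat_lit 159) (nat_lit 1) (nat_lit 209) (nat_lit 194) (nat_lit 197)) (PT.lf (nat_lit 11248) (nat_lit 6) (nat_lit 148) (nat_lit 1) (nat_lit 210) (nat_lit 194) (nat_lit 196)))) (PT.nd (nat_lit 156) (PT.nd (nat_lit 78) (PT.lf (nat_lit 11172) (nat_lit 3) (nat_lit 147) (nat_lit 3) (nat_lit 195) (nat_lit 195) (nat_lit 210)) (PT.lf (nat_lit 12008) (nat_lit 6) (nat_lit 158) (nat_lit 3) (nat_lit 196) (nat_lit 195) (nat_lit 209))) (PT.nd (nat_lit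 78) (PT.lf (nat_lit 12768) (nat_lit 6) (nat_lit 168) (nat_lit 3) (nat_lit 197) (nat_lit 195) (nat_lit 208)) (PT.nd (nat_lit 78) (PT.lf (nat_lit 13452) (nat_lit 6) (nat_lit 177) (nat_lit 3) (nat_lit 198) (nat_lit 195) (nat_lit 207)) (PT.lf (nat_lit 14060) (nat_lit 6) (nat_lit 185) (nat_lit 3) (nat_lit 199) (nat_lit 195) (nat_lit 206))))))) (PT.nd (nat_lit 624) (PT.nd (nat_lit 312) (PT.nd (nat_lit 156) (PT.nd (nat_lit 78) (PT.lf (nat_lit 14592) (nat_lit 6) (nat_lit 192) (nat_lit 3) (nat_lit 200) (nat_lit 195) (nat_lit 205)) (PT.lf (nat_lit 14668) (nat_lit 6) (nat_lit 193) (nat_lit 3) (nat_lit 201) (nat_lit 195) (nat_lit 204))) (PT.nd (nat_lit 78) (PT.lf (nat_lit 14744) (nat_lit 6) (nat_lit 194) (nat_lit 3) (nat_lit 202) (nat_lit 195) (nat_lit 203)) (PT.lf (nat_lit 14744) (nat_lit 6) (nat_lit 194) (nat_lit 1) (nat_lit 203) (nat_lit 195) (nat_lit 202)))) (PT.nd (nat_lit 156) (PT.nd (nat_lit 78) (PT.lf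 (nat_lit 14668) (nat_lit 6) (nat_lit 193) (nat_lit 1) (nat_lit 204) (nat_lit 195) (nat_lit 201)) (PT.lf (nat_lit 14592) (nat_lit 6) (nat_lit 192) (nat_lit 1) (nat_lit 205) (nat_lit 195) (nat_lit 200))) (PT.nd (nat_lit 78) (PT.lf (nat_lit 14060) (nat_lit 6) (nat_lit 185) (nat_lit 1) (nat_lit 206) (nat_lit 195) (nat_lit 199)) (PT.lf (nat_lit 13452) (nat_lit 6) (nat_lit 177) (nat_lit 1) (nat_lit 207) (nat_lit 195) (nat_lit 198))))) (PT.nd (nat_lit 61464) (PT.nd (nat_lit 156) (PT.nd (nat_lit 78) (PT.lf (nat_lit 12768) (nat_lit 6) (nat_lit 168) (nat_lit 1) (nat_lit 208) (nat_lit 195) (nat_lit 197)) (PT.lf (nat_lit 12008) (nat_lit 6) (nat_lit 158) (nat_lit 1) (nat_lit 209) (nat_lit 195) (nat_lit 196))) (PT.nd (nat_lit 61230) (PT.lf (nat_lit 11172) (nat_lit 3) (nat_lit 147) (nat_lit 0) (nat_lit 210) (nat_lit 195) (nat_lit 195)) (PT.lf (nat_lit 11248) (nat_lit 6) (nat_lit 148) (nat_lit 5) (nat_lit 194)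 (nat_lit 196) (nat_lit 210)))) (PT.nd (nat_lit 156) (PT.nd (nat_lit 78) (PT.lf (nat_lit 12008) (nat_lit 6) (nat_lit 158) (nat_lit 5) (nat_lit 195) (nat_lit 196) (nat_lit 209)) (PT.lf (nat_lit 12692) (nat_lit 3) (nat_lit 167) (nat_lit 3) (nat_lit 196) (nat_lit 196) (nat_lit 208))) (PT.nd (nat_lit 78) (PT.lf (nat_lit 13376) (nat_lit 6) (nat_lit 176) (nat_lit 3) (nat_lit 197) (nat_lit 196) (nat_lit 207)) (PT.nd (nat_lit 78) (PT.lf (nat_lit 13984) (nat_lit 6) (nat_lit 184) (nat_lit 3) (nat_lit 198) (nat_lit 196) (nat_lit 206)) (PT.lf (nat_lit 14516) (nat_lit 6) (nat_lit 191) (nat_lit 3) (nat_lit 199) (nat_lit 196) (nat_lit 205))))))))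
noncomputable def pc10 : PT := (PT.nd (nat_lit 62400) (PT.nd (nat_lit 624) (PT.nd (nat_lit 312) (PT.nd (nat_lit 156) (PT.nd (nat_lit 78) (PT.lf (nat_lit 14972) (nat_lit 6) (nat_lit 197) (nat_lit 3) (nat_lit 200) (nat_lit 196) (nat_lit 204)) (PT.lf (nat_lit 15048) (nat_lit 6) (nat_lit 198) (nat_lit 3) (nat_lit 201) (nat_lit 196) (nat_lit 203))) (PT.nd (nat_lit 78) (PT.lf (nat_lit 15124) (nat_lit 3) (nat_lit 199) (nat_lit 1) (nat_lit 202) (nat_lit 196) (nat_lit 202)) (PT.lf (nat_lit 15048) (nat_lit 6) (nat_lit 198) (nat_lit 1) (nat_lit 203) (nat_lit 196) (nat_lit 201)))) (PT.nd (nat_lit 156) (PT.nd (nat_lit 78) (PT.lf (nat_lit 14972) (nat_lit 6) (nat_lit 197) (nat_lit 1) (nat_lit 204) (nat_lit 196) (nat_lit 200)) (PT.lf (nat_lit 14516) (nat_lit 6) (nat_lit 191) (nat_lit 1) (nat_lit 205) (nat_lit 196) (nat_lit 199))) (PT.nd (nat_lit 78) (PT.lf (nat_lit 13984) (nat_lit 6) (nat_lit 184) (nat_lit 1)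 (nat_lit 206) (nat_lit 196) (nat_lit 198)) (PT.lf (nat_lit 13376) (nat_lit 6) (nat_lit 176) (nat_lit 1) (nat_lit 207) (nat_lit 196) (nat_lit 197))))) (PT.nd (nat_lit 61386) (PT.nd (nat_lit 156) (PT.nd (nat_lit 78) (PT.lf (nat_lit 12692) (nat_lit 3) (nat_lit 167) (nat_lit 0) (nat_lit 208) (nat_lit 196) (nat_lit 196)) (PT.lf (nat_lit 12008) (nat_lit 6) (nat_lit 158) (nat_lit 0) (nat_lit 209) (nat_lit 196) (nat_lit 195))) (PT.nd (nat_lit 61152) (PT.lf (nat_lit 11248) (nat_lit 6) (nat_lit 148) (nat_lit 0) (nat_lit 210) (nat_lit 196) (nat_lit 194)) (PT.lf (nat_lit 11324) (nat_lit 6) (nat_lit 149) (nat_lit 5) (nat_lit 193) (nat_lit 197) (nat_lit 210)))) (PT.nd (nat_lit 156) (PT.nd (nat_lit 78) (PT.lf (nat_lit 12084) (nat_lit 6) (nat_lit 159) (nat_lit 5) (nat_lit 194) (nat_lit 197) (nat_lit 209)) (PT.lf (nat_lit 12768) (nat_lit 6) (nat_lit 168) (nat_lit 5) (nat_lit 195) (nat_lit 197) (nat_lit 208))) (PT.nd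 (nat_lit 78) (PT.lf (nat_lit 13376) (nat_lit 6) (nat_lit 176) (nat_lit 5) (nat_lit 196) (nat_lit 197) (nat_lit 207)) (PT.nd (nat_lit 78) (PT.lf (nat_lit 13908) (nat_lit 3) (nat_lit 183) (nat_lit 3) (nat_lit 197) (nat_lit 197) (nat_lit 206)) (PT.lf (nat_lit 14440) (nat_lit 6) (nat_lit 190) (nat_lit 3) (nat_lit 198) (nat_lit 197) (nat_lit 205))))))) (PT.nd (nat_lit 624) (PT.nd (nat_lit 312) (PT.nd (nat_lit 156) (PT.nd (nat_lit 78) (PT.lf (nat_lit 14896) (nat_lit 6) (nat_lit 196) (nat_lit 3) (nat_lit 199) (nat_lit 197) (nat_lit 204)) (PT.lf (nat_lit 15276) (nat_lit 6) (nat_lit 201) (nat_lit 3) (nat_lit 200) (nat_lit 197) (nat_lit 203))) (PT.nd (nat_lit 78) (PT.lf (nat_lit 15352) (nat_lit 6) (nat_lit 202) (nat_lit 3) (nat_lit 201) (nat_lit 197) (nat_lit 202)) (PT.lf (nat_lit 15352) (nat_lit 6) (nat_lit 202) (nat_lit 1) (nat_lit 202) (nat_lit 197) (nat_lit 201)))) (PT.nd (nat_lit 156) (PT.nd (nat_lit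 78) (PT.lf (nat_lit 15276) (nat_lit 6) (nat_lit 201) (nat_lit 1) (nat_lit 203) (nat_lit 197) (nat_lit 200)) (PT.lf (nat_lit 14896) (nat_lit 6) (nat_lit 196) (nat_lit 1) (nat_lit 204) (nat_lit 197) (nat_lit 199))) (PT.nd (nat_lit 78) (PT.lf (nat_lit 14440) (nat_lit 6) (nat_lit 190) (nat_lit 1) (nat_lit 205) (nat_lit 197) (nat_lit 198)) (PT.lf (nat_lit 13908) (nat_lit 3) (nat_lit 183) (nat_lit 0) (nat_lit 206) (nat_lit 197) (nat_lit 197))))) (PT.nd (nat_lit 61308) (PT.nd (nat_lit 156) (PT.nd (nat_lit 78) (PT.lf (nat_lit 13376) (nat_lit 6) (nat_lit 176) (nat_lit 0) (nat_lit 207) (nat_lit 197) (nat_lit 196)) (PT.lf (nat_lit 12768) (nat_lit 6) (nat_lit 168) (nat_lit 0) (nat_lit 208) (nat_lit 197) (nat_lit 195))) (PT.nd (nat_lit 78) (PT.lf (nat_lit 12084) (nat_lit 6) (nat_lit 159) (nat_lit 0) (nat_lit 209) (nat_lit 197) (nat_lit 194)) (PT.lf (nat_lit 11324) (nat_lit 6) (nat_lit 149) (nat_lit 0) (nat_lit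 210) (nat_lit 197) (nat_lit 193)))) (PT.nd (nat_lit 156) (PT.nd (nat_lit 78) (PT.lf (nat_lit 11400) (nat_lit 6) (nat_lit 150) (nat_lit 5) (nat_lit 192) (nat_lit 198) (nat_lit 210)) (PT.lf (nat_lit 12160) (nat_lit 6) (nat_lit 160) (nat_lit 5) (nat_lit 193) (nat_lit 198) (nat_lit 209))) (PT.nd (nat_lit 78) (PT.lf (nat_lit 12844) (nat_lit 6) (nat_lit 169) (nat_lit 5) (nat_lit 194) (nat_lit 198) (nat_lit 208)) (PT.nd (nat_lit 78) (PT.lf (nat_lit 13452) (nat_lit 6) (nat_lit 177) (nat_lit 5) (nat_lit 195) (nat_lit 198) (nat_lit 207)) (PT.lf (nat_lit 13984) (nat_lit 6) (nat_lit 184) (nat_lit 5) (nat_lit 196) (nat_lit 198) (nat_lit 206))))))))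
noncomputable def pc11 : PT := (PT.nd (nat_lit 62244) (PT.nd (nat_lit 624) (PT.nd (nat_lit 312) (PT.nd (nat_lit 156) (PT.nd (nat_lit 78) (PT.lf (nat_lit 14440) (nat_lit 6) (nat_lit 190) (nat_lit 5) (nat_lit 197) (nat_lit 198) (nat_lit 205)) (PT.lf (nat_lit 14820) (nat_lit 3) (nat_lit 195) (nat_lit 3) (nat_lit 198) (nat_lit 198) (nat_lit 204))) (PT.nd (nat_lit 78) (PT.lf (nat_lit 15200) (nat_lit 6) (nat_lit 200) (nat_lit 3) (nat_lit 199) (nat_lit 198) (nat_lit 203)) (PT.lf (nat_lit 15504) (nat_lit 6) (nat_lit 204) (nat_lit 3) (nat_lit 200) (nat_lit 198) (nat_lit 202)))) (PT.nd (nat_lit 156) (PT.nd (nat_lit 78) (PT.lf (nat_lit 15580) (nat_lit 3) (nat_lit 205) (nat_lit 1) (nat_lit 201) (nat_lit 198) (nat_lit 201)) (PT.lf (nat_lit 15504) (nat_lit 6) (nat_lit 204) (nat_lit 1) (nat_lit 202) (nat_lit 198) (nat_lit 200))) (PT.nd (nat_lit 78) (PT.lf (nat_lit 15200) (nat_lit 6) (nat_lit 200) (nat_lit 1)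 (nat_lit 203) (nat_lit 198) (nat_lit 199)) (PT.lf (nat_lit 14820) (nat_lit 3) (nat_lit 195) (nat_lit 0) (nat_lit 204) (nat_lit 198) (nat_lit 198))))) (PT.nd (nat_lit 312) (PT.nd (nat_lit 156) (PT.nd (nat_lit 78) (PT.lf (nat_lit 14440) (nat_lit 6) (nat_lit 190) (nat_lit 0) (nat_lit 205) (nat_lit 198) (nat_lit 197)) (PT.lf (nat_lit 13984) (nat_lit 6) (nat_lit 184) (nat_lit 0) (nat_lit 206) (nat_lit 198) (nat_lit 196))) (PT.nd (nat_lit 78) (PT.lf (nat_lit 13452) (nat_lit 6) (nat_lit 177) (nat_lit 0) (nat_lit 207) (nat_lit 198) (nat_lit 195)) (PT.lf (nat_lit 12844) (nat_lit 6) (nat_lit 169) (nat_lit 0) (nat_lit 208) (nat_lit 198) (nat_lit 194)))) (PT.nd (nat_lit 61074) (PT.nd (nat_lit 78) (PT.lf (nat_lit 12160) (nat_lit 6) (nat_lit 160) (nat_lit 0) (nat_lit 209) (nat_lit 198) (nat_lit 193)) (PT.lf (nat_lit 11400) (nat_lit 6) (nat_lit 150) (nat_lit 0) (nat_lit 210) (nat_lit 198) (nat_lit 192))) (PT.nd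 (nat_lit 78) (PT.lf (nat_lit 11476) (nat_lit 6) (nat_lit 151) (nat_lit 5) (nat_lit 191) (nat_lit 199) (nat_lit 210)) (PT.nd (nat_lit 78) (PT.lf (nat_lit 12236) (nat_lit 6) (nat_lit 161) (nat_lit 5) (nat_lit 192) (nat_lit 199) (nat_lit 209)) (PT.lf (nat_lit 12920) (nat_lit 6) (nat_lit 170) (nat_lit 5) (nat_lit 193) (nat_lit 199) (nat_lit 208))))))) (PT.nd (nat_lit 624) (PT.nd (nat_lit 312) (PT.nd (nat_lit 156) (PT.nd (nat_lit 78) (PT.lf (nat_lit 13528) (nat_lit 6) (nat_lit 178) (nat_lit 5) (nat_lit 194) (nat_lit 199) (nat_lit 207)) (PT.lf (nat_lit 14060) (nat_lit 6) (nat_lit 185) (nat_lit 5) (nat_lit 195) (nat_lit 199) (nat_lit 206))) (PT.nd (nat_lit 78) (PT.lf (nat_lit 14516) (nat_lit 6) (nat_lit 191) (nat_lit 5) (nat_lit 196) (nat_lit 199) (nat_lit 205)) (PT.lf (nat_lit 14896) (nat_lit 6) (nat_lit 196) (nat_lit 5) (nat_lit 197) (nat_lit 199) (nat_lit 204)))) (PT.nd (nat_lit 156) (PT.nd (nat_lit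 78) (PT.lf (nat_lit 15200) (nat_lit 6) (nat_lit 200) (nat_lit 5) (nat_lit 198) (nat_lit 199) (nat_lit 203)) (PT.lf (nat_lit 15428) (nat_lit 3) (nat_lit 203) (nat_lit 3) (nat_lit 199) (nat_lit 199) (nat_lit 202))) (PT.nd (nat_lit 78) (PT.lf (nat_lit 15656) (nat_lit 6) (nat_lit 206) (nat_lit 3) (nat_lit 200) (nat_lit 199) (nat_lit 201)) (PT.lf (nat_lit 15656) (nat_lit 6) (nat_lit 206) (nat_lit 1) (nat_lit 201) (nat_lit 199) (nat_lit 200))))) (PT.nd (nat_lit 312) (PT.nd (nat_lit 156) (PT.nd (nat_lit 78) (PT.lf (nat_lit 15428) (nat_lit 3) (nat_lit 203) (nat_lit 0) (nat_lit 202) (nat_lit 199) (nat_lit 199)) (PT.lf (nat_lit 15200) (nat_lit 6) (nat_lit 200) (nat_lit 0) (nat_lit 203) (nat_lit 199) (nat_lit 198))) (PT.nd (nat_lit 78) (PT.lf (nat_lit 14896) (nat_lit 6) (nat_lit 196) (nat_lit 0) (nat_lit 204) (nat_lit 199) (nat_lit 197)) (PT.lf (nat_lit 14516) (nat_lit 6) (nat_lit 191) (nat_lit 0) (nat_lit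 205) (nat_lit 199) (nat_lit 196)))) (PT.nd (nat_lit 156) (PT.nd (nat_lit 78) (PT.lf (nat_lit 14060) (nat_lit 6) (nat_lit 185) (nat_lit 0) (nat_lit 206) (nat_lit 199) (nat_lit 195)) (PT.lf (nat_lit 13528) (nat_lit 6) (nat_lit 178) (nat_lit 0) (nat_lit 207) (nat_lit 199) (nat_lit 194))) (PT.nd (nat_lit 78) (PT.lf (nat_lit 12920) (nat_lit 6) (nat_lit 170) (nat_lit 0) (nat_lit 208) (nat_lit 199) (nat_lit 193)) (PT.nd (nat_lit 78) (PT.lf (nat_lit 12236) (nat_lit 6) (nat_lit 161) (nat_lit 0) (nat_lit 209) (nat_lit 199) (nat_lit 192)) (PT.lf (nat_lit 11476) (nat_lit 6) (nat_lit 151) (nat_lit 0) (nat_lit 210) (nat_lit 199) (nat_lit 191))))))))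
noncomputable def pc12 : PT := (PT.nd (nat_lit 1248) (PT.nd (nat_lit 624) (PT.nd (nat_lit 312) (PT.nd (nat_lit 156) (PT.nd (nat_lit 78) (PT.lf (nat_lit 11552) (nat_lit 6) (nat_lit 152) (nat_lit 5) (nat_lit 190) (nat_lit 200) (nat_lit 210)) (PT.lf (nat_lit 12312) (nat_lit 6) (nat_lit 162) (nat_lit 5) (nat_lit 191) (nat_lit 200) (nat_lit 209))) (PT.nd (nat_lit 78) (PT.lf (nat_lit 12996) (nat_lit 6) (nat_lit 171) (nat_lit 5) (nat_lit 192) (nat_lit 200) (nat_lit 208)) (PT.lf (nat_lit 13604) (nat_lit 6) (nat_lit 179) (nat_lit 5) (nat_lit 193) (nat_lit 200) (nat_lit 207)))) (PT.nd (nat_lit 156) (PT.nd (nat_lit 78) (PT.lf (nat_lit 14136) (nat_lit 6) (nat_lit 186) (nat_lit 5) (nat_lit 194) (nat_lit 200) (nat_lit 206)) (PT.lf (nat_lit 14592) (nat_lit 6) (nat_lit 192) (nat_lit 5) (nat_lit 195) (nat_lit 200) (nat_lit 205))) (PT.nd (nat_lit 78) (PT.lf (nat_lit 14972) (nat_lit 6) (nat_lit 197) (nat_lit 5) (nat_lit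 196) (nat_lit 200) (nat_lit 204)) (PT.lf (nat_lit 15276) (nat_lit 6) (nat_lit 201) (nat_lit 5) (nat_lit 197) (nat_lit 200) (nat_lit 203))))) (PT.nd (nat_lit 312) (PT.nd (nat_lit 156) (PT.nd (nat_lit 78) (PT.lf (nat_lit 15504) (nat_lit 6) (nat_lit 204) (nat_lit 5) (nat_lit 198) (nat_lit 200) (nat_lit 202)) (PT.lf (nat_lit 15656) (nat_lit 6) (nat_lit 206) (nat_lit 5) (nat_lit 199) (nat_lit 200) (nat_lit 201))) (PT.nd (nat_lit 78) (PT.lf (nat_lit 15732) (nat_lit 1) (nat_lit 207) (nat_lit 0) (nat_lit 200) (nat_lit 200) (nat_lit 200)) (PT.lf (nat_lit 15656) (nat_lit 6) (nat_lit 206) (nat_lit 0) (nat_lit 201) (nat_lit 200) (nat_lit 199)))) (PT.nd (nat_lit 156) (PT.nd (nat_lit 78) (PT.lf (nat_lit 15504) (nat_lit 6) (nat_lit 204) (nat_lit 0) (nat_lit 202) (nat_lit 200) (nat_lit 198)) (PT.lf (nat_lit 15276) (nat_lit 6) (nat_lit 201) (nat_lit 0) (nat_lit 203) (nat_lit 200) (nat_lit 197))) (PT.nd (nat_lit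 78) (PT.lf (nat_lit 14972) (nat_lit 6) (nat_lit 197) (nat_lit 0) (nat_lit 204) (nat_lit 200) (nat_lit 196)) (PT.lf (nat_lit 14592) (nat_lit 6) (nat_lit 192) (nat_lit 0) (nat_lit 205) (nat_lit 200) (nat_lit 195)))))) (PT.nd (nat_lit 61308) (PT.nd (nat_lit 312) (PT.nd (nat_lit 156) (PT.nd (nat_lit 78) (PT.lf (nat_lit 14136) (nat_lit 6) (nat_lit 186) (nat_lit 0) (nat_lit 206) (nat_lit 200) (nat_lit 194)) (PT.lf (nat_lit 13604) (nat_lit 6) (nat_lit 179) (nat_lit 0) (nat_lit 207) (nat_lit 200) (nat_lit 193))) (PT.nd (nat_lit 78) (PT.lf (nat_lit 12996) (nat_lit 6) (nat_lit 171) (nat_lit 0) (nat_lit 208) (nat_lit 200) (nat_lit 192)) (PT.lf (nat_lit 12312) (nat_lit 6) (nat_lit 162) (nat_lit 0) (nat_lit 209) (nat_lit 200) (nat_lit 191)))) (PT.nd (nat_lit 60840) (PT.nd (nat_lit 60762) (PT.lf (nat_lit 11552) (nat_lit 6) (nat_lit 152) (nat_lit 0) (nat_lit 210) (nat_lit 200) (nat_lit 190)) (PT.lf (nat_lit 10336)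 (nat_lit 6) (nat_lit 136) (nat_lit 5) (nat_lit 188) (nat_lit 201) (nat_lit 211))) (PT.nd (nat_lit 78) (PT.lf (nat_lit 10792) (nat_lit 6) (nat_lit 142) (nat_lit 5) (nat_lit 189) (nat_lit 201) (nat_lit 210)) (PT.lf (nat_lit 11628) (nat_lit 6) (nat_lit 153) (nat_lit 5) (nat_lit 190) (nat_lit 201) (nat_lit 209))))) (PT.nd (nat_lit 312) (PT.nd (nat_lit 156) (PT.nd (nat_lit 78) (PT.lf (nat_lit 12388) (nat_lit 6) (nat_lit 163) (nat_lit 5) (nat_lit 191) (nat_lit 201) (nat_lit 208)) (PT.lf (nat_lit 13072) (nat_lit 6) (nat_lit 172) (nat_lit 5) (nat_lit 192) (nat_lit 201) (nat_lit 207))) (PT.nd (nat_lit 78) (PT.lf (nat_lit 13680) (nat_lit 6) (nat_lit 180) (nat_lit 5) (nat_lit 193) (nat_lit 201) (nat_lit 206)) (PT.lf (nat_lit 14212) (nat_lit 6) (nat_lit 187) (nat_lit 5) (nat_lit 194) (nat_lit 201) (nat_lit 205)))) (PT.nd (nat_lit 156) (PT.nd (nat_lit 78) (PT.lf (nat_lit 14668) (nat_lit 6) (nat_lit 193) (nat_lit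 5) (nat_lit 195) (nat_lit 201) (nat_lit 204)) (PT.lf (nat_lit 15048) (nat_lit 6) (nat_lit 198) (nat_lit 5) (nat_lit 196) (nat_lit 201) (nat_lit 203))) (PT.nd (nat_lit 78) (PT.lf (nat_lit 15352) (nat_lit 6) (nat_lit 202) (nat_lit 5) (nat_lit 197) (nat_lit 201) (nat_lit 202)) (PT.nd (nat_lit 78) (PT.lf (nat_lit 15580) (nat_lit 3) (nat_lit 205) (nat_lit 4) (nat_lit 198) (nat_lit 201) (nat_lit 201)) (PT.lf (nat_lit 15656) (nat_lit 6) (nat_lit 206) (nat_lit 4) (nat_lit 199) (nat_lit 201) (nat_lit 200))))))))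
noncomputable def pc13 : PT := (PT.nd (nat_lit 61854) (PT.nd (nat_lit 624) (PT.nd (nat_lit 312) (PT.nd (nat_lit 156) (PT.nd (nat_lit 78) (PT.lf (nat_lit 15656) (nat_lit 6) (nat_lit 206) (nat_lit 2) (nat_lit 200) (nat_lit 201) (nat_lit 199)) (PT.lf (nat_lit 15580) (nat_lit 3) (nat_lit 205) (nat_lit 0) (nat_lit 201) (nat_lit 201) (nat_lit 198))) (PT.nd (nat_lit 78) (PT.lf (nat_lit 15352) (nat_lit 6) (nat_lit 202) (nat_lit 0) (nat_lit 202) (nat_lit 201) (nat_lit 197)) (PT.lf (nat_lit 15048) (nat_lit 6) (nat_lit 198) (nat_lit 0) (nat_lit 203) (nat_lit 201) (nat_lit 196)))) (PT.nd (nat_lit 156) (PT.nd (nat_lit 78) (PT.lf (nat_lit 14668) (nat_lit 6) (nat_lit 193) (nat_lit 0) (nat_lit 204) (nat_lit 201) (nat_lit 195)) (PT.lf (nat_lit 14212) (nat_lit 6) (nat_lit 187) (nat_lit 0) (nat_lit 205) (nat_lit 201) (nat_lit 194))) (PT.nd (nat_lit 78) (PT.lf (nat_lit 13680) (nat_lit 6) (nat_lit 180) (nat_lit 0)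 (nat_lit 206) (nat_lit 201) (nat_lit 193)) (PT.lf (nat_lit 13072) (nat_lit 6) (nat_lit 172) (nat_lit 0) (nat_lit 207) (nat_lit 201) (nat_lit 192))))) (PT.nd (nat_lit 60840) (PT.nd (nat_lit 156) (PT.nd (nat_lit 78) (PT.lf (nat_lit 12388) (nat_lit 6) (nat_lit 163) (nat_lit 0) (nat_lit 208) (nat_lit 201) (nat_lit 191)) (PT.lf (nat_lit 11628) (nat_lit 6) (nat_lit 153) (nat_lit 0) (nat_lit 209) (nat_lit 201) (nat_lit 190))) (PT.nd (nat_lit 78) (PT.lf (nat_lit 10792) (nat_lit 6) (nat_lit 142) (nat_lit 0) (nat_lit 210) (nat_lit 201) (nat_lit 189)) (PT.lf (nat_lit 10336) (nat_lit 6) (nat_lit 136) (nat_lit 0) (nat_lit 211) (nat_lit 201) (nat_lit 188)))) (PT.nd (nat_lit 156) (PT.nd (nat_lit 78) (PT.lf (nat_lit 9956) (nat_lit 6) (nat_lit 131) (nat_lit 5) (nat_lit 187) (nat_lit 202) (nat_lit 211)) (PT.lf (nat_lit 10412) (nat_lit 6) (nat_lit 137) (nat_lit 5) (nat_lit 188) (nat_lit 202) (nat_lit 210))) (PT.nd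 (nat_lit 78) (PT.lf (nat_lit 10868) (nat_lit 6) (nat_lit 143) (nat_lit 5) (nat_lit 189) (nat_lit 202) (nat_lit 209)) (PT.nd (nat_lit 78) (PT.lf (nat_lit 11704) (nat_lit 6) (nat_lit 154) (nat_lit 5) (nat_lit 190) (nat_lit 202) (nat_lit 208)) (PT.lf (nat_lit 12464) (nat_lit 6) (nat_lit 164) (nat_lit 5) (nat_lit 191) (nat_lit 202) (nat_lit 207))))))) (PT.nd (nat_lit 624) (PT.nd (nat_lit 312) (PT.nd (nat_lit 156) (PT.nd (nat_lit 78) (PT.lf (nat_lit 13148) (nat_lit 6) (nat_lit 173) (nat_lit 5) (nat_lit 192) (nat_lit 202) (nat_lit 206)) (PT.lf (nat_lit 13756) (nat_lit 6) (nat_lit 181) (nat_lit 5) (nat_lit 193) (nat_lit 202) (nat_lit 205))) (PT.nd (nat_lit 78) (PT.lf (nat_lit 14288) (nat_lit 6) (nat_lit 188) (nat_lit 5) (nat_lit 194) (nat_lit 202) (nat_lit 204)) (PT.lf (nat_lit 14744) (nat_lit 6) (nat_lit 194) (nat_lit 5) (nat_lit 195) (nat_lit 202) (nat_lit 203)))) (PT.nd (nat_lit 156) (PT.nd (nat_lit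 78) (PT.lf (nat_lit 15124) (nat_lit 3) (nat_lit 199) (nat_lit 4) (nat_lit 196) (nat_lit 202) (nat_lit 202)) (PT.lf (nat_lit 15352) (nat_lit 6) (nat_lit 202) (nat_lit 4) (nat_lit 197) (nat_lit 202) (nat_lit 201))) (PT.nd (nat_lit 78) (PT.lf (nat_lit 15504) (nat_lit 6) (nat_lit 204) (nat_lit 4) (nat_lit 198) (nat_lit 202) (nat_lit 200)) (PT.lf (nat_lit 15428) (nat_lit 3) (nat_lit 203) (nat_lit 2) (nat_lit 199) (nat_lit 202) (nat_lit 199))))) (PT.nd (nat_lit 312) (PT.nd (nat_lit 156) (PT.nd (nat_lit 78) (PT.lf (nat_lit 15504) (nat_lit 6) (nat_lit 204) (nat_lit 2) (nat_lit 200) (nat_lit 202) (nat_lit 198)) (PT.lf (nat_lit 15352) (nat_lit 6) (nat_lit 202) (nat_lit 2) (nat_lit 201) (nat_lit 202) (nat_lit 197))) (PT.nd (nat_lit 78) (PT.lf (nat_lit 15124) (nat_lit 3) (nat_lit 199) (nat_lit 0) (nat_lit 202) (nat_lit 202) (nat_lit 196)) (PT.lf (nat_lit 14744) (nat_lit 6) (nat_lit 194) (nat_lit 0) (nat_lit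 203) (nat_lit 202) (nat_lit 195)))) (PT.nd (nat_lit 156) (PT.nd (nat_lit 78) (PT.lf (nat_lit 14288) (nat_lit 6) (nat_lit 188) (nat_lit 0) (nat_lit 204) (nat_lit 202) (nat_lit 194)) (PT.lf (nat_lit 13756) (nat_lit 6) (nat_lit 181) (nat_lit 0) (nat_lit 205) (nat_lit 202) (nat_lit 193))) (PT.nd (nat_lit 78) (PT.lf (nat_lit 13148) (nat_lit 6) (nat_lit 173) (nat_lit 0) (nat_lit 206) (nat_lit 202) (nat_lit 192)) (PT.nd (nat_lit 78) (PT.lf (nat_lit 12464) (nat_lit 6) (nat_lit 164) (nat_lit 0) (nat_lit 207) (nat_lit 202) (nat_lit 191)) (PT.lf (nat_lit 11704) (nat_lit 6) (nat_lit 154) (nat_lit 0) (nat_lit 208) (nat_lit 202) (nat_lit 190))))))))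
noncomputable def pc14 : PT := (PT.nd (nat_lit 61776) (PT.nd (nat_lit 61074) (PT.nd (nat_lit 60762) (PT.nd (nat_lit 156) (PT.nd (nat_lit 78) (PT.lf (nat_lit 10868) (nat_lit 6) (nat_lit 143) (nat_lit 0) (nat_lit 209) (nat_lit 202) (nat_lit 189)) (PT.lf (nat_lit 10412) (nat_lit 6) (nat_lit 137) (nat_lit 0) (nat_lit 210) (nat_lit 202) (nat_lit 188))) (PT.nd (nat_lit 60528) (PT.lf (nat_lit 9956) (nat_lit 6) (nat_lit 131) (nat_lit 0) (nat_lit 211) (nat_lit 202) (nat_lit 187)) (PT.lf (nat_lit 9576) (nat_lit 6) (nat_lit 126) (nat_lit 5) (nat_lit 186) (nat_lit 203) (nat_lit 211)))) (PT.nd (nat_lit 156) (PT.nd (nat_lit 78) (PT.lf (nat_lit 10032) (nat_lit 6) (nat_lit 132) (nat_lit 5) (nat_lit 187) (nat_lit 203) (nat_lit 210)) (PT.lf (nat_lit 10488) (nat_lit 6) (nat_lit 138) (nat_lit 5) (nat_lit 188) (nat_lit 203) (nat_lit 209))) (PT.nd (nat_lit 78) (PT.lf (nat_lit 10944) (nat_lit 6) (nat_lit 144) (nat_lit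 5) (nat_lit 189) (nat_lit 203) (nat_lit 208)) (PT.lf (nat_lit 11780) (nat_lit 6) (nat_lit 155) (nat_lit 5) (nat_lit 190) (nat_lit 203) (nat_lit 207))))) (PT.nd (nat_lit 312) (PT.nd (nat_lit 156) (PT.nd (nat_lit 78) (PT.lf (nat_lit 12540) (nat_lit 6) (nat_lit 165) (nat_lit 5) (nat_lit 191) (nat_lit 203) (nat_lit 206)) (PT.lf (nat_lit 13224) (nat_lit 6) (nat_lit 174) (nat_lit 5) (nat_lit 192) (nat_lit 203) (nat_lit 205))) (PT.nd (nat_lit 78) (PT.lf (nat_lit 13832) (nat_lit 6) (nat_lit 182) (nat_lit 5) (nat_lit 193) (nat_lit 203) (nat_lit 204)) (PT.lf (nat_lit 14364) (nat_lit 3) (nat_lit 189) (nat_lit 4) (nat_lit 194) (nat_lit 203) (nat_lit 203)))) (PT.nd (nat_lit 156) (PT.nd (nat_lit 78) (PT.lf (nat_lit 14744) (nat_lit 6) (nat_lit 194) (nat_lit 4) (nat_lit 195) (nat_lit 203) (nat_lit 202)) (PT.lf (nat_lit 15048) (nat_lit 6) (nat_lit 198) (nat_lit 4) (nat_lit 196) (nat_lit 203) (nat_lit 201))) (PT.nd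 (nat_lit 78) (PT.lf (nat_lit 15276) (nat_lit 6) (nat_lit 201) (nat_lit 4) (nat_lit 197) (nat_lit 203) (nat_lit 200)) (PT.nd (nat_lit 78) (PT.lf (nat_lit 15200) (nat_lit 6) (nat_lit 200) (nat_lit 4) (nat_lit 198) (nat_lit 203) (nat_lit 199)) (PT.lf (nat_lit 15200) (nat_lit 6) (nat_lit 200) (nat_lit 2) (nat_lit 199) (nat_lit 203) (nat_lit 198))))))) (PT.nd (nat_lit 624) (PT.nd (nat_lit 312) (PT.nd (nat_lit 156) (PT.nd (nat_lit 78) (PT.lf (nat_lit 15276) (nat_lit 6) (nat_lit 201) (nat_lit 2) (nat_lit 200) (nat_lit 203) (nat_lit 197)) (PT.lf (nat_lit 15048) (nat_lit 6) (nat_lit 198) (nat_lit 2) (nat_lit 201) (nat_lit 203) (nat_lit 196))) (PT.nd (nat_lit 78) (PT.lf (nat_lit 14744) (nat_lit 6) (nat_lit 194) (nat_lit 2) (nat_lit 202) (nat_lit 203) (nat_lit 195)) (PT.lf (nat_lit 14364) (nat_lit 3) (nat_lit 189) (nat_lit 0) (nat_lit 203) (nat_lit 203) (nat_lit 194)))) (PT.nd (nat_lit 156) (PT.nd (nat_lit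 78) (PT.lf (nat_lit 13832) (nat_lit 6) (nat_lit 182) (nat_lit 0) (nat_lit 204) (nat_lit 203) (nat_lit 193)) (PT.lf (nat_lit 13224) (nat_lit 6) (nat_lit 174) (nat_lit 0) (nat_lit 205) (nat_lit 203) (nat_lit 192))) (PT.nd (nat_lit 78) (PT.lf (nat_lit 12540) (nat_lit 6) (nat_lit 165) (nat_lit 0) (nat_lit 206) (nat_lit 203) (nat_lit 191)) (PT.lf (nat_lit 11780) (nat_lit 6) (nat_lit 155) (nat_lit 0) (nat_lit 207) (nat_lit 203) (nat_lit 190))))) (PT.nd (nat_lit 60606) (PT.nd (nat_lit 156) (PT.nd (nat_lit 78) (PT.lf (nat_lit 10944) (nat_lit 6) (nat_lit 144) (nat_lit 0) (nat_lit 208) (nat_lit 203) (nat_lit 189)) (PT.lf (nat_lit 10488) (nat_lit 6) (nat_lit 138) (nat_lit 0) (nat_lit 209) (nat_lit 203) (nat_lit 188))) (PT.nd (nat_lit 78) (PT.lf (nat_lit 10032) (nat_lit 6) (nat_lit 132) (nat_lit 0) (nat_lit 210) (nat_lit 203) (nat_lit 187)) (PT.lf (nat_lit 9576) (nat_lit 6) (nat_lit 126) (nat_lit 0) (nat_lit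 211) (nat_lit 203) (nat_lit 186)))) (PT.nd (nat_lit 156) (PT.nd (nat_lit 78) (PT.lf (nat_lit 8892) (nat_lit 6) (nat_lit 117) (nat_lit 5) (nat_lit 184) (nat_lit 204) (nat_lit 212)) (PT.lf (nat_lit 9272) (nat_lit 6) (nat_lit 122) (nat_lit 5) (nat_lit 185) (nat_lit 204) (nat_lit 211))) (PT.nd (nat_lit 78) (PT.lf (nat_lit 9652) (nat_lit 6) (nat_lit 127) (nat_lit 5) (nat_lit 186) (nat_lit 204) (nat_lit 210)) (PT.nd (nat_lit 78) (PT.lf (nat_lit 10108) (nat_lit 6) (nat_lit 133) (nat_lit 5) (nat_lit 187) (nat_lit 204) (nat_lit 209)) (PT.lf (nat_lit 10564) (nat_lit 6) (nat_lit 139) (nat_lit 5) (nat_lit 188) (nat_lit 204) (nat_lit 208))))))))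
noncomputable def pc15 : PT := (PT.nd (nat_lit 1326) (PT.nd (nat_lit 624) (PT.nd (nat_lit 312) (PT.nd (nat_lit 156) (PT.nd (nat_lit 78) (PT.lf (nat_lit 11020) (nat_lit 6) (nat_lit 145) (nat_lit 5) (nat_lit 189) (nat_lit 204) (nat_lit 207)) (PT.lf (nat_lit 11856) (nat_lit 6) (nat_lit 156) (nat_lit 5) (nat_lit 190) (nat_lit 204) (nat_lit 206))) (PT.nd (nat_lit 78) (PT.lf (nat_lit 12616) (nat_lit 6) (nat_lit 166) (nat_lit 5) (nat_lit 191) (nat_lit 204) (nat_lit 205)) (PT.lf (nat_lit 13300) (nat_lit 3) (nat_lit 175) (nat_lit 4) (nat_lit 192) (nat_lit 204) (nat_lit 204)))) (PT.nd (nat_lit 156) (PT.nd (nat_lit 78) (PT.lf (nat_lit 13832) (nat_lit 6) (nat_lit 182) (nat_lit 4) (nat_lit 193) (nat_lit 204) (nat_lit 203)) (PT.lf (nat_lit 14288) (nat_lit 6) (nat_lit 188) (nat_lit 4) (nat_lit 194) (nat_lit 204) (nat_lit 202))) (PT.nd (nat_lit 78) (PT.lf (nat_lit 14668) (nat_lit 6) (nat_lit 193) (nat_lit 4) (nat_lit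 195) (nat_lit 204) (nat_lit 201)) (PT.lf (nat_lit 14972) (nat_lit 6) (nat_lit 197) (nat_lit 4) (nat_lit 196) (nat_lit 204) (nat_lit 200))))) (PT.nd (nat_lit 312) (PT.nd (nat_lit 156) (PT.nd (nat_lit 78) (PT.lf (nat_lit 14896) (nat_lit 6) (nat_lit 196) (nat_lit 4) (nat_lit 197) (nat_lit 204) (nat_lit 199)) (PT.lf (nat_lit 14820) (nat_lit 3) (nat_lit 195) (nat_lit 2) (nat_lit 198) (nat_lit 204) (nat_lit 198))) (PT.nd (nat_lit 78) (PT.lf (nat_lit 14896) (nat_lit 6) (nat_lit 196) (nat_lit 2) (nat_lit 199) (nat_lit 204) (nat_lit 197)) (PT.lf (nat_lit 14972) (nat_lit 6) (nat_lit 197) (nat_lit 2) (nat_lit 200) (nat_lit 204) (nat_lit 196)))) (PT.nd (nat_lit 156) (PT.nd (nat_lit 78) (PT.lf (nat_lit 14668) (nat_lit 6) (nat_lit 193) (nat_lit 2) (nat_lit 201) (nat_lit 204) (nat_lit 195)) (PT.lf (nat_lit 14288) (nat_lit 6) (nat_lit 188) (nat_lit 2) (nat_lit 202) (nat_lit 204) (nat_lit 194))) (PT.nd (nat_lit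 78) (PT.lf (nat_lit 13832) (nat_lit 6) (nat_lit 182) (nat_lit 2) (nat_lit 203) (nat_lit 204) (nat_lit 193)) (PT.nd (nat_lit 78) (PT.lf (nat_lit 13300) (nat_lit 3) (nat_lit 175) (nat_lit 0) (nat_lit 204) (nat_lit 204) (nat_lit 192)) (PT.lf (nat_lit 12616) (nat_lit 6) (nat_lit 166) (nat_lit 0) (nat_lit 205) (nat_lit 204) (nat_lit 191))))))) (PT.nd (nat_lit 60762) (PT.nd (nat_lit 312) (PT.nd (nat_lit 156) (PT.nd (nat_lit 78) (PT.lf (nat_lit 11856) (nat_lit 6) (nat_lit 156) (nat_lit 0) (nat_lit 206) (nat_lit 204) (nat_lit 190)) (PT.lf (nat_lit 11020) (nat_lit 6) (nat_lit 145) (nat_lit 0) (nat_lit 207) (nat_lit 204) (nat_lit 189))) (PT.nd (nat_lit 78) (PT.lf (nat_lit 10564) (nat_lit 6) (nat_lit 139) (nat_lit 0) (nat_lit 208) (nat_lit 204) (nat_lit 188)) (PT.lf (nat_lit 10108) (nat_lit 6) (nat_lit 133) (nat_lit 0) (nat_lit 209) (nat_lit 204) (nat_lit 187)))) (PT.nd (nat_lit 156) (PT.nd (nat_lit 78) (PT.lf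 (nat_lit 9652) (nat_lit 6) (nat_lit 127) (nat_lit 0) (nat_lit 210) (nat_lit 204) (nat_lit 186)) (PT.lf (nat_lit 9272) (nat_lit 6) (nat_lit 122) (nat_lit 0) (nat_lit 211) (nat_lit 204) (nat_lit 185))) (PT.nd (nat_lit 60216) (PT.lf (nat_lit 8892) (nat_lit 6) (nat_lit 117) (nat_lit 0) (nat_lit 212) (nat_lit 204) (nat_lit 184)) (PT.lf (nat_lit 8588) (nat_lit 6) (nat_lit 113) (nat_lit 5) (nat_lit 183) (nat_lit 205) (nat_lit 212))))) (PT.nd (nat_lit 312) (PT.nd (nat_lit 156) (PT.nd (nat_lit 78) (PT.lf (nat_lit 8968) (nat_lit 6) (nat_lit 118) (nat_lit 5) (nat_lit 184) (nat_lit 205) (nat_lit 211)) (PT.lf (nat_lit 9348) (nat_lit 6) (nat_lit 123) (nat_lit 5) (nat_lit 185) (nat_lit 205) (nat_lit 210))) (PT.nd (nat_lit 78) (PT.lf (nat_lit 9728) (nat_lit 6) (nat_lit 128) (nat_lit 5) (nat_lit 186) (nat_lit 205) (nat_lit 209)) (PT.lf (nat_lit 10184) (nat_lit 6) (nat_lit 134) (nat_lit 5) (nat_lit 187) (nat_lit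 205) (nat_lit 208)))) (PT.nd (nat_lit 156) (PT.nd (nat_lit 78) (PT.lf (nat_lit 10640) (nat_lit 6) (nat_lit 140) (nat_lit 5) (nat_lit 188) (nat_lit 205) (nat_lit 207)) (PT.lf (nat_lit 11096) (nat_lit 6) (nat_lit 146) (nat_lit 5) (nat_lit 189) (nat_lit 205) (nat_lit 206))) (PT.nd (nat_lit 78) (PT.lf (nat_lit 11932) (nat_lit 3) (nat_lit 157) (nat_lit 4) (nat_lit 190) (nat_lit 205) (nat_lit 205)) (PT.nd (nat_lit 78) (PT.lf (nat_lit 12616) (nat_lit 6) (nat_lit 166) (nat_lit 4) (nat_lit 191) (nat_lit 205) (nat_lit 204)) (PT.lf (nat_lit 13224) (nat_lit 6) (nat_lit 174) (nat_lit 4) (nat_lit 192) (nat_lit 205) (nat_lit 203))))))))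
noncomputable def pc16 : PT := (PT.nd (nat_lit 1248) (PT.nd (nat_lit 624) (PT.nd (nat_lit 312) (PT.nd (nat_lit 156) (PT.nd (nat_lit 78) (PT.lf (nat_lit 13756) (nat_lit 6) (nat_lit 181) (nat_lit 4) (nat_lit 193) (nat_lit 205) (nat_lit 202)) (PT.lf (nat_lit 14212) (nat_lit 6) (nat_lit 187) (nat_lit 4) (nat_lit 194) (nat_lit 205) (nat_lit 201))) (PT.nd (nat_lit 78) (PT.lf (nat_lit 14592) (nat_lit 6) (nat_lit 192) (nat_lit 4) (nat_lit 195) (nat_lit 205) (nat_lit 200)) (PT.lf (nat_lit 14516) (nat_lit 6) (nat_lit 191) (nat_lit 4) (nat_lit 196) (nat_lit 205) (nat_lit 199)))) (PT.nd (nat_lit 156) (PT.nd (nat_lit 78) (PT.lf (nat_lit 14440) (nat_lit 6) (nat_lit 190) (nat_lit 4) (nat_lit 197) (nat_lit 205) (nat_lit 198)) (PT.lf (nat_lit 14440) (nat_lit 6) (nat_lit 190) (nat_lit 2) (nat_lit 198) (nat_lit 205) (nat_lit 197))) (PT.nd (nat_lit 78) (PT.lf (nat_lit 14516) (nat_lit 6) (nat_lit 191) (nat_lit 2) (nat_lit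 199) (nat_lit 205) (nat_lit 196)) (PT.lf (nat_lit 14592) (nat_lit 6) (nat_lit 192) (nat_lit 2) (nat_lit 200) (nat_lit 205) (nat_lit 195))))) (PT.nd (nat_lit 312) (PT.nd (nat_lit 156) (PT.nd (nat_lit 78) (PT.lf (nat_lit 14212) (nat_lit 6) (nat_lit 187) (nat_lit 2) (nat_lit 201) (nat_lit 205) (nat_lit 194)) (PT.lf (nat_lit 13756) (nat_lit 6) (nat_lit 181) (nat_lit 2) (nat_lit 202) (nat_lit 205) (nat_lit 193))) (PT.nd (nat_lit 78) (PT.lf (nat_lit 13224) (nat_lit 6) (nat_lit 174) (nat_lit 2) (nat_lit 203) (nat_lit 205) (nat_lit 192)) (PT.lf (nat_lit 12616) (nat_lit 6) (nat_lit 166) (nat_lit 2) (nat_lit 204) (nat_lit 205) (nat_lit 191)))) (PT.nd (nat_lit 156) (PT.nd (nat_lit 78) (PT.lf (nat_lit 11932) (nat_lit 3) (nat_lit 157) (nat_lit 0) (nat_lit 205) (nat_lit 205) (nat_lit 190)) (PT.lf (nat_lit 11096) (nat_lit 6) (nat_lit 146) (nat_lit 0) (nat_lit 206) (nat_lit 205) (nat_lit 189))) (PT.nd (nat_lit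 78) (PT.lf (nat_lit 10640) (nat_lit 6) (nat_lit 140) (nat_lit 0) (nat_lit 207) (nat_lit 205) (nat_lit 188)) (PT.lf (nat_lit 10184) (nat_lit 6) (nat_lit 134) (nat_lit 0) (nat_lit 208) (nat_lit 205) (nat_lit 187)))))) (PT.nd (nat_lit 60684) (PT.nd (nat_lit 60372) (PT.nd (nat_lit 156) (PT.nd (nat_lit 78) (PT.lf (nat_lit 9728) (nat_lit 6) (nat_lit 128) (nat_lit 0) (nat_lit 209) (nat_lit 205) (nat_lit 186)) (PT.lf (nat_lit 9348) (nat_lit 6) (nat_lit 123) (nat_lit 0) (nat_lit 210) (nat_lit 205) (nat_lit 185))) (PT.nd (nat_lit 78) (PT.lf (nat_lit 8968) (nat_lit 6) (nat_lit 118) (nat_lit 0) (nat_lit 211) (nat_lit 205) (nat_lit 184)) (PT.lf (nat_lit 8588) (nat_lit 6) (nat_lit 113) (nat_lit 0) (nat_lit 212) (nat_lit 205) (nat_lit 183)))) (PT.nd (nat_lit 156) (PT.nd (nat_lit 78) (PT.lf (nat_lit 8284) (nat_lit 6) (nat_lit 109) (nat_lit 5) (nat_lit 182) (nat_lit 206) (nat_lit 212)) (PT.lf (nat_lit 8664) (nat_lit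 6) (nat_lit 114) (nat_lit 5) (nat_lit 183) (nat_lit 206) (nat_lit 211))) (PT.nd (nat_lit 78) (PT.lf (nat_lit 9044) (nat_lit 6) (nat_lit 119) (nat_lit 5) (nat_lit 184) (nat_lit 206) (nat_lit 210)) (PT.lf (nat_lit 9424) (nat_lit 6) (nat_lit 124) (nat_lit 5) (nat_lit 185) (nat_lit 206) (nat_lit 209))))) (PT.nd (nat_lit 312) (PT.nd (nat_lit 156) (PT.nd (nat_lit 78) (PT.lf (nat_lit 9804) (nat_lit 6) (nat_lit 129) (nat_lit 5) (nat_lit 186) (nat_lit 206) (nat_lit 208)) (PT.lf (nat_lit 10260) (nat_lit 6) (nat_lit 135) (nat_lit 5) (nat_lit 187) (nat_lit 206) (nat_lit 207))) (PT.nd (nat_lit 78) (PT.lf (nat_lit 10716) (nat_lit 3) (nat_lit 141) (nat_lit 4) (nat_lit 188) (nat_lit 206) (nat_lit 206)) (PT.lf (nat_lit 11096) (nat_lit 6) (nat_lit 146) (nat_lit 4) (nat_lit 189) (nat_lit 206) (nat_lit 205)))) (PT.nd (nat_lit 156) (PT.nd (nat_lit 78) (PT.lf (nat_lit 11856) (nat_lit 6) (nat_lit 156) (nat_lit 4) (nat_lit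 190) (nat_lit 206) (nat_lit 204)) (PT.lf (nat_lit 12540) (nat_lit 6) (nat_lit 165) (nat_lit 4) (nat_lit 191) (nat_lit 206) (nat_lit 203))) (PT.nd (nat_lit 78) (PT.lf (nat_lit 13148) (nat_lit 6) (nat_lit 173) (nat_lit 4) (nat_lit 192) (nat_lit 206) (nat_lit 202)) (PT.nd (nat_lit 78) (PT.lf (nat_lit 13680) (nat_lit 6) (nat_lit 180) (nat_lit 4) (nat_lit 193) (nat_lit 206) (nat_lit 201)) (PT.lf (nat_lit 14136) (nat_lit 6) (nat_lit 186) (nat_lit 4) (nat_lit 194) (nat_lit 206) (nat_lit 200))))))))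
noncomputable def pc17 : PT := (PT.nd (nat_lit 1326) (PT.nd (nat_lit 624) (PT.nd (nat_lit 312) (PT.nd (nat_lit 156) (PT.nd (nat_lit 78) (PT.lf (nat_lit 14060) (nat_lit 6) (nat_lit 185) (nat_lit 4) (nat_lit 195) (nat_lit 206) (nat_lit 199)) (PT.lf (nat_lit 13984) (nat_lit 6) (nat_lit 184) (nat_lit 4) (nat_lit 196) (nat_lit 206) (nat_lit 198))) (PT.nd (nat_lit 78) (PT.lf (nat_lit 13908) (nat_lit 3) (nat_lit 183) (nat_lit 2) (nat_lit 197) (nat_lit 206) (nat_lit 197)) (PT.lf (nat_lit 13984) (nat_lit 6) (nat_lit 184) (nat_lit 2) (nat_lit 198) (nat_lit 206) (nat_lit 196)))) (PT.nd (nat_lit 156) (PT.nd (nat_lit 78) (PT.lf (nat_lit 14060) (nat_lit 6) (nat_lit 185) (nat_lit 2) (nat_lit 199) (nat_lit 206) (nat_lit 195)) (PT.lf (nat_lit 14136) (nat_lit 6) (nat_lit 186) (nat_lit 2) (nat_lit 200) (nat_lit 206) (nat_lit 194))) (PT.nd (nat_lit 78) (PT.lf (nat_lit 13680) (nat_lit 6) (nat_lit 180) (nat_lit 2) (nat_lit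 201) (nat_lit 206) (nat_lit 193)) (PT.lf (nat_lit 13148) (nat_lit 6) (nat_lit 173) (nat_lit 2) (nat_lit 202) (nat_lit 206) (nat_lit 192))))) (PT.nd (nat_lit 312) (PT.nd (nat_lit 156) (PT.nd (nat_lit 78) (PT.lf (nat_lit 12540) (nat_lit 6) (nat_lit 165) (nat_lit 2) (nat_lit 203) (nat_lit 206) (nat_lit 191)) (PT.lf (nat_lit 11856) (nat_lit 6) (nat_lit 156) (nat_lit 2) (nat_lit 204) (nat_lit 206) (nat_lit 190))) (PT.nd (nat_lit 78) (PT.lf (nat_lit 11096) (nat_lit 6) (nat_lit 146) (nat_lit 2) (nat_lit 205) (nat_lit 206) (nat_lit 189)) (PT.lf (nat_lit 10716) (nat_lit 3) (nat_lit 141) (nat_lit 0) (nat_lit 206) (nat_lit 206) (nat_lit 188)))) (PT.nd (nat_lit 156) (PT.nd (nat_lit 78) (PT.lf (nat_lit 10260) (nat_lit 6) (nat_lit 135) (nat_lit 0) (nat_lit 207) (nat_lit 206) (nat_lit 187)) (PT.lf (nat_lit 9804) (nat_lit 6) (nat_lit 129) (nat_lit 0) (nat_lit 208) (nat_lit 206) (nat_lit 186))) (PT.nd (nat_lit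 78) (PT.lf (nat_lit 9424) (nat_lit 6) (nat_lit 124) (nat_lit 0) (nat_lit 209) (nat_lit 206) (nat_lit 185)) (PT.nd (nat_lit 78) (PT.lf (nat_lit 9044) (nat_lit 6) (nat_lit 119) (nat_lit 0) (nat_lit 210) (nat_lit 206) (nat_lit 184)) (PT.lf (nat_lit 8664) (nat_lit 6) (nat_lit 114) (nat_lit 0) (nat_lit 211) (nat_lit 206) (nat_lit 183))))))) (PT.nd (nat_lit 60528) (PT.nd (nat_lit 60216) (PT.nd (nat_lit 60060) (PT.nd (nat_lit 59982) (PT.lf (nat_lit 8284) (nat_lit 6) (nat_lit 109) (nat_lit 0) (nat_lit 212) (nat_lit 206) (nat_lit 182)) (PT.lf (nat_lit 7752) (nat_lit 6) (nat_lit 102) (nat_lit 5) (nat_lit 180) (nat_lit 207) (nat_lit 213))) (PT.nd (nat_lit 78) (PT.lf (nat_lit 8056) (nat_lit 6) (nat_lit 106) (nat_lit 5) (nat_lit 181) (nat_lit 207) (nat_lit 212)) (PT.lf (nat_lit 8360) (nat_lit 6) (nat_lit 110) (nat_lit 5) (nat_lit 182) (nat_lit 207) (nat_lit 211)))) (PT.nd (nat_lit 156) (PT.nd (nat_lit 78) (PT.lf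 (nat_lit 8740) (nat_lit 6) (nat_lit 115) (nat_lit 5) (nat_lit 183) (nat_lit 207) (nat_lit 210)) (PT.lf (nat_lit 9120) (nat_lit 6) (nat_lit 120) (nat_lit 5) (nat_lit 184) (nat_lit 207) (nat_lit 209))) (PT.nd (nat_lit 78) (PT.lf (nat_lit 9500) (nat_lit 6) (nat_lit 125) (nat_lit 5) (nat_lit 185) (nat_lit 207) (nat_lit 208)) (PT.lf (nat_lit 9880) (nat_lit 3) (nat_lit 130) (nat_lit 4) (nat_lit 186) (nat_lit 207) (nat_lit 207))))) (PT.nd (nat_lit 312) (PT.nd (nat_lit 156) (PT.nd (nat_lit 78) (PT.lf (nat_lit 10260) (nat_lit 6) (nat_lit 135) (nat_lit 4) (nat_lit 187) (nat_lit 207) (nat_lit 206)) (PT.lf (nat_lit 10640) (nat_lit 6) (nat_lit 140) (nat_lit 4) (nat_lit 188) (nat_lit 207) (nat_lit 205))) (PT.nd (nat_lit 78) (PT.lf (nat_lit 11020) (nat_lit 6) (nat_lit 145) (nat_lit 4) (nat_lit 189) (nat_lit 207) (nat_lit 204)) (PT.lf (nat_lit 11780) (nat_lit 6) (nat_lit 155) (nat_lit 4) (nat_lit 190) (nat_lit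 207) (nat_lit 203)))) (PT.nd (nat_lit 156) (PT.nd (nat_lit 78) (PT.lf (nat_lit 12464) (nat_lit 6) (nat_lit 164) (nat_lit 4) (nat_lit 191) (nat_lit 207) (nat_lit 202)) (PT.lf (nat_lit 13072) (nat_lit 6) (nat_lit 172) (nat_lit 4) (nat_lit 192) (nat_lit 207) (nat_lit 201))) (PT.nd (nat_lit 78) (PT.lf (nat_lit 13604) (nat_lit 6) (nat_lit 179) (nat_lit 4) (nat_lit 193) (nat_lit 207) (nat_lit 200)) (PT.nd (nat_lit 78) (PT.lf (nat_lit 13528) (nat_lit 6) (nat_lit 178) (nat_lit 4) (nat_lit 194) (nat_lit 207) (nat_lit 199)) (PT.lf (nat_lit 13452) (nat_lit 6) (nat_lit 177) (nat_lit 4) (nat_lit 195) (nat_lit 207) (nat_lit 198))))))))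
noncomputable def pc18 : PT := (PT.nd (nat_lit 1326) (PT.nd (nat_lit 624) (PT.nd (nat_lit 312) (PT.nd (nat_lit 156) (PT.nd (nat_lit 78) (PT.lf (nat_lit 13376) (nat_lit 6) (nat_lit 176) (nat_lit 4) (nat_lit 196) (nat_lit 207) (nat_lit 197)) (PT.lf (nat_lit 13376) (nat_lit 6) (nat_lit 176) (nat_lit 2) (nat_lit 197) (nat_lit 207) (nat_lit 196))) (PT.nd (nat_lit 78) (PT.lf (nat_lit 13452) (nat_lit 6) (nat_lit 177) (nat_lit 2) (nat_lit 198) (nat_lit 207) (nat_lit 195)) (PT.lf (nat_lit 13528) (nat_lit 6) (nat_lit 178) (nat_lit 2) (nat_lit 199) (nat_lit 207) (nat_lit 194)))) (PT.nd (nat_lit 156) (PT.nd (nat_lit 78) (PT.lf (nat_lit 13604) (nat_lit 6) (nat_lit 179) (nat_lit 2) (nat_lit 200) (nat_lit 207) (nat_lit 193)) (PT.lf (nat_lit 13072) (nat_lit 6) (nat_lit 172) (nat_lit 2) (nat_lit 201) (nat_lit 207) (nat_lit 192))) (PT.nd (nat_lit 78) (PT.lf (nat_lit 12464) (nat_lit 6) (nat_lit 164) (nat_lit 2) (nat_lit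 202) (nat_lit 207) (nat_lit 191)) (PT.lf (nat_lit 11780) (nat_lit 6) (nat_lit 155) (nat_lit 2) (nat_lit 203) (nat_lit 207) (nat_lit 190))))) (PT.nd (nat_lit 312) (PT.nd (nat_lit 156) (PT.nd (nat_lit 78) (PT.lf (nat_lit 11020) (nat_lit 6) (nat_lit 145) (nat_lit 2) (nat_lit 204) (nat_lit 207) (nat_lit 189)) (PT.lf (nat_lit 10640) (nat_lit 6) (nat_lit 140) (nat_lit 2) (nat_lit 205) (nat_lit 207) (nat_lit 188))) (PT.nd (nat_lit 78) (PT.lf (nat_lit 10260) (nat_lit 6) (nat_lit 135) (nat_lit 2) (nat_lit 206) (nat_lit 207) (nat_lit 187)) (PT.lf (nat_lit 9880) (nat_lit 3) (nat_lit 130) (nat_lit 0) (nat_lit 207) (nat_lit 207) (nat_lit 186)))) (PT.nd (nat_lit 156) (PT.nd (nat_lit 78) (PT.lf (nat_lit 9500) (nat_lit 6) (nat_lit 125) (nat_lit 0) (nat_lit 208) (nat_lit 207) (nat_lit 185)) (PT.lf (nat_lit 9120) (nat_lit 6) (nat_lit 120) (nat_lit 0) (nat_lit 209) (nat_lit 207) (nat_lit 184))) (PT.nd (nat_lit 78)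 (PT.lf (nat_lit 8740) (nat_lit 6) (nat_lit 115) (nat_lit 0) (nat_lit 210) (nat_lit 207) (nat_lit 183)) (PT.nd (nat_lit 78) (PT.lf (nat_lit 8360) (nat_lit 6) (nat_lit 110) (nat_lit 0) (nat_lit 211) (nat_lit 207) (nat_lit 182)) (PT.lf (nat_lit 8056) (nat_lit 6) (nat_lit 106) (nat_lit 0) (nat_lit 212) (nat_lit 207) (nat_lit 181))))))) (PT.nd (nat_lit 60372) (PT.nd (nat_lit 60060) (PT.nd (nat_lit 59904) (PT.nd (nat_lit 59826) (PT.lf (nat_lit 7752) (nat_lit 6) (nat_lit 102) (nat_lit 0) (nat_lit 213) (nat_lit 207) (nat_lit 180)) (PT.lf (nat_lit 7524) (nat_lit 6) (nat_lit 99) (nat_lit 5) (nat_lit 179) (nat_lit 208) (nat_lit 213))) (PT.nd (nat_lit 78) (PT.lf (nat_lit 7828) (nat_lit 6) (nat_lit 103) (nat_lit 5) (nat_lit 180) (nat_lit 208) (nat_lit 212)) (PT.lf (nat_lit 8132) (nat_lit 6) (nat_lit 107) (nat_lit 5) (nat_lit 181) (nat_lit 208) (nat_lit 211)))) (PT.nd (nat_lit 156) (PT.nd (nat_lit 78) (PT.lf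 (nat_lit 8436) (nat_lit 6) (nat_lit 111) (nat_lit 5) (nat_lit 182) (nat_lit 208) (nat_lit 210)) (PT.lf (nat_lit 8816) (nat_lit 6) (nat_lit 116) (nat_lit 5) (nat_lit 183) (nat_lit 208) (nat_lit 209))) (PT.nd (nat_lit 78) (PT.lf (nat_lit 9196) (nat_lit 3) (nat_lit 121) (nat_lit 4) (nat_lit 184) (nat_lit 208) (nat_lit 208)) (PT.lf (nat_lit 9500) (nat_lit 6) (nat_lit 125) (nat_lit 4) (nat_lit 185) (nat_lit 208) (nat_lit 207))))) (PT.nd (nat_lit 312) (PT.nd (nat_lit 156) (PT.nd (nat_lit 78) (PT.lf (nat_lit 9804) (nat_lit 6) (nat_lit 129) (nat_lit 4) (nat_lit 186) (nat_lit 208) (nat_lit 206)) (PT.lf (nat_lit 10184) (nat_lit 6) (nat_lit 134) (nat_lit 4) (nat_lit 187) (nat_lit 208) (nat_lit 205))) (PT.nd (nat_lit 78) (PT.lf (nat_lit 10564) (nat_lit 6) (nat_lit 139) (nat_lit 4) (nat_lit 188) (nat_lit 208) (nat_lit 204)) (PT.lf (nat_lit 10944) (nat_lit 6) (nat_lit 144) (nat_lit 4) (nat_lit 189) (nat_lit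 208) (nat_lit 203)))) (PT.nd (nat_lit 156) (PT.nd (nat_lit 78) (PT.lf (nat_lit 11704) (nat_lit 6) (nat_lit 154) (nat_lit 4) (nat_lit 190) (nat_lit 208) (nat_lit 202)) (PT.lf (nat_lit 12388) (nat_lit 6) (nat_lit 163) (nat_lit 4) (nat_lit 191) (nat_lit 208) (nat_lit 201))) (PT.nd (nat_lit 78) (PT.lf (nat_lit 12996) (nat_lit 6) (nat_lit 171) (nat_lit 4) (nat_lit 192) (nat_lit 208) (nat_lit 200)) (PT.nd (nat_lit 78) (PT.lf (nat_lit 12920) (nat_lit 6) (nat_lit 170) (nat_lit 4) (nat_lit 193) (nat_lit 208) (nat_lit 199)) (PT.lf (nat_lit 12844) (nat_lit 6) (nat_lit 169) (nat_lit 4) (nat_lit 194) (nat_lit 208) (nat_lit 198))))))))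
noncomputable def pc19 : PT := (PT.nd (nat_lit 1326) (PT.nd (nat_lit 624) (PT.nd (nat_lit 312) (PT.nd (nat_lit 156) (PT.nd (nat_lit 78) (PT.lf (nat_lit 12768) (nat_lit 6) (nat_lit 168) (nat_lit 4) (nat_lit 195) (nat_lit 208) (nat_lit 197)) (PT.lf (nat_lit 12692) (nat_lit 3) (nat_lit 167) (nat_lit 2) (nat_lit 196) (nat_lit 208) (nat_lit 196))) (PT.nd (nat_lit 78) (PT.lf (nat_lit 12768) (nat_lit 6) (nat_lit 168) (nat_lit 2) (nat_lit 197) (nat_lit 208) (nat_lit 195)) (PT.lf (nat_lit 12844) (nat_lit 6) (nat_lit 169) (nat_lit 2) (nat_lit 198) (nat_lit 208) (nat_lit 194)))) (PT.nd (nat_lit 156) (PT.nd (nat_lit 78) (PT.lf (nat_lit 12920) (nat_lit 6) (nat_lit 170) (nat_lit 2) (nat_lit 199) (nat_lit 208) (nat_lit 193)) (PT.lf (nat_lit 12996) (nat_lit 6) (nat_lit 171) (nat_lit 2) (nat_lit 200) (nat_lit 208) (nat_lit 192))) (PT.nd (nat_lit 78) (PT.lf (nat_lit 12388) (nat_lit 6) (nat_lit 163) (nat_lit 2) (nat_lit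 201) (nat_lit 208) (nat_lit 191)) (PT.lf (nat_lit 11704) (nat_lit 6) (nat_lit 154) (nat_lit 2) (nat_lit 202) (nat_lit 208) (nat_lit 190))))) (PT.nd (nat_lit 312) (PT.nd (nat_lit 156) (PT.nd (nat_lit 78) (PT.lf (nat_lit 10944) (nat_lit 6) (nat_lit 144) (nat_lit 2) (nat_lit 203) (nat_lit 208) (nat_lit 189)) (PT.lf (nat_lit 10564) (nat_lit 6) (nat_lit 139) (nat_lit 2) (nat_lit 204) (nat_lit 208) (nat_lit 188))) (PT.nd (nat_lit 78) (PT.lf (nat_lit 10184) (nat_lit 6) (nat_lit 134) (nat_lit 2) (nat_lit 205) (nat_lit 208) (nat_lit 187)) (PT.lf (nat_lit 9804) (nat_lit 6) (nat_lit 129) (nat_lit 2) (nat_lit 206) (nat_lit 208) (nat_lit 186)))) (PT.nd (nat_lit 156) (PT.nd (nat_lit 78) (PT.lf (nat_lit 9500) (nat_lit 6) (nat_lit 125) (nat_lit 2) (nat_lit 207) (nat_lit 208) (nat_lit 185)) (PT.lf (nat_lit 9196) (nat_lit 3) (nat_lit 121) (nat_lit 0) (nat_lit 208) (nat_lit 208) (nat_lit 184))) (PT.nd (nat_lit 78)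 (PT.lf (nat_lit 8816) (nat_lit 6) (nat_lit 116) (nat_lit 0) (nat_lit 209) (nat_lit 208) (nat_lit 183)) (PT.nd (nat_lit 78) (PT.lf (nat_lit 8436) (nat_lit 6) (nat_lit 111) (nat_lit 0) (nat_lit 210) (nat_lit 208) (nat_lit 182)) (PT.lf (nat_lit 8132) (nat_lit 6) (nat_lit 107) (nat_lit 0) (nat_lit 211) (nat_lit 208) (nat_lit 181))))))) (PT.nd (nat_lit 60216) (PT.nd (nat_lit 59904) (PT.nd (nat_lit 59748) (PT.nd (nat_lit 78) (PT.lf (nat_lit 7828) (nat_lit 6) (nat_lit 103) (nat_lit 0) (nat_lit 212) (nat_lit 208) (nat_lit 180)) (PT.lf (nat_lit 7524) (nat_lit 6) (nat_lit 99) (nat_lit 0) (nat_lit 213) (nat_lit 208) (nat_lit 179))) (PT.nd (nat_lit 78) (PT.lf (nat_lit 7068) (nat_lit 6) (nat_lit 93) (nat_lit 5) (nat_lit 177) (nat_lit 209) (nat_lit 214)) (PT.lf (nat_lit 7296) (nat_lit 6) (nat_lit 96) (nat_lit 5) (nat_lit 178) (nat_lit 209) (nat_lit 213)))) (PT.nd (nat_lit 156) (PT.nd (nat_lit 78) (PT.lf (nat_lit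 7600) (nat_lit 6) (nat_lit 100) (nat_lit 5) (nat_lit 179) (nat_lit 209) (nat_lit 212)) (PT.lf (nat_lit 7904) (nat_lit 6) (nat_lit 104) (nat_lit 5) (nat_lit 180) (nat_lit 209) (nat_lit 211))) (PT.nd (nat_lit 78) (PT.lf (nat_lit 8208) (nat_lit 6) (nat_lit 108) (nat_lit 5) (nat_lit 181) (nat_lit 209) (nat_lit 210)) (PT.lf (nat_lit 8512) (nat_lit 3) (nat_lit 112) (nat_lit 4) (nat_lit 182) (nat_lit 209) (nat_lit 209))))) (PT.nd (nat_lit 312) (PT.nd (nat_lit 156) (PT.nd (nat_lit 78) (PT.lf (nat_lit 8816) (nat_lit 6) (nat_lit 116) (nat_lit 4) (nat_lit 183) (nat_lit 209) (nat_lit 208)) (PT.lf (nat_lit 9120) (nat_lit 6) (nat_lit 120) (nat_lit 4) (nat_lit 184) (nat_lit 209) (nat_lit 207))) (PT.nd (nat_lit 78) (PT.lf (nat_lit 9424) (nat_lit 6) (nat_lit 124) (nat_lit 4) (nat_lit 185) (nat_lit 209) (nat_lit 206)) (PT.lf (nat_lit 9728) (nat_lit 6) (nat_lit 128) (nat_lit 4) (nat_lit 186) (nat_lit 209) (nat_lit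 205)))) (PT.nd (nat_lit 156) (PT.nd (nat_lit 78) (PT.lf (nat_lit 10108) (nat_lit 6) (nat_lit 133) (nat_lit 4) (nat_lit 187) (nat_lit 209) (nat_lit 204)) (PT.lf (nat_lit 10488) (nat_lit 6) (nat_lit 138) (nat_lit 4) (nat_lit 188) (nat_lit 209) (nat_lit 203))) (PT.nd (nat_lit 78) (PT.lf (nat_lit 10868) (nat_lit 6) (nat_lit 143) (nat_lit 4) (nat_lit 189) (nat_lit 209) (nat_lit 202)) (PT.nd (nat_lit 78) (PT.lf (nat_lit 11628) (nat_lit 6) (nat_lit 153) (nat_lit 4) (nat_lit 190) (nat_lit 209) (nat_lit 201)) (PT.lf (nat_lit 12312) (nat_lit 6) (nat_lit 162) (nat_lit 4) (nat_lit 191) (nat_lit 209) (nat_lit 200))))))))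
noncomputable def pc20 : PT := (PT.nd (nat_lit 1248) (PT.nd (nat_lit 624) (PT.nd (nat_lit 312) (PT.nd (nat_lit 156) (PT.nd (nat_lit 78) (PT.lf (nat_lit 12236) (nat_lit 6) (nat_lit 161) (nat_lit 4) (nat_lit 192) (nat_lit 209) (nat_lit 199)) (PT.lf (nat_lit 12160) (nat_lit 6) (nat_lit 160) (nat_lit 4) (nat_lit 193) (nat_lit 209) (nat_lit 198))) (PT.nd (nat_lit 78) (PT.lf (nat_lit 12084) (nat_lit 6) (nat_lit 159) (nat_lit 4) (nat_lit 194) (nat_lit 209) (nat_lit 197)) (PT.lf (nat_lit 12008) (nat_lit 6) (nat_lit 158) (nat_lit 4) (nat_lit 195) (nat_lit 209) (nat_lit 196)))) (PT.nd (nat_lit 156) (PT.nd (nat_lit 78) (PT.lf (nat_lit 12008) (nat_lit 6) (nat_lit 158) (nat_lit 2) (nat_lit 196) (nat_lit 209) (nat_lit 195)) (PT.lf (nat_lit 12084) (nat_lit 6) (nat_lit 159) (nat_lit 2) (nat_lit 197) (nat_lit 209) (nat_lit 194))) (PT.nd (nat_lit 78) (PT.lf (nat_lit 12160) (nat_lit 6) (nat_lit 160) (nat_lit 2) (nat_lit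 198) (nat_lit 209) (nat_lit 193)) (PT.lf (nat_lit 12236) (nat_lit 6) (nat_lit 161) (nat_lit 2) (nat_lit 199) (nat_lit 209) (nat_lit 192))))) (PT.nd (nat_lit 312) (PT.nd (nat_lit 156) (PT.nd (nat_lit 78) (PT.lf (nat_lit 12312) (nat_lit 6) (nat_lit 162) (nat_lit 2) (nat_lit 200) (nat_lit 209) (nat_lit 191)) (PT.lf (nat_lit 11628) (nat_lit 6) (nat_lit 153) (nat_lit 2) (nat_lit 201) (nat_lit 209) (nat_lit 190))) (PT.nd (nat_lit 78) (PT.lf (nat_lit 10868) (nat_lit 6) (nat_lit 143) (nat_lit 2) (nat_lit 202) (nat_lit 209) (nat_lit 189)) (PT.lf (nat_lit 10488) (nat_lit 6) (nat_lit 138) (nat_lit 2) (nat_lit 203) (nat_lit 209) (nat_lit 188)))) (PT.nd (nat_lit 156) (PT.nd (nat_lit 78) (PT.lf (nat_lit 10108) (nat_lit 6) (nat_lit 133) (nat_lit 2) (nat_lit 204) (nat_lit 209) (nat_lit 187)) (PT.lf (nat_lit 9728) (nat_lit 6) (nat_lit 128) (nat_lit 2) (nat_lit 205) (nat_lit 209) (nat_lit 186))) (PT.nd (nat_lit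 78) (PT.lf (nat_lit 9424) (nat_lit 6) (nat_lit 124) (nat_lit 2) (nat_lit 206) (nat_lit 209) (nat_lit 185)) (PT.lf (nat_lit 9120) (nat_lit 6) (nat_lit 120) (nat_lit 2) (nat_lit 207) (nat_lit 209) (nat_lit 184)))))) (PT.nd (nat_lit 59982) (PT.nd (nat_lit 312) (PT.nd (nat_lit 156) (PT.nd (nat_lit 78) (PT.lf (nat_lit 8816) (nat_lit 6) (nat_lit 116) (nat_lit 2) (nat_lit 208) (nat_lit 209) (nat_lit 183)) (PT.lf (nat_lit 8512) (nat_lit 3) (nat_lit 112) (nat_lit 0) (nat_lit 209) (nat_lit 209) (nat_lit 182))) (PT.nd (nat_lit 78) (PT.lf (nat_lit 8208) (nat_lit 6) (nat_lit 108) (nat_lit 0) (nat_lit 210) (nat_lit 209) (nat_lit 181)) (PT.lf (nat_lit 7904) (nat_lit 6) (nat_lit 104) (nat_lit 0) (nat_lit 211) (nat_lit 209) (nat_lit 180)))) (PT.nd (nat_lit 156) (PT.nd (nat_lit 78) (PT.lf (nat_lit 7600) (nat_lit 6) (nat_lit 100) (nat_lit 0) (nat_lit 212) (nat_lit 209) (nat_lit 179)) (PT.lf (nat_lit 7296) (nat_lit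 6) (nat_lit 96) (nat_lit 0) (nat_lit 213) (nat_lit 209) (nat_lit 178))) (PT.nd (nat_lit 59436) (PT.lf (nat_lit 7068) (nat_lit 6) (nat_lit 93) (nat_lit 0) (nat_lit 214) (nat_lit 209) (nat_lit 177)) (PT.lf (nat_lit 6612) (nat_lit 6) (nat_lit 87) (nat_lit 5) (nat_lit 175) (nat_lit 210) (nat_lit 215))))) (PT.nd (nat_lit 312) (PT.nd (nat_lit 156) (PT.nd (nat_lit 78) (PT.lf (nat_lit 6840) (nat_lit 6) (nat_lit 90) (nat_lit 5) (nat_lit 176) (nat_lit 210) (nat_lit 214)) (PT.lf (nat_lit 7144) (nat_lit 6) (nat_lit 94) (nat_lit 5) (nat_lit 177) (nat_lit 210) (nat_lit 213))) (PT.nd (nat_lit 78) (PT.lf (nat_lit 7372) (nat_lit 6) (nat_lit 97) (nat_lit 5) (nat_lit 178) (nat_lit 210) (nat_lit 212)) (PT.lf (nat_lit 7676) (nat_lit 6) (nat_lit 101) (nat_lit 5) (nat_lit 179) (nat_lit 210) (nat_lit 211)))) (PT.nd (nat_lit 156) (PT.nd (nat_lit 78) (PT.lf (nat_lit 7980) (nat_lit 3) (nat_lit 105) (nat_lit 4) (nat_lit 180)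 (nat_lit 210) (nat_lit 210)) (PT.lf (nat_lit 8208) (nat_lit 6) (nat_lit 108) (nat_lit 4) (nat_lit 181) (nat_lit 210) (nat_lit 209))) (PT.nd (nat_lit 78) (PT.lf (nat_lit 8436) (nat_lit 6) (nat_lit 111) (nat_lit 4) (nat_lit 182) (nat_lit 210) (nat_lit 208)) (PT.nd (nat_lit 78) (PT.lf (nat_lit 8740) (nat_lit 6) (nat_lit 115) (nat_lit 4) (nat_lit 183) (nat_lit 210) (nat_lit 207)) (PT.lf (nat_lit 9044) (nat_lit 6) (nat_lit 119) (nat_lit 4) (nat_lit 184) (nat_lit 210) (nat_lit 206))))))))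
noncomputable def pc21 : PT := (PT.nd (nat_lit 1326) (PT.nd (nat_lit 624) (PT.nd (nat_lit 312) (PT.nd (nat_lit 156) (PT.nd (nat_lit 78) (PT.lf (nat_lit 9348) (nat_lit 6) (nat_lit 123) (nat_lit 4) (nat_lit 185) (nat_lit 210) (nat_lit 205)) (PT.lf (nat_lit 9652) (nat_lit 6) (nat_lit 127) (nat_lit 4) (nat_lit 186) (nat_lit 210) (nat_lit 204))) (PT.nd (nat_lit 78) (PT.lf (nat_lit 10032) (nat_lit 6) (nat_lit 132) (nat_lit 4) (nat_lit 187) (nat_lit 210) (nat_lit 203)) (PT.lf (nat_lit 10412) (nat_lit 6) (nat_lit 137) (nat_lit 4) (nat_lit 188) (nat_lit 210) (nat_lit 202)))) (PT.nd (nat_lit 156) (PT.nd (nat_lit 78) (PT.lf (nat_lit 10792) (nat_lit 6) (nat_lit 142) (nat_lit 4) (nat_lit 189) (nat_lit 210) (nat_lit 201)) (PT.lf (nat_lit 11552) (nat_lit 6) (nat_lit 152) (nat_lit 4) (nat_lit 190) (nat_lit 210) (nat_lit 200))) (PT.nd (nat_lit 78) (PT.lf (nat_lit 11476) (nat_lit 6) (nat_lit 151) (nat_lit 4) (nat_lit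 191) (nat_lit 210) (nat_lit 199)) (PT.lf (nat_lit 11400) (nat_lit 6) (nat_lit 150) (nat_lit 4) (nat_lit 192) (nat_lit 210) (nat_lit 198))))) (PT.nd (nat_lit 312) (PT.nd (nat_lit 156) (PT.nd (nat_lit 78) (PT.lf (nat_lit 11324) (nat_lit 6) (nat_lit 149) (nat_lit 4) (nat_lit 193) (nat_lit 210) (nat_lit 197)) (PT.lf (nat_lit 11248) (nat_lit 6) (nat_lit 148) (nat_lit 4) (nat_lit 194) (nat_lit 210) (nat_lit 196))) (PT.nd (nat_lit 78) (PT.lf (nat_lit 11172) (nat_lit 3) (nat_lit 147) (nat_lit 2) (nat_lit 195) (nat_lit 210) (nat_lit 195)) (PT.lf (nat_lit 11248) (nat_lit 6) (nat_lit 148) (nat_lit 2) (nat_lit 196) (nat_lit 210) (nat_lit 194)))) (PT.nd (nat_lit 156) (PT.nd (nat_lit 78) (PT.lf (nat_lit 11324) (nat_lit 6) (nat_lit 149) (nat_lit 2) (nat_lit 197) (nat_lit 210) (nat_lit 193)) (PT.lf (nat_lit 11400) (nat_lit 6) (nat_lit 150) (nat_lit 2) (nat_lit 198) (nat_lit 210) (nat_lit 192))) (PT.nd (nat_lit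 78) (PT.lf (nat_lit 11476) (nat_lit 6) (nat_lit 151) (nat_lit 2) (nat_lit 199) (nat_lit 210) (nat_lit 191)) (PT.nd (nat_lit 78) (PT.lf (nat_lit 11552) (nat_lit 6) (nat_lit 152) (nat_lit 2) (nat_lit 200) (nat_lit 210) (nat_lit 190)) (PT.lf (nat_lit 10792) (nat_lit 6) (nat_lit 142) (nat_lit 2) (nat_lit 201) (nat_lit 210) (nat_lit 189))))))) (PT.nd (nat_lit 624) (PT.nd (nat_lit 312) (PT.nd (nat_lit 156) (PT.nd (nat_lit 78) (PT.lf (nat_lit 10412) (nat_lit 6) (nat_lit 137) (nat_lit 2) (nat_lit 202) (nat_lit 210) (nat_lit 188)) (PT.lf (nat_lit 10032) (nat_lit 6) (nat_lit 132) (nat_lit 2) (nat_lit 203) (nat_lit 210) (nat_lit 187))) (PT.nd (nat_lit 78) (PT.lf (nat_lit 9652) (nat_lit 6) (nat_lit 127) (nat_lit 2) (nat_lit 204) (nat_lit 210) (nat_lit 186)) (PT.lf (nat_lit 9348) (nat_lit 6) (nat_lit 123) (nat_lit 2) (nat_lit 205) (nat_lit 210) (nat_lit 185)))) (PT.nd (nat_lit 156) (PT.nd (nat_lit 78) (PT.lf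 (nat_lit 9044) (nat_lit 6) (nat_lit 119) (nat_lit 2) (nat_lit 206) (nat_lit 210) (nat_lit 184)) (PT.lf (nat_lit 8740) (nat_lit 6) (nat_lit 115) (nat_lit 2) (nat_lit 207) (nat_lit 210) (nat_lit 183))) (PT.nd (nat_lit 78) (PT.lf (nat_lit 8436) (nat_lit 6) (nat_lit 111) (nat_lit 2) (nat_lit 208) (nat_lit 210) (nat_lit 182)) (PT.lf (nat_lit 8208) (nat_lit 6) (nat_lit 108) (nat_lit 2) (nat_lit 209) (nat_lit 210) (nat_lit 181))))) (PT.nd (nat_lit 312) (PT.nd (nat_lit 156) (PT.nd (nat_lit 78) (PT.lf (nat_lit 7980) (nat_lit 3) (nat_lit 105) (nat_lit 0) (nat_lit 210) (nat_lit 210) (nat_lit 180)) (PT.lf (nat_lit 7676) (nat_lit 6) (nat_lit 101) (nat_lit 0) (nat_lit 211) (nat_lit 210) (nat_lit 179))) (PT.nd (nat_lit 78) (PT.lf (nat_lit 7372) (nat_lit 6) (nat_lit 97) (nat_lit 0) (nat_lit 212) (nat_lit 210) (nat_lit 178)) (PT.lf (nat_lit 7144) (nat_lit 6) (nat_lit 94) (nat_lit 0) (nat_lit 213) (nat_lit 210)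 (nat_lit 177)))) (PT.nd (nat_lit 59358) (PT.nd (nat_lit 78) (PT.lf (nat_lit 6840) (nat_lit 6) (nat_lit 90) (nat_lit 0) (nat_lit 214) (nat_lit 210) (nat_lit 176)) (PT.lf (nat_lit 6612) (nat_lit 6) (nat_lit 87) (nat_lit 0) (nat_lit 215) (nat_lit 210) (nat_lit 175))) (PT.nd (nat_lit 78) (PT.lf (nat_lit 6384) (nat_lit 6) (nat_lit 84) (nat_lit 5) (nat_lit 174) (nat_lit 211) (nat_lit 215)) (PT.nd (nat_lit 78) (PT.lf (nat_lit 6688) (nat_lit 6) (nat_lit 88) (nat_lit 5) (nat_lit 175) (nat_lit 211) (nat_lit 214)) (PT.lf (nat_lit 6916) (nat_lit 6) (nat_lit 91) (nat_lit 5) (nat_lit 176) (nat_lit 211) (nat_lit 213))))))))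
noncomputable def pc22 : PT := (PT.nd (nat_lit 2262) (PT.nd (nat_lit 624) (PT.nd (nat_lit 312) (PT.nd (nat_lit 156) (PT.nd (nat_lit 78) (PT.lf (nat_lit 7220) (nat_lit 6) (nat_lit 95) (nat_lit 5) (nat_lit 177) (nat_lit 211) (nat_lit 212)) (PT.lf (nat_lit 7448) (nat_lit 3) (nat_lit 98) (nat_lit 4) (nat_lit 178) (nat_lit 211) (nat_lit 211))) (PT.nd (nat_lit 78) (PT.lf (nat_lit 7676) (nat_lit 6) (nat_lit 101) (nat_lit 4) (nat_lit 179) (nat_lit 211) (nat_lit 210)) (PT.lf (nat_lit 7904) (nat_lit 6) (nat_lit 104) (nat_lit 4) (nat_lit 180) (nat_lit 211) (nat_lit 209)))) (PT.nd (nat_lit 156) (PT.nd (nat_lit 78) (PT.lf (nat_lit 8132) (nat_lit 6) (nat_lit 107) (nat_lit 4) (nat_lit 181) (nat_lit 211) (nat_lit 208)) (PT.lf (nat_lit 8360) (nat_lit 6) (nat_lit 110) (nat_lit 4) (nat_lit 182) (nat_lit 211) (nat_lit 207))) (PT.nd (nat_lit 78) (PT.lf (nat_lit 8664) (nat_lit 6) (nat_lit 114) (nat_lit 4) (nat_lit 183)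 (nat_lit 211) (nat_lit 206)) (PT.lf (nat_lit 8968) (nat_lit 6) (nat_lit 118) (nat_lit 4) (nat_lit 184) (nat_lit 211) (nat_lit 205))))) (PT.nd (nat_lit 1248) (PT.nd (nat_lit 156) (PT.nd (nat_lit 78) (PT.lf (nat_lit 9272) (nat_lit 6) (nat_lit 122) (nat_lit 4) (nat_lit 185) (nat_lit 211) (nat_lit 204)) (PT.lf (nat_lit 9576) (nat_lit 6) (nat_lit 126) (nat_lit 4) (nat_lit 186) (nat_lit 211) (nat_lit 203))) (PT.nd (nat_lit 78) (PT.lf (nat_lit 9956) (nat_lit 6) (nat_lit 131) (nat_lit 4) (nat_lit 187) (nat_lit 211) (nat_lit 202)) (PT.lf (nat_lit 10336) (nat_lit 6) (nat_lit 136) (nat_lit 4) (nat_lit 188) (nat_lit 211) (nat_lit 201)))) (PT.nd (nat_lit 156) (PT.nd (nat_lit 78) (PT.lf (nat_lit 10336) (nat_lit 6) (nat_lit 136) (nat_lit 2) (nat_lit 201) (nat_lit 211) (nat_lit 188)) (PT.lf (nat_lit 9956) (nat_lit 6) (nat_lit 131) (nat_lit 2) (nat_lit 202) (nat_lit 211) (nat_lit 187))) (PT.nd (nat_lit 78) (PT.lf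 (nat_lit 9576) (nat_lit 6) (nat_lit 126) (nat_lit 2) (nat_lit 203) (nat_lit 211) (nat_lit 186)) (PT.nd (nat_lit 78) (PT.lf (nat_lit 9272) (nat_lit 6) (nat_lit 122) (nat_lit 2) (nat_lit 204) (nat_lit 211) (nat_lit 185)) (PT.lf (nat_lit 8968) (nat_lit 6) (nat_lit 118) (nat_lit 2) (nat_lit 205) (nat_lit 211) (nat_lit 184))))))) (PT.nd (nat_lit 624) (PT.nd (nat_lit 312) (PT.nd (nat_lit 156) (PT.nd (nat_lit 78) (PT.lf (nat_lit 8664) (nat_lit 6) (nat_lit 114) (nat_lit 2) (nat_lit 206) (nat_lit 211) (nat_lit 183)) (PT.lf (nat_lit 8360) (nat_lit 6) (nat_lit 110) (nat_lit 2) (nat_lit 207) (nat_lit 211) (nat_lit 182))) (PT.nd (nat_lit 78) (PT.lf (nat_lit 8132) (nat_lit 6) (nat_lit 107) (nat_lit 2) (nat_lit 208) (nat_lit 211) (nat_lit 181)) (PT.lf (nat_lit 7904) (nat_lit 6) (nat_lit 104) (nat_lit 2) (nat_lit 209) (nat_lit 211) (nat_lit 180)))) (PT.nd (nat_lit 156) (PT.nd (nat_lit 78) (PT.lf (nat_lit 7676)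 (nat_lit 6) (nat_lit 101) (nat_lit 2) (nat_lit 210) (nat_lit 211) (nat_lit 179)) (PT.lf (nat_lit 7448) (nat_lit 3) (nat_lit 98) (nat_lit 0) (nat_lit 211) (nat_lit 211) (nat_lit 178))) (PT.nd (nat_lit 78) (PT.lf (nat_lit 7220) (nat_lit 6) (nat_lit 95) (nat_lit 0) (nat_lit 212) (nat_lit 211) (nat_lit 177)) (PT.lf (nat_lit 6916) (nat_lit 6) (nat_lit 91) (nat_lit 0) (nat_lit 213) (nat_lit 211) (nat_lit 176))))) (PT.nd (nat_lit 59358) (PT.nd (nat_lit 59202) (PT.nd (nat_lit 78) (PT.lf (nat_lit 6688) (nat_lit 6) (nat_lit 88) (nat_lit 0) (nat_lit 214) (nat_lit 211) (nat_lit 175)) (PT.lf (nat_lit 6384) (nat_lit 6) (nat_lit 84) (nat_lit 0) (nat_lit 215) (nat_lit 211) (nat_lit 174))) (PT.nd (nat_lit 78) (PT.lf (nat_lit 6004) (nat_lit 6) (nat_lit 79) (nat_lit 5) (nat_lit 172) (nat_lit 212) (nat_lit 216)) (PT.lf (nat_lit 6232) (nat_lit 6) (nat_lit 82) (nat_lit 5) (nat_lit 173) (nat_lit 212) (nat_lit 215))))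 (PT.nd (nat_lit 156) (PT.nd (nat_lit 78) (PT.lf (nat_lit 6460) (nat_lit 6) (nat_lit 85) (nat_lit 5) (nat_lit 174) (nat_lit 212) (nat_lit 214)) (PT.lf (nat_lit 6764) (nat_lit 6) (nat_lit 89) (nat_lit 5) (nat_lit 175) (nat_lit 212) (nat_lit 213))) (PT.nd (nat_lit 78) (PT.lf (nat_lit 6992) (nat_lit 3) (nat_lit 92) (nat_lit 4) (nat_lit 176) (nat_lit 212) (nat_lit 212)) (PT.nd (nat_lit 78) (PT.lf (nat_lit 7220) (nat_lit 6) (nat_lit 95) (nat_lit 4) (nat_lit 177) (nat_lit 212) (nat_lit 211)) (PT.lf (nat_lit 7372) (nat_lit 6) (nat_lit 97) (nat_lit 4) (nat_lit 178) (nat_lit 212) (nat_lit 210))))))))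
noncomputable def pc23 : PT := (PT.nd (nat_lit 2808) (PT.nd (nat_lit 2106) (PT.nd (nat_lit 312) (PT.nd (nat_lit 156) (PT.nd (nat_lit 78) (PT.lf (nat_lit 7600) (nat_lit 6) (nat_lit 100) (nat_lit 4) (nat_lit 179) (nat_lit 212) (nat_lit 209)) (PT.lf (nat_lit 7828) (nat_lit 6) (nat_lit 103) (nat_lit 4) (nat_lit 180) (nat_lit 212) (nat_lit 208))) (PT.nd (nat_lit 78) (PT.lf (nat_lit 8056) (nat_lit 6) (nat_lit 106) (nat_lit 4) (nat_lit 181) (nat_lit 212) (nat_lit 207)) (PT.lf (nat_lit 8284) (nat_lit 6) (nat_lit 109) (nat_lit 4) (nat_lit 182) (nat_lit 212) (nat_lit 206)))) (PT.nd (nat_lit 1638) (PT.nd (nat_lit 78) (PT.lf (nat_lit 8588) (nat_lit 6) (nat_lit 113) (nat_lit 4) (nat_lit 183) (nat_lit 212) (nat_lit 205)) (PT.lf (nat_lit 8892) (nat_lit 6) (nat_lit 117) (nat_lit 4) (nat_lit 184) (nat_lit 212) (nat_lit 204))) (PT.nd (nat_lit 78) (PT.lf (nat_lit 8892) (nat_lit 6) (nat_lit 117) (nat_lit 2) (nat_lit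 204) (nat_lit 212) (nat_lit 184)) (PT.lf (nat_lit 8588) (nat_lit 6) (nat_lit 113) (nat_lit 2) (nat_lit 205) (nat_lit 212) (nat_lit 183))))) (PT.nd (nat_lit 312) (PT.nd (nat_lit 156) (PT.nd (nat_lit 78) (PT.lf (nat_lit 8284) (nat_lit 6) (nat_lit 109) (nat_lit 2) (nat_lit 206) (nat_lit 212) (nat_lit 182)) (PT.lf (nat_lit 8056) (nat_lit 6) (nat_lit 106) (nat_lit 2) (nat_lit 207) (nat_lit 212) (nat_lit 181))) (PT.nd (nat_lit 78) (PT.lf (nat_lit 7828) (nat_lit 6) (nat_lit 103) (nat_lit 2) (nat_lit 208) (nat_lit 212) (nat_lit 180)) (PT.lf (nat_lit 7600) (nat_lit 6) (nat_lit 100) (nat_lit 2) (nat_lit 209) (nat_lit 212) (nat_lit 179)))) (PT.nd (nat_lit 156) (PT.nd (nat_lit 78) (PT.lf (nat_lit 7372) (nat_lit 6) (nat_lit 97) (nat_lit 2) (nat_lit 210) (nat_lit 212) (nat_lit 178)) (PT.lf (nat_lit 7220) (nat_lit 6) (nat_lit 95) (nat_lit 2) (nat_lit 211) (nat_lit 212) (nat_lit 177))) (PT.nd (nat_lit 78) (PT.lf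 (nat_lit 6992) (nat_lit 3) (nat_lit 92) (nat_lit 0) (nat_lit 212) (nat_lit 212) (nat_lit 176)) (PT.nd (nat_lit 78) (PT.lf (nat_lit 6764) (nat_lit 6) (nat_lit 89) (nat_lit 0) (nat_lit 213) (nat_lit 212) (nat_lit 175)) (PT.lf (nat_lit 6460) (nat_lit 6) (nat_lit 85) (nat_lit 0) (nat_lit 214) (nat_lit 212) (nat_lit 174))))))) (PT.nd (nat_lit 59436) (PT.nd (nat_lit 59124) (PT.nd (nat_lit 58968) (PT.nd (nat_lit 78) (PT.lf (nat_lit 6232) (nat_lit 6) (nat_lit 82) (nat_lit 0) (nat_lit 215) (nat_lit 212) (nat_lit 173)) (PT.lf (nat_lit 6004) (nat_lit 6) (nat_lit 79) (nat_lit 0) (nat_lit 216) (nat_lit 212) (nat_lit 172))) (PT.nd (nat_lit 78) (PT.lf (nat_lit 5624) (nat_lit 6) (nat_lit 74) (nat_lit 5) (nat_lit 170) (nat_lit 213) (nat_lit 217)) (PT.lf (nat_lit 5852) (nat_lit 6) (nat_lit 77) (nat_lit 5) (nat_lit 171) (nat_lit 213) (nat_lit 216)))) (PT.nd (nat_lit 156) (PT.nd (nat_lit 78) (PT.lf (nat_lit 6080)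 (nat_lit 6) (nat_lit 80) (nat_lit 5) (nat_lit 172) (nat_lit 213) (nat_lit 215)) (PT.lf (nat_lit 6308) (nat_lit 6) (nat_lit 83) (nat_lit 5) (nat_lit 173) (nat_lit 213) (nat_lit 214))) (PT.nd (nat_lit 78) (PT.lf (nat_lit 6536) (nat_lit 3) (nat_lit 86) (nat_lit 4) (nat_lit 174) (nat_lit 213) (nat_lit 213)) (PT.lf (nat_lit 6764) (nat_lit 6) (nat_lit 89) (nat_lit 4) (nat_lit 175) (nat_lit 213) (nat_lit 212))))) (PT.nd (nat_lit 312) (PT.nd (nat_lit 156) (PT.nd (nat_lit 78) (PT.lf (nat_lit 6916) (nat_lit 6) (nat_lit 91) (nat_lit 4) (nat_lit 176) (nat_lit 213) (nat_lit 211)) (PT.lf (nat_lit 7144) (nat_lit 6) (nat_lit 94) (nat_lit 4) (nat_lit 177) (nat_lit 213) (nat_lit 210))) (PT.nd (nat_lit 78) (PT.lf (nat_lit 7296) (nat_lit 6) (nat_lit 96) (nat_lit 4) (nat_lit 178) (nat_lit 213) (nat_lit 209)) (PT.lf (nat_lit 7524) (nat_lit 6) (nat_lit 99) (nat_lit 4) (nat_lit 179) (nat_lit 213) (nat_lit 208)))) (PT.nd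 (nat_lit 2184) (PT.nd (nat_lit 2106) (PT.lf (nat_lit 7752) (nat_lit 6) (nat_lit 102) (nat_lit 4) (nat_lit 180) (nat_lit 213) (nat_lit 207)) (PT.lf (nat_lit 7752) (nat_lit 6) (nat_lit 102) (nat_lit 2) (nat_lit 207) (nat_lit 213) (nat_lit 180))) (PT.nd (nat_lit 78) (PT.lf (nat_lit 7524) (nat_lit 6) (nat_lit 99) (nat_lit 2) (nat_lit 208) (nat_lit 213) (nat_lit 179)) (PT.nd (nat_lit 78) (PT.lf (nat_lit 7296) (nat_lit 6) (nat_lit 96) (nat_lit 2) (nat_lit 209) (nat_lit 213) (nat_lit 178)) (PT.lf (nat_lit 7144) (nat_lit 6) (nat_lit 94) (nat_lit 2) (nat_lit 210) (nat_lit 213) (nat_lit 177))))))))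
noncomputable def pc24 : PT := (PT.nd (nat_lit 62322) (PT.nd (nat_lit 59280) (PT.nd (nat_lit 312) (PT.nd (nat_lit 156) (PT.nd (nat_lit 78) (PT.lf (nat_lit 6916) (nat_lit 6) (nat_lit 91) (nat_lit 2) (nat_lit 211) (nat_lit 213) (nat_lit 176)) (PT.lf (nat_lit 6764) (nat_lit 6) (nat_lit 89) (nat_lit 2) (nat_lit 212) (nat_lit 213) (nat_lit 175))) (PT.nd (nat_lit 78) (PT.lf (nat_lit 6536) (nat_lit 3) (nat_lit 86) (nat_lit 0) (nat_lit 213) (nat_lit 213) (nat_lit 174)) (PT.lf (nat_lit 6308) (nat_lit 6) (nat_lit 83) (nat_lit 0) (nat_lit 214) (nat_lit 213) (nat_lit 173)))) (PT.nd (nat_lit 156) (PT.nd (nat_lit 78) (PT.lf (nat_lit 6080) (nat_lit 6) (nat_lit 80) (nat_lit 0) (nat_lit 215) (nat_lit 213) (nat_lit 172)) (PT.lf (nat_lit 5852) (nat_lit 6) (nat_lit 77) (nat_lit 0) (nat_lit 216) (nat_lit 213) (nat_lit 171))) (PT.nd (nat_lit 58734) (PT.lf (nat_lit 5624) (nat_lit 6) (nat_lit 74) (nat_lit 0) (nat_lit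 217) (nat_lit 213) (nat_lit 170)) (PT.lf (nat_lit 5472) (nat_lit 6) (nat_lit 72) (nat_lit 5) (nat_lit 169) (nat_lit 214) (nat_lit 217))))) (PT.nd (nat_lit 312) (PT.nd (nat_lit 156) (PT.nd (nat_lit 78) (PT.lf (nat_lit 5700) (nat_lit 6) (nat_lit 75) (nat_lit 5) (nat_lit 170) (nat_lit 214) (nat_lit 216)) (PT.lf (nat_lit 5928) (nat_lit 6) (nat_lit 78) (nat_lit 5) (nat_lit 171) (nat_lit 214) (nat_lit 215))) (PT.nd (nat_lit 78) (PT.lf (nat_lit 6156) (nat_lit 3) (nat_lit 81) (nat_lit 4) (nat_lit 172) (nat_lit 214) (nat_lit 214)) (PT.lf (nat_lit 6308) (nat_lit 6) (nat_lit 83) (nat_lit 4) (nat_lit 173) (nat_lit 214) (nat_lit 213)))) (PT.nd (nat_lit 156) (PT.nd (nat_lit 78) (PT.lf (nat_lit 6460) (nat_lit 6) (nat_lit 85) (nat_lit 4) (nat_lit 174) (nat_lit 214) (nat_lit 212)) (PT.lf (nat_lit 6688) (nat_lit 6) (nat_lit 88) (nat_lit 4) (nat_lit 175) (nat_lit 214) (nat_lit 211))) (PT.nd (nat_lit 78) (PT.lf (nat_lit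 6840) (nat_lit 6) (nat_lit 90) (nat_lit 4) (nat_lit 176) (nat_lit 214) (nat_lit 210)) (PT.lf (nat_lit 7068) (nat_lit 6) (nat_lit 93) (nat_lit 4) (nat_lit 177) (nat_lit 214) (nat_lit 209)))))) (PT.nd (nat_lit 624) (PT.nd (nat_lit 312) (PT.nd (nat_lit 156) (PT.nd (nat_lit 78) (PT.lf (nat_lit 7068) (nat_lit 6) (nat_lit 93) (nat_lit 2) (nat_lit 209) (nat_lit 214) (nat_lit 177)) (PT.lf (nat_lit 6840) (nat_lit 6) (nat_lit 90) (nat_lit 2) (nat_lit 210) (nat_lit 214) (nat_lit 176))) (PT.nd (nat_lit 78) (PT.lf (nat_lit 6688) (nat_lit 6) (nat_lit 88) (nat_lit 2) (nat_lit 211) (nat_lit 214) (nat_lit 175)) (PT.lf (nat_lit 6460) (nat_lit 6) (nat_lit 85) (nat_lit 2) (nat_lit 212) (nat_lit 214) (nat_lit 174)))) (PT.nd (nat_lit 156) (PT.nd (nat_lit 78) (PT.lf (nat_lit 6308) (nat_lit 6) (nat_lit 83) (nat_lit 2) (nat_lit 213) (nat_lit 214) (nat_lit 173)) (PT.lf (nat_lit 6156) (nat_lit 3) (nat_lit 81) (nat_lit 0)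 (nat_lit 214) (nat_lit 214) (nat_lit 172))) (PT.nd (nat_lit 78) (PT.lf (nat_lit 5928) (nat_lit 6) (nat_lit 78) (nat_lit 0) (nat_lit 215) (nat_lit 214) (nat_lit 171)) (PT.lf (nat_lit 5700) (nat_lit 6) (nat_lit 75) (nat_lit 0) (nat_lit 216) (nat_lit 214) (nat_lit 170))))) (PT.nd (nat_lit 58812) (PT.nd (nat_lit 58656) (PT.nd (nat_lit 58578) (PT.lf (nat_lit 5472) (nat_lit 6) (nat_lit 72) (nat_lit 0) (nat_lit 217) (nat_lit 214) (nat_lit 169)) (PT.lf (nat_lit 5168) (nat_lit 6) (nat_lit 68) (nat_lit 5) (nat_lit 167) (nat_lit 215) (nat_lit 218))) (PT.nd (nat_lit 78) (PT.lf (nat_lit 5320) (nat_lit 6) (nat_lit 70) (nat_lit 5) (nat_lit 168) (nat_lit 215) (nat_lit 217)) (PT.lf (nat_lit 5548) (nat_lit 6) (nat_lit 73) (nat_lit 5) (nat_lit 169) (nat_lit 215) (nat_lit 216)))) (PT.nd (nat_lit 156) (PT.nd (nat_lit 78) (PT.lf (nat_lit 5776) (nat_lit 3) (nat_lit 76) (nat_lit 4) (nat_lit 170) (nat_lit 215) (nat_lit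 215)) (PT.lf (nat_lit 5928) (nat_lit 6) (nat_lit 78) (nat_lit 4) (nat_lit 171) (nat_lit 215) (nat_lit 214))) (PT.nd (nat_lit 78) (PT.lf (nat_lit 6080) (nat_lit 6) (nat_lit 80) (nat_lit 4) (nat_lit 172) (nat_lit 215) (nat_lit 213)) (PT.nd (nat_lit 78) (PT.lf (nat_lit 6232) (nat_lit 6) (nat_lit 82) (nat_lit 4) (nat_lit 173) (nat_lit 215) (nat_lit 212)) (PT.lf (nat_lit 6384) (nat_lit 6) (nat_lit 84) (nat_lit 4) (nat_lit 174) (nat_lit 215) (nat_lit 211))))))))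
noncomputable def pc25 : PT := (PT.nd (nat_lit 62244) (PT.nd (nat_lit 3276) (PT.nd (nat_lit 2964) (PT.nd (nat_lit 2808) (PT.nd (nat_lit 2730) (PT.lf (nat_lit 6612) (nat_lit 6) (nat_lit 87) (nat_lit 4) (nat_lit 175) (nat_lit 215) (nat_lit 210)) (PT.lf (nat_lit 6612) (nat_lit 6) (nat_lit 87) (nat_lit 2) (nat_lit 210) (nat_lit 215) (nat_lit 175))) (PT.nd (nat_lit 78) (PT.lf (nat_lit 6384) (nat_lit 6) (nat_lit 84) (nat_lit 2) (nat_lit 211) (nat_lit 215) (nat_lit 174)) (PT.lf (nat_lit 6232) (nat_lit 6) (nat_lit 82) (nat_lit 2) (nat_lit 212) (nat_lit 215) (nat_lit 173)))) (PT.nd (nat_lit 156) (PT.nd (nat_lit 78) (PT.lf (nat_lit 6080) (nat_lit 6) (nat_lit 80) (nat_lit 2) (nat_lit 213) (nat_lit 215) (nat_lit 172)) (PT.lf (nat_lit 5928) (nat_lit 6) (nat_lit 78) (nat_lit 2) (nat_lit 214) (nat_lit 215) (nat_lit 171))) (PT.nd (nat_lit 78) (PT.lf (nat_lit 5776) (nat_lit 3) (nat_lit 76) (nat_lit 0) (nat_lit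 215) (nat_lit 215) (nat_lit 170)) (PT.lf (nat_lit 5548) (nat_lit 6) (nat_lit 73) (nat_lit 0) (nat_lit 216) (nat_lit 215) (nat_lit 169))))) (PT.nd (nat_lit 58578) (PT.nd (nat_lit 58422) (PT.nd (nat_lit 78) (PT.lf (nat_lit 5320) (nat_lit 6) (nat_lit 70) (nat_lit 0) (nat_lit 217) (nat_lit 215) (nat_lit 168)) (PT.lf (nat_lit 5168) (nat_lit 6) (nat_lit 68) (nat_lit 0) (nat_lit 218) (nat_lit 215) (nat_lit 167))) (PT.nd (nat_lit 78) (PT.lf (nat_lit 4864) (nat_lit 6) (nat_lit 64) (nat_lit 5) (nat_lit 165) (nat_lit 216) (nat_lit 219)) (PT.lf (nat_lit 5016) (nat_lit 6) (nat_lit 66) (nat_lit 5) (nat_lit 166) (nat_lit 216) (nat_lit 218)))) (PT.nd (nat_lit 156) (PT.nd (nat_lit 78) (PT.lf (nat_lit 5244) (nat_lit 6) (nat_lit 69) (nat_lit 5) (nat_lit 167) (nat_lit 216) (nat_lit 217)) (PT.lf (nat_lit 5396) (nat_lit 3) (nat_lit 71) (nat_lit 4) (nat_lit 168) (nat_lit 216) (nat_lit 216))) (PT.nd (nat_lit 78) (PT.lf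 (nat_lit 5548) (nat_lit 6) (nat_lit 73) (nat_lit 4) (nat_lit 169) (nat_lit 216) (nat_lit 215)) (PT.nd (nat_lit 78) (PT.lf (nat_lit 5700) (nat_lit 6) (nat_lit 75) (nat_lit 4) (nat_lit 170) (nat_lit 216) (nat_lit 214)) (PT.lf (nat_lit 5852) (nat_lit 6) (nat_lit 77) (nat_lit 4) (nat_lit 171) (nat_lit 216) (nat_lit 213))))))) (PT.nd (nat_lit 3666) (PT.nd (nat_lit 3354) (PT.nd (nat_lit 3198) (PT.nd (nat_lit 3120) (PT.lf (nat_lit 6004) (nat_lit 6) (nat_lit 79) (nat_lit 4) (nat_lit 172) (nat_lit 216) (nat_lit 212)) (PT.lf (nat_lit 6004) (nat_lit 6) (nat_lit 79) (nat_lit 2) (nat_lit 212) (nat_lit 216) (nat_lit 172))) (PT.nd (nat_lit 78) (PT.lf (nat_lit 5852) (nat_lit 6) (nat_lit 77) (nat_lit 2) (nat_lit 213) (nat_lit 216) (nat_lit 171)) (PT.lf (nat_lit 5700) (nat_lit 6) (nat_lit 75) (nat_lit 2) (nat_lit 214) (nat_lit 216) (nat_lit 170)))) (PT.nd (nat_lit 156) (PT.nd (nat_lit 78) (PT.lf (nat_lit 5548) (nat_lit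 6) (nat_lit 73) (nat_lit 2) (nat_lit 215) (nat_lit 216) (nat_lit 169)) (PT.lf (nat_lit 5396) (nat_lit 3) (nat_lit 71) (nat_lit 0) (nat_lit 216) (nat_lit 216) (nat_lit 168))) (PT.nd (nat_lit 78) (PT.lf (nat_lit 5244) (nat_lit 6) (nat_lit 69) (nat_lit 0) (nat_lit 217) (nat_lit 216) (nat_lit 167)) (PT.lf (nat_lit 5016) (nat_lit 6) (nat_lit 66) (nat_lit 0) (nat_lit 218) (nat_lit 216) (nat_lit 166))))) (PT.nd (nat_lit 58344) (PT.nd (nat_lit 58188) (PT.nd (nat_lit 58110) (PT.lf (nat_lit 4864) (nat_lit 6) (nat_lit 64) (nat_lit 0) (nat_lit 219) (nat_lit 216) (nat_lit 165)) (PT.lf (nat_lit 4560) (nat_lit 6) (nat_lit 60) (nat_lit 5) (nat_lit 163) (nat_lit 217) (nat_lit 220))) (PT.nd (nat_lit 78) (PT.lf (nat_lit 4712) (nat_lit 6) (nat_lit 62) (nat_lit 5) (nat_lit 164) (nat_lit 217) (nat_lit 219)) (PT.lf (nat_lit 4940) (nat_lit 6) (nat_lit 65) (nat_lit 5) (nat_lit 165) (nat_lit 217) (nat_lit 218)))) (PT.nd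 (nat_lit 156) (PT.nd (nat_lit 78) (PT.lf (nat_lit 5092) (nat_lit 3) (nat_lit 67) (nat_lit 4) (nat_lit 166) (nat_lit 217) (nat_lit 217)) (PT.lf (nat_lit 5244) (nat_lit 6) (nat_lit 69) (nat_lit 4) (nat_lit 167) (nat_lit 217) (nat_lit 216))) (PT.nd (nat_lit 78) (PT.lf (nat_lit 5320) (nat_lit 6) (nat_lit 70) (nat_lit 4) (nat_lit 168) (nat_lit 217) (nat_lit 215)) (PT.nd (nat_lit 78) (PT.lf (nat_lit 5472) (nat_lit 6) (nat_lit 72) (nat_lit 4) (nat_lit 169) (nat_lit 217) (nat_lit 214)) (PT.lf (nat_lit 5624) (nat_lit 6) (nat_lit 74) (nat_lit 4) (nat_lit 170) (nat_lit 217) (nat_lit 213))))))))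
noncomputable def pc26 : PT := (PT.nd (nat_lit 62790) (PT.nd (nat_lit 58422) (PT.nd (nat_lit 312) (PT.nd (nat_lit 156) (PT.nd (nat_lit 78) (PT.lf (nat_lit 5624) (nat_lit 6) (nat_lit 74) (nat_lit 2) (nat_lit 213) (nat_lit 217) (nat_lit 170)) (PT.lf (nat_lit 5472) (nat_lit 6) (nat_lit 72) (nat_lit 2) (nat_lit 214) (nat_lit 217) (nat_lit 169))) (PT.nd (nat_lit 78) (PT.lf (nat_lit 5320) (nat_lit 6) (nat_lit 70) (nat_lit 2) (nat_lit 215) (nat_lit 217) (nat_lit 168)) (PT.lf (nat_lit 5244) (nat_lit 6) (nat_lit 69) (nat_lit 2) (nat_lit 216) (nat_lit 217) (nat_lit 167)))) (PT.nd (nat_lit 156) (PT.nd (nat_lit 78) (PT.lf (nat_lit 5092) (nat_lit 3) (nat_lit 67) (nat_lit 0) (nat_lit 217) (nat_lit 217) (nat_lit 166)) (PT.lf (nat_lit 4940) (nat_lit 6) (nat_lit 65) (nat_lit 0) (nat_lit 218) (nat_lit 217) (nat_lit 165))) (PT.nd (nat_lit 78) (PT.lf (nat_lit 4712) (nat_lit 6) (nat_lit 62) (nat_lit 0) (nat_lit 219)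 (nat_lit 217) (nat_lit 164)) (PT.lf (nat_lit 4560) (nat_lit 6) (nat_lit 60) (nat_lit 0) (nat_lit 220) (nat_lit 217) (nat_lit 163))))) (PT.nd (nat_lit 312) (PT.nd (nat_lit 156) (PT.nd (nat_lit 78) (PT.lf (nat_lit 4256) (nat_lit 6) (nat_lit 56) (nat_lit 5) (nat_lit 161) (nat_lit 218) (nat_lit 221)) (PT.lf (nat_lit 4408) (nat_lit 6) (nat_lit 58) (nat_lit 5) (nat_lit 162) (nat_lit 218) (nat_lit 220))) (PT.nd (nat_lit 78) (PT.lf (nat_lit 4636) (nat_lit 6) (nat_lit 61) (nat_lit 5) (nat_lit 163) (nat_lit 218) (nat_lit 219)) (PT.lf (nat_lit 4788) (nat_lit 3) (nat_lit 63) (nat_lit 4) (nat_lit 164) (nat_lit 218) (nat_lit 218)))) (PT.nd (nat_lit 156) (PT.nd (nat_lit 78) (PT.lf (nat_lit 4940) (nat_lit 6) (nat_lit 65) (nat_lit 4) (nat_lit 165) (nat_lit 218) (nat_lit 217)) (PT.lf (nat_lit 5016) (nat_lit 6) (nat_lit 66) (nat_lit 4) (nat_lit 166) (nat_lit 218) (nat_lit 216))) (PT.nd (nat_lit 3744) (PT.lf (nat_lit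 5168) (nat_lit 6) (nat_lit 68) (nat_lit 4) (nat_lit 167) (nat_lit 218) (nat_lit 215)) (PT.nd (nat_lit 78) (PT.lf (nat_lit 5168) (nat_lit 6) (nat_lit 68) (nat_lit 2) (nat_lit 215) (nat_lit 218) (nat_lit 167)) (PT.lf (nat_lit 5016) (nat_lit 6) (nat_lit 66) (nat_lit 2) (nat_lit 216) (nat_lit 218) (nat_lit 166))))))) (PT.nd (nat_lit 58266) (PT.nd (nat_lit 312) (PT.nd (nat_lit 156) (PT.nd (nat_lit 78) (PT.lf (nat_lit 4940) (nat_lit 6) (nat_lit 65) (nat_lit 2) (nat_lit 217) (nat_lit 218) (nat_lit 165)) (PT.lf (nat_lit 4788) (nat_lit 3) (nat_lit 63) (nat_lit 0) (nat_lit 218) (nat_lit 218) (nat_lit 164))) (PT.nd (nat_lit 78) (PT.lf (nat_lit 4636) (nat_lit 6) (nat_lit 61) (nat_lit 0) (nat_lit 219) (nat_lit 218) (nat_lit 163)) (PT.lf (nat_lit 4408) (nat_lit 6) (nat_lit 58) (nat_lit 0) (nat_lit 220) (nat_lit 218) (nat_lit 162)))) (PT.nd (nat_lit 57798) (PT.nd (nat_lit 57720) (PT.lf (nat_lit 4256) (nat_lit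 6) (nat_lit 56) (nat_lit 0) (nat_lit 221) (nat_lit 218) (nat_lit 161)) (PT.lf (nat_lit 4104) (nat_lit 6) (nat_lit 54) (nat_lit 5) (nat_lit 160) (nat_lit 219) (nat_lit 221))) (PT.nd (nat_lit 78) (PT.lf (nat_lit 4332) (nat_lit 6) (nat_lit 57) (nat_lit 5) (nat_lit 161) (nat_lit 219) (nat_lit 220)) (PT.lf (nat_lit 4484) (nat_lit 3) (nat_lit 59) (nat_lit 4) (nat_lit 162) (nat_lit 219) (nat_lit 219))))) (PT.nd (nat_lit 4212) (PT.nd (nat_lit 156) (PT.nd (nat_lit 78) (PT.lf (nat_lit 4636) (nat_lit 6) (nat_lit 61) (nat_lit 4) (nat_lit 163) (nat_lit 219) (nat_lit 218)) (PT.lf (nat_lit 4712) (nat_lit 6) (nat_lit 62) (nat_lit 4) (nat_lit 164) (nat_lit 219) (nat_lit 217))) (PT.nd (nat_lit 3978) (PT.lf (nat_lit 4864) (nat_lit 6) (nat_lit 64) (nat_lit 4) (nat_lit 165) (nat_lit 219) (nat_lit 216)) (PT.lf (nat_lit 4864) (nat_lit 6) (nat_lit 64) (nat_lit 2) (nat_lit 216) (nat_lit 219) (nat_lit 165)))) (PT.nd (nat_lit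 156) (PT.nd (nat_lit 78) (PT.lf (nat_lit 4712) (nat_lit 6) (nat_lit 62) (nat_lit 2) (nat_lit 217) (nat_lit 219) (nat_lit 164)) (PT.lf (nat_lit 4636) (nat_lit 6) (nat_lit 61) (nat_lit 2) (nat_lit 218) (nat_lit 219) (nat_lit 163))) (PT.nd (nat_lit 78) (PT.lf (nat_lit 4484) (nat_lit 3) (nat_lit 59) (nat_lit 0) (nat_lit 219) (nat_lit 219) (nat_lit 162)) (PT.nd (nat_lit 78) (PT.lf (nat_lit 4332) (nat_lit 6) (nat_lit 57) (nat_lit 0) (nat_lit 220) (nat_lit 219) (nat_lit 161)) (PT.lf (nat_lit 4104) (nat_lit 6) (nat_lit 54) (nat_lit 0) (nat_lit 221) (nat_lit 219) (nat_lit 160))))))))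
noncomputable def pc27 : PT := (PT.nd (nat_lit 62712) (PT.nd (nat_lit 4758) (PT.nd (nat_lit 312) (PT.nd (nat_lit 156) (PT.nd (nat_lit 78) (PT.lf (nat_lit 3876) (nat_lit 6) (nat_lit 51) (nat_lit 5) (nat_lit 158) (nat_lit 220) (nat_lit 222)) (PT.lf (nat_lit 4028) (nat_lit 6) (nat_lit 53) (nat_lit 5) (nat_lit 159) (nat_lit 220) (nat_lit 221))) (PT.nd (nat_lit 78) (PT.lf (nat_lit 4180) (nat_lit 3) (nat_lit 55) (nat_lit 4) (nat_lit 160) (nat_lit 220) (nat_lit 220)) (PT.lf (nat_lit 4332) (nat_lit 6) (nat_lit 57) (nat_lit 4) (nat_lit 161) (nat_lit 220) (nat_lit 219)))) (PT.nd (nat_lit 4290) (PT.nd (nat_lit 78) (PT.lf (nat_lit 4408) (nat_lit 6) (nat_lit 58) (nat_lit 4) (nat_lit 162) (nat_lit 220) (nat_lit 218)) (PT.lf (nat_lit 4560) (nat_lit 6) (nat_lit 60) (nat_lit 4) (nat_lit 163) (nat_lit 220) (nat_lit 217))) (PT.nd (nat_lit 78) (PT.lf (nat_lit 4560) (nat_lit 6) (nat_lit 60) (nat_lit 2) (nat_lit 217)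 (nat_lit 220) (nat_lit 163)) (PT.lf (nat_lit 4408) (nat_lit 6) (nat_lit 58) (nat_lit 2) (nat_lit 218) (nat_lit 220) (nat_lit 162))))) (PT.nd (nat_lit 57564) (PT.nd (nat_lit 156) (PT.nd (nat_lit 78) (PT.lf (nat_lit 4332) (nat_lit 6) (nat_lit 57) (nat_lit 2) (nat_lit 219) (nat_lit 220) (nat_lit 161)) (PT.lf (nat_lit 4180) (nat_lit 3) (nat_lit 55) (nat_lit 0) (nat_lit 220) (nat_lit 220) (nat_lit 160))) (PT.nd (nat_lit 78) (PT.lf (nat_lit 4028) (nat_lit 6) (nat_lit 53) (nat_lit 0) (nat_lit 221) (nat_lit 220) (nat_lit 159)) (PT.lf (nat_lit 3876) (nat_lit 6) (nat_lit 51) (nat_lit 0) (nat_lit 222) (nat_lit 220) (nat_lit 158)))) (PT.nd (nat_lit 156) (PT.nd (nat_lit 78) (PT.lf (nat_lit 3648) (nat_lit 6) (nat_lit 48) (nat_lit 5) (nat_lit 156) (nat_lit 221) (nat_lit 223)) (PT.lf (nat_lit 3800) (nat_lit 6) (nat_lit 50) (nat_lit 5) (nat_lit 157) (nat_lit 221) (nat_lit 222))) (PT.nd (nat_lit 78) (PT.lf (nat_lit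 3952) (nat_lit 3) (nat_lit 52) (nat_lit 4) (nat_lit 158) (nat_lit 221) (nat_lit 221)) (PT.nd (nat_lit 78) (PT.lf (nat_lit 4028) (nat_lit 6) (nat_lit 53) (nat_lit 4) (nat_lit 159) (nat_lit 221) (nat_lit 220)) (PT.lf (nat_lit 4104) (nat_lit 6) (nat_lit 54) (nat_lit 4) (nat_lit 160) (nat_lit 221) (nat_lit 219))))))) (PT.nd (nat_lit 62010) (PT.nd (nat_lit 4680) (PT.nd (nat_lit 4524) (PT.nd (nat_lit 4446) (PT.lf (nat_lit 4256) (nat_lit 6) (nat_lit 56) (nat_lit 4) (nat_lit 161) (nat_lit 221) (nat_lit 218)) (PT.lf (nat_lit 4256) (nat_lit 6) (nat_lit 56) (nat_lit 2) (nat_lit 218) (nat_lit 221) (nat_lit 161))) (PT.nd (nat_lit 78) (PT.lf (nat_lit 4104) (nat_lit 6) (nat_lit 54) (nat_lit 2) (nat_lit 219) (nat_lit 221) (nat_lit 160)) (PT.lf (nat_lit 4028) (nat_lit 6) (nat_lit 53) (nat_lit 2) (nat_lit 220) (nat_lit 221) (nat_lit 159)))) (PT.nd (nat_lit 156) (PT.nd (nat_lit 78) (PT.lf (nat_lit 3952) (nat_lit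 3) (nat_lit 52) (nat_lit 0) (nat_lit 221) (nat_lit 221) (nat_lit 158)) (PT.lf (nat_lit 3800) (nat_lit 6) (nat_lit 50) (nat_lit 0) (nat_lit 222) (nat_lit 221) (nat_lit 157))) (PT.nd (nat_lit 57096) (PT.lf (nat_lit 3648) (nat_lit 6) (nat_lit 48) (nat_lit 0) (nat_lit 223) (nat_lit 221) (nat_lit 156)) (PT.lf (nat_lit 3420) (nat_lit 6) (nat_lit 45) (nat_lit 5) (nat_lit 154) (nat_lit 222) (nat_lit 224))))) (PT.nd (nat_lit 5070) (PT.nd (nat_lit 156) (PT.nd (nat_lit 78) (PT.lf (nat_lit 3572) (nat_lit 6) (nat_lit 47) (nat_lit 5) (nat_lit 155) (nat_lit 222) (nat_lit 223)) (PT.lf (nat_lit 3724) (nat_lit 3) (nat_lit 49) (nat_lit 4) (nat_lit 156) (nat_lit 222) (nat_lit 222))) (PT.nd (nat_lit 78) (PT.lf (nat_lit 3800) (nat_lit 6) (nat_lit 50) (nat_lit 4) (nat_lit 157) (nat_lit 222) (nat_lit 221)) (PT.lf (nat_lit 3876) (nat_lit 6) (nat_lit 51) (nat_lit 4) (nat_lit 158) (nat_lit 222) (nat_lit 220)))) (PT.nd (nat_lit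 156) (PT.nd (nat_lit 78) (PT.lf (nat_lit 3876) (nat_lit 6) (nat_lit 51) (nat_lit 2) (nat_lit 220) (nat_lit 222) (nat_lit 158)) (PT.lf (nat_lit 3800) (nat_lit 6) (nat_lit 50) (nat_lit 2) (nat_lit 221) (nat_lit 222) (nat_lit 157))) (PT.nd (nat_lit 78) (PT.lf (nat_lit 3724) (nat_lit 3) (nat_lit 49) (nat_lit 0) (nat_lit 222) (nat_lit 222) (nat_lit 156)) (PT.nd (nat_lit 78) (PT.lf (nat_lit 3572) (nat_lit 6) (nat_lit 47) (nat_lit 0) (nat_lit 223) (nat_lit 222) (nat_lit 155)) (PT.lf (nat_lit 3420) (nat_lit 6) (nat_lit 45) (nat_lit 0) (nat_lit 224) (nat_lit 222) (nat_lit 154))))))))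
noncomputable def pc28 : PT := (PT.nd (nat_lit 68094) (PT.nd (nat_lit 5616) (PT.nd (nat_lit 312) (PT.nd (nat_lit 156) (PT.nd (nat_lit 78) (PT.lf (nat_lit 3192) (nat_lit 6) (nat_lit 42) (nat_lit 5) (nat_lit 152) (nat_lit 223) (nat_lit 225)) (PT.lf (nat_lit 3344) (nat_lit 6) (nat_lit 44) (nat_lit 5) (nat_lit 153) (nat_lit 223) (nat_lit 224))) (PT.nd (nat_lit 78) (PT.lf (nat_lit 3496) (nat_lit 3) (nat_lit 46) (nat_lit 4) (nat_lit 154) (nat_lit 223) (nat_lit 223)) (PT.lf (nat_lit 3572) (nat_lit 6) (nat_lit 47) (nat_lit 4) (nat_lit 155) (nat_lit 223) (nat_lit 222)))) (PT.nd (nat_lit 5148) (PT.nd (nat_lit 5070) (PT.lf (nat_lit 3648) (nat_lit 6) (nat_lit 48) (nat_lit 4) (nat_lit 156) (nat_lit 223) (nat_lit 221)) (PT.lf (nat_lit 3648) (nat_lit 6) (nat_lit 48) (nat_lit 2) (nat_lit 221) (nat_lit 223) (nat_lit 156))) (PT.nd (nat_lit 78) (PT.lf (nat_lit 3572) (nat_lit 6) (nat_lit 47) (nat_lit 2) (nat_lit 222)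 (nat_lit 223) (nat_lit 155)) (PT.lf (nat_lit 3496) (nat_lit 3) (nat_lit 46) (nat_lit 0) (nat_lit 223) (nat_lit 223) (nat_lit 154))))) (PT.nd (nat_lit 56862) (PT.nd (nat_lit 56706) (PT.nd (nat_lit 78) (PT.lf (nat_lit 3344) (nat_lit 6) (nat_lit 44) (nat_lit 0) (nat_lit 224) (nat_lit 223) (nat_lit 153)) (PT.lf (nat_lit 3192) (nat_lit 6) (nat_lit 42) (nat_lit 0) (nat_lit 225) (nat_lit 223) (nat_lit 152))) (PT.nd (nat_lit 78) (PT.lf (nat_lit 2964) (nat_lit 6) (nat_lit 39) (nat_lit 5) (nat_lit 150) (nat_lit 224) (nat_lit 226)) (PT.lf (nat_lit 3116) (nat_lit 6) (nat_lit 41) (nat_lit 5) (nat_lit 151) (nat_lit 224) (nat_lit 225)))) (PT.nd (nat_lit 156) (PT.nd (nat_lit 78) (PT.lf (nat_lit 3268) (nat_lit 3) (nat_lit 43) (nat_lit 4) (nat_lit 152) (nat_lit 224) (nat_lit 224)) (PT.lf (nat_lit 3344) (nat_lit 6) (nat_lit 44) (nat_lit 4) (nat_lit 153) (nat_lit 224) (nat_lit 223))) (PT.nd (nat_lit 5304) (PT.lf (nat_lit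 3420) (nat_lit 6) (nat_lit 45) (nat_lit 4) (nat_lit 154) (nat_lit 224) (nat_lit 222)) (PT.nd (nat_lit 78) (PT.lf (nat_lit 3420) (nat_lit 6) (nat_lit 45) (nat_lit 2) (nat_lit 222) (nat_lit 224) (nat_lit 154)) (PT.lf (nat_lit 3344) (nat_lit 6) (nat_lit 44) (nat_lit 2) (nat_lit 223) (nat_lit 224) (nat_lit 153))))))) (PT.nd (nat_lit 62400) (PT.nd (nat_lit 56628) (PT.nd (nat_lit 156) (PT.nd (nat_lit 78) (PT.lf (nat_lit 3268) (nat_lit 3) (nat_lit 43) (nat_lit 0) (nat_lit 224) (nat_lit 224) (nat_lit 152)) (PT.lf (nat_lit 3116) (nat_lit 6) (nat_lit 41) (nat_lit 0) (nat_lit 225) (nat_lit 224) (nat_lit 151))) (PT.nd (nat_lit 56394) (PT.lf (nat_lit 2964) (nat_lit 6) (nat_lit 39) (nat_lit 0) (nat_lit 226) (nat_lit 224) (nat_lit 150)) (PT.lf (nat_lit 2736) (nat_lit 6) (nat_lit 36) (nat_lit 5) (nat_lit 148) (nat_lit 225) (nat_lit 227)))) (PT.nd (nat_lit 156) (PT.nd (nat_lit 78) (PT.lf (nat_lit 2888) (nat_lit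 6) (nat_lit 38) (nat_lit 5) (nat_lit 149) (nat_lit 225) (nat_lit 226)) (PT.lf (nat_lit 3040) (nat_lit 3) (nat_lit 40) (nat_lit 4) (nat_lit 150) (nat_lit 225) (nat_lit 225))) (PT.nd (nat_lit 78) (PT.lf (nat_lit 3116) (nat_lit 6) (nat_lit 41) (nat_lit 4) (nat_lit 151) (nat_lit 225) (nat_lit 224)) (PT.lf (nat_lit 3192) (nat_lit 6) (nat_lit 42) (nat_lit 4) (nat_lit 152) (nat_lit 225) (nat_lit 223))))) (PT.nd (nat_lit 312) (PT.nd (nat_lit 156) (PT.nd (nat_lit 78) (PT.lf (nat_lit 3192) (nat_lit 6) (nat_lit 42) (nat_lit 2) (nat_lit 223) (nat_lit 225) (nat_lit 152)) (PT.lf (nat_lit 3116) (nat_lit 6) (nat_lit 41) (nat_lit 2) (nat_lit 224) (nat_lit 225) (nat_lit 151))) (PT.nd (nat_lit 78) (PT.lf (nat_lit 3040) (nat_lit 3) (nat_lit 40) (nat_lit 0) (nat_lit 225) (nat_lit 225) (nat_lit 150)) (PT.lf (nat_lit 2888) (nat_lit 6) (nat_lit 38) (nat_lit 0) (nat_lit 226) (nat_lit 225) (nat_lit 149)))) (PT.nd (nat_lit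 56238) (PT.nd (nat_lit 56160) (PT.lf (nat_lit 2736) (nat_lit 6) (nat_lit 36) (nat_lit 0) (nat_lit 227) (nat_lit 225) (nat_lit 148)) (PT.lf (nat_lit 2508) (nat_lit 6) (nat_lit 33) (nat_lit 5) (nat_lit 146) (nat_lit 226) (nat_lit 228))) (PT.nd (nat_lit 78) (PT.lf (nat_lit 2660) (nat_lit 6) (nat_lit 35) (nat_lit 5) (nat_lit 147) (nat_lit 226) (nat_lit 227)) (PT.nd (nat_lit 78) (PT.lf (nat_lit 2812) (nat_lit 3) (nat_lit 37) (nat_lit 4) (nat_lit 148) (nat_lit 226) (nat_lit 226)) (PT.lf (nat_lit 2888) (nat_lit 6) (nat_lit 38) (nat_lit 4) (nat_lit 149) (nat_lit 226) (nat_lit 225))))))))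
noncomputable def pc29 : PT := (PT.nd (nat_lit 124410) (PT.nd (nat_lit 62166) (PT.nd (nat_lit 6006) (PT.nd (nat_lit 5850) (PT.nd (nat_lit 5772) (PT.lf (nat_lit 2964) (nat_lit 6) (nat_lit 39) (nat_lit 4) (nat_lit 150) (nat_lit 226) (nat_lit 224)) (PT.lf (nat_lit 2964) (nat_lit 6) (nat_lit 39) (nat_lit 2) (nat_lit 224) (nat_lit 226) (nat_lit 150))) (PT.nd (nat_lit 78) (PT.lf (nat_lit 2888) (nat_lit 6) (nat_lit 38) (nat_lit 2) (nat_lit 225) (nat_lit 226) (nat_lit 149)) (PT.lf (nat_lit 2812) (nat_lit 3) (nat_lit 37) (nat_lit 0) (nat_lit 226) (nat_lit 226) (nat_lit 148)))) (PT.nd (nat_lit 56004) (PT.nd (nat_lit 78) (PT.lf (nat_lit 2660) (nat_lit 6) (nat_lit 35) (nat_lit 0) (nat_lit 227) (nat_lit 226) (nat_lit 147)) (PT.lf (nat_lit 2508) (nat_lit 6) (nat_lit 33) (nat_lit 0) (nat_lit 228) (nat_lit 226) (nat_lit 146))) (PT.nd (nat_lit 78) (PT.lf (nat_lit 2280) (nat_lit 6) (nat_lit 30) (nat_lit 5) (nat_lit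 144) (nat_lit 227) (nat_lit 229)) (PT.lf (nat_lit 2432) (nat_lit 6) (nat_lit 32) (nat_lit 5) (nat_lit 145) (nat_lit 227) (nat_lit 228))))) (PT.nd (nat_lit 6240) (PT.nd (nat_lit 156) (PT.nd (nat_lit 78) (PT.lf (nat_lit 2584) (nat_lit 3) (nat_lit 34) (nat_lit 4) (nat_lit 146) (nat_lit 227) (nat_lit 227)) (PT.lf (nat_lit 2660) (nat_lit 6) (nat_lit 35) (nat_lit 4) (nat_lit 147) (nat_lit 227) (nat_lit 226))) (PT.nd (nat_lit 6006) (PT.lf (nat_lit 2736) (nat_lit 6) (nat_lit 36) (nat_lit 4) (nat_lit 148) (nat_lit 227) (nat_lit 225)) (PT.lf (nat_lit 2736) (nat_lit 6) (nat_lit 36) (nat_lit 2) (nat_lit 225) (nat_lit 227) (nat_lit 148)))) (PT.nd (nat_lit 156) (PT.nd (nat_lit 78) (PT.lf (nat_lit 2660) (nat_lit 6) (nat_lit 35) (nat_lit 2) (nat_lit 226) (nat_lit 227) (nat_lit 147)) (PT.lf (nat_lit 2584) (nat_lit 3) (nat_lit 34) (nat_lit 0) (nat_lit 227) (nat_lit 227) (nat_lit 146))) (PT.nd (nat_lit 78) (PT.lf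 (nat_lit 2432) (nat_lit 6) (nat_lit 32) (nat_lit 0) (nat_lit 228) (nat_lit 227) (nat_lit 145)) (PT.nd (nat_lit 55692) (PT.lf (nat_lit 2280) (nat_lit 6) (nat_lit 30) (nat_lit 0) (nat_lit 229) (nat_lit 227) (nat_lit 144)) (PT.lf (nat_lit 2052) (nat_lit 6) (nat_lit 27) (nat_lit 5) (nat_lit 142) (nat_lit 228) (nat_lit 230))))))) (PT.nd (nat_lit 6786) (PT.nd (nat_lit 6474) (PT.nd (nat_lit 156) (PT.nd (nat_lit 78) (PT.lf (nat_lit 2204) (nat_lit 6) (nat_lit 29) (nat_lit 5) (nat_lit 143) (nat_lit 228) (nat_lit 229)) (PT.lf (nat_lit 2356) (nat_lit 3) (nat_lit 31) (nat_lit 4) (nat_lit 144) (nat_lit 228) (nat_lit 228))) (PT.nd (nat_lit 78) (PT.lf (nat_lit 2432) (nat_lit 6) (nat_lit 32) (nat_lit 4) (nat_lit 145) (nat_lit 228) (nat_lit 227)) (PT.lf (nat_lit 2508) (nat_lit 6) (nat_lit 33) (nat_lit 4) (nat_lit 146) (nat_lit 228) (nat_lit 226)))) (PT.nd (nat_lit 156) (PT.nd (nat_lit 78) (PT.lf (nat_lit 2508) (nat_lit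 6) (nat_lit 33) (nat_lit 2) (nat_lit 226) (nat_lit 228) (nat_lit 146)) (PT.lf (nat_lit 2432) (nat_lit 6) (nat_lit 32) (nat_lit 2) (nat_lit 227) (nat_lit 228) (nat_lit 145))) (PT.nd (nat_lit 78) (PT.lf (nat_lit 2356) (nat_lit 3) (nat_lit 31) (nat_lit 0) (nat_lit 228) (nat_lit 228) (nat_lit 144)) (PT.lf (nat_lit 2204) (nat_lit 6) (nat_lit 29) (nat_lit 0) (nat_lit 229) (nat_lit 228) (nat_lit 143))))) (PT.nd (nat_lit 55692) (PT.nd (nat_lit 55536) (PT.nd (nat_lit 55458) (PT.lf (nat_lit 2052) (nat_lit 6) (nat_lit 27) (nat_lit 0) (nat_lit 230) (nat_lit 228) (nat_lit 142)) (PT.lf (nat_lit 1824) (nat_lit 6) (nat_lit 24) (nat_lit 5) (nat_lit 140) (nat_lit 229) (nat_lit 231))) (PT.nd (nat_lit 78) (PT.lf (nat_lit 1976) (nat_lit 6) (nat_lit 26) (nat_lit 5) (nat_lit 141) (nat_lit 229) (nat_lit 230)) (PT.lf (nat_lit 2128) (nat_lit 3) (nat_lit 28) (nat_lit 4) (nat_lit 142) (nat_lit 229) (nat_lit 229)))) (PT.nd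 (nat_lit 6552) (PT.nd (nat_lit 78) (PT.lf (nat_lit 2204) (nat_lit 6) (nat_lit 29) (nat_lit 4) (nat_lit 143) (nat_lit 229) (nat_lit 228)) (PT.lf (nat_lit 2280) (nat_lit 6) (nat_lit 30) (nat_lit 4) (nat_lit 144) (nat_lit 229) (nat_lit 227))) (PT.nd (nat_lit 78) (PT.lf (nat_lit 2280) (nat_lit 6) (nat_lit 30) (nat_lit 2) (nat_lit 227) (nat_lit 229) (nat_lit 144)) (PT.nd (nat_lit 78) (PT.lf (nat_lit 2204) (nat_lit 6) (nat_lit 29) (nat_lit 2) (nat_lit 228) (nat_lit 229) (nat_lit 143)) (PT.lf (nat_lit 2128) (nat_lit 3) (nat_lit 28) (nat_lit 0) (nat_lit 229) (nat_lit 229) (nat_lit 142))))))))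
noncomputable def pc30 : PT := (PT.nd (nat_lit 124878) (PT.nd (nat_lit 62400) (PT.nd (nat_lit 55458) (PT.nd (nat_lit 55302) (PT.nd (nat_lit 78) (PT.lf (nat_lit 1976) (nat_lit 6) (nat_lit 26) (nat_lit 0) (nat_lit 230) (nat_lit 229) (nat_lit 141)) (PT.lf (nat_lit 1824) (nat_lit 6) (nat_lit 24) (nat_lit 0) (nat_lit 231) (nat_lit 229) (nat_lit 140))) (PT.nd (nat_lit 78) (PT.lf (nat_lit 1596) (nat_lit 6) (nat_lit 21) (nat_lit 5) (nat_lit 138) (nat_lit 230) (nat_lit 232)) (PT.lf (nat_lit 1748) (nat_lit 6) (nat_lit 23) (nat_lit 5) (nat_lit 139) (nat_lit 230) (nat_lit 231)))) (PT.nd (nat_lit 156) (PT.nd (nat_lit 78) (PT.lf (nat_lit 1900) (nat_lit 3) (nat_lit 25) (nat_lit 4) (nat_lit 140) (nat_lit 230) (nat_lit 230)) (PT.lf (nat_lit 1976) (nat_lit 6) (nat_lit 26) (nat_lit 4) (nat_lit 141) (nat_lit 230) (nat_lit 229))) (PT.nd (nat_lit 6708) (PT.lf (nat_lit 2052) (nat_lit 6) (nat_lit 27) (nat_lit 4) (nat_lit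 142) (nat_lit 230) (nat_lit 228)) (PT.lf (nat_lit 2052) (nat_lit 6) (nat_lit 27) (nat_lit 2) (nat_lit 228) (nat_lit 230) (nat_lit 142))))) (PT.nd (nat_lit 55224) (PT.nd (nat_lit 156) (PT.nd (nat_lit 78) (PT.lf (nat_lit 1976) (nat_lit 6) (nat_lit 26) (nat_lit 2) (nat_lit 229) (nat_lit 230) (nat_lit 141)) (PT.lf (nat_lit 1900) (nat_lit 3) (nat_lit 25) (nat_lit 0) (nat_lit 230) (nat_lit 230) (nat_lit 140))) (PT.nd (nat_lit 78) (PT.lf (nat_lit 1748) (nat_lit 6) (nat_lit 23) (nat_lit 0) (nat_lit 231) (nat_lit 230) (nat_lit 139)) (PT.lf (nat_lit 1596) (nat_lit 6) (nat_lit 21) (nat_lit 0) (nat_lit 232) (nat_lit 230) (nat_lit 138)))) (PT.nd (nat_lit 156) (PT.nd (nat_lit 78) (PT.lf (nat_lit 1368) (nat_lit 6) (nat_lit 18) (nat_lit 5) (nat_lit 136) (nat_lit 231) (nat_lit 233)) (PT.lf (nat_lit 1520) (nat_lit 6) (nat_lit 20) (nat_lit 5) (nat_lit 137) (nat_lit 231) (nat_lit 232))) (PT.nd (nat_lit 78) (PT.lf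 (nat_lit 1672) (nat_lit 3) (nat_lit 22) (nat_lit 4) (nat_lit 138) (nat_lit 231) (nat_lit 231)) (PT.nd (nat_lit 78) (PT.lf (nat_lit 1748) (nat_lit 6) (nat_lit 23) (nat_lit 4) (nat_lit 139) (nat_lit 231) (nat_lit 230)) (PT.lf (nat_lit 1824) (nat_lit 6) (nat_lit 24) (nat_lit 4) (nat_lit 140) (nat_lit 231) (nat_lit 229))))))) (PT.nd (nat_lit 55302) (PT.nd (nat_lit 312) (PT.nd (nat_lit 156) (PT.nd (nat_lit 78) (PT.lf (nat_lit 1824) (nat_lit 6) (nat_lit 24) (nat_lit 2) (nat_lit 229) (nat_lit 231) (nat_lit 140)) (PT.lf (nat_lit 1748) (nat_lit 6) (nat_lit 23) (nat_lit 2) (nat_lit 230) (nat_lit 231) (nat_lit 139))) (PT.nd (nat_lit 78) (PT.lf (nat_lit 1672) (nat_lit 3) (nat_lit 22) (nat_lit 0) (nat_lit 231) (nat_lit 231) (nat_lit 138)) (PT.lf (nat_lit 1520) (nat_lit 6) (nat_lit 20) (nat_lit 0) (nat_lit 232) (nat_lit 231) (nat_lit 137)))) (PT.nd (nat_lit 54834) (PT.nd (nat_lit 54756) (PT.lf (nat_lit 1368)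 (nat_lit 6) (nat_lit 18) (nat_lit 0) (nat_lit 233) (nat_lit 231) (nat_lit 136)) (PT.lf (nat_lit 1140) (nat_lit 6) (nat_lit 15) (nat_lit 5) (nat_lit 134) (nat_lit 232) (nat_lit 234))) (PT.nd (nat_lit 78) (PT.lf (nat_lit 1292) (nat_lit 6) (nat_lit 17) (nat_lit 5) (nat_lit 135) (nat_lit 232) (nat_lit 233)) (PT.lf (nat_lit 1444) (nat_lit 3) (nat_lit 19) (nat_lit 4) (nat_lit 136) (nat_lit 232) (nat_lit 232))))) (PT.nd (nat_lit 7410) (PT.nd (nat_lit 7254) (PT.nd (nat_lit 78) (PT.lf (nat_lit 1520) (nat_lit 6) (nat_lit 20) (nat_lit 4) (nat_lit 137) (nat_lit 232) (nat_lit 231)) (PT.lf (nat_lit 1596) (nat_lit 6) (nat_lit 21) (nat_lit 4) (nat_lit 138) (nat_lit 232) (nat_lit 230))) (PT.nd (nat_lit 78) (PT.lf (nat_lit 1596) (nat_lit 6) (nat_lit 21) (nat_lit 2) (nat_lit 230) (nat_lit 232) (nat_lit 138)) (PT.lf (nat_lit 1520) (nat_lit 6) (nat_lit 20) (nat_lit 2) (nat_lit 231) (nat_lit 232) (nat_lit 137)))) (PT.nd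 (nat_lit 156) (PT.nd (nat_lit 78) (PT.lf (nat_lit 1444) (nat_lit 3) (nat_lit 19) (nat_lit 0) (nat_lit 232) (nat_lit 232) (nat_lit 136)) (PT.lf (nat_lit 1292) (nat_lit 6) (nat_lit 17) (nat_lit 0) (nat_lit 233) (nat_lit 232) (nat_lit 135))) (PT.nd (nat_lit 54522) (PT.lf (nat_lit 1140) (nat_lit 6) (nat_lit 15) (nat_lit 0) (nat_lit 234) (nat_lit 232) (nat_lit 134)) (PT.nd (nat_lit 78) (PT.lf (nat_lit 912) (nat_lit 6) (nat_lit 12) (nat_lit 5) (nat_lit 132) (nat_lit 233) (nat_lit 235)) (PT.lf (nat_lit 1064) (nat_lit 6) (nat_lit 14) (nat_lit 5) (nat_lit 133) (nat_lit 233) (nat_lit 234))))))))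
noncomputable def pc31 : PT := (PT.nd (nat_lit 124644) (PT.nd (nat_lit 62244) (PT.nd (nat_lit 7644) (PT.nd (nat_lit 156) (PT.nd (nat_lit 78) (PT.lf (nat_lit 1216) (nat_lit 3) (nat_lit 16) (nat_lit 4) (nat_lit 134) (nat_lit 233) (nat_lit 233)) (PT.lf (nat_lit 1292) (nat_lit 6) (nat_lit 17) (nat_lit 4) (nat_lit 135) (nat_lit 233) (nat_lit 232))) (PT.nd (nat_lit 7410) (PT.lf (nat_lit 1368) (nat_lit 6) (nat_lit 18) (nat_lit 4) (nat_lit 136) (nat_lit 233) (nat_lit 231)) (PT.lf (nat_lit 1368) (nat_lit 6) (nat_lit 18) (nat_lit 2) (nat_lit 231) (nat_lit 233) (nat_lit 136)))) (PT.nd (nat_lit 156) (PT.nd (nat_lit 78) (PT.lf (nat_lit 1292) (nat_lit 6) (nat_lit 17) (nat_lit 2) (nat_lit 232) (nat_lit 233) (nat_lit 135)) (PT.lf (nat_lit 1216) (nat_lit 3) (nat_lit 16) (nat_lit 0) (nat_lit 233) (nat_lit 233) (nat_lit 134))) (PT.nd (nat_lit 78) (PT.lf (nat_lit 1064) (nat_lit 6) (nat_lit 14) (nat_lit 0) (nat_lit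 234) (nat_lit 233) (nat_lit 133)) (PT.lf (nat_lit 912) (nat_lit 6) (nat_lit 12) (nat_lit 0) (nat_lit 235) (nat_lit 233) (nat_lit 132))))) (PT.nd (nat_lit 7878) (PT.nd (nat_lit 156) (PT.nd (nat_lit 78) (PT.lf (nat_lit 836) (nat_lit 6) (nat_lit 11) (nat_lit 5) (nat_lit 131) (nat_lit 234) (nat_lit 235)) (PT.lf (nat_lit 988) (nat_lit 3) (nat_lit 13) (nat_lit 4) (nat_lit 132) (nat_lit 234) (nat_lit 234))) (PT.nd (nat_lit 78) (PT.lf (nat_lit 1064) (nat_lit 6) (nat_lit 14) (nat_lit 4) (nat_lit 133) (nat_lit 234) (nat_lit 233)) (PT.lf (nat_lit 1140) (nat_lit 6) (nat_lit 15) (nat_lit 4) (nat_lit 134) (nat_lit 234) (nat_lit 232)))) (PT.nd (nat_lit 156) (PT.nd (nat_lit 78) (PT.lf (nat_lit 1140) (nat_lit 6) (nat_lit 15) (nat_lit 2) (nat_lit 232) (nat_lit 234) (nat_lit 134)) (PT.lf (nat_lit 1064) (nat_lit 6) (nat_lit 14) (nat_lit 2) (nat_lit 233) (nat_lit 234) (nat_lit 133))) (PT.nd (nat_lit 78) (PT.lf (nat_lit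 988) (nat_lit 3) (nat_lit 13) (nat_lit 0) (nat_lit 234) (nat_lit 234) (nat_lit 132)) (PT.nd (nat_lit 54210) (PT.lf (nat_lit 836) (nat_lit 6) (nat_lit 11) (nat_lit 0) (nat_lit 235) (nat_lit 234) (nat_lit 131)) (PT.lf (nat_lit 608) (nat_lit 6) (nat_lit 8) (nat_lit 5) (nat_lit 129) (nat_lit 235) (nat_lit 236))))))) (PT.nd (nat_lit 62400) (PT.nd (nat_lit 8112) (PT.nd (nat_lit 156) (PT.nd (nat_lit 78) (PT.lf (nat_lit 760) (nat_lit 3) (nat_lit 10) (nat_lit 4) (nat_lit 130) (nat_lit 235) (nat_lit 235)) (PT.lf (nat_lit 836) (nat_lit 6) (nat_lit 11) (nat_lit 4) (nat_lit 131) (nat_lit 235) (nat_lit 234))) (PT.nd (nat_lit 7878) (PT.lf (nat_lit 912) (nat_lit 6) (nat_lit 12) (nat_lit 4) (nat_lit 132) (nat_lit 235) (nat_lit 233)) (PT.lf (nat_lit 912) (nat_lit 6) (nat_lit 12) (nat_lit 2) (nat_lit 233) (nat_lit 235) (nat_lit 132)))) (PT.nd (nat_lit 156) (PT.nd (nat_lit 78) (PT.lf (nat_lit 836) (nat_lit 6) (nat_lit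 11) (nat_lit 2) (nat_lit 234) (nat_lit 235) (nat_lit 131)) (PT.lf (nat_lit 760) (nat_lit 3) (nat_lit 10) (nat_lit 0) (nat_lit 235) (nat_lit 235) (nat_lit 130))) (PT.nd (nat_lit 54054) (PT.lf (nat_lit 608) (nat_lit 6) (nat_lit 8) (nat_lit 0) (nat_lit 236) (nat_lit 235) (nat_lit 129)) (PT.lf (nat_lit 532) (nat_lit 3) (nat_lit 7) (nat_lit 4) (nat_lit 128) (nat_lit 236) (nat_lit 236))))) (PT.nd (nat_lit 70980) (PT.nd (nat_lit 8346) (PT.nd (nat_lit 8268) (PT.lf (nat_lit 608) (nat_lit 6) (nat_lit 8) (nat_lit 4) (nat_lit 129) (nat_lit 236) (nat_lit 235)) (PT.lf (nat_lit 608) (nat_lit 6) (nat_lit 8) (nat_lit 2) (nat_lit 235) (nat_lit 236) (nat_lit 129))) (PT.nd (nat_lit 53820) (PT.lf (nat_lit 532) (nat_lit 3) (nat_lit 7) (nat_lit 0) (nat_lit 236) (nat_lit 236) (nat_lit 128)) (PT.lf (nat_lit 152) (nat_lit 6) (nat_lit 2) (nat_lit 5) (nat_lit 125) (nat_lit 237) (nat_lit 238)))) (PT.nd (nat_lit 53664) (PT.nd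 (nat_lit 53586) (PT.lf (nat_lit 152) (nat_lit 6) (nat_lit 2) (nat_lit 0) (nat_lit 238) (nat_lit 237) (nat_lit 125)) (PT.lf (nat_lit 76) (nat_lit 3) (nat_lit 1) (nat_lit 4) (nat_lit 124) (nat_lit 238) (nat_lit 238))) (PT.nd (nat_lit 8736) (PT.lf (nat_lit 152) (nat_lit 6) (nat_lit 2) (nat_lit 4) (nat_lit 125) (nat_lit 238) (nat_lit 237)) (PT.nd (nat_lit 78) (PT.lf (nat_lit 152) (nat_lit 6) (nat_lit 2) (nat_lit 2) (nat_lit 237) (nat_lit 238) (nat_lit 125)) (PT.lf (nat_lit 76) (nat_lit 3) (nat_lit 1) (nat_lit 0) (nat_lit 238) (nat_lit 238) (nat_lit 124))))))))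
noncomputable def xc0 : XT := (XT.nd (nat_lit 249444) (nat_lit 0) (nat_lit 76) (XT.nd (nat_lit 125034) (nat_lit 0) (nat_lit 76) (XT.nd (nat_lit 62556) (nat_lit 0) (nat_lit 0) (XT.nd (nat_lit 62322) (nat_lit 0) (nat_lit 76) (XT.nd (nat_lit 78) (nat_lit 76) (nat_lit 0) (XT.lf (nat_lit 0) (nat_lit 6368115483) (nat_lit 76) (nat_lit 13788611069) (nat_lit 76) (nat_lit 13788611069) (nat_lit 4) (nat_lit 4) (nat_lit 5) (nat_lit 5) (nat_lit 5) (nat_lit 4) (nat_lit 498) (nat_lit 351) (nat_lit 351)) (XT.nd (nat_lit 78) (nat_lit 76) (nat_lit 0) (XT.lf (nat_lit 0) (nat_lit 44723577349) (nat_lit 76) (nat_lit 13089125543) (nat_lit 76) (nat_lit 13005327809) (nat_lit 4) (nat_lit 4) (nat_lit 5) (nat_lit 5) (nat_lit 5) (nat_lit 4) (nat_lit 499) (nat_lit 351) (nat_lit 350)) (XT.lf (nat_lit 0) (nat_lit 1804632218) (nat_lit 76) (nat_lit 70454040747) (nat_lit 0) (nat_lit 1645792316) (nat_lit 3) (nat_lit 5) (nat_lit 4)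 (nat_lit 4) (nat_lit 3) (nat_lit 4) (nat_lit 500) (nat_lit 351) (nat_lit 349)))) (XT.nd (nat_lit 78) (nat_lit 76) (nat_lit 0) (XT.lf (nat_lit 0) (nat_lit 3563673160) (nat_lit 152) (nat_lit 24107451982) (nat_lit 0) (nat_lit 3563673160) (nat_lit 5) (nat_lit 5) (nat_lit 7) (nat_lit 4) (nat_lit 5) (nat_lit 4) (nat_lit 496) (nat_lit 352) (nat_lit 352)) (XT.nd (nat_lit 78) (nat_lit 76) (nat_lit 0) (XT.lf (nat_lit 0) (nat_lit 23425041081) (nat_lit 152) (nat_lit 18349937532) (nat_lit 0) (nat_lit 23337053461) (nat_lit 5) (nat_lit 5) (nat_lit 7) (nat_lit 4) (nat_lit 5) (nat_lit 4) (nat_lit 497) (nat_lit 352) (nat_lit 351)) (XT.lf (nat_lit 0) (nat_lit 12230577178) (nat_lit 76) (nat_lit 27919709276) (nat_lit 76) (nat_lit 27747923922) (nat_lit 4) (nat_lit 4) (nat_lit 5) (nat_lit 5) (nat_lit 5) (nat_lit 4) (nat_lit 498) (nat_lit 352) (nat_lit 350))))) (XT.nd (nat_lit 62166) (nat_lit 0) (nat_lit 76) (XT.nd (nat_lit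 78) (nat_lit 76) (nat_lit 0) (XT.lf (nat_lit 0) (nat_lit 43736348525) (nat_lit 76) (nat_lit 13673993173) (nat_lit 76) (nat_lit 13422400454) (nat_lit 4) (nat_lit 4) (nat_lit 5) (nat_lit 5) (nat_lit 5) (nat_lit 4) (nat_lit 499) (nat_lit 352) (nat_lit 349)) (XT.nd (nat_lit 62010) (nat_lit 0) (nat_lit 304) (XT.lf (nat_lit 0) (nat_lit 1143267941) (nat_lit 76) (nat_lit 71958392470) (nat_lit 0) (nat_lit 825209948) (nat_lit 3) (nat_lit 5) (nat_lit 4) (nat_lit 4) (nat_lit 3) (nat_lit 4) (nat_lit 500) (nat_lit 352) (nat_lit 348)) (XT.lf (nat_lit 0) (nat_lit 4692454036) (nat_lit 76) (nat_lit 12045111218) (nat_lit 76) (nat_lit 12045111218) (nat_lit 7) (nat_lit 4) (nat_lit 8) (nat_lit 5) (nat_lit 8) (nat_lit 4) (nat_lit 494) (nat_lit 353) (nat_lit 353)))) (XT.nd (nat_lit 156) (nat_lit 76) (nat_lit 0) (XT.nd (nat_lit 78) (nat_lit 152) (nat_lit 0) (XT.lf (nat_lit 0) (nat_lit 42425511375) (nat_lit 76) (nat_lit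 8813761570) (nat_lit 76) (nat_lit 8718602959) (nat_lit 7) (nat_lit 4) (nat_lit 8) (nat_lit 5) (nat_lit 8) (nat_lit 4) (nat_lit 495) (nat_lit 353) (nat_lit 352)) (XT.lf (nat_lit 0) (nat_lit 6961125025) (nat_lit 152) (nat_lit 48735479958) (nat_lit 0) (nat_lit 6780750403) (nat_lit 5) (nat_lit 5) (nat_lit 7) (nat_lit 4) (nat_lit 5) (nat_lit 4) (nat_lit 496) (nat_lit 353) (nat_lit 351))) (XT.nd (nat_lit 78) (nat_lit 76) (nat_lit 0) (XT.lf (nat_lit 0) (nat_lit 23012526168) (nat_lit 152) (nat_lit 19366300187) (nat_lit 0) (nat_lit 22748353813) (nat_lit 5) (nat_lit 5) (nat_lit 7) (nat_lit 4) (nat_lit 5) (nat_lit 4) (nat_lit 497) (nat_lit 353) (nat_lit 350)) (XT.lf (nat_lit 0) (nat_lit 10712411877) (nat_lit 76) (nat_lit 28776200780) (nat_lit 76) (nat_lit 28432221060) (nat_lit 4) (nat_lit 4) (nat_lit 5) (nat_lit 5) (nat_lit 5) (nat_lit 4) (nat_lit 498) (nat_lit 353) (nat_lit 349)))))) (XT.nd (nat_lit 62244)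 (nat_lit 0) (nat_lit 0) (XT.nd (nat_lit 62010) (nat_lit 0) (nat_lit 228) (XT.nd (nat_lit 78) (nat_lit 0) (nat_lit 0) (XT.lf (nat_lit 0) (nat_lit 41759540334) (nat_lit 76) (nat_lit 14761323242) (nat_lit 76) (nat_lit 14341336508) (nat_lit 4) (nat_lit 4) (nat_lit 5) (nat_lit 5) (nat_lit 5) (nat_lit 4) (nat_lit 499) (nat_lit 353) (nat_lit 348)) (XT.nd (nat_lit 61854) (nat_lit 0) (nat_lit 456) (XT.lf (nat_lit 0) (nat_lit 73463579568) (nat_lit 76) (nat_lit 496386644) (nat_lit 76) (nat_lit 4012276) (nat_lit 4) (nat_lit 4) (nat_lit 5) (nat_lit 5) (nat_lit 5) (nat_lit 4) (nat_lit 500) (nat_lit 353) (nat_lit 347)) (XT.lf (nat_lit 0) (nat_lit 26383385908) (nat_lit 76) (nat_lit 92910110) (nat_lit 76) (nat_lit 92910110) (nat_lit 10) (nat_lit 4) (nat_lit 11) (nat_lit 5) (nat_lit 11) (nat_lit 4) (nat_lit 492) (nat_lit 354) (nat_lit 354)))) (XT.nd (nat_lit 78) (nat_lit 76) (nat_lit 0) (XT.lf (nat_lit 0) (nat_lit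 16369111572) (nat_lit 152) (nat_lit 22657085304) (nat_lit 0) (nat_lit 16269195030) (nat_lit 8) (nat_lit 5) (nat_lit 10) (nat_lit 4) (nat_lit 8) (nat_lit 4) (nat_lit 493) (nat_lit 354) (nat_lit 353)) (XT.nd (nat_lit 78) (nat_lit 0) (nat_lit 0) (XT.lf (nat_lit 0) (nat_lit 8859563590) (nat_lit 76) (nat_lit 24454349549) (nat_lit 76) (nat_lit 24259274396) (nat_lit 7) (nat_lit 4) (nat_lit 8) (nat_lit 5) (nat_lit 8) (nat_lit 4) (nat_lit 494) (nat_lit 354) (nat_lit 352)) (XT.lf (nat_lit 0) (nat_lit 41399838815) (nat_lit 76) (nat_lit 9429517800) (nat_lit 76) (nat_lit 9143815398) (nat_lit 7) (nat_lit 4) (nat_lit 8) (nat_lit 5) (nat_lit 8) (nat_lit 4) (nat_lit 495) (nat_lit 354) (nat_lit 351))))) (XT.nd (nat_lit 234) (nat_lit 0) (nat_lit 0) (XT.nd (nat_lit 78) (nat_lit 76) (nat_lit 0) (XT.lf (nat_lit 0) (nat_lit 6281690749) (nat_lit 152) (nat_lit 50298447407) (nat_lit 0) (nat_lit 5920512043) (nat_lit 5) (nat_lit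 5) (nat_lit 7) (nat_lit 4) (nat_lit 5) (nat_lit 4) (nat_lit 496) (nat_lit 354) (nat_lit 350)) (XT.nd (nat_lit 78) (nat_lit 76) (nat_lit 0) (XT.lf (nat_lit 0) (nat_lit 22098526543) (nat_lit 152) (nat_lit 21401445408) (nat_lit 0) (nat_lit 21657540472) (nat_lit 5) (nat_lit 5) (nat_lit 7) (nat_lit 4) (nat_lit 5) (nat_lit 4) (nat_lit 497) (nat_lit 354) (nat_lit 349)) (XT.lf (nat_lit 0) (nat_lit 8178120385) (nat_lit 76) (nat_lit 30148735918) (nat_lit 76) (nat_lit 29631742832) (nat_lit 4) (nat_lit 4) (nat_lit 5) (nat_lit 5) (nat_lit 5) (nat_lit 4) (nat_lit 498) (nat_lit 354) (nat_lit 348)))) (XT.nd (nat_lit 61776) (nat_lit 0) (nat_lit 456) (XT.nd (nat_lit 78) (nat_lit 0) (nat_lit 0) (XT.lf (nat_lit 0) (nat_lit 38788446087) (nat_lit 76) (nat_lit 16353704632) (nat_lit 76) (nat_lit 15764323913) (nat_lit 4) (nat_lit 4) (nat_lit 5) (nat_lit 5) (nat_lit 5) (nat_lit 4) (nat_lit 499) (nat_lit 354) (nat_lit 347))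 (XT.lf (nat_lit 0) (nat_lit 70076482699) (nat_lit 76) (nat_lit 2298145416) (nat_lit 76) (nat_lit 1639824095) (nat_lit 4) (nat_lit 4) (nat_lit 5) (nat_lit 5) (nat_lit 5) (nat_lit 4) (nat_lit 500) (nat_lit 354) (nat_lit 346))) (XT.nd (nat_lit 78) (nat_lit 76) (nat_lit 0) (XT.lf (nat_lit 0) (nat_lit 8711379291) (nat_lit 152) (nat_lit 7140068755) (nat_lit 0) (nat_lit 8711379291) (nat_lit 11) (nat_lit 5) (nat_lit 13) (nat_lit 4) (nat_lit 11) (nat_lit 4) (nat_lit 490) (nat_lit 355) (nat_lit 355)) (XT.lf (nat_lit 0) (nat_lit 18546343058) (nat_lit 76) (nat_lit 16321495749) (nat_lit 76) (nat_lit 16213436009) (nat_lit 10) (nat_lit 4) (nat_lit 11) (nat_lit 5) (nat_lit 11) (nat_lit 4) (nat_lit 491) (nat_lit 355) (nat_lit 354))))))) (XT.nd (nat_lit 62478) (nat_lit 0) (nat_lit 0) (XT.nd (nat_lit 468) (nat_lit 76) (nat_lit 0) (XT.nd (nat_lit 234) (nat_lit 152) (nat_lit 0) (XT.nd (nat_lit 78) (nat_lit 228) (nat_lit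 0) (XT.lf (nat_lit 0) (nat_lit 52246973040) (nat_lit 76) (nat_lit 555085704) (nat_lit 76) (nat_lit 344111926) (nat_lit 10) (nat_lit 4) (nat_lit 11) (nat_lit 5) (nat_lit 11) (nat_lit 4) (nat_lit 492) (nat_lit 355) (nat_lit 353)) (XT.nd (nat_lit 78) (nat_lit 76) (nat_lit 0) (XT.lf (nat_lit 0) (nat_lit 15949051786) (nat_lit 152) (nat_lit 23713026199) (nat_lit 0) (nat_lit 15649064264) (nat_lit 8) (nat_lit 5) (nat_lit 10) (nat_lit 4) (nat_lit 8) (nat_lit 4) (nat_lit 493) (nat_lit 355) (nat_lit 352)) (XT.lf (nat_lit 0) (nat_lit 7282279323) (nat_lit 76) (nat_lit 25352522706) (nat_lit 76) (nat_lit 24961907935) (nat_lit 7) (nat_lit 4) (nat_lit 8) (nat_lit 5) (nat_lit 8) (nat_lit 4) (nat_lit 494) (nat_lit 355) (nat_lit 351)))) (XT.nd (nat_lit 78) (nat_lit 152) (nat_lit 0) (XT.lf (nat_lit 0) (nat_lit 39346051616) (nat_lit 76) (nat_lit 10567337734) (nat_lit 76) (nat_lit 10090411297) (nat_lit 7) (nat_lit 4)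 (nat_lit 8) (nat_lit 5) (nat_lit 8) (nat_lit 4) (nat_lit 495) (nat_lit 355) (nat_lit 350)) (XT.nd (nat_lit 78) (nat_lit 0) (nat_lit 0) (XT.lf (nat_lit 0) (nat_lit 5087425794) (nat_lit 152) (nat_lit 52907527661) (nat_lit 0) (nat_lit 4544583054) (nat_lit 5) (nat_lit 5) (nat_lit 7) (nat_lit 4) (nat_lit 5) (nat_lit 4) (nat_lit 496) (nat_lit 355) (nat_lit 349)) (XT.lf (nat_lit 0) (nat_lit 20680866018) (nat_lit 152) (nat_lit 24460218780) (nat_lit 0) (nat_lit 20062016263) (nat_lit 5) (nat_lit 5) (nat_lit 7) (nat_lit 4) (nat_lit 5) (nat_lit 4) (nat_lit 497) (nat_lit 355) (nat_lit 348))))) (XT.nd (nat_lit 61698) (nat_lit 0) (nat_lit 456) (XT.nd (nat_lit 78) (nat_lit 0) (nat_lit 0) (XT.lf (nat_lit 0) (nat_lit 4621668672) (nat_lit 76) (nat_lit 32040582629) (nat_lit 76) (nat_lit 31349345241) (nat_lit 4) (nat_lit 4) (nat_lit 5) (nat_lit 5) (nat_lit 5) (nat_lit 4) (nat_lit 498) (nat_lit 355) (nat_lit 347)) (XT.nd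 (nat_lit 78) (nat_lit 0) (nat_lit 0) (XT.lf (nat_lit 0) (nat_lit 34815991752) (nat_lit 76) (nat_lit 18454928725) (nat_lit 76) (nat_lit 17694750735) (nat_lit 4) (nat_lit 4) (nat_lit 5) (nat_lit 5) (nat_lit 5) (nat_lit 4) (nat_lit 499) (nat_lit 355) (nat_lit 346)) (XT.lf (nat_lit 0) (nat_lit 65707835390) (nat_lit 76) (nat_lit 4598776541) (nat_lit 76) (nat_lit 3772940834) (nat_lit 4) (nat_lit 4) (nat_lit 5) (nat_lit 5) (nat_lit 5) (nat_lit 4) (nat_lit 500) (nat_lit 355) (nat_lit 345)))) (XT.nd (nat_lit 156) (nat_lit 76) (nat_lit 0) (XT.nd (nat_lit 78) (nat_lit 152) (nat_lit 0) (XT.lf (nat_lit 0) (nat_lit 7054024892) (nat_lit 76) (nat_lit 7847855978) (nat_lit 76) (nat_lit 7847855978) (nat_lit 13) (nat_lit 4) (nat_lit 14) (nat_lit 5) (nat_lit 14) (nat_lit 4) (nat_lit 488) (nat_lit 356) (nat_lit 356)) (XT.lf (nat_lit 0) (nat_lit 571775879) (nat_lit 152) (nat_lit 46243574043) (nat_lit 0) (nat_lit 458313152)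 (nat_lit 11) (nat_lit 5) (nat_lit 13) (nat_lit 4) (nat_lit 11) (nat_lit 4) (nat_lit 489) (nat_lit 356) (nat_lit 355))) (XT.nd (nat_lit 78) (nat_lit 76) (nat_lit 0) (XT.lf (nat_lit 0) (nat_lit 17269945080) (nat_lit 152) (nat_lit 14815275922) (nat_lit 0) (nat_lit 17048422613) (nat_lit 11) (nat_lit 5) (nat_lit 13) (nat_lit 4) (nat_lit 11) (nat_lit 4) (nat_lit 490) (nat_lit 356) (nat_lit 354)) (XT.lf (nat_lit 0) (nat_lit 17480755568) (nat_lit 76) (nat_lit 16970430250) (nat_lit 76) (nat_lit 16645993745) (nat_lit 10) (nat_lit 4) (nat_lit 11) (nat_lit 5) (nat_lit 11) (nat_lit 4) (nat_lit 491) (nat_lit 356) (nat_lit 353)))))) (XT.nd (nat_lit 468) (nat_lit 76) (nat_lit 0) (XT.nd (nat_lit 234) (nat_lit 152) (nat_lit 0) (XT.nd (nat_lit 78) (nat_lit 228) (nat_lit 0) (XT.lf (nat_lit 0) (nat_lit 50686339095) (nat_lit 76) (nat_lit 1452787579) (nat_lit 76) (nat_lit 1030337704) (nat_lit 10) (nat_lit 4) (nat_lit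 11) (nat_lit 5) (nat_lit 11) (nat_lit 4) (nat_lit 492) (nat_lit 356) (nat_lit 352)) (XT.nd (nat_lit 78) (nat_lit 76) (nat_lit 0) (XT.lf (nat_lit 0) (nat_lit 15008015530) (nat_lit 152) (nat_lit 25827422132) (nat_lit 0) (nat_lit 14507242772) (nat_lit 8) (nat_lit 5) (nat_lit 10) (nat_lit 4) (nat_lit 8) (nat_lit 4) (nat_lit 493) (nat_lit 356) (nat_lit 351)) (XT.lf (nat_lit 0) (nat_lit 4649299833) (nat_lit 76) (nat_lit 26786880413) (nat_lit 76) (nat_lit 26199795990) (nat_lit 7) (nat_lit 4) (nat_lit 8) (nat_lit 5) (nat_lit 8) (nat_lit 4) (nat_lit 494) (nat_lit 356) (nat_lit 350)))) (XT.nd (nat_lit 78) (nat_lit 152) (nat_lit 0) (XT.lf (nat_lit 0) (nat_lit 36259259810) (nat_lit 76) (nat_lit 12229930467) (nat_lit 76) (nat_lit 11560644457) (nat_lit 7) (nat_lit 4) (nat_lit 8) (nat_lit 5) (nat_lit 8) (nat_lit 4) (nat_lit 495) (nat_lit 356) (nat_lit 349)) (XT.nd (nat_lit 78) (nat_lit 0) (nat_lit 0) (XT.lf (nat_lit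 0) (nat_lit 3375486672) (nat_lit 152) (nat_lit 56568932817) (nat_lit 0) (nat_lit 2649687415) (nat_lit 5) (nat_lit 5) (nat_lit 7) (nat_lit 4) (nat_lit 5) (nat_lit 4) (nat_lit 496) (nat_lit 356) (nat_lit 348)) (XT.lf (nat_lit 0) (nat_lit 18756169209) (nat_lit 152) (nat_lit 28549903094) (nat_lit 0) (nat_lit 17957982319) (nat_lit 5) (nat_lit 5) (nat_lit 7) (nat_lit 4) (nat_lit 5) (nat_lit 4) (nat_lit 497) (nat_lit 356) (nat_lit 347))))) (XT.nd (nat_lit 61542) (nat_lit 0) (nat_lit 608) (XT.nd (nat_lit 78) (nat_lit 0) (nat_lit 0) (XT.lf (nat_lit 0) (nat_lit 34588998) (nat_lit 76) (nat_lit 34456245310) (nat_lit 76) (nat_lit 33589117818) (nat_lit 4) (nat_lit 4) (nat_lit 5) (nat_lit 5) (nat_lit 5) (nat_lit 4) (nat_lit 498) (nat_lit 356) (nat_lit 346)) (XT.nd (nat_lit 78) (nat_lit 0) (nat_lit 0) (XT.lf (nat_lit 0) (nat_lit 29832719104) (nat_lit 76) (nat_lit 21069998438) (nat_lit 76) (nat_lit 20137213229)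 (nat_lit 4) (nat_lit 4) (nat_lit 5) (nat_lit 5) (nat_lit 5) (nat_lit 4) (nat_lit 499) (nat_lit 356) (nat_lit 345)) (XT.lf (nat_lit 0) (nat_lit 60347236101) (nat_lit 76) (nat_lit 7403757712) (nat_lit 76) (nat_lit 6408441344) (nat_lit 4) (nat_lit 4) (nat_lit 5) (nat_lit 5) (nat_lit 5) (nat_lit 4) (nat_lit 500) (nat_lit 356) (nat_lit 344)))) (XT.nd (nat_lit 156) (nat_lit 152) (nat_lit 0) (XT.nd (nat_lit 78) (nat_lit 152) (nat_lit 0) (XT.lf (nat_lit 0) (nat_lit 16743518826) (nat_lit 76) (nat_lit 2182768901) (nat_lit 76) (nat_lit 2182768901) (nat_lit 16) (nat_lit 4) (nat_lit 17) (nat_lit 5) (nat_lit 17) (nat_lit 4) (nat_lit 486) (nat_lit 357) (nat_lit 357)) (XT.lf (nat_lit 0) (nat_lit 12409046852) (nat_lit 152) (nat_lit 19123943300) (nat_lit 0) (nat_lit 12286336912) (nat_lit 14) (nat_lit 5) (nat_lit 16) (nat_lit 4) (nat_lit 14) (nat_lit 4) (nat_lit 487) (nat_lit 357) (nat_lit 356))) (XT.nd (nat_lit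 78) (nat_lit 76) (nat_lit 0) (XT.lf (nat_lit 0) (nat_lit 13568036913) (nat_lit 76) (nat_lit 16089540433) (nat_lit 76) (nat_lit 15849963885) (nat_lit 13) (nat_lit 4) (nat_lit 14) (nat_lit 5) (nat_lit 14) (nat_lit 4) (nat_lit 488) (nat_lit 357) (nat_lit 355)) (XT.lf (nat_lit 0) (nat_lit 147468318) (nat_lit 152) (nat_lit 51517394) (nat_lit 76) (nat_lit 47090982003) (nat_lit 12) (nat_lit 5) (nat_lit 14) (nat_lit 5) (nat_lit 13) (nat_lit 4) (nat_lit 489) (nat_lit 357) (nat_lit 354))))))))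
noncomputable def xc1 : XT := (XT.nd (nat_lit 63180) (nat_lit 0) (nat_lit 0) (XT.nd (nat_lit 62166) (nat_lit 0) (nat_lit 76) (XT.nd (nat_lit 468) (nat_lit 228) (nat_lit 0) (XT.nd (nat_lit 234) (nat_lit 228) (nat_lit 0) (XT.nd (nat_lit 78) (nat_lit 76) (nat_lit 0) (XT.lf (nat_lit 0) (nat_lit 16589618263) (nat_lit 152) (nat_lit 16421965294) (nat_lit 0) (nat_lit 16146045895) (nat_lit 11) (nat_lit 5) (nat_lit 13) (nat_lit 4) (nat_lit 11) (nat_lit 4) (nat_lit 490) (nat_lit 357) (nat_lit 353)) (XT.nd (nat_lit 78) (nat_lit 0) (nat_lit 0) (XT.lf (nat_lit 0) (nat_lit 15347043473) (nat_lit 76) (nat_lit 18161784593) (nat_lit 76) (nat_lit 17620198855) (nat_lit 10) (nat_lit 4) (nat_lit 11) (nat_lit 5) (nat_lit 11) (nat_lit 4) (nat_lit 491) (nat_lit 357) (nat_lit 352)) (XT.lf (nat_lit 0) (nat_lit 48081154188) (nat_lit 76) (nat_lit 2881063231) (nat_lit 76) (nat_lit 2246131427) (nat_lit 10) (nat_lit 4) (nat_lit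 11) (nat_lit 5) (nat_lit 11) (nat_lit 4) (nat_lit 492) (nat_lit 357) (nat_lit 351)))) (XT.nd (nat_lit 78) (nat_lit 76) (nat_lit 0) (XT.lf (nat_lit 0) (nat_lit 13543762241) (nat_lit 152) (nat_lit 29005307381) (nat_lit 0) (nat_lit 12841011931) (nat_lit 8) (nat_lit 5) (nat_lit 10) (nat_lit 4) (nat_lit 8) (nat_lit 4) (nat_lit 493) (nat_lit 357) (nat_lit 350)) (XT.nd (nat_lit 78) (nat_lit 0) (nat_lit 0) (XT.lf (nat_lit 0) (nat_lit 954356121) (nat_lit 76) (nat_lit 28760837809) (nat_lit 76) (nat_lit 27975885913) (nat_lit 7) (nat_lit 4) (nat_lit 8) (nat_lit 5) (nat_lit 8) (nat_lit 4) (nat_lit 494) (nat_lit 357) (nat_lit 349)) (XT.lf (nat_lit 0) (nat_lit 32132113892) (nat_lit 76) (nat_lit 14421254554) (nat_lit 76) (nat_lit 13558015433) (nat_lit 7) (nat_lit 4) (nat_lit 8) (nat_lit 5) (nat_lit 8) (nat_lit 4) (nat_lit 495) (nat_lit 357) (nat_lit 348))))) (XT.nd (nat_lit 234) (nat_lit 76) (nat_lit 0) (XT.nd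 (nat_lit 78) (nat_lit 0) (nat_lit 0) (XT.lf (nat_lit 0) (nat_lit 1141797336) (nat_lit 152) (nat_lit 61291380506) (nat_lit 0) (nat_lit 231313469) (nat_lit 5) (nat_lit 5) (nat_lit 7) (nat_lit 4) (nat_lit 5) (nat_lit 4) (nat_lit 496) (nat_lit 357) (nat_lit 347)) (XT.nd (nat_lit 78) (nat_lit 0) (nat_lit 0) (XT.lf (nat_lit 0) (nat_lit 16319853505) (nat_lit 152) (nat_lit 33680235696) (nat_lit 0) (nat_lit 15340429035) (nat_lit 5) (nat_lit 5) (nat_lit 7) (nat_lit 4) (nat_lit 5) (nat_lit 4) (nat_lit 497) (nat_lit 357) (nat_lit 346)) (XT.lf (nat_lit 0) (nat_lit 31861208621) (nat_lit 152) (nat_lit 5484880381) (nat_lit 0) (nat_lit 30816126435) (nat_lit 5) (nat_lit 5) (nat_lit 7) (nat_lit 4) (nat_lit 5) (nat_lit 4) (nat_lit 498) (nat_lit 357) (nat_lit 345)))) (XT.nd (nat_lit 61308) (nat_lit 0) (nat_lit 988) (XT.nd (nat_lit 78) (nat_lit 0) (nat_lit 0) (XT.lf (nat_lit 0) (nat_lit 23826763209) (nat_lit 76) (nat_lit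 24205140126) (nat_lit 76) (nat_lit 23097526780) (nat_lit 4) (nat_lit 4) (nat_lit 5) (nat_lit 5) (nat_lit 5) (nat_lit 4) (nat_lit 499) (nat_lit 357) (nat_lit 344)) (XT.lf (nat_lit 0) (nat_lit 53981921498) (nat_lit 76) (nat_lit 10719767455) (nat_lit 76) (nat_lit 9552600625) (nat_lit 4) (nat_lit 4) (nat_lit 5) (nat_lit 5) (nat_lit 5) (nat_lit 4) (nat_lit 500) (nat_lit 357) (nat_lit 343))) (XT.nd (nat_lit 78) (nat_lit 0) (nat_lit 0) (XT.lf (nat_lit 0) (nat_lit 1527798993) (nat_lit 152) (nat_lit 16565843627) (nat_lit 0) (nat_lit 1527798993) (nat_lit 17) (nat_lit 5) (nat_lit 19) (nat_lit 4) (nat_lit 17) (nat_lit 4) (nat_lit 484) (nat_lit 358) (nat_lit 358)) (XT.lf (nat_lit 0) (nat_lit 20071217097) (nat_lit 152) (nat_lit 685188761) (nat_lit 0) (nat_lit 19938506298) (nat_lit 17) (nat_lit 5) (nat_lit 19) (nat_lit 4) (nat_lit 17) (nat_lit 4) (nat_lit 485) (nat_lit 358) (nat_lit 357)))))) (XT.nd (nat_lit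 468) (nat_lit 380) (nat_lit 0) (XT.nd (nat_lit 234) (nat_lit 228) (nat_lit 0) (XT.nd (nat_lit 78) (nat_lit 228) (nat_lit 0) (XT.lf (nat_lit 0) (nat_lit 32952754994) (nat_lit 76) (nat_lit 4766225124) (nat_lit 76) (nat_lit 4507123088) (nat_lit 16) (nat_lit 4) (nat_lit 17) (nat_lit 5) (nat_lit 17) (nat_lit 4) (nat_lit 486) (nat_lit 358) (nat_lit 356)) (XT.nd (nat_lit 78) (nat_lit 76) (nat_lit 0) (XT.lf (nat_lit 0) (nat_lit 11997300319) (nat_lit 152) (nat_lit 20209367614) (nat_lit 0) (nat_lit 11628878335) (nat_lit 14) (nat_lit 5) (nat_lit 16) (nat_lit 4) (nat_lit 14) (nat_lit 4) (nat_lit 487) (nat_lit 358) (nat_lit 355)) (XT.lf (nat_lit 0) (nat_lit 11946712554) (nat_lit 76) (nat_lit 17032387004) (nat_lit 76) (nat_lit 16552663488) (nat_lit 13) (nat_lit 4) (nat_lit 14) (nat_lit 5) (nat_lit 14) (nat_lit 4) (nat_lit 488) (nat_lit 358) (nat_lit 354)))) (XT.nd (nat_lit 78) (nat_lit 228) (nat_lit 0) (XT.lf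 (nat_lit 0) (nat_lit 45128807509) (nat_lit 76) (nat_lit 1389233930) (nat_lit 76) (nat_lit 803508955) (nat_lit 13) (nat_lit 4) (nat_lit 14) (nat_lit 5) (nat_lit 14) (nat_lit 4) (nat_lit 489) (nat_lit 358) (nat_lit 353)) (XT.nd (nat_lit 78) (nat_lit 76) (nat_lit 0) (XT.lf (nat_lit 0) (nat_lit 15380158308) (nat_lit 152) (nat_lit 19104031079) (nat_lit 0) (nat_lit 14713479914) (nat_lit 11) (nat_lit 5) (nat_lit 13) (nat_lit 4) (nat_lit 11) (nat_lit 4) (nat_lit 490) (nat_lit 358) (nat_lit 352)) (XT.lf (nat_lit 0) (nat_lit 12140126507) (nat_lit 76) (nat_lit 19898395336) (nat_lit 76) (nat_lit 19138370876) (nat_lit 10) (nat_lit 4) (nat_lit 11) (nat_lit 5) (nat_lit 11) (nat_lit 4) (nat_lit 491) (nat_lit 358) (nat_lit 351))))) (XT.nd (nat_lit 234) (nat_lit 228) (nat_lit 0) (XT.nd (nat_lit 78) (nat_lit 152) (nat_lit 0) (XT.lf (nat_lit 0) (nat_lit 44425215496) (nat_lit 76) (nat_lit 4843313316) (nat_lit 76) (nat_lit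 3994387840) (nat_lit 10) (nat_lit 4) (nat_lit 11) (nat_lit 5) (nat_lit 11) (nat_lit 4) (nat_lit 492) (nat_lit 358) (nat_lit 350)) (XT.nd (nat_lit 78) (nat_lit 0) (nat_lit 0) (XT.lf (nat_lit 0) (nat_lit 11552805602) (nat_lit 152) (nat_lit 33254248339) (nat_lit 0) (nat_lit 10646404525) (nat_lit 8) (nat_lit 5) (nat_lit 10) (nat_lit 4) (nat_lit 8) (nat_lit 4) (nat_lit 493) (nat_lit 358) (nat_lit 349)) (XT.lf (nat_lit 0) (nat_lit 27504382514) (nat_lit 152) (nat_lit 3736976145) (nat_lit 0) (nat_lit 26519694212) (nat_lit 8) (nat_lit 5) (nat_lit 10) (nat_lit 4) (nat_lit 8) (nat_lit 4) (nat_lit 494) (nat_lit 358) (nat_lit 348)))) (XT.nd (nat_lit 156) (nat_lit 152) (nat_lit 0) (XT.nd (nat_lit 78) (nat_lit 0) (nat_lit 0) (XT.lf (nat_lit 0) (nat_lit 26954787324) (nat_lit 76) (nat_lit 17146527433) (nat_lit 76) (nat_lit 16087279869) (nat_lit 7) (nat_lit 4) (nat_lit 8) (nat_lit 5) (nat_lit 8) (nat_lit 4) (nat_lit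 495) (nat_lit 358) (nat_lit 347)) (XT.lf (nat_lit 0) (nat_lit 58455589488) (nat_lit 76) (nat_lit 2711505599) (nat_lit 76) (nat_lit 1581249214) (nat_lit 7) (nat_lit 4) (nat_lit 8) (nat_lit 5) (nat_lit 8) (nat_lit 4) (nat_lit 496) (nat_lit 358) (nat_lit 346))) (XT.nd (nat_lit 78) (nat_lit 0) (nat_lit 0) (XT.lf (nat_lit 0) (nat_lit 13366118155) (nat_lit 152) (nat_lit 39863431663) (nat_lit 0) (nat_lit 12203124142) (nat_lit 5) (nat_lit 5) (nat_lit 7) (nat_lit 4) (nat_lit 5) (nat_lit 4) (nat_lit 497) (nat_lit 358) (nat_lit 345)) (XT.lf (nat_lit 0) (nat_lit 28723685182) (nat_lit 152) (nat_lit 12038039987) (nat_lit 0) (nat_lit 27498160010) (nat_lit 5) (nat_lit 5) (nat_lit 7) (nat_lit 4) (nat_lit 5) (nat_lit 4) (nat_lit 498) (nat_lit 358) (nat_lit 344))))))) (XT.nd (nat_lit 62010) (nat_lit 0) (nat_lit 0) (XT.nd (nat_lit 61464) (nat_lit 0) (nat_lit 456) (XT.nd (nat_lit 61230) (nat_lit 0) (nat_lit 988) (XT.nd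 (nat_lit 78) (nat_lit 0) (nat_lit 0) (XT.lf (nat_lit 0) (nat_lit 16783824170) (nat_lit 76) (nat_lit 27867818412) (nat_lit 76) (nat_lit 26582739755) (nat_lit 4) (nat_lit 4) (nat_lit 5) (nat_lit 5) (nat_lit 5) (nat_lit 4) (nat_lit 499) (nat_lit 358) (nat_lit 343)) (XT.nd (nat_lit 61074) (nat_lit 0) (nat_lit 1216) (XT.lf (nat_lit 0) (nat_lit 46596736073) (nat_lit 76) (nat_lit 14554701032) (nat_lit 76) (nat_lit 13212904772) (nat_lit 4) (nat_lit 4) (nat_lit 5) (nat_lit 5) (nat_lit 5) (nat_lit 4) (nat_lit 500) (nat_lit 358) (nat_lit 342)) (XT.lf (nat_lit 0) (nat_lit 3645761032) (nat_lit 152) (nat_lit 10979273353) (nat_lit 0) (nat_lit 3645761032) (nat_lit 20) (nat_lit 5) (nat_lit 22) (nat_lit 4) (nat_lit 20) (nat_lit 4) (nat_lit 482) (nat_lit 359) (nat_lit 359)))) (XT.nd (nat_lit 78) (nat_lit 152) (nat_lit 0) (XT.lf (nat_lit 0) (nat_lit 10896288397) (nat_lit 76) (nat_lit 13553757733) (nat_lit 76) (nat_lit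 13410231003) (nat_lit 19) (nat_lit 4) (nat_lit 20) (nat_lit 5) (nat_lit 20) (nat_lit 4) (nat_lit 483) (nat_lit 359) (nat_lit 358)) (XT.nd (nat_lit 78) (nat_lit 0) (nat_lit 0) (XT.lf (nat_lit 0) (nat_lit 2920715526) (nat_lit 152) (nat_lit 33681736978) (nat_lit 0) (nat_lit 2648658388) (nat_lit 17) (nat_lit 5) (nat_lit 19) (nat_lit 4) (nat_lit 17) (nat_lit 4) (nat_lit 484) (nat_lit 359) (nat_lit 357)) (XT.lf (nat_lit 0) (nat_lit 19675164352) (nat_lit 152) (nat_lit 1759095364) (nat_lit 0) (nat_lit 19276715976) (nat_lit 17) (nat_lit 5) (nat_lit 19) (nat_lit 4) (nat_lit 17) (nat_lit 4) (nat_lit 485) (nat_lit 359) (nat_lit 356))))) (XT.nd (nat_lit 234) (nat_lit 228) (nat_lit 0) (XT.nd (nat_lit 78) (nat_lit 228) (nat_lit 0) (XT.lf (nat_lit 0) (nat_lit 31348634916) (nat_lit 76) (nat_lit 5710139068) (nat_lit 76) (nat_lit 5191318086) (nat_lit 16) (nat_lit 4) (nat_lit 17) (nat_lit 5) (nat_lit 17) (nat_lit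 4) (nat_lit 486) (nat_lit 359) (nat_lit 355)) (XT.nd (nat_lit 78) (nat_lit 76) (nat_lit 0) (XT.lf (nat_lit 0) (nat_lit 11050116967) (nat_lit 152) (nat_lit 22382800586) (nat_lit 0) (nat_lit 10435105743) (nat_lit 14) (nat_lit 5) (nat_lit 16) (nat_lit 4) (nat_lit 14) (nat_lit 4) (nat_lit 487) (nat_lit 359) (nat_lit 354)) (XT.lf (nat_lit 0) (nat_lit 9240216411) (nat_lit 76) (nat_lit 18526496542) (nat_lit 76) (nat_lit 17805483859) (nat_lit 13) (nat_lit 4) (nat_lit 14) (nat_lit 5) (nat_lit 14) (nat_lit 4) (nat_lit 488) (nat_lit 359) (nat_lit 353)))) (XT.nd (nat_lit 156) (nat_lit 76) (nat_lit 0) (XT.nd (nat_lit 78) (nat_lit 152) (nat_lit 0) (XT.lf (nat_lit 0) (nat_lit 41955827944) (nat_lit 76) (nat_lit 3117545855) (nat_lit 76) (nat_lit 2295579401) (nat_lit 13) (nat_lit 4) (nat_lit 14) (nat_lit 5) (nat_lit 14) (nat_lit 4) (nat_lit 489) (nat_lit 359) (nat_lit 352)) (XT.lf (nat_lit 0) (nat_lit 13638685546)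 (nat_lit 152) (nat_lit 22867859147) (nat_lit 0) (nat_lit 12747313796) (nat_lit 11) (nat_lit 5) (nat_lit 13) (nat_lit 4) (nat_lit 11) (nat_lit 4) (nat_lit 490) (nat_lit 359) (nat_lit 351))) (XT.nd (nat_lit 78) (nat_lit 0) (nat_lit 0) (XT.lf (nat_lit 0) (nat_lit 7852369154) (nat_lit 76) (nat_lit 22184397268) (nat_lit 76) (nat_lit 21204124503) (nat_lit 10) (nat_lit 4) (nat_lit 11) (nat_lit 5) (nat_lit 11) (nat_lit 4) (nat_lit 491) (nat_lit 359) (nat_lit 350)) (XT.lf (nat_lit 0) (nat_lit 39709818404) (nat_lit 76) (nat_lit 7344209859) (nat_lit 76) (nat_lit 6279269460) (nat_lit 10) (nat_lit 4) (nat_lit 11) (nat_lit 5) (nat_lit 11) (nat_lit 4) (nat_lit 492) (nat_lit 359) (nat_lit 349)))))) (XT.nd (nat_lit 546) (nat_lit 0) (nat_lit 0) (XT.nd (nat_lit 234) (nat_lit 228) (nat_lit 0) (XT.nd (nat_lit 78) (nat_lit 76) (nat_lit 0) (XT.lf (nat_lit 0) (nat_lit 9030405240) (nat_lit 152) (nat_lit 38584361532) (nat_lit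 0) (nat_lit 7918195298) (nat_lit 8) (nat_lit 5) (nat_lit 10) (nat_lit 4) (nat_lit 8) (nat_lit 4) (nat_lit 493) (nat_lit 359) (nat_lit 348)) (XT.nd (nat_lit 78) (nat_lit 76) (nat_lit 0) (XT.lf (nat_lit 0) (nat_lit 24781333654) (nat_lit 152) (nat_lit 9470678275) (nat_lit 0) (nat_lit 23594564450) (nat_lit 8) (nat_lit 5) (nat_lit 10) (nat_lit 4) (nat_lit 8) (nat_lit 4) (nat_lit 494) (nat_lit 359) (nat_lit 347)) (XT.lf (nat_lit 0) (nat_lit 20714953138) (nat_lit 76) (nat_lit 20412237848) (nat_lit 76) (nat_lit 19154459824) (nat_lit 7) (nat_lit 4) (nat_lit 8) (nat_lit 5) (nat_lit 8) (nat_lit 4) (nat_lit 495) (nat_lit 359) (nat_lit 346)))) (XT.nd (nat_lit 156) (nat_lit 76) (nat_lit 0) (XT.nd (nat_lit 78) (nat_lit 152) (nat_lit 0) (XT.lf (nat_lit 0) (nat_lit 51842402787) (nat_lit 76) (nat_lit 6164985535) (nat_lit 76) (nat_lit 4839580062) (nat_lit 7) (nat_lit 4) (nat_lit 8) (nat_lit 5) (nat_lit 8) (nat_lit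 4) (nat_lit 496) (nat_lit 359) (nat_lit 345)) (XT.lf (nat_lit 0) (nat_lit 9887930455) (nat_lit 152) (nat_lit 47114212890) (nat_lit 0) (nat_lit 8538597866) (nat_lit 5) (nat_lit 5) (nat_lit 7) (nat_lit 4) (nat_lit 5) (nat_lit 4) (nat_lit 497) (nat_lit 359) (nat_lit 344))) (XT.nd (nat_lit 78) (nat_lit 76) (nat_lit 0) (XT.lf (nat_lit 0) (nat_lit 25070461207) (nat_lit 152) (nat_lit 19641167538) (nat_lit 0) (nat_lit 23661575133) (nat_lit 5) (nat_lit 5) (nat_lit 7) (nat_lit 4) (nat_lit 5) (nat_lit 4) (nat_lit 498) (nat_lit 359) (nat_lit 343)) (XT.lf (nat_lit 0) (nat_lit 8687133086) (nat_lit 76) (nat_lit 32066753959) (nat_lit 76) (nat_lit 30601150280) (nat_lit 4) (nat_lit 4) (nat_lit 5) (nat_lit 5) (nat_lit 5) (nat_lit 4) (nat_lit 499) (nat_lit 359) (nat_lit 342))))) (XT.nd (nat_lit 61074) (nat_lit 0) (nat_lit 988) (XT.nd (nat_lit 60918) (nat_lit 0) (nat_lit 1368) (XT.lf (nat_lit 0) (nat_lit 38174096048)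 (nat_lit 76) (nat_lit 18917689238) (nat_lit 76) (nat_lit 17398068793) (nat_lit 4) (nat_lit 4) (nat_lit 5) (nat_lit 5) (nat_lit 5) (nat_lit 4) (nat_lit 500) (nat_lit 359) (nat_lit 341)) (XT.nd (nat_lit 78) (nat_lit 76) (nat_lit 0) (XT.lf (nat_lit 0) (nat_lit 4464251834) (nat_lit 152) (nat_lit 8115775157) (nat_lit 0) (nat_lit 4464251834) (nat_lit 23) (nat_lit 5) (nat_lit 25) (nat_lit 4) (nat_lit 23) (nat_lit 4) (nat_lit 480) (nat_lit 360) (nat_lit 360)) (XT.lf (nat_lit 0) (nat_lit 16661901527) (nat_lit 76) (nat_lit 9390517897) (nat_lit 76) (nat_lit 9235293740) (nat_lit 22) (nat_lit 4) (nat_lit 23) (nat_lit 5) (nat_lit 23) (nat_lit 4) (nat_lit 481) (nat_lit 360) (nat_lit 359)))) (XT.nd (nat_lit 156) (nat_lit 152) (nat_lit 0) (XT.nd (nat_lit 78) (nat_lit 76) (nat_lit 0) (XT.lf (nat_lit 0) (nat_lit 7170613692) (nat_lit 152) (nat_lit 22502742458) (nat_lit 0) (nat_lit 6876383896) (nat_lit 20) (nat_lit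 5) (nat_lit 22) (nat_lit 4) (nat_lit 20) (nat_lit 4) (nat_lit 482) (nat_lit 360) (nat_lit 358)) (XT.lf (nat_lit 0) (nat_lit 9812665593) (nat_lit 76) (nat_lit 14247378157) (nat_lit 76) (nat_lit 13816456238) (nat_lit 19) (nat_lit 4) (nat_lit 20) (nat_lit 5) (nat_lit 20) (nat_lit 4) (nat_lit 483) (nat_lit 360) (nat_lit 357))) (XT.nd (nat_lit 78) (nat_lit 0) (nat_lit 0) (XT.lf (nat_lit 0) (nat_lit 2243689859) (nat_lit 152) (nat_lit 35333195790) (nat_lit 0) (nat_lit 1698927827) (nat_lit 17) (nat_lit 5) (nat_lit 19) (nat_lit 4) (nat_lit 17) (nat_lit 4) (nat_lit 484) (nat_lit 360) (nat_lit 356)) (XT.lf (nat_lit 0) (nat_lit 18749405080) (nat_lit 152) (nat_lit 3909465490) (nat_lit 0) (nat_lit 18084270441) (nat_lit 17) (nat_lit 5) (nat_lit 19) (nat_lit 4) (nat_lit 17) (nat_lit 4) (nat_lit 485) (nat_lit 360) (nat_lit 355))))))))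
noncomputable def xc2 : XT := (XT.nd (nat_lit 62712) (nat_lit 0) (nat_lit 0) (XT.nd (nat_lit 1014) (nat_lit 76) (nat_lit 0) (XT.nd (nat_lit 468) (nat_lit 380) (nat_lit 0) (XT.nd (nat_lit 234) (nat_lit 228) (nat_lit 0) (XT.nd (nat_lit 78) (nat_lit 228) (nat_lit 0) (XT.lf (nat_lit 0) (nat_lit 28670858087) (nat_lit 76) (nat_lit 7199527050) (nat_lit 76) (nat_lit 6419751833) (nat_lit 16) (nat_lit 4) (nat_lit 17) (nat_lit 5) (nat_lit 17) (nat_lit 4) (nat_lit 486) (nat_lit 360) (nat_lit 354)) (XT.nd (nat_lit 78) (nat_lit 76) (nat_lit 0) (XT.lf (nat_lit 0) (nat_lit 9565241596) (nat_lit 152) (nat_lit 25649417057) (nat_lit 0) (nat_lit 8702176819) (nat_lit 14) (nat_lit 5) (nat_lit 16) (nat_lit 4) (nat_lit 14) (nat_lit 4) (nat_lit 487) (nat_lit 360) (nat_lit 353)) (XT.lf (nat_lit 0) (nat_lit 5442104445) (nat_lit 76) (nat_lit 20575426450) (nat_lit 76) (nat_lit 19611407903) (nat_lit 13) (nat_lit 4) (nat_lit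 14) (nat_lit 5) (nat_lit 14) (nat_lit 4) (nat_lit 488) (nat_lit 360) (nat_lit 352)))) (XT.nd (nat_lit 78) (nat_lit 228) (nat_lit 0) (XT.lf (nat_lit 0) (nat_lit 37713446052) (nat_lit 76) (nat_lit 5389525655) (nat_lit 76) (nat_lit 4329360660) (nat_lit 13) (nat_lit 4) (nat_lit 14) (nat_lit 5) (nat_lit 14) (nat_lit 4) (nat_lit 489) (nat_lit 360) (nat_lit 351)) (XT.nd (nat_lit 78) (nat_lit 76) (nat_lit 0) (XT.lf (nat_lit 0) (nat_lit 11361053615) (nat_lit 152) (nat_lit 27722410994) (nat_lit 0) (nat_lit 10242866196) (nat_lit 11) (nat_lit 5) (nat_lit 13) (nat_lit 4) (nat_lit 11) (nat_lit 4) (nat_lit 490) (nat_lit 360) (nat_lit 350)) (XT.lf (nat_lit 0) (nat_lit 2473562468) (nat_lit 76) (nat_lit 25025233249) (nat_lit 76) (nat_lit 23822378197) (nat_lit 10) (nat_lit 4) (nat_lit 11) (nat_lit 5) (nat_lit 11) (nat_lit 4) (nat_lit 491) (nat_lit 360) (nat_lit 349))))) (XT.nd (nat_lit 234) (nat_lit 228) (nat_lit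 0) (XT.nd (nat_lit 78) (nat_lit 152) (nat_lit 0) (XT.lf (nat_lit 0) (nat_lit 33923735775) (nat_lit 76) (nat_lit 10389707375) (nat_lit 76) (nat_lit 9106216481) (nat_lit 10) (nat_lit 4) (nat_lit 11) (nat_lit 5) (nat_lit 11) (nat_lit 4) (nat_lit 492) (nat_lit 360) (nat_lit 348)) (XT.nd (nat_lit 78) (nat_lit 0) (nat_lit 0) (XT.lf (nat_lit 0) (nat_lit 5970555440) (nat_lit 152) (nat_lit 45008337705) (nat_lit 0) (nat_lit 4649888514) (nat_lit 8) (nat_lit 5) (nat_lit 10) (nat_lit 4) (nat_lit 8) (nat_lit 4) (nat_lit 493) (nat_lit 360) (nat_lit 347)) (XT.lf (nat_lit 0) (nat_lit 21530390047) (nat_lit 152) (nat_lit 16279024865) (nat_lit 0) (nat_lit 20138714300) (nat_lit 8) (nat_lit 5) (nat_lit 10) (nat_lit 4) (nat_lit 8) (nat_lit 4) (nat_lit 494) (nat_lit 360) (nat_lit 346)))) (XT.nd (nat_lit 156) (nat_lit 152) (nat_lit 0) (XT.nd (nat_lit 78) (nat_lit 0) (nat_lit 0) (XT.lf (nat_lit 0) (nat_lit 13397754586)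 (nat_lit 76) (nat_lit 24226161302) (nat_lit 76) (nat_lit 22766858107) (nat_lit 7) (nat_lit 4) (nat_lit 8) (nat_lit 5) (nat_lit 8) (nat_lit 4) (nat_lit 495) (nat_lit 360) (nat_lit 345)) (XT.lf (nat_lit 0) (nat_lit 44169630411) (nat_lit 76) (nat_lit 10157737103) (nat_lit 76) (nat_lit 8634026814) (nat_lit 7) (nat_lit 4) (nat_lit 8) (nat_lit 5) (nat_lit 8) (nat_lit 4) (nat_lit 496) (nat_lit 360) (nat_lit 344))) (XT.nd (nat_lit 78) (nat_lit 0) (nat_lit 0) (XT.lf (nat_lit 0) (nat_lit 5877009006) (nat_lit 152) (nat_lit 55449843142) (nat_lit 0) (nat_lit 4338125144) (nat_lit 5) (nat_lit 5) (nat_lit 7) (nat_lit 4) (nat_lit 5) (nat_lit 4) (nat_lit 497) (nat_lit 360) (nat_lit 343)) (XT.lf (nat_lit 0) (nat_lit 20892838544) (nat_lit 152) (nat_lit 28312365717) (nat_lit 0) (nat_lit 19297237077) (nat_lit 5) (nat_lit 5) (nat_lit 7) (nat_lit 4) (nat_lit 5) (nat_lit 4) (nat_lit 498) (nat_lit 360) (nat_lit 342))))))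 (XT.nd (nat_lit 61152) (nat_lit 0) (nat_lit 684) (XT.nd (nat_lit 60918) (nat_lit 0) (nat_lit 1368) (XT.nd (nat_lit 78) (nat_lit 76) (nat_lit 0) (XT.lf (nat_lit 0) (nat_lit 36333995283) (nat_lit 152) (nat_lit 473170851) (nat_lit 0) (nat_lit 34684377050) (nat_lit 5) (nat_lit 5) (nat_lit 7) (nat_lit 4) (nat_lit 5) (nat_lit 4) (nat_lit 499) (nat_lit 360) (nat_lit 341)) (XT.nd (nat_lit 60762) (nat_lit 0) (nat_lit 1672) (XT.lf (nat_lit 0) (nat_lit 28693947521) (nat_lit 76) (nat_lit 23819120138) (nat_lit 76) (nat_lit 22118057366) (nat_lit 4) (nat_lit 4) (nat_lit 5) (nat_lit 5) (nat_lit 5) (nat_lit 4) (nat_lit 500) (nat_lit 360) (nat_lit 340)) (XT.lf (nat_lit 0) (nat_lit 4247072438) (nat_lit 152) (nat_lit 7434275012) (nat_lit 0) (nat_lit 4247072438) (nat_lit 26) (nat_lit 5) (nat_lit 28) (nat_lit 4) (nat_lit 26) (nat_lit 4) (nat_lit 478) (nat_lit 361) (nat_lit 361)))) (XT.nd (nat_lit 78) (nat_lit 228) (nat_lit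 0) (XT.lf (nat_lit 0) (nat_lit 17756769750) (nat_lit 76) (nat_lit 7679950014) (nat_lit 76) (nat_lit 7512075087) (nat_lit 25) (nat_lit 4) (nat_lit 26) (nat_lit 5) (nat_lit 26) (nat_lit 4) (nat_lit 479) (nat_lit 361) (nat_lit 360)) (XT.nd (nat_lit 78) (nat_lit 76) (nat_lit 0) (XT.lf (nat_lit 0) (nat_lit 8822451752) (nat_lit 152) (nat_lit 16769935727) (nat_lit 0) (nat_lit 8504242228) (nat_lit 23) (nat_lit 5) (nat_lit 25) (nat_lit 4) (nat_lit 23) (nat_lit 4) (nat_lit 480) (nat_lit 361) (nat_lit 359)) (XT.lf (nat_lit 0) (nat_lit 15589848484) (nat_lit 76) (nat_lit 10089987809) (nat_lit 76) (nat_lit 9623945755) (nat_lit 22) (nat_lit 4) (nat_lit 23) (nat_lit 5) (nat_lit 23) (nat_lit 4) (nat_lit 481) (nat_lit 361) (nat_lit 358))))) (XT.nd (nat_lit 234) (nat_lit 304) (nat_lit 0) (XT.nd (nat_lit 78) (nat_lit 228) (nat_lit 0) (XT.lf (nat_lit 0) (nat_lit 6513370899) (nat_lit 152) (nat_lit 24136625417) (nat_lit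 0) (nat_lit 5924210761) (nat_lit 20) (nat_lit 5) (nat_lit 22) (nat_lit 4) (nat_lit 20) (nat_lit 4) (nat_lit 482) (nat_lit 361) (nat_lit 357)) (XT.nd (nat_lit 78) (nat_lit 152) (nat_lit 0) (XT.lf (nat_lit 0) (nat_lit 7642839931) (nat_lit 76) (nat_lit 15492743752) (nat_lit 76) (nat_lit 14773400640) (nat_lit 19) (nat_lit 4) (nat_lit 20) (nat_lit 5) (nat_lit 20) (nat_lit 4) (nat_lit 483) (nat_lit 361) (nat_lit 356)) (XT.lf (nat_lit 0) (nat_lit 1022909019) (nat_lit 152) (nat_lit 38089995737) (nat_lit 0) (nat_lit 204145041) (nat_lit 17) (nat_lit 5) (nat_lit 19) (nat_lit 4) (nat_lit 17) (nat_lit 4) (nat_lit 484) (nat_lit 361) (nat_lit 355)))) (XT.nd (nat_lit 156) (nat_lit 228) (nat_lit 0) (XT.nd (nat_lit 78) (nat_lit 76) (nat_lit 0) (XT.lf (nat_lit 0) (nat_lit 17291735092) (nat_lit 152) (nat_lit 7141419069) (nat_lit 0) (nat_lit 16358330537) (nat_lit 17) (nat_lit 5) (nat_lit 19) (nat_lit 4) (nat_lit 17)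 (nat_lit 4) (nat_lit 485) (nat_lit 361) (nat_lit 354)) (XT.lf (nat_lit 0) (nat_lit 24913048846) (nat_lit 76) (nat_lit 9237935230) (nat_lit 76) (nat_lit 8195349171) (nat_lit 16) (nat_lit 4) (nat_lit 17) (nat_lit 5) (nat_lit 17) (nat_lit 4) (nat_lit 486) (nat_lit 361) (nat_lit 353))) (XT.nd (nat_lit 78) (nat_lit 76) (nat_lit 0) (XT.lf (nat_lit 0) (nat_lit 7539138789) (nat_lit 152) (nat_lit 30016994685) (nat_lit 0) (nat_lit 6425965543) (nat_lit 14) (nat_lit 5) (nat_lit 16) (nat_lit 4) (nat_lit 14) (nat_lit 4) (nat_lit 487) (nat_lit 361) (nat_lit 352)) (XT.lf (nat_lit 0) (nat_lit 543333533) (nat_lit 76) (nat_lit 23184055133) (nat_lit 76) (nat_lit 21974735439) (nat_lit 13) (nat_lit 4) (nat_lit 14) (nat_lit 5) (nat_lit 14) (nat_lit 4) (nat_lit 488) (nat_lit 361) (nat_lit 351))))))) (XT.nd (nat_lit 61542) (nat_lit 0) (nat_lit 532) (XT.nd (nat_lit 468) (nat_lit 304) (nat_lit 0) (XT.nd (nat_lit 234) (nat_lit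 228) (nat_lit 0) (XT.nd (nat_lit 78) (nat_lit 152) (nat_lit 0) (XT.lf (nat_lit 0) (nat_lit 32391560925) (nat_lit 76) (nat_lit 8210582807) (nat_lit 76) (nat_lit 6909695068) (nat_lit 13) (nat_lit 4) (nat_lit 14) (nat_lit 5) (nat_lit 14) (nat_lit 4) (nat_lit 489) (nat_lit 361) (nat_lit 350)) (XT.nd (nat_lit 78) (nat_lit 0) (nat_lit 0) (XT.lf (nat_lit 0) (nat_lit 8541839580) (nat_lit 152) (nat_lit 33679245075) (nat_lit 0) (nat_lit 7194174142) (nat_lit 11) (nat_lit 5) (nat_lit 13) (nat_lit 4) (nat_lit 11) (nat_lit 4) (nat_lit 490) (nat_lit 361) (nat_lit 349)) (XT.lf (nat_lit 0) (nat_lit 24457104866) (nat_lit 152) (nat_lit 3930868248) (nat_lit 0) (nat_lit 23028803585) (nat_lit 11) (nat_lit 5) (nat_lit 13) (nat_lit 4) (nat_lit 11) (nat_lit 4) (nat_lit 491) (nat_lit 361) (nat_lit 348)))) (XT.nd (nat_lit 78) (nat_lit 152) (nat_lit 0) (XT.lf (nat_lit 0) (nat_lit 27053191222) (nat_lit 76) (nat_lit 13987057049)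 (nat_lit 76) (nat_lit 12481959728) (nat_lit 10) (nat_lit 4) (nat_lit 11) (nat_lit 5) (nat_lit 11) (nat_lit 4) (nat_lit 492) (nat_lit 361) (nat_lit 347)) (XT.nd (nat_lit 78) (nat_lit 0) (nat_lit 0) (XT.lf (nat_lit 0) (nat_lit 2365970845) (nat_lit 152) (nat_lit 52541472040) (nat_lit 0) (nat_lit 833702490) (nat_lit 8) (nat_lit 5) (nat_lit 10) (nat_lit 4) (nat_lit 8) (nat_lit 4) (nat_lit 493) (nat_lit 361) (nat_lit 346)) (XT.lf (nat_lit 0) (nat_lit 17743811350) (nat_lit 152) (nat_lit 24178226263) (nat_lit 0) (nat_lit 16143915547) (nat_lit 8) (nat_lit 5) (nat_lit 10) (nat_lit 4) (nat_lit 8) (nat_lit 4) (nat_lit 494) (nat_lit 361) (nat_lit 345))))) (XT.nd (nat_lit 234) (nat_lit 76) (nat_lit 0) (XT.nd (nat_lit 78) (nat_lit 152) (nat_lit 0) (XT.lf (nat_lit 0) (nat_lit 4985769767) (nat_lit 76) (nat_lit 28597378564) (nat_lit 76) (nat_lit 26933075666) (nat_lit 7) (nat_lit 4) (nat_lit 8) (nat_lit 5) (nat_lit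 8) (nat_lit 4) (nat_lit 495) (nat_lit 361) (nat_lit 344)) (XT.nd (nat_lit 78) (nat_lit 152) (nat_lit 0) (XT.lf (nat_lit 0) (nat_lit 35419003855) (nat_lit 76) (nat_lit 14699266855) (nat_lit 76) (nat_lit 12973623869) (nat_lit 7) (nat_lit 4) (nat_lit 8) (nat_lit 5) (nat_lit 8) (nat_lit 4) (nat_lit 496) (nat_lit 361) (nat_lit 343)) (XT.lf (nat_lit 0) (nat_lit 911385867) (nat_lit 76) (nat_lit 416421022) (nat_lit 152) (nat_lit 64477751029) (nat_lit 5) (nat_lit 5) (nat_lit 6) (nat_lit 5) (nat_lit 7) (nat_lit 4) (nat_lit 497) (nat_lit 361) (nat_lit 342)))) (XT.nd (nat_lit 156) (nat_lit 76) (nat_lit 0) (XT.nd (nat_lit 78) (nat_lit 0) (nat_lit 0) (XT.lf (nat_lit 0) (nat_lit 16180870472) (nat_lit 152) (nat_lit 38072280235) (nat_lit 0) (nat_lit 14394754562) (nat_lit 5) (nat_lit 5) (nat_lit 7) (nat_lit 4) (nat_lit 5) (nat_lit 4) (nat_lit 498) (nat_lit 361) (nat_lit 341)) (XT.lf (nat_lit 0) (nat_lit 31470824296)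 (nat_lit 152) (nat_lit 10537455371) (nat_lit 0) (nat_lit 29633263846) (nat_lit 5) (nat_lit 5) (nat_lit 7) (nat_lit 4) (nat_lit 5) (nat_lit 4) (nat_lit 499) (nat_lit 361) (nat_lit 340))) (XT.nd (nat_lit 60606) (nat_lit 0) (nat_lit 1900) (XT.lf (nat_lit 0) (nat_lit 18133718708) (nat_lit 76) (nat_lit 29270663807) (nat_lit 76) (nat_lit 27384108558) (nat_lit 4) (nat_lit 4) (nat_lit 5) (nat_lit 5) (nat_lit 5) (nat_lit 4) (nat_lit 500) (nat_lit 361) (nat_lit 339)) (XT.lf (nat_lit 0) (nat_lit 3214824811) (nat_lit 152) (nat_lit 8481761854) (nat_lit 0) (nat_lit 3214824811) (nat_lit 29) (nat_lit 5) (nat_lit 31) (nat_lit 4) (nat_lit 29) (nat_lit 4) (nat_lit 476) (nat_lit 362) (nat_lit 362)))))) (XT.nd (nat_lit 546) (nat_lit 608) (nat_lit 0) (XT.nd (nat_lit 234) (nat_lit 456) (nat_lit 0) (XT.nd (nat_lit 78) (nat_lit 228) (nat_lit 0) (XT.lf (nat_lit 0) (nat_lit 15151030286) (nat_lit 76) (nat_lit 7924486020)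 (nat_lit 76) (nat_lit 7742929287) (nat_lit 28) (nat_lit 4) (nat_lit 29) (nat_lit 5) (nat_lit 29) (nat_lit 4) (nat_lit 477) (nat_lit 362) (nat_lit 361)) (XT.nd (nat_lit 78) (nat_lit 76) (nat_lit 0) (XT.lf (nat_lit 0) (nat_lit 8403906334) (nat_lit 152) (nat_lit 15401166939) (nat_lit 0) (nat_lit 8059762734) (nat_lit 26) (nat_lit 5) (nat_lit 28) (nat_lit 4) (nat_lit 26) (nat_lit 4) (nat_lit 478) (nat_lit 362) (nat_lit 360)) (XT.lf (nat_lit 0) (nat_lit 16696203155) (nat_lit 76) (nat_lit 8386266854) (nat_lit 76) (nat_lit 7882242372) (nat_lit 25) (nat_lit 4) (nat_lit 26) (nat_lit 5) (nat_lit 26) (nat_lit 4) (nat_lit 479) (nat_lit 362) (nat_lit 359)))) (XT.nd (nat_lit 156) (nat_lit 228) (nat_lit 0) (XT.nd (nat_lit 78) (nat_lit 76) (nat_lit 0) (XT.lf (nat_lit 0) (nat_lit 8185833972) (nat_lit 152) (nat_lit 18386373838) (nat_lit 0) (nat_lit 7548657283) (nat_lit 23) (nat_lit 5) (nat_lit 25) (nat_lit 4) (nat_lit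 23) (nat_lit 4) (nat_lit 480) (nat_lit 362) (nat_lit 358)) (XT.lf (nat_lit 0) (nat_lit 13443189891) (nat_lit 76) (nat_lit 11335368880) (nat_lit 76) (nat_lit 10557399305) (nat_lit 22) (nat_lit 4) (nat_lit 23) (nat_lit 5) (nat_lit 23) (nat_lit 4) (nat_lit 481) (nat_lit 362) (nat_lit 357))) (XT.nd (nat_lit 78) (nat_lit 76) (nat_lit 0) (XT.lf (nat_lit 0) (nat_lit 5318228823) (nat_lit 152) (nat_lit 26864085782) (nat_lit 0) (nat_lit 4432735581) (nat_lit 20) (nat_lit 5) (nat_lit 22) (nat_lit 4) (nat_lit 20) (nat_lit 4) (nat_lit 482) (nat_lit 362) (nat_lit 356)) (XT.lf (nat_lit 0) (nat_lit 4381645159) (nat_lit 76) (nat_lit 17292819676) (nat_lit 76) (nat_lit 16283342649) (nat_lit 19) (nat_lit 4) (nat_lit 20) (nat_lit 5) (nat_lit 20) (nat_lit 4) (nat_lit 483) (nat_lit 362) (nat_lit 355))))) (XT.nd (nat_lit 234) (nat_lit 380) (nat_lit 0) (XT.nd (nat_lit 78) (nat_lit 228) (nat_lit 0) (XT.lf (nat_lit 0) (nat_lit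 36814968908) (nat_lit 76) (nat_lit 1843004105) (nat_lit 76) (nat_lit 715447283) (nat_lit 19) (nat_lit 4) (nat_lit 20) (nat_lit 5) (nat_lit 20) (nat_lit 4) (nat_lit 484) (nat_lit 362) (nat_lit 354)) (XT.nd (nat_lit 78) (nat_lit 76) (nat_lit 0) (XT.lf (nat_lit 0) (nat_lit 15298683746) (nat_lit 152) (nat_lit 11462651228) (nat_lit 0) (nat_lit 14094786882) (nat_lit 17) (nat_lit 5) (nat_lit 19) (nat_lit 4) (nat_lit 17) (nat_lit 4) (nat_lit 485) (nat_lit 362) (nat_lit 353)) (XT.lf (nat_lit 0) (nat_lit 20066260029) (nat_lit 76) (nat_lit 11830216962) (nat_lit 76) (nat_lit 10522337714) (nat_lit 16) (nat_lit 4) (nat_lit 17) (nat_lit 5) (nat_lit 17) (nat_lit 4) (nat_lit 486) (nat_lit 362) (nat_lit 352)))) (XT.nd (nat_lit 156) (nat_lit 228) (nat_lit 0) (XT.nd (nat_lit 78) (nat_lit 0) (nat_lit 0) (XT.lf (nat_lit 0) (nat_lit 4966984491) (nat_lit 152) (nat_lit 35495932463) (nat_lit 0) (nat_lit 3601052364) (nat_lit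 14) (nat_lit 5) (nat_lit 16) (nat_lit 4) (nat_lit 14) (nat_lit 4) (nat_lit 487) (nat_lit 362) (nat_lit 351)) (XT.lf (nat_lit 0) (nat_lit 20943393000) (nat_lit 152) (nat_lit 5361064372) (nat_lit 0) (nat_lit 19485892828) (nat_lit 14) (nat_lit 5) (nat_lit 16) (nat_lit 4) (nat_lit 14) (nat_lit 4) (nat_lit 488) (nat_lit 362) (nat_lit 350))) (XT.nd (nat_lit 78) (nat_lit 152) (nat_lit 0) (XT.lf (nat_lit 0) (nat_lit 25977501408) (nat_lit 76) (nat_lit 11587434112) (nat_lit 76) (nat_lit 10042726278) (nat_lit 13) (nat_lit 4) (nat_lit 14) (nat_lit 5) (nat_lit 14) (nat_lit 4) (nat_lit 489) (nat_lit 362) (nat_lit 349)) (XT.lf (nat_lit 0) (nat_lit 5174331029) (nat_lit 152) (nat_lit 40752544331) (nat_lit 0) (nat_lit 3593978843) (nat_lit 11) (nat_lit 5) (nat_lit 13) (nat_lit 4) (nat_lit 11) (nat_lit 4) (nat_lit 490) (nat_lit 362) (nat_lit 348))))))))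
noncomputable def xc3 : XT := (XT.nd (nat_lit 62400) (nat_lit 0) (nat_lit 76) (XT.nd (nat_lit 61386) (nat_lit 0) (nat_lit 684) (XT.nd (nat_lit 468) (nat_lit 228) (nat_lit 0) (XT.nd (nat_lit 234) (nat_lit 228) (nat_lit 0) (XT.nd (nat_lit 78) (nat_lit 76) (nat_lit 0) (XT.lf (nat_lit 0) (nat_lit 20900358769) (nat_lit 152) (nat_lit 11384480381) (nat_lit 0) (nat_lit 19243210543) (nat_lit 11) (nat_lit 5) (nat_lit 13) (nat_lit 4) (nat_lit 11) (nat_lit 4) (nat_lit 491) (nat_lit 362) (nat_lit 347)) (XT.nd (nat_lit 78) (nat_lit 0) (nat_lit 0) (XT.lf (nat_lit 0) (nat_lit 19081826307) (nat_lit 76) (nat_lit 18144823998) (nat_lit 76) (nat_lit 16414536687) (nat_lit 10) (nat_lit 4) (nat_lit 11) (nat_lit 5) (nat_lit 11) (nat_lit 4) (nat_lit 492) (nat_lit 362) (nat_lit 346)) (XT.lf (nat_lit 0) (nat_lit 50588118930) (nat_lit 76) (nat_lit 3539527486) (nat_lit 76) (nat_lit 1739583902) (nat_lit 10) (nat_lit 4) (nat_lit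 11) (nat_lit 5) (nat_lit 11) (nat_lit 4) (nat_lit 493) (nat_lit 362) (nat_lit 345)))) (XT.nd (nat_lit 78) (nat_lit 76) (nat_lit 0) (XT.lf (nat_lit 0) (nat_lit 13412581900) (nat_lit 152) (nat_lit 33187090092) (nat_lit 0) (nat_lit 11600656764) (nat_lit 8) (nat_lit 5) (nat_lit 10) (nat_lit 4) (nat_lit 8) (nat_lit 4) (nat_lit 494) (nat_lit 362) (nat_lit 344)) (XT.nd (nat_lit 78) (nat_lit 76) (nat_lit 0) (XT.lf (nat_lit 0) (nat_lit 29038918596) (nat_lit 152) (nat_lit 4452418005) (nat_lit 0) (nat_lit 27165653371) (nat_lit 8) (nat_lit 5) (nat_lit 10) (nat_lit 4) (nat_lit 8) (nat_lit 4) (nat_lit 495) (nat_lit 362) (nat_lit 343)) (XT.lf (nat_lit 0) (nat_lit 25569688293) (nat_lit 76) (nat_lit 19800387957) (nat_lit 76) (nat_lit 17868703599) (nat_lit 7) (nat_lit 4) (nat_lit 8) (nat_lit 5) (nat_lit 8) (nat_lit 4) (nat_lit 496) (nat_lit 362) (nat_lit 342))))) (XT.nd (nat_lit 234) (nat_lit 76) (nat_lit 0) (XT.nd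 (nat_lit 78) (nat_lit 152) (nat_lit 0) (XT.lf (nat_lit 0) (nat_lit 56556268369) (nat_lit 76) (nat_lit 5694363974) (nat_lit 76) (nat_lit 3707042347) (nat_lit 7) (nat_lit 4) (nat_lit 8) (nat_lit 5) (nat_lit 8) (nat_lit 4) (nat_lit 497) (nat_lit 362) (nat_lit 341)) (XT.nd (nat_lit 78) (nat_lit 0) (nat_lit 0) (XT.lf (nat_lit 0) (nat_lit 10923338020) (nat_lit 152) (nat_lit 48944148983) (nat_lit 0) (nat_lit 8942455008) (nat_lit 5) (nat_lit 5) (nat_lit 7) (nat_lit 4) (nat_lit 5) (nat_lit 4) (nat_lit 498) (nat_lit 362) (nat_lit 340)) (XT.lf (nat_lit 0) (nat_lit 26069289067) (nat_lit 152) (nat_lit 21699200311) (nat_lit 0) (nat_lit 24039411256) (nat_lit 5) (nat_lit 5) (nat_lit 7) (nat_lit 4) (nat_lit 5) (nat_lit 4) (nat_lit 499) (nat_lit 362) (nat_lit 339)))) (XT.nd (nat_lit 60528) (nat_lit 0) (nat_lit 1900) (XT.nd (nat_lit 60450) (nat_lit 0) (nat_lit 2128) (XT.lf (nat_lit 0) (nat_lit 6468266208) (nat_lit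 76) (nat_lit 35285300111) (nat_lit 76) (nat_lit 33208760586) (nat_lit 4) (nat_lit 4) (nat_lit 5) (nat_lit 5) (nat_lit 5) (nat_lit 4) (nat_lit 500) (nat_lit 362) (nat_lit 338)) (XT.lf (nat_lit 0) (nat_lit 1551511615) (nat_lit 152) (nat_lit 10879866079) (nat_lit 0) (nat_lit 1551511615) (nat_lit 32) (nat_lit 5) (nat_lit 34) (nat_lit 4) (nat_lit 32) (nat_lit 4) (nat_lit 474) (nat_lit 363) (nat_lit 363))) (XT.nd (nat_lit 78) (nat_lit 152) (nat_lit 0) (XT.lf (nat_lit 0) (nat_lit 9654947445) (nat_lit 76) (nat_lit 9708035416) (nat_lit 76) (nat_lit 9511681809) (nat_lit 31) (nat_lit 4) (nat_lit 32) (nat_lit 5) (nat_lit 32) (nat_lit 4) (nat_lit 475) (nat_lit 363) (nat_lit 362)) (XT.lf (nat_lit 0) (nat_lit 6356261971) (nat_lit 152) (nat_lit 17490412081) (nat_lit 0) (nat_lit 5984070668) (nat_lit 29) (nat_lit 5) (nat_lit 31) (nat_lit 4) (nat_lit 29) (nat_lit 4) (nat_lit 476) (nat_lit 363) (nat_lit 361))))))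 (XT.nd (nat_lit 468) (nat_lit 532) (nat_lit 0) (XT.nd (nat_lit 234) (nat_lit 380) (nat_lit 0) (XT.nd (nat_lit 78) (nat_lit 228) (nat_lit 0) (XT.lf (nat_lit 0) (nat_lit 14101870582) (nat_lit 76) (nat_lit 8638723171) (nat_lit 76) (nat_lit 8093620694) (nat_lit 28) (nat_lit 4) (nat_lit 29) (nat_lit 5) (nat_lit 29) (nat_lit 4) (nat_lit 477) (nat_lit 363) (nat_lit 360)) (XT.nd (nat_lit 78) (nat_lit 76) (nat_lit 0) (XT.lf (nat_lit 0) (nat_lit 7788832252) (nat_lit 152) (nat_lit 17000285820) (nat_lit 0) (nat_lit 7099725663) (nat_lit 26) (nat_lit 5) (nat_lit 28) (nat_lit 4) (nat_lit 26) (nat_lit 4) (nat_lit 478) (nat_lit 363) (nat_lit 359)) (XT.lf (nat_lit 0) (nat_lit 14572544808) (nat_lit 76) (nat_lit 9632707315) (nat_lit 76) (nat_lit 8791333220) (nat_lit 25) (nat_lit 4) (nat_lit 26) (nat_lit 5) (nat_lit 26) (nat_lit 4) (nat_lit 479) (nat_lit 363) (nat_lit 358)))) (XT.nd (nat_lit 78) (nat_lit 228) (nat_lit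 0) (XT.lf (nat_lit 0) (nat_lit 7017134572) (nat_lit 152) (nat_lit 21084713308) (nat_lit 0) (nat_lit 6059473631) (nat_lit 23) (nat_lit 5) (nat_lit 25) (nat_lit 4) (nat_lit 23) (nat_lit 4) (nat_lit 480) (nat_lit 363) (nat_lit 357)) (XT.nd (nat_lit 78) (nat_lit 152) (nat_lit 0) (XT.lf (nat_lit 0) (nat_lit 10216814656) (nat_lit 76) (nat_lit 13129626303) (nat_lit 76) (nat_lit 12037876898) (nat_lit 22) (nat_lit 4) (nat_lit 23) (nat_lit 5) (nat_lit 23) (nat_lit 4) (nat_lit 481) (nat_lit 363) (nat_lit 356)) (XT.lf (nat_lit 0) (nat_lit 3582341888) (nat_lit 152) (nat_lit 30691617505) (nat_lit 0) (nat_lit 2398407224) (nat_lit 20) (nat_lit 5) (nat_lit 22) (nat_lit 4) (nat_lit 20) (nat_lit 4) (nat_lit 482) (nat_lit 363) (nat_lit 355))))) (XT.nd (nat_lit 234) (nat_lit 304) (nat_lit 0) (XT.nd (nat_lit 78) (nat_lit 152) (nat_lit 0) (XT.lf (nat_lit 0) (nat_lit 21316528) (nat_lit 76) (nat_lit 19651891823) (nat_lit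 76) (nat_lit 18349877363) (nat_lit 19) (nat_lit 4) (nat_lit 20) (nat_lit 5) (nat_lit 20) (nat_lit 4) (nat_lit 483) (nat_lit 363) (nat_lit 354)) (XT.nd (nat_lit 78) (nat_lit 152) (nat_lit 0) (XT.lf (nat_lit 0) (nat_lit 32019762637) (nat_lit 76) (nat_lit 4419958913) (nat_lit 76) (nat_lit 3005487505) (nat_lit 19) (nat_lit 4) (nat_lit 20) (nat_lit 5) (nat_lit 20) (nat_lit 4) (nat_lit 484) (nat_lit 363) (nat_lit 353)) (XT.lf (nat_lit 0) (nat_lit 12765505682) (nat_lit 152) (nat_lit 16883450615) (nat_lit 0) (nat_lit 11288250087) (nat_lit 17) (nat_lit 5) (nat_lit 19) (nat_lit 4) (nat_lit 17) (nat_lit 4) (nat_lit 485) (nat_lit 363) (nat_lit 352)))) (XT.nd (nat_lit 156) (nat_lit 76) (nat_lit 0) (XT.nd (nat_lit 78) (nat_lit 152) (nat_lit 0) (XT.lf (nat_lit 0) (nat_lit 14118951662) (nat_lit 76) (nat_lit 14982544346) (nat_lit 76) (nat_lit 13406257910) (nat_lit 16) (nat_lit 4) (nat_lit 17) (nat_lit 5) (nat_lit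 17) (nat_lit 4) (nat_lit 486) (nat_lit 363) (nat_lit 351)) (XT.lf (nat_lit 0) (nat_lit 1842654525) (nat_lit 152) (nat_lit 42099275483) (nat_lit 0) (nat_lit 220711299) (nat_lit 14) (nat_lit 5) (nat_lit 16) (nat_lit 4) (nat_lit 14) (nat_lit 4) (nat_lit 487) (nat_lit 363) (nat_lit 350))) (XT.nd (nat_lit 78) (nat_lit 76) (nat_lit 0) (XT.lf (nat_lit 0) (nat_lit 17622283498) (nat_lit 152) (nat_lit 12359509994) (nat_lit 0) (nat_lit 15913132609) (nat_lit 14) (nat_lit 5) (nat_lit 16) (nat_lit 4) (nat_lit 14) (nat_lit 4) (nat_lit 488) (nat_lit 363) (nat_lit 349)) (XT.lf (nat_lit 0) (nat_lit 18455995929) (nat_lit 76) (nat_lit 15528119694) (nat_lit 76) (nat_lit 13735913888) (nat_lit 13) (nat_lit 4) (nat_lit 14) (nat_lit 5) (nat_lit 14) (nat_lit 4) (nat_lit 489) (nat_lit 363) (nat_lit 348))))))) (XT.nd (nat_lit 61230) (nat_lit 0) (nat_lit 836) (XT.nd (nat_lit 468) (nat_lit 228) (nat_lit 0) (XT.nd (nat_lit 234)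 (nat_lit 152) (nat_lit 0) (XT.nd (nat_lit 78) (nat_lit 76) (nat_lit 0) (XT.lf (nat_lit 0) (nat_lit 678500054) (nat_lit 76) (nat_lit 577561906) (nat_lit 152) (nat_lit 48387139921) (nat_lit 11) (nat_lit 5) (nat_lit 12) (nat_lit 5) (nat_lit 13) (nat_lit 4) (nat_lit 490) (nat_lit 363) (nat_lit 347)) (XT.nd (nat_lit 78) (nat_lit 76) (nat_lit 0) (XT.lf (nat_lit 0) (nat_lit 16796311590) (nat_lit 152) (nat_lit 19953288740) (nat_lit 0) (nat_lit 14906370827) (nat_lit 11) (nat_lit 5) (nat_lit 13) (nat_lit 4) (nat_lit 11) (nat_lit 4) (nat_lit 491) (nat_lit 363) (nat_lit 346)) (XT.lf (nat_lit 0) (nat_lit 9990661589) (nat_lit 76) (nat_lit 22872907669) (nat_lit 76) (nat_lit 20913310635) (nat_lit 10) (nat_lit 4) (nat_lit 11) (nat_lit 5) (nat_lit 11) (nat_lit 4) (nat_lit 492) (nat_lit 363) (nat_lit 345)))) (XT.nd (nat_lit 78) (nat_lit 152) (nat_lit 0) (XT.lf (nat_lit 0) (nat_lit 41161887286) (nat_lit 76) (nat_lit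 8435986707) (nat_lit 76) (nat_lit 6410050366) (nat_lit 10) (nat_lit 4) (nat_lit 11) (nat_lit 5) (nat_lit 11) (nat_lit 4) (nat_lit 493) (nat_lit 363) (nat_lit 344)) (XT.nd (nat_lit 78) (nat_lit 0) (nat_lit 0) (XT.lf (nat_lit 0) (nat_lit 8526389245) (nat_lit 152) (nat_lit 43327066029) (nat_lit 0) (nat_lit 6498120670) (nat_lit 8) (nat_lit 5) (nat_lit 10) (nat_lit 4) (nat_lit 8) (nat_lit 4) (nat_lit 494) (nat_lit 363) (nat_lit 343)) (XT.lf (nat_lit 0) (nat_lit 23995512594) (nat_lit 152) (nat_lit 14908616434) (nat_lit 0) (nat_lit 21908824886) (nat_lit 8) (nat_lit 5) (nat_lit 10) (nat_lit 4) (nat_lit 8) (nat_lit 4) (nat_lit 495) (nat_lit 363) (nat_lit 342))))) (XT.nd (nat_lit 234) (nat_lit 0) (nat_lit 0) (XT.nd (nat_lit 78) (nat_lit 152) (nat_lit 0) (XT.lf (nat_lit 0) (nat_lit 14598232974) (nat_lit 76) (nat_lit 25473245934) (nat_lit 76) (nat_lit 23330920957) (nat_lit 7) (nat_lit 4) (nat_lit 8) (nat_lit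 5) (nat_lit 8) (nat_lit 4) (nat_lit 496) (nat_lit 363) (nat_lit 341)) (XT.nd (nat_lit 78) (nat_lit 152) (nat_lit 0) (XT.lf (nat_lit 0) (nat_lit 45292281585) (nat_lit 76) (nat_lit 11514344284) (nat_lit 76) (nat_lit 9319031432) (nat_lit 7) (nat_lit 4) (nat_lit 8) (nat_lit 5) (nat_lit 8) (nat_lit 4) (nat_lit 497) (nat_lit 363) (nat_lit 340)) (XT.lf (nat_lit 0) (nat_lit 5107723253) (nat_lit 152) (nat_lit 60953857363) (nat_lit 0) (nat_lit 2927356752) (nat_lit 5) (nat_lit 5) (nat_lit 7) (nat_lit 4) (nat_lit 5) (nat_lit 4) (nat_lit 498) (nat_lit 363) (nat_lit 339)))) (XT.nd (nat_lit 60372) (nat_lit 0) (nat_lit 2204) (XT.nd (nat_lit 78) (nat_lit 0) (nat_lit 0) (XT.lf (nat_lit 0) (nat_lit 20116528798) (nat_lit 152) (nat_lit 33984981255) (nat_lit 0) (nat_lit 17889500584) (nat_lit 5) (nat_lit 5) (nat_lit 7) (nat_lit 4) (nat_lit 5) (nat_lit 4) (nat_lit 499) (nat_lit 363) (nat_lit 338)) (XT.lf (nat_lit 0) (nat_lit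 35608014356) (nat_lit 152) (nat_lit 6206660158) (nat_lit 0) (nat_lit 33336546414) (nat_lit 5) (nat_lit 5) (nat_lit 7) (nat_lit 4) (nat_lit 5) (nat_lit 4) (nat_lit 500) (nat_lit 363) (nat_lit 337))) (XT.nd (nat_lit 78) (nat_lit 228) (nat_lit 0) (XT.lf (nat_lit 0) (nat_lit 11964937555) (nat_lit 76) (nat_lit 584059768) (nat_lit 76) (nat_lit 584059768) (nat_lit 37) (nat_lit 4) (nat_lit 38) (nat_lit 5) (nat_lit 38) (nat_lit 4) (nat_lit 472) (nat_lit 364) (nat_lit 364)) (XT.lf (nat_lit 0) (nat_lit 1943400367) (nat_lit 76) (nat_lit 12683537535) (nat_lit 76) (nat_lit 12471181109) (nat_lit 34) (nat_lit 4) (nat_lit 35) (nat_lit 5) (nat_lit 35) (nat_lit 4) (nat_lit 473) (nat_lit 364) (nat_lit 363)))))) (XT.nd (nat_lit 546) (nat_lit 532) (nat_lit 0) (XT.nd (nat_lit 234) (nat_lit 456) (nat_lit 0) (XT.nd (nat_lit 78) (nat_lit 228) (nat_lit 0) (XT.lf (nat_lit 0) (nat_lit 3047611122) (nat_lit 152) (nat_lit 22280929955)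 (nat_lit 0) (nat_lit 2645086227) (nat_lit 32) (nat_lit 5) (nat_lit 34) (nat_lit 4) (nat_lit 32) (nat_lit 4) (nat_lit 474) (nat_lit 364) (nat_lit 362)) (XT.nd (nat_lit 78) (nat_lit 152) (nat_lit 0) (XT.lf (nat_lit 0) (nat_lit 8617119024) (nat_lit 76) (nat_lit 10431348445) (nat_lit 76) (nat_lit 9841820116) (nat_lit 31) (nat_lit 4) (nat_lit 32) (nat_lit 5) (nat_lit 32) (nat_lit 4) (nat_lit 475) (nat_lit 364) (nat_lit 361)) (XT.lf (nat_lit 0) (nat_lit 5763732977) (nat_lit 152) (nat_lit 19072331690) (nat_lit 0) (nat_lit 5018464201) (nat_lit 29) (nat_lit 5) (nat_lit 31) (nat_lit 4) (nat_lit 29) (nat_lit 4) (nat_lit 476) (nat_lit 364) (nat_lit 360)))) (XT.nd (nat_lit 156) (nat_lit 228) (nat_lit 0) (XT.nd (nat_lit 78) (nat_lit 152) (nat_lit 0) (XT.lf (nat_lit 0) (nat_lit 12001053173) (nat_lit 76) (nat_lit 9887341305) (nat_lit 76) (nat_lit 8977395220) (nat_lit 28) (nat_lit 4) (nat_lit 29) (nat_lit 5) (nat_lit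 29) (nat_lit 4) (nat_lit 477) (nat_lit 364) (nat_lit 359)) (XT.lf (nat_lit 0) (nat_lit 6647458169) (nat_lit 152) (nat_lit 19669714093) (nat_lit 0) (nat_lit 5611747861) (nat_lit 26) (nat_lit 5) (nat_lit 28) (nat_lit 4) (nat_lit 26) (nat_lit 4) (nat_lit 478) (nat_lit 364) (nat_lit 358))) (XT.nd (nat_lit 78) (nat_lit 152) (nat_lit 0) (XT.lf (nat_lit 0) (nat_lit 11380738378) (nat_lit 76) (nat_lit 11422239113) (nat_lit 76) (nat_lit 10241512131) (nat_lit 25) (nat_lit 4) (nat_lit 26) (nat_lit 5) (nat_lit 26) (nat_lit 4) (nat_lit 479) (nat_lit 364) (nat_lit 357)) (XT.lf (nat_lit 0) (nat_lit 5313570936) (nat_lit 152) (nat_lit 24871378756) (nat_lit 0) (nat_lit 4033145597) (nat_lit 23) (nat_lit 5) (nat_lit 25) (nat_lit 4) (nat_lit 23) (nat_lit 4) (nat_lit 480) (nat_lit 364) (nat_lit 356))))) (XT.nd (nat_lit 234) (nat_lit 304) (nat_lit 0) (XT.nd (nat_lit 78) (nat_lit 152) (nat_lit 0) (XT.lf (nat_lit 0) (nat_lit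 5903040934) (nat_lit 76) (nat_lit 15477032118) (nat_lit 76) (nat_lit 14068903481) (nat_lit 22) (nat_lit 4) (nat_lit 23) (nat_lit 5) (nat_lit 23) (nat_lit 4) (nat_lit 481) (nat_lit 364) (nat_lit 355)) (XT.nd (nat_lit 78) (nat_lit 0) (nat_lit 0) (XT.lf (nat_lit 0) (nat_lit 1116104900) (nat_lit 76) (nat_lit 187272305) (nat_lit 152) (nat_lit 35442861628) (nat_lit 20) (nat_lit 5) (nat_lit 21) (nat_lit 5) (nat_lit 22) (nat_lit 4) (nat_lit 482) (nat_lit 364) (nat_lit 354)) (XT.lf (nat_lit 0) (nat_lit 17179423914) (nat_lit 152) (nat_lit 5342207297) (nat_lit 0) (nat_lit 15581771989) (nat_lit 20) (nat_lit 5) (nat_lit 22) (nat_lit 4) (nat_lit 20) (nat_lit 4) (nat_lit 483) (nat_lit 364) (nat_lit 353)))) (XT.nd (nat_lit 156) (nat_lit 76) (nat_lit 0) (XT.nd (nat_lit 78) (nat_lit 152) (nat_lit 0) (XT.lf (nat_lit 0) (nat_lit 26135749230) (nat_lit 76) (nat_lit 7551151416) (nat_lit 76) (nat_lit 5846397636) (nat_lit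 19) (nat_lit 4) (nat_lit 20) (nat_lit 5) (nat_lit 20) (nat_lit 4) (nat_lit 484) (nat_lit 364) (nat_lit 352)) (XT.lf (nat_lit 0) (nat_lit 9686169522) (nat_lit 152) (nat_lit 23416723894) (nat_lit 0) (nat_lit 7932037922) (nat_lit 17) (nat_lit 5) (nat_lit 19) (nat_lit 4) (nat_lit 17) (nat_lit 4) (nat_lit 485) (nat_lit 364) (nat_lit 351))) (XT.nd (nat_lit 78) (nat_lit 0) (nat_lit 0) (XT.lf (nat_lit 0) (nat_lit 7056963488) (nat_lit 76) (nat_lit 18702422922) (nat_lit 76) (nat_lit 16853976235) (nat_lit 16) (nat_lit 4) (nat_lit 17) (nat_lit 5) (nat_lit 17) (nat_lit 4) (nat_lit 486) (nat_lit 364) (nat_lit 350)) (XT.lf (nat_lit 0) (nat_lit 38765281240) (nat_lit 76) (nat_lit 3724056874) (nat_lit 76) (nat_lit 1785786295) (nat_lit 16) (nat_lit 4) (nat_lit 17) (nat_lit 5) (nat_lit 17) (nat_lit 4) (nat_lit 487) (nat_lit 364) (nat_lit 349))))))))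
noncomputable def xc4 : XT := (XT.nd (nat_lit 62088) (nat_lit 0) (nat_lit 0) (XT.nd (nat_lit 61074) (nat_lit 0) (nat_lit 1292) (XT.nd (nat_lit 468) (nat_lit 380) (nat_lit 0) (XT.nd (nat_lit 234) (nat_lit 228) (nat_lit 0) (XT.nd (nat_lit 78) (nat_lit 76) (nat_lit 0) (XT.lf (nat_lit 0) (nat_lit 13750929902) (nat_lit 152) (nat_lit 20479268692) (nat_lit 0) (nat_lit 11786058889) (nat_lit 14) (nat_lit 5) (nat_lit 16) (nat_lit 4) (nat_lit 14) (nat_lit 4) (nat_lit 488) (nat_lit 364) (nat_lit 348)) (XT.nd (nat_lit 78) (nat_lit 0) (nat_lit 0) (XT.lf (nat_lit 0) (nat_lit 9809136144) (nat_lit 76) (nat_lit 20042022137) (nat_lit 76) (nat_lit 17998051203) (nat_lit 13) (nat_lit 4) (nat_lit 14) (nat_lit 5) (nat_lit 14) (nat_lit 4) (nat_lit 489) (nat_lit 364) (nat_lit 347)) (XT.lf (nat_lit 0) (nat_lit 41326318627) (nat_lit 76) (nat_lit 5285565500) (nat_lit 76) (nat_lit 3166261308) (nat_lit 13) (nat_lit 4) (nat_lit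 14) (nat_lit 5) (nat_lit 14) (nat_lit 4) (nat_lit 490) (nat_lit 364) (nat_lit 346)))) (XT.nd (nat_lit 78) (nat_lit 76) (nat_lit 0) (XT.lf (nat_lit 0) (nat_lit 12135191786) (nat_lit 152) (nat_lit 29657695249) (nat_lit 0) (nat_lit 10007958628) (nat_lit 11) (nat_lit 5) (nat_lit 13) (nat_lit 4) (nat_lit 11) (nat_lit 4) (nat_lit 491) (nat_lit 364) (nat_lit 345)) (XT.nd (nat_lit 78) (nat_lit 76) (nat_lit 0) (XT.lf (nat_lit 0) (nat_lit 27942942597) (nat_lit 152) (nat_lit 237227275) (nat_lit 0) (nat_lit 25749370133) (nat_lit 11) (nat_lit 5) (nat_lit 13) (nat_lit 4) (nat_lit 11) (nat_lit 4) (nat_lit 492) (nat_lit 364) (nat_lit 344)) (XT.lf (nat_lit 0) (nat_lit 30610165776) (nat_lit 76) (nat_lit 13906002109) (nat_lit 76) (nat_lit 11649249352) (nat_lit 10) (nat_lit 4) (nat_lit 11) (nat_lit 5) (nat_lit 11) (nat_lit 4) (nat_lit 493) (nat_lit 364) (nat_lit 343))))) (XT.nd (nat_lit 234) (nat_lit 152) (nat_lit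 0) (XT.nd (nat_lit 78) (nat_lit 76) (nat_lit 0) (XT.lf (nat_lit 0) (nat_lit 3073599595) (nat_lit 152) (nat_lit 54622296872) (nat_lit 0) (nat_lit 824158369) (nat_lit 8) (nat_lit 5) (nat_lit 10) (nat_lit 4) (nat_lit 8) (nat_lit 4) (nat_lit 494) (nat_lit 364) (nat_lit 342)) (XT.nd (nat_lit 78) (nat_lit 76) (nat_lit 0) (XT.lf (nat_lit 0) (nat_lit 18392995945) (nat_lit 152) (nat_lit 26505011556) (nat_lit 0) (nat_lit 16087917449) (nat_lit 8) (nat_lit 5) (nat_lit 10) (nat_lit 4) (nat_lit 8) (nat_lit 4) (nat_lit 495) (nat_lit 364) (nat_lit 341)) (XT.lf (nat_lit 0) (nat_lit 2478515386) (nat_lit 76) (nat_lit 31731347592) (nat_lit 76) (nat_lit 29373281222) (nat_lit 7) (nat_lit 4) (nat_lit 8) (nat_lit 5) (nat_lit 8) (nat_lit 4) (nat_lit 496) (nat_lit 364) (nat_lit 340)))) (XT.nd (nat_lit 156) (nat_lit 152) (nat_lit 0) (XT.nd (nat_lit 78) (nat_lit 0) (nat_lit 0) (XT.lf (nat_lit 0) (nat_lit 32893962602) (nat_lit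 76) (nat_lit 17912562449) (nat_lit 76) (nat_lit 15504031436) (nat_lit 7) (nat_lit 4) (nat_lit 8) (nat_lit 5) (nat_lit 8) (nat_lit 4) (nat_lit 497) (nat_lit 364) (nat_lit 339)) (XT.lf (nat_lit 0) (nat_lit 64286246120) (nat_lit 76) (nat_lit 3676398849) (nat_lit 76) (nat_lit 1219806271) (nat_lit 7) (nat_lit 4) (nat_lit 8) (nat_lit 5) (nat_lit 8) (nat_lit 4) (nat_lit 498) (nat_lit 364) (nat_lit 338))) (XT.nd (nat_lit 78) (nat_lit 0) (nat_lit 0) (XT.lf (nat_lit 0) (nat_lit 13598370251) (nat_lit 152) (nat_lit 47424050063) (nat_lit 0) (nat_lit 11168889185) (nat_lit 5) (nat_lit 5) (nat_lit 7) (nat_lit 4) (nat_lit 5) (nat_lit 4) (nat_lit 499) (nat_lit 364) (nat_lit 337)) (XT.lf (nat_lit 0) (nat_lit 28965460795) (nat_lit 152) (nat_lit 19896134919) (nat_lit 0) (nat_lit 26493656180) (nat_lit 5) (nat_lit 5) (nat_lit 7) (nat_lit 4) (nat_lit 5) (nat_lit 4) (nat_lit 500) (nat_lit 364) (nat_lit 336)))))) (XT.nd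 (nat_lit 468) (nat_lit 684) (nat_lit 0) (XT.nd (nat_lit 234) (nat_lit 456) (nat_lit 0) (XT.nd (nat_lit 78) (nat_lit 228) (nat_lit 0) (XT.lf (nat_lit 0) (nat_lit 6247997072) (nat_lit 76) (nat_lit 3052185290) (nat_lit 76) (nat_lit 3052185290) (nat_lit 40) (nat_lit 4) (nat_lit 41) (nat_lit 5) (nat_lit 41) (nat_lit 4) (nat_lit 470) (nat_lit 365) (nat_lit 365)) (XT.nd (nat_lit 78) (nat_lit 76) (nat_lit 0) (XT.lf (nat_lit 0) (nat_lit 9210452842) (nat_lit 152) (nat_lit 7278408863) (nat_lit 0) (nat_lit 8980789367) (nat_lit 38) (nat_lit 5) (nat_lit 40) (nat_lit 4) (nat_lit 38) (nat_lit 4) (nat_lit 471) (nat_lit 365) (nat_lit 364)) (XT.lf (nat_lit 0) (nat_lit 23434569852) (nat_lit 76) (nat_lit 1643708814) (nat_lit 76) (nat_lit 1195318221) (nat_lit 37) (nat_lit 4) (nat_lit 38) (nat_lit 5) (nat_lit 38) (nat_lit 4) (nat_lit 472) (nat_lit 365) (nat_lit 363)))) (XT.nd (nat_lit 78) (nat_lit 228) (nat_lit 0) (XT.lf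 (nat_lit 0) (nat_lit 916831788) (nat_lit 76) (nat_lit 13417170948) (nat_lit 76) (nat_lit 12779596060) (nat_lit 34) (nat_lit 4) (nat_lit 35) (nat_lit 5) (nat_lit 35) (nat_lit 4) (nat_lit 473) (nat_lit 365) (nat_lit 362)) (XT.nd (nat_lit 78) (nat_lit 76) (nat_lit 0) (XT.lf (nat_lit 0) (nat_lit 2478717970) (nat_lit 152) (nat_lit 23845764293) (nat_lit 0) (nat_lit 1672709789) (nat_lit 32) (nat_lit 5) (nat_lit 34) (nat_lit 4) (nat_lit 32) (nat_lit 4) (nat_lit 474) (nat_lit 365) (nat_lit 361)) (XT.lf (nat_lit 0) (nat_lit 6538991160) (nat_lit 76) (nat_lit 11683343071) (nat_lit 76) (nat_lit 10699236380) (nat_lit 31) (nat_lit 4) (nat_lit 32) (nat_lit 5) (nat_lit 32) (nat_lit 4) (nat_lit 475) (nat_lit 365) (nat_lit 360))))) (XT.nd (nat_lit 234) (nat_lit 304) (nat_lit 0) (XT.nd (nat_lit 78) (nat_lit 228) (nat_lit 0) (XT.lf (nat_lit 0) (nat_lit 4650651859) (nat_lit 152) (nat_lit 21713049013) (nat_lit 0) (nat_lit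 3530531161) (nat_lit 29) (nat_lit 5) (nat_lit 31) (nat_lit 4) (nat_lit 29) (nat_lit 4) (nat_lit 476) (nat_lit 365) (nat_lit 359)) (XT.nd (nat_lit 78) (nat_lit 152) (nat_lit 0) (XT.lf (nat_lit 0) (nat_lit 8843576115) (nat_lit 76) (nat_lit 11673313322) (nat_lit 76) (nat_lit 10396357091) (nat_lit 28) (nat_lit 4) (nat_lit 29) (nat_lit 5) (nat_lit 29) (nat_lit 4) (nat_lit 477) (nat_lit 365) (nat_lit 358)) (XT.lf (nat_lit 0) (nat_lit 4977066527) (nat_lit 152) (nat_lit 23415807540) (nat_lit 0) (nat_lit 3592286523) (nat_lit 26) (nat_lit 5) (nat_lit 28) (nat_lit 4) (nat_lit 26) (nat_lit 4) (nat_lit 478) (nat_lit 365) (nat_lit 357)))) (XT.nd (nat_lit 156) (nat_lit 76) (nat_lit 0) (XT.nd (nat_lit 78) (nat_lit 152) (nat_lit 0) (XT.lf (nat_lit 0) (nat_lit 7113184327) (nat_lit 76) (nat_lit 13759123036) (nat_lit 76) (nat_lit 12236231914) (nat_lit 25) (nat_lit 4) (nat_lit 26) (nat_lit 5) (nat_lit 26) (nat_lit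 4) (nat_lit 479) (nat_lit 365) (nat_lit 356)) (XT.lf (nat_lit 0) (nat_lit 3071086958) (nat_lit 152) (nat_lit 29755386051) (nat_lit 0) (nat_lit 1464848590) (nat_lit 23) (nat_lit 5) (nat_lit 25) (nat_lit 4) (nat_lit 23) (nat_lit 4) (nat_lit 480) (nat_lit 365) (nat_lit 355))) (XT.nd (nat_lit 78) (nat_lit 0) (nat_lit 0) (XT.lf (nat_lit 0) (nat_lit 491597833) (nat_lit 76) (nat_lit 18383175389) (nat_lit 76) (nat_lit 16655314831) (nat_lit 22) (nat_lit 4) (nat_lit 23) (nat_lit 5) (nat_lit 23) (nat_lit 4) (nat_lit 481) (nat_lit 365) (nat_lit 354)) (XT.lf (nat_lit 0) (nat_lit 32032749355) (nat_lit 76) (nat_lit 3322567959) (nat_lit 76) (nat_lit 1478876745) (nat_lit 22) (nat_lit 4) (nat_lit 23) (nat_lit 5) (nat_lit 23) (nat_lit 4) (nat_lit 482) (nat_lit 365) (nat_lit 353))))))) (XT.nd (nat_lit 1014) (nat_lit 228) (nat_lit 0) (XT.nd (nat_lit 468) (nat_lit 456) (nat_lit 0) (XT.nd (nat_lit 234) (nat_lit 228)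 (nat_lit 0) (XT.nd (nat_lit 78) (nat_lit 228) (nat_lit 0) (XT.lf (nat_lit 0) (nat_lit 14145670102) (nat_lit 152) (nat_lit 11805949413) (nat_lit 0) (nat_lit 12248576777) (nat_lit 20) (nat_lit 5) (nat_lit 22) (nat_lit 4) (nat_lit 20) (nat_lit 4) (nat_lit 483) (nat_lit 365) (nat_lit 352)) (XT.nd (nat_lit 78) (nat_lit 152) (nat_lit 0) (XT.lf (nat_lit 0) (nat_lit 19148919132) (nat_lit 76) (nat_lit 11244036837) (nat_lit 76) (nat_lit 9244941745) (nat_lit 19) (nat_lit 4) (nat_lit 20) (nat_lit 5) (nat_lit 20) (nat_lit 4) (nat_lit 484) (nat_lit 365) (nat_lit 351)) (XT.lf (nat_lit 0) (nat_lit 6053343514) (nat_lit 152) (nat_lit 31078026480) (nat_lit 0) (nat_lit 4018159405) (nat_lit 17) (nat_lit 5) (nat_lit 19) (nat_lit 4) (nat_lit 17) (nat_lit 4) (nat_lit 485) (nat_lit 365) (nat_lit 350)))) (XT.nd (nat_lit 78) (nat_lit 228) (nat_lit 0) (XT.lf (nat_lit 0) (nat_lit 21873115706) (nat_lit 152) (nat_lit 1114341177)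 (nat_lit 0) (nat_lit 19748107705) (nat_lit 17) (nat_lit 5) (nat_lit 19) (nat_lit 4) (nat_lit 17) (nat_lit 4) (nat_lit 486) (nat_lit 365) (nat_lit 349)) (XT.nd (nat_lit 78) (nat_lit 152) (nat_lit 0) (XT.lf (nat_lit 0) (nat_lit 30210175467) (nat_lit 76) (nat_lit 8201720555) (nat_lit 76) (nat_lit 5991165989) (nat_lit 16) (nat_lit 4) (nat_lit 17) (nat_lit 5) (nat_lit 17) (nat_lit 4) (nat_lit 487) (nat_lit 365) (nat_lit 348)) (XT.lf (nat_lit 0) (nat_lit 9320114703) (nat_lit 152) (nat_lit 29739673227) (nat_lit 0) (nat_lit 7094845301) (nat_lit 14) (nat_lit 5) (nat_lit 16) (nat_lit 4) (nat_lit 14) (nat_lit 4) (nat_lit 488) (nat_lit 365) (nat_lit 347))))) (XT.nd (nat_lit 234) (nat_lit 228) (nat_lit 0) (XT.nd (nat_lit 78) (nat_lit 152) (nat_lit 0) (XT.lf (nat_lit 0) (nat_lit 16334290) (nat_lit 76) (nat_lit 25139888828) (nat_lit 76) (nat_lit 22839286167) (nat_lit 13) (nat_lit 4) (nat_lit 14) (nat_lit 5) (nat_lit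 14) (nat_lit 4) (nat_lit 489) (nat_lit 365) (nat_lit 346)) (XT.nd (nat_lit 78) (nat_lit 152) (nat_lit 0) (XT.lf (nat_lit 0) (nat_lit 31201995714) (nat_lit 76) (nat_lit 10549875455) (nat_lit 76) (nat_lit 8177526835) (nat_lit 13) (nat_lit 4) (nat_lit 14) (nat_lit 5) (nat_lit 14) (nat_lit 4) (nat_lit 490) (nat_lit 365) (nat_lit 345)) (XT.lf (nat_lit 0) (nat_lit 6905901455) (nat_lit 152) (nat_lit 40520805637) (nat_lit 0) (nat_lit 4536311060) (nat_lit 11) (nat_lit 5) (nat_lit 13) (nat_lit 4) (nat_lit 11) (nat_lit 4) (nat_lit 491) (nat_lit 365) (nat_lit 344)))) (XT.nd (nat_lit 156) (nat_lit 152) (nat_lit 0) (XT.nd (nat_lit 78) (nat_lit 76) (nat_lit 0) (XT.lf (nat_lit 0) (nat_lit 22557966069) (nat_lit 152) (nat_lit 11413222009) (nat_lit 0) (nat_lit 20125195383) (nat_lit 11) (nat_lit 5) (nat_lit 13) (nat_lit 4) (nat_lit 11) (nat_lit 4) (nat_lit 492) (nat_lit 365) (nat_lit 343)) (XT.lf (nat_lit 0) (nat_lit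 18907831254) (nat_lit 76) (nat_lit 19962597536) (nat_lit 76) (nat_lit 17469655143) (nat_lit 10) (nat_lit 4) (nat_lit 11) (nat_lit 5) (nat_lit 11) (nat_lit 4) (nat_lit 493) (nat_lit 365) (nat_lit 342))) (XT.nd (nat_lit 78) (nat_lit 152) (nat_lit 0) (XT.lf (nat_lit 0) (nat_lit 50390080965) (nat_lit 76) (nat_lit 5430734464) (nat_lit 76) (nat_lit 2880485685) (nat_lit 10) (nat_lit 4) (nat_lit 11) (nat_lit 5) (nat_lit 11) (nat_lit 4) (nat_lit 494) (nat_lit 365) (nat_lit 341)) (XT.lf (nat_lit 0) (nat_lit 12218029324) (nat_lit 152) (nat_lit 39269213835) (nat_lit 0) (nat_lit 9689071759) (nat_lit 8) (nat_lit 5) (nat_lit 10) (nat_lit 4) (nat_lit 8) (nat_lit 4) (nat_lit 495) (nat_lit 365) (nat_lit 340)))))) (XT.nd (nat_lit 60372) (nat_lit 0) (nat_lit 1976) (XT.nd (nat_lit 234) (nat_lit 152) (nat_lit 0) (XT.nd (nat_lit 78) (nat_lit 76) (nat_lit 0) (XT.lf (nat_lit 0) (nat_lit 27875264551) (nat_lit 152) (nat_lit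 10607216533) (nat_lit 0) (nat_lit 25295842343) (nat_lit 8) (nat_lit 5) (nat_lit 10) (nat_lit 4) (nat_lit 8) (nat_lit 4) (nat_lit 496) (nat_lit 365) (nat_lit 339)) (XT.nd (nat_lit 78) (nat_lit 0) (nat_lit 0) (XT.lf (nat_lit 0) (nat_lit 19331791611) (nat_lit 76) (nat_lit 24904252323) (nat_lit 76) (nat_lit 22276768550) (nat_lit 7) (nat_lit 4) (nat_lit 8) (nat_lit 5) (nat_lit 8) (nat_lit 4) (nat_lit 497) (nat_lit 365) (nat_lit 338)) (XT.lf (nat_lit 0) (nat_lit 50471375451) (nat_lit 76) (nat_lit 10795178525) (nat_lit 76) (nat_lit 8121921834) (nat_lit 7) (nat_lit 4) (nat_lit 8) (nat_lit 5) (nat_lit 8) (nat_lit 4) (nat_lit 498) (nat_lit 365) (nat_lit 337)))) (XT.nd (nat_lit 78) (nat_lit 0) (nat_lit 0) (XT.lf (nat_lit 0) (nat_lit 6499294000) (nat_lit 152) (nat_lit 62048404516) (nat_lit 0) (nat_lit 3861575604) (nat_lit 5) (nat_lit 5) (nat_lit 7) (nat_lit 4) (nat_lit 5) (nat_lit 4) (nat_lit 499) (nat_lit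 365) (nat_lit 336)) (XT.nd (nat_lit 59982) (nat_lit 0) (nat_lit 2888) (XT.lf (nat_lit 0) (nat_lit 21747913104) (nat_lit 152) (nat_lit 34758971234) (nat_lit 0) (nat_lit 19069886565) (nat_lit 5) (nat_lit 5) (nat_lit 7) (nat_lit 4) (nat_lit 5) (nat_lit 4) (nat_lit 500) (nat_lit 365) (nat_lit 335)) (XT.lf (nat_lit 0) (nat_lit 106885334) (nat_lit 76) (nat_lit 5764388167) (nat_lit 76) (nat_lit 5764388167) (nat_lit 43) (nat_lit 4) (nat_lit 44) (nat_lit 5) (nat_lit 44) (nat_lit 4) (nat_lit 468) (nat_lit 366) (nat_lit 366))))) (XT.nd (nat_lit 234) (nat_lit 532) (nat_lit 0) (XT.nd (nat_lit 78) (nat_lit 228) (nat_lit 0) (XT.lf (nat_lit 0) (nat_lit 3296641209) (nat_lit 152) (nat_lit 17630592856) (nat_lit 0) (nat_lit 3048260161) (nat_lit 41) (nat_lit 5) (nat_lit 43) (nat_lit 4) (nat_lit 41) (nat_lit 4) (nat_lit 469) (nat_lit 366) (nat_lit 365)) (XT.nd (nat_lit 78) (nat_lit 152) (nat_lit 0) (XT.lf (nat_lit 0)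 (nat_lit 12006118356) (nat_lit 76) (nat_lit 6595483559) (nat_lit 76) (nat_lit 6110549132) (nat_lit 40) (nat_lit 4) (nat_lit 41) (nat_lit 5) (nat_lit 41) (nat_lit 4) (nat_lit 470) (nat_lit 366) (nat_lit 364)) (XT.lf (nat_lit 0) (nat_lit 8950132021) (nat_lit 152) (nat_lit 8273971002) (nat_lit 0) (nat_lit 8260594780) (nat_lit 38) (nat_lit 5) (nat_lit 40) (nat_lit 4) (nat_lit 38) (nat_lit 4) (nat_lit 471) (nat_lit 366) (nat_lit 363)))) (XT.nd (nat_lit 156) (nat_lit 304) (nat_lit 0) (XT.nd (nat_lit 78) (nat_lit 152) (nat_lit 0) (XT.lf (nat_lit 0) (nat_lit 21947474781) (nat_lit 76) (nat_lit 2623218409) (nat_lit 76) (nat_lit 1725369625) (nat_lit 37) (nat_lit 4) (nat_lit 38) (nat_lit 5) (nat_lit 38) (nat_lit 4) (nat_lit 472) (nat_lit 366) (nat_lit 362)) (XT.lf (nat_lit 0) (nat_lit 13546024871) (nat_lit 152) (nat_lit 1116528476) (nat_lit 0) (nat_lit 12481713485) (nat_lit 35) (nat_lit 5) (nat_lit 37) (nat_lit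 4) (nat_lit 35) (nat_lit 4) (nat_lit 473) (nat_lit 366) (nat_lit 361))) (XT.nd (nat_lit 78) (nat_lit 76) (nat_lit 0) (XT.lf (nat_lit 0) (nat_lit 1394989268) (nat_lit 152) (nat_lit 26457960968) (nat_lit 0) (nat_lit 183578733) (nat_lit 32) (nat_lit 5) (nat_lit 34) (nat_lit 4) (nat_lit 32) (nat_lit 4) (nat_lit 474) (nat_lit 366) (nat_lit 360)) (XT.lf (nat_lit 0) (nat_lit 3415615931) (nat_lit 76) (nat_lit 13467000232) (nat_lit 76) (nat_lit 12085972069) (nat_lit 31) (nat_lit 4) (nat_lit 32) (nat_lit 5) (nat_lit 32) (nat_lit 4) (nat_lit 475) (nat_lit 366) (nat_lit 359))))))))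
noncomputable def xc5 : XT := (XT.nd (nat_lit 61776) (nat_lit 0) (nat_lit 456) (XT.nd (nat_lit 1014) (nat_lit 684) (nat_lit 0) (XT.nd (nat_lit 468) (nat_lit 684) (nat_lit 0) (XT.nd (nat_lit 234) (nat_lit 228) (nat_lit 0) (XT.nd (nat_lit 78) (nat_lit 228) (nat_lit 0) (XT.lf (nat_lit 0) (nat_lit 3014368423) (nat_lit 152) (nat_lit 25418851472) (nat_lit 0) (nat_lit 1516728849) (nat_lit 29) (nat_lit 5) (nat_lit 31) (nat_lit 4) (nat_lit 29) (nat_lit 4) (nat_lit 476) (nat_lit 366) (nat_lit 358)) (XT.nd (nat_lit 78) (nat_lit 152) (nat_lit 0) (XT.lf (nat_lit 0) (nat_lit 4621921604) (nat_lit 76) (nat_lit 14000891535) (nat_lit 76) (nat_lit 12353884787) (nat_lit 28) (nat_lit 4) (nat_lit 29) (nat_lit 5) (nat_lit 29) (nat_lit 4) (nat_lit 477) (nat_lit 366) (nat_lit 357)) (XT.lf (nat_lit 0) (nat_lit 2773680204) (nat_lit 152) (nat_lit 28247485429) (nat_lit 0) (nat_lit 1036533409) (nat_lit 26) (nat_lit 5) (nat_lit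 28) (nat_lit 4) (nat_lit 26) (nat_lit 4) (nat_lit 478) (nat_lit 366) (nat_lit 356)))) (XT.nd (nat_lit 78) (nat_lit 152) (nat_lit 0) (XT.lf (nat_lit 0) (nat_lit 1759721812) (nat_lit 76) (nat_lit 16648923095) (nat_lit 76) (nat_lit 14780241902) (nat_lit 25) (nat_lit 4) (nat_lit 26) (nat_lit 5) (nat_lit 26) (nat_lit 4) (nat_lit 479) (nat_lit 366) (nat_lit 355)) (XT.nd (nat_lit 78) (nat_lit 76) (nat_lit 0) (XT.lf (nat_lit 0) (nat_lit 313837455) (nat_lit 152) (nat_lit 1356862012) (nat_lit 76) (nat_lit 32709590504) (nat_lit 24) (nat_lit 5) (nat_lit 26) (nat_lit 5) (nat_lit 25) (nat_lit 4) (nat_lit 480) (nat_lit 366) (nat_lit 354)) (XT.lf (nat_lit 0) (nat_lit 15882544355) (nat_lit 152) (nat_lit 5912724226) (nat_lit 0) (nat_lit 13830837924) (nat_lit 23) (nat_lit 5) (nat_lit 25) (nat_lit 4) (nat_lit 23) (nat_lit 4) (nat_lit 481) (nat_lit 366) (nat_lit 353))))) (XT.nd (nat_lit 234) (nat_lit 380) (nat_lit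 0) (XT.nd (nat_lit 78) (nat_lit 228) (nat_lit 0) (XT.lf (nat_lit 0) (nat_lit 25120517129) (nat_lit 76) (nat_lit 6989652477) (nat_lit 76) (nat_lit 4827631135) (nat_lit 22) (nat_lit 4) (nat_lit 23) (nat_lit 5) (nat_lit 23) (nat_lit 4) (nat_lit 482) (nat_lit 366) (nat_lit 352)) (XT.nd (nat_lit 78) (nat_lit 76) (nat_lit 0) (XT.lf (nat_lit 0) (nat_lit 10564518781) (nat_lit 152) (nat_lit 19385715644) (nat_lit 0) (nat_lit 8363467168) (nat_lit 20) (nat_lit 5) (nat_lit 22) (nat_lit 4) (nat_lit 20) (nat_lit 4) (nat_lit 483) (nat_lit 366) (nat_lit 351)) (XT.lf (nat_lit 0) (nat_lit 11042637034) (nat_lit 76) (nat_lit 15507407759) (nat_lit 76) (nat_lit 13209211606) (nat_lit 19) (nat_lit 4) (nat_lit 20) (nat_lit 5) (nat_lit 20) (nat_lit 4) (nat_lit 484) (nat_lit 366) (nat_lit 350)))) (XT.nd (nat_lit 156) (nat_lit 228) (nat_lit 0) (XT.nd (nat_lit 78) (nat_lit 0) (nat_lit 0) (XT.lf (nat_lit 0) (nat_lit 1391001445)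 (nat_lit 76) (nat_lit 471912942) (nat_lit 152) (nat_lit 39418222940) (nat_lit 17) (nat_lit 5) (nat_lit 18) (nat_lit 5) (nat_lit 19) (nat_lit 4) (nat_lit 485) (nat_lit 366) (nat_lit 349)) (XT.lf (nat_lit 0) (nat_lit 17501379936) (nat_lit 152) (nat_lit 10276481220) (nat_lit 0) (nat_lit 15094751077) (nat_lit 17) (nat_lit 5) (nat_lit 19) (nat_lit 4) (nat_lit 17) (nat_lit 4) (nat_lit 486) (nat_lit 366) (nat_lit 348))) (XT.nd (nat_lit 78) (nat_lit 152) (nat_lit 0) (XT.lf (nat_lit 0) (nat_lit 20521287505) (nat_lit 76) (nat_lit 13257384533) (nat_lit 76) (nat_lit 10769282756) (nat_lit 16) (nat_lit 4) (nat_lit 17) (nat_lit 5) (nat_lit 17) (nat_lit 4) (nat_lit 487) (nat_lit 366) (nat_lit 347)) (XT.lf (nat_lit 0) (nat_lit 4319288342) (nat_lit 152) (nat_lit 40162772178) (nat_lit 0) (nat_lit 1828322291) (nat_lit 14) (nat_lit 5) (nat_lit 16) (nat_lit 4) (nat_lit 14) (nat_lit 4) (nat_lit 488) (nat_lit 366) (nat_lit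 346)))))) (XT.nd (nat_lit 468) (nat_lit 380) (nat_lit 0) (XT.nd (nat_lit 234) (nat_lit 152) (nat_lit 0) (XT.nd (nat_lit 78) (nat_lit 152) (nat_lit 0) (XT.lf (nat_lit 0) (nat_lit 19993348730) (nat_lit 152) (nat_lit 10732135290) (nat_lit 0) (nat_lit 17430636719) (nat_lit 14) (nat_lit 5) (nat_lit 16) (nat_lit 4) (nat_lit 14) (nat_lit 4) (nat_lit 489) (nat_lit 366) (nat_lit 345)) (XT.nd (nat_lit 78) (nat_lit 76) (nat_lit 0) (XT.lf (nat_lit 0) (nat_lit 19924201255) (nat_lit 76) (nat_lit 16402361565) (nat_lit 76) (nat_lit 13771320068) (nat_lit 13) (nat_lit 4) (nat_lit 14) (nat_lit 5) (nat_lit 14) (nat_lit 4) (nat_lit 490) (nat_lit 366) (nat_lit 344)) (XT.lf (nat_lit 0) (nat_lit 1115146467) (nat_lit 152) (nat_lit 432369868) (nat_lit 76) (nat_lit 50594783716) (nat_lit 12) (nat_lit 5) (nat_lit 14) (nat_lit 5) (nat_lit 13) (nat_lit 4) (nat_lit 491) (nat_lit 366) (nat_lit 343)))) (XT.nd (nat_lit 78) (nat_lit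 76) (nat_lit 0) (XT.lf (nat_lit 0) (nat_lit 16599781949) (nat_lit 152) (nat_lit 23758885917) (nat_lit 0) (nat_lit 13922020731) (nat_lit 11) (nat_lit 5) (nat_lit 13) (nat_lit 4) (nat_lit 11) (nat_lit 4) (nat_lit 492) (nat_lit 366) (nat_lit 342)) (XT.nd (nat_lit 78) (nat_lit 0) (nat_lit 0) (XT.lf (nat_lit 0) (nat_lit 6027021018) (nat_lit 76) (nat_lit 26620193454) (nat_lit 76) (nat_lit 23885125848) (nat_lit 10) (nat_lit 4) (nat_lit 11) (nat_lit 5) (nat_lit 11) (nat_lit 4) (nat_lit 493) (nat_lit 366) (nat_lit 341)) (XT.lf (nat_lit 0) (nat_lit 37233610341) (nat_lit 76) (nat_lit 12226853365) (nat_lit 76) (nat_lit 9437208248) (nat_lit 10) (nat_lit 4) (nat_lit 11) (nat_lit 5) (nat_lit 11) (nat_lit 4) (nat_lit 494) (nat_lit 366) (nat_lit 340))))) (XT.nd (nat_lit 234) (nat_lit 152) (nat_lit 0) (XT.nd (nat_lit 78) (nat_lit 76) (nat_lit 0) (XT.lf (nat_lit 0) (nat_lit 5455910429) (nat_lit 152) (nat_lit 53231614230)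 (nat_lit 0) (nat_lit 2697052468) (nat_lit 8) (nat_lit 5) (nat_lit 10) (nat_lit 4) (nat_lit 8) (nat_lit 4) (nat_lit 495) (nat_lit 366) (nat_lit 339)) (XT.nd (nat_lit 78) (nat_lit 76) (nat_lit 0) (XT.lf (nat_lit 0) (nat_lit 20983805846) (nat_lit 152) (nat_lit 24829773955) (nat_lit 0) (nat_lit 18176886320) (nat_lit 8) (nat_lit 5) (nat_lit 10) (nat_lit 4) (nat_lit 8) (nat_lit 4) (nat_lit 496) (nat_lit 366) (nat_lit 338)) (XT.lf (nat_lit 0) (nat_lit 4573477731) (nat_lit 76) (nat_lit 32506060785) (nat_lit 76) (nat_lit 29653368340) (nat_lit 7) (nat_lit 4) (nat_lit 8) (nat_lit 5) (nat_lit 8) (nat_lit 4) (nat_lit 497) (nat_lit 366) (nat_lit 337)))) (XT.nd (nat_lit 156) (nat_lit 152) (nat_lit 0) (XT.nd (nat_lit 78) (nat_lit 0) (nat_lit 0) (XT.lf (nat_lit 0) (nat_lit 35472395211) (nat_lit 76) (nat_lit 18518024895) (nat_lit 76) (nat_lit 15621739193) (nat_lit 7) (nat_lit 4) (nat_lit 8) (nat_lit 5) (nat_lit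 8) (nat_lit 4) (nat_lit 498) (nat_lit 366) (nat_lit 336)) (XT.lf (nat_lit 0) (nat_lit 67446386147) (nat_lit 76) (nat_lit 4066899314) (nat_lit 76) (nat_lit 1129096226) (nat_lit 7) (nat_lit 4) (nat_lit 8) (nat_lit 5) (nat_lit 8) (nat_lit 4) (nat_lit 499) (nat_lit 366) (nat_lit 335))) (XT.nd (nat_lit 59826) (nat_lit 0) (nat_lit 3192) (XT.lf (nat_lit 0) (nat_lit 13938186643) (nat_lit 152) (nat_lit 50830556806) (nat_lit 0) (nat_lit 11047561928) (nat_lit 5) (nat_lit 5) (nat_lit 7) (nat_lit 4) (nat_lit 5) (nat_lit 4) (nat_lit 500) (nat_lit 366) (nat_lit 334)) (XT.lf (nat_lit 0) (nat_lit 2401835154) (nat_lit 152) (nat_lit 6171297593) (nat_lit 0) (nat_lit 2401835154) (nat_lit 47) (nat_lit 5) (nat_lit 49) (nat_lit 4) (nat_lit 47) (nat_lit 4) (nat_lit 466) (nat_lit 367) (nat_lit 367))))))) (XT.nd (nat_lit 1014) (nat_lit 1140) (nat_lit 0) (XT.nd (nat_lit 468) (nat_lit 836) (nat_lit 0) (XT.nd (nat_lit 234)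 (nat_lit 304) (nat_lit 0) (XT.nd (nat_lit 78) (nat_lit 380) (nat_lit 0) (XT.lf (nat_lit 0) (nat_lit 16486450812) (nat_lit 76) (nat_lit 3194860908) (nat_lit 76) (nat_lit 2918178081) (nat_lit 46) (nat_lit 4) (nat_lit 47) (nat_lit 5) (nat_lit 47) (nat_lit 4) (nat_lit 467) (nat_lit 367) (nat_lit 366)) (XT.nd (nat_lit 78) (nat_lit 228) (nat_lit 0) (XT.lf (nat_lit 0) (nat_lit 11768815430) (nat_lit 152) (nat_lit 265421273) (nat_lit 0) (nat_lit 11244358848) (nat_lit 44) (nat_lit 5) (nat_lit 46) (nat_lit 4) (nat_lit 44) (nat_lit 4) (nat_lit 468) (nat_lit 367) (nat_lit 365)) (XT.lf (nat_lit 0) (nat_lit 3060449824) (nat_lit 152) (nat_lit 18615241776) (nat_lit 0) (nat_lit 2314715298) (nat_lit 41) (nat_lit 5) (nat_lit 43) (nat_lit 4) (nat_lit 41) (nat_lit 4) (nat_lit 469) (nat_lit 367) (nat_lit 364)))) (XT.nd (nat_lit 78) (nat_lit 228) (nat_lit 0) (XT.lf (nat_lit 0) (nat_lit 10535324623) (nat_lit 76) (nat_lit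 7585057385) (nat_lit 76) (nat_lit 6614033926) (nat_lit 40) (nat_lit 4) (nat_lit 41) (nat_lit 5) (nat_lit 41) (nat_lit 4) (nat_lit 470) (nat_lit 367) (nat_lit 363)) (XT.nd (nat_lit 78) (nat_lit 76) (nat_lit 0) (XT.lf (nat_lit 0) (nat_lit 8199207093) (nat_lit 152) (nat_lit 10267465668) (nat_lit 0) (nat_lit 7048154329) (nat_lit 38) (nat_lit 5) (nat_lit 40) (nat_lit 4) (nat_lit 38) (nat_lit 4) (nat_lit 471) (nat_lit 367) (nat_lit 362)) (XT.lf (nat_lit 0) (nat_lit 19465049193) (nat_lit 76) (nat_lit 4108980486) (nat_lit 76) (nat_lit 2759535778) (nat_lit 37) (nat_lit 4) (nat_lit 38) (nat_lit 5) (nat_lit 38) (nat_lit 4) (nat_lit 472) (nat_lit 367) (nat_lit 361))))) (XT.nd (nat_lit 234) (nat_lit 456) (nat_lit 0) (XT.nd (nat_lit 78) (nat_lit 228) (nat_lit 0) (XT.lf (nat_lit 0) (nat_lit 12268907443) (nat_lit 152) (nat_lit 4145729831) (nat_lit 0) (nat_lit 10775325485) (nat_lit 35) (nat_lit 5) (nat_lit 37)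 (nat_lit 4) (nat_lit 35) (nat_lit 4) (nat_lit 473) (nat_lit 367) (nat_lit 360)) (XT.nd (nat_lit 78) (nat_lit 152) (nat_lit 0) (XT.lf (nat_lit 0) (nat_lit 26078467686) (nat_lit 76) (nat_lit 1840187126) (nat_lit 76) (nat_lit 171899010) (nat_lit 34) (nat_lit 4) (nat_lit 35) (nat_lit 5) (nat_lit 35) (nat_lit 4) (nat_lit 474) (nat_lit 367) (nat_lit 359)) (XT.lf (nat_lit 0) (nat_lit 15033433308) (nat_lit 152) (nat_lit 745604283) (nat_lit 0) (nat_lit 13252195510) (nat_lit 32) (nat_lit 5) (nat_lit 34) (nat_lit 4) (nat_lit 32) (nat_lit 4) (nat_lit 475) (nat_lit 367) (nat_lit 358)))) (XT.nd (nat_lit 156) (nat_lit 228) (nat_lit 0) (XT.nd (nat_lit 78) (nat_lit 76) (nat_lit 0) (XT.lf (nat_lit 0) (nat_lit 862861412) (nat_lit 152) (nat_lit 183477319) (nat_lit 76) (nat_lit 28975116690) (nat_lit 30) (nat_lit 5) (nat_lit 32) (nat_lit 5) (nat_lit 31) (nat_lit 4) (nat_lit 476) (nat_lit 367) (nat_lit 357)) (XT.lf (nat_lit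 0) (nat_lit 16208134416) (nat_lit 152) (nat_lit 660810493) (nat_lit 0) (nat_lit 14187155706) (nat_lit 29) (nat_lit 5) (nat_lit 31) (nat_lit 4) (nat_lit 29) (nat_lit 4) (nat_lit 477) (nat_lit 367) (nat_lit 356))) (XT.nd (nat_lit 78) (nat_lit 76) (nat_lit 0) (XT.lf (nat_lit 0) (nat_lit 71974104) (nat_lit 152) (nat_lit 2010351708) (nat_lit 76) (nat_lit 30063184747) (nat_lit 27) (nat_lit 5) (nat_lit 29) (nat_lit 5) (nat_lit 28) (nat_lit 4) (nat_lit 478) (nat_lit 367) (nat_lit 355)) (XT.lf (nat_lit 0) (nat_lit 15451230434) (nat_lit 152) (nat_lit 4600829969) (nat_lit 0) (nat_lit 13232309929) (nat_lit 26) (nat_lit 5) (nat_lit 28) (nat_lit 4) (nat_lit 26) (nat_lit 4) (nat_lit 479) (nat_lit 367) (nat_lit 354)))))) (XT.nd (nat_lit 546) (nat_lit 456) (nat_lit 0) (XT.nd (nat_lit 234) (nat_lit 380) (nat_lit 0) (XT.nd (nat_lit 78) (nat_lit 228) (nat_lit 0) (XT.lf (nat_lit 0) (nat_lit 26188425578) (nat_lit 76)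 (nat_lit 5316406795) (nat_lit 76) (nat_lit 2978180714) (nat_lit 25) (nat_lit 4) (nat_lit 26) (nat_lit 5) (nat_lit 26) (nat_lit 4) (nat_lit 480) (nat_lit 367) (nat_lit 353)) (XT.nd (nat_lit 78) (nat_lit 76) (nat_lit 0) (XT.lf (nat_lit 0) (nat_lit 12353706323) (nat_lit 152) (nat_lit 13411561850) (nat_lit 0) (nat_lit 9973269003) (nat_lit 23) (nat_lit 5) (nat_lit 25) (nat_lit 4) (nat_lit 23) (nat_lit 4) (nat_lit 481) (nat_lit 367) (nat_lit 352)) (XT.lf (nat_lit 0) (nat_lit 17100785210) (nat_lit 76) (nat_lit 11221360772) (nat_lit 76) (nat_lit 8735861632) (nat_lit 22) (nat_lit 4) (nat_lit 23) (nat_lit 5) (nat_lit 23) (nat_lit 4) (nat_lit 482) (nat_lit 367) (nat_lit 351)))) (XT.nd (nat_lit 156) (nat_lit 152) (nat_lit 0) (XT.nd (nat_lit 78) (nat_lit 76) (nat_lit 0) (XT.lf (nat_lit 0) (nat_lit 6427443403) (nat_lit 152) (nat_lit 28099553053) (nat_lit 0) (nat_lit 3917192902) (nat_lit 20) (nat_lit 5) (nat_lit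 22) (nat_lit 4) (nat_lit 20) (nat_lit 4) (nat_lit 483) (nat_lit 367) (nat_lit 350)) (XT.lf (nat_lit 0) (nat_lit 1797602264) (nat_lit 76) (nat_lit 20351415065) (nat_lit 76) (nat_lit 17748645955) (nat_lit 19) (nat_lit 4) (nat_lit 20) (nat_lit 5) (nat_lit 20) (nat_lit 4) (nat_lit 484) (nat_lit 367) (nat_lit 349))) (XT.nd (nat_lit 78) (nat_lit 152) (nat_lit 0) (XT.lf (nat_lit 0) (nat_lit 33078300440) (nat_lit 76) (nat_lit 5519086066) (nat_lit 76) (nat_lit 2828203994) (nat_lit 19) (nat_lit 4) (nat_lit 20) (nat_lit 5) (nat_lit 20) (nat_lit 4) (nat_lit 485) (nat_lit 367) (nat_lit 348)) (XT.lf (nat_lit 0) (nat_lit 12565934353) (nat_lit 152) (nat_lit 20588978038) (nat_lit 0) (nat_lit 9871954569) (nat_lit 17) (nat_lit 5) (nat_lit 19) (nat_lit 4) (nat_lit 17) (nat_lit 4) (nat_lit 486) (nat_lit 367) (nat_lit 347))))) (XT.nd (nat_lit 234) (nat_lit 228) (nat_lit 0) (XT.nd (nat_lit 78) (nat_lit 152) (nat_lit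 0) (XT.lf (nat_lit 0) (nat_lit 9675548575) (nat_lit 76) (nat_lit 18903086103) (nat_lit 76) (nat_lit 16131513063) (nat_lit 16) (nat_lit 4) (nat_lit 17) (nat_lit 5) (nat_lit 17) (nat_lit 4) (nat_lit 487) (nat_lit 367) (nat_lit 346)) (XT.nd (nat_lit 78) (nat_lit 152) (nat_lit 0) (XT.lf (nat_lit 0) (nat_lit 41243163395) (nat_lit 76) (nat_lit 4041559438) (nat_lit 76) (nat_lit 1196088060) (nat_lit 16) (nat_lit 4) (nat_lit 17) (nat_lit 5) (nat_lit 17) (nat_lit 4) (nat_lit 488) (nat_lit 367) (nat_lit 345)) (XT.lf (nat_lit 0) (nat_lit 14256422560) (nat_lit 152) (nat_lit 22652318790) (nat_lit 0) (nat_lit 11425499503) (nat_lit 14) (nat_lit 5) (nat_lit 16) (nat_lit 4) (nat_lit 14) (nat_lit 4) (nat_lit 489) (nat_lit 367) (nat_lit 344)))) (XT.nd (nat_lit 156) (nat_lit 152) (nat_lit 0) (XT.nd (nat_lit 78) (nat_lit 0) (nat_lit 0) (XT.lf (nat_lit 0) (nat_lit 7466083358) (nat_lit 76) (nat_lit 22856958322) (nat_lit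 76) (nat_lit 19960959564) (nat_lit 13) (nat_lit 4) (nat_lit 14) (nat_lit 5) (nat_lit 14) (nat_lit 4) (nat_lit 490) (nat_lit 367) (nat_lit 343)) (XT.lf (nat_lit 0) (nat_lit 38976692724) (nat_lit 76) (nat_lit 8157153835) (nat_lit 76) (nat_lit 5199178219) (nat_lit 13) (nat_lit 4) (nat_lit 14) (nat_lit 5) (nat_lit 14) (nat_lit 4) (nat_lit 491) (nat_lit 367) (nat_lit 342))) (XT.nd (nat_lit 78) (nat_lit 0) (nat_lit 0) (XT.lf (nat_lit 0) (nat_lit 10054204086) (nat_lit 152) (nat_lit 37303613436) (nat_lit 0) (nat_lit 7125076713) (nat_lit 11) (nat_lit 5) (nat_lit 13) (nat_lit 4) (nat_lit 11) (nat_lit 4) (nat_lit 492) (nat_lit 367) (nat_lit 341)) (XT.lf (nat_lit 0) (nat_lit 25909213607) (nat_lit 152) (nat_lit 7905596651) (nat_lit 0) (nat_lit 22925508721) (nat_lit 11) (nat_lit 5) (nat_lit 13) (nat_lit 4) (nat_lit 11) (nat_lit 4) (nat_lit 493) (nat_lit 367) (nat_lit 340))))))))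
noncomputable def xc6 : XT := (XT.nd (nat_lit 61620) (nat_lit 0) (nat_lit 152) (XT.nd (nat_lit 60606) (nat_lit 0) (nat_lit 1292) (XT.nd (nat_lit 468) (nat_lit 152) (nat_lit 0) (XT.nd (nat_lit 234) (nat_lit 76) (nat_lit 0) (XT.nd (nat_lit 78) (nat_lit 152) (nat_lit 0) (XT.lf (nat_lit 0) (nat_lit 22881122092) (nat_lit 76) (nat_lit 19633227844) (nat_lit 76) (nat_lit 16597544376) (nat_lit 10) (nat_lit 4) (nat_lit 11) (nat_lit 5) (nat_lit 11) (nat_lit 4) (nat_lit 494) (nat_lit 367) (nat_lit 339)) (XT.nd (nat_lit 78) (nat_lit 152) (nat_lit 0) (XT.lf (nat_lit 0) (nat_lit 54859814689) (nat_lit 76) (nat_lit 4916314812) (nat_lit 76) (nat_lit 1831127932) (nat_lit 10) (nat_lit 4) (nat_lit 11) (nat_lit 5) (nat_lit 11) (nat_lit 4) (nat_lit 495) (nat_lit 367) (nat_lit 338)) (XT.lf (nat_lit 0) (nat_lit 13495253623) (nat_lit 152) (nat_lit 40271384873) (nat_lit 0) (nat_lit 10454153637) (nat_lit 8) (nat_lit 5) (nat_lit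 10) (nat_lit 4) (nat_lit 8) (nat_lit 4) (nat_lit 496) (nat_lit 367) (nat_lit 337)))) (XT.nd (nat_lit 78) (nat_lit 76) (nat_lit 0) (XT.lf (nat_lit 0) (nat_lit 29429708207) (nat_lit 152) (nat_lit 11193348302) (nat_lit 0) (nat_lit 26345014965) (nat_lit 8) (nat_lit 5) (nat_lit 10) (nat_lit 4) (nat_lit 8) (nat_lit 4) (nat_lit 497) (nat_lit 367) (nat_lit 336)) (XT.nd (nat_lit 78) (nat_lit 0) (nat_lit 0) (XT.lf (nat_lit 0) (nat_lit 19253593540) (nat_lit 76) (nat_lit 26863325687) (nat_lit 76) (nat_lit 23737115057) (nat_lit 7) (nat_lit 4) (nat_lit 8) (nat_lit 5) (nat_lit 8) (nat_lit 4) (nat_lit 498) (nat_lit 367) (nat_lit 335)) (XT.lf (nat_lit 0) (nat_lit 51009292993) (nat_lit 76) (nat_lit 12521985056) (nat_lit 76) (nat_lit 9356234058) (nat_lit 7) (nat_lit 4) (nat_lit 8) (nat_lit 5) (nat_lit 8) (nat_lit 4) (nat_lit 499) (nat_lit 367) (nat_lit 334))))) (XT.nd (nat_lit 59826) (nat_lit 0) (nat_lit 2736) (XT.nd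 (nat_lit 59670) (nat_lit 0) (nat_lit 3344) (XT.lf (nat_lit 0) (nat_lit 5517686827) (nat_lit 152) (nat_lit 68149157318) (nat_lit 0) (nat_lit 2407581495) (nat_lit 5) (nat_lit 5) (nat_lit 7) (nat_lit 4) (nat_lit 5) (nat_lit 4) (nat_lit 500) (nat_lit 367) (nat_lit 333)) (XT.nd (nat_lit 78) (nat_lit 228) (nat_lit 0) (XT.lf (nat_lit 0) (nat_lit 8182537037) (nat_lit 76) (nat_lit 1091381617) (nat_lit 76) (nat_lit 1091381617) (nat_lit 52) (nat_lit 4) (nat_lit 53) (nat_lit 5) (nat_lit 53) (nat_lit 4) (nat_lit 464) (nat_lit 368) (nat_lit 368)) (XT.lf (nat_lit 0) (nat_lit 2447808901) (nat_lit 76) (nat_lit 9590555497) (nat_lit 76) (nat_lit 9291323020) (nat_lit 49) (nat_lit 4) (nat_lit 50) (nat_lit 5) (nat_lit 50) (nat_lit 4) (nat_lit 465) (nat_lit 368) (nat_lit 367)))) (XT.nd (nat_lit 156) (nat_lit 380) (nat_lit 0) (XT.nd (nat_lit 78) (nat_lit 76) (nat_lit 0) (XT.lf (nat_lit 0) (nat_lit 4855969582) (nat_lit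 152) (nat_lit 12812344634) (nat_lit 0) (nat_lit 4288769788) (nat_lit 47) (nat_lit 5) (nat_lit 49) (nat_lit 4) (nat_lit 47) (nat_lit 4) (nat_lit 466) (nat_lit 368) (nat_lit 366)) (XT.lf (nat_lit 0) (nat_lit 15551068256) (nat_lit 76) (nat_lit 3946677274) (nat_lit 76) (nat_lit 3115970026) (nat_lit 46) (nat_lit 4) (nat_lit 47) (nat_lit 5) (nat_lit 47) (nat_lit 4) (nat_lit 467) (nat_lit 368) (nat_lit 365))) (XT.nd (nat_lit 78) (nat_lit 228) (nat_lit 0) (XT.lf (nat_lit 0) (nat_lit 11329396250) (nat_lit 152) (nat_lit 1691613792) (nat_lit 0) (nat_lit 10279234379) (nat_lit 44) (nat_lit 5) (nat_lit 46) (nat_lit 4) (nat_lit 44) (nat_lit 4) (nat_lit 468) (nat_lit 368) (nat_lit 364)) (XT.lf (nat_lit 0) (nat_lit 2339123647) (nat_lit 152) (nat_lit 20586884018) (nat_lit 0) (nat_lit 1094260083) (nat_lit 41) (nat_lit 5) (nat_lit 43) (nat_lit 4) (nat_lit 41) (nat_lit 4) (nat_lit 469) (nat_lit 368) (nat_lit 363))))))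 (XT.nd (nat_lit 468) (nat_lit 760) (nat_lit 0) (XT.nd (nat_lit 234) (nat_lit 380) (nat_lit 0) (XT.nd (nat_lit 78) (nat_lit 228) (nat_lit 0) (XT.lf (nat_lit 0) (nat_lit 8080111055) (nat_lit 76) (nat_lit 9075448187) (nat_lit 76) (nat_lit 7616023735) (nat_lit 40) (nat_lit 4) (nat_lit 41) (nat_lit 5) (nat_lit 41) (nat_lit 4) (nat_lit 470) (nat_lit 368) (nat_lit 362)) (XT.nd (nat_lit 78) (nat_lit 76) (nat_lit 0) (XT.lf (nat_lit 0) (nat_lit 6955890141) (nat_lit 152) (nat_lit 13263639274) (nat_lit 0) (nat_lit 5340581253) (nat_lit 38) (nat_lit 5) (nat_lit 40) (nat_lit 4) (nat_lit 38) (nat_lit 4) (nat_lit 471) (nat_lit 368) (nat_lit 361)) (XT.lf (nat_lit 0) (nat_lit 15981382553) (nat_lit 76) (nat_lit 6104532575) (nat_lit 76) (nat_lit 4300278978) (nat_lit 37) (nat_lit 4) (nat_lit 38) (nat_lit 5) (nat_lit 38) (nat_lit 4) (nat_lit 472) (nat_lit 368) (nat_lit 360)))) (XT.nd (nat_lit 78) (nat_lit 228) (nat_lit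 0) (XT.lf (nat_lit 0) (nat_lit 10490796549) (nat_lit 152) (nat_lit 8195875353) (nat_lit 0) (nat_lit 8564387871) (nat_lit 35) (nat_lit 5) (nat_lit 37) (nat_lit 4) (nat_lit 35) (nat_lit 4) (nat_lit 473) (nat_lit 368) (nat_lit 359)) (XT.nd (nat_lit 78) (nat_lit 152) (nat_lit 0) (XT.lf (nat_lit 0) (nat_lit 21535735590) (nat_lit 76) (nat_lit 4358057140) (nat_lit 76) (nat_lit 2265261646) (nat_lit 34) (nat_lit 4) (nat_lit 35) (nat_lit 5) (nat_lit 35) (nat_lit 4) (nat_lit 474) (nat_lit 368) (nat_lit 358)) (XT.lf (nat_lit 0) (nat_lit 12706103207) (nat_lit 152) (nat_lit 5882064820) (nat_lit 0) (nat_lit 10520414732) (nat_lit 32) (nat_lit 5) (nat_lit 34) (nat_lit 4) (nat_lit 32) (nat_lit 4) (nat_lit 475) (nat_lit 368) (nat_lit 357))))) (XT.nd (nat_lit 234) (nat_lit 456) (nat_lit 0) (XT.nd (nat_lit 78) (nat_lit 228) (nat_lit 0) (XT.lf (nat_lit 0) (nat_lit 24211338930) (nat_lit 76) (nat_lit 4113706208) (nat_lit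 76) (nat_lit 1781495648) (nat_lit 31) (nat_lit 4) (nat_lit 32) (nat_lit 5) (nat_lit 32) (nat_lit 4) (nat_lit 476) (nat_lit 368) (nat_lit 356)) (XT.nd (nat_lit 78) (nat_lit 76) (nat_lit 0) (XT.lf (nat_lit 0) (nat_lit 13315486163) (nat_lit 152) (nat_lit 6918982381) (nat_lit 0) (nat_lit 10915723637) (nat_lit 29) (nat_lit 5) (nat_lit 31) (nat_lit 4) (nat_lit 29) (nat_lit 4) (nat_lit 477) (nat_lit 368) (nat_lit 355)) (XT.lf (nat_lit 0) (nat_lit 23371261857) (nat_lit 76) (nat_lit 5702366782) (nat_lit 76) (nat_lit 3173575275) (nat_lit 28) (nat_lit 4) (nat_lit 29) (nat_lit 5) (nat_lit 29) (nat_lit 4) (nat_lit 478) (nat_lit 368) (nat_lit 354)))) (XT.nd (nat_lit 156) (nat_lit 228) (nat_lit 0) (XT.nd (nat_lit 78) (nat_lit 76) (nat_lit 0) (XT.lf (nat_lit 0) (nat_lit 11975433046) (nat_lit 152) (nat_lit 12019321743) (nat_lit 0) (nat_lit 9400990085) (nat_lit 26) (nat_lit 5) (nat_lit 28) (nat_lit 4) (nat_lit 26)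 (nat_lit 4) (nat_lit 479) (nat_lit 368) (nat_lit 353)) (XT.lf (nat_lit 0) (nat_lit 18254620598) (nat_lit 76) (nat_lit 9517767225) (nat_lit 76) (nat_lit 6829699905) (nat_lit 25) (nat_lit 4) (nat_lit 26) (nat_lit 5) (nat_lit 26) (nat_lit 4) (nat_lit 480) (nat_lit 368) (nat_lit 352))) (XT.nd (nat_lit 78) (nat_lit 76) (nat_lit 0) (XT.lf (nat_lit 0) (nat_lit 8275131592) (nat_lit 152) (nat_lit 22032362256) (nat_lit 0) (nat_lit 5560295675) (nat_lit 23) (nat_lit 5) (nat_lit 25) (nat_lit 4) (nat_lit 23) (nat_lit 4) (nat_lit 481) (nat_lit 368) (nat_lit 351)) (XT.lf (nat_lit 0) (nat_lit 7954458997) (nat_lit 76) (nat_lit 16027768339) (nat_lit 76) (nat_lit 13212873546) (nat_lit 22) (nat_lit 4) (nat_lit 23) (nat_lit 5) (nat_lit 23) (nat_lit 4) (nat_lit 482) (nat_lit 368) (nat_lit 350))))))) (XT.nd (nat_lit 1014) (nat_lit 228) (nat_lit 0) (XT.nd (nat_lit 468) (nat_lit 456) (nat_lit 0) (XT.nd (nat_lit 234) (nat_lit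 228) (nat_lit 0) (XT.nd (nat_lit 78) (nat_lit 76) (nat_lit 0) (XT.lf (nat_lit 0) (nat_lit 612645149) (nat_lit 76) (nat_lit 1122741111) (nat_lit 152) (nat_lit 36856260235) (nat_lit 20) (nat_lit 5) (nat_lit 21) (nat_lit 5) (nat_lit 22) (nat_lit 4) (nat_lit 483) (nat_lit 368) (nat_lit 349)) (XT.nd (nat_lit 78) (nat_lit 76) (nat_lit 0) (XT.lf (nat_lit 0) (nat_lit 17262142198) (nat_lit 152) (nat_lit 8440220233) (nat_lit 0) (nat_lit 14348603061) (nat_lit 20) (nat_lit 5) (nat_lit 22) (nat_lit 4) (nat_lit 20) (nat_lit 4) (nat_lit 484) (nat_lit 368) (nat_lit 348)) (XT.lf (nat_lit 0) (nat_lit 22347988619) (nat_lit 76) (nat_lit 11117850504) (nat_lit 76) (nat_lit 8120394261) (nat_lit 19) (nat_lit 4) (nat_lit 20) (nat_lit 5) (nat_lit 20) (nat_lit 4) (nat_lit 485) (nat_lit 368) (nat_lit 347)))) (XT.nd (nat_lit 78) (nat_lit 76) (nat_lit 0) (XT.lf (nat_lit 0) (nat_lit 7055027898) (nat_lit 152) (nat_lit 32076385193)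 (nat_lit 0) (nat_lit 4067282950) (nat_lit 17) (nat_lit 5) (nat_lit 19) (nat_lit 4) (nat_lit 17) (nat_lit 4) (nat_lit 486) (nat_lit 368) (nat_lit 346)) (XT.nd (nat_lit 78) (nat_lit 76) (nat_lit 0) (XT.lf (nat_lit 0) (nat_lit 22822020075) (nat_lit 152) (nat_lit 2306951649) (nat_lit 0) (nat_lit 19760376789) (nat_lit 17) (nat_lit 5) (nat_lit 19) (nat_lit 4) (nat_lit 17) (nat_lit 4) (nat_lit 487) (nat_lit 368) (nat_lit 345)) (XT.lf (nat_lit 0) (nat_lit 28917241732) (nat_lit 76) (nat_lit 10439960103) (nat_lit 76) (nat_lit 7307937446) (nat_lit 16) (nat_lit 4) (nat_lit 17) (nat_lit 5) (nat_lit 17) (nat_lit 4) (nat_lit 488) (nat_lit 368) (nat_lit 344))))) (XT.nd (nat_lit 234) (nat_lit 228) (nat_lit 0) (XT.nd (nat_lit 78) (nat_lit 76) (nat_lit 0) (XT.lf (nat_lit 0) (nat_lit 7931628246) (nat_lit 152) (nat_lit 35772916337) (nat_lit 0) (nat_lit 4825753849) (nat_lit 14) (nat_lit 5) (nat_lit 16) (nat_lit 4) (nat_lit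 14) (nat_lit 4) (nat_lit 489) (nat_lit 368) (nat_lit 343)) (XT.nd (nat_lit 78) (nat_lit 76) (nat_lit 0) (XT.lf (nat_lit 0) (nat_lit 23786631263) (nat_lit 152) (nat_lit 6080996409) (nat_lit 0) (nat_lit 20618780008) (nat_lit 14) (nat_lit 5) (nat_lit 16) (nat_lit 4) (nat_lit 14) (nat_lit 4) (nat_lit 490) (nat_lit 368) (nat_lit 342)) (XT.lf (nat_lit 0) (nat_lit 25035846008) (nat_lit 76) (nat_lit 15366162611) (nat_lit 76) (nat_lit 12139285777) (nat_lit 13) (nat_lit 4) (nat_lit 14) (nat_lit 5) (nat_lit 14) (nat_lit 4) (nat_lit 491) (nat_lit 368) (nat_lit 341)))) (XT.nd (nat_lit 156) (nat_lit 76) (nat_lit 0) (XT.nd (nat_lit 78) (nat_lit 0) (nat_lit 0) (XT.lf (nat_lit 0) (nat_lit 2620982071) (nat_lit 76) (nat_lit 287428638) (nat_lit 152) (nat_lit 51794988220) (nat_lit 11) (nat_lit 5) (nat_lit 12) (nat_lit 5) (nat_lit 13) (nat_lit 4) (nat_lit 492) (nat_lit 368) (nat_lit 340)) (XT.lf (nat_lit 0) (nat_lit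 18632573871) (nat_lit 152) (nat_lit 22939047859) (nat_lit 0) (nat_lit 15393127648) (nat_lit 11) (nat_lit 5) (nat_lit 13) (nat_lit 4) (nat_lit 11) (nat_lit 4) (nat_lit 493) (nat_lit 368) (nat_lit 339))) (XT.nd (nat_lit 78) (nat_lit 0) (nat_lit 0) (XT.lf (nat_lit 0) (nat_lit 7298443629) (nat_lit 76) (nat_lit 27667492125) (nat_lit 76) (nat_lit 24378542490) (nat_lit 10) (nat_lit 4) (nat_lit 11) (nat_lit 5) (nat_lit 11) (nat_lit 4) (nat_lit 494) (nat_lit 368) (nat_lit 338)) (XT.lf (nat_lit 0) (nat_lit 39039010417) (nat_lit 76) (nat_lit 13070240453) (nat_lit 76) (nat_lit 9734144711) (nat_lit 10) (nat_lit 4) (nat_lit 11) (nat_lit 5) (nat_lit 11) (nat_lit 4) (nat_lit 495) (nat_lit 368) (nat_lit 337)))))) (XT.nd (nat_lit 59982) (nat_lit 0) (nat_lit 2508) (XT.nd (nat_lit 234) (nat_lit 0) (nat_lit 0) (XT.nd (nat_lit 78) (nat_lit 76) (nat_lit 0) (XT.lf (nat_lit 0) (nat_lit 5391777997) (nat_lit 152) (nat_lit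 56968815027) (nat_lit 0) (nat_lit 2109256836) (nat_lit 8) (nat_lit 5) (nat_lit 10) (nat_lit 4) (nat_lit 8) (nat_lit 4) (nat_lit 496) (nat_lit 368) (nat_lit 336)) (XT.nd (nat_lit 78) (nat_lit 76) (nat_lit 0) (XT.lf (nat_lit 0) (nat_lit 21214503989) (nat_lit 152) (nat_lit 28115511878) (nat_lit 0) (nat_lit 17890465441) (nat_lit 8) (nat_lit 5) (nat_lit 10) (nat_lit 4) (nat_lit 8) (nat_lit 4) (nat_lit 497) (nat_lit 368) (nat_lit 335)) (XT.lf (nat_lit 0) (nat_lit 1776354245) (nat_lit 76) (nat_lit 35850950666) (nat_lit 76) (nat_lit 32487371749) (nat_lit 7) (nat_lit 4) (nat_lit 8) (nat_lit 5) (nat_lit 8) (nat_lit 4) (nat_lit 498) (nat_lit 368) (nat_lit 334)))) (XT.nd (nat_lit 59592) (nat_lit 0) (nat_lit 3496) (XT.nd (nat_lit 78) (nat_lit 0) (nat_lit 0) (XT.lf (nat_lit 0) (nat_lit 33324157047) (nat_lit 76) (nat_lit 21614167130) (nat_lit 76) (nat_lit 18212930720) (nat_lit 7) (nat_lit 4) (nat_lit 8) (nat_lit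 5) (nat_lit 8) (nat_lit 4) (nat_lit 499) (nat_lit 368) (nat_lit 333)) (XT.lf (nat_lit 0) (nat_lit 66043456528) (nat_lit 76) (nat_lit 6869679698) (nat_lit 76) (nat_lit 3432579008) (nat_lit 7) (nat_lit 4) (nat_lit 8) (nat_lit 5) (nat_lit 8) (nat_lit 4) (nat_lit 500) (nat_lit 368) (nat_lit 332))) (XT.nd (nat_lit 78) (nat_lit 152) (nat_lit 0) (XT.lf (nat_lit 0) (nat_lit 708181943) (nat_lit 76) (nat_lit 4546102694) (nat_lit 76) (nat_lit 4546102694) (nat_lit 55) (nat_lit 4) (nat_lit 56) (nat_lit 5) (nat_lit 56) (nat_lit 4) (nat_lit 462) (nat_lit 369) (nat_lit 369)) (XT.lf (nat_lit 0) (nat_lit 4540009573) (nat_lit 152) (nat_lit 11399836153) (nat_lit 0) (nat_lit 4216389650) (nat_lit 53) (nat_lit 5) (nat_lit 55) (nat_lit 4) (nat_lit 53) (nat_lit 4) (nat_lit 463) (nat_lit 369) (nat_lit 368))))) (XT.nd (nat_lit 234) (nat_lit 532) (nat_lit 0) (XT.nd (nat_lit 78) (nat_lit 380) (nat_lit 0) (XT.lf (nat_lit 0)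 (nat_lit 15918967516) (nat_lit 76) (nat_lit 2725142341) (nat_lit 76) (nat_lit 2093312967) (nat_lit 52) (nat_lit 4) (nat_lit 53) (nat_lit 5) (nat_lit 53) (nat_lit 4) (nat_lit 464) (nat_lit 369) (nat_lit 367)) (XT.nd (nat_lit 78) (nat_lit 152) (nat_lit 0) (XT.lf (nat_lit 0) (nat_lit 1522877817) (nat_lit 76) (nat_lit 10359661791) (nat_lit 76) (nat_lit 9461251903) (nat_lit 49) (nat_lit 4) (nat_lit 50) (nat_lit 5) (nat_lit 50) (nat_lit 4) (nat_lit 465) (nat_lit 369) (nat_lit 366)) (XT.lf (nat_lit 0) (nat_lit 4445792132) (nat_lit 152) (nat_lit 14222711426) (nat_lit 0) (nat_lit 3310042069) (nat_lit 47) (nat_lit 5) (nat_lit 49) (nat_lit 4) (nat_lit 47) (nat_lit 4) (nat_lit 466) (nat_lit 369) (nat_lit 365)))) (XT.nd (nat_lit 156) (nat_lit 304) (nat_lit 0) (XT.nd (nat_lit 78) (nat_lit 152) (nat_lit 0) (XT.lf (nat_lit 0) (nat_lit 13678076043) (nat_lit 76) (nat_lit 5175417219) (nat_lit 76) (nat_lit 3788707676)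 (nat_lit 46) (nat_lit 4) (nat_lit 47) (nat_lit 5) (nat_lit 47) (nat_lit 4) (nat_lit 467) (nat_lit 369) (nat_lit 364)) (XT.lf (nat_lit 0) (nat_lit 10421188332) (nat_lit 152) (nat_lit 4072374022) (nat_lit 0) (nat_lit 8842820788) (nat_lit 44) (nat_lit 5) (nat_lit 46) (nat_lit 4) (nat_lit 44) (nat_lit 4) (nat_lit 468) (nat_lit 369) (nat_lit 363))) (XT.nd (nat_lit 78) (nat_lit 76) (nat_lit 0) (XT.lf (nat_lit 0) (nat_lit 508713399) (nat_lit 76) (nat_lit 628271161) (nat_lit 152) (nat_lit 22927982134) (nat_lit 41) (nat_lit 5) (nat_lit 42) (nat_lit 5) (nat_lit 43) (nat_lit 4) (nat_lit 469) (nat_lit 369) (nat_lit 362)) (XT.lf (nat_lit 0) (nat_lit 4634631904) (nat_lit 76) (nat_lit 11070204514) (nat_lit 76) (nat_lit 9118904249) (nat_lit 40) (nat_lit 4) (nat_lit 41) (nat_lit 5) (nat_lit 41) (nat_lit 4) (nat_lit 470) (nat_lit 369) (nat_lit 361))))))))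
noncomputable def xc7 : XT := (XT.nd (nat_lit 2028) (nat_lit 228) (nat_lit 0) (XT.nd (nat_lit 1014) (nat_lit 912) (nat_lit 0) (XT.nd (nat_lit 468) (nat_lit 684) (nat_lit 0) (XT.nd (nat_lit 234) (nat_lit 304) (nat_lit 0) (XT.nd (nat_lit 78) (nat_lit 228) (nat_lit 0) (XT.lf (nat_lit 0) (nat_lit 5217220888) (nat_lit 152) (nat_lit 17269625569) (nat_lit 0) (nat_lit 3133809902) (nat_lit 38) (nat_lit 5) (nat_lit 40) (nat_lit 4) (nat_lit 38) (nat_lit 4) (nat_lit 471) (nat_lit 369) (nat_lit 360)) (XT.nd (nat_lit 78) (nat_lit 152) (nat_lit 0) (XT.lf (nat_lit 0) (nat_lit 11488180414) (nat_lit 76) (nat_lit 8614625989) (nat_lit 76) (nat_lit 6351267662) (nat_lit 37) (nat_lit 4) (nat_lit 38) (nat_lit 5) (nat_lit 38) (nat_lit 4) (nat_lit 472) (nat_lit 369) (nat_lit 359)) (XT.lf (nat_lit 0) (nat_lit 8207458592) (nat_lit 152) (nat_lit 13276608244) (nat_lit 0) (nat_lit 5843636506) (nat_lit 35) (nat_lit 5) (nat_lit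 37) (nat_lit 4) (nat_lit 35) (nat_lit 4) (nat_lit 473) (nat_lit 369) (nat_lit 358)))) (XT.nd (nat_lit 78) (nat_lit 228) (nat_lit 0) (XT.lf (nat_lit 0) (nat_lit 15961523545) (nat_lit 76) (nat_lit 7401935474) (nat_lit 76) (nat_lit 4879649754) (nat_lit 34) (nat_lit 4) (nat_lit 35) (nat_lit 5) (nat_lit 35) (nat_lit 4) (nat_lit 474) (nat_lit 369) (nat_lit 357)) (XT.nd (nat_lit 78) (nat_lit 76) (nat_lit 0) (XT.lf (nat_lit 0) (nat_lit 9862251609) (nat_lit 152) (nat_lit 12072646317) (nat_lit 0) (nat_lit 7266908437) (nat_lit 32) (nat_lit 5) (nat_lit 34) (nat_lit 4) (nat_lit 32) (nat_lit 4) (nat_lit 475) (nat_lit 369) (nat_lit 356)) (XT.lf (nat_lit 0) (nat_lit 17519775384) (nat_lit 76) (nat_lit 7711192320) (nat_lit 76) (nat_lit 4976304305) (nat_lit 31) (nat_lit 4) (nat_lit 32) (nat_lit 5) (nat_lit 32) (nat_lit 4) (nat_lit 476) (nat_lit 369) (nat_lit 355))))) (XT.nd (nat_lit 234) (nat_lit 304) (nat_lit 0)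 (XT.nd (nat_lit 78) (nat_lit 228) (nat_lit 0) (XT.lf (nat_lit 0) (nat_lit 9893552386) (nat_lit 152) (nat_lit 14257684806) (nat_lit 0) (nat_lit 7109292323) (nat_lit 29) (nat_lit 5) (nat_lit 31) (nat_lit 4) (nat_lit 29) (nat_lit 4) (nat_lit 477) (nat_lit 369) (nat_lit 354)) (XT.nd (nat_lit 78) (nat_lit 152) (nat_lit 0) (XT.lf (nat_lit 0) (nat_lit 15522788662) (nat_lit 76) (nat_lit 9874761242) (nat_lit 76) (nat_lit 6967616435) (nat_lit 28) (nat_lit 4) (nat_lit 29) (nat_lit 5) (nat_lit 29) (nat_lit 4) (nat_lit 478) (nat_lit 369) (nat_lit 353)) (XT.lf (nat_lit 0) (nat_lit 7956061512) (nat_lit 152) (nat_lit 20547755098) (nat_lit 0) (nat_lit 5019966468) (nat_lit 26) (nat_lit 5) (nat_lit 28) (nat_lit 4) (nat_lit 26) (nat_lit 4) (nat_lit 479) (nat_lit 369) (nat_lit 352)))) (XT.nd (nat_lit 156) (nat_lit 76) (nat_lit 0) (XT.nd (nat_lit 78) (nat_lit 152) (nat_lit 0) (XT.lf (nat_lit 0) (nat_lit 9206292153)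 (nat_lit 76) (nat_lit 14287953141) (nat_lit 76) (nat_lit 11243644422) (nat_lit 25) (nat_lit 4) (nat_lit 26) (nat_lit 5) (nat_lit 26) (nat_lit 4) (nat_lit 480) (nat_lit 369) (nat_lit 351)) (XT.lf (nat_lit 0) (nat_lit 3637109270) (nat_lit 152) (nat_lit 31795651161) (nat_lit 0) (nat_lit 581410862) (nat_lit 23) (nat_lit 5) (nat_lit 25) (nat_lit 4) (nat_lit 23) (nat_lit 4) (nat_lit 481) (nat_lit 369) (nat_lit 350))) (XT.nd (nat_lit 78) (nat_lit 76) (nat_lit 0) (XT.lf (nat_lit 0) (nat_lit 19102576336) (nat_lit 152) (nat_lit 2294571993) (nat_lit 0) (nat_lit 15951583759) (nat_lit 23) (nat_lit 5) (nat_lit 25) (nat_lit 4) (nat_lit 23) (nat_lit 4) (nat_lit 482) (nat_lit 369) (nat_lit 349)) (XT.lf (nat_lit 0) (nat_lit 28594232866) (nat_lit 76) (nat_lit 6699483065) (nat_lit 76) (nat_lit 3457734139) (nat_lit 22) (nat_lit 4) (nat_lit 23) (nat_lit 5) (nat_lit 23) (nat_lit 4) (nat_lit 483) (nat_lit 369) (nat_lit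 348)))))) (XT.nd (nat_lit 468) (nat_lit 380) (nat_lit 0) (XT.nd (nat_lit 234) (nat_lit 228) (nat_lit 0) (XT.nd (nat_lit 78) (nat_lit 152) (nat_lit 0) (XT.lf (nat_lit 0) (nat_lit 11823515500) (nat_lit 152) (nat_lit 19805371246) (nat_lit 0) (nat_lit 8592269338) (nat_lit 20) (nat_lit 5) (nat_lit 22) (nat_lit 4) (nat_lit 20) (nat_lit 4) (nat_lit 484) (nat_lit 369) (nat_lit 347)) (XT.nd (nat_lit 78) (nat_lit 76) (nat_lit 0) (XT.lf (nat_lit 0) (nat_lit 10447589396) (nat_lit 76) (nat_lit 17313985698) (nat_lit 76) (nat_lit 14002818483) (nat_lit 19) (nat_lit 4) (nat_lit 20) (nat_lit 5) (nat_lit 20) (nat_lit 4) (nat_lit 485) (nat_lit 369) (nat_lit 346)) (XT.lf (nat_lit 0) (nat_lit 991881015) (nat_lit 152) (nat_lit 1373764041) (nat_lit 76) (nat_lit 41021773286) (nat_lit 18) (nat_lit 5) (nat_lit 20) (nat_lit 5) (nat_lit 19) (nat_lit 4) (nat_lit 486) (nat_lit 369) (nat_lit 345)))) (XT.nd (nat_lit 78) (nat_lit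 152) (nat_lit 0) (XT.lf (nat_lit 0) (nat_lit 16577102154) (nat_lit 152) (nat_lit 15288323223) (nat_lit 0) (nat_lit 13218098994) (nat_lit 17) (nat_lit 5) (nat_lit 19) (nat_lit 4) (nat_lit 17) (nat_lit 4) (nat_lit 487) (nat_lit 369) (nat_lit 344)) (XT.nd (nat_lit 78) (nat_lit 76) (nat_lit 0) (XT.lf (nat_lit 0) (nat_lit 15394173909) (nat_lit 76) (nat_lit 17449613826) (nat_lit 76) (nat_lit 14023582694) (nat_lit 16) (nat_lit 4) (nat_lit 17) (nat_lit 5) (nat_lit 17) (nat_lit 4) (nat_lit 488) (nat_lit 369) (nat_lit 343)) (XT.lf (nat_lit 0) (nat_lit 1040783140) (nat_lit 152) (nat_lit 1377077520) (nat_lit 76) (nat_lit 46325793330) (nat_lit 15) (nat_lit 5) (nat_lit 17) (nat_lit 5) (nat_lit 16) (nat_lit 4) (nat_lit 489) (nat_lit 369) (nat_lit 342))))) (XT.nd (nat_lit 234) (nat_lit 228) (nat_lit 0) (XT.nd (nat_lit 78) (nat_lit 76) (nat_lit 0) (XT.lf (nat_lit 0) (nat_lit 16725721634) (nat_lit 152) (nat_lit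 20700668515) (nat_lit 0) (nat_lit 13278475380) (nat_lit 14) (nat_lit 5) (nat_lit 16) (nat_lit 4) (nat_lit 14) (nat_lit 4) (nat_lit 490) (nat_lit 369) (nat_lit 341)) (XT.nd (nat_lit 78) (nat_lit 0) (nat_lit 0) (XT.lf (nat_lit 0) (nat_lit 9865458336) (nat_lit 76) (nat_lit 23202967763) (nat_lit 76) (nat_lit 19699506672) (nat_lit 13) (nat_lit 4) (nat_lit 14) (nat_lit 5) (nat_lit 14) (nat_lit 4) (nat_lit 491) (nat_lit 369) (nat_lit 340)) (XT.lf (nat_lit 0) (nat_lit 41885333077) (nat_lit 76) (nat_lit 8303501465) (nat_lit 76) (nat_lit 4746502434) (nat_lit 13) (nat_lit 4) (nat_lit 14) (nat_lit 5) (nat_lit 14) (nat_lit 4) (nat_lit 492) (nat_lit 369) (nat_lit 339)))) (XT.nd (nat_lit 156) (nat_lit 76) (nat_lit 0) (XT.nd (nat_lit 78) (nat_lit 0) (nat_lit 0) (XT.lf (nat_lit 0) (nat_lit 10742034521) (nat_lit 152) (nat_lit 39226735425) (nat_lit 0) (nat_lit 7239133992) (nat_lit 11) (nat_lit 5) (nat_lit 13) (nat_lit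 4) (nat_lit 11) (nat_lit 4) (nat_lit 493) (nat_lit 369) (nat_lit 338)) (XT.lf (nat_lit 0) (nat_lit 26889063863) (nat_lit 152) (nat_lit 9365141975) (nat_lit 0) (nat_lit 23339017227) (nat_lit 11) (nat_lit 5) (nat_lit 13) (nat_lit 4) (nat_lit 11) (nat_lit 4) (nat_lit 494) (nat_lit 369) (nat_lit 337))) (XT.nd (nat_lit 78) (nat_lit 0) (nat_lit 0) (XT.lf (nat_lit 0) (nat_lit 21962253640) (nat_lit 76) (nat_lit 21865486938) (nat_lit 76) (nat_lit 18270539248) (nat_lit 10) (nat_lit 4) (nat_lit 11) (nat_lit 5) (nat_lit 11) (nat_lit 4) (nat_lit 495) (nat_lit 369) (nat_lit 336)) (XT.lf (nat_lit 0) (nat_lit 54608949347) (nat_lit 76) (nat_lit 6880533625) (nat_lit 76) (nat_lit 3242823027) (nat_lit 10) (nat_lit 4) (nat_lit 11) (nat_lit 5) (nat_lit 11) (nat_lit 4) (nat_lit 496) (nat_lit 369) (nat_lit 335))))))) (XT.nd (nat_lit 60294) (nat_lit 0) (nat_lit 1216) (XT.nd (nat_lit 59748) (nat_lit 0) (nat_lit 2812) (XT.nd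 (nat_lit 234) (nat_lit 0) (nat_lit 0) (XT.nd (nat_lit 78) (nat_lit 76) (nat_lit 0) (XT.lf (nat_lit 0) (nat_lit 12370402787) (nat_lit 152) (nat_lit 46322548884) (nat_lit 0) (nat_lit 8799104556) (nat_lit 8) (nat_lit 5) (nat_lit 10) (nat_lit 4) (nat_lit 8) (nat_lit 4) (nat_lit 497) (nat_lit 369) (nat_lit 334)) (XT.nd (nat_lit 78) (nat_lit 76) (nat_lit 0) (XT.lf (nat_lit 0) (nat_lit 28664787180) (nat_lit 152) (nat_lit 16669185668) (nat_lit 0) (nat_lit 25055831455) (nat_lit 8) (nat_lit 5) (nat_lit 10) (nat_lit 4) (nat_lit 8) (nat_lit 4) (nat_lit 498) (nat_lit 369) (nat_lit 333)) (XT.lf (nat_lit 0) (nat_lit 14348870843) (nat_lit 76) (nat_lit 31365093589) (nat_lit 76) (nat_lit 27720273584) (nat_lit 7) (nat_lit 4) (nat_lit 8) (nat_lit 5) (nat_lit 8) (nat_lit 4) (nat_lit 499) (nat_lit 369) (nat_lit 332)))) (XT.nd (nat_lit 59358) (nat_lit 0) (nat_lit 3876) (XT.lf (nat_lit 0) (nat_lit 46879601934) (nat_lit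 76) (nat_lit 16715442524) (nat_lit 76) (nat_lit 13036466063) (nat_lit 7) (nat_lit 4) (nat_lit 8) (nat_lit 5) (nat_lit 8) (nat_lit 4) (nat_lit 500) (nat_lit 369) (nat_lit 331)) (XT.nd (nat_lit 78) (nat_lit 76) (nat_lit 0) (XT.lf (nat_lit 0) (nat_lit 1396555237) (nat_lit 152) (nat_lit 6483759710) (nat_lit 0) (nat_lit 1396555237) (nat_lit 59) (nat_lit 5) (nat_lit 61) (nat_lit 4) (nat_lit 59) (nat_lit 4) (nat_lit 460) (nat_lit 370) (nat_lit 370)) (XT.lf (nat_lit 0) (nat_lit 13144678032) (nat_lit 76) (nat_lit 3142559749) (nat_lit 76) (nat_lit 2782064953) (nat_lit 58) (nat_lit 4) (nat_lit 59) (nat_lit 5) (nat_lit 59) (nat_lit 4) (nat_lit 461) (nat_lit 370) (nat_lit 369))))) (XT.nd (nat_lit 234) (nat_lit 608) (nat_lit 0) (XT.nd (nat_lit 78) (nat_lit 228) (nat_lit 0) (XT.lf (nat_lit 0) (nat_lit 975320641) (nat_lit 76) (nat_lit 9657771827) (nat_lit 76) (nat_lit 8974448359) (nat_lit 55) (nat_lit 4) (nat_lit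 56) (nat_lit 5) (nat_lit 56) (nat_lit 4) (nat_lit 462) (nat_lit 370) (nat_lit 368)) (XT.nd (nat_lit 78) (nat_lit 76) (nat_lit 0) (XT.lf (nat_lit 0) (nat_lit 4422539285) (nat_lit 152) (nat_lit 12296509049) (nat_lit 0) (nat_lit 3450908991) (nat_lit 53) (nat_lit 5) (nat_lit 55) (nat_lit 4) (nat_lit 53) (nat_lit 4) (nat_lit 463) (nat_lit 370) (nat_lit 367)) (XT.lf (nat_lit 0) (nat_lit 14579585681) (nat_lit 76) (nat_lit 3721741668) (nat_lit 76) (nat_lit 2456578563) (nat_lit 52) (nat_lit 4) (nat_lit 53) (nat_lit 5) (nat_lit 53) (nat_lit 4) (nat_lit 464) (nat_lit 370) (nat_lit 366)))) (XT.nd (nat_lit 156) (nat_lit 228) (nat_lit 0) (XT.nd (nat_lit 78) (nat_lit 228) (nat_lit 0) (XT.lf (nat_lit 0) (nat_lit 11274450885) (nat_lit 152) (nat_lit 322762950) (nat_lit 0) (nat_lit 9774724514) (nat_lit 50) (nat_lit 5) (nat_lit 52) (nat_lit 4) (nat_lit 50) (nat_lit 4) (nat_lit 465) (nat_lit 370) (nat_lit 365)) (XT.lf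 (nat_lit 0) (nat_lit 3572161345) (nat_lit 152) (nat_lit 16577053580) (nat_lit 0) (nat_lit 1865156845) (nat_lit 47) (nat_lit 5) (nat_lit 49) (nat_lit 4) (nat_lit 47) (nat_lit 4) (nat_lit 466) (nat_lit 370) (nat_lit 364))) (XT.nd (nat_lit 78) (nat_lit 152) (nat_lit 0) (XT.lf (nat_lit 0) (nat_lit 10863014668) (nat_lit 76) (nat_lit 6884006314) (nat_lit 76) (nat_lit 4937992786) (nat_lit 46) (nat_lit 4) (nat_lit 47) (nat_lit 5) (nat_lit 47) (nat_lit 4) (nat_lit 467) (nat_lit 370) (nat_lit 363)) (XT.lf (nat_lit 0) (nat_lit 9042029277) (nat_lit 152) (nat_lit 7413370437) (nat_lit 0) (nat_lit 6931698040) (nat_lit 44) (nat_lit 5) (nat_lit 46) (nat_lit 4) (nat_lit 44) (nat_lit 4) (nat_lit 468) (nat_lit 370) (nat_lit 362)))))) (XT.nd (nat_lit 546) (nat_lit 684) (nat_lit 0) (XT.nd (nat_lit 234) (nat_lit 456) (nat_lit 0) (XT.nd (nat_lit 78) (nat_lit 380) (nat_lit 0) (XT.lf (nat_lit 0) (nat_lit 20769264861) (nat_lit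 76) (nat_lit 2837365553) (nat_lit 76) (nat_lit 516560302) (nat_lit 43) (nat_lit 4) (nat_lit 44) (nat_lit 5) (nat_lit 44) (nat_lit 4) (nat_lit 469) (nat_lit 370) (nat_lit 361)) (XT.nd (nat_lit 78) (nat_lit 152) (nat_lit 0) (XT.lf (nat_lit 0) (nat_lit 190683650) (nat_lit 76) (nat_lit 13574075787) (nat_lit 76) (nat_lit 11126253755) (nat_lit 40) (nat_lit 4) (nat_lit 41) (nat_lit 5) (nat_lit 41) (nat_lit 4) (nat_lit 470) (nat_lit 370) (nat_lit 360)) (XT.lf (nat_lit 0) (nat_lit 2979059644) (nat_lit 152) (nat_lit 22294962615) (nat_lit 0) (nat_lit 422586058) (nat_lit 38) (nat_lit 5) (nat_lit 40) (nat_lit 4) (nat_lit 38) (nat_lit 4) (nat_lit 471) (nat_lit 370) (nat_lit 359)))) (XT.nd (nat_lit 156) (nat_lit 228) (nat_lit 0) (XT.nd (nat_lit 78) (nat_lit 152) (nat_lit 0) (XT.lf (nat_lit 0) (nat_lit 5974744678) (nat_lit 76) (nat_lit 11645237143) (nat_lit 76) (nat_lit 8917385136) (nat_lit 37) (nat_lit 4) (nat_lit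 38) (nat_lit 5) (nat_lit 38) (nat_lit 4) (nat_lit 472) (nat_lit 370) (nat_lit 358)) (XT.lf (nat_lit 0) (nat_lit 5413457052) (nat_lit 152) (nat_lit 19400025488) (nat_lit 0) (nat_lit 2606593411) (nat_lit 35) (nat_lit 5) (nat_lit 37) (nat_lit 4) (nat_lit 35) (nat_lit 4) (nat_lit 473) (nat_lit 370) (nat_lit 357))) (XT.nd (nat_lit 78) (nat_lit 152) (nat_lit 0) (XT.lf (nat_lit 0) (nat_lit 9342559618) (nat_lit 76) (nat_lit 10979069458) (nat_lit 76) (nat_lit 8021288070) (nat_lit 34) (nat_lit 4) (nat_lit 35) (nat_lit 5) (nat_lit 35) (nat_lit 4) (nat_lit 474) (nat_lit 370) (nat_lit 356)) (XT.lf (nat_lit 0) (nat_lit 6495107440) (nat_lit 152) (nat_lit 19332088252) (nat_lit 0) (nat_lit 3483930182) (nat_lit 32) (nat_lit 5) (nat_lit 34) (nat_lit 4) (nat_lit 32) (nat_lit 4) (nat_lit 475) (nat_lit 370) (nat_lit 355))))) (XT.nd (nat_lit 234) (nat_lit 380) (nat_lit 0) (XT.nd (nat_lit 78) (nat_lit 228) (nat_lit 0)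 (XT.lf (nat_lit 0) (nat_lit 9756068376) (nat_lit 76) (nat_lit 11856075718) (nat_lit 76) (nat_lit 8711998610) (nat_lit 31) (nat_lit 4) (nat_lit 32) (nat_lit 5) (nat_lit 32) (nat_lit 4) (nat_lit 476) (nat_lit 370) (nat_lit 354)) (XT.nd (nat_lit 78) (nat_lit 76) (nat_lit 0) (XT.lf (nat_lit 0) (nat_lit 5934185622) (nat_lit 152) (nat_lit 22694390871) (nat_lit 0) (nat_lit 2758798832) (nat_lit 29) (nat_lit 5) (nat_lit 31) (nat_lit 4) (nat_lit 29) (nat_lit 4) (nat_lit 477) (nat_lit 370) (nat_lit 353)) (XT.lf (nat_lit 0) (nat_lit 6571779221) (nat_lit 76) (nat_lit 14610170262) (nat_lit 76) (nat_lit 11317750382) (nat_lit 28) (nat_lit 4) (nat_lit 29) (nat_lit 5) (nat_lit 29) (nat_lit 4) (nat_lit 478) (nat_lit 370) (nat_lit 352)))) (XT.nd (nat_lit 156) (nat_lit 228) (nat_lit 0) (XT.nd (nat_lit 78) (nat_lit 0) (nat_lit 0) (XT.lf (nat_lit 0) (nat_lit 3383545900) (nat_lit 152) (nat_lit 30206435825) (nat_lit 0)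 (nat_lit 78808071) (nat_lit 26) (nat_lit 5) (nat_lit 28) (nat_lit 4) (nat_lit 26) (nat_lit 4) (nat_lit 479) (nat_lit 370) (nat_lit 351)) (XT.lf (nat_lit 0) (nat_lit 18669620858) (nat_lit 152) (nat_lit 959017076) (nat_lit 0) (nat_lit 15261822386) (nat_lit 26) (nat_lit 5) (nat_lit 28) (nat_lit 4) (nat_lit 26) (nat_lit 4) (nat_lit 480) (nat_lit 370) (nat_lit 350))) (XT.nd (nat_lit 78) (nat_lit 152) (nat_lit 0) (XT.lf (nat_lit 0) (nat_lit 29691775430) (nat_lit 76) (nat_lit 4994206081) (nat_lit 76) (nat_lit 1488254616) (nat_lit 25) (nat_lit 4) (nat_lit 26) (nat_lit 5) (nat_lit 26) (nat_lit 4) (nat_lit 481) (nat_lit 370) (nat_lit 349)) (XT.lf (nat_lit 0) (nat_lit 13736762985) (nat_lit 152) (nat_lit 13538378123) (nat_lit 0) (nat_lit 10242170262) (nat_lit 23) (nat_lit 5) (nat_lit 25) (nat_lit 4) (nat_lit 23) (nat_lit 4) (nat_lit 482) (nat_lit 370) (nat_lit 348))))))))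
noncomputable def xc8 : XT := (XT.nd (nat_lit 61152) (nat_lit 0) (nat_lit 532) (XT.nd (nat_lit 1014) (nat_lit 228) (nat_lit 0) (XT.nd (nat_lit 468) (nat_lit 456) (nat_lit 0) (XT.nd (nat_lit 234) (nat_lit 304) (nat_lit 0) (XT.nd (nat_lit 78) (nat_lit 152) (nat_lit 0) (XT.lf (nat_lit 0) (nat_lit 16820893332) (nat_lit 76) (nat_lit 12844026681) (nat_lit 76) (nat_lit 9262999338) (nat_lit 22) (nat_lit 4) (nat_lit 23) (nat_lit 5) (nat_lit 23) (nat_lit 4) (nat_lit 483) (nat_lit 370) (nat_lit 347)) (XT.nd (nat_lit 78) (nat_lit 0) (nat_lit 0) (XT.lf (nat_lit 0) (nat_lit 5802908470) (nat_lit 152) (nat_lit 32359988353) (nat_lit 0) (nat_lit 2246261842) (nat_lit 20) (nat_lit 5) (nat_lit 22) (nat_lit 4) (nat_lit 20) (nat_lit 4) (nat_lit 484) (nat_lit 370) (nat_lit 346)) (XT.lf (nat_lit 0) (nat_lit 21496498099) (nat_lit 152) (nat_lit 2599496435) (nat_lit 0) (nat_lit 17863736182) (nat_lit 20) (nat_lit 5) (nat_lit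 22) (nat_lit 4) (nat_lit 20) (nat_lit 4) (nat_lit 485) (nat_lit 370) (nat_lit 345)))) (XT.nd (nat_lit 78) (nat_lit 228) (nat_lit 0) (XT.lf (nat_lit 0) (nat_lit 28644523443) (nat_lit 76) (nat_lit 9324368870) (nat_lit 76) (nat_lit 5619116201) (nat_lit 19) (nat_lit 4) (nat_lit 20) (nat_lit 5) (nat_lit 20) (nat_lit 4) (nat_lit 486) (nat_lit 370) (nat_lit 344)) (XT.nd (nat_lit 78) (nat_lit 76) (nat_lit 0) (XT.lf (nat_lit 0) (nat_lit 9736004771) (nat_lit 152) (nat_lit 29488278977) (nat_lit 0) (nat_lit 6071644111) (nat_lit 17) (nat_lit 5) (nat_lit 19) (nat_lit 4) (nat_lit 17) (nat_lit 4) (nat_lit 487) (nat_lit 370) (nat_lit 343)) (XT.lf (nat_lit 0) (nat_lit 641762145) (nat_lit 76) (nat_lit 25087210260) (nat_lit 76) (nat_lit 21359013436) (nat_lit 16) (nat_lit 4) (nat_lit 17) (nat_lit 5) (nat_lit 17) (nat_lit 4) (nat_lit 488) (nat_lit 370) (nat_lit 342))))) (XT.nd (nat_lit 234) (nat_lit 304) (nat_lit 0)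 (XT.nd (nat_lit 78) (nat_lit 152) (nat_lit 0) (XT.lf (nat_lit 0) (nat_lit 32367675480) (nat_lit 76) (nat_lit 10194868252) (nat_lit 76) (nat_lit 6405875082) (nat_lit 16) (nat_lit 4) (nat_lit 17) (nat_lit 5) (nat_lit 17) (nat_lit 4) (nat_lit 489) (nat_lit 370) (nat_lit 341)) (XT.nd (nat_lit 78) (nat_lit 0) (nat_lit 0) (XT.lf (nat_lit 0) (nat_lit 9051732544) (nat_lit 152) (nat_lit 36573431881) (nat_lit 0) (nat_lit 5316883562) (nat_lit 14) (nat_lit 5) (nat_lit 16) (nat_lit 4) (nat_lit 14) (nat_lit 4) (nat_lit 490) (nat_lit 370) (nat_lit 340)) (XT.lf (nat_lit 0) (nat_lit 25178798624) (nat_lit 152) (nat_lit 6442374378) (nat_lit 0) (nat_lit 21390411701) (nat_lit 14) (nat_lit 5) (nat_lit 16) (nat_lit 4) (nat_lit 14) (nat_lit 4) (nat_lit 491) (nat_lit 370) (nat_lit 339)))) (XT.nd (nat_lit 156) (nat_lit 76) (nat_lit 0) (XT.nd (nat_lit 78) (nat_lit 152) (nat_lit 0) (XT.lf (nat_lit 0) (nat_lit 25213678652)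 (nat_lit 76) (nat_lit 16905050174) (nat_lit 76) (nat_lit 13065674737) (nat_lit 13) (nat_lit 4) (nat_lit 14) (nat_lit 5) (nat_lit 14) (nat_lit 4) (nat_lit 492) (nat_lit 370) (nat_lit 338)) (XT.lf (nat_lit 0) (nat_lit 647210639) (nat_lit 76) (nat_lit 1586851708) (nat_lit 152) (nat_lit 55235841638) (nat_lit 11) (nat_lit 5) (nat_lit 12) (nat_lit 5) (nat_lit 13) (nat_lit 4) (nat_lit 493) (nat_lit 370) (nat_lit 337))) (XT.nd (nat_lit 78) (nat_lit 76) (nat_lit 0) (XT.lf (nat_lit 0) (nat_lit 18255194626) (nat_lit 152) (nat_lit 27168207171) (nat_lit 0) (nat_lit 14435598498) (nat_lit 11) (nat_lit 5) (nat_lit 13) (nat_lit 4) (nat_lit 11) (nat_lit 4) (nat_lit 494) (nat_lit 370) (nat_lit 336)) (XT.lf (nat_lit 0) (nat_lit 3588885411) (nat_lit 76) (nat_lit 31322995329) (nat_lit 76) (nat_lit 27460636293) (nat_lit 10) (nat_lit 4) (nat_lit 11) (nat_lit 5) (nat_lit 11) (nat_lit 4) (nat_lit 495) (nat_lit 370) (nat_lit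 335)))))) (XT.nd (nat_lit 59592) (nat_lit 0) (nat_lit 3268) (XT.nd (nat_lit 234) (nat_lit 76) (nat_lit 0) (XT.nd (nat_lit 78) (nat_lit 152) (nat_lit 0) (XT.lf (nat_lit 0) (nat_lit 36029879092) (nat_lit 76) (nat_lit 16441409999) (nat_lit 76) (nat_lit 12538324383) (nat_lit 10) (nat_lit 4) (nat_lit 11) (nat_lit 5) (nat_lit 11) (nat_lit 4) (nat_lit 496) (nat_lit 370) (nat_lit 334)) (XT.nd (nat_lit 78) (nat_lit 0) (nat_lit 0) (XT.lf (nat_lit 0) (nat_lit 1916033084) (nat_lit 76) (nat_lit 969634856) (nat_lit 152) (nat_lit 64897495276) (nat_lit 8) (nat_lit 5) (nat_lit 9) (nat_lit 5) (nat_lit 10) (nat_lit 4) (nat_lit 497) (nat_lit 370) (nat_lit 333)) (XT.lf (nat_lit 0) (nat_lit 19074216251) (nat_lit 152) (nat_lit 36398579372) (nat_lit 0) (nat_lit 15211290967) (nat_lit 8) (nat_lit 5) (nat_lit 10) (nat_lit 4) (nat_lit 8) (nat_lit 4) (nat_lit 498) (nat_lit 370) (nat_lit 332)))) (XT.nd (nat_lit 78) (nat_lit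 76) (nat_lit 0) (XT.lf (nat_lit 0) (nat_lit 35893543991) (nat_lit 152) (nat_lit 5845409755) (nat_lit 0) (nat_lit 31996462249) (nat_lit 8) (nat_lit 5) (nat_lit 10) (nat_lit 4) (nat_lit 8) (nat_lit 4) (nat_lit 499) (nat_lit 370) (nat_lit 331)) (XT.nd (nat_lit 59202) (nat_lit 0) (nat_lit 4332) (XT.lf (nat_lit 0) (nat_lit 26389397275) (nat_lit 76) (nat_lit 27238650208) (nat_lit 76) (nat_lit 23309038508) (nat_lit 7) (nat_lit 4) (nat_lit 8) (nat_lit 5) (nat_lit 8) (nat_lit 4) (nat_lit 500) (nat_lit 370) (nat_lit 330)) (XT.lf (nat_lit 0) (nat_lit 4175280799) (nat_lit 76) (nat_lit 2307374590) (nat_lit 76) (nat_lit 2307374590) (nat_lit 64) (nat_lit 4) (nat_lit 65) (nat_lit 5) (nat_lit 65) (nat_lit 4) (nat_lit 458) (nat_lit 371) (nat_lit 371))))) (XT.nd (nat_lit 234) (nat_lit 608) (nat_lit 0) (XT.nd (nat_lit 78) (nat_lit 304) (nat_lit 0) (XT.lf (nat_lit 0) (nat_lit 8197715574) (nat_lit 152) (nat_lit 2054017811)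 (nat_lit 0) (nat_lit 7807840452) (nat_lit 62) (nat_lit 5) (nat_lit 64) (nat_lit 4) (nat_lit 62) (nat_lit 4) (nat_lit 459) (nat_lit 371) (nat_lit 370)) (XT.nd (nat_lit 78) (nat_lit 76) (nat_lit 0) (XT.lf (nat_lit 0) (nat_lit 2952168128) (nat_lit 152) (nat_lit 13395004476) (nat_lit 0) (nat_lit 2213153797) (nat_lit 59) (nat_lit 5) (nat_lit 61) (nat_lit 4) (nat_lit 59) (nat_lit 4) (nat_lit 460) (nat_lit 371) (nat_lit 369)) (XT.lf (nat_lit 0) (nat_lit 12293453904) (nat_lit 76) (nat_lit 3935647728) (nat_lit 76) (nat_lit 2853305020) (nat_lit 58) (nat_lit 4) (nat_lit 59) (nat_lit 5) (nat_lit 59) (nat_lit 4) (nat_lit 461) (nat_lit 371) (nat_lit 368)))) (XT.nd (nat_lit 156) (nat_lit 228) (nat_lit 0) (XT.nd (nat_lit 78) (nat_lit 228) (nat_lit 0) (XT.lf (nat_lit 0) (nat_lit 10326988512) (nat_lit 152) (nat_lit 342051701) (nat_lit 0) (nat_lit 8958714615) (nat_lit 56) (nat_lit 5) (nat_lit 58) (nat_lit 4) (nat_lit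 56) (nat_lit 4) (nat_lit 462) (nat_lit 371) (nat_lit 367)) (XT.lf (nat_lit 0) (nat_lit 3863699095) (nat_lit 152) (nat_lit 14091989778) (nat_lit 0) (nat_lit 2241745025) (nat_lit 53) (nat_lit 5) (nat_lit 55) (nat_lit 4) (nat_lit 53) (nat_lit 4) (nat_lit 463) (nat_lit 371) (nat_lit 366))) (XT.nd (nat_lit 78) (nat_lit 152) (nat_lit 0) (XT.lf (nat_lit 0) (nat_lit 12343739567) (nat_lit 76) (nat_lit 5174934069) (nat_lit 76) (nat_lit 3273424941) (nat_lit 52) (nat_lit 4) (nat_lit 53) (nat_lit 5) (nat_lit 53) (nat_lit 4) (nat_lit 464) (nat_lit 371) (nat_lit 365)) (XT.lf (nat_lit 0) (nat_lit 10233071913) (nat_lit 152) (nat_lit 3052052106) (nat_lit 0) (nat_lit 8128458282) (nat_lit 50) (nat_lit 5) (nat_lit 52) (nat_lit 4) (nat_lit 50) (nat_lit 4) (nat_lit 465) (nat_lit 371) (nat_lit 364))))))) (XT.nd (nat_lit 1014) (nat_lit 1140) (nat_lit 0) (XT.nd (nat_lit 468) (nat_lit 760) (nat_lit 0) (XT.nd (nat_lit 234)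 (nat_lit 380) (nat_lit 0) (XT.nd (nat_lit 78) (nat_lit 228) (nat_lit 0) (XT.lf (nat_lit 0) (nat_lit 2183172965) (nat_lit 76) (nat_lit 50307770) (nat_lit 152) (nat_lit 19831152490) (nat_lit 47) (nat_lit 5) (nat_lit 48) (nat_lit 5) (nat_lit 49) (nat_lit 4) (nat_lit 466) (nat_lit 371) (nat_lit 363)) (XT.nd (nat_lit 78) (nat_lit 152) (nat_lit 0) (XT.lf (nat_lit 0) (nat_lit 7099181604) (nat_lit 76) (nat_lit 9076512628) (nat_lit 76) (nat_lit 6566561750) (nat_lit 46) (nat_lit 4) (nat_lit 47) (nat_lit 5) (nat_lit 47) (nat_lit 4) (nat_lit 467) (nat_lit 371) (nat_lit 362)) (XT.lf (nat_lit 0) (nat_lit 7188635371) (nat_lit 152) (nat_lit 11722557793) (nat_lit 0) (nat_lit 4541315844) (nat_lit 44) (nat_lit 5) (nat_lit 46) (nat_lit 4) (nat_lit 44) (nat_lit 4) (nat_lit 468) (nat_lit 371) (nat_lit 361)))) (XT.nd (nat_lit 78) (nat_lit 304) (nat_lit 0) (XT.lf (nat_lit 0) (nat_lit 15994717901) (nat_lit 76) (nat_lit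 5524340791) (nat_lit 76) (nat_lit 2676569823) (nat_lit 43) (nat_lit 4) (nat_lit 44) (nat_lit 5) (nat_lit 44) (nat_lit 4) (nat_lit 469) (nat_lit 371) (nat_lit 360)) (XT.nd (nat_lit 78) (nat_lit 152) (nat_lit 0) (XT.lf (nat_lit 0) (nat_lit 11381293652) (nat_lit 152) (nat_lit 5159627826) (nat_lit 0) (nat_lit 8431121707) (nat_lit 41) (nat_lit 5) (nat_lit 43) (nat_lit 4) (nat_lit 41) (nat_lit 4) (nat_lit 470) (nat_lit 371) (nat_lit 359)) (XT.lf (nat_lit 0) (nat_lit 288437350) (nat_lit 152) (nat_lit 2541163896) (nat_lit 76) (nat_lit 22956975336) (nat_lit 39) (nat_lit 5) (nat_lit 41) (nat_lit 5) (nat_lit 40) (nat_lit 4) (nat_lit 471) (nat_lit 371) (nat_lit 358))))) (XT.nd (nat_lit 234) (nat_lit 380) (nat_lit 0) (XT.nd (nat_lit 78) (nat_lit 304) (nat_lit 0) (XT.lf (nat_lit 0) (nat_lit 14637028805) (nat_lit 152) (nat_lit 560889091) (nat_lit 0) (nat_lit 11438188234) (nat_lit 38) (nat_lit 5) (nat_lit 40)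 (nat_lit 4) (nat_lit 38) (nat_lit 4) (nat_lit 472) (nat_lit 371) (nat_lit 357)) (XT.nd (nat_lit 78) (nat_lit 76) (nat_lit 0) (XT.lf (nat_lit 0) (nat_lit 936033218) (nat_lit 76) (nat_lit 1177424451) (nat_lit 152) (nat_lit 25414600322) (nat_lit 35) (nat_lit 5) (nat_lit 36) (nat_lit 5) (nat_lit 37) (nat_lit 4) (nat_lit 473) (nat_lit 371) (nat_lit 356)) (XT.lf (nat_lit 0) (nat_lit 1663084372) (nat_lit 76) (nat_lit 15097976076) (nat_lit 76) (nat_lit 11697656683) (nat_lit 34) (nat_lit 4) (nat_lit 35) (nat_lit 5) (nat_lit 35) (nat_lit 4) (nat_lit 474) (nat_lit 371) (nat_lit 355)))) (XT.nd (nat_lit 156) (nat_lit 152) (nat_lit 0) (XT.nd (nat_lit 78) (nat_lit 76) (nat_lit 0) (XT.lf (nat_lit 0) (nat_lit 1750669182) (nat_lit 76) (nat_lit 854195556) (nat_lit 152) (nat_lit 26831690506) (nat_lit 32) (nat_lit 5) (nat_lit 33) (nat_lit 5) (nat_lit 34) (nat_lit 4) (nat_lit 475) (nat_lit 371) (nat_lit 354)) (XT.lf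 (nat_lit 0) (nat_lit 901732891) (nat_lit 76) (nat_lit 16558225174) (nat_lit 76) (nat_lit 12997473074) (nat_lit 31) (nat_lit 4) (nat_lit 32) (nat_lit 5) (nat_lit 32) (nat_lit 4) (nat_lit 476) (nat_lit 371) (nat_lit 353))) (XT.nd (nat_lit 78) (nat_lit 76) (nat_lit 0) (XT.lf (nat_lit 0) (nat_lit 1456110832) (nat_lit 152) (nat_lit 725391190) (nat_lit 76) (nat_lit 29348685043) (nat_lit 30) (nat_lit 5) (nat_lit 32) (nat_lit 5) (nat_lit 31) (nat_lit 4) (nat_lit 477) (nat_lit 371) (nat_lit 352)) (XT.lf (nat_lit 0) (nat_lit 16450463966) (nat_lit 152) (nat_lit 3434720714) (nat_lit 0) (nat_lit 12764929920) (nat_lit 29) (nat_lit 5) (nat_lit 31) (nat_lit 4) (nat_lit 29) (nat_lit 4) (nat_lit 478) (nat_lit 371) (nat_lit 351)))))) (XT.nd (nat_lit 468) (nat_lit 608) (nat_lit 0) (XT.nd (nat_lit 234) (nat_lit 228) (nat_lit 0) (XT.nd (nat_lit 78) (nat_lit 228) (nat_lit 0) (XT.lf (nat_lit 0) (nat_lit 26710156796) (nat_lit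 76) (nat_lit 5454236885) (nat_lit 76) (nat_lit 1662550376) (nat_lit 28) (nat_lit 4) (nat_lit 29) (nat_lit 5) (nat_lit 29) (nat_lit 4) (nat_lit 479) (nat_lit 371) (nat_lit 350)) (XT.nd (nat_lit 78) (nat_lit 76) (nat_lit 0) (XT.lf (nat_lit 0) (nat_lit 13377252976) (nat_lit 152) (nat_lit 12082352115) (nat_lit 0) (nat_lit 9597850946) (nat_lit 26) (nat_lit 5) (nat_lit 28) (nat_lit 4) (nat_lit 26) (nat_lit 4) (nat_lit 480) (nat_lit 371) (nat_lit 349)) (XT.lf (nat_lit 0) (nat_lit 18044580642) (nat_lit 76) (nat_lit 11088671836) (nat_lit 76) (nat_lit 7215790765) (nat_lit 25) (nat_lit 4) (nat_lit 26) (nat_lit 5) (nat_lit 26) (nat_lit 4) (nat_lit 481) (nat_lit 371) (nat_lit 348)))) (XT.nd (nat_lit 78) (nat_lit 76) (nat_lit 0) (XT.lf (nat_lit 0) (nat_lit 7795548414) (nat_lit 152) (nat_lit 25958950504) (nat_lit 0) (nat_lit 3949035085) (nat_lit 23) (nat_lit 5) (nat_lit 25) (nat_lit 4) (nat_lit 23) (nat_lit 4)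 (nat_lit 482) (nat_lit 371) (nat_lit 347)) (XT.nd (nat_lit 78) (nat_lit 0) (nat_lit 0) (XT.lf (nat_lit 0) (nat_lit 3861927573) (nat_lit 76) (nat_lit 19594532146) (nat_lit 76) (nat_lit 15665700133) (nat_lit 22) (nat_lit 4) (nat_lit 23) (nat_lit 5) (nat_lit 23) (nat_lit 4) (nat_lit 483) (nat_lit 371) (nat_lit 346)) (XT.lf (nat_lit 0) (nat_lit 35147782653) (nat_lit 76) (nat_lit 4735835020) (nat_lit 76) (nat_lit 728604258) (nat_lit 22) (nat_lit 4) (nat_lit 23) (nat_lit 5) (nat_lit 23) (nat_lit 4) (nat_lit 484) (nat_lit 371) (nat_lit 345))))) (XT.nd (nat_lit 234) (nat_lit 228) (nat_lit 0) (XT.nd (nat_lit 78) (nat_lit 228) (nat_lit 0) (XT.lf (nat_lit 0) (nat_lit 14742393727) (nat_lit 152) (nat_lit 16648327415) (nat_lit 0) (nat_lit 10779387673) (nat_lit 20) (nat_lit 5) (nat_lit 22) (nat_lit 4) (nat_lit 20) (nat_lit 4) (nat_lit 485) (nat_lit 371) (nat_lit 344)) (XT.nd (nat_lit 78) (nat_lit 152) (nat_lit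 0) (XT.lf (nat_lit 0) (nat_lit 14049116033) (nat_lit 76) (nat_lit 16894722176) (nat_lit 76) (nat_lit 12862677311) (nat_lit 19) (nat_lit 4) (nat_lit 20) (nat_lit 5) (nat_lit 20) (nat_lit 4) (nat_lit 486) (nat_lit 371) (nat_lit 343)) (XT.lf (nat_lit 0) (nat_lit 569310065) (nat_lit 76) (nat_lit 1729757017) (nat_lit 152) (nat_lit 43227498792) (nat_lit 17) (nat_lit 5) (nat_lit 18) (nat_lit 5) (nat_lit 19) (nat_lit 4) (nat_lit 487) (nat_lit 371) (nat_lit 342)))) (XT.nd (nat_lit 156) (nat_lit 152) (nat_lit 0) (XT.nd (nat_lit 78) (nat_lit 76) (nat_lit 0) (XT.lf (nat_lit 0) (nat_lit 18143610851) (nat_lit 152) (nat_lit 15075094412) (nat_lit 0) (nat_lit 14104371676) (nat_lit 17) (nat_lit 5) (nat_lit 19) (nat_lit 4) (nat_lit 17) (nat_lit 4) (nat_lit 488) (nat_lit 371) (nat_lit 341)) (XT.lf (nat_lit 0) (nat_lit 16106033943) (nat_lit 76) (nat_lit 18601355282) (nat_lit 76) (nat_lit 14504214825) (nat_lit 16) (nat_lit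 4) (nat_lit 17) (nat_lit 5) (nat_lit 17) (nat_lit 4) (nat_lit 489) (nat_lit 371) (nat_lit 340))) (XT.nd (nat_lit 78) (nat_lit 76) (nat_lit 0) (XT.lf (nat_lit 0) (nat_lit 803319046) (nat_lit 152) (nat_lit 2521546870) (nat_lit 76) (nat_lit 47871946062) (nat_lit 15) (nat_lit 5) (nat_lit 17) (nat_lit 5) (nat_lit 16) (nat_lit 4) (nat_lit 490) (nat_lit 371) (nat_lit 339)) (XT.lf (nat_lit 0) (nat_lit 16758405750) (nat_lit 152) (nat_lit 23837029606) (nat_lit 0) (nat_lit 12676073028) (nat_lit 14) (nat_lit 5) (nat_lit 16) (nat_lit 4) (nat_lit 14) (nat_lit 4) (nat_lit 491) (nat_lit 371) (nat_lit 338))))))))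
noncomputable def xc9 : XT := (XT.nd (nat_lit 60996) (nat_lit 0) (nat_lit 76) (XT.nd (nat_lit 59982) (nat_lit 0) (nat_lit 2356) (XT.nd (nat_lit 468) (nat_lit 228) (nat_lit 0) (XT.nd (nat_lit 234) (nat_lit 76) (nat_lit 0) (XT.nd (nat_lit 78) (nat_lit 152) (nat_lit 0) (XT.lf (nat_lit 0) (nat_lit 7248449176) (nat_lit 76) (nat_lit 26167619791) (nat_lit 76) (nat_lit 22036726578) (nat_lit 13) (nat_lit 4) (nat_lit 14) (nat_lit 5) (nat_lit 14) (nat_lit 4) (nat_lit 492) (nat_lit 371) (nat_lit 337)) (XT.nd (nat_lit 78) (nat_lit 152) (nat_lit 0) (XT.lf (nat_lit 0) (nat_lit 39948237775) (nat_lit 76) (nat_lit 10985616988) (nat_lit 76) (nat_lit 6808475690) (nat_lit 13) (nat_lit 4) (nat_lit 14) (nat_lit 5) (nat_lit 14) (nat_lit 4) (nat_lit 493) (nat_lit 371) (nat_lit 336)) (XT.lf (nat_lit 0) (nat_lit 8973614108) (nat_lit 152) (nat_lit 46295559130) (nat_lit 0) (nat_lit 4875374211) (nat_lit 11) (nat_lit 5) (nat_lit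 13) (nat_lit 4) (nat_lit 11) (nat_lit 4) (nat_lit 494) (nat_lit 371) (nat_lit 335)))) (XT.nd (nat_lit 78) (nat_lit 76) (nat_lit 0) (XT.lf (nat_lit 0) (nat_lit 25495444950) (nat_lit 152) (nat_lit 15810186668) (nat_lit 0) (nat_lit 21356478474) (nat_lit 11) (nat_lit 5) (nat_lit 13) (nat_lit 4) (nat_lit 11) (nat_lit 4) (nat_lit 495) (nat_lit 371) (nat_lit 334)) (XT.nd (nat_lit 78) (nat_lit 0) (nat_lit 0) (XT.lf (nat_lit 0) (nat_lit 16120246605) (nat_lit 76) (nat_lit 26682143871) (nat_lit 76) (nat_lit 22504390176) (nat_lit 10) (nat_lit 4) (nat_lit 11) (nat_lit 5) (nat_lit 11) (nat_lit 4) (nat_lit 496) (nat_lit 371) (nat_lit 333)) (XT.lf (nat_lit 0) (nat_lit 49595103450) (nat_lit 76) (nat_lit 11352050761) (nat_lit 76) (nat_lit 7137356858) (nat_lit 10) (nat_lit 4) (nat_lit 11) (nat_lit 5) (nat_lit 11) (nat_lit 4) (nat_lit 497) (nat_lit 371) (nat_lit 332))))) (XT.nd (nat_lit 59202) (nat_lit 0) (nat_lit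 4180) (XT.nd (nat_lit 78) (nat_lit 76) (nat_lit 0) (XT.lf (nat_lit 0) (nat_lit 8815682029) (nat_lit 152) (nat_lit 57493464683) (nat_lit 0) (nat_lit 4689589744) (nat_lit 8) (nat_lit 5) (nat_lit 10) (nat_lit 4) (nat_lit 8) (nat_lit 4) (nat_lit 498) (nat_lit 371) (nat_lit 331)) (XT.nd (nat_lit 78) (nat_lit 76) (nat_lit 0) (XT.lf (nat_lit 0) (nat_lit 25547467494) (nat_lit 152) (nat_lit 27116379582) (nat_lit 0) (nat_lit 21388845250) (nat_lit 8) (nat_lit 5) (nat_lit 10) (nat_lit 4) (nat_lit 8) (nat_lit 4) (nat_lit 499) (nat_lit 371) (nat_lit 330)) (XT.lf (nat_lit 0) (nat_lit 4524056351) (nat_lit 76) (nat_lit 38464358008) (nat_lit 76) (nat_lit 34274754850) (nat_lit 7) (nat_lit 4) (nat_lit 8) (nat_lit 5) (nat_lit 8) (nat_lit 4) (nat_lit 500) (nat_lit 371) (nat_lit 329)))) (XT.nd (nat_lit 156) (nat_lit 228) (nat_lit 0) (XT.nd (nat_lit 78) (nat_lit 304) (nat_lit 0) (XT.lf (nat_lit 0) (nat_lit 2516245092)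 (nat_lit 152) (nat_lit 3304491535) (nat_lit 0) (nat_lit 2516245092) (nat_lit 69) (nat_lit 5) (nat_lit 71) (nat_lit 4) (nat_lit 69) (nat_lit 4) (nat_lit 456) (nat_lit 372) (nat_lit 372)) (XT.lf (nat_lit 0) (nat_lit 540219957) (nat_lit 152) (nat_lit 16463199630) (nat_lit 0) (nat_lit 118570014) (nat_lit 65) (nat_lit 5) (nat_lit 67) (nat_lit 4) (nat_lit 65) (nat_lit 4) (nat_lit 457) (nat_lit 372) (nat_lit 371))) (XT.nd (nat_lit 78) (nat_lit 152) (nat_lit 0) (XT.lf (nat_lit 0) (nat_lit 7944926100) (nat_lit 76) (nat_lit 5232324454) (nat_lit 76) (nat_lit 4409103135) (nat_lit 64) (nat_lit 4) (nat_lit 65) (nat_lit 5) (nat_lit 65) (nat_lit 4) (nat_lit 458) (nat_lit 372) (nat_lit 370)) (XT.lf (nat_lit 0) (nat_lit 8181952044) (nat_lit 152) (nat_lit 2878981954) (nat_lit 0) (nat_lit 7011398405) (nat_lit 62) (nat_lit 5) (nat_lit 64) (nat_lit 4) (nat_lit 62) (nat_lit 4) (nat_lit 459) (nat_lit 372) (nat_lit 369))))))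 (XT.nd (nat_lit 468) (nat_lit 912) (nat_lit 0) (XT.nd (nat_lit 234) (nat_lit 456) (nat_lit 0) (XT.nd (nat_lit 78) (nat_lit 228) (nat_lit 0) (XT.lf (nat_lit 0) (nat_lit 2690705468) (nat_lit 152) (nat_lit 14678477463) (nat_lit 0) (nat_lit 1210917248) (nat_lit 59) (nat_lit 5) (nat_lit 61) (nat_lit 4) (nat_lit 59) (nat_lit 4) (nat_lit 460) (nat_lit 372) (nat_lit 368)) (XT.nd (nat_lit 78) (nat_lit 152) (nat_lit 0) (XT.lf (nat_lit 0) (nat_lit 10588978925) (nat_lit 76) (nat_lit 5163217196) (nat_lit 76) (nat_lit 3356449570) (nat_lit 58) (nat_lit 4) (nat_lit 59) (nat_lit 5) (nat_lit 59) (nat_lit 4) (nat_lit 461) (nat_lit 372) (nat_lit 367)) (XT.lf (nat_lit 0) (nat_lit 9604062089) (nat_lit 152) (nat_lit 2509386731) (nat_lit 0) (nat_lit 7547579968) (nat_lit 56) (nat_lit 5) (nat_lit 58) (nat_lit 4) (nat_lit 56) (nat_lit 4) (nat_lit 462) (nat_lit 372) (nat_lit 366)))) (XT.nd (nat_lit 78) (nat_lit 228) (nat_lit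 0) (XT.lf (nat_lit 0) (nat_lit 2862158430) (nat_lit 152) (nat_lit 16790553292) (nat_lit 0) (nat_lit 586018789) (nat_lit 53) (nat_lit 5) (nat_lit 55) (nat_lit 4) (nat_lit 53) (nat_lit 4) (nat_lit 463) (nat_lit 372) (nat_lit 365)) (XT.nd (nat_lit 78) (nat_lit 152) (nat_lit 0) (XT.lf (nat_lit 0) (nat_lit 9206105729) (nat_lit 76) (nat_lit 7088179527) (nat_lit 76) (nat_lit 4545796973) (nat_lit 52) (nat_lit 4) (nat_lit 53) (nat_lit 5) (nat_lit 53) (nat_lit 4) (nat_lit 464) (nat_lit 372) (nat_lit 364)) (XT.lf (nat_lit 0) (nat_lit 8741284386) (nat_lit 152) (nat_lit 6701204788) (nat_lit 0) (nat_lit 6026772511) (nat_lit 50) (nat_lit 5) (nat_lit 52) (nat_lit 4) (nat_lit 50) (nat_lit 4) (nat_lit 465) (nat_lit 372) (nat_lit 363))))) (XT.nd (nat_lit 234) (nat_lit 456) (nat_lit 0) (XT.nd (nat_lit 78) (nat_lit 304) (nat_lit 0) (XT.lf (nat_lit 0) (nat_lit 468598104) (nat_lit 152) (nat_lit 1997714199) (nat_lit 76)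 (nat_lit 19661876309) (nat_lit 48) (nat_lit 5) (nat_lit 50) (nat_lit 5) (nat_lit 49) (nat_lit 4) (nat_lit 466) (nat_lit 372) (nat_lit 362)) (XT.nd (nat_lit 78) (nat_lit 152) (nat_lit 0) (XT.lf (nat_lit 0) (nat_lit 2377615343) (nat_lit 76) (nat_lit 11758156416) (nat_lit 76) (nat_lit 8678292113) (nat_lit 46) (nat_lit 4) (nat_lit 47) (nat_lit 5) (nat_lit 47) (nat_lit 4) (nat_lit 467) (nat_lit 372) (nat_lit 361)) (XT.lf (nat_lit 0) (nat_lit 4856593773) (nat_lit 152) (nat_lit 17010196058) (nat_lit 0) (nat_lit 1665982814) (nat_lit 44) (nat_lit 5) (nat_lit 46) (nat_lit 4) (nat_lit 44) (nat_lit 4) (nat_lit 468) (nat_lit 372) (nat_lit 360)))) (XT.nd (nat_lit 156) (nat_lit 228) (nat_lit 0) (XT.nd (nat_lit 78) (nat_lit 152) (nat_lit 0) (XT.lf (nat_lit 0) (nat_lit 10240323050) (nat_lit 76) (nat_lit 8712063137) (nat_lit 76) (nat_lit 5330546044) (nat_lit 43) (nat_lit 4) (nat_lit 44) (nat_lit 5) (nat_lit 44)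 (nat_lit 4) (nat_lit 469) (nat_lit 372) (nat_lit 359)) (XT.lf (nat_lit 0) (nat_lit 8509716496) (nat_lit 152) (nat_lit 11508308089) (nat_lit 0) (nat_lit 5050170418) (nat_lit 41) (nat_lit 5) (nat_lit 43) (nat_lit 4) (nat_lit 41) (nat_lit 4) (nat_lit 470) (nat_lit 372) (nat_lit 358))) (XT.nd (nat_lit 78) (nat_lit 152) (nat_lit 0) (XT.lf (nat_lit 0) (nat_lit 16425148312) (nat_lit 76) (nat_lit 6546231280) (nat_lit 76) (nat_lit 2918571132) (nat_lit 40) (nat_lit 4) (nat_lit 41) (nat_lit 5) (nat_lit 41) (nat_lit 4) (nat_lit 471) (nat_lit 372) (nat_lit 357)) (XT.lf (nat_lit 0) (nat_lit 11208849116) (nat_lit 152) (nat_lit 8008413746) (nat_lit 0) (nat_lit 7531403693) (nat_lit 38) (nat_lit 5) (nat_lit 40) (nat_lit 4) (nat_lit 38) (nat_lit 4) (nat_lit 472) (nat_lit 372) (nat_lit 356))))))) (XT.nd (nat_lit 1014) (nat_lit 912) (nat_lit 0) (XT.nd (nat_lit 468) (nat_lit 684) (nat_lit 0) (XT.nd (nat_lit 234) (nat_lit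 380) (nat_lit 0) (XT.nd (nat_lit 78) (nat_lit 228) (nat_lit 0) (XT.lf (nat_lit 0) (nat_lit 20536359587) (nat_lit 76) (nat_lit 5468945651) (nat_lit 76) (nat_lit 1643457105) (nat_lit 37) (nat_lit 4) (nat_lit 38) (nat_lit 5) (nat_lit 38) (nat_lit 4) (nat_lit 473) (nat_lit 372) (nat_lit 355)) (XT.nd (nat_lit 78) (nat_lit 76) (nat_lit 0) (XT.lf (nat_lit 0) (nat_lit 12741478864) (nat_lit 152) (nat_lit 6956734012) (nat_lit 0) (nat_lit 8890525469) (nat_lit 35) (nat_lit 5) (nat_lit 37) (nat_lit 4) (nat_lit 35) (nat_lit 4) (nat_lit 474) (nat_lit 372) (nat_lit 354)) (XT.lf (nat_lit 0) (nat_lit 22098632793) (nat_lit 76) (nat_lit 5728722570) (nat_lit 76) (nat_lit 1747400751) (nat_lit 34) (nat_lit 4) (nat_lit 35) (nat_lit 5) (nat_lit 35) (nat_lit 4) (nat_lit 475) (nat_lit 372) (nat_lit 353)))) (XT.nd (nat_lit 78) (nat_lit 228) (nat_lit 0) (XT.lf (nat_lit 0) (nat_lit 12851655178) (nat_lit 152) (nat_lit 8887435430)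 (nat_lit 0) (nat_lit 8865750106) (nat_lit 32) (nat_lit 5) (nat_lit 34) (nat_lit 4) (nat_lit 32) (nat_lit 4) (nat_lit 476) (nat_lit 372) (nat_lit 352)) (XT.nd (nat_lit 78) (nat_lit 152) (nat_lit 0) (XT.lf (nat_lit 0) (nat_lit 20542655674) (nat_lit 76) (nat_lit 7621685368) (nat_lit 76) (nat_lit 3520976409) (nat_lit 31) (nat_lit 4) (nat_lit 32) (nat_lit 5) (nat_lit 32) (nat_lit 4) (nat_lit 477) (nat_lit 372) (nat_lit 351)) (XT.lf (nat_lit 0) (nat_lit 11232279667) (nat_lit 152) (nat_lit 14438419081) (nat_lit 0) (nat_lit 7144856371) (nat_lit 29) (nat_lit 5) (nat_lit 31) (nat_lit 4) (nat_lit 29) (nat_lit 4) (nat_lit 478) (nat_lit 372) (nat_lit 350))))) (XT.nd (nat_lit 234) (nat_lit 380) (nat_lit 0) (XT.nd (nat_lit 78) (nat_lit 228) (nat_lit 0) (XT.lf (nat_lit 0) (nat_lit 15188233035) (nat_lit 76) (nat_lit 11500203113) (nat_lit 76) (nat_lit 7311682235) (nat_lit 28) (nat_lit 4) (nat_lit 29) (nat_lit 5)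 (nat_lit 29) (nat_lit 4) (nat_lit 479) (nat_lit 372) (nat_lit 349)) (XT.nd (nat_lit 78) (nat_lit 76) (nat_lit 0) (XT.lf (nat_lit 0) (nat_lit 7516044260) (nat_lit 152) (nat_lit 24369845013) (nat_lit 0) (nat_lit 3356040095) (nat_lit 26) (nat_lit 5) (nat_lit 28) (nat_lit 4) (nat_lit 26) (nat_lit 4) (nat_lit 480) (nat_lit 372) (nat_lit 348)) (XT.lf (nat_lit 0) (nat_lit 5224462950) (nat_lit 76) (nat_lit 17783011532) (nat_lit 76) (nat_lit 13533979709) (nat_lit 25) (nat_lit 4) (nat_lit 26) (nat_lit 5) (nat_lit 26) (nat_lit 4) (nat_lit 481) (nat_lit 372) (nat_lit 347)))) (XT.nd (nat_lit 156) (nat_lit 228) (nat_lit 0) (XT.nd (nat_lit 78) (nat_lit 76) (nat_lit 0) (XT.lf (nat_lit 0) (nat_lit 1310053701) (nat_lit 152) (nat_lit 1674411055) (nat_lit 76) (nat_lit 34922020613) (nat_lit 24) (nat_lit 5) (nat_lit 26) (nat_lit 5) (nat_lit 25) (nat_lit 4) (nat_lit 482) (nat_lit 372) (nat_lit 346)) (XT.lf (nat_lit 0)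 (nat_lit 16752692859) (nat_lit 152) (nat_lit 10112265185) (nat_lit 0) (nat_lit 12466701811) (nat_lit 23) (nat_lit 5) (nat_lit 25) (nat_lit 4) (nat_lit 23) (nat_lit 4) (nat_lit 483) (nat_lit 372) (nat_lit 345))) (XT.nd (nat_lit 78) (nat_lit 152) (nat_lit 0) (XT.lf (nat_lit 0) (nat_lit 20708209337) (nat_lit 76) (nat_lit 12240551140) (nat_lit 76) (nat_lit 7879894618) (nat_lit 22) (nat_lit 4) (nat_lit 23) (nat_lit 5) (nat_lit 23) (nat_lit 4) (nat_lit 484) (nat_lit 372) (nat_lit 344)) (XT.lf (nat_lit 0) (nat_lit 7382752156) (nat_lit 152) (nat_lit 31936223239) (nat_lit 0) (nat_lit 3080066237) (nat_lit 20) (nat_lit 5) (nat_lit 22) (nat_lit 4) (nat_lit 20) (nat_lit 4) (nat_lit 485) (nat_lit 372) (nat_lit 343)))))) (XT.nd (nat_lit 546) (nat_lit 456) (nat_lit 0) (XT.nd (nat_lit 234) (nat_lit 228) (nat_lit 0) (XT.nd (nat_lit 78) (nat_lit 228) (nat_lit 0) (XT.lf (nat_lit 0) (nat_lit 23324719611) (nat_lit 152)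 (nat_lit 1762230991) (nat_lit 0) (nat_lit 18956282444) (nat_lit 20) (nat_lit 5) (nat_lit 22) (nat_lit 4) (nat_lit 20) (nat_lit 4) (nat_lit 486) (nat_lit 372) (nat_lit 342)) (XT.nd (nat_lit 78) (nat_lit 152) (nat_lit 0) (XT.lf (nat_lit 0) (nat_lit 30019516615) (nat_lit 76) (nat_lit 10089903280) (nat_lit 76) (nat_lit 5658845876) (nat_lit 19) (nat_lit 4) (nat_lit 20) (nat_lit 5) (nat_lit 20) (nat_lit 4) (nat_lit 487) (nat_lit 372) (nat_lit 341)) (XT.lf (nat_lit 0) (nat_lit 9940186190) (nat_lit 152) (nat_lit 32056613540) (nat_lit 0) (nat_lit 5580287429) (nat_lit 17) (nat_lit 5) (nat_lit 19) (nat_lit 4) (nat_lit 17) (nat_lit 4) (nat_lit 488) (nat_lit 372) (nat_lit 340)))) (XT.nd (nat_lit 156) (nat_lit 152) (nat_lit 0) (XT.nd (nat_lit 78) (nat_lit 76) (nat_lit 0) (XT.lf (nat_lit 0) (nat_lit 26235195784) (nat_lit 152) (nat_lit 1418328939) (nat_lit 0) (nat_lit 21820152944) (nat_lit 17) (nat_lit 5) (nat_lit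 19) (nat_lit 4) (nat_lit 17) (nat_lit 4) (nat_lit 489) (nat_lit 372) (nat_lit 339)) (XT.lf (nat_lit 0) (nat_lit 30908781166) (nat_lit 76) (nat_lit 12510819426) (nat_lit 76) (nat_lit 8043258417) (nat_lit 16) (nat_lit 4) (nat_lit 17) (nat_lit 5) (nat_lit 17) (nat_lit 4) (nat_lit 490) (nat_lit 372) (nat_lit 338))) (XT.nd (nat_lit 78) (nat_lit 0) (nat_lit 0) (XT.lf (nat_lit 0) (nat_lit 7692366105) (nat_lit 152) (nat_lit 42552433816) (nat_lit 0) (nat_lit 3306367742) (nat_lit 14) (nat_lit 5) (nat_lit 16) (nat_lit 4) (nat_lit 14) (nat_lit 4) (nat_lit 491) (nat_lit 372) (nat_lit 337)) (XT.lf (nat_lit 0) (nat_lit 24175996404) (nat_lit 152) (nat_lit 11817929731) (nat_lit 0) (nat_lit 19743749956) (nat_lit 14) (nat_lit 5) (nat_lit 16) (nat_lit 4) (nat_lit 14) (nat_lit 4) (nat_lit 492) (nat_lit 372) (nat_lit 336))))) (XT.nd (nat_lit 234) (nat_lit 228) (nat_lit 0) (XT.nd (nat_lit 78) (nat_lit 152) (nat_lit 0)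 (XT.lf (nat_lit 0) (nat_lit 20443133722) (nat_lit 76) (nat_lit 21033442977) (nat_lit 76) (nat_lit 16557150732) (nat_lit 13) (nat_lit 4) (nat_lit 14) (nat_lit 5) (nat_lit 14) (nat_lit 4) (nat_lit 493) (nat_lit 372) (nat_lit 335)) (XT.nd (nat_lit 78) (nat_lit 152) (nat_lit 0) (XT.lf (nat_lit 0) (nat_lit 54166851652) (nat_lit 76) (nat_lit 5399128501) (nat_lit 76) (nat_lit 880887880) (nat_lit 13) (nat_lit 4) (nat_lit 14) (nat_lit 5) (nat_lit 14) (nat_lit 4) (nat_lit 494) (nat_lit 372) (nat_lit 334)) (XT.lf (nat_lit 0) (nat_lit 15448476331) (nat_lit 152) (nat_lit 36499450552) (nat_lit 0) (nat_lit 11023047733) (nat_lit 11) (nat_lit 5) (nat_lit 13) (nat_lit 4) (nat_lit 11) (nat_lit 4) (nat_lit 495) (nat_lit 372) (nat_lit 333)))) (XT.nd (nat_lit 156) (nat_lit 152) (nat_lit 0) (XT.nd (nat_lit 78) (nat_lit 76) (nat_lit 0) (XT.lf (nat_lit 0) (nat_lit 32509437690) (nat_lit 152) (nat_lit 5066518349) (nat_lit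 0) (nat_lit 28047068884) (nat_lit 11) (nat_lit 5) (nat_lit 13) (nat_lit 4) (nat_lit 11) (nat_lit 4) (nat_lit 496) (nat_lit 372) (nat_lit 332)) (XT.lf (nat_lit 0) (nat_lit 28129811701) (nat_lit 76) (nat_lit 22386317980) (nat_lit 76) (nat_lit 17888768023) (nat_lit 10) (nat_lit 4) (nat_lit 11) (nat_lit 5) (nat_lit 11) (nat_lit 4) (nat_lit 497) (nat_lit 372) (nat_lit 331))) (XT.nd (nat_lit 78) (nat_lit 152) (nat_lit 0) (XT.lf (nat_lit 0) (nat_lit 62744908875) (nat_lit 76) (nat_lit 6557812266) (nat_lit 76) (nat_lit 2026756452) (nat_lit 10) (nat_lit 4) (nat_lit 11) (nat_lit 5) (nat_lit 11) (nat_lit 4) (nat_lit 498) (nat_lit 372) (nat_lit 330)) (XT.lf (nat_lit 0) (nat_lit 14513171302) (nat_lit 152) (nat_lit 49794681957) (nat_lit 0) (nat_lit 10083107074) (nat_lit 8) (nat_lit 5) (nat_lit 10) (nat_lit 4) (nat_lit 8) (nat_lit 4) (nat_lit 499) (nat_lit 372) (nat_lit 329))))))))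
noncomputable def xc10 : XT := (XT.nd (nat_lit 60840) (nat_lit 0) (nat_lit 0) (XT.nd (nat_lit 59826) (nat_lit 0) (nat_lit 1596) (XT.nd (nat_lit 59280) (nat_lit 0) (nat_lit 3192) (XT.nd (nat_lit 59046) (nat_lit 0) (nat_lit 4256) (XT.nd (nat_lit 58890) (nat_lit 0) (nat_lit 4788) (XT.lf (nat_lit 0) (nat_lit 31831226747) (nat_lit 152) (nat_lit 18402240504) (nat_lit 0) (nat_lit 27371656886) (nat_lit 8) (nat_lit 5) (nat_lit 10) (nat_lit 4) (nat_lit 8) (nat_lit 4) (nat_lit 500) (nat_lit 372) (nat_lit 328)) (XT.nd (nat_lit 78) (nat_lit 304) (nat_lit 0) (XT.lf (nat_lit 0) (nat_lit 5496237641) (nat_lit 152) (nat_lit 1209280080) (nat_lit 152) (nat_lit 1209280080) (nat_lit 75) (nat_lit 4) (nat_lit 77) (nat_lit 5) (nat_lit 77) (nat_lit 4) (nat_lit 454) (nat_lit 373) (nat_lit 373)) (XT.lf (nat_lit 0) (nat_lit 2368733896) (nat_lit 152) (nat_lit 7173417476) (nat_lit 152) (nat_lit 6703722629) (nat_lit 71) (nat_lit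 4) (nat_lit 73) (nat_lit 5) (nat_lit 73) (nat_lit 4) (nat_lit 455) (nat_lit 373) (nat_lit 372)))) (XT.nd (nat_lit 78) (nat_lit 380) (nat_lit 0) (XT.lf (nat_lit 0) (nat_lit 5284202579) (nat_lit 152) (nat_lit 7002003821) (nat_lit 0) (nat_lit 4393888723) (nat_lit 69) (nat_lit 5) (nat_lit 71) (nat_lit 4) (nat_lit 69) (nat_lit 4) (nat_lit 456) (nat_lit 373) (nat_lit 371)) (XT.nd (nat_lit 78) (nat_lit 152) (nat_lit 0) (XT.lf (nat_lit 0) (nat_lit 569402294) (nat_lit 228) (nat_lit 148045714) (nat_lit 76) (nat_lit 16416953066) (nat_lit 66) (nat_lit 5) (nat_lit 69) (nat_lit 5) (nat_lit 67) (nat_lit 4) (nat_lit 457) (nat_lit 373) (nat_lit 370)) (XT.lf (nat_lit 0) (nat_lit 6727053807) (nat_lit 76) (nat_lit 6263299372) (nat_lit 76) (nat_lit 4614896683) (nat_lit 64) (nat_lit 4) (nat_lit 65) (nat_lit 5) (nat_lit 65) (nat_lit 4) (nat_lit 458) (nat_lit 373) (nat_lit 369))))) (XT.nd (nat_lit 234) (nat_lit 608) (nat_lit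 0) (XT.nd (nat_lit 78) (nat_lit 304) (nat_lit 0) (XT.lf (nat_lit 0) (nat_lit 7760512330) (nat_lit 152) (nat_lit 4530874442) (nat_lit 0) (nat_lit 5806493142) (nat_lit 62) (nat_lit 5) (nat_lit 64) (nat_lit 4) (nat_lit 62) (nat_lit 4) (nat_lit 459) (nat_lit 373) (nat_lit 368)) (XT.nd (nat_lit 78) (nat_lit 76) (nat_lit 0) (XT.lf (nat_lit 0) (nat_lit 1789933486) (nat_lit 76) (nat_lit 220283982) (nat_lit 152) (nat_lit 16602827791) (nat_lit 59) (nat_lit 5) (nat_lit 60) (nat_lit 5) (nat_lit 61) (nat_lit 4) (nat_lit 460) (nat_lit 373) (nat_lit 367)) (XT.lf (nat_lit 0) (nat_lit 8027194820) (nat_lit 76) (nat_lit 6828190937) (nat_lit 76) (nat_lit 4292696564) (nat_lit 58) (nat_lit 4) (nat_lit 59) (nat_lit 5) (nat_lit 59) (nat_lit 4) (nat_lit 461) (nat_lit 373) (nat_lit 366)))) (XT.nd (nat_lit 156) (nat_lit 304) (nat_lit 0) (XT.nd (nat_lit 78) (nat_lit 152) (nat_lit 0) (XT.lf (nat_lit 0) (nat_lit 8453216567)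 (nat_lit 152) (nat_lit 5550876790) (nat_lit 0) (nat_lit 5703629835) (nat_lit 56) (nat_lit 5) (nat_lit 58) (nat_lit 4) (nat_lit 56) (nat_lit 4) (nat_lit 462) (nat_lit 373) (nat_lit 365)) (XT.lf (nat_lit 0) (nat_lit 1431590514) (nat_lit 152) (nat_lit 117688185) (nat_lit 76) (nat_lit 18744185057) (nat_lit 54) (nat_lit 5) (nat_lit 56) (nat_lit 5) (nat_lit 55) (nat_lit 4) (nat_lit 463) (nat_lit 373) (nat_lit 364))) (XT.nd (nat_lit 78) (nat_lit 152) (nat_lit 0) (XT.lf (nat_lit 0) (nat_lit 5159213611) (nat_lit 76) (nat_lit 9466033387) (nat_lit 76) (nat_lit 6276724117) (nat_lit 52) (nat_lit 4) (nat_lit 53) (nat_lit 5) (nat_lit 53) (nat_lit 4) (nat_lit 464) (nat_lit 373) (nat_lit 363)) (XT.lf (nat_lit 0) (nat_lit 6795536429) (nat_lit 152) (nat_lit 11278909455) (nat_lit 0) (nat_lit 3464663186) (nat_lit 50) (nat_lit 5) (nat_lit 52) (nat_lit 4) (nat_lit 50) (nat_lit 4) (nat_lit 465) (nat_lit 373) (nat_lit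 362)))))) (XT.nd (nat_lit 468) (nat_lit 836) (nat_lit 0) (XT.nd (nat_lit 234) (nat_lit 304) (nat_lit 0) (XT.nd (nat_lit 78) (nat_lit 380) (nat_lit 0) (XT.lf (nat_lit 0) (nat_lit 15112880415) (nat_lit 76) (nat_lit 5323097804) (nat_lit 76) (nat_lit 1768932680) (nat_lit 49) (nat_lit 4) (nat_lit 50) (nat_lit 5) (nat_lit 50) (nat_lit 4) (nat_lit 466) (nat_lit 373) (nat_lit 361)) (XT.nd (nat_lit 78) (nat_lit 228) (nat_lit 0) (XT.lf (nat_lit 0) (nat_lit 11654242473) (nat_lit 152) (nat_lit 3248278821) (nat_lit 0) (nat_lit 7997131736) (nat_lit 47) (nat_lit 5) (nat_lit 49) (nat_lit 4) (nat_lit 47) (nat_lit 4) (nat_lit 467) (nat_lit 373) (nat_lit 360)) (XT.lf (nat_lit 0) (nat_lit 322026672) (nat_lit 76) (nat_lit 1735003242) (nat_lit 152) (nat_lit 21570549518) (nat_lit 44) (nat_lit 5) (nat_lit 45) (nat_lit 5) (nat_lit 46) (nat_lit 4) (nat_lit 468) (nat_lit 373) (nat_lit 359)))) (XT.nd (nat_lit 78) (nat_lit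 228) (nat_lit 0) (XT.lf (nat_lit 0) (nat_lit 3492379369) (nat_lit 76) (nat_lit 12408122407) (nat_lit 76) (nat_lit 8484807957) (nat_lit 43) (nat_lit 4) (nat_lit 44) (nat_lit 5) (nat_lit 44) (nat_lit 4) (nat_lit 469) (nat_lit 373) (nat_lit 358)) (XT.nd (nat_lit 78) (nat_lit 76) (nat_lit 0) (XT.lf (nat_lit 0) (nat_lit 5141357912) (nat_lit 152) (nat_lit 18874193971) (nat_lit 0) (nat_lit 1164200688) (nat_lit 41) (nat_lit 5) (nat_lit 43) (nat_lit 4) (nat_lit 41) (nat_lit 4) (nat_lit 470) (nat_lit 373) (nat_lit 357)) (XT.lf (nat_lit 0) (nat_lit 8581099644) (nat_lit 76) (nat_lit 10782430107) (nat_lit 76) (nat_lit 6645164245) (nat_lit 40) (nat_lit 4) (nat_lit 41) (nat_lit 5) (nat_lit 41) (nat_lit 4) (nat_lit 471) (nat_lit 373) (nat_lit 356))))) (XT.nd (nat_lit 234) (nat_lit 456) (nat_lit 0) (XT.nd (nat_lit 78) (nat_lit 228) (nat_lit 0) (XT.lf (nat_lit 0) (nat_lit 7269847520) (nat_lit 152) (nat_lit 16502150278)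 (nat_lit 0) (nat_lit 3105041423) (nat_lit 38) (nat_lit 5) (nat_lit 40) (nat_lit 4) (nat_lit 38) (nat_lit 4) (nat_lit 472) (nat_lit 373) (nat_lit 355)) (XT.nd (nat_lit 78) (nat_lit 152) (nat_lit 0) (XT.lf (nat_lit 0) (nat_lit 11554302859) (nat_lit 76) (nat_lit 10267976637) (nat_lit 76) (nat_lit 5962177089) (nat_lit 37) (nat_lit 4) (nat_lit 38) (nat_lit 5) (nat_lit 38) (nat_lit 4) (nat_lit 473) (nat_lit 373) (nat_lit 354)) (XT.lf (nat_lit 0) (nat_lit 8211505311) (nat_lit 152) (nat_lit 16622290332) (nat_lit 0) (nat_lit 3900748976) (nat_lit 35) (nat_lit 5) (nat_lit 37) (nat_lit 4) (nat_lit 35) (nat_lit 4) (nat_lit 474) (nat_lit 373) (nat_lit 353)))) (XT.nd (nat_lit 156) (nat_lit 228) (nat_lit 0) (XT.nd (nat_lit 78) (nat_lit 152) (nat_lit 0) (XT.lf (nat_lit 0) (nat_lit 11933286581) (nat_lit 76) (nat_lit 11114835543) (nat_lit 76) (nat_lit 6679918804) (nat_lit 34) (nat_lit 4) (nat_lit 35) (nat_lit 5)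 (nat_lit 35) (nat_lit 4) (nat_lit 475) (nat_lit 373) (nat_lit 352)) (XT.lf (nat_lit 0) (nat_lit 7708506648) (nat_lit 152) (nat_lit 19772290101) (nat_lit 0) (nat_lit 3287958354) (nat_lit 32) (nat_lit 5) (nat_lit 34) (nat_lit 4) (nat_lit 32) (nat_lit 4) (nat_lit 476) (nat_lit 373) (nat_lit 351))) (XT.nd (nat_lit 78) (nat_lit 152) (nat_lit 0) (XT.lf (nat_lit 0) (nat_lit 9145172621) (nat_lit 76) (nat_lit 13620800889) (nat_lit 76) (nat_lit 9090915560) (nat_lit 31) (nat_lit 4) (nat_lit 32) (nat_lit 5) (nat_lit 32) (nat_lit 4) (nat_lit 477) (nat_lit 373) (nat_lit 350)) (XT.lf (nat_lit 0) (nat_lit 5451800374) (nat_lit 152) (nat_lit 26593754246) (nat_lit 0) (nat_lit 952755870) (nat_lit 29) (nat_lit 5) (nat_lit 31) (nat_lit 4) (nat_lit 29) (nat_lit 4) (nat_lit 478) (nat_lit 373) (nat_lit 349))))))) (XT.nd (nat_lit 1014) (nat_lit 608) (nat_lit 0) (XT.nd (nat_lit 468) (nat_lit 456) (nat_lit 0) (XT.nd (nat_lit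 234) (nat_lit 304) (nat_lit 0) (XT.nd (nat_lit 78) (nat_lit 152) (nat_lit 0) (XT.lf (nat_lit 0) (nat_lit 2506001706) (nat_lit 76) (nat_lit 18140029163) (nat_lit 76) (nat_lit 13544701247) (nat_lit 28) (nat_lit 4) (nat_lit 29) (nat_lit 5) (nat_lit 29) (nat_lit 4) (nat_lit 479) (nat_lit 373) (nat_lit 348)) (XT.nd (nat_lit 78) (nat_lit 76) (nat_lit 0) (XT.lf (nat_lit 0) (nat_lit 1129611863) (nat_lit 152) (nat_lit 2393914320) (nat_lit 76) (nat_lit 31919066182) (nat_lit 27) (nat_lit 5) (nat_lit 29) (nat_lit 5) (nat_lit 28) (nat_lit 4) (nat_lit 480) (nat_lit 373) (nat_lit 347)) (XT.lf (nat_lit 0) (nat_lit 16378644686) (nat_lit 152) (nat_lit 8627399567) (nat_lit 0) (nat_lit 11743345368) (nat_lit 26) (nat_lit 5) (nat_lit 28) (nat_lit 4) (nat_lit 26) (nat_lit 4) (nat_lit 481) (nat_lit 373) (nat_lit 346)))) (XT.nd (nat_lit 78) (nat_lit 228) (nat_lit 0) (XT.lf (nat_lit 0) (nat_lit 21960441920) (nat_lit 76)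 (nat_lit 10438436682) (nat_lit 76) (nat_lit 5722386654) (nat_lit 25) (nat_lit 4) (nat_lit 26) (nat_lit 5) (nat_lit 26) (nat_lit 4) (nat_lit 482) (nat_lit 373) (nat_lit 345)) (XT.nd (nat_lit 78) (nat_lit 76) (nat_lit 0) (XT.lf (nat_lit 0) (nat_lit 9487423382) (nat_lit 152) (nat_lit 25236933268) (nat_lit 0) (nat_lit 4834068561) (nat_lit 23) (nat_lit 5) (nat_lit 25) (nat_lit 4) (nat_lit 23) (nat_lit 4) (nat_lit 483) (nat_lit 373) (nat_lit 344)) (XT.lf (nat_lit 0) (nat_lit 5030981512) (nat_lit 76) (nat_lit 20378561305) (nat_lit 76) (nat_lit 15654096509) (nat_lit 22) (nat_lit 4) (nat_lit 23) (nat_lit 5) (nat_lit 23) (nat_lit 4) (nat_lit 484) (nat_lit 373) (nat_lit 343))))) (XT.nd (nat_lit 234) (nat_lit 228) (nat_lit 0) (XT.nd (nat_lit 78) (nat_lit 228) (nat_lit 0) (XT.lf (nat_lit 0) (nat_lit 36848549859) (nat_lit 76) (nat_lit 5293660226) (nat_lit 76) (nat_lit 501471643) (nat_lit 22) (nat_lit 4) (nat_lit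 23) (nat_lit 5) (nat_lit 23) (nat_lit 4) (nat_lit 485) (nat_lit 373) (nat_lit 342)) (XT.nd (nat_lit 78) (nat_lit 76) (nat_lit 0) (XT.lf (nat_lit 0) (nat_lit 15223514714) (nat_lit 152) (nat_lit 18563022215) (nat_lit 0) (nat_lit 10508284203) (nat_lit 20) (nat_lit 5) (nat_lit 22) (nat_lit 4) (nat_lit 20) (nat_lit 4) (nat_lit 486) (nat_lit 373) (nat_lit 341)) (XT.lf (nat_lit 0) (nat_lit 12653731805) (nat_lit 76) (nat_lit 19074692483) (nat_lit 76) (nat_lit 14299823652) (nat_lit 19) (nat_lit 4) (nat_lit 20) (nat_lit 5) (nat_lit 20) (nat_lit 4) (nat_lit 487) (nat_lit 373) (nat_lit 340)))) (XT.nd (nat_lit 156) (nat_lit 76) (nat_lit 0) (XT.nd (nat_lit 78) (nat_lit 76) (nat_lit 0) (XT.lf (nat_lit 0) (nat_lit 1152699689) (nat_lit 152) (nat_lit 2491686860) (nat_lit 76) (nat_lit 44204628741) (nat_lit 18) (nat_lit 5) (nat_lit 20) (nat_lit 5) (nat_lit 19) (nat_lit 4) (nat_lit 488) (nat_lit 373) (nat_lit 339))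 (XT.lf (nat_lit 0) (nat_lit 17279485396) (nat_lit 152) (nat_lit 19935139271) (nat_lit 0) (nat_lit 12536028166) (nat_lit 17) (nat_lit 5) (nat_lit 19) (nat_lit 4) (nat_lit 17) (nat_lit 4) (nat_lit 489) (nat_lit 373) (nat_lit 338))) (XT.nd (nat_lit 78) (nat_lit 0) (nat_lit 0) (XT.lf (nat_lit 0) (nat_lit 11812016210) (nat_lit 76) (nat_lit 22364950256) (nat_lit 76) (nat_lit 17571475722) (nat_lit 16) (nat_lit 4) (nat_lit 17) (nat_lit 5) (nat_lit 17) (nat_lit 4) (nat_lit 490) (nat_lit 373) (nat_lit 337)) (XT.lf (nat_lit 0) (nat_lit 45150315938) (nat_lit 76) (nat_lit 6768465957) (nat_lit 76) (nat_lit 1927355895) (nat_lit 16) (nat_lit 4) (nat_lit 17) (nat_lit 5) (nat_lit 17) (nat_lit 4) (nat_lit 491) (nat_lit 373) (nat_lit 336)))))) (XT.nd (nat_lit 546) (nat_lit 152) (nat_lit 0) (XT.nd (nat_lit 234) (nat_lit 228) (nat_lit 0) (XT.nd (nat_lit 78) (nat_lit 76) (nat_lit 0) (XT.lf (nat_lit 0) (nat_lit 14343337140)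 (nat_lit 152) (nat_lit 32098197073) (nat_lit 0) (nat_lit 9599184488) (nat_lit 14) (nat_lit 5) (nat_lit 16) (nat_lit 4) (nat_lit 14) (nat_lit 4) (nat_lit 492) (nat_lit 373) (nat_lit 335)) (XT.nd (nat_lit 78) (nat_lit 76) (nat_lit 0) (XT.lf (nat_lit 0) (nat_lit 31352751205) (nat_lit 152) (nat_lit 426103899) (nat_lit 0) (nat_lit 26566650176) (nat_lit 14) (nat_lit 5) (nat_lit 16) (nat_lit 4) (nat_lit 14) (nat_lit 4) (nat_lit 493) (nat_lit 373) (nat_lit 334)) (XT.lf (nat_lit 0) (nat_lit 33104530396) (nat_lit 76) (nat_lit 16241525281) (nat_lit 76) (nat_lit 11415473417) (nat_lit 13) (nat_lit 4) (nat_lit 14) (nat_lit 5) (nat_lit 14) (nat_lit 4) (nat_lit 494) (nat_lit 373) (nat_lit 333)))) (XT.nd (nat_lit 156) (nat_lit 76) (nat_lit 0) (XT.nd (nat_lit 78) (nat_lit 0) (nat_lit 0) (XT.lf (nat_lit 0) (nat_lit 4702582785) (nat_lit 76) (nat_lit 10068969) (nat_lit 152) (nat_lit 58588226293) (nat_lit 11) (nat_lit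 5) (nat_lit 12) (nat_lit 5) (nat_lit 13) (nat_lit 4) (nat_lit 495) (nat_lit 373) (nat_lit 332)) (XT.lf (nat_lit 0) (nat_lit 21686824426) (nat_lit 152) (nat_lit 27339491982) (nat_lit 0) (nat_lit 16929215820) (nat_lit 11) (nat_lit 5) (nat_lit 13) (nat_lit 4) (nat_lit 11) (nat_lit 4) (nat_lit 496) (nat_lit 373) (nat_lit 331))) (XT.nd (nat_lit 78) (nat_lit 0) (nat_lit 0) (XT.lf (nat_lit 0) (nat_lit 5244330654) (nat_lit 76) (nat_lit 34146632805) (nat_lit 76) (nat_lit 29355518342) (nat_lit 10) (nat_lit 4) (nat_lit 11) (nat_lit 5) (nat_lit 11) (nat_lit 4) (nat_lit 497) (nat_lit 373) (nat_lit 330)) (XT.lf (nat_lit 0) (nat_lit 39698254908) (nat_lit 76) (nat_lit 18399118610) (nat_lit 76) (nat_lit 13576093806) (nat_lit 10) (nat_lit 4) (nat_lit 11) (nat_lit 5) (nat_lit 11) (nat_lit 4) (nat_lit 498) (nat_lit 373) (nat_lit 329))))) (XT.nd (nat_lit 58890) (nat_lit 0) (nat_lit 4636) (XT.nd (nat_lit 78) (nat_lit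 0) (nat_lit 0) (XT.lf (nat_lit 0) (nat_lit 797044925) (nat_lit 76) (nat_lit 1986433168) (nat_lit 152) (nat_lit 71966974480) (nat_lit 8) (nat_lit 5) (nat_lit 9) (nat_lit 5) (nat_lit 10) (nat_lit 4) (nat_lit 499) (nat_lit 373) (nat_lit 328)) (XT.nd (nat_lit 58734) (nat_lit 0) (nat_lit 5548) (XT.lf (nat_lit 0) (nat_lit 20006816418) (nat_lit 152) (nat_lit 42693979810) (nat_lit 0) (nat_lit 15266661831) (nat_lit 8) (nat_lit 5) (nat_lit 10) (nat_lit 4) (nat_lit 8) (nat_lit 4) (nat_lit 500) (nat_lit 373) (nat_lit 327)) (XT.lf (nat_lit 0) (nat_lit 2823798900) (nat_lit 152) (nat_lit 1872570639) (nat_lit 0) (nat_lit 2823798900) (nat_lit 81) (nat_lit 5) (nat_lit 83) (nat_lit 4) (nat_lit 81) (nat_lit 4) (nat_lit 452) (nat_lit 374) (nat_lit 374)))) (XT.nd (nat_lit 156) (nat_lit 456) (nat_lit 0) (XT.nd (nat_lit 78) (nat_lit 152) (nat_lit 0) (XT.lf (nat_lit 0) (nat_lit 1958390304) (nat_lit 152) (nat_lit 12021351394)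 (nat_lit 0) (nat_lit 1450415327) (nat_lit 77) (nat_lit 5) (nat_lit 79) (nat_lit 4) (nat_lit 77) (nat_lit 4) (nat_lit 453) (nat_lit 374) (nat_lit 373)) (XT.lf (nat_lit 0) (nat_lit 10619858498) (nat_lit 152) (nat_lit 3103682391) (nat_lit 152) (nat_lit 2111921723) (nat_lit 75) (nat_lit 4) (nat_lit 77) (nat_lit 5) (nat_lit 77) (nat_lit 4) (nat_lit 454) (nat_lit 374) (nat_lit 372))) (XT.nd (nat_lit 78) (nat_lit 152) (nat_lit 0) (XT.lf (nat_lit 0) (nat_lit 1595497219) (nat_lit 152) (nat_lit 8036344922) (nat_lit 152) (nat_lit 6626142060) (nat_lit 71) (nat_lit 4) (nat_lit 73) (nat_lit 5) (nat_lit 73) (nat_lit 4) (nat_lit 455) (nat_lit 374) (nat_lit 371)) (XT.lf (nat_lit 0) (nat_lit 5149625221) (nat_lit 152) (nat_lit 8182001833) (nat_lit 0) (nat_lit 3366877713) (nat_lit 69) (nat_lit 5) (nat_lit 71) (nat_lit 4) (nat_lit 69) (nat_lit 4) (nat_lit 456) (nat_lit 374) (nat_lit 370))))))))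
noncomputable def xc11 : XT := (XT.nd (nat_lit 2028) (nat_lit 1292) (nat_lit 0) (XT.nd (nat_lit 1014) (nat_lit 1444) (nat_lit 0) (XT.nd (nat_lit 468) (nat_lit 912) (nat_lit 0) (XT.nd (nat_lit 234) (nat_lit 456) (nat_lit 0) (XT.nd (nat_lit 78) (nat_lit 304) (nat_lit 0) (XT.lf (nat_lit 0) (nat_lit 217042933) (nat_lit 228) (nat_lit 1736072750) (nat_lit 76) (nat_lit 15205812194) (nat_lit 66) (nat_lit 5) (nat_lit 69) (nat_lit 5) (nat_lit 67) (nat_lit 4) (nat_lit 457) (nat_lit 374) (nat_lit 369)) (XT.nd (nat_lit 78) (nat_lit 152) (nat_lit 0) (XT.lf (nat_lit 0) (nat_lit 4694045022) (nat_lit 76) (nat_lit 7710128636) (nat_lit 76) (nat_lit 5232619809) (nat_lit 64) (nat_lit 4) (nat_lit 65) (nat_lit 5) (nat_lit 65) (nat_lit 4) (nat_lit 458) (nat_lit 374) (nat_lit 368)) (XT.lf (nat_lit 0) (nat_lit 6932393005) (nat_lit 152) (nat_lit 7013628351) (nat_lit 0) (nat_lit 4190255841) (nat_lit 62) (nat_lit 5) (nat_lit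 64) (nat_lit 4) (nat_lit 62) (nat_lit 4) (nat_lit 459) (nat_lit 374) (nat_lit 367)))) (XT.nd (nat_lit 78) (nat_lit 304) (nat_lit 0) (XT.lf (nat_lit 0) (nat_lit 934460534) (nat_lit 152) (nat_lit 1165933505) (nat_lit 76) (nat_lit 16558084743) (nat_lit 60) (nat_lit 5) (nat_lit 62) (nat_lit 5) (nat_lit 61) (nat_lit 4) (nat_lit 460) (nat_lit 374) (nat_lit 366)) (XT.nd (nat_lit 78) (nat_lit 152) (nat_lit 0) (XT.lf (nat_lit 0) (nat_lit 4602002104) (nat_lit 76) (nat_lit 8934533173) (nat_lit 76) (nat_lit 5664275163) (nat_lit 58) (nat_lit 4) (nat_lit 59) (nat_lit 5) (nat_lit 59) (nat_lit 4) (nat_lit 461) (nat_lit 374) (nat_lit 365)) (XT.lf (nat_lit 0) (nat_lit 6871711837) (nat_lit 152) (nat_lit 9473763519) (nat_lit 0) (nat_lit 3422473861) (nat_lit 56) (nat_lit 5) (nat_lit 58) (nat_lit 4) (nat_lit 56) (nat_lit 4) (nat_lit 462) (nat_lit 374) (nat_lit 364))))) (XT.nd (nat_lit 234) (nat_lit 456) (nat_lit 0)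 (XT.nd (nat_lit 78) (nat_lit 380) (nat_lit 0) (XT.lf (nat_lit 0) (nat_lit 15843703037) (nat_lit 76) (nat_lit 4113636326) (nat_lit 76) (nat_lit 403226731) (nat_lit 55) (nat_lit 4) (nat_lit 56) (nat_lit 5) (nat_lit 56) (nat_lit 4) (nat_lit 463) (nat_lit 374) (nat_lit 363)) (XT.nd (nat_lit 78) (nat_lit 152) (nat_lit 0) (XT.lf (nat_lit 0) (nat_lit 193427755) (nat_lit 76) (nat_lit 12314157208) (nat_lit 76) (nat_lit 8470327626) (nat_lit 52) (nat_lit 4) (nat_lit 53) (nat_lit 5) (nat_lit 53) (nat_lit 4) (nat_lit 464) (nat_lit 374) (nat_lit 362)) (XT.lf (nat_lit 0) (nat_lit 4391195310) (nat_lit 152) (nat_lit 16796065404) (nat_lit 0) (nat_lit 436030048) (nat_lit 50) (nat_lit 5) (nat_lit 52) (nat_lit 4) (nat_lit 50) (nat_lit 4) (nat_lit 465) (nat_lit 374) (nat_lit 361)))) (XT.nd (nat_lit 156) (nat_lit 228) (nat_lit 0) (XT.nd (nat_lit 78) (nat_lit 152) (nat_lit 0) (XT.lf (nat_lit 0) (nat_lit 9149240383) (nat_lit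 76) (nat_lit 8657216546) (nat_lit 76) (nat_lit 4489392350) (nat_lit 49) (nat_lit 4) (nat_lit 50) (nat_lit 5) (nat_lit 50) (nat_lit 4) (nat_lit 466) (nat_lit 374) (nat_lit 360)) (XT.lf (nat_lit 0) (nat_lit 8725575993) (nat_lit 152) (nat_lit 9791128495) (nat_lit 0) (nat_lit 4482511415) (nat_lit 47) (nat_lit 5) (nat_lit 49) (nat_lit 4) (nat_lit 47) (nat_lit 4) (nat_lit 467) (nat_lit 374) (nat_lit 359))) (XT.nd (nat_lit 78) (nat_lit 152) (nat_lit 0) (XT.lf (nat_lit 0) (nat_lit 16966817927) (nat_lit 76) (nat_lit 5599105905) (nat_lit 76) (nat_lit 1168771501) (nat_lit 46) (nat_lit 4) (nat_lit 47) (nat_lit 5) (nat_lit 47) (nat_lit 4) (nat_lit 468) (nat_lit 374) (nat_lit 358)) (XT.lf (nat_lit 0) (nat_lit 12397138581) (nat_lit 152) (nat_lit 4181950657) (nat_lit 0) (nat_lit 7922685550) (nat_lit 44) (nat_lit 5) (nat_lit 46) (nat_lit 4) (nat_lit 44) (nat_lit 4) (nat_lit 469) (nat_lit 374) (nat_lit 357))))))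 (XT.nd (nat_lit 468) (nat_lit 684) (nat_lit 0) (XT.nd (nat_lit 234) (nat_lit 304) (nat_lit 0) (XT.nd (nat_lit 78) (nat_lit 304) (nat_lit 0) (XT.lf (nat_lit 0) (nat_lit 1319154098) (nat_lit 152) (nat_lit 1961482108) (nat_lit 76) (nat_lit 22024816611) (nat_lit 42) (nat_lit 5) (nat_lit 44) (nat_lit 5) (nat_lit 43) (nat_lit 4) (nat_lit 470) (nat_lit 374) (nat_lit 356)) (XT.nd (nat_lit 78) (nat_lit 228) (nat_lit 0) (XT.lf (nat_lit 0) (nat_lit 15251607382) (nat_lit 152) (nat_lit 296594167) (nat_lit 0) (nat_lit 10594885170) (nat_lit 41) (nat_lit 5) (nat_lit 43) (nat_lit 4) (nat_lit 41) (nat_lit 4) (nat_lit 471) (nat_lit 374) (nat_lit 355)) (XT.lf (nat_lit 0) (nat_lit 940512020) (nat_lit 76) (nat_lit 1888284770) (nat_lit 152) (nat_lit 24192188445) (nat_lit 38) (nat_lit 5) (nat_lit 39) (nat_lit 5) (nat_lit 40) (nat_lit 4) (nat_lit 472) (nat_lit 374) (nat_lit 354)))) (XT.nd (nat_lit 78) (nat_lit 228) (nat_lit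 0) (XT.lf (nat_lit 0) (nat_lit 1499790647) (nat_lit 76) (nat_lit 15616462247) (nat_lit 76) (nat_lit 10820099793) (nat_lit 37) (nat_lit 4) (nat_lit 38) (nat_lit 5) (nat_lit 38) (nat_lit 4) (nat_lit 473) (nat_lit 374) (nat_lit 353)) (XT.nd (nat_lit 78) (nat_lit 76) (nat_lit 0) (XT.lf (nat_lit 0) (nat_lit 1491387135) (nat_lit 76) (nat_lit 1669024098) (nat_lit 152) (nat_lit 25736070165) (nat_lit 35) (nat_lit 5) (nat_lit 36) (nat_lit 5) (nat_lit 37) (nat_lit 4) (nat_lit 474) (nat_lit 374) (nat_lit 352)) (XT.lf (nat_lit 0) (nat_lit 659459671) (nat_lit 76) (nat_lit 17068826003) (nat_lit 76) (nat_lit 12169755019) (nat_lit 34) (nat_lit 4) (nat_lit 35) (nat_lit 5) (nat_lit 35) (nat_lit 4) (nat_lit 475) (nat_lit 374) (nat_lit 351))))) (XT.nd (nat_lit 234) (nat_lit 456) (nat_lit 0) (XT.nd (nat_lit 78) (nat_lit 152) (nat_lit 0) (XT.lf (nat_lit 0) (nat_lit 2046014526) (nat_lit 152) (nat_lit 858278641) (nat_lit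 76) (nat_lit 28044438981) (nat_lit 33) (nat_lit 5) (nat_lit 35) (nat_lit 5) (nat_lit 34) (nat_lit 4) (nat_lit 476) (nat_lit 374) (nat_lit 350)) (XT.nd (nat_lit 78) (nat_lit 76) (nat_lit 0) (XT.lf (nat_lit 0) (nat_lit 16840433485) (nat_lit 152) (nat_lit 3333738353) (nat_lit 0) (nat_lit 11870586344) (nat_lit 32) (nat_lit 5) (nat_lit 34) (nat_lit 4) (nat_lit 32) (nat_lit 4) (nat_lit 477) (nat_lit 374) (nat_lit 349)) (XT.lf (nat_lit 0) (nat_lit 26530051283) (nat_lit 76) (nat_lit 5866940976) (nat_lit 76) (nat_lit 797921920) (nat_lit 31) (nat_lit 4) (nat_lit 32) (nat_lit 5) (nat_lit 32) (nat_lit 4) (nat_lit 478) (nat_lit 374) (nat_lit 348)))) (XT.nd (nat_lit 156) (nat_lit 228) (nat_lit 0) (XT.nd (nat_lit 78) (nat_lit 76) (nat_lit 0) (XT.lf (nat_lit 0) (nat_lit 14132055153) (nat_lit 152) (nat_lit 11144927080) (nat_lit 0) (nat_lit 9118978941) (nat_lit 29) (nat_lit 5) (nat_lit 31) (nat_lit 4) (nat_lit 29)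 (nat_lit 4) (nat_lit 479) (nat_lit 374) (nat_lit 347)) (XT.lf (nat_lit 0) (nat_lit 18928863909) (nat_lit 76) (nat_lit 10913430412) (nat_lit 76) (nat_lit 5813022307) (nat_lit 28) (nat_lit 4) (nat_lit 29) (nat_lit 5) (nat_lit 29) (nat_lit 4) (nat_lit 480) (nat_lit 374) (nat_lit 346))) (XT.nd (nat_lit 78) (nat_lit 76) (nat_lit 0) (XT.lf (nat_lit 0) (nat_lit 9208306389) (nat_lit 152) (nat_lit 23590015294) (nat_lit 0) (nat_lit 4175703150) (nat_lit 26) (nat_lit 5) (nat_lit 28) (nat_lit 4) (nat_lit 26) (nat_lit 4) (nat_lit 481) (nat_lit 374) (nat_lit 345)) (XT.lf (nat_lit 0) (nat_lit 6451186818) (nat_lit 76) (nat_lit 18506179013) (nat_lit 76) (nat_lit 13396670336) (nat_lit 25) (nat_lit 4) (nat_lit 26) (nat_lit 5) (nat_lit 26) (nat_lit 4) (nat_lit 482) (nat_lit 374) (nat_lit 344))))))) (XT.nd (nat_lit 1014) (nat_lit 380) (nat_lit 0) (XT.nd (nat_lit 468) (nat_lit 456) (nat_lit 0) (XT.nd (nat_lit 234) (nat_lit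 228) (nat_lit 0) (XT.nd (nat_lit 78) (nat_lit 152) (nat_lit 0) (XT.lf (nat_lit 0) (nat_lit 1657634929) (nat_lit 152) (nat_lit 1817753044) (nat_lit 76) (nat_lit 36327179405) (nat_lit 24) (nat_lit 5) (nat_lit 26) (nat_lit 5) (nat_lit 25) (nat_lit 4) (nat_lit 483) (nat_lit 374) (nat_lit 343)) (XT.nd (nat_lit 78) (nat_lit 76) (nat_lit 0) (XT.lf (nat_lit 0) (nat_lit 17362608307) (nat_lit 152) (nat_lit 11688601467) (nat_lit 0) (nat_lit 12263086510) (nat_lit 23) (nat_lit 5) (nat_lit 25) (nat_lit 4) (nat_lit 23) (nat_lit 4) (nat_lit 484) (nat_lit 374) (nat_lit 342)) (XT.lf (nat_lit 0) (nat_lit 19668178259) (nat_lit 76) (nat_lit 14198519398) (nat_lit 76) (nat_lit 9034498757) (nat_lit 22) (nat_lit 4) (nat_lit 23) (nat_lit 5) (nat_lit 23) (nat_lit 4) (nat_lit 485) (nat_lit 374) (nat_lit 341)))) (XT.nd (nat_lit 78) (nat_lit 76) (nat_lit 0) (XT.lf (nat_lit 0) (nat_lit 6485886237) (nat_lit 152) (nat_lit 36667408380)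 (nat_lit 0) (nat_lit 1412635644) (nat_lit 20) (nat_lit 5) (nat_lit 22) (nat_lit 4) (nat_lit 20) (nat_lit 4) (nat_lit 486) (nat_lit 374) (nat_lit 340)) (XT.nd (nat_lit 78) (nat_lit 76) (nat_lit 0) (XT.lf (nat_lit 0) (nat_lit 22761674531) (nat_lit 152) (nat_lit 5912930981) (nat_lit 0) (nat_lit 17631625537) (nat_lit 20) (nat_lit 5) (nat_lit 22) (nat_lit 4) (nat_lit 20) (nat_lit 4) (nat_lit 487) (nat_lit 374) (nat_lit 339)) (XT.lf (nat_lit 0) (nat_lit 26475443149) (nat_lit 76) (nat_lit 13420453881) (nat_lit 76) (nat_lit 8236311173) (nat_lit 19) (nat_lit 4) (nat_lit 20) (nat_lit 5) (nat_lit 20) (nat_lit 4) (nat_lit 488) (nat_lit 374) (nat_lit 338))))) (XT.nd (nat_lit 234) (nat_lit 228) (nat_lit 0) (XT.nd (nat_lit 78) (nat_lit 76) (nat_lit 0) (XT.lf (nat_lit 0) (nat_lit 7664113890) (nat_lit 152) (nat_lit 39802771429) (nat_lit 0) (nat_lit 2580948324) (nat_lit 17) (nat_lit 5) (nat_lit 19) (nat_lit 4) (nat_lit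 17) (nat_lit 4) (nat_lit 489) (nat_lit 374) (nat_lit 337)) (XT.nd (nat_lit 78) (nat_lit 76) (nat_lit 0) (XT.lf (nat_lit 0) (nat_lit 24349618301) (nat_lit 152) (nat_lit 8483547077) (nat_lit 0) (nat_lit 19218817208) (nat_lit 17) (nat_lit 5) (nat_lit 19) (nat_lit 4) (nat_lit 17) (nat_lit 4) (nat_lit 490) (nat_lit 374) (nat_lit 336)) (XT.lf (nat_lit 0) (nat_lit 24494136749) (nat_lit 76) (nat_lit 17418536397) (nat_lit 76) (nat_lit 12242368135) (nat_lit 16) (nat_lit 4) (nat_lit 17) (nat_lit 5) (nat_lit 17) (nat_lit 4) (nat_lit 491) (nat_lit 374) (nat_lit 335)))) (XT.nd (nat_lit 156) (nat_lit 76) (nat_lit 0) (XT.nd (nat_lit 78) (nat_lit 0) (nat_lit 0) (XT.lf (nat_lit 0) (nat_lit 2570107340) (nat_lit 76) (nat_lit 1267076123) (nat_lit 152) (nat_lit 52527186341) (nat_lit 14) (nat_lit 5) (nat_lit 15) (nat_lit 5) (nat_lit 16) (nat_lit 4) (nat_lit 492) (nat_lit 374) (nat_lit 334)) (XT.lf (nat_lit 0) (nat_lit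 20744270645) (nat_lit 152) (nat_lit 22290990434) (nat_lit 0) (nat_lit 15636965353) (nat_lit 14) (nat_lit 5) (nat_lit 16) (nat_lit 4) (nat_lit 14) (nat_lit 4) (nat_lit 493) (nat_lit 374) (nat_lit 333))) (XT.nd (nat_lit 78) (nat_lit 0) (nat_lit 0) (XT.lf (nat_lit 0) (nat_lit 10628677051) (nat_lit 76) (nat_lit 27806992153) (nat_lit 76) (nat_lit 22661638447) (nat_lit 13) (nat_lit 4) (nat_lit 14) (nat_lit 5) (nat_lit 14) (nat_lit 4) (nat_lit 494) (nat_lit 374) (nat_lit 332)) (XT.lf (nat_lit 0) (nat_lit 45316890692) (nat_lit 76) (nat_lit 11753293296) (nat_lit 76) (nat_lit 6571703004) (nat_lit 13) (nat_lit 4) (nat_lit 14) (nat_lit 5) (nat_lit 14) (nat_lit 4) (nat_lit 495) (nat_lit 374) (nat_lit 331)))))) (XT.nd (nat_lit 59046) (nat_lit 0) (nat_lit 4256) (XT.nd (nat_lit 234) (nat_lit 152) (nat_lit 0) (XT.nd (nat_lit 78) (nat_lit 76) (nat_lit 0) (XT.lf (nat_lit 0) (nat_lit 10153824885) (nat_lit 152) (nat_lit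 51066269257) (nat_lit 0) (nat_lit 5089648841) (nat_lit 11) (nat_lit 5) (nat_lit 13) (nat_lit 4) (nat_lit 11) (nat_lit 4) (nat_lit 496) (nat_lit 374) (nat_lit 330)) (XT.nd (nat_lit 78) (nat_lit 76) (nat_lit 0) (XT.lf (nat_lit 0) (nat_lit 27728920095) (nat_lit 152) (nat_lit 18742810257) (nat_lit 0) (nat_lit 22632833710) (nat_lit 11) (nat_lit 5) (nat_lit 13) (nat_lit 4) (nat_lit 11) (nat_lit 4) (nat_lit 497) (nat_lit 374) (nat_lit 329)) (XT.lf (nat_lit 0) (nat_lit 15184597302) (nat_lit 76) (nat_lit 30990616570) (nat_lit 76) (nat_lit 25864139385) (nat_lit 10) (nat_lit 4) (nat_lit 11) (nat_lit 5) (nat_lit 11) (nat_lit 4) (nat_lit 498) (nat_lit 374) (nat_lit 328)))) (XT.nd (nat_lit 58656) (nat_lit 0) (nat_lit 5700) (XT.nd (nat_lit 78) (nat_lit 152) (nat_lit 0) (XT.lf (nat_lit 0) (nat_lit 50900358240) (nat_lit 76) (nat_lit 14687314660) (nat_lit 76) (nat_lit 9531893855) (nat_lit 10) (nat_lit 4) (nat_lit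 11) (nat_lit 5) (nat_lit 11) (nat_lit 4) (nat_lit 499) (nat_lit 374) (nat_lit 327)) (XT.lf (nat_lit 0) (nat_lit 7443542018) (nat_lit 152) (nat_lit 68497279674) (nat_lit 0) (nat_lit 2411516623) (nat_lit 8) (nat_lit 5) (nat_lit 10) (nat_lit 4) (nat_lit 8) (nat_lit 4) (nat_lit 500) (nat_lit 374) (nat_lit 326))) (XT.nd (nat_lit 78) (nat_lit 304) (nat_lit 0) (XT.lf (nat_lit 0) (nat_lit 5605078804) (nat_lit 152) (nat_lit 773349803) (nat_lit 152) (nat_lit 773349803) (nat_lit 87) (nat_lit 4) (nat_lit 89) (nat_lit 5) (nat_lit 89) (nat_lit 4) (nat_lit 450) (nat_lit 375) (nat_lit 375)) (XT.lf (nat_lit 0) (nat_lit 3868143651) (nat_lit 152) (nat_lit 5682297867) (nat_lit 152) (nat_lit 5116441682) (nat_lit 83) (nat_lit 4) (nat_lit 85) (nat_lit 5) (nat_lit 85) (nat_lit 4) (nat_lit 451) (nat_lit 375) (nat_lit 374))))) (XT.nd (nat_lit 234) (nat_lit 836) (nat_lit 0) (XT.nd (nat_lit 78) (nat_lit 456) (nat_lit 0) (XT.lf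 (nat_lit 0) (nat_lit 6006326916) (nat_lit 152) (nat_lit 4105994745) (nat_lit 0) (nat_lit 4933737752) (nat_lit 81) (nat_lit 5) (nat_lit 83) (nat_lit 4) (nat_lit 81) (nat_lit 4) (nat_lit 452) (nat_lit 375) (nat_lit 373)) (XT.nd (nat_lit 78) (nat_lit 152) (nat_lit 0) (XT.lf (nat_lit 0) (nat_lit 2098394220) (nat_lit 152) (nat_lit 12770310059) (nat_lit 0) (nat_lit 573259826) (nat_lit 77) (nat_lit 5) (nat_lit 79) (nat_lit 4) (nat_lit 77) (nat_lit 4) (nat_lit 453) (nat_lit 375) (nat_lit 372)) (XT.lf (nat_lit 0) (nat_lit 9501120957) (nat_lit 152) (nat_lit 4168919657) (nat_lit 152) (nat_lit 2183036985) (nat_lit 75) (nat_lit 4) (nat_lit 77) (nat_lit 5) (nat_lit 77) (nat_lit 4) (nat_lit 454) (nat_lit 375) (nat_lit 371)))) (XT.nd (nat_lit 156) (nat_lit 380) (nat_lit 0) (XT.nd (nat_lit 78) (nat_lit 152) (nat_lit 0) (XT.lf (nat_lit 0) (nat_lit 47182825) (nat_lit 152) (nat_lit 9294559555) (nat_lit 152) (nat_lit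 6940491054) (nat_lit 71) (nat_lit 4) (nat_lit 73) (nat_lit 5) (nat_lit 73) (nat_lit 4) (nat_lit 455) (nat_lit 375) (nat_lit 370)) (XT.lf (nat_lit 0) (nat_lit 4628437689) (nat_lit 152) (nat_lit 10151786629) (nat_lit 0) (nat_lit 1949011893) (nat_lit 69) (nat_lit 5) (nat_lit 71) (nat_lit 4) (nat_lit 69) (nat_lit 4) (nat_lit 456) (nat_lit 375) (nat_lit 369))) (XT.nd (nat_lit 78) (nat_lit 228) (nat_lit 0) (XT.lf (nat_lit 0) (nat_lit 13069796523) (nat_lit 152) (nat_lit 3590246298) (nat_lit 152) (nat_lit 535656314) (nat_lit 67) (nat_lit 4) (nat_lit 69) (nat_lit 5) (nat_lit 69) (nat_lit 4) (nat_lit 457) (nat_lit 375) (nat_lit 368)) (XT.lf (nat_lit 0) (nat_lit 1841059249) (nat_lit 76) (nat_lit 9576257079) (nat_lit 76) (nat_lit 6263743284) (nat_lit 64) (nat_lit 4) (nat_lit 65) (nat_lit 5) (nat_lit 65) (nat_lit 4) (nat_lit 458) (nat_lit 375) (nat_lit 367))))))))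
noncomputable def xc12 : XT := (XT.nd (nat_lit 2028) (nat_lit 988) (nat_lit 0) (XT.nd (nat_lit 1014) (nat_lit 1368) (nat_lit 0) (XT.nd (nat_lit 468) (nat_lit 912) (nat_lit 0) (XT.nd (nat_lit 234) (nat_lit 380) (nat_lit 0) (XT.nd (nat_lit 78) (nat_lit 304) (nat_lit 0) (XT.lf (nat_lit 0) (nat_lit 5695622356) (nat_lit 152) (nat_lit 10333155001) (nat_lit 0) (nat_lit 2158838318) (nat_lit 62) (nat_lit 5) (nat_lit 64) (nat_lit 4) (nat_lit 62) (nat_lit 4) (nat_lit 459) (nat_lit 375) (nat_lit 366)) (XT.nd (nat_lit 78) (nat_lit 228) (nat_lit 0) (XT.lf (nat_lit 0) (nat_lit 13778727561) (nat_lit 76) (nat_lit 4389909945) (nat_lit 76) (nat_lit 547648547) (nat_lit 61) (nat_lit 4) (nat_lit 62) (nat_lit 5) (nat_lit 62) (nat_lit 4) (nat_lit 460) (nat_lit 375) (nat_lit 365)) (XT.lf (nat_lit 0) (nat_lit 305245556) (nat_lit 76) (nat_lit 11487259007) (nat_lit 76) (nat_lit 7474451030) (nat_lit 58) (nat_lit 4) (nat_lit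 59) (nat_lit 5) (nat_lit 59) (nat_lit 4) (nat_lit 461) (nat_lit 375) (nat_lit 364)))) (XT.nd (nat_lit 78) (nat_lit 228) (nat_lit 0) (XT.lf (nat_lit 0) (nat_lit 4855782413) (nat_lit 152) (nat_lit 14287387126) (nat_lit 0) (nat_lit 698680721) (nat_lit 56) (nat_lit 5) (nat_lit 58) (nat_lit 4) (nat_lit 56) (nat_lit 4) (nat_lit 462) (nat_lit 375) (nat_lit 363)) (XT.nd (nat_lit 78) (nat_lit 152) (nat_lit 0) (XT.lf (nat_lit 0) (nat_lit 10605165621) (nat_lit 76) (nat_lit 7120801436) (nat_lit 76) (nat_lit 2714964868) (nat_lit 55) (nat_lit 4) (nat_lit 56) (nat_lit 5) (nat_lit 56) (nat_lit 4) (nat_lit 463) (nat_lit 375) (nat_lit 362)) (XT.lf (nat_lit 0) (nat_lit 9991078545) (nat_lit 152) (nat_lit 5591787599) (nat_lit 0) (nat_lit 5483576677) (nat_lit 53) (nat_lit 5) (nat_lit 55) (nat_lit 4) (nat_lit 53) (nat_lit 4) (nat_lit 464) (nat_lit 375) (nat_lit 361))))) (XT.nd (nat_lit 234) (nat_lit 456) (nat_lit 0)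 (XT.nd (nat_lit 78) (nat_lit 304) (nat_lit 0) (XT.lf (nat_lit 0) (nat_lit 1567736152) (nat_lit 152) (nat_lit 1544036181) (nat_lit 76) (nat_lit 18608878867) (nat_lit 51) (nat_lit 5) (nat_lit 53) (nat_lit 5) (nat_lit 52) (nat_lit 4) (nat_lit 465) (nat_lit 375) (nat_lit 360)) (XT.nd (nat_lit 78) (nat_lit 152) (nat_lit 0) (XT.lf (nat_lit 0) (nat_lit 2230087097) (nat_lit 76) (nat_lit 12481338828) (nat_lit 76) (nat_lit 7689932169) (nat_lit 49) (nat_lit 4) (nat_lit 50) (nat_lit 5) (nat_lit 50) (nat_lit 4) (nat_lit 466) (nat_lit 375) (nat_lit 359)) (XT.lf (nat_lit 0) (nat_lit 5319944209) (nat_lit 152) (nat_lit 17312907730) (nat_lit 0) (nat_lit 480823256) (nat_lit 47) (nat_lit 5) (nat_lit 49) (nat_lit 4) (nat_lit 47) (nat_lit 4) (nat_lit 467) (nat_lit 375) (nat_lit 358)))) (XT.nd (nat_lit 156) (nat_lit 228) (nat_lit 0) (XT.nd (nat_lit 78) (nat_lit 152) (nat_lit 0) (XT.lf (nat_lit 0) (nat_lit 8986509447)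 (nat_lit 76) (nat_lit 9943513745) (nat_lit 76) (nat_lit 4926040576) (nat_lit 46) (nat_lit 4) (nat_lit 47) (nat_lit 5) (nat_lit 47) (nat_lit 4) (nat_lit 468) (nat_lit 375) (nat_lit 357)) (XT.lf (nat_lit 0) (nat_lit 8436311604) (nat_lit 152) (nat_lit 12796155870) (nat_lit 0) (nat_lit 3400066533) (nat_lit 44) (nat_lit 5) (nat_lit 46) (nat_lit 4) (nat_lit 44) (nat_lit 4) (nat_lit 469) (nat_lit 375) (nat_lit 356))) (XT.nd (nat_lit 78) (nat_lit 152) (nat_lit 0) (XT.lf (nat_lit 0) (nat_lit 14274221570) (nat_lit 76) (nat_lit 8181364248) (nat_lit 76) (nat_lit 2988060227) (nat_lit 43) (nat_lit 4) (nat_lit 44) (nat_lit 5) (nat_lit 44) (nat_lit 4) (nat_lit 470) (nat_lit 375) (nat_lit 355)) (XT.lf (nat_lit 0) (nat_lit 10715590351) (nat_lit 152) (nat_lit 10046841122) (nat_lit 0) (nat_lit 5528324358) (nat_lit 41) (nat_lit 5) (nat_lit 43) (nat_lit 4) (nat_lit 41) (nat_lit 4) (nat_lit 471) (nat_lit 375) (nat_lit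 354)))))) (XT.nd (nat_lit 468) (nat_lit 684) (nat_lit 0) (XT.nd (nat_lit 234) (nat_lit 380) (nat_lit 0) (XT.nd (nat_lit 78) (nat_lit 228) (nat_lit 0) (XT.lf (nat_lit 0) (nat_lit 17741173496) (nat_lit 76) (nat_lit 7380679411) (nat_lit 76) (nat_lit 2055105556) (nat_lit 40) (nat_lit 4) (nat_lit 41) (nat_lit 5) (nat_lit 41) (nat_lit 4) (nat_lit 472) (nat_lit 375) (nat_lit 353)) (XT.nd (nat_lit 78) (nat_lit 76) (nat_lit 0) (XT.lf (nat_lit 0) (nat_lit 11968793041) (nat_lit 152) (nat_lit 9462788321) (nat_lit 0) (nat_lit 6670447772) (nat_lit 38) (nat_lit 5) (nat_lit 40) (nat_lit 4) (nat_lit 38) (nat_lit 4) (nat_lit 473) (nat_lit 375) (nat_lit 352)) (XT.lf (nat_lit 0) (nat_lit 18964253961) (nat_lit 76) (nat_lit 7763174910) (nat_lit 76) (nat_lit 2343034197) (nat_lit 37) (nat_lit 4) (nat_lit 38) (nat_lit 5) (nat_lit 38) (nat_lit 4) (nat_lit 474) (nat_lit 375) (nat_lit 351)))) (XT.nd (nat_lit 78) (nat_lit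 228) (nat_lit 0) (XT.lf (nat_lit 0) (nat_lit 11968124948) (nat_lit 152) (nat_lit 11520411601) (nat_lit 0) (nat_lit 6593235264) (nat_lit 35) (nat_lit 5) (nat_lit 37) (nat_lit 4) (nat_lit 35) (nat_lit 4) (nat_lit 475) (nat_lit 375) (nat_lit 350)) (XT.nd (nat_lit 78) (nat_lit 152) (nat_lit 0) (XT.lf (nat_lit 0) (nat_lit 17436397734) (nat_lit 76) (nat_lit 9593102143) (nat_lit 76) (nat_lit 4110958034) (nat_lit 34) (nat_lit 4) (nat_lit 35) (nat_lit 5) (nat_lit 35) (nat_lit 4) (nat_lit 476) (nat_lit 375) (nat_lit 349)) (XT.lf (nat_lit 0) (nat_lit 10440080253) (nat_lit 152) (nat_lit 16788859480) (nat_lit 0) (nat_lit 5018438330) (nat_lit 32) (nat_lit 5) (nat_lit 34) (nat_lit 4) (nat_lit 32) (nat_lit 4) (nat_lit 477) (nat_lit 375) (nat_lit 348))))) (XT.nd (nat_lit 234) (nat_lit 380) (nat_lit 0) (XT.nd (nat_lit 78) (nat_lit 228) (nat_lit 0) (XT.lf (nat_lit 0) (nat_lit 12551452289) (nat_lit 76) (nat_lit 13184989807)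 (nat_lit 76) (nat_lit 7668898441) (nat_lit 31) (nat_lit 4) (nat_lit 32) (nat_lit 5) (nat_lit 32) (nat_lit 4) (nat_lit 478) (nat_lit 375) (nat_lit 347)) (XT.nd (nat_lit 78) (nat_lit 76) (nat_lit 0) (XT.lf (nat_lit 0) (nat_lit 7057325966) (nat_lit 152) (nat_lit 25946612876) (nat_lit 0) (nat_lit 1614565563) (nat_lit 29) (nat_lit 5) (nat_lit 31) (nat_lit 4) (nat_lit 29) (nat_lit 4) (nat_lit 479) (nat_lit 375) (nat_lit 346)) (XT.lf (nat_lit 0) (nat_lit 3586418100) (nat_lit 76) (nat_lit 18912714437) (nat_lit 76) (nat_lit 13386780802) (nat_lit 28) (nat_lit 4) (nat_lit 29) (nat_lit 5) (nat_lit 29) (nat_lit 4) (nat_lit 480) (nat_lit 375) (nat_lit 345)))) (XT.nd (nat_lit 156) (nat_lit 228) (nat_lit 0) (XT.nd (nat_lit 78) (nat_lit 76) (nat_lit 0) (XT.lf (nat_lit 0) (nat_lit 1493731277) (nat_lit 152) (nat_lit 2572871741) (nat_lit 76) (nat_lit 33148861337) (nat_lit 27) (nat_lit 5) (nat_lit 29) (nat_lit 5) (nat_lit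 28) (nat_lit 4) (nat_lit 481) (nat_lit 375) (nat_lit 344)) (XT.lf (nat_lit 0) (nat_lit 16999937096) (nat_lit 152) (nat_lit 10118020370) (nat_lit 0) (nat_lit 11484804272) (nat_lit 26) (nat_lit 5) (nat_lit 28) (nat_lit 4) (nat_lit 26) (nat_lit 4) (nat_lit 482) (nat_lit 375) (nat_lit 343))) (XT.nd (nat_lit 78) (nat_lit 152) (nat_lit 0) (XT.lf (nat_lit 0) (nat_lit 21005259665) (nat_lit 76) (nat_lit 12318886364) (nat_lit 76) (nat_lit 6733998041) (nat_lit 25) (nat_lit 4) (nat_lit 26) (nat_lit 5) (nat_lit 26) (nat_lit 4) (nat_lit 483) (nat_lit 375) (nat_lit 342)) (XT.lf (nat_lit 0) (nat_lit 8734935363) (nat_lit 152) (nat_lit 29599688430) (nat_lit 0) (nat_lit 3248214847) (nat_lit 23) (nat_lit 5) (nat_lit 25) (nat_lit 4) (nat_lit 23) (nat_lit 4) (nat_lit 484) (nat_lit 375) (nat_lit 341))))))) (XT.nd (nat_lit 1014) (nat_lit 76) (nat_lit 0) (XT.nd (nat_lit 468) (nat_lit 456) (nat_lit 0) (XT.nd (nat_lit 234)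 (nat_lit 228) (nat_lit 0) (XT.nd (nat_lit 78) (nat_lit 152) (nat_lit 0) (XT.lf (nat_lit 0) (nat_lit 1183327896) (nat_lit 76) (nat_lit 23771541939) (nat_lit 76) (nat_lit 18223393952) (nat_lit 22) (nat_lit 4) (nat_lit 23) (nat_lit 5) (nat_lit 23) (nat_lit 4) (nat_lit 485) (nat_lit 375) (nat_lit 340)) (XT.nd (nat_lit 78) (nat_lit 152) (nat_lit 0) (XT.lf (nat_lit 0) (nat_lit 33699793676) (nat_lit 76) (nat_lit 8378767388) (nat_lit 76) (nat_lit 2772117049) (nat_lit 22) (nat_lit 4) (nat_lit 23) (nat_lit 5) (nat_lit 23) (nat_lit 4) (nat_lit 486) (nat_lit 375) (nat_lit 339)) (XT.lf (nat_lit 0) (nat_lit 13264451103) (nat_lit 152) (nat_lit 25569119423) (nat_lit 0) (nat_lit 7767007544) (nat_lit 20) (nat_lit 5) (nat_lit 22) (nat_lit 4) (nat_lit 20) (nat_lit 4) (nat_lit 487) (nat_lit 375) (nat_lit 338)))) (XT.nd (nat_lit 78) (nat_lit 152) (nat_lit 0) (XT.lf (nat_lit 0) (nat_lit 6228835558) (nat_lit 76) (nat_lit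 23877722414) (nat_lit 76) (nat_lit 18328761032) (nat_lit 19) (nat_lit 4) (nat_lit 20) (nat_lit 5) (nat_lit 20) (nat_lit 4) (nat_lit 488) (nat_lit 375) (nat_lit 337)) (XT.nd (nat_lit 78) (nat_lit 152) (nat_lit 0) (XT.lf (nat_lit 0) (nat_lit 39762049550) (nat_lit 76) (nat_lit 8097850067) (nat_lit 76) (nat_lit 2499824091) (nat_lit 19) (nat_lit 4) (nat_lit 20) (nat_lit 5) (nat_lit 20) (nat_lit 4) (nat_lit 489) (nat_lit 375) (nat_lit 336)) (XT.lf (nat_lit 0) (nat_lit 13957946856) (nat_lit 152) (nat_lit 29937339374) (nat_lit 0) (nat_lit 8477603011) (nat_lit 17) (nat_lit 5) (nat_lit 19) (nat_lit 4) (nat_lit 17) (nat_lit 4) (nat_lit 490) (nat_lit 375) (nat_lit 335))))) (XT.nd (nat_lit 234) (nat_lit 228) (nat_lit 0) (XT.nd (nat_lit 78) (nat_lit 152) (nat_lit 0) (XT.lf (nat_lit 0) (nat_lit 2430727460) (nat_lit 76) (nat_lit 28788906225) (nat_lit 76) (nat_lit 23265355551) (nat_lit 16) (nat_lit 4) (nat_lit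 17) (nat_lit 5) (nat_lit 17) (nat_lit 4) (nat_lit 491) (nat_lit 375) (nat_lit 334)) (XT.nd (nat_lit 78) (nat_lit 152) (nat_lit 0) (XT.lf (nat_lit 0) (nat_lit 36686208419) (nat_lit 76) (nat_lit 12788636577) (nat_lit 76) (nat_lit 7223936543) (nat_lit 16) (nat_lit 4) (nat_lit 17) (nat_lit 5) (nat_lit 17) (nat_lit 4) (nat_lit 492) (nat_lit 375) (nat_lit 333)) (XT.lf (nat_lit 0) (nat_lit 9429364824) (nat_lit 152) (nat_lit 45602504307) (nat_lit 0) (nat_lit 3988695017) (nat_lit 14) (nat_lit 5) (nat_lit 16) (nat_lit 4) (nat_lit 14) (nat_lit 4) (nat_lit 493) (nat_lit 375) (nat_lit 332)))) (XT.nd (nat_lit 156) (nat_lit 152) (nat_lit 0) (XT.nd (nat_lit 78) (nat_lit 76) (nat_lit 0) (XT.lf (nat_lit 0) (nat_lit 26936828076) (nat_lit 152) (nat_lit 13054413885) (nat_lit 0) (nat_lit 21459921684) (nat_lit 14) (nat_lit 5) (nat_lit 16) (nat_lit 4) (nat_lit 14) (nat_lit 4) (nat_lit 494) (nat_lit 375) (nat_lit 331))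 (XT.lf (nat_lit 0) (nat_lit 21214524024) (nat_lit 76) (nat_lit 24149429143) (nat_lit 76) (nat_lit 18638011718) (nat_lit 13) (nat_lit 4) (nat_lit 14) (nat_lit 5) (nat_lit 14) (nat_lit 4) (nat_lit 495) (nat_lit 375) (nat_lit 330))) (XT.nd (nat_lit 78) (nat_lit 152) (nat_lit 0) (XT.lf (nat_lit 0) (nat_lit 57158366769) (nat_lit 76) (nat_lit 7533422134) (nat_lit 76) (nat_lit 1989137058) (nat_lit 13) (nat_lit 4) (nat_lit 14) (nat_lit 5) (nat_lit 14) (nat_lit 4) (nat_lit 496) (nat_lit 375) (nat_lit 329)) (XT.lf (nat_lit 0) (nat_lit 15383187031) (nat_lit 152) (nat_lit 44130386221) (nat_lit 0) (nat_lit 9969995186) (nat_lit 11) (nat_lit 5) (nat_lit 13) (nat_lit 4) (nat_lit 11) (nat_lit 4) (nat_lit 497) (nat_lit 375) (nat_lit 328)))))) (XT.nd (nat_lit 58890) (nat_lit 0) (nat_lit 4180) (XT.nd (nat_lit 58578) (nat_lit 0) (nat_lit 5548) (XT.nd (nat_lit 78) (nat_lit 76) (nat_lit 0) (XT.lf (nat_lit 0) (nat_lit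 33612195531) (nat_lit 152) (nat_lit 10642620770) (nat_lit 0) (nat_lit 28170060066) (nat_lit 11) (nat_lit 5) (nat_lit 13) (nat_lit 4) (nat_lit 11) (nat_lit 4) (nat_lit 498) (nat_lit 375) (nat_lit 327)) (XT.nd (nat_lit 78) (nat_lit 0) (nat_lit 0) (XT.lf (nat_lit 0) (nat_lit 24722103916) (nat_lit 76) (nat_lit 28128947512) (nat_lit 76) (nat_lit 22659246695) (nat_lit 10) (nat_lit 4) (nat_lit 11) (nat_lit 5) (nat_lit 11) (nat_lit 4) (nat_lit 499) (nat_lit 375) (nat_lit 326)) (XT.lf (nat_lit 0) (nat_lit 61805639722) (nat_lit 76) (nat_lit 11220537644) (nat_lit 76) (nat_lit 5724584110) (nat_lit 10) (nat_lit 4) (nat_lit 11) (nat_lit 5) (nat_lit 11) (nat_lit 4) (nat_lit 500) (nat_lit 375) (nat_lit 325)))) (XT.nd (nat_lit 156) (nat_lit 456) (nat_lit 0) (XT.nd (nat_lit 78) (nat_lit 304) (nat_lit 0) (XT.lf (nat_lit 0) (nat_lit 2699739054) (nat_lit 228) (nat_lit 1407032629) (nat_lit 0) (nat_lit 2699739054) (nat_lit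 93) (nat_lit 5) (nat_lit 96) (nat_lit 4) (nat_lit 93) (nat_lit 4) (nat_lit 448) (nat_lit 376) (nat_lit 376)) (XT.lf (nat_lit 0) (nat_lit 2297420956) (nat_lit 152) (nat_lit 9971184392) (nat_lit 0) (nat_lit 1685447491) (nat_lit 89) (nat_lit 5) (nat_lit 91) (nat_lit 4) (nat_lit 89) (nat_lit 4) (nat_lit 449) (nat_lit 376) (nat_lit 375))) (XT.nd (nat_lit 78) (nat_lit 304) (nat_lit 0) (XT.lf (nat_lit 0) (nat_lit 10868420377) (nat_lit 152) (nat_lit 2317713107) (nat_lit 152) (nat_lit 1122907771) (nat_lit 87) (nat_lit 4) (nat_lit 89) (nat_lit 5) (nat_lit 89) (nat_lit 4) (nat_lit 450) (nat_lit 376) (nat_lit 374)) (XT.lf (nat_lit 0) (nat_lit 3158571856) (nat_lit 152) (nat_lit 6609268180) (nat_lit 152) (nat_lit 4910352347) (nat_lit 83) (nat_lit 4) (nat_lit 85) (nat_lit 5) (nat_lit 85) (nat_lit 4) (nat_lit 451) (nat_lit 376) (nat_lit 373))))) (XT.nd (nat_lit 234) (nat_lit 760) (nat_lit 0) (XT.nd (nat_lit 78)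 (nat_lit 456) (nat_lit 0) (XT.lf (nat_lit 0) (nat_lit 6010779215) (nat_lit 152) (nat_lit 5189414318) (nat_lit 0) (nat_lit 3863047104) (nat_lit 81) (nat_lit 5) (nat_lit 83) (nat_lit 4) (nat_lit 81) (nat_lit 4) (nat_lit 452) (nat_lit 376) (nat_lit 372)) (XT.nd (nat_lit 78) (nat_lit 152) (nat_lit 0) (XT.lf (nat_lit 0) (nat_lit 1188777916) (nat_lit 76) (nat_lit 688601764) (nat_lit 152) (nat_lit 13588028121) (nat_lit 77) (nat_lit 5) (nat_lit 78) (nat_lit 5) (nat_lit 79) (nat_lit 4) (nat_lit 453) (nat_lit 376) (nat_lit 371)) (XT.lf (nat_lit 0) (nat_lit 7633599001) (nat_lit 152) (nat_lit 5616808238) (nat_lit 152) (nat_lit 2632075270) (nat_lit 75) (nat_lit 4) (nat_lit 77) (nat_lit 5) (nat_lit 77) (nat_lit 4) (nat_lit 454) (nat_lit 376) (nat_lit 370)))) (XT.nd (nat_lit 156) (nat_lit 304) (nat_lit 0) (XT.nd (nat_lit 78) (nat_lit 304) (nat_lit 0) (XT.lf (nat_lit 0) (nat_lit 8693077132) (nat_lit 152) (nat_lit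 2235406769) (nat_lit 0) (nat_lit 5389538065) (nat_lit 73) (nat_lit 5) (nat_lit 75) (nat_lit 4) (nat_lit 73) (nat_lit 4) (nat_lit 455) (nat_lit 376) (nat_lit 369)) (XT.lf (nat_lit 0) (nat_lit 3719399059) (nat_lit 152) (nat_lit 12916048170) (nat_lit 0) (nat_lit 136915389) (nat_lit 69) (nat_lit 5) (nat_lit 71) (nat_lit 4) (nat_lit 69) (nat_lit 4) (nat_lit 456) (nat_lit 376) (nat_lit 368))) (XT.nd (nat_lit 78) (nat_lit 152) (nat_lit 0) (XT.lf (nat_lit 0) (nat_lit 9920746531) (nat_lit 152) (nat_lit 5631907288) (nat_lit 152) (nat_lit 1692124392) (nat_lit 67) (nat_lit 4) (nat_lit 69) (nat_lit 5) (nat_lit 69) (nat_lit 4) (nat_lit 457) (nat_lit 376) (nat_lit 367)) (XT.lf (nat_lit 0) (nat_lit 10045106202) (nat_lit 152) (nat_lit 1802816747) (nat_lit 0) (nat_lit 5889700500) (nat_lit 65) (nat_lit 5) (nat_lit 67) (nat_lit 4) (nat_lit 65) (nat_lit 4) (nat_lit 458) (nat_lit 376) (nat_lit 366))))))))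
noncomputable def xc13 : XT := (XT.nd (nat_lit 2028) (nat_lit 1140) (nat_lit 0) (XT.nd (nat_lit 1014) (nat_lit 1216) (nat_lit 0) (XT.nd (nat_lit 468) (nat_lit 912) (nat_lit 0) (XT.nd (nat_lit 234) (nat_lit 456) (nat_lit 0) (XT.nd (nat_lit 78) (nat_lit 228) (nat_lit 0) (XT.lf (nat_lit 0) (nat_lit 3751704908) (nat_lit 76) (nat_lit 298419372) (nat_lit 152) (nat_lit 14201807243) (nat_lit 62) (nat_lit 5) (nat_lit 63) (nat_lit 5) (nat_lit 64) (nat_lit 4) (nat_lit 459) (nat_lit 376) (nat_lit 365)) (XT.nd (nat_lit 78) (nat_lit 152) (nat_lit 0) (XT.lf (nat_lit 0) (nat_lit 9210065686) (nat_lit 76) (nat_lit 7103799423) (nat_lit 76) (nat_lit 2473016778) (nat_lit 61) (nat_lit 4) (nat_lit 62) (nat_lit 5) (nat_lit 62) (nat_lit 4) (nat_lit 460) (nat_lit 376) (nat_lit 364)) (XT.lf (nat_lit 0) (nat_lit 9665986349) (nat_lit 152) (nat_lit 4778209459) (nat_lit 0) (nat_lit 4901074102) (nat_lit 59) (nat_lit 5) (nat_lit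 61) (nat_lit 4) (nat_lit 59) (nat_lit 4) (nat_lit 461) (nat_lit 376) (nat_lit 363)))) (XT.nd (nat_lit 78) (nat_lit 304) (nat_lit 0) (XT.lf (nat_lit 0) (nat_lit 2425833386) (nat_lit 152) (nat_lit 96667392) (nat_lit 76) (nat_lit 17406345348) (nat_lit 57) (nat_lit 5) (nat_lit 59) (nat_lit 5) (nat_lit 58) (nat_lit 4) (nat_lit 462) (nat_lit 376) (nat_lit 362)) (XT.nd (nat_lit 78) (nat_lit 152) (nat_lit 0) (XT.lf (nat_lit 0) (nat_lit 4462146872) (nat_lit 76) (nat_lit 10592390203) (nat_lit 76) (nat_lit 5480636576) (nat_lit 55) (nat_lit 4) (nat_lit 56) (nat_lit 5) (nat_lit 56) (nat_lit 4) (nat_lit 463) (nat_lit 376) (nat_lit 361)) (XT.lf (nat_lit 0) (nat_lit 7025725009) (nat_lit 152) (nat_lit 12299549213) (nat_lit 0) (nat_lit 1843818708) (nat_lit 53) (nat_lit 5) (nat_lit 55) (nat_lit 4) (nat_lit 53) (nat_lit 4) (nat_lit 464) (nat_lit 376) (nat_lit 360))))) (XT.nd (nat_lit 234) (nat_lit 532) (nat_lit 0)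 (XT.nd (nat_lit 78) (nat_lit 304) (nat_lit 0) (XT.lf (nat_lit 0) (nat_lit 13049244379) (nat_lit 76) (nat_lit 7085811538) (nat_lit 76) (nat_lit 1695296949) (nat_lit 52) (nat_lit 4) (nat_lit 53) (nat_lit 5) (nat_lit 53) (nat_lit 4) (nat_lit 465) (nat_lit 376) (nat_lit 359)) (XT.nd (nat_lit 78) (nat_lit 152) (nat_lit 0) (XT.lf (nat_lit 0) (nat_lit 11197933597) (nat_lit 152) (nat_lit 5550586070) (nat_lit 0) (nat_lit 5771536364) (nat_lit 50) (nat_lit 5) (nat_lit 52) (nat_lit 4) (nat_lit 50) (nat_lit 4) (nat_lit 466) (nat_lit 376) (nat_lit 358)) (XT.lf (nat_lit 0) (nat_lit 1493894886) (nat_lit 152) (nat_lit 2577493396) (nat_lit 76) (nat_lit 19169975456) (nat_lit 48) (nat_lit 5) (nat_lit 50) (nat_lit 5) (nat_lit 49) (nat_lit 4) (nat_lit 467) (nat_lit 376) (nat_lit 357)))) (XT.nd (nat_lit 156) (nat_lit 228) (nat_lit 0) (XT.nd (nat_lit 78) (nat_lit 152) (nat_lit 0) (XT.lf (nat_lit 0) (nat_lit 4229608) (nat_lit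 76) (nat_lit 14802499682) (nat_lit 76) (nat_lit 9185941383) (nat_lit 46) (nat_lit 4) (nat_lit 47) (nat_lit 5) (nat_lit 47) (nat_lit 4) (nat_lit 468) (nat_lit 376) (nat_lit 356)) (XT.lf (nat_lit 0) (nat_lit 2323500282) (nat_lit 76) (nat_lit 1667548633) (nat_lit 152) (nat_lit 20787376045) (nat_lit 44) (nat_lit 5) (nat_lit 45) (nat_lit 5) (nat_lit 46) (nat_lit 4) (nat_lit 469) (nat_lit 376) (nat_lit 355))) (XT.nd (nat_lit 78) (nat_lit 152) (nat_lit 0) (XT.lf (nat_lit 0) (nat_lit 4156310723) (nat_lit 76) (nat_lit 13600224470) (nat_lit 76) (nat_lit 7840616346) (nat_lit 43) (nat_lit 4) (nat_lit 44) (nat_lit 5) (nat_lit 44) (nat_lit 4) (nat_lit 470) (nat_lit 376) (nat_lit 354)) (XT.lf (nat_lit 0) (nat_lit 5593536926) (nat_lit 76) (nat_lit 69321274) (nat_lit 152) (nat_lit 20791649339) (nat_lit 41) (nat_lit 5) (nat_lit 42) (nat_lit 5) (nat_lit 43) (nat_lit 4) (nat_lit 471) (nat_lit 376) (nat_lit 353))))))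 (XT.nd (nat_lit 468) (nat_lit 532) (nat_lit 0) (XT.nd (nat_lit 234) (nat_lit 380) (nat_lit 0) (XT.nd (nat_lit 78) (nat_lit 228) (nat_lit 0) (XT.lf (nat_lit 0) (nat_lit 6439720075) (nat_lit 76) (nat_lit 13385101031) (nat_lit 76) (nat_lit 7523218849) (nat_lit 40) (nat_lit 4) (nat_lit 41) (nat_lit 5) (nat_lit 41) (nat_lit 4) (nat_lit 472) (nat_lit 376) (nat_lit 352)) (XT.nd (nat_lit 78) (nat_lit 76) (nat_lit 0) (XT.lf (nat_lit 0) (nat_lit 6299862095) (nat_lit 152) (nat_lit 21497132857) (nat_lit 0) (nat_lit 486918902) (nat_lit 38) (nat_lit 5) (nat_lit 40) (nat_lit 4) (nat_lit 38) (nat_lit 4) (nat_lit 473) (nat_lit 376) (nat_lit 351)) (XT.lf (nat_lit 0) (nat_lit 6427731419) (nat_lit 76) (nat_lit 14380531487) (nat_lit 76) (nat_lit 8451592633) (nat_lit 37) (nat_lit 4) (nat_lit 38) (nat_lit 5) (nat_lit 38) (nat_lit 4) (nat_lit 474) (nat_lit 376) (nat_lit 350)))) (XT.nd (nat_lit 78) (nat_lit 228) (nat_lit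 0) (XT.lf (nat_lit 0) (nat_lit 5450916973) (nat_lit 76) (nat_lit 209343068) (nat_lit 152) (nat_lit 24622221659) (nat_lit 35) (nat_lit 5) (nat_lit 36) (nat_lit 5) (nat_lit 37) (nat_lit 4) (nat_lit 475) (nat_lit 376) (nat_lit 349)) (XT.nd (nat_lit 78) (nat_lit 152) (nat_lit 0) (XT.lf (nat_lit 0) (nat_lit 3609458507) (nat_lit 76) (nat_lit 16852575376) (nat_lit 76) (nat_lit 10886922564) (nat_lit 34) (nat_lit 4) (nat_lit 35) (nat_lit 5) (nat_lit 35) (nat_lit 4) (nat_lit 476) (nat_lit 376) (nat_lit 348)) (XT.lf (nat_lit 0) (nat_lit 1012702892) (nat_lit 76) (nat_lit 2472833378) (nat_lit 152) (nat_lit 28981619029) (nat_lit 32) (nat_lit 5) (nat_lit 33) (nat_lit 5) (nat_lit 34) (nat_lit 4) (nat_lit 477) (nat_lit 376) (nat_lit 347))))) (XT.nd (nat_lit 234) (nat_lit 304) (nat_lit 0) (XT.nd (nat_lit 78) (nat_lit 228) (nat_lit 0) (XT.lf (nat_lit 0) (nat_lit 18517641121) (nat_lit 152) (nat_lit 2574061009) (nat_lit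 0) (nat_lit 12541343896) (nat_lit 32) (nat_lit 5) (nat_lit 34) (nat_lit 4) (nat_lit 32) (nat_lit 4) (nat_lit 478) (nat_lit 376) (nat_lit 346)) (XT.nd (nat_lit 78) (nat_lit 152) (nat_lit 0) (XT.lf (nat_lit 0) (nat_lit 27801739540) (nat_lit 76) (nat_lit 6557855573) (nat_lit 76) (nat_lit 495889919) (nat_lit 31) (nat_lit 4) (nat_lit 32) (nat_lit 5) (nat_lit 32) (nat_lit 4) (nat_lit 479) (nat_lit 376) (nat_lit 345)) (XT.lf (nat_lit 0) (nat_lit 14673049199) (nat_lit 152) (nat_lit 12750031520) (nat_lit 0) (nat_lit 8708433050) (nat_lit 29) (nat_lit 5) (nat_lit 31) (nat_lit 4) (nat_lit 29) (nat_lit 4) (nat_lit 480) (nat_lit 376) (nat_lit 344)))) (XT.nd (nat_lit 156) (nat_lit 76) (nat_lit 0) (XT.nd (nat_lit 78) (nat_lit 152) (nat_lit 0) (XT.lf (nat_lit 0) (nat_lit 17844185926) (nat_lit 76) (nat_lit 12832240486) (nat_lit 76) (nat_lit 6792183764) (nat_lit 28) (nat_lit 4) (nat_lit 29) (nat_lit 5) (nat_lit 29)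 (nat_lit 4) (nat_lit 481) (nat_lit 376) (nat_lit 343)) (XT.lf (nat_lit 0) (nat_lit 8482734848) (nat_lit 152) (nat_lit 27837200058) (nat_lit 0) (nat_lit 2548846609) (nat_lit 26) (nat_lit 5) (nat_lit 28) (nat_lit 4) (nat_lit 26) (nat_lit 4) (nat_lit 482) (nat_lit 376) (nat_lit 342))) (XT.nd (nat_lit 78) (nat_lit 0) (nat_lit 0) (XT.lf (nat_lit 0) (nat_lit 2718464130) (nat_lit 76) (nat_lit 21807229829) (nat_lit 76) (nat_lit 15806907782) (nat_lit 25) (nat_lit 4) (nat_lit 26) (nat_lit 5) (nat_lit 26) (nat_lit 4) (nat_lit 483) (nat_lit 376) (nat_lit 341)) (XT.lf (nat_lit 0) (nat_lit 34963924922) (nat_lit 76) (nat_lit 6483491363) (nat_lit 76) (nat_lit 419899021) (nat_lit 25) (nat_lit 4) (nat_lit 26) (nat_lit 5) (nat_lit 26) (nat_lit 4) (nat_lit 484) (nat_lit 376) (nat_lit 340))))))) (XT.nd (nat_lit 1014) (nat_lit 152) (nat_lit 0) (XT.nd (nat_lit 468) (nat_lit 456) (nat_lit 0) (XT.nd (nat_lit 234) (nat_lit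 152) (nat_lit 0) (XT.nd (nat_lit 78) (nat_lit 228) (nat_lit 0) (XT.lf (nat_lit 0) (nat_lit 15564783313) (nat_lit 152) (nat_lit 18286083853) (nat_lit 0) (nat_lit 9619298104) (nat_lit 23) (nat_lit 5) (nat_lit 25) (nat_lit 4) (nat_lit 23) (nat_lit 4) (nat_lit 485) (nat_lit 376) (nat_lit 339)) (XT.nd (nat_lit 78) (nat_lit 152) (nat_lit 0) (XT.lf (nat_lit 0) (nat_lit 13669357628) (nat_lit 76) (nat_lit 18741378103) (nat_lit 76) (nat_lit 12740176368) (nat_lit 22) (nat_lit 4) (nat_lit 23) (nat_lit 5) (nat_lit 23) (nat_lit 4) (nat_lit 486) (nat_lit 376) (nat_lit 338)) (XT.lf (nat_lit 0) (nat_lit 278957747) (nat_lit 76) (nat_lit 2840856459) (nat_lit 152) (nat_lit 43795005443) (nat_lit 20) (nat_lit 5) (nat_lit 21) (nat_lit 5) (nat_lit 22) (nat_lit 4) (nat_lit 487) (nat_lit 376) (nat_lit 337)))) (XT.nd (nat_lit 78) (nat_lit 152) (nat_lit 0) (XT.lf (nat_lit 0) (nat_lit 19781887313) (nat_lit 152) (nat_lit 15118179135)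 (nat_lit 0) (nat_lit 13854895444) (nat_lit 20) (nat_lit 5) (nat_lit 22) (nat_lit 4) (nat_lit 20) (nat_lit 4) (nat_lit 488) (nat_lit 376) (nat_lit 336)) (XT.nd (nat_lit 78) (nat_lit 76) (nat_lit 0) (XT.lf (nat_lit 0) (nat_lit 17933452806) (nat_lit 76) (nat_lit 19363392813) (nat_lit 76) (nat_lit 13389672759) (nat_lit 19) (nat_lit 4) (nat_lit 20) (nat_lit 5) (nat_lit 20) (nat_lit 4) (nat_lit 489) (nat_lit 376) (nat_lit 335)) (XT.lf (nat_lit 0) (nat_lit 2894274700) (nat_lit 152) (nat_lit 142845445) (nat_lit 76) (nat_lit 49677294133) (nat_lit 18) (nat_lit 5) (nat_lit 20) (nat_lit 5) (nat_lit 19) (nat_lit 4) (nat_lit 490) (nat_lit 376) (nat_lit 334))))) (XT.nd (nat_lit 234) (nat_lit 304) (nat_lit 0) (XT.nd (nat_lit 78) (nat_lit 76) (nat_lit 0) (XT.lf (nat_lit 0) (nat_lit 20016957371) (nat_lit 152) (nat_lit 20680854301) (nat_lit 0) (nat_lit 14132872975) (nat_lit 17) (nat_lit 5) (nat_lit 19) (nat_lit 4)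 (nat_lit 17) (nat_lit 4) (nat_lit 491) (nat_lit 376) (nat_lit 333)) (XT.nd (nat_lit 78) (nat_lit 0) (nat_lit 0) (XT.lf (nat_lit 0) (nat_lit 12997373198) (nat_lit 76) (nat_lit 24989469022) (nat_lit 76) (nat_lit 19066194759) (nat_lit 16) (nat_lit 4) (nat_lit 17) (nat_lit 5) (nat_lit 17) (nat_lit 4) (nat_lit 492) (nat_lit 376) (nat_lit 332)) (XT.lf (nat_lit 0) (nat_lit 48468242044) (nat_lit 76) (nat_lit 8438656487) (nat_lit 76) (nat_lit 2478058541) (nat_lit 16) (nat_lit 4) (nat_lit 17) (nat_lit 5) (nat_lit 17) (nat_lit 4) (nat_lit 493) (nat_lit 376) (nat_lit 331)))) (XT.nd (nat_lit 156) (nat_lit 152) (nat_lit 0) (XT.nd (nat_lit 78) (nat_lit 0) (nat_lit 0) (XT.lf (nat_lit 0) (nat_lit 14810684397) (nat_lit 152) (nat_lit 38024414216) (nat_lit 0) (nat_lit 8989185067) (nat_lit 14) (nat_lit 5) (nat_lit 16) (nat_lit 4) (nat_lit 14) (nat_lit 4) (nat_lit 494) (nat_lit 376) (nat_lit 330)) (XT.lf (nat_lit 0)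 (nat_lit 32959718368) (nat_lit 152) (nat_lit 4318358097) (nat_lit 0) (nat_lit 27105351387) (nat_lit 14) (nat_lit 5) (nat_lit 16) (nat_lit 4) (nat_lit 14) (nat_lit 4) (nat_lit 495) (nat_lit 376) (nat_lit 329))) (XT.nd (nat_lit 78) (nat_lit 76) (nat_lit 0) (XT.lf (nat_lit 0) (nat_lit 31394899314) (nat_lit 76) (nat_lit 20778295051) (nat_lit 76) (nat_lit 14892625545) (nat_lit 13) (nat_lit 4) (nat_lit 14) (nat_lit 5) (nat_lit 14) (nat_lit 4) (nat_lit 496) (nat_lit 376) (nat_lit 328)) (XT.lf (nat_lit 0) (nat_lit 2319796409) (nat_lit 152) (nat_lit 1206294722) (nat_lit 76) (nat_lit 66358443388) (nat_lit 12) (nat_lit 5) (nat_lit 14) (nat_lit 5) (nat_lit 13) (nat_lit 4) (nat_lit 497) (nat_lit 376) (nat_lit 327)))))) (XT.nd (nat_lit 58734) (nat_lit 0) (nat_lit 4484) (XT.nd (nat_lit 58422) (nat_lit 0) (nat_lit 6004) (XT.nd (nat_lit 78) (nat_lit 76) (nat_lit 0) (XT.lf (nat_lit 0) (nat_lit 20435041079) (nat_lit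 152) (nat_lit 37729924580) (nat_lit 0) (nat_lit 14664289869) (nat_lit 11) (nat_lit 5) (nat_lit 13) (nat_lit 4) (nat_lit 11) (nat_lit 4) (nat_lit 498) (nat_lit 376) (nat_lit 326)) (XT.nd (nat_lit 78) (nat_lit 76) (nat_lit 0) (XT.lf (nat_lit 0) (nat_lit 39371562161) (nat_lit 152) (nat_lit 2977627093) (nat_lit 0) (nat_lit 33574558234) (nat_lit 11) (nat_lit 5) (nat_lit 13) (nat_lit 4) (nat_lit 11) (nat_lit 4) (nat_lit 499) (nat_lit 376) (nat_lit 325)) (XT.lf (nat_lit 0) (nat_lit 33920364894) (nat_lit 76) (nat_lit 25534306555) (nat_lit 76) (nat_lit 19712300042) (nat_lit 10) (nat_lit 4) (nat_lit 11) (nat_lit 5) (nat_lit 11) (nat_lit 4) (nat_lit 500) (nat_lit 376) (nat_lit 324)))) (XT.nd (nat_lit 156) (nat_lit 532) (nat_lit 0) (XT.nd (nat_lit 78) (nat_lit 380) (nat_lit 0) (XT.lf (nat_lit 0) (nat_lit 5127829432) (nat_lit 152) (nat_lit 677987715) (nat_lit 152) (nat_lit 677987715) (nat_lit 101) (nat_lit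 4) (nat_lit 103) (nat_lit 5) (nat_lit 103) (nat_lit 4) (nat_lit 446) (nat_lit 377) (nat_lit 377)) (XT.lf (nat_lit 0) (nat_lit 3816383793) (nat_lit 152) (nat_lit 5075675719) (nat_lit 152) (nat_lit 4393970938) (nat_lit 96) (nat_lit 4) (nat_lit 98) (nat_lit 5) (nat_lit 98) (nat_lit 4) (nat_lit 447) (nat_lit 377) (nat_lit 376))) (XT.nd (nat_lit 78) (nat_lit 304) (nat_lit 0) (XT.lf (nat_lit 0) (nat_lit 5882879538) (nat_lit 228) (nat_lit 3144801610) (nat_lit 0) (nat_lit 4590697568) (nat_lit 93) (nat_lit 5) (nat_lit 96) (nat_lit 4) (nat_lit 93) (nat_lit 4) (nat_lit 448) (nat_lit 377) (nat_lit 375)) (XT.lf (nat_lit 0) (nat_lit 2572198067) (nat_lit 152) (nat_lit 10658075240) (nat_lit 0) (nat_lit 734820594) (nat_lit 89) (nat_lit 5) (nat_lit 91) (nat_lit 4) (nat_lit 89) (nat_lit 4) (nat_lit 449) (nat_lit 377) (nat_lit 374))))) (XT.nd (nat_lit 234) (nat_lit 912) (nat_lit 0) (XT.nd (nat_lit 78) (nat_lit 456)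 (nat_lit 0) (XT.lf (nat_lit 0) (nat_lit 9842395024) (nat_lit 152) (nat_lit 3437784018) (nat_lit 152) (nat_lit 1045328573) (nat_lit 87) (nat_lit 4) (nat_lit 89) (nat_lit 5) (nat_lit 89) (nat_lit 4) (nat_lit 450) (nat_lit 377) (nat_lit 373)) (XT.nd (nat_lit 78) (nat_lit 152) (nat_lit 0) (XT.lf (nat_lit 0) (nat_lit 1737738811) (nat_lit 152) (nat_lit 7899559691) (nat_lit 152) (nat_lit 5063539173) (nat_lit 83) (nat_lit 4) (nat_lit 85) (nat_lit 5) (nat_lit 85) (nat_lit 4) (nat_lit 451) (nat_lit 377) (nat_lit 372)) (XT.lf (nat_lit 0) (nat_lit 5660965299) (nat_lit 152) (nat_lit 6997979567) (nat_lit 0) (nat_lit 2432976593) (nat_lit 81) (nat_lit 5) (nat_lit 83) (nat_lit 4) (nat_lit 81) (nat_lit 4) (nat_lit 452) (nat_lit 377) (nat_lit 371)))) (XT.nd (nat_lit 156) (nat_lit 456) (nat_lit 0) (XT.nd (nat_lit 78) (nat_lit 228) (nat_lit 0) (XT.lf (nat_lit 0) (nat_lit 1307530298) (nat_lit 228) (nat_lit 1025674320)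 (nat_lit 76) (nat_lit 13166958018) (nat_lit 78) (nat_lit 5) (nat_lit 81) (nat_lit 5) (nat_lit 79) (nat_lit 4) (nat_lit 453) (nat_lit 377) (nat_lit 370)) (XT.lf (nat_lit 0) (nat_lit 5012846149) (nat_lit 152) (nat_lit 7450795487) (nat_lit 152) (nat_lit 3460105716) (nat_lit 75) (nat_lit 4) (nat_lit 77) (nat_lit 5) (nat_lit 77) (nat_lit 4) (nat_lit 454) (nat_lit 377) (nat_lit 369))) (XT.nd (nat_lit 78) (nat_lit 304) (nat_lit 0) (XT.lf (nat_lit 0) (nat_lit 7670326787) (nat_lit 152) (nat_lit 5286075888) (nat_lit 0) (nat_lit 3409451586) (nat_lit 73) (nat_lit 5) (nat_lit 75) (nat_lit 4) (nat_lit 73) (nat_lit 4) (nat_lit 455) (nat_lit 377) (nat_lit 368)) (XT.lf (nat_lit 0) (nat_lit 325678072) (nat_lit 76) (nat_lit 2114997531) (nat_lit 152) (nat_lit 14386701150) (nat_lit 69) (nat_lit 5) (nat_lit 70) (nat_lit 5) (nat_lit 71) (nat_lit 4) (nat_lit 456) (nat_lit 377) (nat_lit 367))))))))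
noncomputable def xc14 : XT := (XT.nd (nat_lit 2028) (nat_lit 1368) (nat_lit 0) (XT.nd (nat_lit 1014) (nat_lit 1368) (nat_lit 0) (XT.nd (nat_lit 468) (nat_lit 912) (nat_lit 0) (XT.nd (nat_lit 234) (nat_lit 380) (nat_lit 0) (XT.nd (nat_lit 78) (nat_lit 304) (nat_lit 0) (XT.lf (nat_lit 0) (nat_lit 5970399121) (nat_lit 152) (nat_lit 8085151458) (nat_lit 152) (nat_lit 3250795215) (nat_lit 67) (nat_lit 4) (nat_lit 69) (nat_lit 5) (nat_lit 69) (nat_lit 4) (nat_lit 457) (nat_lit 377) (nat_lit 366)) (XT.nd (nat_lit 78) (nat_lit 152) (nat_lit 0) (XT.lf (nat_lit 0) (nat_lit 8292288380) (nat_lit 152) (nat_lit 6229993959) (nat_lit 0) (nat_lit 3284096949) (nat_lit 65) (nat_lit 5) (nat_lit 67) (nat_lit 4) (nat_lit 65) (nat_lit 4) (nat_lit 458) (nat_lit 377) (nat_lit 365)) (XT.lf (nat_lit 0) (nat_lit 2026158837) (nat_lit 152) (nat_lit 1194747734) (nat_lit 76) (nat_lit 15107445967) (nat_lit 63) (nat_lit 5) (nat_lit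 65) (nat_lit 5) (nat_lit 64) (nat_lit 4) (nat_lit 459) (nat_lit 377) (nat_lit 364)))) (XT.nd (nat_lit 78) (nat_lit 228) (nat_lit 0) (XT.lf (nat_lit 0) (nat_lit 3785118105) (nat_lit 76) (nat_lit 10257960335) (nat_lit 76) (nat_lit 4827630769) (nat_lit 61) (nat_lit 4) (nat_lit 62) (nat_lit 5) (nat_lit 62) (nat_lit 4) (nat_lit 460) (nat_lit 377) (nat_lit 363)) (XT.nd (nat_lit 78) (nat_lit 76) (nat_lit 0) (XT.lf (nat_lit 0) (nat_lit 7116489846) (nat_lit 152) (nat_lit 10732384541) (nat_lit 0) (nat_lit 1588128299) (nat_lit 59) (nat_lit 5) (nat_lit 61) (nat_lit 4) (nat_lit 59) (nat_lit 4) (nat_lit 461) (nat_lit 377) (nat_lit 362)) (XT.lf (nat_lit 0) (nat_lit 13488902935) (nat_lit 76) (nat_lit 6155521038) (nat_lit 76) (nat_lit 383162423) (nat_lit 58) (nat_lit 4) (nat_lit 59) (nat_lit 5) (nat_lit 59) (nat_lit 4) (nat_lit 462) (nat_lit 377) (nat_lit 361))))) (XT.nd (nat_lit 234) (nat_lit 456) (nat_lit 0)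 (XT.nd (nat_lit 78) (nat_lit 304) (nat_lit 0) (XT.lf (nat_lit 0) (nat_lit 11961681463) (nat_lit 152) (nat_lit 2549244480) (nat_lit 0) (nat_lit 6131839934) (nat_lit 56) (nat_lit 5) (nat_lit 58) (nat_lit 4) (nat_lit 56) (nat_lit 4) (nat_lit 463) (nat_lit 377) (nat_lit 360)) (XT.nd (nat_lit 78) (nat_lit 76) (nat_lit 0) (XT.lf (nat_lit 0) (nat_lit 1313678081) (nat_lit 76) (nat_lit 2311142680) (nat_lit 152) (nat_lit 17660675855) (nat_lit 53) (nat_lit 5) (nat_lit 54) (nat_lit 5) (nat_lit 55) (nat_lit 4) (nat_lit 464) (nat_lit 377) (nat_lit 359)) (XT.lf (nat_lit 0) (nat_lit 4959375849) (nat_lit 76) (nat_lit 11531009037) (nat_lit 76) (nat_lit 5463685869) (nat_lit 52) (nat_lit 4) (nat_lit 53) (nat_lit 5) (nat_lit 53) (nat_lit 4) (nat_lit 465) (nat_lit 377) (nat_lit 358)))) (XT.nd (nat_lit 156) (nat_lit 228) (nat_lit 0) (XT.nd (nat_lit 78) (nat_lit 76) (nat_lit 0) (XT.lf (nat_lit 0) (nat_lit 7234028313)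 (nat_lit 152) (nat_lit 14259184460) (nat_lit 0) (nat_lit 1159720513) (nat_lit 50) (nat_lit 5) (nat_lit 52) (nat_lit 4) (nat_lit 50) (nat_lit 4) (nat_lit 466) (nat_lit 377) (nat_lit 357)) (XT.lf (nat_lit 0) (nat_lit 11520050177) (nat_lit 76) (nat_lit 9055339066) (nat_lit 76) (nat_lit 2806076234) (nat_lit 49) (nat_lit 4) (nat_lit 50) (nat_lit 5) (nat_lit 50) (nat_lit 4) (nat_lit 467) (nat_lit 377) (nat_lit 356))) (XT.nd (nat_lit 78) (nat_lit 76) (nat_lit 0) (XT.lf (nat_lit 0) (nat_lit 10282364411) (nat_lit 152) (nat_lit 9806244477) (nat_lit 0) (nat_lit 4053348225) (nat_lit 47) (nat_lit 5) (nat_lit 49) (nat_lit 4) (nat_lit 47) (nat_lit 4) (nat_lit 468) (nat_lit 377) (nat_lit 355)) (XT.lf (nat_lit 0) (nat_lit 16824914175) (nat_lit 76) (nat_lit 7247329793) (nat_lit 76) (nat_lit 864246257) (nat_lit 46) (nat_lit 4) (nat_lit 47) (nat_lit 5) (nat_lit 47) (nat_lit 4) (nat_lit 469) (nat_lit 377) (nat_lit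 354)))))) (XT.nd (nat_lit 468) (nat_lit 684) (nat_lit 0) (XT.nd (nat_lit 234) (nat_lit 304) (nat_lit 0) (XT.nd (nat_lit 78) (nat_lit 228) (nat_lit 0) (XT.lf (nat_lit 0) (nat_lit 12610394206) (nat_lit 152) (nat_lit 6883535373) (nat_lit 0) (nat_lit 6270768626) (nat_lit 44) (nat_lit 5) (nat_lit 46) (nat_lit 4) (nat_lit 44) (nat_lit 4) (nat_lit 470) (nat_lit 377) (nat_lit 353)) (XT.nd (nat_lit 78) (nat_lit 76) (nat_lit 0) (XT.lf (nat_lit 0) (nat_lit 199744037) (nat_lit 152) (nat_lit 6069818609) (nat_lit 76) (nat_lit 20361618178) (nat_lit 42) (nat_lit 5) (nat_lit 44) (nat_lit 5) (nat_lit 43) (nat_lit 4) (nat_lit 471) (nat_lit 377) (nat_lit 352)) (XT.lf (nat_lit 0) (nat_lit 14051538299) (nat_lit 152) (nat_lit 5843089829) (nat_lit 0) (nat_lit 7639390928) (nat_lit 41) (nat_lit 5) (nat_lit 43) (nat_lit 4) (nat_lit 41) (nat_lit 4) (nat_lit 472) (nat_lit 377) (nat_lit 351)))) (XT.nd (nat_lit 78) (nat_lit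 152) (nat_lit 0) (XT.lf (nat_lit 0) (nat_lit 202913772) (nat_lit 152) (nat_lit 6119707943) (nat_lit 76) (nat_lit 22156609655) (nat_lit 39) (nat_lit 5) (nat_lit 41) (nat_lit 5) (nat_lit 40) (nat_lit 4) (nat_lit 473) (nat_lit 377) (nat_lit 350)) (XT.nd (nat_lit 78) (nat_lit 76) (nat_lit 0) (XT.lf (nat_lit 0) (nat_lit 14404610368) (nat_lit 152) (nat_lit 7107007628) (nat_lit 0) (nat_lit 7952756852) (nat_lit 38) (nat_lit 5) (nat_lit 40) (nat_lit 4) (nat_lit 38) (nat_lit 4) (nat_lit 474) (nat_lit 377) (nat_lit 349)) (XT.lf (nat_lit 0) (nat_lit 21770799261) (nat_lit 76) (nat_lit 7641088826) (nat_lit 76) (nat_lit 1084023826) (nat_lit 37) (nat_lit 4) (nat_lit 38) (nat_lit 5) (nat_lit 38) (nat_lit 4) (nat_lit 475) (nat_lit 377) (nat_lit 348))))) (XT.nd (nat_lit 234) (nat_lit 304) (nat_lit 0) (XT.nd (nat_lit 78) (nat_lit 228) (nat_lit 0) (XT.lf (nat_lit 0) (nat_lit 13427642346) (nat_lit 152) (nat_lit 11180118439)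 (nat_lit 0) (nat_lit 6964276897) (nat_lit 35) (nat_lit 5) (nat_lit 37) (nat_lit 4) (nat_lit 35) (nat_lit 4) (nat_lit 476) (nat_lit 377) (nat_lit 347)) (XT.nd (nat_lit 78) (nat_lit 152) (nat_lit 0) (XT.lf (nat_lit 0) (nat_lit 18253998016) (nat_lit 76) (nat_lit 10500158115) (nat_lit 76) (nat_lit 3944142261) (nat_lit 34) (nat_lit 4) (nat_lit 35) (nat_lit 5) (nat_lit 35) (nat_lit 4) (nat_lit 477) (nat_lit 377) (nat_lit 346)) (XT.lf (nat_lit 0) (nat_lit 10830622611) (nat_lit 152) (nat_lit 18664843316) (nat_lit 0) (nat_lit 4379890247) (nat_lit 32) (nat_lit 5) (nat_lit 34) (nat_lit 4) (nat_lit 32) (nat_lit 4) (nat_lit 478) (nat_lit 377) (nat_lit 345)))) (XT.nd (nat_lit 156) (nat_lit 76) (nat_lit 0) (XT.nd (nat_lit 78) (nat_lit 152) (nat_lit 0) (XT.lf (nat_lit 0) (nat_lit 11169840527) (nat_lit 76) (nat_lit 15234166784) (nat_lit 76) (nat_lit 8701845440) (nat_lit 31) (nat_lit 4) (nat_lit 32) (nat_lit 5)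 (nat_lit 32) (nat_lit 4) (nat_lit 479) (nat_lit 377) (nat_lit 344)) (XT.lf (nat_lit 0) (nat_lit 6114902874) (nat_lit 76) (nat_lit 153534568) (nat_lit 152) (nat_lit 30126574443) (nat_lit 29) (nat_lit 5) (nat_lit 30) (nat_lit 5) (nat_lit 31) (nat_lit 4) (nat_lit 480) (nat_lit 377) (nat_lit 343))) (XT.nd (nat_lit 78) (nat_lit 76) (nat_lit 0) (XT.lf (nat_lit 0) (nat_lit 21994326997) (nat_lit 152) (nat_lit 241127655) (nat_lit 0) (nat_lit 15504978703) (nat_lit 29) (nat_lit 5) (nat_lit 31) (nat_lit 4) (nat_lit 29) (nat_lit 4) (nat_lit 481) (nat_lit 377) (nat_lit 342)) (XT.lf (nat_lit 0) (nat_lit 31505961592) (nat_lit 76) (nat_lit 7100963918) (nat_lit 76) (nat_lit 543188800) (nat_lit 28) (nat_lit 4) (nat_lit 29) (nat_lit 5) (nat_lit 29) (nat_lit 4) (nat_lit 482) (nat_lit 377) (nat_lit 341))))))) (XT.nd (nat_lit 1014) (nat_lit 304) (nat_lit 0) (XT.nd (nat_lit 468) (nat_lit 456) (nat_lit 0) (XT.nd (nat_lit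 234) (nat_lit 228) (nat_lit 0) (XT.nd (nat_lit 78) (nat_lit 228) (nat_lit 0) (XT.lf (nat_lit 0) (nat_lit 15239851085) (nat_lit 152) (nat_lit 16572547210) (nat_lit 0) (nat_lit 8809808831) (nat_lit 26) (nat_lit 5) (nat_lit 28) (nat_lit 4) (nat_lit 26) (nat_lit 4) (nat_lit 483) (nat_lit 377) (nat_lit 340)) (XT.nd (nat_lit 78) (nat_lit 152) (nat_lit 0) (XT.lf (nat_lit 0) (nat_lit 15148103788) (nat_lit 76) (nat_lit 16753458636) (nat_lit 76) (nat_lit 10263158959) (nat_lit 25) (nat_lit 4) (nat_lit 26) (nat_lit 5) (nat_lit 26) (nat_lit 4) (nat_lit 484) (nat_lit 377) (nat_lit 339)) (XT.lf (nat_lit 0) (nat_lit 4672901189) (nat_lit 76) (nat_lit 854482499) (nat_lit 152) (nat_lit 38254613095) (nat_lit 23) (nat_lit 5) (nat_lit 24) (nat_lit 5) (nat_lit 25) (nat_lit 4) (nat_lit 485) (nat_lit 377) (nat_lit 338)))) (XT.nd (nat_lit 78) (nat_lit 228) (nat_lit 0) (XT.lf (nat_lit 0) (nat_lit 22141753710) (nat_lit 152)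 (nat_lit 7596225689) (nat_lit 0) (nat_lit 15731712003) (nat_lit 23) (nat_lit 5) (nat_lit 25) (nat_lit 4) (nat_lit 23) (nat_lit 4) (nat_lit 486) (nat_lit 377) (nat_lit 337)) (XT.nd (nat_lit 78) (nat_lit 152) (nat_lit 0) (XT.lf (nat_lit 0) (nat_lit 25624356882) (nat_lit 76) (nat_lit 14037865663) (nat_lit 76) (nat_lit 7577287425) (nat_lit 22) (nat_lit 4) (nat_lit 23) (nat_lit 5) (nat_lit 23) (nat_lit 4) (nat_lit 487) (nat_lit 377) (nat_lit 336)) (XT.lf (nat_lit 0) (nat_lit 8822573040) (nat_lit 152) (nat_lit 37768127965) (nat_lit 0) (nat_lit 2503438799) (nat_lit 20) (nat_lit 5) (nat_lit 22) (nat_lit 4) (nat_lit 20) (nat_lit 4) (nat_lit 488) (nat_lit 377) (nat_lit 335))))) (XT.nd (nat_lit 234) (nat_lit 228) (nat_lit 0) (XT.nd (nat_lit 78) (nat_lit 228) (nat_lit 0) (XT.lf (nat_lit 0) (nat_lit 26080926036) (nat_lit 152) (nat_lit 5235179920) (nat_lit 0) (nat_lit 19717288762) (nat_lit 20) (nat_lit 5) (nat_lit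 22) (nat_lit 4) (nat_lit 20) (nat_lit 4) (nat_lit 489) (nat_lit 377) (nat_lit 334)) (XT.nd (nat_lit 78) (nat_lit 152) (nat_lit 0) (XT.lf (nat_lit 0) (nat_lit 29164071451) (nat_lit 76) (nat_lit 15154042524) (nat_lit 76) (nat_lit 8748021409) (nat_lit 19) (nat_lit 4) (nat_lit 20) (nat_lit 5) (nat_lit 20) (nat_lit 4) (nat_lit 490) (nat_lit 377) (nat_lit 333)) (XT.lf (nat_lit 0) (nat_lit 8112671087) (nat_lit 152) (nat_lit 45231195267) (nat_lit 0) (nat_lit 1854043244) (nat_lit 17) (nat_lit 5) (nat_lit 19) (nat_lit 4) (nat_lit 17) (nat_lit 4) (nat_lit 491) (nat_lit 377) (nat_lit 332)))) (XT.nd (nat_lit 156) (nat_lit 152) (nat_lit 0) (XT.nd (nat_lit 78) (nat_lit 76) (nat_lit 0) (XT.lf (nat_lit 0) (nat_lit 25880492924) (nat_lit 152) (nat_lit 11961289721) (nat_lit 0) (nat_lit 19584541399) (nat_lit 17) (nat_lit 5) (nat_lit 19) (nat_lit 4) (nat_lit 17) (nat_lit 4) (nat_lit 492) (nat_lit 377) (nat_lit 331))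 (XT.lf (nat_lit 0) (nat_lit 23121263957) (nat_lit 76) (nat_lit 21487121598) (nat_lit 76) (nat_lit 15155623708) (nat_lit 16) (nat_lit 4) (nat_lit 17) (nat_lit 5) (nat_lit 17) (nat_lit 4) (nat_lit 493) (nat_lit 377) (nat_lit 330))) (XT.nd (nat_lit 78) (nat_lit 76) (nat_lit 0) (XT.lf (nat_lit 0) (nat_lit 1990687367) (nat_lit 152) (nat_lit 2324256214) (nat_lit 76) (nat_lit 57903742929) (nat_lit 15) (nat_lit 5) (nat_lit 17) (nat_lit 5) (nat_lit 16) (nat_lit 4) (nat_lit 494) (nat_lit 377) (nat_lit 329)) (XT.lf (nat_lit 0) (nat_lit 20004598510) (nat_lit 152) (nat_lit 30983943040) (nat_lit 0) (nat_lit 13793343005) (nat_lit 14) (nat_lit 5) (nat_lit 16) (nat_lit 4) (nat_lit 14) (nat_lit 4) (nat_lit 495) (nat_lit 377) (nat_lit 328)))))) (XT.nd (nat_lit 58578) (nat_lit 0) (nat_lit 5396) (XT.nd (nat_lit 234) (nat_lit 76) (nat_lit 0) (XT.nd (nat_lit 78) (nat_lit 152) (nat_lit 0) (XT.lf (nat_lit 0) (nat_lit 4060863098)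 (nat_lit 76) (nat_lit 34827190872) (nat_lit 76) (nat_lit 28586123438) (nat_lit 13) (nat_lit 4) (nat_lit 14) (nat_lit 5) (nat_lit 14) (nat_lit 4) (nat_lit 496) (nat_lit 377) (nat_lit 327)) (XT.nd (nat_lit 78) (nat_lit 152) (nat_lit 0) (XT.lf (nat_lit 0) (nat_lit 41236434836) (nat_lit 76) (nat_lit 17664279600) (nat_lit 76) (nat_lit 11394819853) (nat_lit 13) (nat_lit 4) (nat_lit 14) (nat_lit 5) (nat_lit 14) (nat_lit 4) (nat_lit 497) (nat_lit 377) (nat_lit 326)) (XT.lf (nat_lit 0) (nat_lit 6466412703) (nat_lit 152) (nat_lit 66438113892) (nat_lit 0) (nat_lit 353305864) (nat_lit 11) (nat_lit 5) (nat_lit 13) (nat_lit 4) (nat_lit 11) (nat_lit 4) (nat_lit 498) (nat_lit 377) (nat_lit 325)))) (XT.nd (nat_lit 58188) (nat_lit 0) (nat_lit 7068) (XT.nd (nat_lit 78) (nat_lit 76) (nat_lit 0) (XT.lf (nat_lit 0) (nat_lit 25341323470) (nat_lit 152) (nat_lit 31809635365) (nat_lit 0) (nat_lit 19203214044) (nat_lit 11)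 (nat_lit 5) (nat_lit 13) (nat_lit 4) (nat_lit 11) (nat_lit 4) (nat_lit 499) (nat_lit 377) (nat_lit 324)) (XT.lf (nat_lit 0) (nat_lit 4394273409) (nat_lit 76) (nat_lit 40687660005) (nat_lit 76) (nat_lit 34525738592) (nat_lit 10) (nat_lit 4) (nat_lit 11) (nat_lit 5) (nat_lit 11) (nat_lit 4) (nat_lit 500) (nat_lit 377) (nat_lit 323))) (XT.nd (nat_lit 78) (nat_lit 380) (nat_lit 0) (XT.lf (nat_lit 0) (nat_lit 2398887241) (nat_lit 228) (nat_lit 1383244864) (nat_lit 0) (nat_lit 2398887241) (nat_lit 108) (nat_lit 5) (nat_lit 111) (nat_lit 4) (nat_lit 108) (nat_lit 4) (nat_lit 444) (nat_lit 378) (nat_lit 378)) (XT.lf (nat_lit 0) (nat_lit 2134801962) (nat_lit 228) (nat_lit 9128922348) (nat_lit 0) (nat_lit 1397538241) (nat_lit 103) (nat_lit 5) (nat_lit 106) (nat_lit 4) (nat_lit 103) (nat_lit 4) (nat_lit 445) (nat_lit 378) (nat_lit 377))))) (XT.nd (nat_lit 234) (nat_lit 912) (nat_lit 0) (XT.nd (nat_lit 78)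 (nat_lit 608) (nat_lit 0) (XT.lf (nat_lit 0) (nat_lit 9942906405) (nat_lit 152) (nat_lit 2234633966) (nat_lit 152) (nat_lit 795214322) (nat_lit 101) (nat_lit 4) (nat_lit 103) (nat_lit 5) (nat_lit 103) (nat_lit 4) (nat_lit 446) (nat_lit 378) (nat_lit 376)) (XT.nd (nat_lit 78) (nat_lit 228) (nat_lit 0) (XT.lf (nat_lit 0) (nat_lit 3166491788) (nat_lit 152) (nat_lit 6088435900) (nat_lit 152) (nat_lit 4041698451) (nat_lit 96) (nat_lit 4) (nat_lit 98) (nat_lit 5) (nat_lit 98) (nat_lit 4) (nat_lit 447) (nat_lit 378) (nat_lit 375)) (XT.lf (nat_lit 0) (nat_lit 6042052813) (nat_lit 228) (nat_lit 4137798132) (nat_lit 0) (nat_lit 3454612249) (nat_lit 93) (nat_lit 5) (nat_lit 96) (nat_lit 4) (nat_lit 93) (nat_lit 4) (nat_lit 448) (nat_lit 378) (nat_lit 374)))) (XT.nd (nat_lit 156) (nat_lit 456) (nat_lit 0) (XT.nd (nat_lit 78) (nat_lit 152) (nat_lit 0) (XT.lf (nat_lit 0) (nat_lit 1948088111) (nat_lit 76) (nat_lit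 567803015) (nat_lit 152) (nat_lit 11471147447) (nat_lit 89) (nat_lit 5) (nat_lit 90) (nat_lit 5) (nat_lit 91) (nat_lit 4) (nat_lit 449) (nat_lit 378) (nat_lit 373)) (XT.lf (nat_lit 0) (nat_lit 8129638631) (nat_lit 152) (nat_lit 4909579177) (nat_lit 152) (nat_lit 1313777299) (nat_lit 87) (nat_lit 4) (nat_lit 89) (nat_lit 5) (nat_lit 89) (nat_lit 4) (nat_lit 450) (nat_lit 378) (nat_lit 372))) (XT.nd (nat_lit 78) (nat_lit 304) (nat_lit 0) (XT.lf (nat_lit 0) (nat_lit 9162329409) (nat_lit 152) (nat_lit 389977110) (nat_lit 0) (nat_lit 5182451776) (nat_lit 85) (nat_lit 5) (nat_lit 87) (nat_lit 4) (nat_lit 85) (nat_lit 4) (nat_lit 451) (nat_lit 378) (nat_lit 371)) (XT.lf (nat_lit 0) (nat_lit 4956052277) (nat_lit 152) (nat_lit 9535996601) (nat_lit 0) (nat_lit 640121290) (nat_lit 81) (nat_lit 5) (nat_lit 83) (nat_lit 4) (nat_lit 81) (nat_lit 4) (nat_lit 452) (nat_lit 378) (nat_lit 370))))))))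
noncomputable def xc15 : XT := (XT.nd (nat_lit 2028) (nat_lit 1672) (nat_lit 0) (XT.nd (nat_lit 1014) (nat_lit 1520) (nat_lit 0) (XT.nd (nat_lit 468) (nat_lit 912) (nat_lit 0) (XT.nd (nat_lit 234) (nat_lit 608) (nat_lit 0) (XT.nd (nat_lit 78) (nat_lit 380) (nat_lit 0) (XT.lf (nat_lit 0) (nat_lit 390440863) (nat_lit 228) (nat_lit 3953785673) (nat_lit 76) (nat_lit 11201996274) (nat_lit 78) (nat_lit 5) (nat_lit 81) (nat_lit 5) (nat_lit 79) (nat_lit 4) (nat_lit 453) (nat_lit 378) (nat_lit 369)) (XT.nd (nat_lit 78) (nat_lit 152) (nat_lit 0) (XT.lf (nat_lit 0) (nat_lit 1632622513) (nat_lit 152) (nat_lit 9675248041) (nat_lit 152) (nat_lit 4669099825) (nat_lit 75) (nat_lit 4) (nat_lit 77) (nat_lit 5) (nat_lit 77) (nat_lit 4) (nat_lit 454) (nat_lit 378) (nat_lit 368)) (XT.lf (nat_lit 0) (nat_lit 6270602676) (nat_lit 152) (nat_lit 9113008735) (nat_lit 0) (nat_lit 1042246400) (nat_lit 73) (nat_lit 5) (nat_lit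 75) (nat_lit 4) (nat_lit 73) (nat_lit 4) (nat_lit 455) (nat_lit 378) (nat_lit 367)))) (XT.nd (nat_lit 78) (nat_lit 380) (nat_lit 0) (XT.lf (nat_lit 0) (nat_lit 812665865) (nat_lit 228) (nat_lit 3929138095) (nat_lit 76) (nat_lit 12151902350) (nat_lit 70) (nat_lit 5) (nat_lit 73) (nat_lit 5) (nat_lit 71) (nat_lit 4) (nat_lit 456) (nat_lit 378) (nat_lit 366)) (XT.nd (nat_lit 78) (nat_lit 152) (nat_lit 0) (XT.lf (nat_lit 0) (nat_lit 1209348704) (nat_lit 152) (nat_lit 10955819867) (nat_lit 152) (nat_lit 5215379905) (nat_lit 67) (nat_lit 4) (nat_lit 69) (nat_lit 5) (nat_lit 69) (nat_lit 4) (nat_lit 457) (nat_lit 378) (nat_lit 365)) (XT.lf (nat_lit 0) (nat_lit 6136992098) (nat_lit 152) (nat_lit 11486938981) (nat_lit 0) (nat_lit 264090673) (nat_lit 65) (nat_lit 5) (nat_lit 67) (nat_lit 4) (nat_lit 65) (nat_lit 4) (nat_lit 458) (nat_lit 378) (nat_lit 364))))) (XT.nd (nat_lit 234) (nat_lit 456) (nat_lit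 0) (XT.nd (nat_lit 78) (nat_lit 380) (nat_lit 0) (XT.lf (nat_lit 0) (nat_lit 11504218924) (nat_lit 76) (nat_lit 6535340854) (nat_lit 76) (nat_lit 377050150) (nat_lit 64) (nat_lit 4) (nat_lit 65) (nat_lit 5) (nat_lit 65) (nat_lit 4) (nat_lit 459) (nat_lit 378) (nat_lit 363)) (XT.nd (nat_lit 78) (nat_lit 228) (nat_lit 0) (XT.lf (nat_lit 0) (nat_lit 11374989214) (nat_lit 152) (nat_lit 2460071475) (nat_lit 0) (nat_lit 5132183372) (nat_lit 62) (nat_lit 5) (nat_lit 64) (nat_lit 4) (nat_lit 62) (nat_lit 4) (nat_lit 460) (nat_lit 378) (nat_lit 362)) (XT.lf (nat_lit 0) (nat_lit 1943135248) (nat_lit 76) (nat_lit 2213149514) (nat_lit 152) (nat_lit 15385537368) (nat_lit 59) (nat_lit 5) (nat_lit 60) (nat_lit 5) (nat_lit 61) (nat_lit 4) (nat_lit 461) (nat_lit 378) (nat_lit 361)))) (XT.nd (nat_lit 156) (nat_lit 228) (nat_lit 0) (XT.nd (nat_lit 78) (nat_lit 152) (nat_lit 0) (XT.lf (nat_lit 0) (nat_lit 6226600381)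 (nat_lit 76) (nat_lit 10225067582) (nat_lit 76) (nat_lit 3687715809) (nat_lit 58) (nat_lit 4) (nat_lit 59) (nat_lit 5) (nat_lit 59) (nat_lit 4) (nat_lit 462) (nat_lit 378) (nat_lit 360)) (XT.lf (nat_lit 0) (nat_lit 8466873721) (nat_lit 152) (nat_lit 10391222218) (nat_lit 0) (nat_lit 1905063716) (nat_lit 56) (nat_lit 5) (nat_lit 58) (nat_lit 4) (nat_lit 56) (nat_lit 4) (nat_lit 463) (nat_lit 378) (nat_lit 359))) (XT.nd (nat_lit 78) (nat_lit 152) (nat_lit 0) (XT.lf (nat_lit 0) (nat_lit 14341584243) (nat_lit 76) (nat_lit 6919326250) (nat_lit 76) (nat_lit 152881448) (nat_lit 55) (nat_lit 4) (nat_lit 56) (nat_lit 5) (nat_lit 56) (nat_lit 4) (nat_lit 464) (nat_lit 378) (nat_lit 358)) (XT.lf (nat_lit 0) (nat_lit 12416735898) (nat_lit 152) (nat_lit 4016485170) (nat_lit 0) (nat_lit 5658158145) (nat_lit 53) (nat_lit 5) (nat_lit 55) (nat_lit 4) (nat_lit 53) (nat_lit 4) (nat_lit 465) (nat_lit 378) (nat_lit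 357)))))) (XT.nd (nat_lit 468) (nat_lit 760) (nat_lit 0) (XT.nd (nat_lit 234) (nat_lit 304) (nat_lit 0) (XT.nd (nat_lit 78) (nat_lit 304) (nat_lit 0) (XT.lf (nat_lit 0) (nat_lit 2839063944) (nat_lit 152) (nat_lit 1175481627) (nat_lit 76) (nat_lit 18784896913) (nat_lit 51) (nat_lit 5) (nat_lit 53) (nat_lit 5) (nat_lit 52) (nat_lit 4) (nat_lit 466) (nat_lit 378) (nat_lit 356)) (XT.nd (nat_lit 78) (nat_lit 152) (nat_lit 0) (XT.lf (nat_lit 0) (nat_lit 1362411276) (nat_lit 76) (nat_lit 14538625448) (nat_lit 76) (nat_lit 7635320603) (nat_lit 49) (nat_lit 4) (nat_lit 50) (nat_lit 5) (nat_lit 50) (nat_lit 4) (nat_lit 467) (nat_lit 378) (nat_lit 355)) (XT.lf (nat_lit 0) (nat_lit 3647363323) (nat_lit 76) (nat_lit 1628182262) (nat_lit 152) (nat_lit 19030851269) (nat_lit 47) (nat_lit 5) (nat_lit 48) (nat_lit 5) (nat_lit 49) (nat_lit 4) (nat_lit 468) (nat_lit 378) (nat_lit 354)))) (XT.nd (nat_lit 78) (nat_lit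 228) (nat_lit 0) (XT.lf (nat_lit 0) (nat_lit 5518019808) (nat_lit 76) (nat_lit 13296733536) (nat_lit 76) (nat_lit 6293697662) (nat_lit 46) (nat_lit 4) (nat_lit 47) (nat_lit 5) (nat_lit 47) (nat_lit 4) (nat_lit 469) (nat_lit 378) (nat_lit 353)) (XT.nd (nat_lit 78) (nat_lit 76) (nat_lit 0) (XT.lf (nat_lit 0) (nat_lit 6987651718) (nat_lit 152) (nat_lit 18906636662) (nat_lit 0) (nat_lit 52914337) (nat_lit 44) (nat_lit 5) (nat_lit 46) (nat_lit 4) (nat_lit 44) (nat_lit 4) (nat_lit 470) (nat_lit 378) (nat_lit 352)) (XT.lf (nat_lit 0) (nat_lit 8056302194) (nat_lit 76) (nat_lit 12914320328) (nat_lit 76) (nat_lit 5850370160) (nat_lit 43) (nat_lit 4) (nat_lit 44) (nat_lit 5) (nat_lit 44) (nat_lit 4) (nat_lit 471) (nat_lit 378) (nat_lit 351))))) (XT.nd (nat_lit 234) (nat_lit 380) (nat_lit 0) (XT.nd (nat_lit 78) (nat_lit 228) (nat_lit 0) (XT.lf (nat_lit 0) (nat_lit 7803574535) (nat_lit 152) (nat_lit 19105409604)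 (nat_lit 0) (nat_lit 825894957) (nat_lit 41) (nat_lit 5) (nat_lit 43) (nat_lit 4) (nat_lit 41) (nat_lit 4) (nat_lit 472) (nat_lit 378) (nat_lit 350)) (XT.nd (nat_lit 78) (nat_lit 152) (nat_lit 0) (XT.lf (nat_lit 0) (nat_lit 8599667886) (nat_lit 76) (nat_lit 13589708391) (nat_lit 76) (nat_lit 6498242594) (nat_lit 40) (nat_lit 4) (nat_lit 41) (nat_lit 5) (nat_lit 41) (nat_lit 4) (nat_lit 473) (nat_lit 378) (nat_lit 349)) (XT.lf (nat_lit 0) (nat_lit 7504437427) (nat_lit 152) (nat_lit 21665666438) (nat_lit 0) (nat_lit 514307693) (nat_lit 38) (nat_lit 5) (nat_lit 40) (nat_lit 4) (nat_lit 38) (nat_lit 4) (nat_lit 474) (nat_lit 378) (nat_lit 348)))) (XT.nd (nat_lit 156) (nat_lit 152) (nat_lit 0) (XT.nd (nat_lit 78) (nat_lit 152) (nat_lit 0) (XT.lf (nat_lit 0) (nat_lit 6695489549) (nat_lit 76) (nat_lit 15559250046) (nat_lit 76) (nat_lit 8468918899) (nat_lit 37) (nat_lit 4) (nat_lit 38) (nat_lit 5) (nat_lit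 38) (nat_lit 4) (nat_lit 475) (nat_lit 378) (nat_lit 347)) (XT.lf (nat_lit 0) (nat_lit 4704396793) (nat_lit 76) (nat_lit 1152823825) (nat_lit 152) (nat_lit 25954582825) (nat_lit 35) (nat_lit 5) (nat_lit 36) (nat_lit 5) (nat_lit 37) (nat_lit 4) (nat_lit 476) (nat_lit 378) (nat_lit 346))) (XT.nd (nat_lit 78) (nat_lit 76) (nat_lit 0) (XT.lf (nat_lit 0) (nat_lit 1802545553) (nat_lit 76) (nat_lit 19104266174) (nat_lit 76) (nat_lit 12039560640) (nat_lit 34) (nat_lit 4) (nat_lit 35) (nat_lit 5) (nat_lit 35) (nat_lit 4) (nat_lit 477) (nat_lit 378) (nat_lit 345)) (XT.lf (nat_lit 0) (nat_lit 2597989915) (nat_lit 152) (nat_lit 1874822654) (nat_lit 76) (nat_lit 29661808168) (nat_lit 33) (nat_lit 5) (nat_lit 35) (nat_lit 5) (nat_lit 34) (nat_lit 4) (nat_lit 478) (nat_lit 378) (nat_lit 344))))))) (XT.nd (nat_lit 1014) (nat_lit 608) (nat_lit 0) (XT.nd (nat_lit 468) (nat_lit 532) (nat_lit 0) (XT.nd (nat_lit 234)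 (nat_lit 228) (nat_lit 0) (XT.nd (nat_lit 78) (nat_lit 228) (nat_lit 0) (XT.lf (nat_lit 0) (nat_lit 17898927832) (nat_lit 152) (nat_lit 6593665704) (nat_lit 0) (nat_lit 10880697651) (nat_lit 32) (nat_lit 5) (nat_lit 34) (nat_lit 4) (nat_lit 32) (nat_lit 4) (nat_lit 479) (nat_lit 378) (nat_lit 343)) (XT.nd (nat_lit 78) (nat_lit 152) (nat_lit 0) (XT.lf (nat_lit 0) (nat_lit 24359983249) (nat_lit 76) (nat_lit 9701622906) (nat_lit 76) (nat_lit 2609389116) (nat_lit 31) (nat_lit 4) (nat_lit 32) (nat_lit 5) (nat_lit 32) (nat_lit 4) (nat_lit 480) (nat_lit 378) (nat_lit 342)) (XT.lf (nat_lit 0) (nat_lit 12854238546) (nat_lit 152) (nat_lit 19272178665) (nat_lit 0) (nat_lit 5900147849) (nat_lit 29) (nat_lit 5) (nat_lit 31) (nat_lit 4) (nat_lit 29) (nat_lit 4) (nat_lit 481) (nat_lit 378) (nat_lit 341)))) (XT.nd (nat_lit 78) (nat_lit 152) (nat_lit 0) (XT.lf (nat_lit 0) (nat_lit 11903268883) (nat_lit 76) (nat_lit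 17280366340) (nat_lit 76) (nat_lit 10261107240) (nat_lit 28) (nat_lit 4) (nat_lit 29) (nat_lit 5) (nat_lit 29) (nat_lit 4) (nat_lit 482) (nat_lit 378) (nat_lit 340)) (XT.nd (nat_lit 78) (nat_lit 0) (nat_lit 0) (XT.lf (nat_lit 0) (nat_lit 3751334709) (nat_lit 76) (nat_lit 1584950490) (nat_lit 152) (nat_lit 35594611253) (nat_lit 26) (nat_lit 5) (nat_lit 27) (nat_lit 5) (nat_lit 28) (nat_lit 4) (nat_lit 483) (nat_lit 378) (nat_lit 339)) (XT.lf (nat_lit 0) (nat_lit 21746042727) (nat_lit 152) (nat_lit 5921344321) (nat_lit 0) (nat_lit 14813582621) (nat_lit 26) (nat_lit 5) (nat_lit 28) (nat_lit 4) (nat_lit 26) (nat_lit 4) (nat_lit 484) (nat_lit 378) (nat_lit 338))))) (XT.nd (nat_lit 234) (nat_lit 228) (nat_lit 0) (XT.nd (nat_lit 78) (nat_lit 228) (nat_lit 0) (XT.lf (nat_lit 0) (nat_lit 27056272198) (nat_lit 76) (nat_lit 12018222103) (nat_lit 76) (nat_lit 5031106738) (nat_lit 25) (nat_lit 4) (nat_lit 26)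 (nat_lit 5) (nat_lit 26) (nat_lit 4) (nat_lit 485) (nat_lit 378) (nat_lit 337)) (XT.nd (nat_lit 78) (nat_lit 76) (nat_lit 0) (XT.lf (nat_lit 0) (nat_lit 11317729546) (nat_lit 152) (nat_lit 30004342678) (nat_lit 0) (nat_lit 4483585864) (nat_lit 23) (nat_lit 5) (nat_lit 25) (nat_lit 4) (nat_lit 23) (nat_lit 4) (nat_lit 486) (nat_lit 378) (nat_lit 336)) (XT.lf (nat_lit 0) (nat_lit 2600016033) (nat_lit 76) (nat_lit 25933438471) (nat_lit 76) (nat_lit 19051164759) (nat_lit 22) (nat_lit 4) (nat_lit 23) (nat_lit 5) (nat_lit 23) (nat_lit 4) (nat_lit 487) (nat_lit 378) (nat_lit 335)))) (XT.nd (nat_lit 156) (nat_lit 76) (nat_lit 0) (XT.nd (nat_lit 78) (nat_lit 152) (nat_lit 0) (XT.lf (nat_lit 0) (nat_lit 37129185948) (nat_lit 76) (nat_lit 9623585391) (nat_lit 76) (nat_lit 2695473555) (nat_lit 22) (nat_lit 4) (nat_lit 23) (nat_lit 5) (nat_lit 23) (nat_lit 4) (nat_lit 488) (nat_lit 378) (nat_lit 334)) (XT.lf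 (nat_lit 0) (nat_lit 14320791557) (nat_lit 152) (nat_lit 29524240866) (nat_lit 0) (nat_lit 7552085545) (nat_lit 20) (nat_lit 5) (nat_lit 22) (nat_lit 4) (nat_lit 20) (nat_lit 4) (nat_lit 489) (nat_lit 378) (nat_lit 333))) (XT.nd (nat_lit 78) (nat_lit 0) (nat_lit 0) (XT.lf (nat_lit 0) (nat_lit 4235514558) (nat_lit 76) (nat_lit 28006448198) (nat_lit 76) (nat_lit 21197376623) (nat_lit 19) (nat_lit 4) (nat_lit 20) (nat_lit 5) (nat_lit 20) (nat_lit 4) (nat_lit 490) (nat_lit 378) (nat_lit 332)) (XT.lf (nat_lit 0) (nat_lit 39995468679) (nat_lit 76) (nat_lit 11215581449) (nat_lit 76) (nat_lit 4368066481) (nat_lit 19) (nat_lit 4) (nat_lit 20) (nat_lit 5) (nat_lit 20) (nat_lit 4) (nat_lit 491) (nat_lit 378) (nat_lit 331)))))) (XT.nd (nat_lit 546) (nat_lit 152) (nat_lit 0) (XT.nd (nat_lit 234) (nat_lit 228) (nat_lit 0) (XT.nd (nat_lit 78) (nat_lit 76) (nat_lit 0) (XT.lf (nat_lit 0) (nat_lit 13149435769) (nat_lit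 152) (nat_lit 38203605226) (nat_lit 0) (nat_lit 6465816620) (nat_lit 17) (nat_lit 5) (nat_lit 19) (nat_lit 4) (nat_lit 17) (nat_lit 4) (nat_lit 492) (nat_lit 378) (nat_lit 330)) (XT.nd (nat_lit 78) (nat_lit 76) (nat_lit 0) (XT.lf (nat_lit 0) (nat_lit 31585118645) (nat_lit 152) (nat_lit 3712544870) (nat_lit 0) (nat_lit 24867645815) (nat_lit 17) (nat_lit 5) (nat_lit 19) (nat_lit 4) (nat_lit 17) (nat_lit 4) (nat_lit 493) (nat_lit 378) (nat_lit 329)) (XT.lf (nat_lit 0) (nat_lit 32870544479) (nat_lit 76) (nat_lit 18251436067) (nat_lit 76) (nat_lit 11501721638) (nat_lit 16) (nat_lit 4) (nat_lit 17) (nat_lit 5) (nat_lit 17) (nat_lit 4) (nat_lit 494) (nat_lit 378) (nat_lit 328)))) (XT.nd (nat_lit 156) (nat_lit 76) (nat_lit 0) (XT.nd (nat_lit 78) (nat_lit 0) (nat_lit 0) (XT.lf (nat_lit 0) (nat_lit 5941487042) (nat_lit 76) (nat_lit 325462592) (nat_lit 152) (nat_lit 58937358019) (nat_lit 14) (nat_lit 5) (nat_lit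 15) (nat_lit 5) (nat_lit 16) (nat_lit 4) (nat_lit 495) (nat_lit 378) (nat_lit 327)) (XT.lf (nat_lit 0) (nat_lit 25044175278) (nat_lit 152) (nat_lit 24422762063) (nat_lit 0) (nat_lit 18432850231) (nat_lit 14) (nat_lit 5) (nat_lit 16) (nat_lit 4) (nat_lit 14) (nat_lit 4) (nat_lit 496) (nat_lit 378) (nat_lit 326))) (XT.nd (nat_lit 78) (nat_lit 0) (nat_lit 0) (XT.lf (nat_lit 0) (nat_lit 12141802021) (nat_lit 76) (nat_lit 32613378793) (nat_lit 76) (nat_lit 25975013449) (nat_lit 13) (nat_lit 4) (nat_lit 14) (nat_lit 5) (nat_lit 14) (nat_lit 4) (nat_lit 497) (nat_lit 378) (nat_lit 325)) (XT.lf (nat_lit 0) (nat_lit 50801014452) (nat_lit 76) (nat_lit 14780663463) (nat_lit 76) (nat_lit 8116545454) (nat_lit 13) (nat_lit 4) (nat_lit 14) (nat_lit 5) (nat_lit 14) (nat_lit 4) (nat_lit 498) (nat_lit 378) (nat_lit 324))))) (XT.nd (nat_lit 58110) (nat_lit 0) (nat_lit 6840) (XT.nd (nat_lit 78) (nat_lit 0) (nat_lit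 0) (XT.lf (nat_lit 0) (nat_lit 10489286040) (nat_lit 152) (nat_lit 62324985831) (nat_lit 0) (nat_lit 3995456568) (nat_lit 11) (nat_lit 5) (nat_lit 13) (nat_lit 4) (nat_lit 11) (nat_lit 4) (nat_lit 499) (nat_lit 378) (nat_lit 323)) (XT.nd (nat_lit 57954) (nat_lit 0) (nat_lit 7980) (XT.lf (nat_lit 0) (nat_lit 30131773169) (nat_lit 152) (nat_lit 26319132604) (nat_lit 0) (nat_lit 23615265614) (nat_lit 11) (nat_lit 5) (nat_lit 13) (nat_lit 4) (nat_lit 11) (nat_lit 4) (nat_lit 500) (nat_lit 378) (nat_lit 322)) (XT.lf (nat_lit 0) (nat_lit 4483767475) (nat_lit 228) (nat_lit 707063631) (nat_lit 228) (nat_lit 707063631) (nat_lit 116) (nat_lit 4) (nat_lit 119) (nat_lit 5) (nat_lit 119) (nat_lit 4) (nat_lit 442) (nat_lit 379) (nat_lit 379)))) (XT.nd (nat_lit 156) (nat_lit 532) (nat_lit 0) (XT.nd (nat_lit 78) (nat_lit 228) (nat_lit 0) (XT.lf (nat_lit 0) (nat_lit 3161250618) (nat_lit 152) (nat_lit 4867653728)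 (nat_lit 152) (nat_lit 4046382492) (nat_lit 111) (nat_lit 4) (nat_lit 113) (nat_lit 5) (nat_lit 113) (nat_lit 4) (nat_lit 443) (nat_lit 379) (nat_lit 378)) (XT.lf (nat_lit 0) (nat_lit 5427444655) (nat_lit 228) (nat_lit 3068916730) (nat_lit 0) (nat_lit 3870712309) (nat_lit 108) (nat_lit 5) (nat_lit 111) (nat_lit 4) (nat_lit 108) (nat_lit 4) (nat_lit 444) (nat_lit 379) (nat_lit 377))) (XT.nd (nat_lit 78) (nat_lit 152) (nat_lit 0) (XT.lf (nat_lit 0) (nat_lit 2563808754) (nat_lit 228) (nat_lit 9757553888) (nat_lit 0) (nat_lit 350262202) (nat_lit 103) (nat_lit 5) (nat_lit 106) (nat_lit 4) (nat_lit 103) (nat_lit 4) (nat_lit 445) (nat_lit 379) (nat_lit 376)) (XT.lf (nat_lit 0) (nat_lit 9003904381) (nat_lit 152) (nat_lit 3433281972) (nat_lit 152) (nat_lit 551015493) (nat_lit 101) (nat_lit 4) (nat_lit 103) (nat_lit 5) (nat_lit 103) (nat_lit 4) (nat_lit 446) (nat_lit 379) (nat_lit 375))))))))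
noncomputable def xc16 : XT := (XT.nd (nat_lit 2028) (nat_lit 2204) (nat_lit 0) (XT.nd (nat_lit 1014) (nat_lit 1672) (nat_lit 0) (XT.nd (nat_lit 468) (nat_lit 1292) (nat_lit 0) (XT.nd (nat_lit 234) (nat_lit 684) (nat_lit 0) (XT.nd (nat_lit 78) (nat_lit 456) (nat_lit 0) (XT.lf (nat_lit 0) (nat_lit 1865160416) (nat_lit 152) (nat_lit 7434662816) (nat_lit 152) (nat_lit 4018019513) (nat_lit 96) (nat_lit 4) (nat_lit 98) (nat_lit 5) (nat_lit 98) (nat_lit 4) (nat_lit 447) (nat_lit 379) (nat_lit 374)) (XT.nd (nat_lit 78) (nat_lit 228) (nat_lit 0) (XT.lf (nat_lit 0) (nat_lit 5877376918) (nat_lit 228) (nat_lit 5795419102) (nat_lit 0) (nat_lit 1988517186) (nat_lit 93) (nat_lit 5) (nat_lit 96) (nat_lit 4) (nat_lit 93) (nat_lit 4) (nat_lit 448) (nat_lit 379) (nat_lit 373)) (XT.lf (nat_lit 0) (nat_lit 2134456097) (nat_lit 228) (nat_lit 100418912) (nat_lit 76) (nat_lit 11784881393) (nat_lit 90) (nat_lit 5) (nat_lit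 93) (nat_lit 5) (nat_lit 91) (nat_lit 4) (nat_lit 449) (nat_lit 379) (nat_lit 372)))) (XT.nd (nat_lit 78) (nat_lit 456) (nat_lit 0) (XT.lf (nat_lit 0) (nat_lit 5726073207) (nat_lit 152) (nat_lit 6736602857) (nat_lit 152) (nat_lit 1928893113) (nat_lit 87) (nat_lit 4) (nat_lit 89) (nat_lit 5) (nat_lit 89) (nat_lit 4) (nat_lit 450) (nat_lit 379) (nat_lit 371)) (XT.nd (nat_lit 78) (nat_lit 304) (nat_lit 0) (XT.lf (nat_lit 0) (nat_lit 8361592149) (nat_lit 152) (nat_lit 3189467647) (nat_lit 0) (nat_lit 3228381502) (nat_lit 85) (nat_lit 5) (nat_lit 87) (nat_lit 4) (nat_lit 85) (nat_lit 4) (nat_lit 451) (nat_lit 379) (nat_lit 370)) (XT.lf (nat_lit 0) (nat_lit 2359227402) (nat_lit 76) (nat_lit 1550034261) (nat_lit 152) (nat_lit 11274373934) (nat_lit 81) (nat_lit 5) (nat_lit 82) (nat_lit 5) (nat_lit 83) (nat_lit 4) (nat_lit 452) (nat_lit 379) (nat_lit 369))))) (XT.nd (nat_lit 234) (nat_lit 684) (nat_lit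 0) (XT.nd (nat_lit 78) (nat_lit 456) (nat_lit 0) (XT.lf (nat_lit 0) (nat_lit 7969353630) (nat_lit 152) (nat_lit 6729263742) (nat_lit 152) (nat_lit 905162409) (nat_lit 79) (nat_lit 4) (nat_lit 81) (nat_lit 5) (nat_lit 81) (nat_lit 4) (nat_lit 453) (nat_lit 379) (nat_lit 368)) (XT.nd (nat_lit 78) (nat_lit 304) (nat_lit 0) (XT.lf (nat_lit 0) (nat_lit 9804519030) (nat_lit 152) (nat_lit 2466041006) (nat_lit 0) (nat_lit 3770992968) (nat_lit 77) (nat_lit 5) (nat_lit 79) (nat_lit 4) (nat_lit 77) (nat_lit 4) (nat_lit 454) (nat_lit 379) (nat_lit 367)) (XT.lf (nat_lit 0) (nat_lit 2755512888) (nat_lit 76) (nat_lit 1751899565) (nat_lit 152) (nat_lit 11990257819) (nat_lit 73) (nat_lit 5) (nat_lit 74) (nat_lit 5) (nat_lit 75) (nat_lit 4) (nat_lit 455) (nat_lit 379) (nat_lit 366)))) (XT.nd (nat_lit 156) (nat_lit 380) (nat_lit 0) (XT.nd (nat_lit 78) (nat_lit 152) (nat_lit 0) (XT.lf (nat_lit 0) (nat_lit 7987208290)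 (nat_lit 152) (nat_lit 7763454327) (nat_lit 152) (nat_lit 1221365149) (nat_lit 71) (nat_lit 4) (nat_lit 73) (nat_lit 5) (nat_lit 73) (nat_lit 4) (nat_lit 456) (nat_lit 379) (nat_lit 365)) (XT.lf (nat_lit 0) (nat_lit 9919049955) (nat_lit 152) (nat_lit 4288393122) (nat_lit 0) (nat_lit 3258858559) (nat_lit 69) (nat_lit 5) (nat_lit 71) (nat_lit 4) (nat_lit 69) (nat_lit 4) (nat_lit 457) (nat_lit 379) (nat_lit 364))) (XT.nd (nat_lit 78) (nat_lit 76) (nat_lit 0) (XT.lf (nat_lit 0) (nat_lit 364490273) (nat_lit 76) (nat_lit 3240747473) (nat_lit 152) (nat_lit 14376572923) (nat_lit 65) (nat_lit 5) (nat_lit 66) (nat_lit 5) (nat_lit 67) (nat_lit 4) (nat_lit 458) (nat_lit 379) (nat_lit 363)) (XT.lf (nat_lit 0) (nat_lit 5009052859) (nat_lit 76) (nat_lit 10265864057) (nat_lit 76) (nat_lit 3242470225) (nat_lit 64) (nat_lit 4) (nat_lit 65) (nat_lit 5) (nat_lit 65) (nat_lit 4) (nat_lit 459) (nat_lit 379) (nat_lit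 362)))))) (XT.nd (nat_lit 468) (nat_lit 836) (nat_lit 0) (XT.nd (nat_lit 234) (nat_lit 456) (nat_lit 0) (XT.nd (nat_lit 78) (nat_lit 228) (nat_lit 0) (XT.lf (nat_lit 0) (nat_lit 8323953293) (nat_lit 152) (nat_lit 9498334389) (nat_lit 0) (nat_lit 1253807351) (nat_lit 62) (nat_lit 5) (nat_lit 64) (nat_lit 4) (nat_lit 62) (nat_lit 4) (nat_lit 460) (nat_lit 379) (nat_lit 361)) (XT.nd (nat_lit 78) (nat_lit 76) (nat_lit 0) (XT.lf (nat_lit 0) (nat_lit 832120858) (nat_lit 152) (nat_lit 5620290103) (nat_lit 76) (nat_lit 13205952920) (nat_lit 60) (nat_lit 5) (nat_lit 62) (nat_lit 5) (nat_lit 61) (nat_lit 4) (nat_lit 461) (nat_lit 379) (nat_lit 360)) (XT.lf (nat_lit 0) (nat_lit 12836522798) (nat_lit 152) (nat_lit 1909520755) (nat_lit 0) (nat_lit 5518612744) (nat_lit 59) (nat_lit 5) (nat_lit 61) (nat_lit 4) (nat_lit 59) (nat_lit 4) (nat_lit 462) (nat_lit 379) (nat_lit 359)))) (XT.nd (nat_lit 78) (nat_lit 228)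 (nat_lit 0) (XT.lf (nat_lit 0) (nat_lit 1700219551) (nat_lit 76) (nat_lit 2846038303) (nat_lit 152) (nat_lit 16350849832) (nat_lit 56) (nat_lit 5) (nat_lit 57) (nat_lit 5) (nat_lit 58) (nat_lit 4) (nat_lit 463) (nat_lit 379) (nat_lit 358)) (XT.nd (nat_lit 78) (nat_lit 152) (nat_lit 0) (XT.lf (nat_lit 0) (nat_lit 5130701793) (nat_lit 76) (nat_lit 11964344465) (nat_lit 76) (nat_lit 4460052343) (nat_lit 55) (nat_lit 4) (nat_lit 56) (nat_lit 5) (nat_lit 56) (nat_lit 4) (nat_lit 464) (nat_lit 379) (nat_lit 357)) (XT.lf (nat_lit 0) (nat_lit 7922103637) (nat_lit 152) (nat_lit 13863791263) (nat_lit 0) (nat_lit 456179447) (nat_lit 53) (nat_lit 5) (nat_lit 55) (nat_lit 4) (nat_lit 53) (nat_lit 4) (nat_lit 465) (nat_lit 379) (nat_lit 356))))) (XT.nd (nat_lit 234) (nat_lit 532) (nat_lit 0) (XT.nd (nat_lit 78) (nat_lit 228) (nat_lit 0) (XT.lf (nat_lit 0) (nat_lit 11360934220) (nat_lit 76) (nat_lit 9617140165)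 (nat_lit 76) (nat_lit 1979593421) (nat_lit 52) (nat_lit 4) (nat_lit 53) (nat_lit 5) (nat_lit 53) (nat_lit 4) (nat_lit 466) (nat_lit 379) (nat_lit 355)) (XT.nd (nat_lit 78) (nat_lit 76) (nat_lit 0) (XT.lf (nat_lit 0) (nat_lit 10825620497) (nat_lit 152) (nat_lit 9626558418) (nat_lit 0) (nat_lit 3251837199) (nat_lit 50) (nat_lit 5) (nat_lit 52) (nat_lit 4) (nat_lit 50) (nat_lit 4) (nat_lit 467) (nat_lit 379) (nat_lit 354)) (XT.lf (nat_lit 0) (nat_lit 16516726829) (nat_lit 76) (nat_lit 7845658980) (nat_lit 76) (nat_lit 120742947) (nat_lit 49) (nat_lit 4) (nat_lit 50) (nat_lit 5) (nat_lit 50) (nat_lit 4) (nat_lit 468) (nat_lit 379) (nat_lit 353)))) (XT.nd (nat_lit 156) (nat_lit 228) (nat_lit 0) (XT.nd (nat_lit 78) (nat_lit 152) (nat_lit 0) (XT.lf (nat_lit 0) (nat_lit 13108820779) (nat_lit 152) (nat_lit 6716599125) (nat_lit 0) (nat_lit 5469158672) (nat_lit 47) (nat_lit 5) (nat_lit 49) (nat_lit 4) (nat_lit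 47) (nat_lit 4) (nat_lit 469) (nat_lit 379) (nat_lit 352)) (XT.lf (nat_lit 0) (nat_lit 957904487) (nat_lit 152) (nat_lit 5828205166) (nat_lit 76) (nat_lit 19356500430) (nat_lit 45) (nat_lit 5) (nat_lit 47) (nat_lit 5) (nat_lit 46) (nat_lit 4) (nat_lit 470) (nat_lit 379) (nat_lit 351))) (XT.nd (nat_lit 78) (nat_lit 152) (nat_lit 0) (XT.lf (nat_lit 0) (nat_lit 14624907162) (nat_lit 152) (nat_lit 5445485768) (nat_lit 0) (nat_lit 6955486903) (nat_lit 44) (nat_lit 5) (nat_lit 46) (nat_lit 4) (nat_lit 44) (nat_lit 4) (nat_lit 471) (nat_lit 379) (nat_lit 350)) (XT.lf (nat_lit 0) (nat_lit 1122423480) (nat_lit 152) (nat_lit 5508100400) (nat_lit 76) (nat_lit 21318883338) (nat_lit 42) (nat_lit 5) (nat_lit 44) (nat_lit 5) (nat_lit 43) (nat_lit 4) (nat_lit 472) (nat_lit 379) (nat_lit 349))))))) (XT.nd (nat_lit 1014) (nat_lit 912) (nat_lit 0) (XT.nd (nat_lit 468) (nat_lit 684) (nat_lit 0) (XT.nd (nat_lit 234)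 (nat_lit 304) (nat_lit 0) (XT.nd (nat_lit 78) (nat_lit 228) (nat_lit 0) (XT.lf (nat_lit 0) (nat_lit 15196225448) (nat_lit 152) (nat_lit 6187249881) (nat_lit 0) (nat_lit 7528032313) (nat_lit 41) (nat_lit 5) (nat_lit 43) (nat_lit 4) (nat_lit 41) (nat_lit 4) (nat_lit 473) (nat_lit 379) (nat_lit 348)) (XT.nd (nat_lit 78) (nat_lit 76) (nat_lit 0) (XT.lf (nat_lit 0) (nat_lit 175898864) (nat_lit 152) (nat_lit 7414325895) (nat_lit 76) (nat_lit 22327727294) (nat_lit 39) (nat_lit 5) (nat_lit 41) (nat_lit 5) (nat_lit 40) (nat_lit 4) (nat_lit 474) (nat_lit 379) (nat_lit 347)) (XT.lf (nat_lit 0) (nat_lit 14608742696) (nat_lit 152) (nat_lit 9389716958) (nat_lit 0) (nat_lit 6968263661) (nat_lit 38) (nat_lit 5) (nat_lit 40) (nat_lit 4) (nat_lit 38) (nat_lit 4) (nat_lit 475) (nat_lit 379) (nat_lit 346)))) (XT.nd (nat_lit 78) (nat_lit 228) (nat_lit 0) (XT.lf (nat_lit 0) (nat_lit 20006557102) (nat_lit 76) (nat_lit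 9894306395) (nat_lit 76) (nat_lit 2162941725) (nat_lit 37) (nat_lit 4) (nat_lit 38) (nat_lit 5) (nat_lit 38) (nat_lit 4) (nat_lit 476) (nat_lit 379) (nat_lit 345)) (XT.nd (nat_lit 78) (nat_lit 76) (nat_lit 0) (XT.lf (nat_lit 0) (nat_lit 12605550771) (nat_lit 152) (nat_lit 15587811958) (nat_lit 0) (nat_lit 5015334830) (nat_lit 35) (nat_lit 5) (nat_lit 37) (nat_lit 4) (nat_lit 35) (nat_lit 4) (nat_lit 477) (nat_lit 379) (nat_lit 344)) (XT.lf (nat_lit 0) (nat_lit 14387277373) (nat_lit 76) (nat_lit 13844128199) (nat_lit 76) (nat_lit 6173877355) (nat_lit 34) (nat_lit 4) (nat_lit 35) (nat_lit 5) (nat_lit 35) (nat_lit 4) (nat_lit 478) (nat_lit 379) (nat_lit 343))))) (XT.nd (nat_lit 234) (nat_lit 380) (nat_lit 0) (XT.nd (nat_lit 78) (nat_lit 152) (nat_lit 0) (XT.lf (nat_lit 0) (nat_lit 8879228822) (nat_lit 152) (nat_lit 25419174871) (nat_lit 0) (nat_lit 1358379734) (nat_lit 32) (nat_lit 5) (nat_lit 34)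 (nat_lit 4) (nat_lit 32) (nat_lit 4) (nat_lit 479) (nat_lit 379) (nat_lit 342)) (XT.nd (nat_lit 78) (nat_lit 76) (nat_lit 0) (XT.lf (nat_lit 0) (nat_lit 4969006309) (nat_lit 76) (nat_lit 19792609541) (nat_lit 76) (nat_lit 12201280824) (nat_lit 31) (nat_lit 4) (nat_lit 32) (nat_lit 5) (nat_lit 32) (nat_lit 4) (nat_lit 480) (nat_lit 379) (nat_lit 341)) (XT.lf (nat_lit 0) (nat_lit 3118751163) (nat_lit 152) (nat_lit 1327387309) (nat_lit 76) (nat_lit 33885017519) (nat_lit 30) (nat_lit 5) (nat_lit 32) (nat_lit 5) (nat_lit 31) (nat_lit 4) (nat_lit 481) (nat_lit 379) (nat_lit 340)))) (XT.nd (nat_lit 156) (nat_lit 228) (nat_lit 0) (XT.nd (nat_lit 78) (nat_lit 76) (nat_lit 0) (XT.lf (nat_lit 0) (nat_lit 19187588925) (nat_lit 152) (nat_lit 8879428292) (nat_lit 0) (nat_lit 11690133321) (nat_lit 29) (nat_lit 5) (nat_lit 31) (nat_lit 4) (nat_lit 29) (nat_lit 4) (nat_lit 482) (nat_lit 379) (nat_lit 339)) (XT.lf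 (nat_lit 0) (nat_lit 23529263873) (nat_lit 76) (nat_lit 12639243881) (nat_lit 76) (nat_lit 5082678614) (nat_lit 28) (nat_lit 4) (nat_lit 29) (nat_lit 5) (nat_lit 29) (nat_lit 4) (nat_lit 483) (nat_lit 379) (nat_lit 338))) (XT.nd (nat_lit 78) (nat_lit 76) (nat_lit 0) (XT.lf (nat_lit 0) (nat_lit 11057767968) (nat_lit 152) (nat_lit 28089370875) (nat_lit 0) (nat_lit 3666641576) (nat_lit 26) (nat_lit 5) (nat_lit 28) (nat_lit 4) (nat_lit 26) (nat_lit 4) (nat_lit 484) (nat_lit 379) (nat_lit 337)) (XT.lf (nat_lit 0) (nat_lit 4278624277) (nat_lit 76) (nat_lit 23806007242) (nat_lit 76) (nat_lit 16362828223) (nat_lit 25) (nat_lit 4) (nat_lit 26) (nat_lit 5) (nat_lit 26) (nat_lit 4) (nat_lit 485) (nat_lit 379) (nat_lit 336)))))) (XT.nd (nat_lit 468) (nat_lit 456) (nat_lit 0) (XT.nd (nat_lit 234) (nat_lit 228) (nat_lit 0) (XT.nd (nat_lit 78) (nat_lit 228) (nat_lit 0) (XT.lf (nat_lit 0) (nat_lit 38523156756)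 (nat_lit 76) (nat_lit 7564340042) (nat_lit 76) (nat_lit 71587092) (nat_lit 25) (nat_lit 4) (nat_lit 26) (nat_lit 5) (nat_lit 26) (nat_lit 4) (nat_lit 486) (nat_lit 379) (nat_lit 335)) (XT.nd (nat_lit 78) (nat_lit 76) (nat_lit 0) (XT.lf (nat_lit 0) (nat_lit 16892778084) (nat_lit 152) (nat_lit 21480448069) (nat_lit 0) (nat_lit 9572422532) (nat_lit 23) (nat_lit 5) (nat_lit 25) (nat_lit 4) (nat_lit 23) (nat_lit 4) (nat_lit 487) (nat_lit 379) (nat_lit 334)) (XT.lf (nat_lit 0) (nat_lit 12466789427) (nat_lit 76) (nat_lit 22357564151) (nat_lit 76) (nat_lit 14993553243) (nat_lit 22) (nat_lit 4) (nat_lit 23) (nat_lit 5) (nat_lit 23) (nat_lit 4) (nat_lit 488) (nat_lit 379) (nat_lit 333)))) (XT.nd (nat_lit 78) (nat_lit 152) (nat_lit 0) (XT.lf (nat_lit 0) (nat_lit 1903460414) (nat_lit 152) (nat_lit 3541562796) (nat_lit 76) (nat_lit 46336080367) (nat_lit 21) (nat_lit 5) (nat_lit 23) (nat_lit 5) (nat_lit 22)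 (nat_lit 4) (nat_lit 489) (nat_lit 379) (nat_lit 332)) (XT.nd (nat_lit 78) (nat_lit 76) (nat_lit 0) (XT.lf (nat_lit 0) (nat_lit 19623760717) (nat_lit 152) (nat_lit 21810164023) (nat_lit 0) (nat_lit 12395426608) (nat_lit 20) (nat_lit 5) (nat_lit 22) (nat_lit 4) (nat_lit 20) (nat_lit 4) (nat_lit 490) (nat_lit 379) (nat_lit 331)) (XT.lf (nat_lit 0) (nat_lit 13374141386) (nat_lit 76) (nat_lit 24934234226) (nat_lit 76) (nat_lit 17669287361) (nat_lit 19) (nat_lit 4) (nat_lit 20) (nat_lit 5) (nat_lit 20) (nat_lit 4) (nat_lit 491) (nat_lit 379) (nat_lit 330))))) (XT.nd (nat_lit 234) (nat_lit 228) (nat_lit 0) (XT.nd (nat_lit 78) (nat_lit 228) (nat_lit 0) (XT.lf (nat_lit 0) (nat_lit 50497005065) (nat_lit 76) (nat_lit 7516802062) (nat_lit 76) (nat_lit 216985906) (nat_lit 19) (nat_lit 4) (nat_lit 20) (nat_lit 5) (nat_lit 20) (nat_lit 4) (nat_lit 492) (nat_lit 379) (nat_lit 329)) (XT.nd (nat_lit 78) (nat_lit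 76) (nat_lit 0) (XT.lf (nat_lit 0) (nat_lit 18007480009) (nat_lit 152) (nat_lit 31688252785) (nat_lit 0) (nat_lit 10888038258) (nat_lit 17) (nat_lit 5) (nat_lit 19) (nat_lit 4) (nat_lit 17) (nat_lit 4) (nat_lit 493) (nat_lit 379) (nat_lit 328)) (XT.lf (nat_lit 0) (nat_lit 4208263116) (nat_lit 76) (nat_lit 32997109052) (nat_lit 76) (nat_lit 25846961015) (nat_lit 16) (nat_lit 4) (nat_lit 17) (nat_lit 5) (nat_lit 17) (nat_lit 4) (nat_lit 494) (nat_lit 379) (nat_lit 327)))) (XT.nd (nat_lit 156) (nat_lit 76) (nat_lit 0) (XT.nd (nat_lit 78) (nat_lit 152) (nat_lit 0) (XT.lf (nat_lit 0) (nat_lit 42308373130) (nat_lit 76) (nat_lit 15254673077) (nat_lit 76) (nat_lit 8075280957) (nat_lit 16) (nat_lit 4) (nat_lit 17) (nat_lit 5) (nat_lit 17) (nat_lit 4) (nat_lit 495) (nat_lit 379) (nat_lit 326)) (XT.lf (nat_lit 0) (nat_lit 10424009135) (nat_lit 152) (nat_lit 54498507023) (nat_lit 0) (nat_lit 3426685226) (nat_lit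 14) (nat_lit 5) (nat_lit 16) (nat_lit 4) (nat_lit 14) (nat_lit 4) (nat_lit 496) (nat_lit 379) (nat_lit 325))) (XT.nd (nat_lit 78) (nat_lit 76) (nat_lit 0) (XT.lf (nat_lit 0) (nat_lit 29960190701) (nat_lit 152) (nat_lit 18287548122) (nat_lit 0) (nat_lit 22937114127) (nat_lit 14) (nat_lit 5) (nat_lit 16) (nat_lit 4) (nat_lit 14) (nat_lit 4) (nat_lit 497) (nat_lit 379) (nat_lit 324)) (XT.lf (nat_lit 0) (nat_lit 19894375812) (nat_lit 76) (nat_lit 30656590479) (nat_lit 76) (nat_lit 23608987558) (nat_lit 13) (nat_lit 4) (nat_lit 14) (nat_lit 5) (nat_lit 14) (nat_lit 4) (nat_lit 498) (nat_lit 379) (nat_lit 323))))))))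
noncomputable def xc17 : XT := (XT.nd (nat_lit 59748) (nat_lit 0) (nat_lit 684) (XT.nd (nat_lit 58734) (nat_lit 0) (nat_lit 3496) (XT.nd (nat_lit 58188) (nat_lit 0) (nat_lit 5776) (XT.nd (nat_lit 57954) (nat_lit 0) (nat_lit 7600) (XT.nd (nat_lit 78) (nat_lit 152) (nat_lit 0) (XT.lf (nat_lit 0) (nat_lit 60146287736) (nat_lit 76) (nat_lit 12103070680) (nat_lit 76) (nat_lit 5032109333) (nat_lit 13) (nat_lit 4) (nat_lit 14) (nat_lit 5) (nat_lit 14) (nat_lit 4) (nat_lit 499) (nat_lit 379) (nat_lit 322)) (XT.nd (nat_lit 57798) (nat_lit 0) (nat_lit 8664) (XT.lf (nat_lit 0) (nat_lit 14369353699) (nat_lit 152) (nat_lit 58697440332) (nat_lit 0) (nat_lit 7482744508) (nat_lit 11) (nat_lit 5) (nat_lit 13) (nat_lit 4) (nat_lit 11) (nat_lit 4) (nat_lit 500) (nat_lit 379) (nat_lit 321)) (XT.lf (nat_lit 0) (nat_lit 2092186217) (nat_lit 228) (nat_lit 1447952641) (nat_lit 0) (nat_lit 2092186217) (nat_lit 125) (nat_lit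 5) (nat_lit 128) (nat_lit 4) (nat_lit 125) (nat_lit 4) (nat_lit 440) (nat_lit 380) (nat_lit 380)))) (XT.nd (nat_lit 78) (nat_lit 608) (nat_lit 0) (XT.lf (nat_lit 0) (nat_lit 1859211115) (nat_lit 228) (nat_lit 8697045312) (nat_lit 0) (nat_lit 971006274) (nat_lit 119) (nat_lit 5) (nat_lit 122) (nat_lit 4) (nat_lit 119) (nat_lit 4) (nat_lit 441) (nat_lit 380) (nat_lit 379)) (XT.nd (nat_lit 78) (nat_lit 380) (nat_lit 0) (XT.lf (nat_lit 0) (nat_lit 8682114573) (nat_lit 228) (nat_lit 2426318619) (nat_lit 228) (nat_lit 692204406) (nat_lit 116) (nat_lit 4) (nat_lit 119) (nat_lit 5) (nat_lit 119) (nat_lit 4) (nat_lit 442) (nat_lit 380) (nat_lit 378)) (XT.lf (nat_lit 0) (nat_lit 2567542365) (nat_lit 152) (nat_lit 5991740970) (nat_lit 152) (nat_lit 3525971856) (nat_lit 111) (nat_lit 4) (nat_lit 113) (nat_lit 5) (nat_lit 113) (nat_lit 4) (nat_lit 443) (nat_lit 380) (nat_lit 377))))) (XT.nd (nat_lit 234) (nat_lit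 1064) (nat_lit 0) (XT.nd (nat_lit 78) (nat_lit 532) (nat_lit 0) (XT.lf (nat_lit 0) (nat_lit 5761222041) (nat_lit 228) (nat_lit 3976917797) (nat_lit 0) (nat_lit 2644050844) (nat_lit 108) (nat_lit 5) (nat_lit 111) (nat_lit 4) (nat_lit 108) (nat_lit 4) (nat_lit 444) (nat_lit 380) (nat_lit 376)) (XT.nd (nat_lit 78) (nat_lit 152) (nat_lit 0) (XT.lf (nat_lit 0) (nat_lit 1665866223) (nat_lit 152) (nat_lit 1029611090) (nat_lit 228) (nat_lit 9996599869) (nat_lit 103) (nat_lit 5) (nat_lit 105) (nat_lit 5) (nat_lit 106) (nat_lit 4) (nat_lit 445) (nat_lit 380) (nat_lit 375)) (XT.lf (nat_lit 0) (nat_lit 7436417073) (nat_lit 152) (nat_lit 4954773372) (nat_lit 152) (nat_lit 622797518) (nat_lit 101) (nat_lit 4) (nat_lit 103) (nat_lit 5) (nat_lit 103) (nat_lit 4) (nat_lit 446) (nat_lit 380) (nat_lit 374)))) (XT.nd (nat_lit 156) (nat_lit 456) (nat_lit 0) (XT.nd (nat_lit 78) (nat_lit 380) (nat_lit 0) (XT.lf (nat_lit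 0) (nat_lit 9027724984) (nat_lit 228) (nat_lit 88938677) (nat_lit 0) (nat_lit 4233040964) (nat_lit 98) (nat_lit 5) (nat_lit 101) (nat_lit 4) (nat_lit 98) (nat_lit 4) (nat_lit 447) (nat_lit 380) (nat_lit 373)) (XT.lf (nat_lit 0) (nat_lit 5388459766) (nat_lit 228) (nat_lit 8121611237) (nat_lit 0) (nat_lit 188921678) (nat_lit 93) (nat_lit 5) (nat_lit 96) (nat_lit 4) (nat_lit 93) (nat_lit 4) (nat_lit 448) (nat_lit 380) (nat_lit 372))) (XT.nd (nat_lit 78) (nat_lit 228) (nat_lit 0) (XT.lf (nat_lit 0) (nat_lit 1444143492) (nat_lit 228) (nat_lit 2786503044) (nat_lit 76) (nat_lit 9832163992) (nat_lit 90) (nat_lit 5) (nat_lit 93) (nat_lit 5) (nat_lit 91) (nat_lit 4) (nat_lit 449) (nat_lit 380) (nat_lit 371)) (XT.lf (nat_lit 0) (nat_lit 2625975978) (nat_lit 152) (nat_lit 8923205114) (nat_lit 152) (nat_lit 2892140576) (nat_lit 87) (nat_lit 4) (nat_lit 89) (nat_lit 5) (nat_lit 89) (nat_lit 4) (nat_lit 450)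 (nat_lit 380) (nat_lit 370)))))) (XT.nd (nat_lit 468) (nat_lit 1064) (nat_lit 0) (XT.nd (nat_lit 234) (nat_lit 608) (nat_lit 0) (XT.nd (nat_lit 78) (nat_lit 456) (nat_lit 0) (XT.lf (nat_lit 0) (nat_lit 7216475997) (nat_lit 152) (nat_lit 6701307795) (nat_lit 0) (nat_lit 917710406) (nat_lit 85) (nat_lit 5) (nat_lit 87) (nat_lit 4) (nat_lit 85) (nat_lit 4) (nat_lit 451) (nat_lit 380) (nat_lit 369)) (XT.nd (nat_lit 78) (nat_lit 228) (nat_lit 0) (XT.lf (nat_lit 0) (nat_lit 2528657499) (nat_lit 228) (nat_lit 1587841465) (nat_lit 76) (nat_lit 11129624626) (nat_lit 82) (nat_lit 5) (nat_lit 85) (nat_lit 5) (nat_lit 83) (nat_lit 4) (nat_lit 452) (nat_lit 380) (nat_lit 368)) (XT.lf (nat_lit 0) (nat_lit 3597977449) (nat_lit 152) (nat_lit 9495360937) (nat_lit 152) (nat_lit 2579671989) (nat_lit 79) (nat_lit 4) (nat_lit 81) (nat_lit 5) (nat_lit 81) (nat_lit 4) (nat_lit 453) (nat_lit 380) (nat_lit 367)))) (XT.nd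 (nat_lit 78) (nat_lit 456) (nat_lit 0) (XT.lf (nat_lit 0) (nat_lit 7948939775) (nat_lit 152) (nat_lit 7295070927) (nat_lit 0) (nat_lit 873670329) (nat_lit 77) (nat_lit 5) (nat_lit 79) (nat_lit 4) (nat_lit 77) (nat_lit 4) (nat_lit 454) (nat_lit 380) (nat_lit 366)) (XT.nd (nat_lit 78) (nat_lit 228) (nat_lit 0) (XT.lf (nat_lit 0) (nat_lit 2398805892) (nat_lit 228) (nat_lit 2549510942) (nat_lit 76) (nat_lit 11632478359) (nat_lit 74) (nat_lit 5) (nat_lit 77) (nat_lit 5) (nat_lit 75) (nat_lit 4) (nat_lit 455) (nat_lit 380) (nat_lit 365)) (XT.lf (nat_lit 0) (nat_lit 2202838850) (nat_lit 152) (nat_lit 11190343462) (nat_lit 152) (nat_lit 3669438507) (nat_lit 71) (nat_lit 4) (nat_lit 73) (nat_lit 5) (nat_lit 73) (nat_lit 4) (nat_lit 456) (nat_lit 380) (nat_lit 364))))) (XT.nd (nat_lit 234) (nat_lit 608) (nat_lit 0) (XT.nd (nat_lit 78) (nat_lit 304) (nat_lit 0) (XT.lf (nat_lit 0) (nat_lit 6979821863) (nat_lit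 76) (nat_lit 312540848) (nat_lit 152) (nat_lit 10272031261) (nat_lit 69) (nat_lit 5) (nat_lit 70) (nat_lit 5) (nat_lit 71) (nat_lit 4) (nat_lit 457) (nat_lit 380) (nat_lit 363)) (XT.nd (nat_lit 78) (nat_lit 76) (nat_lit 0) (XT.lf (nat_lit 0) (nat_lit 729273154) (nat_lit 228) (nat_lit 6395329217) (nat_lit 76) (nat_lit 10962218702) (nat_lit 66) (nat_lit 5) (nat_lit 69) (nat_lit 5) (nat_lit 67) (nat_lit 4) (nat_lit 458) (nat_lit 380) (nat_lit 362)) (XT.lf (nat_lit 0) (nat_lit 12117480588) (nat_lit 152) (nat_lit 2301101408) (nat_lit 0) (nat_lit 4212261262) (nat_lit 65) (nat_lit 5) (nat_lit 67) (nat_lit 4) (nat_lit 65) (nat_lit 4) (nat_lit 459) (nat_lit 380) (nat_lit 361)))) (XT.nd (nat_lit 156) (nat_lit 304) (nat_lit 0) (XT.nd (nat_lit 78) (nat_lit 76) (nat_lit 0) (XT.lf (nat_lit 0) (nat_lit 1747342382) (nat_lit 76) (nat_lit 3129057468) (nat_lit 152) (nat_lit 14321310636) (nat_lit 62) (nat_lit 5) (nat_lit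 63) (nat_lit 5) (nat_lit 64) (nat_lit 4) (nat_lit 460) (nat_lit 380) (nat_lit 360)) (XT.lf (nat_lit 0) (nat_lit 5714890092) (nat_lit 76) (nat_lit 11107365712) (nat_lit 76) (nat_lit 2965094080) (nat_lit 61) (nat_lit 4) (nat_lit 62) (nat_lit 5) (nat_lit 62) (nat_lit 4) (nat_lit 461) (nat_lit 380) (nat_lit 359))) (XT.nd (nat_lit 78) (nat_lit 152) (nat_lit 0) (XT.lf (nat_lit 0) (nat_lit 8840421586) (nat_lit 152) (nat_lit 10837249776) (nat_lit 0) (nat_lit 724529656) (nat_lit 59) (nat_lit 5) (nat_lit 61) (nat_lit 4) (nat_lit 59) (nat_lit 4) (nat_lit 462) (nat_lit 380) (nat_lit 358)) (XT.lf (nat_lit 0) (nat_lit 262764784) (nat_lit 152) (nat_lit 7783216407) (nat_lit 76) (nat_lit 12996779730) (nat_lit 57) (nat_lit 5) (nat_lit 59) (nat_lit 5) (nat_lit 58) (nat_lit 4) (nat_lit 463) (nat_lit 380) (nat_lit 357))))))) (XT.nd (nat_lit 1014) (nat_lit 1292) (nat_lit 0) (XT.nd (nat_lit 468) (nat_lit 760) (nat_lit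 0) (XT.nd (nat_lit 234) (nat_lit 380) (nat_lit 0) (XT.nd (nat_lit 78) (nat_lit 304) (nat_lit 0) (XT.lf (nat_lit 0) (nat_lit 12511996809) (nat_lit 152) (nat_lit 4945752834) (nat_lit 0) (nat_lit 4251990005) (nat_lit 56) (nat_lit 5) (nat_lit 58) (nat_lit 4) (nat_lit 56) (nat_lit 4) (nat_lit 464) (nat_lit 380) (nat_lit 356)) (XT.nd (nat_lit 78) (nat_lit 152) (nat_lit 0) (XT.lf (nat_lit 0) (nat_lit 3022083468) (nat_lit 152) (nat_lit 2301948594) (nat_lit 76) (nat_lit 17081693988) (nat_lit 54) (nat_lit 5) (nat_lit 56) (nat_lit 5) (nat_lit 55) (nat_lit 4) (nat_lit 465) (nat_lit 380) (nat_lit 355)) (XT.lf (nat_lit 0) (nat_lit 69665165) (nat_lit 76) (nat_lit 15707588025) (nat_lit 76) (nat_lit 7353091336) (nat_lit 52) (nat_lit 4) (nat_lit 53) (nat_lit 5) (nat_lit 53) (nat_lit 4) (nat_lit 466) (nat_lit 380) (nat_lit 354)))) (XT.nd (nat_lit 78) (nat_lit 228) (nat_lit 0) (XT.lf (nat_lit 0) (nat_lit 2238722366)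 (nat_lit 76) (nat_lit 3056295255) (nat_lit 152) (nat_lit 18591084564) (nat_lit 50) (nat_lit 5) (nat_lit 51) (nat_lit 5) (nat_lit 52) (nat_lit 4) (nat_lit 467) (nat_lit 380) (nat_lit 353)) (XT.nd (nat_lit 78) (nat_lit 152) (nat_lit 0) (XT.lf (nat_lit 0) (nat_lit 4058751655) (nat_lit 76) (nat_lit 14510288417) (nat_lit 76) (nat_lit 6104057911) (nat_lit 49) (nat_lit 4) (nat_lit 50) (nat_lit 5) (nat_lit 50) (nat_lit 4) (nat_lit 468) (nat_lit 380) (nat_lit 352)) (XT.lf (nat_lit 0) (nat_lit 5568594872) (nat_lit 76) (nat_lit 1383083562) (nat_lit 152) (nat_lit 18543313131) (nat_lit 47) (nat_lit 5) (nat_lit 48) (nat_lit 5) (nat_lit 49) (nat_lit 4) (nat_lit 469) (nat_lit 380) (nat_lit 351))))) (XT.nd (nat_lit 234) (nat_lit 456) (nat_lit 0) (XT.nd (nat_lit 78) (nat_lit 228) (nat_lit 0) (XT.lf (nat_lit 0) (nat_lit 6645458586) (nat_lit 76) (nat_lit 14063346984) (nat_lit 76) (nat_lit 5642117382) (nat_lit 46)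 (nat_lit 4) (nat_lit 47) (nat_lit 5) (nat_lit 47) (nat_lit 4) (nat_lit 470) (nat_lit 380) (nat_lit 350)) (XT.nd (nat_lit 78) (nat_lit 76) (nat_lit 0) (XT.lf (nat_lit 0) (nat_lit 7337140265) (nat_lit 76) (nat_lit 485069422) (nat_lit 152) (nat_lit 19422993996) (nat_lit 44) (nat_lit 5) (nat_lit 45) (nat_lit 5) (nat_lit 46) (nat_lit 4) (nat_lit 471) (nat_lit 380) (nat_lit 349)) (XT.lf (nat_lit 0) (nat_lit 7495610822) (nat_lit 76) (nat_lit 14542909612) (nat_lit 76) (nat_lit 6138139873) (nat_lit 43) (nat_lit 4) (nat_lit 44) (nat_lit 5) (nat_lit 44) (nat_lit 4) (nat_lit 472) (nat_lit 380) (nat_lit 348)))) (XT.nd (nat_lit 156) (nat_lit 228) (nat_lit 0) (XT.nd (nat_lit 78) (nat_lit 76) (nat_lit 0) (XT.lf (nat_lit 0) (nat_lit 7178130761) (nat_lit 76) (nat_lit 550541248) (nat_lit 152) (nat_lit 21421662471) (nat_lit 41) (nat_lit 5) (nat_lit 42) (nat_lit 5) (nat_lit 43) (nat_lit 4) (nat_lit 473) (nat_lit 380)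 (nat_lit 347)) (XT.lf (nat_lit 0) (nat_lit 6208140976) (nat_lit 76) (nat_lit 16159020888) (nat_lit 76) (nat_lit 7797549997) (nat_lit 40) (nat_lit 4) (nat_lit 41) (nat_lit 5) (nat_lit 41) (nat_lit 4) (nat_lit 474) (nat_lit 380) (nat_lit 346))) (XT.nd (nat_lit 78) (nat_lit 76) (nat_lit 0) (XT.lf (nat_lit 0) (nat_lit 4652626496) (nat_lit 76) (nat_lit 1804373302) (nat_lit 152) (nat_lit 24768646088) (nat_lit 38) (nat_lit 5) (nat_lit 39) (nat_lit 5) (nat_lit 40) (nat_lit 4) (nat_lit 475) (nat_lit 380) (nat_lit 345)) (XT.lf (nat_lit 0) (nat_lit 2302954083) (nat_lit 76) (nat_lit 19161840155) (nat_lit 76) (nat_lit 10866463868) (nat_lit 37) (nat_lit 4) (nat_lit 38) (nat_lit 5) (nat_lit 38) (nat_lit 4) (nat_lit 476) (nat_lit 380) (nat_lit 344)))))) (XT.nd (nat_lit 546) (nat_lit 608) (nat_lit 0) (XT.nd (nat_lit 234) (nat_lit 456) (nat_lit 0) (XT.nd (nat_lit 78) (nat_lit 152) (nat_lit 0) (XT.lf (nat_lit 0)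 (nat_lit 3757906620) (nat_lit 152) (nat_lit 749261798) (nat_lit 76) (nat_lit 28980911188) (nat_lit 36) (nat_lit 5) (nat_lit 38) (nat_lit 5) (nat_lit 37) (nat_lit 4) (nat_lit 477) (nat_lit 380) (nat_lit 343)) (XT.nd (nat_lit 78) (nat_lit 76) (nat_lit 0) (XT.lf (nat_lit 0) (nat_lit 19101683049) (nat_lit 152) (nat_lit 4699783695) (nat_lit 0) (nat_lit 10891661042) (nat_lit 35) (nat_lit 5) (nat_lit 37) (nat_lit 4) (nat_lit 35) (nat_lit 4) (nat_lit 478) (nat_lit 380) (nat_lit 342)) (XT.lf (nat_lit 0) (nat_lit 26439615884) (nat_lit 76) (nat_lit 8898827776) (nat_lit 76) (nat_lit 616211752) (nat_lit 34) (nat_lit 4) (nat_lit 35) (nat_lit 5) (nat_lit 35) (nat_lit 4) (nat_lit 479) (nat_lit 380) (nat_lit 341)))) (XT.nd (nat_lit 156) (nat_lit 228) (nat_lit 0) (XT.nd (nat_lit 78) (nat_lit 76) (nat_lit 0) (XT.lf (nat_lit 0) (nat_lit 14961263120) (nat_lit 152) (nat_lit 15456426863) (nat_lit 0) (nat_lit 6852764884)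 (nat_lit 32) (nat_lit 5) (nat_lit 34) (nat_lit 4) (nat_lit 32) (nat_lit 4) (nat_lit 480) (nat_lit 380) (nat_lit 340)) (XT.lf (nat_lit 0) (nat_lit 16129151427) (nat_lit 76) (nat_lit 15345028297) (nat_lit 76) (nat_lit 7172602961) (nat_lit 31) (nat_lit 4) (nat_lit 32) (nat_lit 5) (nat_lit 32) (nat_lit 4) (nat_lit 481) (nat_lit 380) (nat_lit 339))) (XT.nd (nat_lit 78) (nat_lit 76) (nat_lit 0) (XT.lf (nat_lit 0) (nat_lit 8635668866) (nat_lit 152) (nat_lit 30809027351) (nat_lit 0) (nat_lit 642165673) (nat_lit 29) (nat_lit 5) (nat_lit 31) (nat_lit 4) (nat_lit 29) (nat_lit 4) (nat_lit 482) (nat_lit 380) (nat_lit 338)) (XT.lf (nat_lit 0) (nat_lit 996600211) (nat_lit 76) (nat_lit 24321524918) (nat_lit 76) (nat_lit 16271726808) (nat_lit 28) (nat_lit 4) (nat_lit 29) (nat_lit 5) (nat_lit 29) (nat_lit 4) (nat_lit 483) (nat_lit 380) (nat_lit 337))))) (XT.nd (nat_lit 234) (nat_lit 380) (nat_lit 0) (XT.nd (nat_lit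 78) (nat_lit 228) (nat_lit 0) (XT.lf (nat_lit 0) (nat_lit 34711016451) (nat_lit 76) (nat_lit 8277881107) (nat_lit 76) (nat_lit 174468791) (nat_lit 28) (nat_lit 4) (nat_lit 29) (nat_lit 5) (nat_lit 29) (nat_lit 4) (nat_lit 484) (nat_lit 380) (nat_lit 336)) (XT.nd (nat_lit 78) (nat_lit 76) (nat_lit 0) (XT.lf (nat_lit 0) (nat_lit 16572711512) (nat_lit 152) (nat_lit 19577130424) (nat_lit 0) (nat_lit 8655746983) (nat_lit 26) (nat_lit 5) (nat_lit 28) (nat_lit 4) (nat_lit 26) (nat_lit 4) (nat_lit 485) (nat_lit 380) (nat_lit 335)) (XT.lf (nat_lit 0) (nat_lit 14125004013) (nat_lit 76) (nat_lit 20182218876) (nat_lit 76) (nat_lit 12218041079) (nat_lit 25) (nat_lit 4) (nat_lit 26) (nat_lit 5) (nat_lit 26) (nat_lit 4) (nat_lit 486) (nat_lit 380) (nat_lit 334)))) (XT.nd (nat_lit 156) (nat_lit 228) (nat_lit 0) (XT.nd (nat_lit 78) (nat_lit 0) (nat_lit 0) (XT.lf (nat_lit 0) (nat_lit 1273866860) (nat_lit 76) (nat_lit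 3299044309) (nat_lit 152) (nat_lit 43754733653) (nat_lit 23) (nat_lit 5) (nat_lit 24) (nat_lit 5) (nat_lit 25) (nat_lit 4) (nat_lit 487) (nat_lit 380) (nat_lit 333)) (XT.lf (nat_lit 0) (nat_lit 22280874640) (nat_lit 152) (nat_lit 13462305626) (nat_lit 0) (nat_lit 14463431301) (nat_lit 23) (nat_lit 5) (nat_lit 25) (nat_lit 4) (nat_lit 23) (nat_lit 4) (nat_lit 488) (nat_lit 380) (nat_lit 332))) (XT.nd (nat_lit 78) (nat_lit 152) (nat_lit 0) (XT.lf (nat_lit 0) (nat_lit 21921668664) (nat_lit 76) (nat_lit 19055899280) (nat_lit 76) (nat_lit 11198859246) (nat_lit 22) (nat_lit 4) (nat_lit 23) (nat_lit 5) (nat_lit 23) (nat_lit 4) (nat_lit 489) (nat_lit 380) (nat_lit 331)) (XT.lf (nat_lit 0) (nat_lit 4871885629) (nat_lit 76) (nat_lit 1417098016) (nat_lit 152) (nat_lit 47952450670) (nat_lit 20) (nat_lit 5) (nat_lit 21) (nat_lit 5) (nat_lit 22) (nat_lit 4) (nat_lit 490) (nat_lit 380) (nat_lit 330))))))))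
noncomputable def xc18 : XT := (XT.nd (nat_lit 59592) (nat_lit 0) (nat_lit 1444) (XT.nd (nat_lit 58578) (nat_lit 0) (nat_lit 5168) (XT.nd (nat_lit 468) (nat_lit 228) (nat_lit 0) (XT.nd (nat_lit 234) (nat_lit 152) (nat_lit 0) (XT.nd (nat_lit 78) (nat_lit 152) (nat_lit 0) (XT.lf (nat_lit 0) (nat_lit 24765429100) (nat_lit 152) (nat_lit 14564809289) (nat_lit 0) (nat_lit 17065752845) (nat_lit 20) (nat_lit 5) (nat_lit 22) (nat_lit 4) (nat_lit 20) (nat_lit 4) (nat_lit 491) (nat_lit 380) (nat_lit 329)) (XT.nd (nat_lit 78) (nat_lit 76) (nat_lit 0) (XT.lf (nat_lit 0) (nat_lit 22139765553) (nat_lit 76) (nat_lit 22124223595) (nat_lit 76) (nat_lit 14391338492) (nat_lit 19) (nat_lit 4) (nat_lit 20) (nat_lit 5) (nat_lit 20) (nat_lit 4) (nat_lit 492) (nat_lit 380) (nat_lit 328)) (XT.lf (nat_lit 0) (nat_lit 3662524088) (nat_lit 152) (nat_lit 329588677) (nat_lit 76) (nat_lit 57033696535) (nat_lit 18) (nat_lit 5)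 (nat_lit 20) (nat_lit 5) (nat_lit 19) (nat_lit 4) (nat_lit 493) (nat_lit 380) (nat_lit 327)))) (XT.nd (nat_lit 78) (nat_lit 76) (nat_lit 0) (XT.lf (nat_lit 0) (nat_lit 22717897050) (nat_lit 152) (nat_lit 25630458892) (nat_lit 0) (nat_lit 15150291242) (nat_lit 17) (nat_lit 5) (nat_lit 19) (nat_lit 4) (nat_lit 17) (nat_lit 4) (nat_lit 494) (nat_lit 380) (nat_lit 326)) (XT.nd (nat_lit 78) (nat_lit 0) (nat_lit 0) (XT.lf (nat_lit 0) (nat_lit 11841820488) (nat_lit 76) (nat_lit 30923788511) (nat_lit 76) (nat_lit 23328331197) (nat_lit 16) (nat_lit 4) (nat_lit 17) (nat_lit 5) (nat_lit 17) (nat_lit 4) (nat_lit 495) (nat_lit 380) (nat_lit 325)) (XT.lf (nat_lit 0) (nat_lit 51493452945) (nat_lit 76) (nat_lit 12471524832) (nat_lit 76) (nat_lit 4849542273) (nat_lit 16) (nat_lit 4) (nat_lit 17) (nat_lit 5) (nat_lit 17) (nat_lit 4) (nat_lit 496) (nat_lit 380) (nat_lit 324))))) (XT.nd (nat_lit 234) (nat_lit 0) (nat_lit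 0) (XT.nd (nat_lit 78) (nat_lit 76) (nat_lit 0) (XT.lf (nat_lit 0) (nat_lit 14434549267) (nat_lit 152) (nat_lit 50217382808) (nat_lit 0) (nat_lit 7010039853) (nat_lit 14) (nat_lit 5) (nat_lit 16) (nat_lit 4) (nat_lit 14) (nat_lit 4) (nat_lit 497) (nat_lit 380) (nat_lit 323)) (XT.nd (nat_lit 78) (nat_lit 76) (nat_lit 0) (XT.lf (nat_lit 0) (nat_lit 34781380879) (nat_lit 152) (nat_lit 12529497370) (nat_lit 0) (nat_lit 27333513039) (nat_lit 14) (nat_lit 5) (nat_lit 16) (nat_lit 4) (nat_lit 14) (nat_lit 4) (nat_lit 498) (nat_lit 380) (nat_lit 322)) (XT.lf (nat_lit 0) (nat_lit 27370258947) (nat_lit 76) (nat_lit 28935490521) (nat_lit 76) (nat_lit 21465376561) (nat_lit 13) (nat_lit 4) (nat_lit 14) (nat_lit 5) (nat_lit 14) (nat_lit 4) (nat_lit 499) (nat_lit 380) (nat_lit 321)))) (XT.nd (nat_lit 57720) (nat_lit 0) (nat_lit 8512) (XT.nd (nat_lit 57642) (nat_lit 0) (nat_lit 9196) (XT.lf (nat_lit 0) (nat_lit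 69326139594) (nat_lit 76) (nat_lit 9609243755) (nat_lit 76) (nat_lit 2117943014) (nat_lit 13) (nat_lit 4) (nat_lit 14) (nat_lit 5) (nat_lit 14) (nat_lit 4) (nat_lit 500) (nat_lit 380) (nat_lit 320)) (XT.lf (nat_lit 0) (nat_lit 3955256625) (nat_lit 228) (nat_lit 714457461) (nat_lit 228) (nat_lit 714457461) (nat_lit 134) (nat_lit 4) (nat_lit 137) (nat_lit 5) (nat_lit 137) (nat_lit 4) (nat_lit 438) (nat_lit 381) (nat_lit 381))) (XT.nd (nat_lit 78) (nat_lit 228) (nat_lit 0) (XT.lf (nat_lit 0) (nat_lit 2540846641) (nat_lit 228) (nat_lit 4730966990) (nat_lit 228) (nat_lit 3741555648) (nat_lit 128) (nat_lit 4) (nat_lit 131) (nat_lit 5) (nat_lit 131) (nat_lit 4) (nat_lit 439) (nat_lit 381) (nat_lit 380)) (XT.lf (nat_lit 0) (nat_lit 4986630415) (nat_lit 228) (nat_lit 3171589432) (nat_lit 0) (nat_lit 3111185893) (nat_lit 125) (nat_lit 5) (nat_lit 128) (nat_lit 4) (nat_lit 125) (nat_lit 4) (nat_lit 440) (nat_lit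 381) (nat_lit 379)))))) (XT.nd (nat_lit 468) (nat_lit 1520) (nat_lit 0) (XT.nd (nat_lit 234) (nat_lit 760) (nat_lit 0) (XT.nd (nat_lit 78) (nat_lit 608) (nat_lit 0) (XT.lf (nat_lit 0) (nat_lit 2264271360) (nat_lit 152) (nat_lit 204202794) (nat_lit 228) (nat_lit 9068499575) (nat_lit 119) (nat_lit 5) (nat_lit 121) (nat_lit 5) (nat_lit 122) (nat_lit 4) (nat_lit 441) (nat_lit 381) (nat_lit 378)) (XT.nd (nat_lit 78) (nat_lit 380) (nat_lit 0) (XT.lf (nat_lit 0) (nat_lit 7825173868) (nat_lit 228) (nat_lit 3731188455) (nat_lit 228) (nat_lit 258831185) (nat_lit 116) (nat_lit 4) (nat_lit 119) (nat_lit 5) (nat_lit 119) (nat_lit 4) (nat_lit 442) (nat_lit 381) (nat_lit 377)) (XT.lf (nat_lit 0) (nat_lit 1378712267) (nat_lit 152) (nat_lit 7421320617) (nat_lit 152) (nat_lit 3305182747) (nat_lit 111) (nat_lit 4) (nat_lit 113) (nat_lit 5) (nat_lit 113) (nat_lit 4) (nat_lit 443) (nat_lit 381) (nat_lit 376)))) (XT.nd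 (nat_lit 78) (nat_lit 532) (nat_lit 0) (XT.lf (nat_lit 0) (nat_lit 5799901349) (nat_lit 228) (nat_lit 5492654839) (nat_lit 0) (nat_lit 1114869463) (nat_lit 108) (nat_lit 5) (nat_lit 111) (nat_lit 4) (nat_lit 108) (nat_lit 4) (nat_lit 444) (nat_lit 381) (nat_lit 375)) (XT.nd (nat_lit 78) (nat_lit 304) (nat_lit 0) (XT.lf (nat_lit 0) (nat_lit 2528765285) (nat_lit 228) (nat_lit 207620761) (nat_lit 76) (nat_lit 9986322893) (nat_lit 105) (nat_lit 5) (nat_lit 108) (nat_lit 5) (nat_lit 106) (nat_lit 4) (nat_lit 445) (nat_lit 381) (nat_lit 374)) (XT.lf (nat_lit 0) (nat_lit 5236712368) (nat_lit 152) (nat_lit 6802730764) (nat_lit 152) (nat_lit 1010731308) (nat_lit 101) (nat_lit 4) (nat_lit 103) (nat_lit 5) (nat_lit 103) (nat_lit 4) (nat_lit 446) (nat_lit 381) (nat_lit 373))))) (XT.nd (nat_lit 234) (nat_lit 684) (nat_lit 0) (XT.nd (nat_lit 78) (nat_lit 608) (nat_lit 0) (XT.lf (nat_lit 0) (nat_lit 8461376714)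 (nat_lit 228) (nat_lit 2652973118) (nat_lit 0) (nat_lit 2277236061) (nat_lit 98) (nat_lit 5) (nat_lit 101) (nat_lit 4) (nat_lit 98) (nat_lit 4) (nat_lit 447) (nat_lit 381) (nat_lit 372)) (XT.nd (nat_lit 78) (nat_lit 228) (nat_lit 0) (XT.lf (nat_lit 0) (nat_lit 2606002626) (nat_lit 152) (nat_lit 1987237182) (nat_lit 228) (nat_lit 9153778445) (nat_lit 93) (nat_lit 5) (nat_lit 95) (nat_lit 5) (nat_lit 96) (nat_lit 4) (nat_lit 448) (nat_lit 381) (nat_lit 371)) (XT.lf (nat_lit 0) (nat_lit 424583496) (nat_lit 228) (nat_lit 6154573938) (nat_lit 76) (nat_lit 7537707812) (nat_lit 90) (nat_lit 5) (nat_lit 93) (nat_lit 5) (nat_lit 91) (nat_lit 4) (nat_lit 449) (nat_lit 381) (nat_lit 370)))) (XT.nd (nat_lit 156) (nat_lit 304) (nat_lit 0) (XT.nd (nat_lit 78) (nat_lit 304) (nat_lit 0) (XT.lf (nat_lit 0) (nat_lit 10307881889) (nat_lit 152) (nat_lit 1155046550) (nat_lit 0) (nat_lit 3039102880) (nat_lit 89) (nat_lit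 5) (nat_lit 91) (nat_lit 4) (nat_lit 89) (nat_lit 4) (nat_lit 450) (nat_lit 381) (nat_lit 369)) (XT.lf (nat_lit 0) (nat_lit 3951468681) (nat_lit 76) (nat_lit 1789992306) (nat_lit 152) (nat_lit 9161073274) (nat_lit 85) (nat_lit 5) (nat_lit 86) (nat_lit 5) (nat_lit 87) (nat_lit 4) (nat_lit 451) (nat_lit 381) (nat_lit 368))) (XT.nd (nat_lit 78) (nat_lit 76) (nat_lit 0) (XT.lf (nat_lit 0) (nat_lit 818909960) (nat_lit 228) (nat_lit 6219073803) (nat_lit 76) (nat_lit 8281560447) (nat_lit 82) (nat_lit 5) (nat_lit 85) (nat_lit 5) (nat_lit 83) (nat_lit 4) (nat_lit 452) (nat_lit 381) (nat_lit 367)) (XT.lf (nat_lit 0) (nat_lit 11139579576) (nat_lit 152) (nat_lit 1498336913) (nat_lit 0) (nat_lit 3115837088) (nat_lit 81) (nat_lit 5) (nat_lit 83) (nat_lit 4) (nat_lit 81) (nat_lit 4) (nat_lit 453) (nat_lit 381) (nat_lit 366))))))) (XT.nd (nat_lit 1014) (nat_lit 1596) (nat_lit 0) (XT.nd (nat_lit 468) (nat_lit 912)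 (nat_lit 0) (XT.nd (nat_lit 234) (nat_lit 608) (nat_lit 0) (XT.nd (nat_lit 78) (nat_lit 304) (nat_lit 0) (XT.lf (nat_lit 0) (nat_lit 3283818320) (nat_lit 76) (nat_lit 2460857931) (nat_lit 152) (nat_lit 10460620624) (nat_lit 77) (nat_lit 5) (nat_lit 78) (nat_lit 5) (nat_lit 79) (nat_lit 4) (nat_lit 454) (nat_lit 381) (nat_lit 365)) (XT.nd (nat_lit 78) (nat_lit 152) (nat_lit 0) (XT.lf (nat_lit 0) (nat_lit 8089047666) (nat_lit 152) (nat_lit 8523850679) (nat_lit 152) (nat_lit 62546770) (nat_lit 75) (nat_lit 4) (nat_lit 77) (nat_lit 5) (nat_lit 77) (nat_lit 4) (nat_lit 455) (nat_lit 381) (nat_lit 364)) (XT.lf (nat_lit 0) (nat_lit 10686969713) (nat_lit 152) (nat_lit 4308361244) (nat_lit 0) (nat_lit 2169342063) (nat_lit 73) (nat_lit 5) (nat_lit 75) (nat_lit 4) (nat_lit 73) (nat_lit 4) (nat_lit 456) (nat_lit 381) (nat_lit 363)))) (XT.nd (nat_lit 78) (nat_lit 380) (nat_lit 0) (XT.lf (nat_lit 0) (nat_lit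 4301013638) (nat_lit 228) (nat_lit 74921854) (nat_lit 76) (nat_lit 13298458721) (nat_lit 70) (nat_lit 5) (nat_lit 73) (nat_lit 5) (nat_lit 71) (nat_lit 4) (nat_lit 457) (nat_lit 381) (nat_lit 362)) (XT.nd (nat_lit 78) (nat_lit 152) (nat_lit 0) (XT.lf (nat_lit 0) (nat_lit 4183738445) (nat_lit 152) (nat_lit 11418269906) (nat_lit 152) (nat_lit 2602153022) (nat_lit 67) (nat_lit 4) (nat_lit 69) (nat_lit 5) (nat_lit 69) (nat_lit 4) (nat_lit 458) (nat_lit 381) (nat_lit 361)) (XT.lf (nat_lit 0) (nat_lit 8379415648) (nat_lit 76) (nat_lit 216376677) (nat_lit 152) (nat_lit 10160374311) (nat_lit 65) (nat_lit 5) (nat_lit 66) (nat_lit 5) (nat_lit 67) (nat_lit 4) (nat_lit 459) (nat_lit 381) (nat_lit 360))))) (XT.nd (nat_lit 234) (nat_lit 532) (nat_lit 0) (XT.nd (nat_lit 78) (nat_lit 228) (nat_lit 0) (XT.lf (nat_lit 0) (nat_lit 1077892574) (nat_lit 152) (nat_lit 6852535309) (nat_lit 76) (nat_lit 11400338935) (nat_lit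 63) (nat_lit 5) (nat_lit 65) (nat_lit 5) (nat_lit 64) (nat_lit 4) (nat_lit 460) (nat_lit 381) (nat_lit 359)) (XT.nd (nat_lit 78) (nat_lit 152) (nat_lit 0) (XT.lf (nat_lit 0) (nat_lit 12733561153) (nat_lit 152) (nat_lit 3456425021) (nat_lit 0) (nat_lit 3739126974) (nat_lit 62) (nat_lit 5) (nat_lit 64) (nat_lit 4) (nat_lit 62) (nat_lit 4) (nat_lit 461) (nat_lit 381) (nat_lit 358)) (XT.lf (nat_lit 0) (nat_lit 4440334303) (nat_lit 152) (nat_lit 187314643) (nat_lit 76) (nat_lit 15925101945) (nat_lit 60) (nat_lit 5) (nat_lit 62) (nat_lit 5) (nat_lit 61) (nat_lit 4) (nat_lit 462) (nat_lit 381) (nat_lit 357)))) (XT.nd (nat_lit 156) (nat_lit 228) (nat_lit 0) (XT.nd (nat_lit 78) (nat_lit 152) (nat_lit 0) (XT.lf (nat_lit 0) (nat_lit 2972609740) (nat_lit 76) (nat_lit 13676501972) (nat_lit 76) (nat_lit 4552126526) (nat_lit 58) (nat_lit 4) (nat_lit 59) (nat_lit 5) (nat_lit 59) (nat_lit 4) (nat_lit 463) (nat_lit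 381) (nat_lit 356)) (XT.lf (nat_lit 0) (nat_lit 5971350771) (nat_lit 76) (nat_lit 1554659369) (nat_lit 152) (nat_lit 14351318339) (nat_lit 56) (nat_lit 5) (nat_lit 57) (nat_lit 5) (nat_lit 58) (nat_lit 4) (nat_lit 464) (nat_lit 381) (nat_lit 355))) (XT.nd (nat_lit 78) (nat_lit 152) (nat_lit 0) (XT.lf (nat_lit 0) (nat_lit 8748424684) (nat_lit 76) (nat_lit 11518302835) (nat_lit 76) (nat_lit 2314561113) (nat_lit 55) (nat_lit 4) (nat_lit 56) (nat_lit 5) (nat_lit 56) (nat_lit 4) (nat_lit 465) (nat_lit 381) (nat_lit 354)) (XT.lf (nat_lit 0) (nat_lit 10198733754) (nat_lit 152) (nat_lit 12009057509) (nat_lit 0) (nat_lit 1107395462) (nat_lit 53) (nat_lit 5) (nat_lit 55) (nat_lit 4) (nat_lit 53) (nat_lit 4) (nat_lit 466) (nat_lit 381) (nat_lit 353)))))) (XT.nd (nat_lit 546) (nat_lit 836) (nat_lit 0) (XT.nd (nat_lit 234) (nat_lit 380) (nat_lit 0) (XT.nd (nat_lit 78) (nat_lit 304) (nat_lit 0) (XT.lf (nat_lit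 0) (nat_lit 13602725252) (nat_lit 76) (nat_lit 9858410889) (nat_lit 76) (nat_lit 618818581) (nat_lit 52) (nat_lit 4) (nat_lit 53) (nat_lit 5) (nat_lit 53) (nat_lit 4) (nat_lit 467) (nat_lit 381) (nat_lit 352)) (XT.nd (nat_lit 78) (nat_lit 152) (nat_lit 0) (XT.lf (nat_lit 0) (nat_lit 12350942809) (nat_lit 152) (nat_lit 9282294090) (nat_lit 0) (nat_lit 3243382995) (nat_lit 50) (nat_lit 5) (nat_lit 52) (nat_lit 4) (nat_lit 50) (nat_lit 4) (nat_lit 468) (nat_lit 381) (nat_lit 351)) (XT.lf (nat_lit 0) (nat_lit 403860150) (nat_lit 152) (nat_lit 8418277846) (nat_lit 76) (nat_lit 16885773342) (nat_lit 48) (nat_lit 5) (nat_lit 50) (nat_lit 5) (nat_lit 49) (nat_lit 4) (nat_lit 469) (nat_lit 381) (nat_lit 350)))) (XT.nd (nat_lit 156) (nat_lit 152) (nat_lit 0) (XT.nd (nat_lit 78) (nat_lit 152) (nat_lit 0) (XT.lf (nat_lit 0) (nat_lit 13838315454) (nat_lit 152) (nat_lit 7986651174) (nat_lit 0) (nat_lit 4748556981)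 (nat_lit 47) (nat_lit 5) (nat_lit 49) (nat_lit 4) (nat_lit 47) (nat_lit 4) (nat_lit 470) (nat_lit 381) (nat_lit 349)) (XT.lf (nat_lit 0) (nat_lit 616028153) (nat_lit 152) (nat_lit 7954188749) (nat_lit 76) (nat_lit 18907178680) (nat_lit 45) (nat_lit 5) (nat_lit 47) (nat_lit 5) (nat_lit 46) (nat_lit 4) (nat_lit 471) (nat_lit 381) (nat_lit 348))) (XT.nd (nat_lit 78) (nat_lit 76) (nat_lit 0) (XT.lf (nat_lit 0) (nat_lit 14503962837) (nat_lit 152) (nat_lit 8453709224) (nat_lit 0) (nat_lit 5461032069) (nat_lit 44) (nat_lit 5) (nat_lit 46) (nat_lit 4) (nat_lit 44) (nat_lit 4) (nat_lit 472) (nat_lit 381) (nat_lit 347)) (XT.lf (nat_lit 0) (nat_lit 19958523350) (nat_lit 76) (nat_lit 9293872662) (nat_lit 76) (nat_lit 149700294) (nat_lit 43) (nat_lit 4) (nat_lit 44) (nat_lit 5) (nat_lit 44) (nat_lit 4) (nat_lit 473) (nat_lit 381) (nat_lit 346))))) (XT.nd (nat_lit 234) (nat_lit 456) (nat_lit 0) (XT.nd (nat_lit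 78) (nat_lit 228) (nat_lit 0) (XT.lf (nat_lit 0) (nat_lit 14158547621) (nat_lit 152) (nat_lit 11080866530) (nat_lit 0) (nat_lit 5187098166) (nat_lit 41) (nat_lit 5) (nat_lit 43) (nat_lit 4) (nat_lit 41) (nat_lit 4) (nat_lit 474) (nat_lit 381) (nat_lit 345)) (XT.nd (nat_lit 78) (nat_lit 152) (nat_lit 0) (XT.lf (nat_lit 0) (nat_lit 18159408503) (nat_lit 76) (nat_lit 11198961724) (nat_lit 76) (nat_lit 2138357788) (nat_lit 40) (nat_lit 4) (nat_lit 41) (nat_lit 5) (nat_lit 41) (nat_lit 4) (nat_lit 475) (nat_lit 381) (nat_lit 344)) (XT.lf (nat_lit 0) (nat_lit 12574473054) (nat_lit 152) (nat_lit 16343250801) (nat_lit 0) (nat_lit 3695334253) (nat_lit 38) (nat_lit 5) (nat_lit 40) (nat_lit 4) (nat_lit 38) (nat_lit 4) (nat_lit 476) (nat_lit 381) (nat_lit 343)))) (XT.nd (nat_lit 156) (nat_lit 228) (nat_lit 0) (XT.nd (nat_lit 78) (nat_lit 152) (nat_lit 0) (XT.lf (nat_lit 0) (nat_lit 13627511635) (nat_lit 76)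 (nat_lit 14554307584) (nat_lit 76) (nat_lit 5596658354) (nat_lit 37) (nat_lit 4) (nat_lit 38) (nat_lit 5) (nat_lit 38) (nat_lit 4) (nat_lit 477) (nat_lit 381) (nat_lit 342)) (XT.lf (nat_lit 0) (nat_lit 9479048976) (nat_lit 152) (nat_lit 24807701438) (nat_lit 0) (nat_lit 709708134) (nat_lit 35) (nat_lit 5) (nat_lit 37) (nat_lit 4) (nat_lit 35) (nat_lit 4) (nat_lit 478) (nat_lit 381) (nat_lit 341))) (XT.nd (nat_lit 78) (nat_lit 152) (nat_lit 0) (XT.lf (nat_lit 0) (nat_lit 5760324645) (nat_lit 76) (nat_lit 19672317485) (nat_lit 76) (nat_lit 10833839484) (nat_lit 34) (nat_lit 4) (nat_lit 35) (nat_lit 5) (nat_lit 35) (nat_lit 4) (nat_lit 479) (nat_lit 381) (nat_lit 340)) (XT.lf (nat_lit 0) (nat_lit 406559022) (nat_lit 76) (nat_lit 4180082325) (nat_lit 152) (nat_lit 33009277954) (nat_lit 32) (nat_lit 5) (nat_lit 33) (nat_lit 5) (nat_lit 34) (nat_lit 4) (nat_lit 480) (nat_lit 381) (nat_lit 339))))))))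
noncomputable def xc19 : XT := (XT.nd (nat_lit 59436) (nat_lit 0) (nat_lit 2812) (XT.nd (nat_lit 1014) (nat_lit 456) (nat_lit 0) (XT.nd (nat_lit 468) (nat_lit 532) (nat_lit 0) (XT.nd (nat_lit 234) (nat_lit 228) (nat_lit 0) (XT.nd (nat_lit 78) (nat_lit 228) (nat_lit 0) (XT.lf (nat_lit 0) (nat_lit 20823224558) (nat_lit 152) (nat_lit 6039945030) (nat_lit 0) (nat_lit 12117367902) (nat_lit 32) (nat_lit 5) (nat_lit 34) (nat_lit 4) (nat_lit 32) (nat_lit 4) (nat_lit 481) (nat_lit 381) (nat_lit 338)) (XT.nd (nat_lit 78) (nat_lit 152) (nat_lit 0) (XT.lf (nat_lit 0) (nat_lit 26832837844) (nat_lit 76) (nat_lit 11180568401) (nat_lit 76) (nat_lit 2416727981) (nat_lit 31) (nat_lit 4) (nat_lit 32) (nat_lit 5) (nat_lit 32) (nat_lit 4) (nat_lit 482) (nat_lit 381) (nat_lit 337)) (XT.lf (nat_lit 0) (nat_lit 13983239764) (nat_lit 152) (nat_lit 22539428568) (nat_lit 0) (nat_lit 5421042625) (nat_lit 29) (nat_lit 5) (nat_lit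 31) (nat_lit 4) (nat_lit 29) (nat_lit 4) (nat_lit 483) (nat_lit 381) (nat_lit 336)))) (XT.nd (nat_lit 78) (nat_lit 152) (nat_lit 0) (XT.lf (nat_lit 0) (nat_lit 10575277254) (nat_lit 76) (nat_lit 20782053576) (nat_lit 76) (nat_lit 12168795288) (nat_lit 28) (nat_lit 4) (nat_lit 29) (nat_lit 5) (nat_lit 29) (nat_lit 4) (nat_lit 484) (nat_lit 381) (nat_lit 335)) (XT.nd (nat_lit 78) (nat_lit 0) (nat_lit 0) (XT.lf (nat_lit 0) (nat_lit 299111128) (nat_lit 76) (nat_lit 4115174133) (nat_lit 152) (nat_lit 40769467183) (nat_lit 26) (nat_lit 5) (nat_lit 27) (nat_lit 5) (nat_lit 28) (nat_lit 4) (nat_lit 485) (nat_lit 381) (nat_lit 334)) (XT.lf (nat_lit 0) (nat_lit 21902077378) (nat_lit 152) (nat_lit 11561239557) (nat_lit 0) (nat_lit 13447512407) (nat_lit 26) (nat_lit 5) (nat_lit 28) (nat_lit 4) (nat_lit 26) (nat_lit 4) (nat_lit 486) (nat_lit 381) (nat_lit 333))))) (XT.nd (nat_lit 234) (nat_lit 304) (nat_lit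 0) (XT.nd (nat_lit 78) (nat_lit 152) (nat_lit 0) (XT.lf (nat_lit 0) (nat_lit 23568168973) (nat_lit 76) (nat_lit 16824809430) (nat_lit 76) (nat_lit 8327420633) (nat_lit 25) (nat_lit 4) (nat_lit 26) (nat_lit 5) (nat_lit 26) (nat_lit 4) (nat_lit 487) (nat_lit 381) (nat_lit 332)) (XT.nd (nat_lit 78) (nat_lit 0) (nat_lit 0) (XT.lf (nat_lit 0) (nat_lit 9095361199) (nat_lit 152) (nat_lit 40713964191) (nat_lit 0) (nat_lit 805872468) (nat_lit 23) (nat_lit 5) (nat_lit 25) (nat_lit 4) (nat_lit 23) (nat_lit 4) (nat_lit 488) (nat_lit 381) (nat_lit 331)) (XT.lf (nat_lit 0) (nat_lit 27515968396) (nat_lit 152) (nat_lit 5888559369) (nat_lit 0) (nat_lit 19188768527) (nat_lit 23) (nat_lit 5) (nat_lit 25) (nat_lit 4) (nat_lit 23) (nat_lit 4) (nat_lit 489) (nat_lit 381) (nat_lit 330)))) (XT.nd (nat_lit 156) (nat_lit 76) (nat_lit 0) (XT.nd (nat_lit 78) (nat_lit 152) (nat_lit 0) (XT.lf (nat_lit 0) (nat_lit 31028219006)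 (nat_lit 76) (nat_lit 16000038392) (nat_lit 76) (nat_lit 7636923153) (nat_lit 22) (nat_lit 4) (nat_lit 23) (nat_lit 5) (nat_lit 23) (nat_lit 4) (nat_lit 490) (nat_lit 381) (nat_lit 329)) (XT.lf (nat_lit 0) (nat_lit 10551491950) (nat_lit 152) (nat_lit 43884805926) (nat_lit 0) (nat_lit 2398753743) (nat_lit 20) (nat_lit 5) (nat_lit 22) (nat_lit 4) (nat_lit 20) (nat_lit 4) (nat_lit 491) (nat_lit 381) (nat_lit 328))) (XT.nd (nat_lit 78) (nat_lit 76) (nat_lit 0) (XT.lf (nat_lit 0) (nat_lit 29777378874) (nat_lit 152) (nat_lit 7732176343) (nat_lit 0) (nat_lit 21593013193) (nat_lit 20) (nat_lit 5) (nat_lit 22) (nat_lit 4) (nat_lit 20) (nat_lit 4) (nat_lit 492) (nat_lit 381) (nat_lit 327)) (XT.lf (nat_lit 0) (nat_lit 30590896323) (nat_lit 76) (nat_lit 19550868024) (nat_lit 76) (nat_lit 11336380939) (nat_lit 19) (nat_lit 4) (nat_lit 20) (nat_lit 5) (nat_lit 20) (nat_lit 4) (nat_lit 493) (nat_lit 381) (nat_lit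 326)))))) (XT.nd (nat_lit 468) (nat_lit 76) (nat_lit 0) (XT.nd (nat_lit 234) (nat_lit 152) (nat_lit 0) (XT.nd (nat_lit 78) (nat_lit 76) (nat_lit 0) (XT.lf (nat_lit 0) (nat_lit 6852222662) (nat_lit 76) (nat_lit 583933396) (nat_lit 152) (nat_lit 56533217934) (nat_lit 17) (nat_lit 5) (nat_lit 18) (nat_lit 5) (nat_lit 19) (nat_lit 4) (nat_lit 494) (nat_lit 381) (nat_lit 325)) (XT.nd (nat_lit 78) (nat_lit 76) (nat_lit 0) (XT.lf (nat_lit 0) (nat_lit 27309613254) (nat_lit 152) (nat_lit 19980275231) (nat_lit 0) (nat_lit 19280006322) (nat_lit 17) (nat_lit 5) (nat_lit 19) (nat_lit 4) (nat_lit 17) (nat_lit 4) (nat_lit 495) (nat_lit 381) (nat_lit 324)) (XT.lf (nat_lit 0) (nat_lit 19166922140) (nat_lit 76) (nat_lit 29092947556) (nat_lit 76) (nat_lit 21038078488) (nat_lit 16) (nat_lit 4) (nat_lit 17) (nat_lit 5) (nat_lit 17) (nat_lit 4) (nat_lit 496) (nat_lit 381) (nat_lit 323)))) (XT.nd (nat_lit 78) (nat_lit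 152) (nat_lit 0) (XT.lf (nat_lit 0) (nat_lit 60480516666) (nat_lit 76) (nat_lit 9878881664) (nat_lit 76) (nat_lit 1799953416) (nat_lit 16) (nat_lit 4) (nat_lit 17) (nat_lit 5) (nat_lit 17) (nat_lit 4) (nat_lit 497) (nat_lit 381) (nat_lit 322)) (XT.nd (nat_lit 78) (nat_lit 0) (nat_lit 0) (XT.lf (nat_lit 0) (nat_lit 18321210677) (nat_lit 152) (nat_lit 46373558464) (nat_lit 0) (nat_lit 10455344899) (nat_lit 14) (nat_lit 5) (nat_lit 16) (nat_lit 4) (nat_lit 14) (nat_lit 4) (nat_lit 498) (nat_lit 381) (nat_lit 321)) (XT.lf (nat_lit 0) (nat_lit 39534672729) (nat_lit 152) (nat_lit 7103883206) (nat_lit 0) (nat_lit 31647620170) (nat_lit 14) (nat_lit 5) (nat_lit 16) (nat_lit 4) (nat_lit 14) (nat_lit 4) (nat_lit 499) (nat_lit 381) (nat_lit 320))))) (XT.nd (nat_lit 57642) (nat_lit 0) (nat_lit 8056) (XT.nd (nat_lit 57486) (nat_lit 0) (nat_lit 9424) (XT.lf (nat_lit 0) (nat_lit 34617379009) (nat_lit 76) (nat_lit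 27430855086) (nat_lit 76) (nat_lit 19523624641) (nat_lit 13) (nat_lit 4) (nat_lit 14) (nat_lit 5) (nat_lit 14) (nat_lit 4) (nat_lit 500) (nat_lit 381) (nat_lit 319)) (XT.nd (nat_lit 78) (nat_lit 532) (nat_lit 0) (XT.lf (nat_lit 0) (nat_lit 1895581017) (nat_lit 304) (nat_lit 1360612919) (nat_lit 0) (nat_lit 1895581017) (nat_lit 144) (nat_lit 5) (nat_lit 148) (nat_lit 4) (nat_lit 144) (nat_lit 4) (nat_lit 436) (nat_lit 382) (nat_lit 382)) (XT.lf (nat_lit 0) (nat_lit 1734899171) (nat_lit 304) (nat_lit 8133658211) (nat_lit 0) (nat_lit 664850805) (nat_lit 137) (nat_lit 5) (nat_lit 141) (nat_lit 4) (nat_lit 137) (nat_lit 4) (nat_lit 437) (nat_lit 382) (nat_lit 381)))) (XT.nd (nat_lit 156) (nat_lit 684) (nat_lit 0) (XT.nd (nat_lit 78) (nat_lit 456) (nat_lit 0) (XT.lf (nat_lit 0) (nat_lit 7651015610) (nat_lit 228) (nat_lit 2605531781) (nat_lit 228) (nat_lit 516389733) (nat_lit 134) (nat_lit 4) (nat_lit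 137) (nat_lit 5) (nat_lit 137) (nat_lit 4) (nat_lit 438) (nat_lit 382) (nat_lit 380)) (XT.lf (nat_lit 0) (nat_lit 2000315231) (nat_lit 228) (nat_lit 5996535410) (nat_lit 228) (nat_lit 3025945644) (nat_lit 128) (nat_lit 4) (nat_lit 131) (nat_lit 5) (nat_lit 131) (nat_lit 4) (nat_lit 439) (nat_lit 382) (nat_lit 379))) (XT.nd (nat_lit 78) (nat_lit 456) (nat_lit 0) (XT.lf (nat_lit 0) (nat_lit 5519869973) (nat_lit 228) (nat_lit 3999298272) (nat_lit 0) (nat_lit 1764515585) (nat_lit 125) (nat_lit 5) (nat_lit 128) (nat_lit 4) (nat_lit 125) (nat_lit 4) (nat_lit 440) (nat_lit 382) (nat_lit 378)) (XT.lf (nat_lit 0) (nat_lit 1120367073) (nat_lit 152) (nat_lit 1690233061) (nat_lit 228) (nat_lit 8745508152) (nat_lit 119) (nat_lit 5) (nat_lit 121) (nat_lit 5) (nat_lit 122) (nat_lit 4) (nat_lit 441) (nat_lit 382) (nat_lit 377))))))) (XT.nd (nat_lit 1014) (nat_lit 2128) (nat_lit 0) (XT.nd (nat_lit 468) (nat_lit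 1520) (nat_lit 0) (XT.nd (nat_lit 234) (nat_lit 760) (nat_lit 0) (XT.nd (nat_lit 78) (nat_lit 608) (nat_lit 0) (XT.lf (nat_lit 0) (nat_lit 6394672499) (nat_lit 228) (nat_lit 5331843603) (nat_lit 228) (nat_lit 112975759) (nat_lit 116) (nat_lit 4) (nat_lit 119) (nat_lit 5) (nat_lit 119) (nat_lit 4) (nat_lit 442) (nat_lit 382) (nat_lit 376)) (XT.nd (nat_lit 78) (nat_lit 380) (nat_lit 0) (XT.lf (nat_lit 0) (nat_lit 8755648829) (nat_lit 228) (nat_lit 400107302) (nat_lit 0) (nat_lit 2979341873) (nat_lit 113) (nat_lit 5) (nat_lit 116) (nat_lit 4) (nat_lit 113) (nat_lit 4) (nat_lit 443) (nat_lit 382) (nat_lit 375)) (XT.lf (nat_lit 0) (nat_lit 4815826571) (nat_lit 152) (nat_lit 734811559) (nat_lit 228) (nat_lit 6891988651) (nat_lit 108) (nat_lit 5) (nat_lit 110) (nat_lit 5) (nat_lit 111) (nat_lit 4) (nat_lit 444) (nat_lit 382) (nat_lit 374)))) (XT.nd (nat_lit 78) (nat_lit 532) (nat_lit 0) (XT.lf (nat_lit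 0) (nat_lit 2079874062) (nat_lit 228) (nat_lit 2666648211) (nat_lit 76) (nat_lit 8016572824) (nat_lit 105) (nat_lit 5) (nat_lit 108) (nat_lit 5) (nat_lit 106) (nat_lit 4) (nat_lit 445) (nat_lit 382) (nat_lit 373)) (XT.nd (nat_lit 78) (nat_lit 228) (nat_lit 0) (XT.lf (nat_lit 0) (nat_lit 2399552873) (nat_lit 152) (nat_lit 8981554047) (nat_lit 152) (nat_lit 1715740515) (nat_lit 101) (nat_lit 4) (nat_lit 103) (nat_lit 5) (nat_lit 103) (nat_lit 4) (nat_lit 446) (nat_lit 382) (nat_lit 372)) (XT.lf (nat_lit 0) (nat_lit 7574611516) (nat_lit 152) (nat_lit 6956261) (nat_lit 228) (nat_lit 5862554355) (nat_lit 98) (nat_lit 5) (nat_lit 100) (nat_lit 5) (nat_lit 101) (nat_lit 4) (nat_lit 447) (nat_lit 382) (nat_lit 371))))) (XT.nd (nat_lit 234) (nat_lit 836) (nat_lit 0) (XT.nd (nat_lit 78) (nat_lit 456) (nat_lit 0) (XT.lf (nat_lit 0) (nat_lit 3485895719) (nat_lit 228) (nat_lit 1020651722) (nat_lit 76) (nat_lit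 9299074670) (nat_lit 95) (nat_lit 5) (nat_lit 98) (nat_lit 5) (nat_lit 96) (nat_lit 4) (nat_lit 448) (nat_lit 382) (nat_lit 370)) (XT.nd (nat_lit 78) (nat_lit 152) (nat_lit 0) (XT.lf (nat_lit 0) (nat_lit 3960041085) (nat_lit 152) (nat_lit 9276642034) (nat_lit 152) (nat_lit 945093594) (nat_lit 91) (nat_lit 4) (nat_lit 93) (nat_lit 5) (nat_lit 93) (nat_lit 4) (nat_lit 449) (nat_lit 382) (nat_lit 369)) (XT.lf (nat_lit 0) (nat_lit 8756568026) (nat_lit 152) (nat_lit 5583884369) (nat_lit 0) (nat_lit 232767930) (nat_lit 89) (nat_lit 5) (nat_lit 91) (nat_lit 4) (nat_lit 89) (nat_lit 4) (nat_lit 450) (nat_lit 382) (nat_lit 368)))) (XT.nd (nat_lit 156) (nat_lit 380) (nat_lit 0) (XT.nd (nat_lit 78) (nat_lit 228) (nat_lit 0) (XT.lf (nat_lit 0) (nat_lit 3937657703) (nat_lit 228) (nat_lit 944562687) (nat_lit 76) (nat_lit 10098362038) (nat_lit 86) (nat_lit 5) (nat_lit 89) (nat_lit 5) (nat_lit 87) (nat_lit 4)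 (nat_lit 451) (nat_lit 382) (nat_lit 367)) (XT.lf (nat_lit 0) (nat_lit 3800629708) (nat_lit 152) (nat_lit 10332213731) (nat_lit 152) (nat_lit 1271542491) (nat_lit 83) (nat_lit 4) (nat_lit 85) (nat_lit 5) (nat_lit 85) (nat_lit 4) (nat_lit 452) (nat_lit 382) (nat_lit 366))) (XT.nd (nat_lit 78) (nat_lit 228) (nat_lit 0) (XT.lf (nat_lit 0) (nat_lit 8566007647) (nat_lit 76) (nat_lit 296768131) (nat_lit 152) (nat_lit 6982523256) (nat_lit 81) (nat_lit 5) (nat_lit 82) (nat_lit 5) (nat_lit 83) (nat_lit 4) (nat_lit 453) (nat_lit 382) (nat_lit 365)) (XT.lf (nat_lit 0) (nat_lit 3204472252) (nat_lit 228) (nat_lit 2983090059) (nat_lit 76) (nat_lit 10116507069) (nat_lit 78) (nat_lit 5) (nat_lit 81) (nat_lit 5) (nat_lit 79) (nat_lit 4) (nat_lit 454) (nat_lit 382) (nat_lit 364)))))) (XT.nd (nat_lit 546) (nat_lit 912) (nat_lit 0) (XT.nd (nat_lit 234) (nat_lit 608) (nat_lit 0) (XT.nd (nat_lit 78) (nat_lit 380) (nat_lit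 0) (XT.lf (nat_lit 0) (nat_lit 1331871043) (nat_lit 152) (nat_lit 12486817751) (nat_lit 152) (nat_lit 2963150877) (nat_lit 75) (nat_lit 4) (nat_lit 77) (nat_lit 5) (nat_lit 77) (nat_lit 4) (nat_lit 455) (nat_lit 382) (nat_lit 363)) (XT.nd (nat_lit 78) (nat_lit 228) (nat_lit 0) (XT.lf (nat_lit 0) (nat_lit 5670716704) (nat_lit 76) (nat_lit 1960507939) (nat_lit 152) (nat_lit 9647033409) (nat_lit 73) (nat_lit 5) (nat_lit 74) (nat_lit 5) (nat_lit 75) (nat_lit 4) (nat_lit 456) (nat_lit 382) (nat_lit 362)) (XT.lf (nat_lit 0) (nat_lit 980383133) (nat_lit 228) (nat_lit 7819073498) (nat_lit 76) (nat_lit 8995832554) (nat_lit 70) (nat_lit 5) (nat_lit 73) (nat_lit 5) (nat_lit 71) (nat_lit 4) (nat_lit 457) (nat_lit 382) (nat_lit 361)))) (XT.nd (nat_lit 156) (nat_lit 304) (nat_lit 0) (XT.nd (nat_lit 78) (nat_lit 228) (nat_lit 0) (XT.lf (nat_lit 0) (nat_lit 12002513673) (nat_lit 152) (nat_lit 4105867258) (nat_lit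 0) (nat_lit 2225042872) (nat_lit 69) (nat_lit 5) (nat_lit 71) (nat_lit 4) (nat_lit 69) (nat_lit 4) (nat_lit 458) (nat_lit 382) (nat_lit 360)) (XT.lf (nat_lit 0) (nat_lit 4701538853) (nat_lit 228) (nat_lit 475181108) (nat_lit 76) (nat_lit 13716933550) (nat_lit 66) (nat_lit 5) (nat_lit 69) (nat_lit 5) (nat_lit 67) (nat_lit 4) (nat_lit 459) (nat_lit 382) (nat_lit 359))) (XT.nd (nat_lit 78) (nat_lit 152) (nat_lit 0) (XT.lf (nat_lit 0) (nat_lit 3131089428) (nat_lit 76) (nat_lit 13148140761) (nat_lit 76) (nat_lit 3197050229) (nat_lit 64) (nat_lit 4) (nat_lit 65) (nat_lit 5) (nat_lit 65) (nat_lit 4) (nat_lit 460) (nat_lit 382) (nat_lit 358)) (XT.lf (nat_lit 0) (nat_lit 6638531974) (nat_lit 76) (nat_lit 1638603187) (nat_lit 152) (nat_lit 11805730869) (nat_lit 62) (nat_lit 5) (nat_lit 63) (nat_lit 5) (nat_lit 64) (nat_lit 4) (nat_lit 461) (nat_lit 382) (nat_lit 357))))) (XT.nd (nat_lit 234) (nat_lit 532)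 (nat_lit 0) (XT.nd (nat_lit 78) (nat_lit 304) (nat_lit 0) (XT.lf (nat_lit 0) (nat_lit 10021991582) (nat_lit 76) (nat_lit 10378756248) (nat_lit 76) (nat_lit 313830774) (nat_lit 61) (nat_lit 4) (nat_lit 62) (nat_lit 5) (nat_lit 62) (nat_lit 4) (nat_lit 462) (nat_lit 382) (nat_lit 356)) (XT.nd (nat_lit 78) (nat_lit 152) (nat_lit 0) (XT.lf (nat_lit 0) (nat_lit 11602357138) (nat_lit 152) (nat_lit 8121251355) (nat_lit 0) (nat_lit 1648510464) (nat_lit 59) (nat_lit 5) (nat_lit 61) (nat_lit 4) (nat_lit 59) (nat_lit 4) (nat_lit 463) (nat_lit 382) (nat_lit 355)) (XT.lf (nat_lit 0) (nat_lit 2163733941) (nat_lit 152) (nat_lit 5734870933) (nat_lit 76) (nat_lit 14158503666) (nat_lit 57) (nat_lit 5) (nat_lit 59) (nat_lit 5) (nat_lit 58) (nat_lit 4) (nat_lit 464) (nat_lit 382) (nat_lit 354)))) (XT.nd (nat_lit 156) (nat_lit 304) (nat_lit 0) (XT.nd (nat_lit 78) (nat_lit 152) (nat_lit 0) (XT.lf (nat_lit 0) (nat_lit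 14596176866) (nat_lit 152) (nat_lit 3570583244) (nat_lit 0) (nat_lit 4603557785) (nat_lit 56) (nat_lit 5) (nat_lit 58) (nat_lit 4) (nat_lit 56) (nat_lit 4) (nat_lit 465) (nat_lit 382) (nat_lit 353)) (XT.lf (nat_lit 0) (nat_lit 4194182498) (nat_lit 152) (nat_lit 1631130244) (nat_lit 76) (nat_lit 17688373302) (nat_lit 54) (nat_lit 5) (nat_lit 56) (nat_lit 5) (nat_lit 55) (nat_lit 4) (nat_lit 466) (nat_lit 382) (nat_lit 352))) (XT.nd (nat_lit 78) (nat_lit 152) (nat_lit 0) (XT.lf (nat_lit 0) (nat_lit 24846898) (nat_lit 76) (nat_lit 17126886883) (nat_lit 76) (nat_lit 7135866644) (nat_lit 52) (nat_lit 4) (nat_lit 53) (nat_lit 5) (nat_lit 53) (nat_lit 4) (nat_lit 467) (nat_lit 382) (nat_lit 351)) (XT.lf (nat_lit 0) (nat_lit 1430544660) (nat_lit 76) (nat_lit 4262083744) (nat_lit 152) (nat_lit 19401570480) (nat_lit 50) (nat_lit 5) (nat_lit 51) (nat_lit 5) (nat_lit 52) (nat_lit 4) (nat_lit 468) (nat_lit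 382) (nat_lit 350))))))))
noncomputable def xc20 : XT := (XT.nd (nat_lit 2028) (nat_lit 380) (nat_lit 0) (XT.nd (nat_lit 1014) (nat_lit 988) (nat_lit 0) (XT.nd (nat_lit 468) (nat_lit 684) (nat_lit 0) (XT.nd (nat_lit 234) (nat_lit 380) (nat_lit 0) (XT.nd (nat_lit 78) (nat_lit 228) (nat_lit 0) (XT.lf (nat_lit 0) (nat_lit 2471068512) (nat_lit 76) (nat_lit 16708950129) (nat_lit 76) (nat_lit 6754039066) (nat_lit 49) (nat_lit 4) (nat_lit 50) (nat_lit 5) (nat_lit 50) (nat_lit 4) (nat_lit 469) (nat_lit 382) (nat_lit 349)) (XT.nd (nat_lit 78) (nat_lit 76) (nat_lit 0) (XT.lf (nat_lit 0) (nat_lit 3163747141) (nat_lit 76) (nat_lit 3356979290) (nat_lit 152) (nat_lit 20289636522) (nat_lit 47) (nat_lit 5) (nat_lit 48) (nat_lit 5) (nat_lit 49) (nat_lit 4) (nat_lit 470) (nat_lit 382) (nat_lit 348)) (XT.lf (nat_lit 0) (nat_lit 3401114933) (nat_lit 76) (nat_lit 17105585758) (nat_lit 76) (nat_lit 7216163343) (nat_lit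 46) (nat_lit 4) (nat_lit 47) (nat_lit 5) (nat_lit 47) (nat_lit 4) (nat_lit 471) (nat_lit 382) (nat_lit 347)))) (XT.nd (nat_lit 78) (nat_lit 228) (nat_lit 0) (XT.lf (nat_lit 0) (nat_lit 3211542990) (nat_lit 76) (nat_lit 3293503440) (nat_lit 152) (nat_lit 22170433896) (nat_lit 44) (nat_lit 5) (nat_lit 45) (nat_lit 5) (nat_lit 46) (nat_lit 4) (nat_lit 472) (nat_lit 382) (nat_lit 346)) (XT.nd (nat_lit 78) (nat_lit 152) (nat_lit 0) (XT.lf (nat_lit 0) (nat_lit 2459454309) (nat_lit 76) (nat_lit 18503587531) (nat_lit 76) (nat_lit 8704544375) (nat_lit 43) (nat_lit 4) (nat_lit 44) (nat_lit 5) (nat_lit 44) (nat_lit 4) (nat_lit 473) (nat_lit 382) (nat_lit 345)) (XT.lf (nat_lit 0) (nat_lit 1184625584) (nat_lit 76) (nat_lit 4271284689) (nat_lit 152) (nat_lit 25248001395) (nat_lit 41) (nat_lit 5) (nat_lit 42) (nat_lit 5) (nat_lit 43) (nat_lit 4) (nat_lit 474) (nat_lit 382) (nat_lit 344))))) (XT.nd (nat_lit 234)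 (nat_lit 456) (nat_lit 0) (XT.nd (nat_lit 78) (nat_lit 228) (nat_lit 0) (XT.lf (nat_lit 0) (nat_lit 20353095190) (nat_lit 152) (nat_lit 764714274) (nat_lit 0) (nat_lit 10665397548) (nat_lit 41) (nat_lit 5) (nat_lit 43) (nat_lit 4) (nat_lit 41) (nat_lit 4) (nat_lit 475) (nat_lit 382) (nat_lit 343)) (XT.nd (nat_lit 78) (nat_lit 76) (nat_lit 0) (XT.lf (nat_lit 0) (nat_lit 3178157302) (nat_lit 152) (nat_lit 3316904059) (nat_lit 76) (nat_lit 26415732077) (nat_lit 39) (nat_lit 5) (nat_lit 41) (nat_lit 5) (nat_lit 40) (nat_lit 4) (nat_lit 476) (nat_lit 382) (nat_lit 342)) (XT.lf (nat_lit 0) (nat_lit 18475609625) (nat_lit 152) (nat_lit 6693104877) (nat_lit 0) (nat_lit 8916795667) (nat_lit 38) (nat_lit 5) (nat_lit 40) (nat_lit 4) (nat_lit 38) (nat_lit 4) (nat_lit 477) (nat_lit 382) (nat_lit 341)))) (XT.nd (nat_lit 156) (nat_lit 228) (nat_lit 0) (XT.nd (nat_lit 78) (nat_lit 152) (nat_lit 0) (XT.lf (nat_lit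 0) (nat_lit 24476152385) (nat_lit 76) (nat_lit 10233837404) (nat_lit 76) (nat_lit 603812173) (nat_lit 37) (nat_lit 4) (nat_lit 38) (nat_lit 5) (nat_lit 38) (nat_lit 4) (nat_lit 478) (nat_lit 382) (nat_lit 340)) (XT.lf (nat_lit 0) (nat_lit 15020147297) (nat_lit 152) (nat_lit 15969331420) (nat_lit 0) (nat_lit 5604763324) (nat_lit 35) (nat_lit 5) (nat_lit 37) (nat_lit 4) (nat_lit 35) (nat_lit 4) (nat_lit 479) (nat_lit 382) (nat_lit 339))) (XT.nd (nat_lit 78) (nat_lit 152) (nat_lit 0) (XT.lf (nat_lit 0) (nat_lit 15838190476) (nat_lit 76) (nat_lit 15786042995) (nat_lit 76) (nat_lit 6307949581) (nat_lit 34) (nat_lit 4) (nat_lit 35) (nat_lit 5) (nat_lit 35) (nat_lit 4) (nat_lit 480) (nat_lit 382) (nat_lit 338)) (XT.lf (nat_lit 0) (nat_lit 9644162147) (nat_lit 152) (nat_lit 29302539447) (nat_lit 0) (nat_lit 384145942) (nat_lit 32) (nat_lit 5) (nat_lit 34) (nat_lit 4) (nat_lit 32) (nat_lit 4) (nat_lit 481)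 (nat_lit 382) (nat_lit 337)))))) (XT.nd (nat_lit 468) (nat_lit 532) (nat_lit 0) (XT.nd (nat_lit 234) (nat_lit 228) (nat_lit 0) (XT.nd (nat_lit 78) (nat_lit 152) (nat_lit 0) (XT.lf (nat_lit 0) (nat_lit 2957772864) (nat_lit 76) (nat_lit 23573501334) (nat_lit 76) (nat_lit 14258262497) (nat_lit 31) (nat_lit 4) (nat_lit 32) (nat_lit 5) (nat_lit 32) (nat_lit 4) (nat_lit 482) (nat_lit 382) (nat_lit 336)) (XT.nd (nat_lit 78) (nat_lit 76) (nat_lit 0) (XT.lf (nat_lit 0) (nat_lit 2060435825) (nat_lit 152) (nat_lit 5185147096) (nat_lit 76) (nat_lit 35070315868) (nat_lit 30) (nat_lit 5) (nat_lit 32) (nat_lit 5) (nat_lit 31) (nat_lit 4) (nat_lit 483) (nat_lit 382) (nat_lit 335)) (XT.lf (nat_lit 0) (nat_lit 19141165883) (nat_lit 152) (nat_lit 14768395324) (nat_lit 0) (nat_lit 9997553866) (nat_lit 29) (nat_lit 5) (nat_lit 31) (nat_lit 4) (nat_lit 29) (nat_lit 4) (nat_lit 484) (nat_lit 382) (nat_lit 334)))) (XT.nd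 (nat_lit 78) (nat_lit 152) (nat_lit 0) (XT.lf (nat_lit 0) (nat_lit 19746986271) (nat_lit 76) (nat_lit 17507734406) (nat_lit 76) (nat_lit 8317808421) (nat_lit 28) (nat_lit 4) (nat_lit 29) (nat_lit 5) (nat_lit 29) (nat_lit 4) (nat_lit 485) (nat_lit 382) (nat_lit 333)) (XT.nd (nat_lit 78) (nat_lit 0) (nat_lit 0) (XT.lf (nat_lit 0) (nat_lit 8793805253) (nat_lit 76) (nat_lit 86903996) (nat_lit 152) (nat_lit 38434843227) (nat_lit 26) (nat_lit 5) (nat_lit 27) (nat_lit 5) (nat_lit 28) (nat_lit 4) (nat_lit 486) (nat_lit 382) (nat_lit 332)) (XT.lf (nat_lit 0) (nat_lit 27079476296) (nat_lit 152) (nat_lit 3980800503) (nat_lit 0) (nat_lit 18073609637) (nat_lit 26) (nat_lit 5) (nat_lit 28) (nat_lit 4) (nat_lit 26) (nat_lit 4) (nat_lit 487) (nat_lit 382) (nat_lit 331))))) (XT.nd (nat_lit 234) (nat_lit 228) (nat_lit 0) (XT.nd (nat_lit 78) (nat_lit 228) (nat_lit 0) (XT.lf (nat_lit 0) (nat_lit 32671216660) (nat_lit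 76) (nat_lit 13705487191) (nat_lit 76) (nat_lit 4660778060) (nat_lit 25) (nat_lit 4) (nat_lit 26) (nat_lit 5) (nat_lit 26) (nat_lit 4) (nat_lit 488) (nat_lit 382) (nat_lit 330)) (XT.nd (nat_lit 78) (nat_lit 76) (nat_lit 0) (XT.lf (nat_lit 0) (nat_lit 13474938806) (nat_lit 152) (nat_lit 34895508554) (nat_lit 0) (nat_lit 4657752436) (nat_lit 23) (nat_lit 5) (nat_lit 25) (nat_lit 4) (nat_lit 23) (nat_lit 4) (nat_lit 489) (nat_lit 382) (nat_lit 329)) (XT.lf (nat_lit 0) (nat_lit 1322975193) (nat_lit 76) (nat_lit 31319422724) (nat_lit 76) (nat_lit 22468031240) (nat_lit 22) (nat_lit 4) (nat_lit 23) (nat_lit 5) (nat_lit 23) (nat_lit 4) (nat_lit 490) (nat_lit 382) (nat_lit 328)))) (XT.nd (nat_lit 156) (nat_lit 76) (nat_lit 0) (XT.nd (nat_lit 78) (nat_lit 152) (nat_lit 0) (XT.lf (nat_lit 0) (nat_lit 39845359578) (nat_lit 76) (nat_lit 13164071284) (nat_lit 76) (nat_lit 4280103500) (nat_lit 22) (nat_lit 4)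 (nat_lit 23) (nat_lit 5) (nat_lit 23) (nat_lit 4) (nat_lit 491) (nat_lit 382) (nat_lit 327)) (XT.lf (nat_lit 0) (nat_lit 14673045899) (nat_lit 152) (nat_lit 38878214403) (nat_lit 0) (nat_lit 6017713054) (nat_lit 20) (nat_lit 5) (nat_lit 22) (nat_lit 4) (nat_lit 20) (nat_lit 4) (nat_lit 492) (nat_lit 382) (nat_lit 326))) (XT.nd (nat_lit 78) (nat_lit 76) (nat_lit 0) (XT.lf (nat_lit 0) (nat_lit 34689085295) (nat_lit 152) (nat_lit 1260850094) (nat_lit 0) (nat_lit 26005065399) (nat_lit 20) (nat_lit 5) (nat_lit 22) (nat_lit 4) (nat_lit 20) (nat_lit 4) (nat_lit 493) (nat_lit 382) (nat_lit 325)) (XT.lf (nat_lit 0) (nat_lit 38781794874) (nat_lit 76) (nat_lit 17190935915) (nat_lit 76) (nat_lit 8479595017) (nat_lit 19) (nat_lit 4) (nat_lit 20) (nat_lit 5) (nat_lit 20) (nat_lit 4) (nat_lit 494) (nat_lit 382) (nat_lit 324))))))) (XT.nd (nat_lit 58266) (nat_lit 0) (nat_lit 4864) (XT.nd (nat_lit 57720) (nat_lit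 0) (nat_lit 8436) (XT.nd (nat_lit 234) (nat_lit 152) (nat_lit 0) (XT.nd (nat_lit 78) (nat_lit 76) (nat_lit 0) (XT.lf (nat_lit 0) (nat_lit 11093328510) (nat_lit 152) (nat_lit 53365489778) (nat_lit 0) (nat_lit 2610453850) (nat_lit 17) (nat_lit 5) (nat_lit 19) (nat_lit 4) (nat_lit 17) (nat_lit 4) (nat_lit 495) (nat_lit 382) (nat_lit 323)) (XT.nd (nat_lit 78) (nat_lit 76) (nat_lit 0) (XT.lf (nat_lit 0) (nat_lit 31809625755) (nat_lit 152) (nat_lit 14692026765) (nat_lit 0) (nat_lit 23302691916) (nat_lit 17) (nat_lit 5) (nat_lit 19) (nat_lit 4) (nat_lit 17) (nat_lit 4) (nat_lit 496) (nat_lit 382) (nat_lit 322)) (XT.lf (nat_lit 0) (nat_lit 26232307364) (nat_lit 76) (nat_lit 27484528830) (nat_lit 76) (nat_lit 18954681488) (nat_lit 16) (nat_lit 4) (nat_lit 17) (nat_lit 5) (nat_lit 17) (nat_lit 4) (nat_lit 497) (nat_lit 382) (nat_lit 321)))) (XT.nd (nat_lit 78) (nat_lit 76) (nat_lit 0) (XT.lf (nat_lit 0)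 (nat_lit 1074661913) (nat_lit 152) (nat_lit 6370106042) (nat_lit 76) (nat_lit 68235256339) (nat_lit 15) (nat_lit 5) (nat_lit 17) (nat_lit 5) (nat_lit 16) (nat_lit 4) (nat_lit 498) (nat_lit 382) (nat_lit 320)) (XT.nd (nat_lit 78) (nat_lit 0) (nat_lit 0) (XT.lf (nat_lit 0) (nat_lit 22107959597) (nat_lit 152) (nat_lit 42928342071) (nat_lit 0) (nat_lit 13785189743) (nat_lit 14) (nat_lit 5) (nat_lit 16) (nat_lit 4) (nat_lit 14) (nat_lit 4) (nat_lit 499) (nat_lit 382) (nat_lit 319)) (XT.lf (nat_lit 0) (nat_lit 44245395305) (nat_lit 152) (nat_lit 1969654207) (nat_lit 0) (nat_lit 35903408416) (nat_lit 14) (nat_lit 5) (nat_lit 16) (nat_lit 4) (nat_lit 14) (nat_lit 4) (nat_lit 500) (nat_lit 382) (nat_lit 318))))) (XT.nd (nat_lit 234) (nat_lit 1444) (nat_lit 0) (XT.nd (nat_lit 78) (nat_lit 836) (nat_lit 0) (XT.lf (nat_lit 0) (nat_lit 3736060705) (nat_lit 304) (nat_lit 599530986) (nat_lit 304) (nat_lit 599530986)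 (nat_lit 155) (nat_lit 4) (nat_lit 159) (nat_lit 5) (nat_lit 159) (nat_lit 4) (nat_lit 434) (nat_lit 383) (nat_lit 383)) (XT.nd (nat_lit 78) (nat_lit 304) (nat_lit 0) (XT.lf (nat_lit 0) (nat_lit 2391096478) (nat_lit 228) (nat_lit 4442482576) (nat_lit 228) (nat_lit 3250507550) (nat_lit 148) (nat_lit 4) (nat_lit 151) (nat_lit 5) (nat_lit 151) (nat_lit 4) (nat_lit 435) (nat_lit 383) (nat_lit 382)) (XT.lf (nat_lit 0) (nat_lit 4797993308) (nat_lit 304) (nat_lit 2971489853) (nat_lit 0) (nat_lit 2538586183) (nat_lit 144) (nat_lit 5) (nat_lit 148) (nat_lit 4) (nat_lit 144) (nat_lit 4) (nat_lit 436) (nat_lit 383) (nat_lit 381)))) (XT.nd (nat_lit 156) (nat_lit 608) (nat_lit 0) (XT.nd (nat_lit 78) (nat_lit 304) (nat_lit 0) (XT.lf (nat_lit 0) (nat_lit 1880733506) (nat_lit 228) (nat_lit 675821726) (nat_lit 304) (nat_lit 7985922406) (nat_lit 137) (nat_lit 5) (nat_lit 140) (nat_lit 5) (nat_lit 141) (nat_lit 4)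 (nat_lit 437) (nat_lit 383) (nat_lit 380)) (XT.lf (nat_lit 0) (nat_lit 131597421) (nat_lit 304) (nat_lit 3916115476) (nat_lit 76) (nat_lit 6738978537) (nat_lit 133) (nat_lit 5) (nat_lit 137) (nat_lit 5) (nat_lit 134) (nat_lit 4) (nat_lit 438) (nat_lit 383) (nat_lit 379))) (XT.nd (nat_lit 78) (nat_lit 228) (nat_lit 0) (XT.lf (nat_lit 0) (nat_lit 917965432) (nat_lit 228) (nat_lit 7541274168) (nat_lit 228) (nat_lit 2582433145) (nat_lit 128) (nat_lit 4) (nat_lit 131) (nat_lit 5) (nat_lit 131) (nat_lit 4) (nat_lit 439) (nat_lit 383) (nat_lit 378)) (XT.lf (nat_lit 0) (nat_lit 5785360725) (nat_lit 228) (nat_lit 5381002537) (nat_lit 0) (nat_lit 141155152) (nat_lit 125) (nat_lit 5) (nat_lit 128) (nat_lit 4) (nat_lit 125) (nat_lit 4) (nat_lit 440) (nat_lit 383) (nat_lit 377)))))) (XT.nd (nat_lit 546) (nat_lit 1520) (nat_lit 0) (XT.nd (nat_lit 234) (nat_lit 1140) (nat_lit 0) (XT.nd (nat_lit 78) (nat_lit 608)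 (nat_lit 0) (XT.lf (nat_lit 0) (nat_lit 2882597838) (nat_lit 304) (nat_lit 582814639) (nat_lit 76) (nat_lit 8119413623) (nat_lit 121) (nat_lit 5) (nat_lit 125) (nat_lit 5) (nat_lit 122) (nat_lit 4) (nat_lit 441) (nat_lit 383) (nat_lit 376)) (XT.nd (nat_lit 78) (nat_lit 228) (nat_lit 0) (XT.lf (nat_lit 0) (nat_lit 4387204512) (nat_lit 228) (nat_lit 7232095146) (nat_lit 228) (nat_lit 254290853) (nat_lit 116) (nat_lit 4) (nat_lit 119) (nat_lit 5) (nat_lit 119) (nat_lit 4) (nat_lit 442) (nat_lit 383) (nat_lit 375)) (XT.lf (nat_lit 0) (nat_lit 8441135336) (nat_lit 228) (nat_lit 2742478645) (nat_lit 0) (nat_lit 990906183) (nat_lit 113) (nat_lit 5) (nat_lit 116) (nat_lit 4) (nat_lit 113) (nat_lit 4) (nat_lit 443) (nat_lit 383) (nat_lit 374)))) (XT.nd (nat_lit 156) (nat_lit 532) (nat_lit 0) (XT.nd (nat_lit 78) (nat_lit 228) (nat_lit 0) (XT.lf (nat_lit 0) (nat_lit 2096341611) (nat_lit 152) (nat_lit 2923391524)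 (nat_lit 228) (nat_lit 7467937921) (nat_lit 108) (nat_lit 5) (nat_lit 110) (nat_lit 5) (nat_lit 111) (nat_lit 4) (nat_lit 444) (nat_lit 383) (nat_lit 373)) (XT.lf (nat_lit 0) (nat_lit 1331721532) (nat_lit 228) (nat_lit 5749578002) (nat_lit 76) (nat_lit 5732512679) (nat_lit 105) (nat_lit 5) (nat_lit 108) (nat_lit 5) (nat_lit 106) (nat_lit 4) (nat_lit 445) (nat_lit 383) (nat_lit 372))) (XT.nd (nat_lit 78) (nat_lit 380) (nat_lit 0) (XT.lf (nat_lit 0) (nat_lit 10425013426) (nat_lit 228) (nat_lit 1060706414) (nat_lit 0) (nat_lit 1668086261) (nat_lit 103) (nat_lit 5) (nat_lit 106) (nat_lit 4) (nat_lit 103) (nat_lit 4) (nat_lit 446) (nat_lit 383) (nat_lit 371)) (XT.lf (nat_lit 0) (nat_lit 3734932638) (nat_lit 152) (nat_lit 2676801039) (nat_lit 228) (nat_lit 7094938842) (nat_lit 98) (nat_lit 5) (nat_lit 100) (nat_lit 5) (nat_lit 101) (nat_lit 4) (nat_lit 447) (nat_lit 383) (nat_lit 370))))) (XT.nd (nat_lit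 234) (nat_lit 836) (nat_lit 0) (XT.nd (nat_lit 78) (nat_lit 456) (nat_lit 0) (XT.lf (nat_lit 0) (nat_lit 2083518366) (nat_lit 228) (nat_lit 5265502214) (nat_lit 76) (nat_lit 6525331384) (nat_lit 95) (nat_lit 5) (nat_lit 98) (nat_lit 5) (nat_lit 96) (nat_lit 4) (nat_lit 448) (nat_lit 383) (nat_lit 369)) (XT.nd (nat_lit 78) (nat_lit 304) (nat_lit 0) (XT.lf (nat_lit 0) (nat_lit 11600068046) (nat_lit 228) (nat_lit 723855774) (nat_lit 0) (nat_lit 1933612582) (nat_lit 93) (nat_lit 5) (nat_lit 96) (nat_lit 4) (nat_lit 93) (nat_lit 4) (nat_lit 449) (nat_lit 383) (nat_lit 368)) (XT.lf (nat_lit 0) (nat_lit 3903875221) (nat_lit 76) (nat_lit 2991181254) (nat_lit 152) (nat_lit 7759896392) (nat_lit 89) (nat_lit 5) (nat_lit 90) (nat_lit 5) (nat_lit 91) (nat_lit 4) (nat_lit 450) (nat_lit 383) (nat_lit 367)))) (XT.nd (nat_lit 156) (nat_lit 532) (nat_lit 0) (XT.nd (nat_lit 78) (nat_lit 76) (nat_lit 0) (XT.lf (nat_lit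 0) (nat_lit 1827536598) (nat_lit 228) (nat_lit 6483700204) (nat_lit 76) (nat_lit 6757784771) (nat_lit 86) (nat_lit 5) (nat_lit 89) (nat_lit 5) (nat_lit 87) (nat_lit 4) (nat_lit 451) (nat_lit 383) (nat_lit 366)) (XT.lf (nat_lit 0) (nat_lit 11776245588) (nat_lit 152) (nat_lit 2209184887) (nat_lit 0) (nat_lit 1514791104) (nat_lit 85) (nat_lit 5) (nat_lit 87) (nat_lit 4) (nat_lit 85) (nat_lit 4) (nat_lit 452) (nat_lit 383) (nat_lit 365))) (XT.nd (nat_lit 78) (nat_lit 228) (nat_lit 0) (XT.lf (nat_lit 0) (nat_lit 2087609084) (nat_lit 76) (nat_lit 4166799871) (nat_lit 152) (nat_lit 9693548666) (nat_lit 81) (nat_lit 5) (nat_lit 82) (nat_lit 5) (nat_lit 83) (nat_lit 4) (nat_lit 453) (nat_lit 383) (nat_lit 364)) (XT.lf (nat_lit 0) (nat_lit 323594516) (nat_lit 228) (nat_lit 9964157003) (nat_lit 76) (nat_lit 6126442758) (nat_lit 78) (nat_lit 5) (nat_lit 81) (nat_lit 5) (nat_lit 79) (nat_lit 4) (nat_lit 454)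 (nat_lit 383) (nat_lit 363))))))))
noncomputable def xc21 : XT := (XT.nd (nat_lit 2028) (nat_lit 1520) (nat_lit 0) (XT.nd (nat_lit 1014) (nat_lit 1368) (nat_lit 0) (XT.nd (nat_lit 468) (nat_lit 912) (nat_lit 0) (XT.nd (nat_lit 234) (nat_lit 456) (nat_lit 0) (XT.nd (nat_lit 78) (nat_lit 456) (nat_lit 0) (XT.lf (nat_lit 0) (nat_lit 10698672888) (nat_lit 152) (nat_lit 6110499966) (nat_lit 0) (nat_lit 89967651) (nat_lit 77) (nat_lit 5) (nat_lit 79) (nat_lit 4) (nat_lit 77) (nat_lit 4) (nat_lit 455) (nat_lit 383) (nat_lit 362)) (XT.nd (nat_lit 78) (nat_lit 228) (nat_lit 0) (XT.lf (nat_lit 0) (nat_lit 4226648999) (nat_lit 228) (nat_lit 2311467241) (nat_lit 76) (nat_lit 10865290794) (nat_lit 74) (nat_lit 5) (nat_lit 77) (nat_lit 5) (nat_lit 75) (nat_lit 4) (nat_lit 456) (nat_lit 383) (nat_lit 361)) (XT.lf (nat_lit 0) (nat_lit 1494392209) (nat_lit 152) (nat_lit 13635029238) (nat_lit 152) (nat_lit 2799150901)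 (nat_lit 71) (nat_lit 4) (nat_lit 73) (nat_lit 5) (nat_lit 73) (nat_lit 4) (nat_lit 457) (nat_lit 383) (nat_lit 360)))) (XT.nd (nat_lit 78) (nat_lit 304) (nat_lit 0) (XT.lf (nat_lit 0) (nat_lit 5274442626) (nat_lit 76) (nat_lit 2784380117) (nat_lit 152) (nat_lit 10415256251) (nat_lit 69) (nat_lit 5) (nat_lit 70) (nat_lit 5) (nat_lit 71) (nat_lit 4) (nat_lit 458) (nat_lit 383) (nat_lit 359)) (XT.nd (nat_lit 78) (nat_lit 76) (nat_lit 0) (XT.lf (nat_lit 0) (nat_lit 468607101) (nat_lit 228) (nat_lit 10041150260) (nat_lit 76) (nat_lit 8532579104) (nat_lit 66) (nat_lit 5) (nat_lit 69) (nat_lit 5) (nat_lit 67) (nat_lit 4) (nat_lit 459) (nat_lit 383) (nat_lit 358)) (XT.lf (nat_lit 0) (nat_lit 11761077565) (nat_lit 152) (nat_lit 6996583055) (nat_lit 0) (nat_lit 875860665) (nat_lit 65) (nat_lit 5) (nat_lit 67) (nat_lit 4) (nat_lit 65) (nat_lit 4) (nat_lit 460) (nat_lit 383) (nat_lit 357))))) (XT.nd (nat_lit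 234) (nat_lit 456) (nat_lit 0) (XT.nd (nat_lit 78) (nat_lit 304) (nat_lit 0) (XT.lf (nat_lit 0) (nat_lit 3452920931) (nat_lit 152) (nat_lit 4078608242) (nat_lit 76) (nat_lit 12717128830) (nat_lit 63) (nat_lit 5) (nat_lit 65) (nat_lit 5) (nat_lit 64) (nat_lit 4) (nat_lit 461) (nat_lit 383) (nat_lit 356)) (XT.nd (nat_lit 78) (nat_lit 228) (nat_lit 0) (XT.lf (nat_lit 0) (nat_lit 15278425584) (nat_lit 152) (nat_lit 1285085558) (nat_lit 0) (nat_lit 4325803807) (nat_lit 62) (nat_lit 5) (nat_lit 64) (nat_lit 4) (nat_lit 62) (nat_lit 4) (nat_lit 462) (nat_lit 383) (nat_lit 355)) (XT.lf (nat_lit 0) (nat_lit 1379341118) (nat_lit 76) (nat_lit 4783500842) (nat_lit 152) (nat_lit 15392916584) (nat_lit 59) (nat_lit 5) (nat_lit 60) (nat_lit 5) (nat_lit 61) (nat_lit 4) (nat_lit 463) (nat_lit 383) (nat_lit 354)))) (XT.nd (nat_lit 156) (nat_lit 228) (nat_lit 0) (XT.nd (nat_lit 78) (nat_lit 152) (nat_lit 0) (XT.lf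 (nat_lit 0) (nat_lit 3896163285) (nat_lit 76) (nat_lit 14662685948) (nat_lit 76) (nat_lit 3690521593) (nat_lit 58) (nat_lit 4) (nat_lit 59) (nat_lit 5) (nat_lit 59) (nat_lit 4) (nat_lit 464) (nat_lit 383) (nat_lit 353)) (XT.lf (nat_lit 0) (nat_lit 6216927630) (nat_lit 76) (nat_lit 2328084522) (nat_lit 152) (nat_lit 14426700953) (nat_lit 56) (nat_lit 5) (nat_lit 57) (nat_lit 5) (nat_lit 58) (nat_lit 4) (nat_lit 465) (nat_lit 383) (nat_lit 352))) (XT.nd (nat_lit 78) (nat_lit 152) (nat_lit 0) (XT.lf (nat_lit 0) (nat_lit 8308713763) (nat_lit 76) (nat_lit 13182907071) (nat_lit 76) (nat_lit 2232188553) (nat_lit 55) (nat_lit 4) (nat_lit 56) (nat_lit 5) (nat_lit 56) (nat_lit 4) (nat_lit 466) (nat_lit 383) (nat_lit 351)) (XT.lf (nat_lit 0) (nat_lit 10159036052) (nat_lit 76) (nat_lit 308086832) (nat_lit 152) (nat_lit 14040299348) (nat_lit 53) (nat_lit 5) (nat_lit 54) (nat_lit 5) (nat_lit 55) (nat_lit 4)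 (nat_lit 467) (nat_lit 383) (nat_lit 350)))))) (XT.nd (nat_lit 468) (nat_lit 684) (nat_lit 0) (XT.nd (nat_lit 234) (nat_lit 380) (nat_lit 0) (XT.nd (nat_lit 78) (nat_lit 228) (nat_lit 0) (XT.lf (nat_lit 0) (nat_lit 11713446400) (nat_lit 76) (nat_lit 12252051840) (nat_lit 76) (nat_lit 1357748133) (nat_lit 52) (nat_lit 4) (nat_lit 53) (nat_lit 5) (nat_lit 53) (nat_lit 4) (nat_lit 468) (nat_lit 383) (nat_lit 349)) (XT.nd (nat_lit 78) (nat_lit 76) (nat_lit 0) (XT.lf (nat_lit 0) (nat_lit 11827360885) (nat_lit 152) (nat_lit 13214049301) (nat_lit 0) (nat_lit 1131950543) (nat_lit 50) (nat_lit 5) (nat_lit 52) (nat_lit 4) (nat_lit 50) (nat_lit 4) (nat_lit 469) (nat_lit 383) (nat_lit 348)) (XT.lf (nat_lit 0) (nat_lit 13852172915) (nat_lit 76) (nat_lit 12007555700) (nat_lit 76) (nat_lit 1199367784) (nat_lit 49) (nat_lit 4) (nat_lit 50) (nat_lit 5) (nat_lit 50) (nat_lit 4) (nat_lit 470) (nat_lit 383) (nat_lit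 347)))) (XT.nd (nat_lit 78) (nat_lit 228) (nat_lit 0) (XT.lf (nat_lit 0) (nat_lit 12473618869) (nat_lit 152) (nat_lit 13632463165) (nat_lit 0) (nat_lit 1875953696) (nat_lit 47) (nat_lit 5) (nat_lit 49) (nat_lit 4) (nat_lit 47) (nat_lit 4) (nat_lit 471) (nat_lit 383) (nat_lit 346)) (XT.nd (nat_lit 78) (nat_lit 152) (nat_lit 0) (XT.lf (nat_lit 0) (nat_lit 14413797606) (nat_lit 76) (nat_lit 12613644009) (nat_lit 76) (nat_lit 1916665647) (nat_lit 46) (nat_lit 4) (nat_lit 47) (nat_lit 5) (nat_lit 47) (nat_lit 4) (nat_lit 472) (nat_lit 383) (nat_lit 345)) (XT.lf (nat_lit 0) (nat_lit 12235379558) (nat_lit 152) (nat_lit 15953552853) (nat_lit 0) (nat_lit 1758134558) (nat_lit 44) (nat_lit 5) (nat_lit 46) (nat_lit 4) (nat_lit 44) (nat_lit 4) (nat_lit 473) (nat_lit 383) (nat_lit 344))))) (XT.nd (nat_lit 234) (nat_lit 380) (nat_lit 0) (XT.nd (nat_lit 78) (nat_lit 228) (nat_lit 0) (XT.lf (nat_lit 0) (nat_lit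 13024609931) (nat_lit 76) (nat_lit 14266315828) (nat_lit 76) (nat_lit 3701614528) (nat_lit 43) (nat_lit 4) (nat_lit 44) (nat_lit 5) (nat_lit 44) (nat_lit 4) (nat_lit 474) (nat_lit 383) (nat_lit 343)) (XT.nd (nat_lit 78) (nat_lit 76) (nat_lit 0) (XT.lf (nat_lit 0) (nat_lit 10910947236) (nat_lit 152) (nat_lit 20599572056) (nat_lit 0) (nat_lit 573089941) (nat_lit 41) (nat_lit 5) (nat_lit 43) (nat_lit 4) (nat_lit 41) (nat_lit 4) (nat_lit 475) (nat_lit 383) (nat_lit 342)) (XT.lf (nat_lit 0) (nat_lit 9236882693) (nat_lit 76) (nat_lit 17199184071) (nat_lit 76) (nat_lit 6784311783) (nat_lit 40) (nat_lit 4) (nat_lit 41) (nat_lit 5) (nat_lit 41) (nat_lit 4) (nat_lit 476) (nat_lit 383) (nat_lit 341)))) (XT.nd (nat_lit 156) (nat_lit 152) (nat_lit 0) (XT.nd (nat_lit 78) (nat_lit 76) (nat_lit 0) (XT.lf (nat_lit 0) (nat_lit 6314573731) (nat_lit 76) (nat_lit 1962664510) (nat_lit 152) (nat_lit 26130862575) (nat_lit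 38) (nat_lit 5) (nat_lit 39) (nat_lit 5) (nat_lit 40) (nat_lit 4) (nat_lit 477) (nat_lit 383) (nat_lit 340)) (XT.lf (nat_lit 0) (nat_lit 2515483356) (nat_lit 76) (nat_lit 21690321055) (nat_lit 76) (nat_lit 11439763028) (nat_lit 37) (nat_lit 4) (nat_lit 38) (nat_lit 5) (nat_lit 38) (nat_lit 4) (nat_lit 478) (nat_lit 383) (nat_lit 339))) (XT.nd (nat_lit 78) (nat_lit 76) (nat_lit 0) (XT.lf (nat_lit 0) (nat_lit 4067520949) (nat_lit 152) (nat_lit 2058081225) (nat_lit 76) (nat_lit 30813374292) (nat_lit 36) (nat_lit 5) (nat_lit 38) (nat_lit 5) (nat_lit 37) (nat_lit 4) (nat_lit 479) (nat_lit 383) (nat_lit 338)) (XT.lf (nat_lit 0) (nat_lit 20367205339) (nat_lit 152) (nat_lit 7626070018) (nat_lit 0) (nat_lit 10292774536) (nat_lit 35) (nat_lit 5) (nat_lit 37) (nat_lit 4) (nat_lit 35) (nat_lit 4) (nat_lit 480) (nat_lit 383) (nat_lit 337))))))) (XT.nd (nat_lit 1014) (nat_lit 380) (nat_lit 0) (XT.nd (nat_lit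 468) (nat_lit 608) (nat_lit 0) (XT.nd (nat_lit 234) (nat_lit 228) (nat_lit 0) (XT.nd (nat_lit 78) (nat_lit 228) (nat_lit 0) (XT.lf (nat_lit 0) (nat_lit 25509782176) (nat_lit 76) (nat_lit 12158211027) (nat_lit 76) (nat_lit 2026900913) (nat_lit 34) (nat_lit 4) (nat_lit 35) (nat_lit 5) (nat_lit 35) (nat_lit 4) (nat_lit 481) (nat_lit 383) (nat_lit 336)) (XT.nd (nat_lit 78) (nat_lit 76) (nat_lit 0) (XT.lf (nat_lit 0) (nat_lit 14543947866) (nat_lit 152) (nat_lit 21965763233) (nat_lit 0) (nat_lit 4655131470) (nat_lit 32) (nat_lit 5) (nat_lit 34) (nat_lit 4) (nat_lit 32) (nat_lit 4) (nat_lit 482) (nat_lit 383) (nat_lit 335)) (XT.lf (nat_lit 0) (nat_lit 11655259906) (nat_lit 76) (nat_lit 20491978746) (nat_lit 76) (nat_lit 10553073794) (nat_lit 31) (nat_lit 4) (nat_lit 32) (nat_lit 5) (nat_lit 32) (nat_lit 4) (nat_lit 483) (nat_lit 383) (nat_lit 334)))) (XT.nd (nat_lit 78) (nat_lit 76) (nat_lit 0) (XT.lf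 (nat_lit 0) (nat_lit 2835526877) (nat_lit 76) (nat_lit 3480795888) (nat_lit 152) (nat_lit 37990767381) (nat_lit 29) (nat_lit 5) (nat_lit 30) (nat_lit 5) (nat_lit 31) (nat_lit 4) (nat_lit 484) (nat_lit 383) (nat_lit 333)) (XT.nd (nat_lit 78) (nat_lit 76) (nat_lit 0) (XT.lf (nat_lit 0) (nat_lit 24142454681) (nat_lit 152) (nat_lit 7436062553) (nat_lit 0) (nat_lit 14402609890) (nat_lit 29) (nat_lit 5) (nat_lit 31) (nat_lit 4) (nat_lit 29) (nat_lit 4) (nat_lit 485) (nat_lit 383) (nat_lit 332)) (XT.lf (nat_lit 0) (nat_lit 28573741621) (nat_lit 76) (nat_lit 14470720356) (nat_lit 76) (nat_lit 4688867431) (nat_lit 28) (nat_lit 4) (nat_lit 29) (nat_lit 5) (nat_lit 29) (nat_lit 4) (nat_lit 486) (nat_lit 383) (nat_lit 331))))) (XT.nd (nat_lit 234) (nat_lit 380) (nat_lit 0) (XT.nd (nat_lit 78) (nat_lit 76) (nat_lit 0) (XT.lf (nat_lit 0) (nat_lit 13211767615) (nat_lit 152) (nat_lit 32676956459) (nat_lit 0) (nat_lit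 3675980556) (nat_lit 26) (nat_lit 5) (nat_lit 28) (nat_lit 4) (nat_lit 26) (nat_lit 4) (nat_lit 487) (nat_lit 383) (nat_lit 330)) (XT.nd (nat_lit 78) (nat_lit 0) (nat_lit 0) (XT.lf (nat_lit 0) (nat_lit 3284247912) (nat_lit 76) (nat_lit 28883534346) (nat_lit 76) (nat_lit 19310754456) (nat_lit 25) (nat_lit 4) (nat_lit 26) (nat_lit 5) (nat_lit 26) (nat_lit 4) (nat_lit 488) (nat_lit 383) (nat_lit 329)) (XT.lf (nat_lit 0) (nat_lit 41492658887) (nat_lit 76) (nat_lit 10798414420) (nat_lit 76) (nat_lit 1190403262) (nat_lit 25) (nat_lit 4) (nat_lit 26) (nat_lit 5) (nat_lit 26) (nat_lit 4) (nat_lit 489) (nat_lit 383) (nat_lit 328)))) (XT.nd (nat_lit 156) (nat_lit 152) (nat_lit 0) (XT.nd (nat_lit 78) (nat_lit 76) (nat_lit 0) (XT.lf (nat_lit 0) (nat_lit 17708603703) (nat_lit 152) (nat_lit 29516334915) (nat_lit 0) (nat_lit 8347861231) (nat_lit 23) (nat_lit 5) (nat_lit 25) (nat_lit 4) (nat_lit 23) (nat_lit 4)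 (nat_lit 490) (nat_lit 383) (nat_lit 327)) (XT.lf (nat_lit 0) (nat_lit 8308866450) (nat_lit 76) (nat_lit 29422566215) (nat_lit 76) (nat_lit 20030798697) (nat_lit 22) (nat_lit 4) (nat_lit 23) (nat_lit 5) (nat_lit 23) (nat_lit 4) (nat_lit 491) (nat_lit 383) (nat_lit 326))) (XT.nd (nat_lit 78) (nat_lit 152) (nat_lit 0) (XT.lf (nat_lit 0) (nat_lit 48427858506) (nat_lit 76) (nat_lit 10524343757) (nat_lit 76) (nat_lit 1103028576) (nat_lit 22) (nat_lit 4) (nat_lit 23) (nat_lit 5) (nat_lit 23) (nat_lit 4) (nat_lit 492) (nat_lit 383) (nat_lit 325)) (XT.lf (nat_lit 0) (nat_lit 18666543410) (nat_lit 152) (nat_lit 34290758393) (nat_lit 0) (nat_lit 9492314466) (nat_lit 20) (nat_lit 5) (nat_lit 22) (nat_lit 4) (nat_lit 20) (nat_lit 4) (nat_lit 493) (nat_lit 383) (nat_lit 324)))))) (XT.nd (nat_lit 57720) (nat_lit 0) (nat_lit 8816) (XT.nd (nat_lit 234) (nat_lit 152) (nat_lit 0) (XT.nd (nat_lit 78) (nat_lit 152)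 (nat_lit 0) (XT.lf (nat_lit 0) (nat_lit 4993905756) (nat_lit 76) (nat_lit 34582252773) (nat_lit 76) (nat_lit 25382003827) (nat_lit 19) (nat_lit 4) (nat_lit 20) (nat_lit 5) (nat_lit 20) (nat_lit 4) (nat_lit 494) (nat_lit 383) (nat_lit 323)) (XT.nd (nat_lit 78) (nat_lit 152) (nat_lit 0) (XT.lf (nat_lit 0) (nat_lit 46762928821) (nat_lit 76) (nat_lit 15023294039) (nat_lit 76) (nat_lit 5798264139) (nat_lit 19) (nat_lit 4) (nat_lit 20) (nat_lit 5) (nat_lit 20) (nat_lit 4) (nat_lit 495) (nat_lit 383) (nat_lit 322)) (XT.lf (nat_lit 0) (nat_lit 14633263353) (nat_lit 152) (nat_lit 50045895479) (nat_lit 0) (nat_lit 5654010140) (nat_lit 17) (nat_lit 5) (nat_lit 19) (nat_lit 4) (nat_lit 17) (nat_lit 4) (nat_lit 496) (nat_lit 383) (nat_lit 321)))) (XT.nd (nat_lit 156) (nat_lit 76) (nat_lit 0) (XT.nd (nat_lit 78) (nat_lit 76) (nat_lit 0) (XT.lf (nat_lit 0) (nat_lit 36243219821) (nat_lit 152) (nat_lit 9723895924)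 (nat_lit 0) (nat_lit 27242144224) (nat_lit 17) (nat_lit 5) (nat_lit 19) (nat_lit 4) (nat_lit 17) (nat_lit 4) (nat_lit 497) (nat_lit 383) (nat_lit 320)) (XT.lf (nat_lit 0) (nat_lit 33083187238) (nat_lit 76) (nat_lit 26080464020) (nat_lit 76) (nat_lit 17058605200) (nat_lit 16) (nat_lit 4) (nat_lit 17) (nat_lit 5) (nat_lit 17) (nat_lit 4) (nat_lit 498) (nat_lit 383) (nat_lit 319))) (XT.nd (nat_lit 57252) (nat_lit 0) (nat_lit 11552) (XT.lf (nat_lit 0) (nat_lit 3783935370) (nat_lit 152) (nat_lit 1360263564) (nat_lit 76) (nat_lit 74240153050) (nat_lit 15) (nat_lit 5) (nat_lit 17) (nat_lit 5) (nat_lit 16) (nat_lit 4) (nat_lit 499) (nat_lit 383) (nat_lit 318)) (XT.lf (nat_lit 0) (nat_lit 1890052374) (nat_lit 380) (nat_lit 952708025) (nat_lit 0) (nat_lit 1890052374) (nat_lit 167) (nat_lit 5) (nat_lit 172) (nat_lit 4) (nat_lit 167) (nat_lit 4) (nat_lit 432) (nat_lit 384) (nat_lit 384))))) (XT.nd (nat_lit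 234) (nat_lit 1292) (nat_lit 0) (XT.nd (nat_lit 78) (nat_lit 836) (nat_lit 0) (XT.lf (nat_lit 0) (nat_lit 1946324227) (nat_lit 304) (nat_lit 7062022298) (nat_lit 0) (nat_lit 657203236) (nat_lit 159) (nat_lit 5) (nat_lit 163) (nat_lit 4) (nat_lit 159) (nat_lit 4) (nat_lit 433) (nat_lit 384) (nat_lit 383)) (XT.nd (nat_lit 78) (nat_lit 532) (nat_lit 0) (XT.lf (nat_lit 0) (nat_lit 7237385730) (nat_lit 304) (nat_lit 2577049194) (nat_lit 304) (nat_lit 60193925) (nat_lit 155) (nat_lit 4) (nat_lit 159) (nat_lit 5) (nat_lit 159) (nat_lit 4) (nat_lit 434) (nat_lit 384) (nat_lit 382)) (XT.lf (nat_lit 0) (nat_lit 1901231890) (nat_lit 228) (nat_lit 5885295323) (nat_lit 228) (nat_lit 2306532207) (nat_lit 148) (nat_lit 4) (nat_lit 151) (nat_lit 5) (nat_lit 151) (nat_lit 4) (nat_lit 435) (nat_lit 384) (nat_lit 381)))) (XT.nd (nat_lit 156) (nat_lit 456) (nat_lit 0) (XT.nd (nat_lit 78) (nat_lit 532) (nat_lit 0)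 (XT.lf (nat_lit 0) (nat_lit 5561477218) (nat_lit 304) (nat_lit 3722877761) (nat_lit 0) (nat_lit 1037283428) (nat_lit 144) (nat_lit 5) (nat_lit 148) (nat_lit 4) (nat_lit 144) (nat_lit 4) (nat_lit 436) (nat_lit 384) (nat_lit 380)) (XT.lf (nat_lit 0) (nat_lit 838826839) (nat_lit 228) (nat_lit 2295509614) (nat_lit 304) (nat_lit 7426224849) (nat_lit 137) (nat_lit 5) (nat_lit 140) (nat_lit 5) (nat_lit 141) (nat_lit 4) (nat_lit 437) (nat_lit 384) (nat_lit 379))) (XT.nd (nat_lit 78) (nat_lit 152) (nat_lit 0) (XT.lf (nat_lit 0) (nat_lit 514218783) (nat_lit 304) (nat_lit 5243470446) (nat_lit 76) (nat_lit 5051914517) (nat_lit 133) (nat_lit 5) (nat_lit 137) (nat_lit 5) (nat_lit 134) (nat_lit 4) (nat_lit 438) (nat_lit 384) (nat_lit 378)) (XT.lf (nat_lit 0) (nat_lit 8666894658) (nat_lit 228) (nat_lit 694948932) (nat_lit 0) (nat_lit 1707995614) (nat_lit 131) (nat_lit 5) (nat_lit 134) (nat_lit 4) (nat_lit 131)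 (nat_lit 4) (nat_lit 439) (nat_lit 384) (nat_lit 377))))))))
noncomputable def xc22 : XT := (XT.nd (nat_lit 2028) (nat_lit 2660) (nat_lit 0) (XT.nd (nat_lit 1014) (nat_lit 2128) (nat_lit 0) (XT.nd (nat_lit 468) (nat_lit 1520) (nat_lit 0) (XT.nd (nat_lit 234) (nat_lit 836) (nat_lit 0) (XT.nd (nat_lit 78) (nat_lit 684) (nat_lit 0) (XT.lf (nat_lit 0) (nat_lit 4003173820) (nat_lit 152) (nat_lit 1797842939) (nat_lit 228) (nat_lit 5539431027) (nat_lit 125) (nat_lit 5) (nat_lit 127) (nat_lit 5) (nat_lit 128) (nat_lit 4) (nat_lit 440) (nat_lit 384) (nat_lit 376)) (XT.nd (nat_lit 78) (nat_lit 380) (nat_lit 0) (XT.lf (nat_lit 0) (nat_lit 2695207731) (nat_lit 304) (nat_lit 2827873818) (nat_lit 76) (nat_lit 6099796930) (nat_lit 121) (nat_lit 5) (nat_lit 125) (nat_lit 5) (nat_lit 122) (nat_lit 4) (nat_lit 441) (nat_lit 384) (nat_lit 375)) (XT.lf (nat_lit 0) (nat_lit 1797990221) (nat_lit 228) (nat_lit 9436467494)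 (nat_lit 228) (nat_lit 683112931) (nat_lit 116) (nat_lit 4) (nat_lit 119) (nat_lit 5) (nat_lit 119) (nat_lit 4) (nat_lit 442) (nat_lit 384) (nat_lit 374)))) (XT.nd (nat_lit 78) (nat_lit 608) (nat_lit 0) (XT.lf (nat_lit 0) (nat_lit 6529969698) (nat_lit 152) (nat_lit 1325260049) (nat_lit 228) (nat_lit 4368361640) (nat_lit 113) (nat_lit 5) (nat_lit 115) (nat_lit 5) (nat_lit 116) (nat_lit 4) (nat_lit 443) (nat_lit 384) (nat_lit 373)) (XT.nd (nat_lit 78) (nat_lit 380) (nat_lit 0) (XT.lf (nat_lit 0) (nat_lit 4206901289) (nat_lit 228) (nat_lit 1214725613) (nat_lit 76) (nat_lit 7121009454) (nat_lit 110) (nat_lit 5) (nat_lit 113) (nat_lit 5) (nat_lit 111) (nat_lit 4) (nat_lit 444) (nat_lit 384) (nat_lit 372)) (XT.lf (nat_lit 0) (nat_lit 282526379) (nat_lit 228) (nat_lit 9463750444) (nat_lit 76) (nat_lit 3128704221) (nat_lit 105) (nat_lit 5) (nat_lit 108) (nat_lit 5) (nat_lit 106) (nat_lit 4) (nat_lit 445)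 (nat_lit 384) (nat_lit 371))))) (XT.nd (nat_lit 234) (nat_lit 760) (nat_lit 0) (XT.nd (nat_lit 78) (nat_lit 608) (nat_lit 0) (XT.lf (nat_lit 0) (nat_lit 8095793651) (nat_lit 152) (nat_lit 1102605853) (nat_lit 228) (nat_lit 4021901154) (nat_lit 103) (nat_lit 5) (nat_lit 105) (nat_lit 5) (nat_lit 106) (nat_lit 4) (nat_lit 446) (nat_lit 384) (nat_lit 370)) (XT.nd (nat_lit 78) (nat_lit 380) (nat_lit 0) (XT.lf (nat_lit 0) (nat_lit 4934131994) (nat_lit 228) (nat_lit 751611783) (nat_lit 76) (nat_lit 7894090919) (nat_lit 100) (nat_lit 5) (nat_lit 103) (nat_lit 5) (nat_lit 101) (nat_lit 4) (nat_lit 447) (nat_lit 384) (nat_lit 369)) (XT.lf (nat_lit 0) (nat_lit 357718266) (nat_lit 228) (nat_lit 10189508132) (nat_lit 76) (nat_lit 3406896571) (nat_lit 95) (nat_lit 5) (nat_lit 98) (nat_lit 5) (nat_lit 96) (nat_lit 4) (nat_lit 448) (nat_lit 384) (nat_lit 368)))) (XT.nd (nat_lit 156) (nat_lit 380) (nat_lit 0)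 (XT.nd (nat_lit 78) (nat_lit 228) (nat_lit 0) (XT.lf (nat_lit 0) (nat_lit 8309969406) (nat_lit 152) (nat_lit 1377261430) (nat_lit 228) (nat_lit 4655690260) (nat_lit 93) (nat_lit 5) (nat_lit 95) (nat_lit 5) (nat_lit 96) (nat_lit 4) (nat_lit 449) (nat_lit 384) (nat_lit 367)) (XT.lf (nat_lit 0) (nat_lit 4714215014) (nat_lit 228) (nat_lit 1860839436) (nat_lit 76) (nat_lit 8172510098) (nat_lit 90) (nat_lit 5) (nat_lit 93) (nat_lit 5) (nat_lit 91) (nat_lit 4) (nat_lit 450) (nat_lit 384) (nat_lit 366))) (XT.nd (nat_lit 78) (nat_lit 152) (nat_lit 0) (XT.lf (nat_lit 0) (nat_lit 2406581049) (nat_lit 152) (nat_lit 12117948261) (nat_lit 152) (nat_lit 644486615) (nat_lit 87) (nat_lit 4) (nat_lit 89) (nat_lit 5) (nat_lit 89) (nat_lit 4) (nat_lit 451) (nat_lit 384) (nat_lit 365)) (XT.lf (nat_lit 0) (nat_lit 6692684060) (nat_lit 76) (nat_lit 2432416390) (nat_lit 152) (nat_lit 6481054380) (nat_lit 85) (nat_lit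 5) (nat_lit 86) (nat_lit 5) (nat_lit 87) (nat_lit 4) (nat_lit 452) (nat_lit 384) (nat_lit 364)))))) (XT.nd (nat_lit 468) (nat_lit 988) (nat_lit 0) (XT.nd (nat_lit 234) (nat_lit 532) (nat_lit 0) (XT.nd (nat_lit 78) (nat_lit 380) (nat_lit 0) (XT.lf (nat_lit 0) (nat_lit 3327358318) (nat_lit 228) (nat_lit 5062976769) (nat_lit 76) (nat_lit 7671065990) (nat_lit 82) (nat_lit 5) (nat_lit 85) (nat_lit 5) (nat_lit 83) (nat_lit 4) (nat_lit 453) (nat_lit 384) (nat_lit 363)) (XT.nd (nat_lit 78) (nat_lit 304) (nat_lit 0) (XT.lf (nat_lit 0) (nat_lit 13553046031) (nat_lit 152) (nat_lit 1208796751) (nat_lit 0) (nat_lit 1773818796) (nat_lit 81) (nat_lit 5) (nat_lit 83) (nat_lit 4) (nat_lit 81) (nat_lit 4) (nat_lit 454) (nat_lit 384) (nat_lit 362)) (XT.lf (nat_lit 0) (nat_lit 2647633959) (nat_lit 76) (nat_lit 4602714047) (nat_lit 152) (nat_lit 9777131121) (nat_lit 77) (nat_lit 5) (nat_lit 78) (nat_lit 5) (nat_lit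 79) (nat_lit 4) (nat_lit 455) (nat_lit 384) (nat_lit 361)))) (XT.nd (nat_lit 78) (nat_lit 304) (nat_lit 0) (XT.lf (nat_lit 0) (nat_lit 483736261) (nat_lit 228) (nat_lit 11006407786) (nat_lit 76) (nat_lit 6049715905) (nat_lit 74) (nat_lit 5) (nat_lit 77) (nat_lit 5) (nat_lit 75) (nat_lit 4) (nat_lit 456) (nat_lit 384) (nat_lit 360)) (XT.nd (nat_lit 78) (nat_lit 228) (nat_lit 0) (XT.lf (nat_lit 0) (nat_lit 10365793008) (nat_lit 76) (nat_lit 772506147) (nat_lit 152) (nat_lit 6934173900) (nat_lit 73) (nat_lit 5) (nat_lit 74) (nat_lit 5) (nat_lit 75) (nat_lit 4) (nat_lit 457) (nat_lit 384) (nat_lit 359)) (XT.lf (nat_lit 0) (nat_lit 3764643463) (nat_lit 228) (nat_lit 4483306709) (nat_lit 76) (nat_lit 10378418734) (nat_lit 70) (nat_lit 5) (nat_lit 73) (nat_lit 5) (nat_lit 71) (nat_lit 4) (nat_lit 458) (nat_lit 384) (nat_lit 358))))) (XT.nd (nat_lit 234) (nat_lit 532) (nat_lit 0) (XT.nd (nat_lit 78) (nat_lit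 380) (nat_lit 0) (XT.lf (nat_lit 0) (nat_lit 14939563163) (nat_lit 152) (nat_lit 1315951964) (nat_lit 0) (nat_lit 2947850355) (nat_lit 69) (nat_lit 5) (nat_lit 71) (nat_lit 4) (nat_lit 69) (nat_lit 4) (nat_lit 459) (nat_lit 384) (nat_lit 357)) (XT.nd (nat_lit 78) (nat_lit 76) (nat_lit 0) (XT.lf (nat_lit 0) (nat_lit 1775202440) (nat_lit 76) (nat_lit 5109438301) (nat_lit 152) (nat_lit 12917957260) (nat_lit 65) (nat_lit 5) (nat_lit 66) (nat_lit 5) (nat_lit 67) (nat_lit 4) (nat_lit 460) (nat_lit 384) (nat_lit 356)) (XT.lf (nat_lit 0) (nat_lit 4809545110) (nat_lit 76) (nat_lit 13827679538) (nat_lit 76) (nat_lit 1789256389) (nat_lit 64) (nat_lit 4) (nat_lit 65) (nat_lit 5) (nat_lit 65) (nat_lit 4) (nat_lit 461) (nat_lit 384) (nat_lit 355)))) (XT.nd (nat_lit 156) (nat_lit 228) (nat_lit 0) (XT.nd (nat_lit 78) (nat_lit 152) (nat_lit 0) (XT.lf (nat_lit 0) (nat_lit 7705995148) (nat_lit 76) (nat_lit 2110942177)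 (nat_lit 152) (nat_lit 11258344493) (nat_lit 62) (nat_lit 5) (nat_lit 63) (nat_lit 5) (nat_lit 64) (nat_lit 4) (nat_lit 462) (nat_lit 384) (nat_lit 354)) (XT.lf (nat_lit 0) (nat_lit 374621875) (nat_lit 152) (nat_lit 11276014567) (nat_lit 76) (nat_lit 10100247586) (nat_lit 60) (nat_lit 5) (nat_lit 62) (nat_lit 5) (nat_lit 61) (nat_lit 4) (nat_lit 463) (nat_lit 384) (nat_lit 353))) (XT.nd (nat_lit 78) (nat_lit 152) (nat_lit 0) (XT.lf (nat_lit 0) (nat_lit 12459771534) (nat_lit 152) (nat_lit 9377481997) (nat_lit 0) (nat_lit 616569456) (nat_lit 59) (nat_lit 5) (nat_lit 61) (nat_lit 4) (nat_lit 59) (nat_lit 4) (nat_lit 464) (nat_lit 384) (nat_lit 352)) (XT.lf (nat_lit 0) (nat_lit 2118026182) (nat_lit 152) (nat_lit 7693401960) (nat_lit 76) (nat_lit 13373949625) (nat_lit 57) (nat_lit 5) (nat_lit 59) (nat_lit 5) (nat_lit 58) (nat_lit 4) (nat_lit 465) (nat_lit 384) (nat_lit 351))))))) (XT.nd (nat_lit 1014)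 (nat_lit 1216) (nat_lit 0) (XT.nd (nat_lit 468) (nat_lit 760) (nat_lit 0) (XT.nd (nat_lit 234) (nat_lit 380) (nat_lit 0) (XT.nd (nat_lit 78) (nat_lit 228) (nat_lit 0) (XT.lf (nat_lit 0) (nat_lit 14744733112) (nat_lit 152) (nat_lit 6239795172) (nat_lit 0) (nat_lit 2962543653) (nat_lit 56) (nat_lit 5) (nat_lit 58) (nat_lit 4) (nat_lit 56) (nat_lit 4) (nat_lit 466) (nat_lit 384) (nat_lit 350)) (XT.nd (nat_lit 78) (nat_lit 76) (nat_lit 0) (XT.lf (nat_lit 0) (nat_lit 3383439285) (nat_lit 152) (nat_lit 5045717124) (nat_lit 76) (nat_lit 16311025568) (nat_lit 54) (nat_lit 5) (nat_lit 56) (nat_lit 5) (nat_lit 55) (nat_lit 4) (nat_lit 467) (nat_lit 384) (nat_lit 349)) (XT.lf (nat_lit 0) (nat_lit 16552923474) (nat_lit 152) (nat_lit 4149081873) (nat_lit 0) (nat_lit 4863868243) (nat_lit 53) (nat_lit 5) (nat_lit 55) (nat_lit 4) (nat_lit 53) (nat_lit 4) (nat_lit 468) (nat_lit 384) (nat_lit 348)))) (XT.nd (nat_lit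 78) (nat_lit 228) (nat_lit 0) (XT.lf (nat_lit 0) (nat_lit 4058145300) (nat_lit 152) (nat_lit 3567181171) (nat_lit 76) (nat_lit 18800771575) (nat_lit 51) (nat_lit 5) (nat_lit 53) (nat_lit 5) (nat_lit 52) (nat_lit 4) (nat_lit 469) (nat_lit 384) (nat_lit 347)) (XT.nd (nat_lit 78) (nat_lit 152) (nat_lit 0) (XT.lf (nat_lit 0) (nat_lit 17763961859) (nat_lit 152) (nat_lit 3362489280) (nat_lit 0) (nat_lit 6195179761) (nat_lit 50) (nat_lit 5) (nat_lit 52) (nat_lit 4) (nat_lit 50) (nat_lit 4) (nat_lit 470) (nat_lit 384) (nat_lit 346)) (XT.lf (nat_lit 0) (nat_lit 4005502691) (nat_lit 152) (nat_lit 3539904218) (nat_lit 76) (nat_lit 20709761739) (nat_lit 48) (nat_lit 5) (nat_lit 50) (nat_lit 5) (nat_lit 49) (nat_lit 4) (nat_lit 471) (nat_lit 384) (nat_lit 345))))) (XT.nd (nat_lit 234) (nat_lit 456) (nat_lit 0) (XT.nd (nat_lit 78) (nat_lit 228) (nat_lit 0) (XT.lf (nat_lit 0) (nat_lit 18231756885) (nat_lit 152)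 (nat_lit 4189278494) (nat_lit 0) (nat_lit 6806032429) (nat_lit 47) (nat_lit 5) (nat_lit 49) (nat_lit 4) (nat_lit 47) (nat_lit 4) (nat_lit 472) (nat_lit 384) (nat_lit 344)) (XT.nd (nat_lit 78) (nat_lit 76) (nat_lit 0) (XT.lf (nat_lit 0) (nat_lit 3060652360) (nat_lit 152) (nat_lit 5302680152) (nat_lit 76) (nat_lit 21877510784) (nat_lit 45) (nat_lit 5) (nat_lit 47) (nat_lit 5) (nat_lit 46) (nat_lit 4) (nat_lit 473) (nat_lit 384) (nat_lit 343)) (XT.lf (nat_lit 0) (nat_lit 17779867752) (nat_lit 152) (nat_lit 7000355917) (nat_lit 0) (nat_lit 6516183372) (nat_lit 44) (nat_lit 5) (nat_lit 46) (nat_lit 4) (nat_lit 44) (nat_lit 4) (nat_lit 474) (nat_lit 384) (nat_lit 342)))) (XT.nd (nat_lit 156) (nat_lit 228) (nat_lit 0) (XT.nd (nat_lit 78) (nat_lit 76) (nat_lit 0) (XT.lf (nat_lit 0) (nat_lit 1025464752) (nat_lit 152) (nat_lit 9261316373) (nat_lit 76) (nat_lit 22111388207) (nat_lit 42) (nat_lit 5) (nat_lit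 44) (nat_lit 5) (nat_lit 43) (nat_lit 4) (nat_lit 475) (nat_lit 384) (nat_lit 341)) (XT.lf (nat_lit 0) (nat_lit 16196043405) (nat_lit 152) (nat_lit 12239467011) (nat_lit 0) (nat_lit 5110064899) (nat_lit 41) (nat_lit 5) (nat_lit 43) (nat_lit 4) (nat_lit 41) (nat_lit 4) (nat_lit 476) (nat_lit 384) (nat_lit 340))) (XT.nd (nat_lit 78) (nat_lit 152) (nat_lit 0) (XT.lf (nat_lit 0) (nat_lit 18819645612) (nat_lit 76) (nat_lit 13539756348) (nat_lit 76) (nat_lit 2383922973) (nat_lit 40) (nat_lit 4) (nat_lit 41) (nat_lit 5) (nat_lit 41) (nat_lit 4) (nat_lit 477) (nat_lit 384) (nat_lit 339)) (XT.lf (nat_lit 0) (nat_lit 13225799019) (nat_lit 152) (nat_lit 20436339185) (nat_lit 0) (nat_lit 2330302105) (nat_lit 38) (nat_lit 5) (nat_lit 40) (nat_lit 4) (nat_lit 38) (nat_lit 4) (nat_lit 478) (nat_lit 384) (nat_lit 338)))))) (XT.nd (nat_lit 546) (nat_lit 532) (nat_lit 0) (XT.nd (nat_lit 234) (nat_lit 380) (nat_lit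 0) (XT.nd (nat_lit 78) (nat_lit 228) (nat_lit 0) (XT.lf (nat_lit 0) (nat_lit 11424123450) (nat_lit 76) (nat_lit 18414024617) (nat_lit 76) (nat_lit 7457012728) (nat_lit 37) (nat_lit 4) (nat_lit 38) (nat_lit 5) (nat_lit 38) (nat_lit 4) (nat_lit 479) (nat_lit 384) (nat_lit 337)) (XT.nd (nat_lit 78) (nat_lit 76) (nat_lit 0) (XT.lf (nat_lit 0) (nat_lit 6413467429) (nat_lit 76) (nat_lit 2172278880) (nat_lit 152) (nat_lit 30070711853) (nat_lit 35) (nat_lit 5) (nat_lit 36) (nat_lit 5) (nat_lit 37) (nat_lit 4) (nat_lit 480) (nat_lit 384) (nat_lit 336)) (XT.lf (nat_lit 0) (nat_lit 290104214) (nat_lit 76) (nat_lit 25267003499) (nat_lit 76) (nat_lit 14518077794) (nat_lit 34) (nat_lit 4) (nat_lit 35) (nat_lit 5) (nat_lit 35) (nat_lit 4) (nat_lit 481) (nat_lit 384) (nat_lit 335)))) (XT.nd (nat_lit 156) (nat_lit 228) (nat_lit 0) (XT.nd (nat_lit 78) (nat_lit 76) (nat_lit 0) (XT.lf (nat_lit 0) (nat_lit 2001041542)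 (nat_lit 152) (nat_lit 6738402585) (nat_lit 76) (nat_lit 32818156639) (nat_lit 33) (nat_lit 5) (nat_lit 35) (nat_lit 5) (nat_lit 34) (nat_lit 4) (nat_lit 482) (nat_lit 384) (nat_lit 334)) (XT.lf (nat_lit 0) (nat_lit 19278018376) (nat_lit 152) (nat_lit 15080465739) (nat_lit 0) (nat_lit 8744376234) (nat_lit 32) (nat_lit 5) (nat_lit 34) (nat_lit 4) (nat_lit 32) (nat_lit 4) (nat_lit 483) (nat_lit 384) (nat_lit 333))) (XT.nd (nat_lit 78) (nat_lit 152) (nat_lit 0) (XT.lf (nat_lit 0) (nat_lit 19992760677) (nat_lit 76) (nat_lit 17652452825) (nat_lit 76) (nat_lit 7073378887) (nat_lit 31) (nat_lit 4) (nat_lit 32) (nat_lit 5) (nat_lit 32) (nat_lit 4) (nat_lit 484) (nat_lit 384) (nat_lit 332)) (XT.lf (nat_lit 0) (nat_lit 10448654487) (nat_lit 152) (nat_lit 35823577929) (nat_lit 0) (nat_lit 135700783) (nat_lit 29) (nat_lit 5) (nat_lit 31) (nat_lit 4) (nat_lit 29) (nat_lit 4) (nat_lit 485) (nat_lit 384) (nat_lit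 331))))) (XT.nd (nat_lit 234) (nat_lit 304) (nat_lit 0) (XT.nd (nat_lit 78) (nat_lit 228) (nat_lit 0) (XT.lf (nat_lit 0) (nat_lit 29017813700) (nat_lit 152) (nat_lit 487455217) (nat_lit 0) (nat_lit 18664852249) (nat_lit 29) (nat_lit 5) (nat_lit 31) (nat_lit 4) (nat_lit 29) (nat_lit 4) (nat_lit 486) (nat_lit 384) (nat_lit 330)) (XT.nd (nat_lit 78) (nat_lit 152) (nat_lit 0) (XT.lf (nat_lit 0) (nat_lit 37113001070) (nat_lit 76) (nat_lit 11645593544) (nat_lit 76) (nat_lit 1254529477) (nat_lit 28) (nat_lit 4) (nat_lit 29) (nat_lit 5) (nat_lit 29) (nat_lit 4) (nat_lit 487) (nat_lit 384) (nat_lit 329)) (XT.lf (nat_lit 0) (nat_lit 17398795947) (nat_lit 152) (nat_lit 27263184343) (nat_lit 0) (nat_lit 7275152965) (nat_lit 26) (nat_lit 5) (nat_lit 28) (nat_lit 4) (nat_lit 26) (nat_lit 4) (nat_lit 488) (nat_lit 384) (nat_lit 328)))) (XT.nd (nat_lit 156) (nat_lit 152) (nat_lit 0) (XT.nd (nat_lit 78) (nat_lit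 76) (nat_lit 0) (XT.lf (nat_lit 0) (nat_lit 10294061636) (nat_lit 76) (nat_lit 26906428082) (nat_lit 76) (nat_lit 16749231512) (nat_lit 25) (nat_lit 4) (nat_lit 26) (nat_lit 5) (nat_lit 26) (nat_lit 4) (nat_lit 489) (nat_lit 384) (nat_lit 327)) (XT.lf (nat_lit 0) (nat_lit 2068024234) (nat_lit 152) (nat_lit 5991063173) (nat_lit 76) (nat_lit 47998004920) (nat_lit 24) (nat_lit 5) (nat_lit 26) (nat_lit 5) (nat_lit 25) (nat_lit 4) (nat_lit 490) (nat_lit 384) (nat_lit 326))) (XT.nd (nat_lit 78) (nat_lit 76) (nat_lit 0) (XT.lf (nat_lit 0) (nat_lit 21822984415) (nat_lit 152) (nat_lit 24530519854) (nat_lit 0) (nat_lit 11901055811) (nat_lit 23) (nat_lit 5) (nat_lit 25) (nat_lit 4) (nat_lit 23) (nat_lit 4) (nat_lit 491) (nat_lit 384) (nat_lit 325)) (XT.lf (nat_lit 0) (nat_lit 15000720200) (nat_lit 76) (nat_lit 27752807772) (nat_lit 76) (nat_lit 17802738537) (nat_lit 22) (nat_lit 4) (nat_lit 23) (nat_lit 5)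 (nat_lit 23) (nat_lit 4) (nat_lit 492) (nat_lit 384) (nat_lit 324))))))))
noncomputable def xc23 : XT := (XT.nd (nat_lit 59046) (nat_lit 0) (nat_lit 2052) (XT.nd (nat_lit 58032) (nat_lit 0) (nat_lit 6232) (XT.nd (nat_lit 468) (nat_lit 76) (nat_lit 0) (XT.nd (nat_lit 234) (nat_lit 152) (nat_lit 0) (XT.nd (nat_lit 78) (nat_lit 152) (nat_lit 0) (XT.lf (nat_lit 0) (nat_lit 1880209748) (nat_lit 152) (nat_lit 6160044047) (nat_lit 76) (nat_lit 54927588992) (nat_lit 21) (nat_lit 5) (nat_lit 23) (nat_lit 5) (nat_lit 22) (nat_lit 4) (nat_lit 493) (nat_lit 384) (nat_lit 323)) (XT.nd (nat_lit 78) (nat_lit 76) (nat_lit 0) (XT.lf (nat_lit 0) (nat_lit 22556646288) (nat_lit 152) (nat_lit 30081154154) (nat_lit 0) (nat_lit 12845583938) (nat_lit 20) (nat_lit 5) (nat_lit 22) (nat_lit 4) (nat_lit 20) (nat_lit 4) (nat_lit 494) (nat_lit 384) (nat_lit 322)) (XT.lf (nat_lit 0) (nat_lit 10997928856) (nat_lit 76) (nat_lit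 33428328582) (nat_lit 76) (nat_lit 23693665324) (nat_lit 19) (nat_lit 4) (nat_lit 20) (nat_lit 5) (nat_lit 20) (nat_lit 4) (nat_lit 495) (nat_lit 384) (nat_lit 321)))) (XT.nd (nat_lit 78) (nat_lit 152) (nat_lit 0) (XT.lf (nat_lit 0) (nat_lit 54581387465) (nat_lit 76) (nat_lit 13028709379) (nat_lit 76) (nat_lit 3271569065) (nat_lit 19) (nat_lit 4) (nat_lit 20) (nat_lit 5) (nat_lit 20) (nat_lit 4) (nat_lit 496) (nat_lit 384) (nat_lit 320)) (XT.nd (nat_lit 78) (nat_lit 0) (nat_lit 0) (XT.lf (nat_lit 0) (nat_lit 18072652976) (nat_lit 152) (nat_lit 47117016749) (nat_lit 0) (nat_lit 8578917992) (nat_lit 17) (nat_lit 5) (nat_lit 19) (nat_lit 4) (nat_lit 17) (nat_lit 4) (nat_lit 497) (nat_lit 384) (nat_lit 319)) (XT.lf (nat_lit 0) (nat_lit 40634167912) (nat_lit 152) (nat_lit 5037544527) (nat_lit 0) (nat_lit 31120639382) (nat_lit 17) (nat_lit 5) (nat_lit 19) (nat_lit 4) (nat_lit 17) (nat_lit 4) (nat_lit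 498) (nat_lit 384) (nat_lit 318))))) (XT.nd (nat_lit 57252) (nat_lit 0) (nat_lit 10032) (XT.nd (nat_lit 57096) (nat_lit 0) (nat_lit 11856) (XT.lf (nat_lit 0) (nat_lit 39761622796) (nat_lit 76) (nat_lit 24864495157) (nat_lit 76) (nat_lit 15332115631) (nat_lit 16) (nat_lit 4) (nat_lit 17) (nat_lit 5) (nat_lit 17) (nat_lit 4) (nat_lit 499) (nat_lit 384) (nat_lit 317)) (XT.nd (nat_lit 78) (nat_lit 684) (nat_lit 0) (XT.lf (nat_lit 0) (nat_lit 3964976541) (nat_lit 304) (nat_lit 290058611) (nat_lit 304) (nat_lit 290058611) (nat_lit 181) (nat_lit 4) (nat_lit 185) (nat_lit 5) (nat_lit 185) (nat_lit 4) (nat_lit 430) (nat_lit 385) (nat_lit 385)) (XT.lf (nat_lit 0) (nat_lit 3020438737) (nat_lit 304) (nat_lit 3845390004) (nat_lit 304) (nat_lit 2409380121) (nat_lit 172) (nat_lit 4) (nat_lit 176) (nat_lit 5) (nat_lit 176) (nat_lit 4) (nat_lit 431) (nat_lit 385) (nat_lit 384)))) (XT.nd (nat_lit 156) (nat_lit 836)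 (nat_lit 0) (XT.nd (nat_lit 78) (nat_lit 608) (nat_lit 0) (XT.lf (nat_lit 0) (nat_lit 5030299989) (nat_lit 380) (nat_lit 2131332231) (nat_lit 0) (nat_lit 2308321016) (nat_lit 167) (nat_lit 5) (nat_lit 172) (nat_lit 4) (nat_lit 167) (nat_lit 4) (nat_lit 432) (nat_lit 385) (nat_lit 383)) (XT.lf (nat_lit 0) (nat_lit 2131822642) (nat_lit 228) (nat_lit 882151703) (nat_lit 304) (nat_lit 6660168417) (nat_lit 159) (nat_lit 5) (nat_lit 162) (nat_lit 5) (nat_lit 163) (nat_lit 4) (nat_lit 433) (nat_lit 385) (nat_lit 382))) (XT.nd (nat_lit 78) (nat_lit 456) (nat_lit 0) (XT.lf (nat_lit 0) (nat_lit 825830884) (nat_lit 380) (nat_lit 3363266356) (nat_lit 76) (nat_lit 5698449638) (nat_lit 154) (nat_lit 5) (nat_lit 159) (nat_lit 5) (nat_lit 155) (nat_lit 4) (nat_lit 434) (nat_lit 385) (nat_lit 381)) (XT.lf (nat_lit 0) (nat_lit 920336369) (nat_lit 228) (nat_lit 7582381059) (nat_lit 228) (nat_lit 1608308988) (nat_lit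 148) (nat_lit 4) (nat_lit 151) (nat_lit 5) (nat_lit 151) (nat_lit 4) (nat_lit 435) (nat_lit 385) (nat_lit 380)))))) (XT.nd (nat_lit 468) (nat_lit 1748) (nat_lit 0) (XT.nd (nat_lit 234) (nat_lit 912) (nat_lit 0) (XT.nd (nat_lit 78) (nat_lit 836) (nat_lit 0) (XT.lf (nat_lit 0) (nat_lit 5359877388) (nat_lit 228) (nat_lit 730576948) (nat_lit 304) (nat_lit 4253624385) (nat_lit 144) (nat_lit 5) (nat_lit 147) (nat_lit 5) (nat_lit 148) (nat_lit 4) (nat_lit 436) (nat_lit 385) (nat_lit 379)) (XT.nd (nat_lit 78) (nat_lit 532) (nat_lit 0) (XT.lf (nat_lit 0) (nat_lit 3470038138) (nat_lit 304) (nat_lit 707653374) (nat_lit 76) (nat_lit 6409998133) (nat_lit 140) (nat_lit 5) (nat_lit 144) (nat_lit 5) (nat_lit 141) (nat_lit 4) (nat_lit 437) (nat_lit 385) (nat_lit 378)) (XT.lf (nat_lit 0) (nat_lit 642461977) (nat_lit 304) (nat_lit 7102182940) (nat_lit 76) (nat_lit 3097232608) (nat_lit 133) (nat_lit 5) (nat_lit 137)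 (nat_lit 5) (nat_lit 134) (nat_lit 4) (nat_lit 438) (nat_lit 385) (nat_lit 377)))) (XT.nd (nat_lit 78) (nat_lit 760) (nat_lit 0) (XT.lf (nat_lit 0) (nat_lit 8276110754) (nat_lit 152) (nat_lit 354875651) (nat_lit 228) (nat_lit 2476056036) (nat_lit 131) (nat_lit 5) (nat_lit 133) (nat_lit 5) (nat_lit 134) (nat_lit 4) (nat_lit 439) (nat_lit 385) (nat_lit 376)) (XT.nd (nat_lit 78) (nat_lit 304) (nat_lit 0) (XT.lf (nat_lit 0) (nat_lit 1523318582) (nat_lit 152) (nat_lit 4030412516) (nat_lit 228) (nat_lit 5829213577) (nat_lit 125) (nat_lit 5) (nat_lit 127) (nat_lit 5) (nat_lit 128) (nat_lit 4) (nat_lit 440) (nat_lit 385) (nat_lit 375)) (XT.lf (nat_lit 0) (nat_lit 2237213993) (nat_lit 304) (nat_lit 5642018238) (nat_lit 76) (nat_lit 3791446881) (nat_lit 121) (nat_lit 5) (nat_lit 125) (nat_lit 5) (nat_lit 122) (nat_lit 4) (nat_lit 441) (nat_lit 385) (nat_lit 374))))) (XT.nd (nat_lit 234) (nat_lit 912) (nat_lit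 0) (XT.nd (nat_lit 78) (nat_lit 684) (nat_lit 0) (XT.lf (nat_lit 0) (nat_lit 10584331072) (nat_lit 228) (nat_lit 1352223275) (nat_lit 0) (nat_lit 34584919) (nat_lit 119) (nat_lit 5) (nat_lit 122) (nat_lit 4) (nat_lit 119) (nat_lit 4) (nat_lit 442) (nat_lit 385) (nat_lit 373)) (XT.nd (nat_lit 78) (nat_lit 228) (nat_lit 0) (XT.lf (nat_lit 0) (nat_lit 3021908603) (nat_lit 152) (nat_lit 3974586644) (nat_lit 228) (nat_lit 5285934517) (nat_lit 113) (nat_lit 5) (nat_lit 115) (nat_lit 5) (nat_lit 116) (nat_lit 4) (nat_lit 443) (nat_lit 385) (nat_lit 372)) (XT.lf (nat_lit 0) (nat_lit 3124416538) (nat_lit 228) (nat_lit 5096413794) (nat_lit 76) (nat_lit 4386396941) (nat_lit 110) (nat_lit 5) (nat_lit 113) (nat_lit 5) (nat_lit 111) (nat_lit 4) (nat_lit 444) (nat_lit 385) (nat_lit 371)))) (XT.nd (nat_lit 156) (nat_lit 380) (nat_lit 0) (XT.nd (nat_lit 78) (nat_lit 380) (nat_lit 0) (XT.lf (nat_lit 0) (nat_lit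 11863402696) (nat_lit 228) (nat_lit 864856258) (nat_lit 0) (nat_lit 217919137) (nat_lit 108) (nat_lit 5) (nat_lit 111) (nat_lit 4) (nat_lit 108) (nat_lit 4) (nat_lit 445) (nat_lit 385) (nat_lit 370)) (XT.lf (nat_lit 0) (nat_lit 3439583029) (nat_lit 152) (nat_lit 4244676068) (nat_lit 228) (nat_lit 5612652893) (nat_lit 103) (nat_lit 5) (nat_lit 105) (nat_lit 5) (nat_lit 106) (nat_lit 4) (nat_lit 446) (nat_lit 385) (nat_lit 369))) (XT.nd (nat_lit 78) (nat_lit 152) (nat_lit 0) (XT.lf (nat_lit 0) (nat_lit 3180225683) (nat_lit 228) (nat_lit 5824692455) (nat_lit 76) (nat_lit 4657815290) (nat_lit 100) (nat_lit 5) (nat_lit 103) (nat_lit 5) (nat_lit 101) (nat_lit 4) (nat_lit 447) (nat_lit 385) (nat_lit 368)) (XT.lf (nat_lit 0) (nat_lit 12302084750) (nat_lit 152) (nat_lit 30551363) (nat_lit 228) (nat_lit 1711469150) (nat_lit 98) (nat_lit 5) (nat_lit 100) (nat_lit 5) (nat_lit 101) (nat_lit 4) (nat_lit 448)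 (nat_lit 385) (nat_lit 367))))))) (XT.nd (nat_lit 1014) (nat_lit 1672) (nat_lit 0) (XT.nd (nat_lit 468) (nat_lit 1216) (nat_lit 0) (XT.nd (nat_lit 234) (nat_lit 608) (nat_lit 0) (XT.nd (nat_lit 78) (nat_lit 304) (nat_lit 0) (XT.lf (nat_lit 0) (nat_lit 2372638320) (nat_lit 152) (nat_lit 5092112198) (nat_lit 228) (nat_lit 6974249571) (nat_lit 93) (nat_lit 5) (nat_lit 95) (nat_lit 5) (nat_lit 96) (nat_lit 4) (nat_lit 449) (nat_lit 385) (nat_lit 366)) (XT.nd (nat_lit 78) (nat_lit 76) (nat_lit 0) (XT.lf (nat_lit 0) (nat_lit 2232804191) (nat_lit 228) (nat_lit 8262925840) (nat_lit 76) (nat_lit 4354827249) (nat_lit 90) (nat_lit 5) (nat_lit 93) (nat_lit 5) (nat_lit 91) (nat_lit 4) (nat_lit 450) (nat_lit 385) (nat_lit 365)) (XT.lf (nat_lit 0) (nat_lit 10827077408) (nat_lit 76) (nat_lit 991217277) (nat_lit 152) (nat_lit 3460460846) (nat_lit 89) (nat_lit 5) (nat_lit 90) (nat_lit 5) (nat_lit 91) (nat_lit 4)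 (nat_lit 451) (nat_lit 385) (nat_lit 364)))) (XT.nd (nat_lit 78) (nat_lit 380) (nat_lit 0) (XT.lf (nat_lit 0) (nat_lit 6138258740) (nat_lit 228) (nat_lit 660746039) (nat_lit 76) (nat_lit 8924478239) (nat_lit 86) (nat_lit 5) (nat_lit 89) (nat_lit 5) (nat_lit 87) (nat_lit 4) (nat_lit 452) (nat_lit 385) (nat_lit 363)) (XT.nd (nat_lit 78) (nat_lit 76) (nat_lit 0) (XT.lf (nat_lit 0) (nat_lit 52562896) (nat_lit 228) (nat_lit 12947621472) (nat_lit 76) (nat_lit 3186377889) (nat_lit 82) (nat_lit 5) (nat_lit 85) (nat_lit 5) (nat_lit 83) (nat_lit 4) (nat_lit 453) (nat_lit 385) (nat_lit 362)) (XT.lf (nat_lit 0) (nat_lit 7104537241) (nat_lit 76) (nat_lit 2973761778) (nat_lit 152) (nat_lit 6588524047) (nat_lit 81) (nat_lit 5) (nat_lit 82) (nat_lit 5) (nat_lit 83) (nat_lit 4) (nat_lit 454) (nat_lit 385) (nat_lit 361))))) (XT.nd (nat_lit 234) (nat_lit 608) (nat_lit 0) (XT.nd (nat_lit 78) (nat_lit 380) (nat_lit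 0) (XT.lf (nat_lit 0) (nat_lit 3474058709) (nat_lit 228) (nat_lit 6190578871) (nat_lit 76) (nat_lit 7502266877) (nat_lit 78) (nat_lit 5) (nat_lit 81) (nat_lit 5) (nat_lit 79) (nat_lit 4) (nat_lit 455) (nat_lit 385) (nat_lit 360)) (XT.nd (nat_lit 78) (nat_lit 304) (nat_lit 0) (XT.lf (nat_lit 0) (nat_lit 13982512682) (nat_lit 152) (nat_lit 2836404532) (nat_lit 0) (nat_lit 868748807) (nat_lit 77) (nat_lit 5) (nat_lit 79) (nat_lit 4) (nat_lit 77) (nat_lit 4) (nat_lit 456) (nat_lit 385) (nat_lit 359)) (XT.lf (nat_lit 0) (nat_lit 442924062) (nat_lit 76) (nat_lit 6355614157) (nat_lit 152) (nat_lit 11429505991) (nat_lit 73) (nat_lit 5) (nat_lit 74) (nat_lit 5) (nat_lit 75) (nat_lit 4) (nat_lit 457) (nat_lit 385) (nat_lit 358)))) (XT.nd (nat_lit 156) (nat_lit 304) (nat_lit 0) (XT.nd (nat_lit 78) (nat_lit 152) (nat_lit 0) (XT.lf (nat_lit 0) (nat_lit 3766287363) (nat_lit 152) (nat_lit 14109635377) (nat_lit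 152) (nat_lit 914666724) (nat_lit 71) (nat_lit 4) (nat_lit 73) (nat_lit 5) (nat_lit 73) (nat_lit 4) (nat_lit 458) (nat_lit 385) (nat_lit 357)) (XT.lf (nat_lit 0) (nat_lit 6988379336) (nat_lit 76) (nat_lit 3060152984) (nat_lit 152) (nat_lit 9326205825) (nat_lit 69) (nat_lit 5) (nat_lit 70) (nat_lit 5) (nat_lit 71) (nat_lit 4) (nat_lit 459) (nat_lit 385) (nat_lit 356))) (XT.nd (nat_lit 78) (nat_lit 76) (nat_lit 0) (XT.lf (nat_lit 0) (nat_lit 1668630982) (nat_lit 228) (nat_lit 9831191320) (nat_lit 76) (nat_lit 8483181174) (nat_lit 66) (nat_lit 5) (nat_lit 69) (nat_lit 5) (nat_lit 67) (nat_lit 4) (nat_lit 460) (nat_lit 385) (nat_lit 355)) (XT.lf (nat_lit 0) (nat_lit 13121931423) (nat_lit 152) (nat_lit 7389474759) (nat_lit 0) (nat_lit 104459945) (nat_lit 65) (nat_lit 5) (nat_lit 67) (nat_lit 4) (nat_lit 65) (nat_lit 4) (nat_lit 461) (nat_lit 385) (nat_lit 354)))))) (XT.nd (nat_lit 546) (nat_lit 760)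 (nat_lit 0) (XT.nd (nat_lit 234) (nat_lit 532) (nat_lit 0) (XT.nd (nat_lit 78) (nat_lit 228) (nat_lit 0) (XT.lf (nat_lit 0) (nat_lit 3983937187) (nat_lit 152) (nat_lit 5105283248) (nat_lit 76) (nat_lit 12184281824) (nat_lit 63) (nat_lit 5) (nat_lit 65) (nat_lit 5) (nat_lit 64) (nat_lit 4) (nat_lit 462) (nat_lit 385) (nat_lit 353)) (XT.nd (nat_lit 78) (nat_lit 152) (nat_lit 0) (XT.lf (nat_lit 0) (nat_lit 15991237670) (nat_lit 152) (nat_lit 2946429522) (nat_lit 0) (nat_lit 3020813457) (nat_lit 62) (nat_lit 5) (nat_lit 64) (nat_lit 4) (nat_lit 62) (nat_lit 4) (nat_lit 463) (nat_lit 385) (nat_lit 352)) (XT.lf (nat_lit 0) (nat_lit 5984693028) (nat_lit 152) (nat_lit 975784189) (nat_lit 76) (nat_lit 15710153802) (nat_lit 60) (nat_lit 5) (nat_lit 62) (nat_lit 5) (nat_lit 61) (nat_lit 4) (nat_lit 464) (nat_lit 385) (nat_lit 351)))) (XT.nd (nat_lit 156) (nat_lit 228) (nat_lit 0) (XT.nd (nat_lit 78) (nat_lit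 152) (nat_lit 0) (XT.lf (nat_lit 0) (nat_lit 836150937) (nat_lit 76) (nat_lit 17730445869) (nat_lit 76) (nat_lit 4845347937) (nat_lit 58) (nat_lit 4) (nat_lit 59) (nat_lit 5) (nat_lit 59) (nat_lit 4) (nat_lit 465) (nat_lit 385) (nat_lit 350)) (XT.lf (nat_lit 0) (nat_lit 2436795263) (nat_lit 76) (nat_lit 5177864782) (nat_lit 152) (nat_lit 16568214432) (nat_lit 56) (nat_lit 5) (nat_lit 57) (nat_lit 5) (nat_lit 58) (nat_lit 4) (nat_lit 466) (nat_lit 385) (nat_lit 349))) (XT.nd (nat_lit 78) (nat_lit 152) (nat_lit 0) (XT.lf (nat_lit 0) (nat_lit 3798280277) (nat_lit 76) (nat_lit 16977314964) (nat_lit 76) (nat_lit 4209973717) (nat_lit 55) (nat_lit 4) (nat_lit 56) (nat_lit 5) (nat_lit 56) (nat_lit 4) (nat_lit 467) (nat_lit 385) (nat_lit 348)) (XT.lf (nat_lit 0) (nat_lit 4881241510) (nat_lit 76) (nat_lit 3871580402) (nat_lit 152) (nat_lit 17068318635) (nat_lit 53) (nat_lit 5) (nat_lit 54) (nat_lit 5) (nat_lit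 55) (nat_lit 4) (nat_lit 468) (nat_lit 385) (nat_lit 347))))) (XT.nd (nat_lit 234) (nat_lit 456) (nat_lit 0) (XT.nd (nat_lit 78) (nat_lit 228) (nat_lit 0) (XT.lf (nat_lit 0) (nat_lit 5652738964) (nat_lit 76) (nat_lit 16830289848) (nat_lit 76) (nat_lit 4208022580) (nat_lit 52) (nat_lit 4) (nat_lit 53) (nat_lit 5) (nat_lit 53) (nat_lit 4) (nat_lit 469) (nat_lit 385) (nat_lit 346)) (XT.nd (nat_lit 78) (nat_lit 76) (nat_lit 0) (XT.lf (nat_lit 0) (nat_lit 6086984540) (nat_lit 76) (nat_lit 3181297809) (nat_lit 152) (nat_lit 18328864776) (nat_lit 50) (nat_lit 5) (nat_lit 51) (nat_lit 5) (nat_lit 52) (nat_lit 4) (nat_lit 470) (nat_lit 385) (nat_lit 345)) (XT.lf (nat_lit 0) (nat_lit 6123815921) (nat_lit 76) (nat_lit 17435493732) (nat_lit 76) (nat_lit 4981151225) (nat_lit 49) (nat_lit 4) (nat_lit 50) (nat_lit 5) (nat_lit 50) (nat_lit 4) (nat_lit 471) (nat_lit 385) (nat_lit 344)))) (XT.nd (nat_lit 156) (nat_lit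 228) (nat_lit 0) (XT.nd (nat_lit 78) (nat_lit 76) (nat_lit 0) (XT.lf (nat_lit 0) (nat_lit 5751579437) (nat_lit 76) (nat_lit 3262560628) (nat_lit 152) (nat_lit 20509501866) (nat_lit 47) (nat_lit 5) (nat_lit 48) (nat_lit 5) (nat_lit 49) (nat_lit 4) (nat_lit 472) (nat_lit 385) (nat_lit 343)) (XT.lf (nat_lit 0) (nat_lit 4879982787) (nat_lit 76) (nat_lit 18967375242) (nat_lit 76) (nat_lit 6699910120) (nat_lit 46) (nat_lit 4) (nat_lit 47) (nat_lit 5) (nat_lit 47) (nat_lit 4) (nat_lit 473) (nat_lit 385) (nat_lit 342))) (XT.nd (nat_lit 78) (nat_lit 76) (nat_lit 0) (XT.lf (nat_lit 0) (nat_lit 3511871210) (nat_lit 76) (nat_lit 4301449744) (nat_lit 152) (nat_lit 23801545238) (nat_lit 44) (nat_lit 5) (nat_lit 45) (nat_lit 5) (nat_lit 46) (nat_lit 4) (nat_lit 474) (nat_lit 385) (nat_lit 341)) (XT.lf (nat_lit 0) (nat_lit 1523689642) (nat_lit 76) (nat_lit 21633939872) (nat_lit 76) (nat_lit 9568906077) (nat_lit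 43) (nat_lit 4) (nat_lit 44) (nat_lit 5) (nat_lit 44) (nat_lit 4) (nat_lit 475) (nat_lit 385) (nat_lit 340))))))))
noncomputable def xc24 : XT := (XT.nd (nat_lit 58890) (nat_lit 0) (nat_lit 4712) (XT.nd (nat_lit 1014) (nat_lit 760) (nat_lit 0) (XT.nd (nat_lit 468) (nat_lit 608) (nat_lit 0) (XT.nd (nat_lit 234) (nat_lit 304) (nat_lit 0) (XT.nd (nat_lit 78) (nat_lit 228) (nat_lit 0) (XT.lf (nat_lit 0) (nat_lit 5463419699) (nat_lit 152) (nat_lit 1046242319) (nat_lit 76) (nat_lit 27376788743) (nat_lit 42) (nat_lit 5) (nat_lit 44) (nat_lit 5) (nat_lit 43) (nat_lit 4) (nat_lit 476) (nat_lit 385) (nat_lit 339)) (XT.nd (nat_lit 78) (nat_lit 152) (nat_lit 0) (XT.lf (nat_lit 0) (nat_lit 21304756058) (nat_lit 152) (nat_lit 4334357688) (nat_lit 0) (nat_lit 9454747700) (nat_lit 41) (nat_lit 5) (nat_lit 43) (nat_lit 4) (nat_lit 41) (nat_lit 4) (nat_lit 477) (nat_lit 385) (nat_lit 338)) (XT.lf (nat_lit 0) (nat_lit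 1760798443) (nat_lit 152) (nat_lit 8338947943) (nat_lit 76) (nat_lit 26254991047) (nat_lit 39) (nat_lit 5) (nat_lit 41) (nat_lit 5) (nat_lit 40) (nat_lit 4) (nat_lit 478) (nat_lit 385) (nat_lit 337)))) (XT.nd (nat_lit 78) (nat_lit 228) (nat_lit 0) (XT.lf (nat_lit 0) (nat_lit 18018162452) (nat_lit 152) (nat_lit 13256746070) (nat_lit 0) (nat_lit 6393199302) (nat_lit 38) (nat_lit 5) (nat_lit 40) (nat_lit 4) (nat_lit 38) (nat_lit 4) (nat_lit 479) (nat_lit 385) (nat_lit 336)) (XT.nd (nat_lit 78) (nat_lit 152) (nat_lit 0) (XT.lf (nat_lit 0) (nat_lit 19961647923) (nat_lit 76) (nat_lit 15379340369) (nat_lit 76) (nat_lit 3698581323) (nat_lit 37) (nat_lit 4) (nat_lit 38) (nat_lit 5) (nat_lit 38) (nat_lit 4) (nat_lit 480) (nat_lit 385) (nat_lit 335)) (XT.lf (nat_lit 0) (nat_lit 12963349668) (nat_lit 152) (nat_lit 25936246595) (nat_lit 0) (nat_lit 1571215692) (nat_lit 35) (nat_lit 5) (nat_lit 37) (nat_lit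 4) (nat_lit 35) (nat_lit 4) (nat_lit 481) (nat_lit 385) (nat_lit 334))))) (XT.nd (nat_lit 234) (nat_lit 380) (nat_lit 0) (XT.nd (nat_lit 78) (nat_lit 152) (nat_lit 0) (XT.lf (nat_lit 0) (nat_lit 7975212751) (nat_lit 76) (nat_lit 22714667146) (nat_lit 76) (nat_lit 11273398682) (nat_lit 34) (nat_lit 4) (nat_lit 35) (nat_lit 5) (nat_lit 35) (nat_lit 4) (nat_lit 482) (nat_lit 385) (nat_lit 333)) (XT.nd (nat_lit 78) (nat_lit 0) (nat_lit 0) (XT.lf (nat_lit 0) (nat_lit 309868562) (nat_lit 76) (nat_lit 5501920490) (nat_lit 152) (nat_lit 37712353599) (nat_lit 32) (nat_lit 5) (nat_lit 33) (nat_lit 5) (nat_lit 34) (nat_lit 4) (nat_lit 483) (nat_lit 385) (nat_lit 332)) (XT.lf (nat_lit 0) (nat_lit 23876271328) (nat_lit 152) (nat_lit 8593141491) (nat_lit 0) (nat_lit 12679543519) (nat_lit 32) (nat_lit 5) (nat_lit 34) (nat_lit 4) (nat_lit 32) (nat_lit 4) (nat_lit 484) (nat_lit 385) (nat_lit 331)))) (XT.nd (nat_lit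 156) (nat_lit 152) (nat_lit 0) (XT.nd (nat_lit 78) (nat_lit 152) (nat_lit 0) (XT.lf (nat_lit 0) (nat_lit 28026174472) (nat_lit 76) (nat_lit 15030200312) (nat_lit 76) (nat_lit 3792264524) (nat_lit 31) (nat_lit 4) (nat_lit 32) (nat_lit 5) (nat_lit 32) (nat_lit 4) (nat_lit 485) (nat_lit 385) (nat_lit 330)) (XT.lf (nat_lit 0) (nat_lit 14464645578) (nat_lit 152) (nat_lit 30642937336) (nat_lit 0) (nat_lit 3515925693) (nat_lit 29) (nat_lit 5) (nat_lit 31) (nat_lit 4) (nat_lit 29) (nat_lit 4) (nat_lit 486) (nat_lit 385) (nat_lit 329))) (XT.nd (nat_lit 78) (nat_lit 76) (nat_lit 0) (XT.lf (nat_lit 0) (nat_lit 6249959325) (nat_lit 76) (nat_lit 27606021937) (nat_lit 76) (nat_lit 16621013846) (nat_lit 28) (nat_lit 4) (nat_lit 29) (nat_lit 5) (nat_lit 29) (nat_lit 4) (nat_lit 487) (nat_lit 385) (nat_lit 328)) (XT.lf (nat_lit 0) (nat_lit 1971205996) (nat_lit 152) (nat_lit 7018020113) (nat_lit 76) (nat_lit 43427038558)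 (nat_lit 27) (nat_lit 5) (nat_lit 29) (nat_lit 5) (nat_lit 28) (nat_lit 4) (nat_lit 488) (nat_lit 385) (nat_lit 327)))))) (XT.nd (nat_lit 468) (nat_lit 304) (nat_lit 0) (XT.nd (nat_lit 234) (nat_lit 228) (nat_lit 0) (XT.nd (nat_lit 78) (nat_lit 152) (nat_lit 0) (XT.lf (nat_lit 0) (nat_lit 21467320734) (nat_lit 152) (nat_lit 22233944523) (nat_lit 0) (nat_lit 10736754949) (nat_lit 26) (nat_lit 5) (nat_lit 28) (nat_lit 4) (nat_lit 26) (nat_lit 4) (nat_lit 489) (nat_lit 385) (nat_lit 326)) (XT.nd (nat_lit 78) (nat_lit 76) (nat_lit 0) (XT.lf (nat_lit 0) (nat_lit 17017926921) (nat_lit 76) (nat_lit 25148544968) (nat_lit 76) (nat_lit 14387545090) (nat_lit 25) (nat_lit 4) (nat_lit 26) (nat_lit 5) (nat_lit 26) (nat_lit 4) (nat_lit 490) (nat_lit 385) (nat_lit 325)) (XT.lf (nat_lit 0) (nat_lit 5158778871) (nat_lit 152) (nat_lit 317663619) (nat_lit 76) (nat_lit 53293873140) (nat_lit 24) (nat_lit 5) (nat_lit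 26) (nat_lit 5) (nat_lit 25) (nat_lit 4) (nat_lit 491) (nat_lit 385) (nat_lit 324)))) (XT.nd (nat_lit 78) (nat_lit 152) (nat_lit 0) (XT.lf (nat_lit 0) (nat_lit 25842886949) (nat_lit 152) (nat_lit 19896155319) (nat_lit 0) (nat_lit 15340373018) (nat_lit 23) (nat_lit 5) (nat_lit 25) (nat_lit 4) (nat_lit 23) (nat_lit 4) (nat_lit 492) (nat_lit 385) (nat_lit 323)) (XT.nd (nat_lit 78) (nat_lit 76) (nat_lit 0) (XT.lf (nat_lit 0) (nat_lit 21443645487) (nat_lit 76) (nat_lit 26291571287) (nat_lit 76) (nat_lit 15763532974) (nat_lit 22) (nat_lit 4) (nat_lit 23) (nat_lit 5) (nat_lit 23) (nat_lit 4) (nat_lit 493) (nat_lit 385) (nat_lit 322)) (XT.lf (nat_lit 0) (nat_lit 4709630204) (nat_lit 152) (nat_lit 991797934) (nat_lit 76) (nat_lit 60332735508) (nat_lit 21) (nat_lit 5) (nat_lit 23) (nat_lit 5) (nat_lit 22) (nat_lit 4) (nat_lit 494) (nat_lit 385) (nat_lit 321))))) (XT.nd (nat_lit 234) (nat_lit 152) (nat_lit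 0) (XT.nd (nat_lit 78) (nat_lit 76) (nat_lit 0) (XT.lf (nat_lit 0) (nat_lit 26366361330) (nat_lit 152) (nat_lit 26211840290) (nat_lit 0) (nat_lit 16098886944) (nat_lit 20) (nat_lit 5) (nat_lit 22) (nat_lit 4) (nat_lit 20) (nat_lit 4) (nat_lit 495) (nat_lit 385) (nat_lit 320)) (XT.nd (nat_lit 78) (nat_lit 0) (nat_lit 0) (XT.lf (nat_lit 0) (nat_lit 16767170254) (nat_lit 76) (nat_lit 32484745619) (nat_lit 76) (nat_lit 22195864513) (nat_lit 19) (nat_lit 4) (nat_lit 20) (nat_lit 5) (nat_lit 20) (nat_lit 4) (nat_lit 496) (nat_lit 385) (nat_lit 319)) (XT.lf (nat_lit 0) (nat_lit 62281261557) (nat_lit 76) (nat_lit 11189669237) (nat_lit 76) (nat_lit 880400779) (nat_lit 19) (nat_lit 4) (nat_lit 20) (nat_lit 5) (nat_lit 20) (nat_lit 4) (nat_lit 497) (nat_lit 385) (nat_lit 318)))) (XT.nd (nat_lit 57018) (nat_lit 0) (nat_lit 12768) (XT.nd (nat_lit 78) (nat_lit 0) (nat_lit 0) (XT.lf (nat_lit 0) (nat_lit 21432273340)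 (nat_lit 152) (nat_lit 44546633116) (nat_lit 0) (nat_lit 11404423841) (nat_lit 17) (nat_lit 5) (nat_lit 19) (nat_lit 4) (nat_lit 17) (nat_lit 4) (nat_lit 498) (nat_lit 385) (nat_lit 317)) (XT.lf (nat_lit 0) (nat_lit 45004912227) (nat_lit 152) (nat_lit 597769876) (nat_lit 0) (nat_lit 34959109399) (nat_lit 17) (nat_lit 5) (nat_lit 19) (nat_lit 4) (nat_lit 17) (nat_lit 4) (nat_lit 499) (nat_lit 385) (nat_lit 316))) (XT.nd (nat_lit 78) (nat_lit 760) (nat_lit 0) (XT.lf (nat_lit 0) (nat_lit 2135630310) (nat_lit 380) (nat_lit 99299718) (nat_lit 0) (nat_lit 2135630310) (nat_lit 195) (nat_lit 5) (nat_lit 200) (nat_lit 4) (nat_lit 195) (nat_lit 4) (nat_lit 428) (nat_lit 386) (nat_lit 386)) (XT.lf (nat_lit 0) (nat_lit 2629332751) (nat_lit 380) (nat_lit 5207474188) (nat_lit 0) (nat_lit 1076288062) (nat_lit 185) (nat_lit 5) (nat_lit 190) (nat_lit 4) (nat_lit 185) (nat_lit 4) (nat_lit 429) (nat_lit 386) (nat_lit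 385))))))) (XT.nd (nat_lit 1014) (nat_lit 3040) (nat_lit 0) (XT.nd (nat_lit 468) (nat_lit 2432) (nat_lit 0) (XT.nd (nat_lit 234) (nat_lit 1216) (nat_lit 0) (XT.nd (nat_lit 78) (nat_lit 988) (nat_lit 0) (XT.lf (nat_lit 0) (nat_lit 812237914) (nat_lit 380) (nat_lit 1383291900) (nat_lit 76) (nat_lit 6898636938) (nat_lit 180) (nat_lit 5) (nat_lit 185) (nat_lit 5) (nat_lit 181) (nat_lit 4) (nat_lit 430) (nat_lit 386) (nat_lit 384)) (XT.nd (nat_lit 78) (nat_lit 380) (nat_lit 0) (XT.lf (nat_lit 0) (nat_lit 2579244264) (nat_lit 304) (nat_lit 5508010881) (nat_lit 304) (nat_lit 1196562161) (nat_lit 172) (nat_lit 4) (nat_lit 176) (nat_lit 5) (nat_lit 176) (nat_lit 4) (nat_lit 431) (nat_lit 386) (nat_lit 383)) (XT.lf (nat_lit 0) (nat_lit 6061883392) (nat_lit 380) (nat_lit 2809618670) (nat_lit 0) (nat_lit 611444542) (nat_lit 167) (nat_lit 5) (nat_lit 172) (nat_lit 4) (nat_lit 167) (nat_lit 4) (nat_lit 432)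 (nat_lit 386) (nat_lit 382)))) (XT.nd (nat_lit 78) (nat_lit 608) (nat_lit 0) (XT.lf (nat_lit 0) (nat_lit 1187018756) (nat_lit 228) (nat_lit 2675940095) (nat_lit 304) (nat_lit 5828382474) (nat_lit 159) (nat_lit 5) (nat_lit 162) (nat_lit 5) (nat_lit 163) (nat_lit 4) (nat_lit 433) (nat_lit 386) (nat_lit 381)) (XT.nd (nat_lit 78) (nat_lit 228) (nat_lit 0) (XT.lf (nat_lit 0) (nat_lit 1480993458) (nat_lit 380) (nat_lit 4568133404) (nat_lit 76) (nat_lit 3860197001) (nat_lit 154) (nat_lit 5) (nat_lit 159) (nat_lit 5) (nat_lit 155) (nat_lit 4) (nat_lit 434) (nat_lit 386) (nat_lit 380)) (XT.lf (nat_lit 0) (nat_lit 8989179585) (nat_lit 304) (nat_lit 543116467) (nat_lit 0) (nat_lit 605574579) (nat_lit 151) (nat_lit 5) (nat_lit 155) (nat_lit 4) (nat_lit 151) (nat_lit 4) (nat_lit 435) (nat_lit 386) (nat_lit 379))))) (XT.nd (nat_lit 234) (nat_lit 1064) (nat_lit 0) (XT.nd (nat_lit 78) (nat_lit 836) (nat_lit 0)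 (XT.lf (nat_lit 0) (nat_lit 3611166213) (nat_lit 228) (nat_lit 2780662369) (nat_lit 304) (nat_lit 3983445803) (nat_lit 144) (nat_lit 5) (nat_lit 147) (nat_lit 5) (nat_lit 148) (nat_lit 4) (nat_lit 436) (nat_lit 386) (nat_lit 378)) (XT.nd (nat_lit 78) (nat_lit 532) (nat_lit 0) (XT.lf (nat_lit 0) (nat_lit 3570589961) (nat_lit 304) (nat_lit 2749944546) (nat_lit 76) (nat_lit 4303208841) (nat_lit 140) (nat_lit 5) (nat_lit 144) (nat_lit 5) (nat_lit 141) (nat_lit 4) (nat_lit 437) (nat_lit 386) (nat_lit 377)) (XT.lf (nat_lit 0) (nat_lit 516632345) (nat_lit 304) (nat_lit 9496678464) (nat_lit 76) (nat_lit 870278807) (nat_lit 133) (nat_lit 5) (nat_lit 137) (nat_lit 5) (nat_lit 134) (nat_lit 4) (nat_lit 438) (nat_lit 386) (nat_lit 376)))) (XT.nd (nat_lit 156) (nat_lit 608) (nat_lit 0) (XT.nd (nat_lit 78) (nat_lit 304) (nat_lit 0) (XT.lf (nat_lit 0) (nat_lit 5624129209) (nat_lit 152) (nat_lit 2734520002) (nat_lit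 228) (nat_lit 2794505226) (nat_lit 131) (nat_lit 5) (nat_lit 133) (nat_lit 5) (nat_lit 134) (nat_lit 4) (nat_lit 439) (nat_lit 386) (nat_lit 375)) (XT.lf (nat_lit 0) (nat_lit 5056118506) (nat_lit 304) (nat_lit 1487916409) (nat_lit 76) (nat_lit 4890679243) (nat_lit 127) (nat_lit 5) (nat_lit 131) (nat_lit 5) (nat_lit 128) (nat_lit 4) (nat_lit 440) (nat_lit 386) (nat_lit 374))) (XT.nd (nat_lit 78) (nat_lit 152) (nat_lit 0) (XT.lf (nat_lit 0) (nat_lit 1507526162) (nat_lit 304) (nat_lit 9031948244) (nat_lit 76) (nat_lit 1188867404) (nat_lit 121) (nat_lit 5) (nat_lit 125) (nat_lit 5) (nat_lit 122) (nat_lit 4) (nat_lit 441) (nat_lit 386) (nat_lit 373)) (XT.lf (nat_lit 0) (nat_lit 6955719250) (nat_lit 152) (nat_lit 2747784750) (nat_lit 228) (nat_lit 2329835953) (nat_lit 119) (nat_lit 5) (nat_lit 121) (nat_lit 5) (nat_lit 122) (nat_lit 4) (nat_lit 442) (nat_lit 386) (nat_lit 372)))))) (XT.nd (nat_lit 468)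 (nat_lit 1444) (nat_lit 0) (XT.nd (nat_lit 234) (nat_lit 760) (nat_lit 0) (XT.nd (nat_lit 78) (nat_lit 532) (nat_lit 0) (XT.lf (nat_lit 0) (nat_lit 5863654902) (nat_lit 304) (nat_lit 1069208731) (nat_lit 76) (nat_lit 5418288723) (nat_lit 115) (nat_lit 5) (nat_lit 119) (nat_lit 5) (nat_lit 116) (nat_lit 4) (nat_lit 443) (nat_lit 386) (nat_lit 371)) (XT.nd (nat_lit 78) (nat_lit 152) (nat_lit 0) (XT.lf (nat_lit 0) (nat_lit 1749550220) (nat_lit 228) (nat_lit 9598872221) (nat_lit 76) (nat_lit 1333779692) (nat_lit 110) (nat_lit 5) (nat_lit 113) (nat_lit 5) (nat_lit 111) (nat_lit 4) (nat_lit 444) (nat_lit 386) (nat_lit 370)) (XT.lf (nat_lit 0) (nat_lit 7289283054) (nat_lit 152) (nat_lit 3040343045) (nat_lit 228) (nat_lit 2696297263) (nat_lit 108) (nat_lit 5) (nat_lit 110) (nat_lit 5) (nat_lit 111) (nat_lit 4) (nat_lit 445) (nat_lit 386) (nat_lit 369)))) (XT.nd (nat_lit 78) (nat_lit 532) (nat_lit 0) (XT.lf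 (nat_lit 0) (nat_lit 5880606733) (nat_lit 228) (nat_lit 1833287966) (nat_lit 76) (nat_lit 5669879218) (nat_lit 105) (nat_lit 5) (nat_lit 108) (nat_lit 5) (nat_lit 106) (nat_lit 4) (nat_lit 446) (nat_lit 386) (nat_lit 368)) (XT.nd (nat_lit 78) (nat_lit 152) (nat_lit 0) (XT.lf (nat_lit 0) (nat_lit 1109936319) (nat_lit 228) (nat_lit 11569270131) (nat_lit 76) (nat_lit 1077436716) (nat_lit 100) (nat_lit 5) (nat_lit 103) (nat_lit 5) (nat_lit 101) (nat_lit 4) (nat_lit 447) (nat_lit 386) (nat_lit 367)) (XT.lf (nat_lit 0) (nat_lit 6245195503) (nat_lit 152) (nat_lit 3852685871) (nat_lit 228) (nat_lit 4045070116) (nat_lit 98) (nat_lit 5) (nat_lit 100) (nat_lit 5) (nat_lit 101) (nat_lit 4) (nat_lit 448) (nat_lit 386) (nat_lit 366))))) (XT.nd (nat_lit 234) (nat_lit 760) (nat_lit 0) (XT.nd (nat_lit 78) (nat_lit 456) (nat_lit 0) (XT.lf (nat_lit 0) (nat_lit 4949452439) (nat_lit 228) (nat_lit 4189543308) (nat_lit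 76) (nat_lit 5406342886) (nat_lit 95) (nat_lit 5) (nat_lit 98) (nat_lit 5) (nat_lit 96) (nat_lit 4) (nat_lit 449) (nat_lit 386) (nat_lit 365)) (XT.nd (nat_lit 78) (nat_lit 304) (nat_lit 0) (XT.lf (nat_lit 0) (nat_lit 14364899681) (nat_lit 228) (nat_lit 426009424) (nat_lit 0) (nat_lit 174093379) (nat_lit 93) (nat_lit 5) (nat_lit 96) (nat_lit 4) (nat_lit 93) (nat_lit 4) (nat_lit 450) (nat_lit 386) (nat_lit 364)) (XT.lf (nat_lit 0) (nat_lit 3360633103) (nat_lit 76) (nat_lit 5458299025) (nat_lit 152) (nat_lit 6579788693) (nat_lit 89) (nat_lit 5) (nat_lit 90) (nat_lit 5) (nat_lit 91) (nat_lit 4) (nat_lit 451) (nat_lit 386) (nat_lit 363)))) (XT.nd (nat_lit 156) (nat_lit 456) (nat_lit 0) (XT.nd (nat_lit 78) (nat_lit 76) (nat_lit 0) (XT.lf (nat_lit 0) (nat_lit 2859005117) (nat_lit 228) (nat_lit 8639013777) (nat_lit 76) (nat_lit 4352954715) (nat_lit 86) (nat_lit 5) (nat_lit 89) (nat_lit 5) (nat_lit 87)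 (nat_lit 4) (nat_lit 452) (nat_lit 386) (nat_lit 362)) (XT.lf (nat_lit 0) (nat_lit 11071749935) (nat_lit 76) (nat_lit 1649251190) (nat_lit 152) (nat_lit 3600266953) (nat_lit 85) (nat_lit 5) (nat_lit 86) (nat_lit 5) (nat_lit 87) (nat_lit 4) (nat_lit 453) (nat_lit 386) (nat_lit 361))) (XT.nd (nat_lit 78) (nat_lit 228) (nat_lit 0) (XT.lf (nat_lit 0) (nat_lit 6261171638) (nat_lit 228) (nat_lit 1897833271) (nat_lit 76) (nat_lit 8650600441) (nat_lit 82) (nat_lit 5) (nat_lit 85) (nat_lit 5) (nat_lit 83) (nat_lit 4) (nat_lit 454) (nat_lit 386) (nat_lit 360)) (XT.lf (nat_lit 0) (nat_lit 1510296729) (nat_lit 152) (nat_lit 15127447686) (nat_lit 152) (nat_lit 680653318) (nat_lit 79) (nat_lit 4) (nat_lit 81) (nat_lit 5) (nat_lit 81) (nat_lit 4) (nat_lit 455) (nat_lit 386) (nat_lit 359))))))))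
noncomputable def xc25 : XT := (XT.nd (nat_lit 2028) (nat_lit 1520) (nat_lit 0) (XT.nd (nat_lit 1014) (nat_lit 1292) (nat_lit 0) (XT.nd (nat_lit 468) (nat_lit 836) (nat_lit 0) (XT.nd (nat_lit 234) (nat_lit 608) (nat_lit 0) (XT.nd (nat_lit 78) (nat_lit 304) (nat_lit 0) (XT.lf (nat_lit 0) (nat_lit 4875306810) (nat_lit 76) (nat_lit 4766947459) (nat_lit 152) (nat_lit 8203067640) (nat_lit 77) (nat_lit 5) (nat_lit 78) (nat_lit 5) (nat_lit 79) (nat_lit 4) (nat_lit 456) (nat_lit 386) (nat_lit 358)) (XT.nd (nat_lit 78) (nat_lit 76) (nat_lit 0) (XT.lf (nat_lit 0) (nat_lit 2143024681) (nat_lit 228) (nat_lit 10152727684) (nat_lit 76) (nat_lit 6098607289) (nat_lit 74) (nat_lit 5) (nat_lit 77) (nat_lit 5) (nat_lit 75) (nat_lit 4) (nat_lit 457) (nat_lit 386) (nat_lit 357)) (XT.lf (nat_lit 0) (nat_lit 11557726764) (nat_lit 76) (nat_lit 1389279320) (nat_lit 152) (nat_lit 6018102217) (nat_lit 73) (nat_lit 5) (nat_lit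 74) (nat_lit 5) (nat_lit 75) (nat_lit 4) (nat_lit 458) (nat_lit 386) (nat_lit 356)))) (XT.nd (nat_lit 78) (nat_lit 380) (nat_lit 0) (XT.lf (nat_lit 0) (nat_lit 4799750429) (nat_lit 228) (nat_lit 4757253892) (nat_lit 76) (nat_lit 10001073565) (nat_lit 70) (nat_lit 5) (nat_lit 73) (nat_lit 5) (nat_lit 71) (nat_lit 4) (nat_lit 459) (nat_lit 386) (nat_lit 355)) (XT.nd (nat_lit 78) (nat_lit 304) (nat_lit 0) (XT.lf (nat_lit 0) (nat_lit 16140115441) (nat_lit 152) (nat_lit 2163376171) (nat_lit 0) (nat_lit 1872236630) (nat_lit 69) (nat_lit 5) (nat_lit 71) (nat_lit 4) (nat_lit 69) (nat_lit 4) (nat_lit 460) (nat_lit 386) (nat_lit 354)) (XT.lf (nat_lit 0) (nat_lit 294171509) (nat_lit 76) (nat_lit 6968149037) (nat_lit 152) (nat_lit 13554458683) (nat_lit 65) (nat_lit 5) (nat_lit 66) (nat_lit 5) (nat_lit 67) (nat_lit 4) (nat_lit 461) (nat_lit 386) (nat_lit 353))))) (XT.nd (nat_lit 234) (nat_lit 532) (nat_lit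 0) (XT.nd (nat_lit 78) (nat_lit 228) (nat_lit 0) (XT.lf (nat_lit 0) (nat_lit 2713706165) (nat_lit 76) (nat_lit 16482361776) (nat_lit 76) (nat_lit 2287986789) (nat_lit 64) (nat_lit 4) (nat_lit 65) (nat_lit 5) (nat_lit 65) (nat_lit 4) (nat_lit 462) (nat_lit 386) (nat_lit 352)) (XT.nd (nat_lit 78) (nat_lit 76) (nat_lit 0) (XT.lf (nat_lit 0) (nat_lit 4962539104) (nat_lit 76) (nat_lit 4552647851) (nat_lit 152) (nat_lit 12661970111) (nat_lit 62) (nat_lit 5) (nat_lit 63) (nat_lit 5) (nat_lit 64) (nat_lit 4) (nat_lit 463) (nat_lit 386) (nat_lit 351)) (XT.lf (nat_lit 0) (nat_lit 7085339640) (nat_lit 76) (nat_lit 14947953775) (nat_lit 76) (nat_lit 865780528) (nat_lit 61) (nat_lit 4) (nat_lit 62) (nat_lit 5) (nat_lit 62) (nat_lit 4) (nat_lit 464) (nat_lit 386) (nat_lit 350)))) (XT.nd (nat_lit 156) (nat_lit 228) (nat_lit 0) (XT.nd (nat_lit 78) (nat_lit 152) (nat_lit 0) (XT.lf (nat_lit 0) (nat_lit 9005145901)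 (nat_lit 76) (nat_lit 2436855008) (nat_lit 152) (nat_lit 12207367756) (nat_lit 59) (nat_lit 5) (nat_lit 60) (nat_lit 5) (nat_lit 61) (nat_lit 4) (nat_lit 465) (nat_lit 386) (nat_lit 349)) (XT.lf (nat_lit 0) (nat_lit 123384830) (nat_lit 152) (nat_lit 13686805206) (nat_lit 76) (nat_lit 10620419615) (nat_lit 57) (nat_lit 5) (nat_lit 59) (nat_lit 5) (nat_lit 58) (nat_lit 4) (nat_lit 466) (nat_lit 386) (nat_lit 348))) (XT.nd (nat_lit 78) (nat_lit 152) (nat_lit 0) (XT.lf (nat_lit 0) (nat_lit 12241752302) (nat_lit 76) (nat_lit 715027901) (nat_lit 152) (nat_lit 12286350848) (nat_lit 56) (nat_lit 5) (nat_lit 57) (nat_lit 5) (nat_lit 58) (nat_lit 4) (nat_lit 467) (nat_lit 386) (nat_lit 347)) (XT.lf (nat_lit 0) (nat_lit 573681395) (nat_lit 152) (nat_lit 12600357128) (nat_lit 76) (nat_lit 12914804714) (nat_lit 54) (nat_lit 5) (nat_lit 56) (nat_lit 5) (nat_lit 55) (nat_lit 4) (nat_lit 468) (nat_lit 386) (nat_lit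 346)))))) (XT.nd (nat_lit 468) (nat_lit 684) (nat_lit 0) (XT.nd (nat_lit 234) (nat_lit 304) (nat_lit 0) (XT.nd (nat_lit 78) (nat_lit 228) (nat_lit 0) (XT.lf (nat_lit 0) (nat_lit 13959121047) (nat_lit 152) (nat_lit 12520227063) (nat_lit 0) (nat_lit 489749625) (nat_lit 53) (nat_lit 5) (nat_lit 55) (nat_lit 4) (nat_lit 53) (nat_lit 4) (nat_lit 469) (nat_lit 386) (nat_lit 345)) (XT.nd (nat_lit 78) (nat_lit 76) (nat_lit 0) (XT.lf (nat_lit 0) (nat_lit 380860380) (nat_lit 152) (nat_lit 12796569002) (nat_lit 76) (nat_lit 14708019738) (nat_lit 51) (nat_lit 5) (nat_lit 53) (nat_lit 5) (nat_lit 52) (nat_lit 4) (nat_lit 470) (nat_lit 386) (nat_lit 344)) (XT.lf (nat_lit 0) (nat_lit 14317000034) (nat_lit 152) (nat_lit 13472673523) (nat_lit 0) (nat_lit 1049736505) (nat_lit 50) (nat_lit 5) (nat_lit 52) (nat_lit 4) (nat_lit 50) (nat_lit 4) (nat_lit 471) (nat_lit 386) (nat_lit 343)))) (XT.nd (nat_lit 78) (nat_lit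 228) (nat_lit 0) (XT.lf (nat_lit 0) (nat_lit 15250592478) (nat_lit 76) (nat_lit 13969007883) (nat_lit 76) (nat_lit 613380174) (nat_lit 49) (nat_lit 4) (nat_lit 50) (nat_lit 5) (nat_lit 50) (nat_lit 4) (nat_lit 472) (nat_lit 386) (nat_lit 342)) (XT.nd (nat_lit 78) (nat_lit 76) (nat_lit 0) (XT.lf (nat_lit 0) (nat_lit 13867254320) (nat_lit 152) (nat_lit 16181546122) (nat_lit 0) (nat_lit 818920271) (nat_lit 47) (nat_lit 5) (nat_lit 49) (nat_lit 4) (nat_lit 47) (nat_lit 4) (nat_lit 473) (nat_lit 386) (nat_lit 341)) (XT.lf (nat_lit 0) (nat_lit 13619463836) (nat_lit 76) (nat_lit 15726056403) (nat_lit 76) (nat_lit 2599907872) (nat_lit 46) (nat_lit 4) (nat_lit 47) (nat_lit 5) (nat_lit 47) (nat_lit 4) (nat_lit 474) (nat_lit 386) (nat_lit 340))))) (XT.nd (nat_lit 234) (nat_lit 304) (nat_lit 0) (XT.nd (nat_lit 78) (nat_lit 228) (nat_lit 0) (XT.lf (nat_lit 0) (nat_lit 12023515374) (nat_lit 76) (nat_lit 401988534)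 (nat_lit 152) (nat_lit 20643432703) (nat_lit 44) (nat_lit 5) (nat_lit 45) (nat_lit 5) (nat_lit 46) (nat_lit 4) (nat_lit 475) (nat_lit 386) (nat_lit 339)) (XT.nd (nat_lit 78) (nat_lit 152) (nat_lit 0) (XT.lf (nat_lit 0) (nat_lit 9781597666) (nat_lit 76) (nat_lit 18670721361) (nat_lit 76) (nat_lit 5786413022) (nat_lit 43) (nat_lit 4) (nat_lit 44) (nat_lit 5) (nat_lit 44) (nat_lit 4) (nat_lit 476) (nat_lit 386) (nat_lit 338)) (XT.lf (nat_lit 0) (nat_lit 6907565734) (nat_lit 76) (nat_lit 2874274320) (nat_lit 152) (nat_lit 25677551651) (nat_lit 41) (nat_lit 5) (nat_lit 42) (nat_lit 5) (nat_lit 43) (nat_lit 4) (nat_lit 477) (nat_lit 386) (nat_lit 337)))) (XT.nd (nat_lit 156) (nat_lit 152) (nat_lit 0) (XT.nd (nat_lit 78) (nat_lit 76) (nat_lit 0) (XT.lf (nat_lit 0) (nat_lit 3237341678) (nat_lit 76) (nat_lit 23063010024) (nat_lit 76) (nat_lit 10430269116) (nat_lit 40) (nat_lit 4) (nat_lit 41) (nat_lit 5)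 (nat_lit 41) (nat_lit 4) (nat_lit 478) (nat_lit 386) (nat_lit 336)) (XT.lf (nat_lit 0) (nat_lit 5672033553) (nat_lit 152) (nat_lit 1175982568) (nat_lit 76) (nat_lit 31209741093) (nat_lit 39) (nat_lit 5) (nat_lit 41) (nat_lit 5) (nat_lit 40) (nat_lit 4) (nat_lit 479) (nat_lit 386) (nat_lit 335))) (XT.nd (nat_lit 78) (nat_lit 76) (nat_lit 0) (XT.lf (nat_lit 0) (nat_lit 22666076000) (nat_lit 152) (nat_lit 6480662671) (nat_lit 0) (nat_lit 10292344156) (nat_lit 38) (nat_lit 5) (nat_lit 40) (nat_lit 4) (nat_lit 38) (nat_lit 4) (nat_lit 480) (nat_lit 386) (nat_lit 334)) (XT.lf (nat_lit 0) (nat_lit 28185415853) (nat_lit 76) (nat_lit 12560656160) (nat_lit 76) (nat_lit 136315793) (nat_lit 37) (nat_lit 4) (nat_lit 38) (nat_lit 5) (nat_lit 38) (nat_lit 4) (nat_lit 481) (nat_lit 386) (nat_lit 333))))))) (XT.nd (nat_lit 1014) (nat_lit 380) (nat_lit 0) (XT.nd (nat_lit 468) (nat_lit 532) (nat_lit 0) (XT.nd (nat_lit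 234) (nat_lit 228) (nat_lit 0) (XT.nd (nat_lit 78) (nat_lit 228) (nat_lit 0) (XT.lf (nat_lit 0) (nat_lit 17212643119) (nat_lit 152) (nat_lit 20070275851) (nat_lit 0) (nat_lit 5103381993) (nat_lit 35) (nat_lit 5) (nat_lit 37) (nat_lit 4) (nat_lit 35) (nat_lit 4) (nat_lit 482) (nat_lit 386) (nat_lit 332)) (XT.nd (nat_lit 78) (nat_lit 152) (nat_lit 0) (XT.lf (nat_lit 0) (nat_lit 15331436723) (nat_lit 76) (nat_lit 20389460341) (nat_lit 76) (nat_lit 8235632786) (nat_lit 34) (nat_lit 4) (nat_lit 35) (nat_lit 5) (nat_lit 35) (nat_lit 4) (nat_lit 483) (nat_lit 386) (nat_lit 331)) (XT.lf (nat_lit 0) (nat_lit 7151669540) (nat_lit 76) (nat_lit 2379336032) (nat_lit 152) (nat_lit 36066469717) (nat_lit 32) (nat_lit 5) (nat_lit 33) (nat_lit 5) (nat_lit 34) (nat_lit 4) (nat_lit 484) (nat_lit 386) (nat_lit 330)))) (XT.nd (nat_lit 78) (nat_lit 228) (nat_lit 0) (XT.lf (nat_lit 0) (nat_lit 28366549324) (nat_lit 152)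 (nat_lit 2454682889) (nat_lit 0) (nat_lit 16486263073) (nat_lit 32) (nat_lit 5) (nat_lit 34) (nat_lit 4) (nat_lit 32) (nat_lit 4) (nat_lit 485) (nat_lit 386) (nat_lit 329)) (XT.nd (nat_lit 78) (nat_lit 152) (nat_lit 0) (XT.lf (nat_lit 0) (nat_lit 35807325155) (nat_lit 76) (nat_lit 12602685244) (nat_lit 76) (nat_lit 685022142) (nat_lit 31) (nat_lit 4) (nat_lit 32) (nat_lit 5) (nat_lit 32) (nat_lit 4) (nat_lit 486) (nat_lit 386) (nat_lit 328)) (XT.lf (nat_lit 0) (nat_lit 18356638281) (nat_lit 152) (nat_lit 25851438407) (nat_lit 0) (nat_lit 6751531384) (nat_lit 29) (nat_lit 5) (nat_lit 31) (nat_lit 4) (nat_lit 29) (nat_lit 4) (nat_lit 487) (nat_lit 386) (nat_lit 327))))) (XT.nd (nat_lit 234) (nat_lit 304) (nat_lit 0) (XT.nd (nat_lit 78) (nat_lit 152) (nat_lit 0) (XT.lf (nat_lit 0) (nat_lit 12704837050) (nat_lit 76) (nat_lit 25920854657) (nat_lit 76) (nat_lit 14282833288) (nat_lit 28) (nat_lit 4) (nat_lit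 29) (nat_lit 5) (nat_lit 29) (nat_lit 4) (nat_lit 488) (nat_lit 386) (nat_lit 326)) (XT.nd (nat_lit 78) (nat_lit 76) (nat_lit 0) (XT.lf (nat_lit 0) (nat_lit 5029183565) (nat_lit 152) (nat_lit 1460125845) (nat_lit 76) (nat_lit 48458974389) (nat_lit 27) (nat_lit 5) (nat_lit 29) (nat_lit 5) (nat_lit 28) (nat_lit 4) (nat_lit 489) (nat_lit 386) (nat_lit 325)) (XT.lf (nat_lit 0) (nat_lit 25441897646) (nat_lit 152) (nat_lit 17547547384) (nat_lit 0) (nat_lit 14083428829) (nat_lit 26) (nat_lit 5) (nat_lit 28) (nat_lit 4) (nat_lit 26) (nat_lit 4) (nat_lit 490) (nat_lit 386) (nat_lit 324)))) (XT.nd (nat_lit 156) (nat_lit 76) (nat_lit 0) (XT.nd (nat_lit 78) (nat_lit 152) (nat_lit 0) (XT.lf (nat_lit 0) (nat_lit 23500716421) (nat_lit 76) (nat_lit 23591274241) (nat_lit 76) (nat_lit 12205200805) (nat_lit 25) (nat_lit 4) (nat_lit 26) (nat_lit 5) (nat_lit 26) (nat_lit 4) (nat_lit 491) (nat_lit 386) (nat_lit 323))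 (XT.lf (nat_lit 0) (nat_lit 5185280889) (nat_lit 76) (nat_lit 2990898637) (nat_lit 152) (nat_lit 53449858320) (nat_lit 23) (nat_lit 5) (nat_lit 24) (nat_lit 5) (nat_lit 25) (nat_lit 4) (nat_lit 492) (nat_lit 386) (nat_lit 322))) (XT.nd (nat_lit 78) (nat_lit 76) (nat_lit 0) (XT.lf (nat_lit 0) (nat_lit 29791496886) (nat_lit 152) (nat_lit 15574962607) (nat_lit 0) (nat_lit 18687223338) (nat_lit 23) (nat_lit 5) (nat_lit 25) (nat_lit 4) (nat_lit 23) (nat_lit 4) (nat_lit 493) (nat_lit 386) (nat_lit 321)) (XT.lf (nat_lit 0) (nat_lit 27679446154) (nat_lit 76) (nat_lit 25022134547) (nat_lit 76) (nat_lit 13894709632) (nat_lit 22) (nat_lit 4) (nat_lit 23) (nat_lit 5) (nat_lit 23) (nat_lit 4) (nat_lit 494) (nat_lit 386) (nat_lit 320)))))) (XT.nd (nat_lit 57252) (nat_lit 0) (nat_lit 10412) (XT.nd (nat_lit 234) (nat_lit 152) (nat_lit 0) (XT.nd (nat_lit 78) (nat_lit 76) (nat_lit 0) (XT.lf (nat_lit 0) (nat_lit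 4003860563) (nat_lit 76) (nat_lit 3460836185) (nat_lit 152) (nat_lit 61795579382) (nat_lit 20) (nat_lit 5) (nat_lit 21) (nat_lit 5) (nat_lit 22) (nat_lit 4) (nat_lit 495) (nat_lit 386) (nat_lit 319)) (XT.nd (nat_lit 78) (nat_lit 76) (nat_lit 0) (XT.lf (nat_lit 0) (nat_lit 30117226087) (nat_lit 152) (nat_lit 22648625889) (nat_lit 0) (nat_lit 19272106855) (nat_lit 20) (nat_lit 5) (nat_lit 22) (nat_lit 4) (nat_lit 20) (nat_lit 4) (nat_lit 496) (nat_lit 386) (nat_lit 318)) (XT.lf (nat_lit 0) (nat_lit 22339628499) (nat_lit 76) (nat_lit 31737101365) (nat_lit 76) (nat_lit 20872565606) (nat_lit 19) (nat_lit 4) (nat_lit 20) (nat_lit 5) (nat_lit 20) (nat_lit 4) (nat_lit 497) (nat_lit 386) (nat_lit 317)))) (XT.nd (nat_lit 56862) (nat_lit 0) (nat_lit 13908) (XT.nd (nat_lit 78) (nat_lit 76) (nat_lit 0) (XT.lf (nat_lit 0) (nat_lit 1365631048) (nat_lit 152) (nat_lit 8110796659) (nat_lit 76) (nat_lit 68524569802)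 (nat_lit 18) (nat_lit 5) (nat_lit 20) (nat_lit 5) (nat_lit 19) (nat_lit 4) (nat_lit 498) (nat_lit 386) (nat_lit 316)) (XT.lf (nat_lit 0) (nat_lit 24731540263) (nat_lit 152) (nat_lit 42305724889) (nat_lit 0) (nat_lit 14148395555) (nat_lit 17) (nat_lit 5) (nat_lit 19) (nat_lit 4) (nat_lit 17) (nat_lit 4) (nat_lit 499) (nat_lit 386) (nat_lit 315))) (XT.nd (nat_lit 78) (nat_lit 380) (nat_lit 0) (XT.lf (nat_lit 0) (nat_lit 272452765) (nat_lit 456) (nat_lit 3664729697) (nat_lit 0) (nat_lit 272452765) (nat_lit 205) (nat_lit 5) (nat_lit 211) (nat_lit 4) (nat_lit 205) (nat_lit 4) (nat_lit 426) (nat_lit 387) (nat_lit 387)) (XT.lf (nat_lit 0) (nat_lit 4662215805) (nat_lit 380) (nat_lit 2822748740) (nat_lit 380) (nat_lit 1092742375) (nat_lit 200) (nat_lit 4) (nat_lit 205) (nat_lit 5) (nat_lit 205) (nat_lit 4) (nat_lit 427) (nat_lit 387) (nat_lit 386))))) (XT.nd (nat_lit 234) (nat_lit 1976) (nat_lit 0) (XT.nd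 (nat_lit 78) (nat_lit 1140) (nat_lit 0) (XT.lf (nat_lit 0) (nat_lit 5811789249) (nat_lit 380) (nat_lit 400978374) (nat_lit 0) (nat_lit 2532535389) (nat_lit 195) (nat_lit 5) (nat_lit 200) (nat_lit 4) (nat_lit 195) (nat_lit 4) (nat_lit 428) (nat_lit 387) (nat_lit 385)) (XT.nd (nat_lit 78) (nat_lit 380) (nat_lit 0) (XT.lf (nat_lit 0) (nat_lit 3283352668) (nat_lit 304) (nat_lit 699932756) (nat_lit 380) (nat_lit 4938130206) (nat_lit 185) (nat_lit 5) (nat_lit 189) (nat_lit 5) (nat_lit 190) (nat_lit 4) (nat_lit 429) (nat_lit 387) (nat_lit 384)) (XT.lf (nat_lit 0) (nat_lit 1985663983) (nat_lit 380) (nat_lit 2040591218) (nat_lit 76) (nat_lit 5080230822) (nat_lit 180) (nat_lit 5) (nat_lit 185) (nat_lit 5) (nat_lit 181) (nat_lit 4) (nat_lit 430) (nat_lit 387) (nat_lit 383)))) (XT.nd (nat_lit 156) (nat_lit 988) (nat_lit 0) (XT.nd (nat_lit 78) (nat_lit 380) (nat_lit 0) (XT.lf (nat_lit 0) (nat_lit 1695804854)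 (nat_lit 304) (nat_lit 7401201372) (nat_lit 304) (nat_lit 204048461) (nat_lit 172) (nat_lit 4) (nat_lit 176) (nat_lit 5) (nat_lit 176) (nat_lit 4) (nat_lit 431) (nat_lit 387) (nat_lit 382)) (XT.lf (nat_lit 0) (nat_lit 5549471729) (nat_lit 304) (nat_lit 1340727270) (nat_lit 380) (nat_lit 2614050955) (nat_lit 167) (nat_lit 5) (nat_lit 171) (nat_lit 5) (nat_lit 172) (nat_lit 4) (nat_lit 432) (nat_lit 387) (nat_lit 381))) (XT.nd (nat_lit 78) (nat_lit 608) (nat_lit 0) (XT.lf (nat_lit 0) (nat_lit 4491033198) (nat_lit 380) (nat_lit 222077485) (nat_lit 76) (nat_lit 5004203693) (nat_lit 162) (nat_lit 5) (nat_lit 167) (nat_lit 5) (nat_lit 163) (nat_lit 4) (nat_lit 433) (nat_lit 387) (nat_lit 380)) (XT.lf (nat_lit 0) (nat_lit 1908028310) (nat_lit 380) (nat_lit 6254134374) (nat_lit 76) (nat_lit 1777866333) (nat_lit 154) (nat_lit 5) (nat_lit 159) (nat_lit 5) (nat_lit 155) (nat_lit 4) (nat_lit 434) (nat_lit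 387) (nat_lit 379))))))))
noncomputable def xc26 : XT := (XT.nd (nat_lit 2028) (nat_lit 2964) (nat_lit 0) (XT.nd (nat_lit 1014) (nat_lit 2584) (nat_lit 0) (XT.nd (nat_lit 468) (nat_lit 1824) (nat_lit 0) (XT.nd (nat_lit 234) (nat_lit 988) (nat_lit 0) (XT.nd (nat_lit 78) (nat_lit 836) (nat_lit 0) (XT.lf (nat_lit 0) (nat_lit 7681886353) (nat_lit 228) (nat_lit 1588743314) (nat_lit 304) (nat_lit 902319578) (nat_lit 151) (nat_lit 5) (nat_lit 154) (nat_lit 5) (nat_lit 155) (nat_lit 4) (nat_lit 435) (nat_lit 387) (nat_lit 378)) (XT.nd (nat_lit 78) (nat_lit 304) (nat_lit 0) (XT.lf (nat_lit 0) (nat_lit 1358938052) (nat_lit 228) (nat_lit 5097210017) (nat_lit 304) (nat_lit 3959456689) (nat_lit 144) (nat_lit 5) (nat_lit 147) (nat_lit 5) (nat_lit 148) (nat_lit 4) (nat_lit 436) (nat_lit 387) (nat_lit 377)) (XT.lf (nat_lit 0) (nat_lit 3428168016) (nat_lit 304) (nat_lit 5309277805) (nat_lit 76) (nat_lit 1931604329)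 (nat_lit 140) (nat_lit 5) (nat_lit 144) (nat_lit 5) (nat_lit 141) (nat_lit 4) (nat_lit 437) (nat_lit 387) (nat_lit 376)))) (XT.nd (nat_lit 78) (nat_lit 684) (nat_lit 0) (XT.lf (nat_lit 0) (nat_lit 167008928) (nat_lit 304) (nat_lit 1484771707) (nat_lit 76) (nat_lit 9282141338) (nat_lit 136) (nat_lit 5) (nat_lit 140) (nat_lit 5) (nat_lit 137) (nat_lit 5) (nat_lit 438) (nat_lit 387) (nat_lit 375)) (XT.nd (nat_lit 78) (nat_lit 304) (nat_lit 0) (XT.lf (nat_lit 0) (nat_lit 2429878804) (nat_lit 152) (nat_lit 5402610797) (nat_lit 228) (nat_lit 3376297737) (nat_lit 131) (nat_lit 5) (nat_lit 133) (nat_lit 5) (nat_lit 134) (nat_lit 4) (nat_lit 439) (nat_lit 387) (nat_lit 374)) (XT.lf (nat_lit 0) (nat_lit 4312477311) (nat_lit 304) (nat_lit 5026570030) (nat_lit 76) (nat_lit 2156667661) (nat_lit 127) (nat_lit 5) (nat_lit 131) (nat_lit 5) (nat_lit 128) (nat_lit 4) (nat_lit 440) (nat_lit 387) (nat_lit 373)))))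 (XT.nd (nat_lit 234) (nat_lit 912) (nat_lit 0) (XT.nd (nat_lit 78) (nat_lit 684) (nat_lit 0) (XT.lf (nat_lit 0) (nat_lit 533007228) (nat_lit 228) (nat_lit 1203096681) (nat_lit 76) (nat_lit 10059041948) (nat_lit 124) (nat_lit 5) (nat_lit 127) (nat_lit 5) (nat_lit 125) (nat_lit 5) (nat_lit 441) (nat_lit 387) (nat_lit 372)) (XT.nd (nat_lit 78) (nat_lit 304) (nat_lit 0) (XT.lf (nat_lit 0) (nat_lit 2706513177) (nat_lit 152) (nat_lit 5842945648) (nat_lit 228) (nat_lit 3556074590) (nat_lit 119) (nat_lit 5) (nat_lit 121) (nat_lit 5) (nat_lit 122) (nat_lit 4) (nat_lit 442) (nat_lit 387) (nat_lit 371)) (XT.lf (nat_lit 0) (nat_lit 4478455873) (nat_lit 304) (nat_lit 5703500927) (nat_lit 76) (nat_lit 2247232655) (nat_lit 115) (nat_lit 5) (nat_lit 119) (nat_lit 5) (nat_lit 116) (nat_lit 4) (nat_lit 443) (nat_lit 387) (nat_lit 370)))) (XT.nd (nat_lit 156) (nat_lit 380) (nat_lit 0) (XT.nd (nat_lit 78) (nat_lit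 304) (nat_lit 0) (XT.lf (nat_lit 0) (nat_lit 118157126) (nat_lit 228) (nat_lit 1946974482) (nat_lit 76) (nat_lit 10701433991) (nat_lit 112) (nat_lit 5) (nat_lit 115) (nat_lit 5) (nat_lit 113) (nat_lit 5) (nat_lit 444) (nat_lit 387) (nat_lit 369)) (XT.lf (nat_lit 0) (nat_lit 1860612729) (nat_lit 152) (nat_lit 6640890527) (nat_lit 228) (nat_lit 4614688420) (nat_lit 108) (nat_lit 5) (nat_lit 110) (nat_lit 5) (nat_lit 111) (nat_lit 4) (nat_lit 445) (nat_lit 387) (nat_lit 368))) (XT.nd (nat_lit 78) (nat_lit 152) (nat_lit 0) (XT.lf (nat_lit 0) (nat_lit 3804595132) (nat_lit 228) (nat_lit 7691836119) (nat_lit 76) (nat_lit 1984018591) (nat_lit 105) (nat_lit 5) (nat_lit 108) (nat_lit 5) (nat_lit 106) (nat_lit 4) (nat_lit 446) (nat_lit 387) (nat_lit 367)) (XT.lf (nat_lit 0) (nat_lit 9762715536) (nat_lit 152) (nat_lit 2858897511) (nat_lit 228) (nat_lit 1237776232) (nat_lit 103) (nat_lit 5) (nat_lit 105) (nat_lit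 5) (nat_lit 106) (nat_lit 4) (nat_lit 447) (nat_lit 387) (nat_lit 366)))))) (XT.nd (nat_lit 468) (nat_lit 1216) (nat_lit 0) (XT.nd (nat_lit 234) (nat_lit 608) (nat_lit 0) (XT.nd (nat_lit 78) (nat_lit 532) (nat_lit 0) (XT.lf (nat_lit 0) (nat_lit 7545063389) (nat_lit 228) (nat_lit 491299044) (nat_lit 76) (nat_lit 6216572290) (nat_lit 100) (nat_lit 5) (nat_lit 103) (nat_lit 5) (nat_lit 101) (nat_lit 4) (nat_lit 448) (nat_lit 387) (nat_lit 365)) (XT.nd (nat_lit 78) (nat_lit 152) (nat_lit 0) (XT.lf (nat_lit 0) (nat_lit 2123943341) (nat_lit 228) (nat_lit 11415350762) (nat_lit 76) (nat_lit 1123237944) (nat_lit 95) (nat_lit 5) (nat_lit 98) (nat_lit 5) (nat_lit 96) (nat_lit 4) (nat_lit 449) (nat_lit 387) (nat_lit 364)) (XT.lf (nat_lit 0) (nat_lit 6989126417) (nat_lit 152) (nat_lit 4379151790) (nat_lit 228) (nat_lit 3719053180) (nat_lit 93) (nat_lit 5) (nat_lit 95) (nat_lit 5) (nat_lit 96) (nat_lit 4) (nat_lit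 450) (nat_lit 387) (nat_lit 363)))) (XT.nd (nat_lit 78) (nat_lit 380) (nat_lit 0) (XT.lf (nat_lit 0) (nat_lit 5513171556) (nat_lit 228) (nat_lit 4762422501) (nat_lit 76) (nat_lit 5253787229) (nat_lit 90) (nat_lit 5) (nat_lit 93) (nat_lit 5) (nat_lit 91) (nat_lit 4) (nat_lit 451) (nat_lit 387) (nat_lit 362)) (XT.nd (nat_lit 78) (nat_lit 304) (nat_lit 0) (XT.lf (nat_lit 0) (nat_lit 14602928780) (nat_lit 76) (nat_lit 606652683) (nat_lit 152) (nat_lit 780466682) (nat_lit 89) (nat_lit 5) (nat_lit 90) (nat_lit 5) (nat_lit 91) (nat_lit 4) (nat_lit 452) (nat_lit 387) (nat_lit 361)) (XT.lf (nat_lit 0) (nat_lit 1966925484) (nat_lit 76) (nat_lit 6929557193) (nat_lit 152) (nat_lit 7570095024) (nat_lit 85) (nat_lit 5) (nat_lit 86) (nat_lit 5) (nat_lit 87) (nat_lit 4) (nat_lit 453) (nat_lit 387) (nat_lit 360))))) (XT.nd (nat_lit 234) (nat_lit 684) (nat_lit 0) (XT.nd (nat_lit 78) (nat_lit 304) (nat_lit 0) (XT.lf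 (nat_lit 0) (nat_lit 2132723805) (nat_lit 228) (nat_lit 11566965285) (nat_lit 76) (nat_lit 3263454855) (nat_lit 82) (nat_lit 5) (nat_lit 85) (nat_lit 5) (nat_lit 83) (nat_lit 4) (nat_lit 454) (nat_lit 387) (nat_lit 359)) (XT.nd (nat_lit 78) (nat_lit 228) (nat_lit 0) (XT.lf (nat_lit 0) (nat_lit 8788446659) (nat_lit 76) (nat_lit 3499270831) (nat_lit 152) (nat_lit 5190867727) (nat_lit 81) (nat_lit 5) (nat_lit 82) (nat_lit 5) (nat_lit 83) (nat_lit 4) (nat_lit 455) (nat_lit 387) (nat_lit 358)) (XT.lf (nat_lit 0) (nat_lit 4963667916) (nat_lit 228) (nat_lit 5848512409) (nat_lit 76) (nat_lit 7202322596) (nat_lit 78) (nat_lit 5) (nat_lit 81) (nat_lit 5) (nat_lit 79) (nat_lit 4) (nat_lit 456) (nat_lit 387) (nat_lit 357)))) (XT.nd (nat_lit 156) (nat_lit 380) (nat_lit 0) (XT.nd (nat_lit 78) (nat_lit 228) (nat_lit 0) (XT.lf (nat_lit 0) (nat_lit 15554246315) (nat_lit 76) (nat_lit 65104043) (nat_lit 152) (nat_lit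 2953303797) (nat_lit 77) (nat_lit 5) (nat_lit 78) (nat_lit 5) (nat_lit 79) (nat_lit 4) (nat_lit 457) (nat_lit 387) (nat_lit 356)) (XT.lf (nat_lit 0) (nat_lit 7680567872) (nat_lit 228) (nat_lit 302079482) (nat_lit 76) (nat_lit 11168440534) (nat_lit 74) (nat_lit 5) (nat_lit 77) (nat_lit 5) (nat_lit 75) (nat_lit 4) (nat_lit 458) (nat_lit 387) (nat_lit 355))) (XT.nd (nat_lit 78) (nat_lit 152) (nat_lit 0) (XT.lf (nat_lit 0) (nat_lit 2457653856) (nat_lit 152) (nat_lit 16460894336) (nat_lit 152) (nat_lit 835015491) (nat_lit 71) (nat_lit 4) (nat_lit 73) (nat_lit 5) (nat_lit 73) (nat_lit 4) (nat_lit 459) (nat_lit 387) (nat_lit 354)) (XT.lf (nat_lit 0) (nat_lit 5089718119) (nat_lit 76) (nat_lit 5206573094) (nat_lit 152) (nat_lit 10081925290) (nat_lit 69) (nat_lit 5) (nat_lit 70) (nat_lit 5) (nat_lit 71) (nat_lit 4) (nat_lit 460) (nat_lit 387) (nat_lit 353))))))) (XT.nd (nat_lit 1014) (nat_lit 1368) (nat_lit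 0) (XT.nd (nat_lit 468) (nat_lit 836) (nat_lit 0) (XT.nd (nat_lit 234) (nat_lit 304) (nat_lit 0) (XT.nd (nat_lit 78) (nat_lit 228) (nat_lit 0) (XT.lf (nat_lit 0) (nat_lit 1067974496) (nat_lit 228) (nat_lit 13355095357) (nat_lit 76) (nat_lit 6605922836) (nat_lit 66) (nat_lit 5) (nat_lit 69) (nat_lit 5) (nat_lit 67) (nat_lit 4) (nat_lit 461) (nat_lit 387) (nat_lit 352)) (XT.nd (nat_lit 78) (nat_lit 152) (nat_lit 0) (XT.lf (nat_lit 0) (nat_lit 10125084509) (nat_lit 76) (nat_lit 2590113021) (nat_lit 152) (nat_lit 8989667351) (nat_lit 65) (nat_lit 5) (nat_lit 66) (nat_lit 5) (nat_lit 67) (nat_lit 4) (nat_lit 462) (nat_lit 387) (nat_lit 351)) (XT.lf (nat_lit 0) (nat_lit 2677207313) (nat_lit 152) (nat_lit 9946487547) (nat_lit 76) (nat_lit 9784218053) (nat_lit 63) (nat_lit 5) (nat_lit 65) (nat_lit 5) (nat_lit 64) (nat_lit 4) (nat_lit 463) (nat_lit 387) (nat_lit 350)))) (XT.nd (nat_lit 78) (nat_lit 228)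 (nat_lit 0) (XT.lf (nat_lit 0) (nat_lit 14670776644) (nat_lit 76) (nat_lit 204167206) (nat_lit 152) (nat_lit 8264497883) (nat_lit 62) (nat_lit 5) (nat_lit 63) (nat_lit 5) (nat_lit 64) (nat_lit 4) (nat_lit 464) (nat_lit 387) (nat_lit 349)) (XT.nd (nat_lit 78) (nat_lit 76) (nat_lit 0) (XT.lf (nat_lit 0) (nat_lit 3938679435) (nat_lit 152) (nat_lit 7210923945) (nat_lit 76) (nat_lit 12749736877) (nat_lit 60) (nat_lit 5) (nat_lit 62) (nat_lit 5) (nat_lit 61) (nat_lit 4) (nat_lit 465) (nat_lit 387) (nat_lit 348)) (XT.lf (nat_lit 0) (nat_lit 16719706332) (nat_lit 152) (nat_lit 6137981559) (nat_lit 0) (nat_lit 1832934145) (nat_lit 59) (nat_lit 5) (nat_lit 61) (nat_lit 4) (nat_lit 59) (nat_lit 4) (nat_lit 466) (nat_lit 387) (nat_lit 347))))) (XT.nd (nat_lit 234) (nat_lit 456) (nat_lit 0) (XT.nd (nat_lit 78) (nat_lit 228) (nat_lit 0) (XT.lf (nat_lit 0) (nat_lit 4766037032) (nat_lit 152) (nat_lit 5329083771)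 (nat_lit 76) (nat_lit 15417881475) (nat_lit 57) (nat_lit 5) (nat_lit 59) (nat_lit 5) (nat_lit 58) (nat_lit 4) (nat_lit 467) (nat_lit 387) (nat_lit 346)) (XT.nd (nat_lit 78) (nat_lit 152) (nat_lit 0) (XT.lf (nat_lit 0) (nat_lit 18138695066) (nat_lit 152) (nat_lit 4767481289) (nat_lit 0) (nat_lit 3463047671) (nat_lit 56) (nat_lit 5) (nat_lit 58) (nat_lit 4) (nat_lit 56) (nat_lit 4) (nat_lit 468) (nat_lit 387) (nat_lit 345)) (XT.lf (nat_lit 0) (nat_lit 5053970419) (nat_lit 152) (nat_lit 4519441921) (nat_lit 76) (nat_lit 17686286722) (nat_lit 54) (nat_lit 5) (nat_lit 56) (nat_lit 5) (nat_lit 55) (nat_lit 4) (nat_lit 469) (nat_lit 387) (nat_lit 344)))) (XT.nd (nat_lit 156) (nat_lit 228) (nat_lit 0) (XT.nd (nat_lit 78) (nat_lit 152) (nat_lit 0) (XT.lf (nat_lit 0) (nat_lit 19017834321) (nat_lit 152) (nat_lit 4595136260) (nat_lit 0) (nat_lit 4573722954) (nat_lit 53) (nat_lit 5) (nat_lit 55) (nat_lit 4)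 (nat_lit 53) (nat_lit 4) (nat_lit 470) (nat_lit 387) (nat_lit 343)) (XT.lf (nat_lit 0) (nat_lit 4674792042) (nat_lit 152) (nat_lit 5045298626) (nat_lit 76) (nat_lit 19431350619) (nat_lit 51) (nat_lit 5) (nat_lit 53) (nat_lit 5) (nat_lit 52) (nat_lit 4) (nat_lit 471) (nat_lit 387) (nat_lit 342))) (XT.nd (nat_lit 78) (nat_lit 152) (nat_lit 0) (XT.lf (nat_lit 0) (nat_lit 19220979902) (nat_lit 152) (nat_lit 5909674473) (nat_lit 0) (nat_lit 5025050266) (nat_lit 50) (nat_lit 5) (nat_lit 52) (nat_lit 4) (nat_lit 50) (nat_lit 4) (nat_lit 472) (nat_lit 387) (nat_lit 341)) (XT.lf (nat_lit 0) (nat_lit 3474403032) (nat_lit 152) (nat_lit 7223040395) (nat_lit 76) (nat_lit 20504165715) (nat_lit 48) (nat_lit 5) (nat_lit 50) (nat_lit 5) (nat_lit 49) (nat_lit 4) (nat_lit 473) (nat_lit 387) (nat_lit 340)))))) (XT.nd (nat_lit 546) (nat_lit 608) (nat_lit 0) (XT.nd (nat_lit 234) (nat_lit 456) (nat_lit 0) (XT.nd (nat_lit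 78) (nat_lit 228) (nat_lit 0) (XT.lf (nat_lit 0) (nat_lit 18583598503) (nat_lit 152) (nat_lit 9057571563) (nat_lit 0) (nat_lit 4649219034) (nat_lit 47) (nat_lit 5) (nat_lit 49) (nat_lit 4) (nat_lit 47) (nat_lit 4) (nat_lit 474) (nat_lit 387) (nat_lit 339)) (XT.nd (nat_lit 78) (nat_lit 76) (nat_lit 0) (XT.lf (nat_lit 0) (nat_lit 1267543825) (nat_lit 152) (nat_lit 11431845532) (nat_lit 76) (nat_lit 20725746022) (nat_lit 45) (nat_lit 5) (nat_lit 47) (nat_lit 5) (nat_lit 46) (nat_lit 4) (nat_lit 475) (nat_lit 387) (nat_lit 338)) (XT.lf (nat_lit 0) (nat_lit 16907636314) (nat_lit 152) (nat_lit 14453569554) (nat_lit 0) (nat_lit 3245327021) (nat_lit 44) (nat_lit 5) (nat_lit 46) (nat_lit 4) (nat_lit 44) (nat_lit 4) (nat_lit 476) (nat_lit 387) (nat_lit 337)))) (XT.nd (nat_lit 156) (nat_lit 228) (nat_lit 0) (XT.nd (nat_lit 78) (nat_lit 152) (nat_lit 0) (XT.lf (nat_lit 0) (nat_lit 17691741987) (nat_lit 76)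 (nat_lit 15935399829) (nat_lit 76) (nat_lit 2210936976) (nat_lit 43) (nat_lit 4) (nat_lit 44) (nat_lit 5) (nat_lit 44) (nat_lit 4) (nat_lit 477) (nat_lit 387) (nat_lit 336)) (XT.lf (nat_lit 0) (nat_lit 13955481817) (nat_lit 152) (nat_lit 22593030279) (nat_lit 0) (nat_lit 573290828) (nat_lit 41) (nat_lit 5) (nat_lit 43) (nat_lit 4) (nat_lit 41) (nat_lit 4) (nat_lit 478) (nat_lit 387) (nat_lit 335))) (XT.nd (nat_lit 78) (nat_lit 152) (nat_lit 0) (XT.lf (nat_lit 0) (nat_lit 10545687292) (nat_lit 76) (nat_lit 20675102612) (nat_lit 76) (nat_lit 7238178506) (nat_lit 40) (nat_lit 4) (nat_lit 41) (nat_lit 5) (nat_lit 41) (nat_lit 4) (nat_lit 479) (nat_lit 387) (nat_lit 334)) (XT.lf (nat_lit 0) (nat_lit 5752678101) (nat_lit 76) (nat_lit 3726006128) (nat_lit 152) (nat_lit 30376250115) (nat_lit 38) (nat_lit 5) (nat_lit 39) (nat_lit 5) (nat_lit 40) (nat_lit 4) (nat_lit 480) (nat_lit 387) (nat_lit 333)))))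 (XT.nd (nat_lit 234) (nat_lit 380) (nat_lit 0) (XT.nd (nat_lit 78) (nat_lit 228) (nat_lit 0) (XT.lf (nat_lit 0) (nat_lit 27198024178) (nat_lit 152) (nat_lit 57375440) (nat_lit 0) (nat_lit 14053659677) (nat_lit 38) (nat_lit 5) (nat_lit 40) (nat_lit 4) (nat_lit 38) (nat_lit 4) (nat_lit 481) (nat_lit 387) (nat_lit 332)) (XT.nd (nat_lit 78) (nat_lit 76) (nat_lit 0) (XT.lf (nat_lit 0) (nat_lit 3192154247) (nat_lit 152) (nat_lit 6710194800) (nat_lit 76) (nat_lit 32924207681) (nat_lit 36) (nat_lit 5) (nat_lit 38) (nat_lit 5) (nat_lit 37) (nat_lit 4) (nat_lit 482) (nat_lit 387) (nat_lit 331)) (XT.lf (nat_lit 0) (nat_lit 21339602684) (nat_lit 152) (nat_lit 14576934248) (nat_lit 0) (nat_lit 8491073104) (nat_lit 35) (nat_lit 5) (nat_lit 37) (nat_lit 4) (nat_lit 35) (nat_lit 4) (nat_lit 483) (nat_lit 387) (nat_lit 330)))) (XT.nd (nat_lit 156) (nat_lit 152) (nat_lit 0) (XT.nd (nat_lit 78) (nat_lit 152) (nat_lit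 0) (XT.lf (nat_lit 0) (nat_lit 22408632899) (nat_lit 76) (nat_lit 18269758609) (nat_lit 76) (nat_lit 5380805964) (nat_lit 34) (nat_lit 4) (nat_lit 35) (nat_lit 5) (nat_lit 35) (nat_lit 4) (nat_lit 484) (nat_lit 387) (nat_lit 329)) (XT.lf (nat_lit 0) (nat_lit 13123030569) (nat_lit 152) (nat_lit 34088732558) (nat_lit 0) (nat_lit 572107460) (nat_lit 32) (nat_lit 5) (nat_lit 34) (nat_lit 4) (nat_lit 32) (nat_lit 4) (nat_lit 485) (nat_lit 387) (nat_lit 328))) (XT.nd (nat_lit 78) (nat_lit 76) (nat_lit 0) (XT.lf (nat_lit 0) (nat_lit 3447327275) (nat_lit 76) (nat_lit 29360677746) (nat_lit 76) (nat_lit 16774157636) (nat_lit 31) (nat_lit 4) (nat_lit 32) (nat_lit 5) (nat_lit 32) (nat_lit 4) (nat_lit 486) (nat_lit 387) (nat_lit 327)) (XT.lf (nat_lit 0) (nat_lit 2226755178) (nat_lit 152) (nat_lit 8100109004) (nat_lit 76) (nat_lit 41135155099) (nat_lit 30) (nat_lit 5) (nat_lit 32) (nat_lit 5) (nat_lit 31) (nat_lit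 4) (nat_lit 487) (nat_lit 387) (nat_lit 326))))))))
noncomputable def xc27 : XT := (XT.nd (nat_lit 58578) (nat_lit 0) (nat_lit 3420) (XT.nd (nat_lit 57564) (nat_lit 0) (nat_lit 9272) (XT.nd (nat_lit 468) (nat_lit 380) (nat_lit 0) (XT.nd (nat_lit 234) (nat_lit 228) (nat_lit 0) (XT.nd (nat_lit 78) (nat_lit 228) (nat_lit 0) (XT.lf (nat_lit 0) (nat_lit 22148629309) (nat_lit 152) (nat_lit 21408277179) (nat_lit 0) (nat_lit 9864445284) (nat_lit 29) (nat_lit 5) (nat_lit 31) (nat_lit 4) (nat_lit 29) (nat_lit 4) (nat_lit 488) (nat_lit 387) (nat_lit 325)) (XT.nd (nat_lit 78) (nat_lit 152) (nat_lit 0) (XT.lf (nat_lit 0) (nat_lit 18911398412) (nat_lit 76) (nat_lit 24436427206) (nat_lit 76) (nat_lit 12122388785) (nat_lit 28) (nat_lit 4) (nat_lit 29) (nat_lit 5) (nat_lit 29) (nat_lit 4) (nat_lit 489) (nat_lit 387) (nat_lit 324)) (XT.lf (nat_lit 0) (nat_lit 3902470614) (nat_lit 76) (nat_lit 4099963766) (nat_lit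 152) (nat_lit 49611599354) (nat_lit 26) (nat_lit 5) (nat_lit 27) (nat_lit 5) (nat_lit 28) (nat_lit 4) (nat_lit 490) (nat_lit 387) (nat_lit 323)))) (XT.nd (nat_lit 78) (nat_lit 228) (nat_lit 0) (XT.lf (nat_lit 0) (nat_lit 29345476315) (nat_lit 152) (nat_lit 13165882245) (nat_lit 0) (nat_lit 17336204473) (nat_lit 26) (nat_lit 5) (nat_lit 28) (nat_lit 4) (nat_lit 26) (nat_lit 4) (nat_lit 491) (nat_lit 387) (nat_lit 322)) (XT.nd (nat_lit 78) (nat_lit 152) (nat_lit 0) (XT.lf (nat_lit 0) (nat_lit 29784045352) (nat_lit 76) (nat_lit 22217823916) (nat_lit 76) (nat_lit 10183513870) (nat_lit 25) (nat_lit 4) (nat_lit 26) (nat_lit 5) (nat_lit 26) (nat_lit 4) (nat_lit 492) (nat_lit 387) (nat_lit 321)) (XT.lf (nat_lit 0) (nat_lit 10456305411) (nat_lit 76) (nat_lit 634562256) (nat_lit 152) (nat_lit 53541286886) (nat_lit 23) (nat_lit 5) (nat_lit 24) (nat_lit 5) (nat_lit 25) (nat_lit 4) (nat_lit 493) (nat_lit 387)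 (nat_lit 320))))) (XT.nd (nat_lit 234) (nat_lit 152) (nat_lit 0) (XT.nd (nat_lit 78) (nat_lit 228) (nat_lit 0) (XT.lf (nat_lit 0) (nat_lit 33690564329) (nat_lit 152) (nat_lit 11531941595) (nat_lit 0) (nat_lit 21961567879) (nat_lit 23) (nat_lit 5) (nat_lit 25) (nat_lit 4) (nat_lit 23) (nat_lit 4) (nat_lit 494) (nat_lit 387) (nat_lit 319)) (XT.nd (nat_lit 78) (nat_lit 152) (nat_lit 0) (XT.lf (nat_lit 0) (nat_lit 33746972559) (nat_lit 76) (nat_lit 23929463220) (nat_lit 76) (nat_lit 12179467797) (nat_lit 22) (nat_lit 4) (nat_lit 23) (nat_lit 5) (nat_lit 23) (nat_lit 4) (nat_lit 495) (nat_lit 387) (nat_lit 318)) (XT.lf (nat_lit 0) (nat_lit 8799041396) (nat_lit 76) (nat_lit 1333488574) (nat_lit 152) (nat_lit 62521914626) (nat_lit 20) (nat_lit 5) (nat_lit 21) (nat_lit 5) (nat_lit 22) (nat_lit 4) (nat_lit 496) (nat_lit 387) (nat_lit 317)))) (XT.nd (nat_lit 156) (nat_lit 76) (nat_lit 0) (XT.nd (nat_lit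 78) (nat_lit 76) (nat_lit 0) (XT.lf (nat_lit 0) (nat_lit 33829478949) (nat_lit 152) (nat_lit 19360371093) (nat_lit 0) (nat_lit 22383807947) (nat_lit 20) (nat_lit 5) (nat_lit 22) (nat_lit 4) (nat_lit 20) (nat_lit 4) (nat_lit 497) (nat_lit 387) (nat_lit 316)) (XT.lf (nat_lit 0) (nat_lit 27750577935) (nat_lit 76) (nat_lit 31172589961) (nat_lit 76) (nat_lit 19709307598) (nat_lit 19) (nat_lit 4) (nat_lit 20) (nat_lit 5) (nat_lit 20) (nat_lit 4) (nat_lit 498) (nat_lit 387) (nat_lit 315))) (XT.nd (nat_lit 56628) (nat_lit 0) (nat_lit 15580) (XT.lf (nat_lit 0) (nat_lit 3494695446) (nat_lit 152) (nat_lit 4385823331) (nat_lit 76) (nat_lit 73958698925) (nat_lit 18) (nat_lit 5) (nat_lit 20) (nat_lit 5) (nat_lit 19) (nat_lit 4) (nat_lit 499) (nat_lit 387) (nat_lit 314)) (XT.lf (nat_lit 0) (nat_lit 1327046510) (nat_lit 456) (nat_lit 1367056606) (nat_lit 456) (nat_lit 1367056606) (nat_lit 223) (nat_lit 4) (nat_lit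 229) (nat_lit 5) (nat_lit 229) (nat_lit 4) (nat_lit 424) (nat_lit 388) (nat_lit 388)))))) (XT.nd (nat_lit 468) (nat_lit 3040) (nat_lit 0) (XT.nd (nat_lit 234) (nat_lit 1444) (nat_lit 0) (XT.nd (nat_lit 78) (nat_lit 1368) (nat_lit 0) (XT.lf (nat_lit 0) (nat_lit 3893247173) (nat_lit 456) (nat_lit 2352892682) (nat_lit 0) (nat_lit 2022245289) (nat_lit 217) (nat_lit 5) (nat_lit 223) (nat_lit 4) (nat_lit 217) (nat_lit 4) (nat_lit 425) (nat_lit 388) (nat_lit 387)) (XT.nd (nat_lit 78) (nat_lit 456) (nat_lit 0) (XT.lf (nat_lit 0) (nat_lit 882784426) (nat_lit 380) (nat_lit 1351547035) (nat_lit 456) (nat_lit 6188761862) (nat_lit 205) (nat_lit 5) (nat_lit 210) (nat_lit 5) (nat_lit 211) (nat_lit 4) (nat_lit 426) (nat_lit 388) (nat_lit 386)) (XT.lf (nat_lit 0) (nat_lit 429613531) (nat_lit 456) (nat_lit 4322022689) (nat_lit 76) (nat_lit 3834282602) (nat_lit 199) (nat_lit 5) (nat_lit 205) (nat_lit 5) (nat_lit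 200) (nat_lit 4) (nat_lit 427) (nat_lit 388) (nat_lit 385)))) (XT.nd (nat_lit 78) (nat_lit 1140) (nat_lit 0) (XT.lf (nat_lit 0) (nat_lit 7157789197) (nat_lit 380) (nat_lit 1008597037) (nat_lit 0) (nat_lit 591473731) (nat_lit 195) (nat_lit 5) (nat_lit 200) (nat_lit 4) (nat_lit 195) (nat_lit 4) (nat_lit 428) (nat_lit 388) (nat_lit 384)) (XT.nd (nat_lit 78) (nat_lit 380) (nat_lit 0) (XT.lf (nat_lit 0) (nat_lit 2431731008) (nat_lit 304) (nat_lit 2715541655) (nat_lit 380) (nat_lit 3790626952) (nat_lit 185) (nat_lit 5) (nat_lit 189) (nat_lit 5) (nat_lit 190) (nat_lit 4) (nat_lit 429) (nat_lit 388) (nat_lit 383)) (XT.lf (nat_lit 0) (nat_lit 2954275030) (nat_lit 380) (nat_lit 3128120956) (nat_lit 76) (nat_lit 3044945977) (nat_lit 180) (nat_lit 5) (nat_lit 185) (nat_lit 5) (nat_lit 181) (nat_lit 4) (nat_lit 430) (nat_lit 388) (nat_lit 382))))) (XT.nd (nat_lit 234) (nat_lit 1672) (nat_lit 0) (XT.nd (nat_lit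 78) (nat_lit 684) (nat_lit 0) (XT.lf (nat_lit 0) (nat_lit 360378782) (nat_lit 304) (nat_lit 200943938) (nat_lit 380) (nat_lit 8765416854) (nat_lit 171) (nat_lit 5) (nat_lit 175) (nat_lit 5) (nat_lit 176) (nat_lit 5) (nat_lit 431) (nat_lit 388) (nat_lit 381)) (XT.nd (nat_lit 78) (nat_lit 380) (nat_lit 0) (XT.lf (nat_lit 0) (nat_lit 3969148181) (nat_lit 304) (nat_lit 3543438147) (nat_lit 380) (nat_lit 2021466658) (nat_lit 167) (nat_lit 5) (nat_lit 171) (nat_lit 5) (nat_lit 172) (nat_lit 4) (nat_lit 432) (nat_lit 388) (nat_lit 380)) (XT.lf (nat_lit 0) (nat_lit 4913458636) (nat_lit 380) (nat_lit 2070876427) (nat_lit 76) (nat_lit 2767375720) (nat_lit 162) (nat_lit 5) (nat_lit 167) (nat_lit 5) (nat_lit 163) (nat_lit 4) (nat_lit 433) (nat_lit 388) (nat_lit 379)))) (XT.nd (nat_lit 156) (nat_lit 836) (nat_lit 0) (XT.nd (nat_lit 78) (nat_lit 228) (nat_lit 0) (XT.lf (nat_lit 0) (nat_lit 1548862622) (nat_lit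 304) (nat_lit 564516038) (nat_lit 380) (nat_lit 7866193988) (nat_lit 154) (nat_lit 5) (nat_lit 158) (nat_lit 5) (nat_lit 159) (nat_lit 5) (nat_lit 434) (nat_lit 388) (nat_lit 378)) (XT.lf (nat_lit 0) (nat_lit 5277596350) (nat_lit 228) (nat_lit 4054415854) (nat_lit 304) (nat_lit 884805344) (nat_lit 151) (nat_lit 5) (nat_lit 154) (nat_lit 5) (nat_lit 155) (nat_lit 4) (nat_lit 435) (nat_lit 388) (nat_lit 377))) (XT.nd (nat_lit 78) (nat_lit 532) (nat_lit 0) (XT.lf (nat_lit 0) (nat_lit 6297044448) (nat_lit 304) (nat_lit 1374808165) (nat_lit 76) (nat_lit 2792908893) (nat_lit 147) (nat_lit 5) (nat_lit 151) (nat_lit 5) (nat_lit 148) (nat_lit 4) (nat_lit 436) (nat_lit 388) (nat_lit 376)) (XT.lf (nat_lit 0) (nat_lit 2324796852) (nat_lit 228) (nat_lit 724601666) (nat_lit 304) (nat_lit 7674110451) (nat_lit 140) (nat_lit 5) (nat_lit 143) (nat_lit 5) (nat_lit 144) (nat_lit 5) (nat_lit 437) (nat_lit 388) (nat_lit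 375))))))) (XT.nd (nat_lit 1014) (nat_lit 2432) (nat_lit 0) (XT.nd (nat_lit 468) (nat_lit 1520) (nat_lit 0) (XT.nd (nat_lit 234) (nat_lit 912) (nat_lit 0) (XT.nd (nat_lit 78) (nat_lit 760) (nat_lit 0) (XT.lf (nat_lit 0) (nat_lit 6119780734) (nat_lit 228) (nat_lit 4457039088) (nat_lit 304) (nat_lit 416076115) (nat_lit 137) (nat_lit 5) (nat_lit 140) (nat_lit 5) (nat_lit 141) (nat_lit 4) (nat_lit 438) (nat_lit 388) (nat_lit 374)) (XT.nd (nat_lit 78) (nat_lit 456) (nat_lit 0) (XT.lf (nat_lit 0) (nat_lit 7063888147) (nat_lit 304) (nat_lit 1288600151) (nat_lit 76) (nat_lit 2921206301) (nat_lit 133) (nat_lit 5) (nat_lit 137) (nat_lit 5) (nat_lit 134) (nat_lit 4) (nat_lit 439) (nat_lit 388) (nat_lit 373)) (XT.lf (nat_lit 0) (nat_lit 2426946750) (nat_lit 228) (nat_lit 887982952) (nat_lit 304) (nat_lit 8251345961) (nat_lit 127) (nat_lit 5) (nat_lit 130) (nat_lit 5) (nat_lit 131) (nat_lit 5) (nat_lit 440)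 (nat_lit 388) (nat_lit 372)))) (XT.nd (nat_lit 78) (nat_lit 760) (nat_lit 0) (XT.lf (nat_lit 0) (nat_lit 6227381711) (nat_lit 152) (nat_lit 4958794502) (nat_lit 228) (nat_lit 684346628) (nat_lit 125) (nat_lit 5) (nat_lit 127) (nat_lit 5) (nat_lit 128) (nat_lit 4) (nat_lit 441) (nat_lit 388) (nat_lit 371)) (XT.nd (nat_lit 78) (nat_lit 456) (nat_lit 0) (XT.lf (nat_lit 0) (nat_lit 7139665036) (nat_lit 304) (nat_lit 2096740887) (nat_lit 76) (nat_lit 2950879102) (nat_lit 121) (nat_lit 5) (nat_lit 125) (nat_lit 5) (nat_lit 122) (nat_lit 4) (nat_lit 442) (nat_lit 388) (nat_lit 370)) (XT.lf (nat_lit 0) (nat_lit 1554086992) (nat_lit 228) (nat_lit 1266640363) (nat_lit 304) (nat_lit 9696505691) (nat_lit 115) (nat_lit 5) (nat_lit 118) (nat_lit 5) (nat_lit 119) (nat_lit 5) (nat_lit 443) (nat_lit 388) (nat_lit 369))))) (XT.nd (nat_lit 234) (nat_lit 912) (nat_lit 0) (XT.nd (nat_lit 78) (nat_lit 456) (nat_lit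 0) (XT.lf (nat_lit 0) (nat_lit 5288134545) (nat_lit 152) (nat_lit 5775796327) (nat_lit 228) (nat_lit 1795679604) (nat_lit 113) (nat_lit 5) (nat_lit 115) (nat_lit 5) (nat_lit 116) (nat_lit 4) (nat_lit 444) (nat_lit 388) (nat_lit 368)) (XT.nd (nat_lit 78) (nat_lit 228) (nat_lit 0) (XT.lf (nat_lit 0) (nat_lit 6413066169) (nat_lit 228) (nat_lit 4133156080) (nat_lit 76) (nat_lit 2669824169) (nat_lit 110) (nat_lit 5) (nat_lit 113) (nat_lit 5) (nat_lit 111) (nat_lit 4) (nat_lit 445) (nat_lit 388) (nat_lit 367)) (XT.lf (nat_lit 0) (nat_lit 1444533209) (nat_lit 228) (nat_lit 636962906) (nat_lit 76) (nat_lit 11505876272) (nat_lit 107) (nat_lit 5) (nat_lit 110) (nat_lit 5) (nat_lit 108) (nat_lit 5) (nat_lit 446) (nat_lit 388) (nat_lit 366)))) (XT.nd (nat_lit 156) (nat_lit 380) (nat_lit 0) (XT.nd (nat_lit 78) (nat_lit 228) (nat_lit 0) (XT.lf (nat_lit 0) (nat_lit 2930433635) (nat_lit 152) (nat_lit 7143161120)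 (nat_lit 228) (nat_lit 3898358240) (nat_lit 103) (nat_lit 5) (nat_lit 105) (nat_lit 5) (nat_lit 106) (nat_lit 4) (nat_lit 447) (nat_lit 388) (nat_lit 365)) (XT.lf (nat_lit 0) (nat_lit 4730089712) (nat_lit 228) (nat_lit 7797607215) (nat_lit 76) (nat_lit 1844760334) (nat_lit 100) (nat_lit 5) (nat_lit 103) (nat_lit 5) (nat_lit 101) (nat_lit 4) (nat_lit 448) (nat_lit 388) (nat_lit 364))) (XT.nd (nat_lit 78) (nat_lit 228) (nat_lit 0) (XT.lf (nat_lit 0) (nat_lit 10257017141) (nat_lit 152) (nat_lit 3550408843) (nat_lit 228) (nat_lit 981464603) (nat_lit 98) (nat_lit 5) (nat_lit 100) (nat_lit 5) (nat_lit 101) (nat_lit 4) (nat_lit 449) (nat_lit 388) (nat_lit 363)) (XT.lf (nat_lit 0) (nat_lit 8043635164) (nat_lit 228) (nat_lit 1270152718) (nat_lit 76) (nat_lit 5907338708) (nat_lit 95) (nat_lit 5) (nat_lit 98) (nat_lit 5) (nat_lit 96) (nat_lit 4) (nat_lit 450) (nat_lit 388) (nat_lit 362)))))) (XT.nd (nat_lit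 546) (nat_lit 1064) (nat_lit 0) (XT.nd (nat_lit 234) (nat_lit 684) (nat_lit 0) (XT.nd (nat_lit 78) (nat_lit 304) (nat_lit 0) (XT.lf (nat_lit 0) (nat_lit 1886055918) (nat_lit 228) (nat_lit 13575814987) (nat_lit 76) (nat_lit 209389707) (nat_lit 90) (nat_lit 5) (nat_lit 93) (nat_lit 5) (nat_lit 91) (nat_lit 4) (nat_lit 451) (nat_lit 388) (nat_lit 361)) (XT.nd (nat_lit 78) (nat_lit 228) (nat_lit 0) (XT.lf (nat_lit 0) (nat_lit 5446853865) (nat_lit 76) (nat_lit 5959334882) (nat_lit 152) (nat_lit 4731028813) (nat_lit 89) (nat_lit 5) (nat_lit 90) (nat_lit 5) (nat_lit 91) (nat_lit 4) (nat_lit 452) (nat_lit 388) (nat_lit 360)) (XT.lf (nat_lit 0) (nat_lit 4771786129) (nat_lit 228) (nat_lit 7785577022) (nat_lit 76) (nat_lit 4065061588) (nat_lit 86) (nat_lit 5) (nat_lit 89) (nat_lit 5) (nat_lit 87) (nat_lit 4) (nat_lit 453) (nat_lit 388) (nat_lit 359)))) (XT.nd (nat_lit 156) (nat_lit 380) (nat_lit 0) (XT.nd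 (nat_lit 78) (nat_lit 228) (nat_lit 0) (XT.lf (nat_lit 0) (nat_lit 12240709336) (nat_lit 76) (nat_lit 2527770563) (nat_lit 152) (nat_lit 2358512837) (nat_lit 85) (nat_lit 5) (nat_lit 86) (nat_lit 5) (nat_lit 87) (nat_lit 4) (nat_lit 454) (nat_lit 388) (nat_lit 358)) (XT.lf (nat_lit 0) (nat_lit 7600319371) (nat_lit 228) (nat_lit 2040858933) (nat_lit 76) (nat_lit 8009202833) (nat_lit 82) (nat_lit 5) (nat_lit 85) (nat_lit 5) (nat_lit 83) (nat_lit 4) (nat_lit 455) (nat_lit 388) (nat_lit 357))) (XT.nd (nat_lit 78) (nat_lit 152) (nat_lit 0) (XT.lf (nat_lit 0) (nat_lit 853875472) (nat_lit 152) (nat_lit 17265498648) (nat_lit 152) (nat_lit 76535357) (nat_lit 79) (nat_lit 4) (nat_lit 81) (nat_lit 5) (nat_lit 81) (nat_lit 4) (nat_lit 456) (nat_lit 388) (nat_lit 356)) (XT.lf (nat_lit 0) (nat_lit 3675106371) (nat_lit 76) (nat_lit 6709857165) (nat_lit 152) (nat_lit 8374990831) (nat_lit 77) (nat_lit 5) (nat_lit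 78) (nat_lit 5) (nat_lit 79) (nat_lit 4) (nat_lit 457) (nat_lit 388) (nat_lit 355))))) (XT.nd (nat_lit 234) (nat_lit 532) (nat_lit 0) (XT.nd (nat_lit 78) (nat_lit 304) (nat_lit 0) (XT.lf (nat_lit 0) (nat_lit 2099307351) (nat_lit 228) (nat_lit 12838816994) (nat_lit 76) (nat_lit 4409789534) (nat_lit 74) (nat_lit 5) (nat_lit 77) (nat_lit 5) (nat_lit 75) (nat_lit 4) (nat_lit 458) (nat_lit 388) (nat_lit 354)) (XT.nd (nat_lit 78) (nat_lit 228) (nat_lit 0) (XT.lf (nat_lit 0) (nat_lit 9258757721) (nat_lit 76) (nat_lit 3820364970) (nat_lit 152) (nat_lit 6879013056) (nat_lit 73) (nat_lit 5) (nat_lit 74) (nat_lit 5) (nat_lit 75) (nat_lit 4) (nat_lit 459) (nat_lit 388) (nat_lit 353)) (XT.lf (nat_lit 0) (nat_lit 4099988104) (nat_lit 228) (nat_lit 8642262092) (nat_lit 76) (nat_lit 7850389737) (nat_lit 70) (nat_lit 5) (nat_lit 73) (nat_lit 5) (nat_lit 71) (nat_lit 4) (nat_lit 460) (nat_lit 388) (nat_lit 352))))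 (XT.nd (nat_lit 156) (nat_lit 228) (nat_lit 0) (XT.nd (nat_lit 78) (nat_lit 228) (nat_lit 0) (XT.lf (nat_lit 0) (nat_lit 14581616561) (nat_lit 76) (nat_lit 1041756781) (nat_lit 152) (nat_lit 5629323665) (nat_lit 69) (nat_lit 5) (nat_lit 70) (nat_lit 5) (nat_lit 71) (nat_lit 4) (nat_lit 461) (nat_lit 388) (nat_lit 351)) (XT.lf (nat_lit 0) (nat_lit 5878898549) (nat_lit 228) (nat_lit 4856512106) (nat_lit 76) (nat_lit 11202248308) (nat_lit 66) (nat_lit 5) (nat_lit 69) (nat_lit 5) (nat_lit 67) (nat_lit 4) (nat_lit 462) (nat_lit 388) (nat_lit 350))) (XT.nd (nat_lit 78) (nat_lit 152) (nat_lit 0) (XT.lf (nat_lit 0) (nat_lit 17982587487) (nat_lit 152) (nat_lit 3131697711) (nat_lit 0) (nat_lit 1536819166) (nat_lit 65) (nat_lit 5) (nat_lit 67) (nat_lit 4) (nat_lit 65) (nat_lit 4) (nat_lit 463) (nat_lit 388) (nat_lit 349)) (XT.lf (nat_lit 0) (nat_lit 7375887848) (nat_lit 152) (nat_lit 1609993112) (nat_lit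 76) (nat_lit 14405432271) (nat_lit 63) (nat_lit 5) (nat_lit 65) (nat_lit 5) (nat_lit 64) (nat_lit 4) (nat_lit 464) (nat_lit 388) (nat_lit 348))))))))
noncomputable def xc28 : XT := (XT.nd (nat_lit 2028) (nat_lit 684) (nat_lit 0) (XT.nd (nat_lit 1014) (nat_lit 1216) (nat_lit 0) (XT.nd (nat_lit 468) (nat_lit 684) (nat_lit 0) (XT.nd (nat_lit 234) (nat_lit 380) (nat_lit 0) (XT.nd (nat_lit 78) (nat_lit 304) (nat_lit 0) (XT.lf (nat_lit 0) (nat_lit 20086458856) (nat_lit 152) (nat_lit 216391037) (nat_lit 0) (nat_lit 3859482584) (nat_lit 62) (nat_lit 5) (nat_lit 64) (nat_lit 4) (nat_lit 62) (nat_lit 4) (nat_lit 465) (nat_lit 388) (nat_lit 347)) (XT.nd (nat_lit 78) (nat_lit 76) (nat_lit 0) (XT.lf (nat_lit 0) (nat_lit 959505919) (nat_lit 76) (nat_lit 7566292088) (nat_lit 152) (nat_lit 16436759058) (nat_lit 59) (nat_lit 5) (nat_lit 60) (nat_lit 5) (nat_lit 61) (nat_lit 4) (nat_lit 466) (nat_lit 388) (nat_lit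 346)) (XT.lf (nat_lit 0) (nat_lit 1950418578) (nat_lit 76) (nat_lit 19914453564) (nat_lit 76) (nat_lit 3930963039) (nat_lit 58) (nat_lit 4) (nat_lit 59) (nat_lit 5) (nat_lit 59) (nat_lit 4) (nat_lit 467) (nat_lit 388) (nat_lit 345)))) (XT.nd (nat_lit 78) (nat_lit 228) (nat_lit 0) (XT.lf (nat_lit 0) (nat_lit 2657740635) (nat_lit 76) (nat_lit 6577572799) (nat_lit 152) (nat_lit 17426370387) (nat_lit 56) (nat_lit 5) (nat_lit 57) (nat_lit 5) (nat_lit 58) (nat_lit 4) (nat_lit 468) (nat_lit 388) (nat_lit 344)) (XT.nd (nat_lit 78) (nat_lit 152) (nat_lit 0) (XT.lf (nat_lit 0) (nat_lit 3106231840) (nat_lit 76) (nat_lit 20088343421) (nat_lit 76) (nat_lit 4368604141) (nat_lit 55) (nat_lit 4) (nat_lit 56) (nat_lit 5) (nat_lit 56) (nat_lit 4) (nat_lit 469) (nat_lit 388) (nat_lit 343)) (XT.lf (nat_lit 0) (nat_lit 3218462859) (nat_lit 76) (nat_lit 6156880834) (nat_lit 152) (nat_lit 19125245441) (nat_lit 53) (nat_lit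 5) (nat_lit 54) (nat_lit 5) (nat_lit 55) (nat_lit 4) (nat_lit 470) (nat_lit 388) (nat_lit 342))))) (XT.nd (nat_lit 234) (nat_lit 380) (nat_lit 0) (XT.nd (nat_lit 78) (nat_lit 228) (nat_lit 0) (XT.lf (nat_lit 0) (nat_lit 2989545455) (nat_lit 76) (nat_lit 20963253270) (nat_lit 76) (nat_lit 5523674316) (nat_lit 52) (nat_lit 4) (nat_lit 53) (nat_lit 5) (nat_lit 53) (nat_lit 4) (nat_lit 471) (nat_lit 388) (nat_lit 341)) (XT.nd (nat_lit 78) (nat_lit 76) (nat_lit 0) (XT.lf (nat_lit 0) (nat_lit 2359451837) (nat_lit 76) (nat_lit 6449210317) (nat_lit 152) (nat_lit 21683316779) (nat_lit 50) (nat_lit 5) (nat_lit 51) (nat_lit 5) (nat_lit 52) (nat_lit 4) (nat_lit 472) (nat_lit 388) (nat_lit 340)) (XT.lf (nat_lit 0) (nat_lit 1290900609) (nat_lit 76) (nat_lit 22702294462) (nat_lit 76) (nat_lit 7555930766) (nat_lit 49) (nat_lit 4) (nat_lit 50) (nat_lit 5) (nat_lit 50) (nat_lit 4) (nat_lit 473) (nat_lit 388) (nat_lit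 339)))) (XT.nd (nat_lit 156) (nat_lit 228) (nat_lit 0) (XT.nd (nat_lit 78) (nat_lit 76) (nat_lit 0) (XT.lf (nat_lit 0) (nat_lit 7372281457) (nat_lit 152) (nat_lit 253329766) (nat_lit 76) (nat_lit 25024326766) (nat_lit 48) (nat_lit 5) (nat_lit 50) (nat_lit 5) (nat_lit 49) (nat_lit 4) (nat_lit 474) (nat_lit 388) (nat_lit 338)) (XT.lf (nat_lit 0) (nat_lit 23161741210) (nat_lit 152) (nat_lit 2314938246) (nat_lit 0) (nat_lit 8318734635) (nat_lit 47) (nat_lit 5) (nat_lit 49) (nat_lit 4) (nat_lit 47) (nat_lit 4) (nat_lit 475) (nat_lit 388) (nat_lit 337))) (XT.nd (nat_lit 78) (nat_lit 76) (nat_lit 0) (XT.lf (nat_lit 0) (nat_lit 4908405684) (nat_lit 152) (nat_lit 4942961202) (nat_lit 76) (nat_lit 25137677066) (nat_lit 45) (nat_lit 5) (nat_lit 47) (nat_lit 5) (nat_lit 46) (nat_lit 4) (nat_lit 476) (nat_lit 388) (nat_lit 336)) (XT.lf (nat_lit 0) (nat_lit 21258609583) (nat_lit 152) (nat_lit 8246483517) (nat_lit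 0) (nat_lit 6726576161) (nat_lit 44) (nat_lit 5) (nat_lit 46) (nat_lit 4) (nat_lit 44) (nat_lit 4) (nat_lit 477) (nat_lit 388) (nat_lit 335)))))) (XT.nd (nat_lit 468) (nat_lit 608) (nat_lit 0) (XT.nd (nat_lit 234) (nat_lit 304) (nat_lit 0) (XT.nd (nat_lit 78) (nat_lit 152) (nat_lit 0) (XT.lf (nat_lit 0) (nat_lit 1160896588) (nat_lit 152) (nat_lit 12231788457) (nat_lit 76) (nat_lit 24134833925) (nat_lit 42) (nat_lit 5) (nat_lit 44) (nat_lit 5) (nat_lit 43) (nat_lit 4) (nat_lit 478) (nat_lit 388) (nat_lit 334)) (XT.nd (nat_lit 78) (nat_lit 76) (nat_lit 0) (XT.lf (nat_lit 0) (nat_lit 18021564759) (nat_lit 152) (nat_lit 17049324657) (nat_lit 0) (nat_lit 3805934552) (nat_lit 41) (nat_lit 5) (nat_lit 43) (nat_lit 4) (nat_lit 41) (nat_lit 4) (nat_lit 479) (nat_lit 388) (nat_lit 333)) (XT.lf (nat_lit 0) (nat_lit 17555038351) (nat_lit 76) (nat_lit 18497013830) (nat_lit 76) (nat_lit 4231739072) (nat_lit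 40) (nat_lit 4) (nat_lit 41) (nat_lit 5) (nat_lit 41) (nat_lit 4) (nat_lit 480) (nat_lit 388) (nat_lit 332)))) (XT.nd (nat_lit 78) (nat_lit 152) (nat_lit 0) (XT.lf (nat_lit 0) (nat_lit 12400433889) (nat_lit 76) (nat_lit 758674077) (nat_lit 152) (nat_lit 28592360939) (nat_lit 38) (nat_lit 5) (nat_lit 39) (nat_lit 5) (nat_lit 40) (nat_lit 4) (nat_lit 481) (nat_lit 388) (nat_lit 331)) (XT.nd (nat_lit 78) (nat_lit 76) (nat_lit 0) (XT.lf (nat_lit 0) (nat_lit 6180375648) (nat_lit 76) (nat_lit 25519629927) (nat_lit 76) (nat_lit 11580227641) (nat_lit 37) (nat_lit 4) (nat_lit 38) (nat_lit 5) (nat_lit 38) (nat_lit 4) (nat_lit 482) (nat_lit 388) (nat_lit 330)) (XT.lf (nat_lit 0) (nat_lit 6374431182) (nat_lit 152) (nat_lit 1040942740) (nat_lit 76) (nat_lit 37461815180) (nat_lit 36) (nat_lit 5) (nat_lit 38) (nat_lit 5) (nat_lit 37) (nat_lit 4) (nat_lit 483) (nat_lit 388) (nat_lit 329))))) (XT.nd (nat_lit 234)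 (nat_lit 304) (nat_lit 0) (XT.nd (nat_lit 78) (nat_lit 228) (nat_lit 0) (XT.lf (nat_lit 0) (nat_lit 25369238064) (nat_lit 152) (nat_lit 9412941600) (nat_lit 0) (nat_lit 11756916565) (nat_lit 35) (nat_lit 5) (nat_lit 37) (nat_lit 4) (nat_lit 35) (nat_lit 4) (nat_lit 484) (nat_lit 388) (nat_lit 328)) (XT.nd (nat_lit 78) (nat_lit 152) (nat_lit 0) (XT.lf (nat_lit 0) (nat_lit 29252986848) (nat_lit 76) (nat_lit 16335922503) (nat_lit 76) (nat_lit 2686936092) (nat_lit 34) (nat_lit 4) (nat_lit 35) (nat_lit 5) (nat_lit 35) (nat_lit 4) (nat_lit 485) (nat_lit 388) (nat_lit 327)) (XT.lf (nat_lit 0) (nat_lit 16626792013) (nat_lit 152) (nat_lit 30119383912) (nat_lit 0) (nat_lit 3341446990) (nat_lit 32) (nat_lit 5) (nat_lit 34) (nat_lit 4) (nat_lit 32) (nat_lit 4) (nat_lit 486) (nat_lit 388) (nat_lit 326)))) (XT.nd (nat_lit 156) (nat_lit 152) (nat_lit 0) (XT.nd (nat_lit 78) (nat_lit 76) (nat_lit 0) (XT.lf (nat_lit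 0) (nat_lit 9130840996) (nat_lit 76) (nat_lit 28082550239) (nat_lit 76) (nat_lit 14764917687) (nat_lit 31) (nat_lit 4) (nat_lit 32) (nat_lit 5) (nat_lit 32) (nat_lit 4) (nat_lit 487) (nat_lit 388) (nat_lit 325)) (XT.lf (nat_lit 0) (nat_lit 4997496852) (nat_lit 152) (nat_lit 3203463970) (nat_lit 76) (nat_lit 45754365943) (nat_lit 30) (nat_lit 5) (nat_lit 32) (nat_lit 5) (nat_lit 31) (nat_lit 4) (nat_lit 488) (nat_lit 388) (nat_lit 324))) (XT.nd (nat_lit 78) (nat_lit 76) (nat_lit 0) (XT.lf (nat_lit 0) (nat_lit 25863007817) (nat_lit 152) (nat_lit 17276211992) (nat_lit 0) (nat_lit 12874980320) (nat_lit 29) (nat_lit 5) (nat_lit 31) (nat_lit 4) (nat_lit 29) (nat_lit 4) (nat_lit 489) (nat_lit 388) (nat_lit 323)) (XT.lf (nat_lit 0) (nat_lit 24910319361) (nat_lit 76) (nat_lit 23136280146) (nat_lit 76) (nat_lit 10121173832) (nat_lit 28) (nat_lit 4) (nat_lit 29) (nat_lit 5) (nat_lit 29) (nat_lit 4) (nat_lit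 490) (nat_lit 388) (nat_lit 322))))))) (XT.nd (nat_lit 57408) (nat_lit 0) (nat_lit 8664) (XT.nd (nat_lit 468) (nat_lit 228) (nat_lit 0) (XT.nd (nat_lit 234) (nat_lit 228) (nat_lit 0) (XT.nd (nat_lit 78) (nat_lit 76) (nat_lit 0) (XT.lf (nat_lit 0) (nat_lit 9055521663) (nat_lit 76) (nat_lit 1829412980) (nat_lit 152) (nat_lit 49535319893) (nat_lit 26) (nat_lit 5) (nat_lit 27) (nat_lit 5) (nat_lit 28) (nat_lit 4) (nat_lit 491) (nat_lit 388) (nat_lit 321)) (XT.nd (nat_lit 78) (nat_lit 76) (nat_lit 0) (XT.lf (nat_lit 0) (nat_lit 33199583498) (nat_lit 152) (nat_lit 9054069774) (nat_lit 0) (nat_lit 20514673837) (nat_lit 26) (nat_lit 5) (nat_lit 28) (nat_lit 4) (nat_lit 26) (nat_lit 4) (nat_lit 492) (nat_lit 388) (nat_lit 320)) (XT.lf (nat_lit 0) (nat_lit 35906620055) (nat_lit 76) (nat_lit 21013056122) (nat_lit 76) (nat_lit 8305436072) (nat_lit 25) (nat_lit 4) (nat_lit 26) (nat_lit 5) (nat_lit 26) (nat_lit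 4) (nat_lit 493) (nat_lit 388) (nat_lit 319)))) (XT.nd (nat_lit 78) (nat_lit 76) (nat_lit 0) (XT.lf (nat_lit 0) (nat_lit 13933761116) (nat_lit 152) (nat_lit 52286075722) (nat_lit 0) (nat_lit 1575266949) (nat_lit 23) (nat_lit 5) (nat_lit 25) (nat_lit 4) (nat_lit 23) (nat_lit 4) (nat_lit 494) (nat_lit 388) (nat_lit 318)) (XT.nd (nat_lit 78) (nat_lit 76) (nat_lit 0) (XT.lf (nat_lit 0) (nat_lit 37560573360) (nat_lit 152) (nat_lit 7735051925) (nat_lit 0) (nat_lit 25182080172) (nat_lit 23) (nat_lit 5) (nat_lit 25) (nat_lit 4) (nat_lit 23) (nat_lit 4) (nat_lit 495) (nat_lit 388) (nat_lit 317)) (XT.lf (nat_lit 0) (nat_lit 39682442817) (nat_lit 76) (nat_lit 23000060595) (nat_lit 76) (nat_lit 10602520719) (nat_lit 22) (nat_lit 4) (nat_lit 23) (nat_lit 5) (nat_lit 23) (nat_lit 4) (nat_lit 496) (nat_lit 388) (nat_lit 316))))) (XT.nd (nat_lit 56628) (nat_lit 0) (nat_lit 15048) (XT.nd (nat_lit 78) (nat_lit 76)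 (nat_lit 0) (XT.lf (nat_lit 0) (nat_lit 12727022538) (nat_lit 152) (nat_lit 62824536908) (nat_lit 0) (nat_lit 672964695) (nat_lit 20) (nat_lit 5) (nat_lit 22) (nat_lit 4) (nat_lit 20) (nat_lit 4) (nat_lit 497) (nat_lit 388) (nat_lit 315)) (XT.nd (nat_lit 78) (nat_lit 76) (nat_lit 0) (XT.lf (nat_lit 0) (nat_lit 37522215079) (nat_lit 152) (nat_lit 16318697049) (nat_lit 0) (nat_lit 25451384512) (nat_lit 20) (nat_lit 5) (nat_lit 22) (nat_lit 4) (nat_lit 20) (nat_lit 4) (nat_lit 498) (nat_lit 388) (nat_lit 314)) (XT.lf (nat_lit 0) (nat_lit 33032862398) (nat_lit 76) (nat_lit 30779866650) (nat_lit 76) (nat_lit 18693062059) (nat_lit 19) (nat_lit 4) (nat_lit 20) (nat_lit 5) (nat_lit 20) (nat_lit 4) (nat_lit 499) (nat_lit 388) (nat_lit 313)))) (XT.nd (nat_lit 156) (nat_lit 1368) (nat_lit 0) (XT.nd (nat_lit 78) (nat_lit 532) (nat_lit 0) (XT.lf (nat_lit 0) (nat_lit 1139189695) (nat_lit 532) (nat_lit 1647165368)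 (nat_lit 0) (nat_lit 1139189695) (nat_lit 242) (nat_lit 5) (nat_lit 249) (nat_lit 4) (nat_lit 242) (nat_lit 4) (nat_lit 422) (nat_lit 389) (nat_lit 389)) (XT.lf (nat_lit 0) (nat_lit 789776820) (nat_lit 532) (nat_lit 480946247) (nat_lit 76) (nat_lit 6714302908) (nat_lit 235) (nat_lit 5) (nat_lit 242) (nat_lit 5) (nat_lit 236) (nat_lit 4) (nat_lit 423) (nat_lit 389) (nat_lit 388))) (XT.nd (nat_lit 78) (nat_lit 456) (nat_lit 0) (XT.lf (nat_lit 0) (nat_lit 2471149247) (nat_lit 456) (nat_lit 4802964864) (nat_lit 456) (nat_lit 852344386) (nat_lit 223) (nat_lit 4) (nat_lit 229) (nat_lit 5) (nat_lit 229) (nat_lit 4) (nat_lit 424) (nat_lit 389) (nat_lit 387)) (XT.lf (nat_lit 0) (nat_lit 5546261433) (nat_lit 380) (nat_lit 36125593) (nat_lit 456) (nat_lit 2694282532) (nat_lit 217) (nat_lit 5) (nat_lit 222) (nat_lit 5) (nat_lit 223) (nat_lit 4) (nat_lit 425) (nat_lit 389) (nat_lit 386)))))) (XT.nd (nat_lit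 546) (nat_lit 2584) (nat_lit 0) (XT.nd (nat_lit 234) (nat_lit 2128) (nat_lit 0) (XT.nd (nat_lit 78) (nat_lit 760) (nat_lit 0) (XT.lf (nat_lit 0) (nat_lit 280503888) (nat_lit 380) (nat_lit 3460884372) (nat_lit 456) (nat_lit 4693744671) (nat_lit 205) (nat_lit 5) (nat_lit 210) (nat_lit 5) (nat_lit 211) (nat_lit 4) (nat_lit 426) (nat_lit 389) (nat_lit 385)) (XT.nd (nat_lit 78) (nat_lit 304) (nat_lit 0) (XT.lf (nat_lit 0) (nat_lit 1739004843) (nat_lit 456) (nat_lit 5140457115) (nat_lit 76) (nat_lit 1722768120) (nat_lit 199) (nat_lit 5) (nat_lit 205) (nat_lit 5) (nat_lit 200) (nat_lit 4) (nat_lit 427) (nat_lit 389) (nat_lit 384)) (XT.lf (nat_lit 0) (nat_lit 6740201237) (nat_lit 304) (nat_lit 1587524245) (nat_lit 380) (nat_lit 450638148) (nat_lit 195) (nat_lit 5) (nat_lit 199) (nat_lit 5) (nat_lit 200) (nat_lit 4) (nat_lit 428) (nat_lit 389) (nat_lit 383)))) (XT.nd (nat_lit 156) (nat_lit 988) (nat_lit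 0) (XT.nd (nat_lit 78) (nat_lit 380) (nat_lit 0) (XT.lf (nat_lit 0) (nat_lit 1159596561) (nat_lit 304) (nat_lit 4953917460) (nat_lit 380) (nat_lit 2849388736) (nat_lit 185) (nat_lit 5) (nat_lit 189) (nat_lit 5) (nat_lit 190) (nat_lit 4) (nat_lit 429) (nat_lit 389) (nat_lit 382)) (XT.lf (nat_lit 0) (nat_lit 3720377271) (nat_lit 380) (nat_lit 4648470471) (nat_lit 76) (nat_lit 787936488) (nat_lit 180) (nat_lit 5) (nat_lit 185) (nat_lit 5) (nat_lit 181) (nat_lit 4) (nat_lit 430) (nat_lit 389) (nat_lit 381))) (XT.nd (nat_lit 78) (nat_lit 608) (nat_lit 0) (XT.lf (nat_lit 0) (nat_lit 1145608233) (nat_lit 380) (nat_lit 1415783668) (nat_lit 76) (nat_lit 6798724414) (nat_lit 175) (nat_lit 5) (nat_lit 180) (nat_lit 5) (nat_lit 176) (nat_lit 5) (nat_lit 431) (nat_lit 389) (nat_lit 380)) (XT.lf (nat_lit 0) (nat_lit 1934769007) (nat_lit 304) (nat_lit 5989763691) (nat_lit 380) (nat_lit 1648073797) (nat_lit 167)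 (nat_lit 5) (nat_lit 171) (nat_lit 5) (nat_lit 172) (nat_lit 4) (nat_lit 432) (nat_lit 389) (nat_lit 379))))) (XT.nd (nat_lit 234) (nat_lit 1368) (nat_lit 0) (XT.nd (nat_lit 78) (nat_lit 836) (nat_lit 0) (XT.lf (nat_lit 0) (nat_lit 5119830591) (nat_lit 380) (nat_lit 4386942983) (nat_lit 76) (nat_lit 288181178) (nat_lit 162) (nat_lit 5) (nat_lit 167) (nat_lit 5) (nat_lit 163) (nat_lit 4) (nat_lit 433) (nat_lit 389) (nat_lit 378)) (XT.nd (nat_lit 78) (nat_lit 532) (nat_lit 0) (XT.lf (nat_lit 0) (nat_lit 2122496988) (nat_lit 304) (nat_lit 1068646822) (nat_lit 76) (nat_lit 6836156195) (nat_lit 158) (nat_lit 5) (nat_lit 162) (nat_lit 5) (nat_lit 159) (nat_lit 5) (nat_lit 434) (nat_lit 389) (nat_lit 377)) (XT.lf (nat_lit 0) (nat_lit 2382274772) (nat_lit 228) (nat_lit 6785261569) (nat_lit 304) (nat_lit 1102221760) (nat_lit 151) (nat_lit 5) (nat_lit 154) (nat_lit 5) (nat_lit 155) (nat_lit 4) (nat_lit 435)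 (nat_lit 389) (nat_lit 376)))) (XT.nd (nat_lit 156) (nat_lit 760) (nat_lit 0) (XT.nd (nat_lit 78) (nat_lit 304) (nat_lit 0) (XT.lf (nat_lit 0) (nat_lit 5918646097) (nat_lit 304) (nat_lit 4587431753) (nat_lit 76) (nat_lit 16648606) (nat_lit 147) (nat_lit 5) (nat_lit 151) (nat_lit 5) (nat_lit 148) (nat_lit 4) (nat_lit 436) (nat_lit 389) (nat_lit 375)) (XT.lf (nat_lit 0) (nat_lit 2460097341) (nat_lit 304) (nat_lit 1229002963) (nat_lit 76) (nat_lit 7097347629) (nat_lit 143) (nat_lit 5) (nat_lit 147) (nat_lit 5) (nat_lit 144) (nat_lit 5) (nat_lit 437) (nat_lit 389) (nat_lit 374))) (XT.nd (nat_lit 78) (nat_lit 304) (nat_lit 0) (XT.lf (nat_lit 0) (nat_lit 2256608478) (nat_lit 228) (nat_lit 7548606219) (nat_lit 304) (nat_lit 1256093695) (nat_lit 137) (nat_lit 5) (nat_lit 140) (nat_lit 5) (nat_lit 141) (nat_lit 4) (nat_lit 438) (nat_lit 389) (nat_lit 373)) (XT.lf (nat_lit 0) (nat_lit 5837707501) (nat_lit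 228) (nat_lit 231599104) (nat_lit 304) (nat_lit 5278175406) (nat_lit 133) (nat_lit 5) (nat_lit 136) (nat_lit 5) (nat_lit 137) (nat_lit 5) (nat_lit 439) (nat_lit 389) (nat_lit 372))))))))
noncomputable def xc29 : XT := (XT.nd (nat_lit 2028) (nat_lit 2736) (nat_lit 0) (XT.nd (nat_lit 1014) (nat_lit 2128) (nat_lit 0) (XT.nd (nat_lit 468) (nat_lit 1520) (nat_lit 0) (XT.nd (nat_lit 234) (nat_lit 836) (nat_lit 0) (XT.nd (nat_lit 78) (nat_lit 684) (nat_lit 0) (XT.lf (nat_lit 0) (nat_lit 2097834334) (nat_lit 228) (nat_lit 2162385413) (nat_lit 76) (nat_lit 7385242384) (nat_lit 130) (nat_lit 5) (nat_lit 133) (nat_lit 5) (nat_lit 131) (nat_lit 5) (nat_lit 440) (nat_lit 389) (nat_lit 371)) (XT.nd (nat_lit 78) (nat_lit 304) (nat_lit 0) (XT.lf (nat_lit 0) (nat_lit 1279308902) (nat_lit 152) (nat_lit 8488715143) (nat_lit 228) (nat_lit 2187720527) (nat_lit 125) (nat_lit 5) (nat_lit 127) (nat_lit 5) (nat_lit 128)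 (nat_lit 4) (nat_lit 441) (nat_lit 389) (nat_lit 370)) (XT.lf (nat_lit 0) (nat_lit 4829283342) (nat_lit 228) (nat_lit 659067292) (nat_lit 304) (nat_lit 6789911257) (nat_lit 121) (nat_lit 5) (nat_lit 124) (nat_lit 5) (nat_lit 125) (nat_lit 5) (nat_lit 442) (nat_lit 389) (nat_lit 369)))) (XT.nd (nat_lit 78) (nat_lit 608) (nat_lit 0) (XT.lf (nat_lit 0) (nat_lit 940485629) (nat_lit 228) (nat_lit 4175491717) (nat_lit 76) (nat_lit 7497896515) (nat_lit 118) (nat_lit 5) (nat_lit 121) (nat_lit 5) (nat_lit 119) (nat_lit 5) (nat_lit 443) (nat_lit 389) (nat_lit 368)) (XT.nd (nat_lit 78) (nat_lit 380) (nat_lit 0) (XT.lf (nat_lit 0) (nat_lit 8959188189) (nat_lit 304) (nat_lit 856976024) (nat_lit 76) (nat_lit 3146825004) (nat_lit 115) (nat_lit 5) (nat_lit 119) (nat_lit 5) (nat_lit 116) (nat_lit 4) (nat_lit 444) (nat_lit 389) (nat_lit 367)) (XT.lf (nat_lit 0) (nat_lit 2571984654) (nat_lit 152) (nat_lit 1485264565)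 (nat_lit 228) (nat_lit 9268538912) (nat_lit 110) (nat_lit 5) (nat_lit 112) (nat_lit 5) (nat_lit 113) (nat_lit 5) (nat_lit 445) (nat_lit 389) (nat_lit 366))))) (XT.nd (nat_lit 234) (nat_lit 912) (nat_lit 0) (XT.nd (nat_lit 78) (nat_lit 456) (nat_lit 0) (XT.lf (nat_lit 0) (nat_lit 6060818233) (nat_lit 152) (nat_lit 6472736035) (nat_lit 228) (nat_lit 1169138497) (nat_lit 108) (nat_lit 5) (nat_lit 110) (nat_lit 5) (nat_lit 111) (nat_lit 4) (nat_lit 446) (nat_lit 389) (nat_lit 365)) (XT.nd (nat_lit 78) (nat_lit 228) (nat_lit 0) (XT.lf (nat_lit 0) (nat_lit 7251605834) (nat_lit 228) (nat_lit 4499720460) (nat_lit 76) (nat_lit 2343220531) (nat_lit 105) (nat_lit 5) (nat_lit 108) (nat_lit 5) (nat_lit 106) (nat_lit 4) (nat_lit 447) (nat_lit 389) (nat_lit 364)) (XT.lf (nat_lit 0) (nat_lit 1627481433) (nat_lit 228) (nat_lit 1312505158) (nat_lit 76) (nat_lit 11562380385) (nat_lit 102) (nat_lit 5) (nat_lit 105)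 (nat_lit 5) (nat_lit 103) (nat_lit 5) (nat_lit 448) (nat_lit 389) (nat_lit 363)))) (XT.nd (nat_lit 156) (nat_lit 380) (nat_lit 0) (XT.nd (nat_lit 78) (nat_lit 228) (nat_lit 0) (XT.lf (nat_lit 0) (nat_lit 1919229979) (nat_lit 152) (nat_lit 8576777509) (nat_lit 228) (nat_lit 4429059199) (nat_lit 98) (nat_lit 5) (nat_lit 100) (nat_lit 5) (nat_lit 101) (nat_lit 4) (nat_lit 449) (nat_lit 389) (nat_lit 362)) (XT.lf (nat_lit 0) (nat_lit 4443284575) (nat_lit 228) (nat_lit 10131019912) (nat_lit 76) (nat_lit 790595265) (nat_lit 95) (nat_lit 5) (nat_lit 98) (nat_lit 5) (nat_lit 96) (nat_lit 4) (nat_lit 450) (nat_lit 389) (nat_lit 361))) (XT.nd (nat_lit 78) (nat_lit 228) (nat_lit 0) (XT.lf (nat_lit 0) (nat_lit 8552934884) (nat_lit 152) (nat_lit 5248109105) (nat_lit 228) (nat_lit 2020366724) (nat_lit 93) (nat_lit 5) (nat_lit 95) (nat_lit 5) (nat_lit 96) (nat_lit 4) (nat_lit 451) (nat_lit 389) (nat_lit 360))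 (XT.lf (nat_lit 0) (nat_lit 7280358831) (nat_lit 228) (nat_lit 4405929779) (nat_lit 76) (nat_lit 4609428332) (nat_lit 90) (nat_lit 5) (nat_lit 93) (nat_lit 5) (nat_lit 91) (nat_lit 4) (nat_lit 452) (nat_lit 389) (nat_lit 359)))))) (XT.nd (nat_lit 468) (nat_lit 1140) (nat_lit 0) (XT.nd (nat_lit 234) (nat_lit 380) (nat_lit 0) (XT.nd (nat_lit 78) (nat_lit 456) (nat_lit 0) (XT.lf (nat_lit 0) (nat_lit 319918580) (nat_lit 152) (nat_lit 1507363775) (nat_lit 76) (nat_lit 14962413066) (nat_lit 88) (nat_lit 5) (nat_lit 90) (nat_lit 5) (nat_lit 89) (nat_lit 5) (nat_lit 453) (nat_lit 389) (nat_lit 358)) (XT.nd (nat_lit 78) (nat_lit 228) (nat_lit 0) (XT.lf (nat_lit 0) (nat_lit 1353341397) (nat_lit 76) (nat_lit 8745624667) (nat_lit 152) (nat_lit 7201828234) (nat_lit 85) (nat_lit 5) (nat_lit 86) (nat_lit 5) (nat_lit 87) (nat_lit 4) (nat_lit 454) (nat_lit 389) (nat_lit 357)) (XT.lf (nat_lit 0) (nat_lit 2601249954)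 (nat_lit 228) (nat_lit 13544451325) (nat_lit 76) (nat_lit 1687387442) (nat_lit 82) (nat_lit 5) (nat_lit 85) (nat_lit 5) (nat_lit 83) (nat_lit 4) (nat_lit 455) (nat_lit 389) (nat_lit 356)))) (XT.nd (nat_lit 78) (nat_lit 304) (nat_lit 0) (XT.lf (nat_lit 0) (nat_lit 7161890601) (nat_lit 76) (nat_lit 5749837399) (nat_lit 152) (nat_lit 5473147674) (nat_lit 81) (nat_lit 5) (nat_lit 82) (nat_lit 5) (nat_lit 83) (nat_lit 4) (nat_lit 456) (nat_lit 389) (nat_lit 355)) (XT.nd (nat_lit 78) (nat_lit 76) (nat_lit 0) (XT.lf (nat_lit 0) (nat_lit 4814334462) (nat_lit 228) (nat_lit 8928049084) (nat_lit 76) (nat_lit 5216474221) (nat_lit 78) (nat_lit 5) (nat_lit 81) (nat_lit 5) (nat_lit 79) (nat_lit 4) (nat_lit 457) (nat_lit 389) (nat_lit 354)) (XT.lf (nat_lit 0) (nat_lit 12873157480) (nat_lit 76) (nat_lit 2777827476) (nat_lit 152) (nat_lit 3904491070) (nat_lit 77) (nat_lit 5) (nat_lit 78) (nat_lit 5) (nat_lit 79)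 (nat_lit 4) (nat_lit 458) (nat_lit 389) (nat_lit 353))))) (XT.nd (nat_lit 234) (nat_lit 608) (nat_lit 0) (XT.nd (nat_lit 78) (nat_lit 304) (nat_lit 0) (XT.lf (nat_lit 0) (nat_lit 6895249465) (nat_lit 228) (nat_lit 4532882162) (nat_lit 76) (nat_lit 8746381272) (nat_lit 74) (nat_lit 5) (nat_lit 77) (nat_lit 5) (nat_lit 75) (nat_lit 4) (nat_lit 459) (nat_lit 389) (nat_lit 352)) (XT.nd (nat_lit 78) (nat_lit 228) (nat_lit 0) (XT.lf (nat_lit 0) (nat_lit 18285461331) (nat_lit 152) (nat_lit 2407600504) (nat_lit 0) (nat_lit 126345061) (nat_lit 73) (nat_lit 5) (nat_lit 75) (nat_lit 4) (nat_lit 73) (nat_lit 4) (nat_lit 460) (nat_lit 389) (nat_lit 351)) (XT.lf (nat_lit 0) (nat_lit 8803532184) (nat_lit 228) (nat_lit 448511058) (nat_lit 76) (nat_lit 12235213020) (nat_lit 70) (nat_lit 5) (nat_lit 73) (nat_lit 5) (nat_lit 71) (nat_lit 4) (nat_lit 461) (nat_lit 389) (nat_lit 350)))) (XT.nd (nat_lit 156) (nat_lit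 228) (nat_lit 0) (XT.nd (nat_lit 78) (nat_lit 152) (nat_lit 0) (XT.lf (nat_lit 0) (nat_lit 1506299096) (nat_lit 152) (nat_lit 19305658716) (nat_lit 152) (nat_lit 1371095068) (nat_lit 67) (nat_lit 4) (nat_lit 69) (nat_lit 5) (nat_lit 69) (nat_lit 4) (nat_lit 462) (nat_lit 389) (nat_lit 349)) (XT.lf (nat_lit 0) (nat_lit 3278781926) (nat_lit 76) (nat_lit 7240794926) (nat_lit 152) (nat_lit 12384510813) (nat_lit 65) (nat_lit 5) (nat_lit 66) (nat_lit 5) (nat_lit 67) (nat_lit 4) (nat_lit 463) (nat_lit 389) (nat_lit 348))) (XT.nd (nat_lit 78) (nat_lit 152) (nat_lit 0) (XT.lf (nat_lit 0) (nat_lit 4972863862) (nat_lit 76) (nat_lit 18181392369) (nat_lit 76) (nat_lit 501177413) (nat_lit 64) (nat_lit 4) (nat_lit 65) (nat_lit 5) (nat_lit 65) (nat_lit 4) (nat_lit 464) (nat_lit 389) (nat_lit 347)) (XT.lf (nat_lit 0) (nat_lit 6447862321) (nat_lit 76) (nat_lit 5499227173) (nat_lit 152) (nat_lit 12487671173) (nat_lit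 62) (nat_lit 5) (nat_lit 63) (nat_lit 5) (nat_lit 64) (nat_lit 4) (nat_lit 465) (nat_lit 389) (nat_lit 346))))))) (XT.nd (nat_lit 1014) (nat_lit 1368) (nat_lit 0) (XT.nd (nat_lit 468) (nat_lit 684) (nat_lit 0) (XT.nd (nat_lit 234) (nat_lit 380) (nat_lit 0) (XT.nd (nat_lit 78) (nat_lit 228) (nat_lit 0) (XT.lf (nat_lit 0) (nat_lit 7792094387) (nat_lit 76) (nat_lit 17427856023) (nat_lit 76) (nat_lit 26579816) (nat_lit 61) (nat_lit 4) (nat_lit 62) (nat_lit 5) (nat_lit 62) (nat_lit 4) (nat_lit 466) (nat_lit 389) (nat_lit 345)) (XT.nd (nat_lit 78) (nat_lit 76) (nat_lit 0) (XT.lf (nat_lit 0) (nat_lit 8882005626) (nat_lit 76) (nat_lit 4119438018) (nat_lit 152) (nat_lit 13087720087) (nat_lit 59) (nat_lit 5) (nat_lit 60) (nat_lit 5) (nat_lit 61) (nat_lit 4) (nat_lit 467) (nat_lit 389) (nat_lit 344)) (XT.lf (nat_lit 0) (nat_lit 9779064204) (nat_lit 76) (nat_lit 17144916035) (nat_lit 76) (nat_lit 42632182)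 (nat_lit 58) (nat_lit 4) (nat_lit 59) (nat_lit 5) (nat_lit 59) (nat_lit 4) (nat_lit 468) (nat_lit 389) (nat_lit 343)))) (XT.nd (nat_lit 78) (nat_lit 228) (nat_lit 0) (XT.lf (nat_lit 0) (nat_lit 10377603425) (nat_lit 76) (nat_lit 3206852339) (nat_lit 152) (nat_lit 14293655270) (nat_lit 56) (nat_lit 5) (nat_lit 57) (nat_lit 5) (nat_lit 58) (nat_lit 4) (nat_lit 469) (nat_lit 389) (nat_lit 342)) (XT.nd (nat_lit 78) (nat_lit 152) (nat_lit 0) (XT.lf (nat_lit 0) (nat_lit 10709809673) (nat_lit 76) (nat_lit 17452224470) (nat_lit 76) (nat_lit 665038347) (nat_lit 55) (nat_lit 4) (nat_lit 56) (nat_lit 5) (nat_lit 56) (nat_lit 4) (nat_lit 470) (nat_lit 389) (nat_lit 341)) (XT.lf (nat_lit 0) (nat_lit 10688519716) (nat_lit 76) (nat_lit 2888197437) (nat_lit 152) (nat_lit 16236891829) (nat_lit 53) (nat_lit 5) (nat_lit 54) (nat_lit 5) (nat_lit 55) (nat_lit 4) (nat_lit 471) (nat_lit 389) (nat_lit 340))))) (XT.nd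 (nat_lit 234) (nat_lit 380) (nat_lit 0) (XT.nd (nat_lit 78) (nat_lit 228) (nat_lit 0) (XT.lf (nat_lit 0) (nat_lit 10314046185) (nat_lit 76) (nat_lit 18492968949) (nat_lit 76) (nat_lit 2033554342) (nat_lit 52) (nat_lit 4) (nat_lit 53) (nat_lit 5) (nat_lit 53) (nat_lit 4) (nat_lit 472) (nat_lit 389) (nat_lit 339)) (XT.nd (nat_lit 78) (nat_lit 76) (nat_lit 0) (XT.lf (nat_lit 0) (nat_lit 9518192952) (nat_lit 76) (nat_lit 3315543949) (nat_lit 152) (nat_lit 19075274061) (nat_lit 50) (nat_lit 5) (nat_lit 51) (nat_lit 5) (nat_lit 52) (nat_lit 4) (nat_lit 473) (nat_lit 389) (nat_lit 338)) (XT.lf (nat_lit 0) (nat_lit 8266605388) (nat_lit 76) (nat_lit 20438268538) (nat_lit 76) (nat_lit 4316321280) (nat_lit 49) (nat_lit 4) (nat_lit 50) (nat_lit 5) (nat_lit 50) (nat_lit 4) (nat_lit 474) (nat_lit 389) (nat_lit 337)))) (XT.nd (nat_lit 156) (nat_lit 152) (nat_lit 0) (XT.nd (nat_lit 78) (nat_lit 76) (nat_lit 0)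 (XT.lf (nat_lit 0) (nat_lit 6510352700) (nat_lit 76) (nat_lit 4671045659) (nat_lit 152) (nat_lit 22997797081) (nat_lit 47) (nat_lit 5) (nat_lit 48) (nat_lit 5) (nat_lit 49) (nat_lit 4) (nat_lit 475) (nat_lit 389) (nat_lit 336)) (XT.lf (nat_lit 0) (nat_lit 4177371814) (nat_lit 76) (nat_lit 23492328718) (nat_lit 76) (nat_lit 7714964891) (nat_lit 46) (nat_lit 4) (nat_lit 47) (nat_lit 5) (nat_lit 47) (nat_lit 4) (nat_lit 476) (nat_lit 389) (nat_lit 335))) (XT.nd (nat_lit 78) (nat_lit 0) (nat_lit 0) (XT.lf (nat_lit 0) (nat_lit 1238111159) (nat_lit 76) (nat_lit 7172500343) (nat_lit 152) (nat_lit 28230159627) (nat_lit 44) (nat_lit 5) (nat_lit 45) (nat_lit 5) (nat_lit 46) (nat_lit 4) (nat_lit 477) (nat_lit 389) (nat_lit 334)) (XT.lf (nat_lit 0) (nat_lit 25501214849) (nat_lit 152) (nat_lit 2373306999) (nat_lit 0) (nat_lit 10073320198) (nat_lit 44) (nat_lit 5) (nat_lit 46) (nat_lit 4) (nat_lit 44) (nat_lit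 4) (nat_lit 478) (nat_lit 389) (nat_lit 333)))))) (XT.nd (nat_lit 546) (nat_lit 684) (nat_lit 0) (XT.nd (nat_lit 234) (nat_lit 380) (nat_lit 0) (XT.nd (nat_lit 78) (nat_lit 152) (nat_lit 0) (XT.lf (nat_lit 0) (nat_lit 4336474209) (nat_lit 152) (nat_lit 6675985893) (nat_lit 76) (nat_lit 28297889939) (nat_lit 42) (nat_lit 5) (nat_lit 44) (nat_lit 5) (nat_lit 43) (nat_lit 4) (nat_lit 479) (nat_lit 389) (nat_lit 332)) (XT.nd (nat_lit 78) (nat_lit 76) (nat_lit 0) (XT.lf (nat_lit 0) (nat_lit 21977798417) (nat_lit 152) (nat_lit 11848859246) (nat_lit 0) (nat_lit 6902334845) (nat_lit 41) (nat_lit 5) (nat_lit 43) (nat_lit 4) (nat_lit 41) (nat_lit 4) (nat_lit 480) (nat_lit 389) (nat_lit 331)) (XT.lf (nat_lit 0) (nat_lit 24312215841) (nat_lit 76) (nat_lit 16508627413) (nat_lit 76) (nat_lit 1388134770) (nat_lit 40) (nat_lit 4) (nat_lit 41) (nat_lit 5) (nat_lit 41) (nat_lit 4) (nat_lit 481) (nat_lit 389) (nat_lit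 330)))) (XT.nd (nat_lit 156) (nat_lit 152) (nat_lit 0) (XT.nd (nat_lit 78) (nat_lit 76) (nat_lit 0) (XT.lf (nat_lit 0) (nat_lit 16745282680) (nat_lit 152) (nat_lit 24982340266) (nat_lit 0) (nat_lit 2023556979) (nat_lit 38) (nat_lit 5) (nat_lit 40) (nat_lit 4) (nat_lit 38) (nat_lit 4) (nat_lit 482) (nat_lit 389) (nat_lit 329)) (XT.lf (nat_lit 0) (nat_lit 12150908117) (nat_lit 76) (nat_lit 23984592810) (nat_lit 76) (nat_lit 9223214007) (nat_lit 37) (nat_lit 4) (nat_lit 38) (nat_lit 5) (nat_lit 38) (nat_lit 4) (nat_lit 483) (nat_lit 389) (nat_lit 328))) (XT.nd (nat_lit 78) (nat_lit 0) (nat_lit 0) (XT.lf (nat_lit 0) (nat_lit 4440149392) (nat_lit 76) (nat_lit 5037334870) (nat_lit 152) (nat_lit 37560020396) (nat_lit 35) (nat_lit 5) (nat_lit 36) (nat_lit 5) (nat_lit 37) (nat_lit 4) (nat_lit 484) (nat_lit 389) (nat_lit 327)) (XT.lf (nat_lit 0) (nat_lit 29324915610) (nat_lit 152) (nat_lit 4538609668) (nat_lit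 0) (nat_lit 14921896004) (nat_lit 35) (nat_lit 5) (nat_lit 37) (nat_lit 4) (nat_lit 35) (nat_lit 4) (nat_lit 485) (nat_lit 389) (nat_lit 326))))) (XT.nd (nat_lit 234) (nat_lit 380) (nat_lit 0) (XT.nd (nat_lit 78) (nat_lit 228) (nat_lit 0) (XT.lf (nat_lit 0) (nat_lit 35907402452) (nat_lit 76) (nat_lit 14570111792) (nat_lit 76) (nat_lit 133836031) (nat_lit 34) (nat_lit 4) (nat_lit 35) (nat_lit 5) (nat_lit 35) (nat_lit 4) (nat_lit 486) (nat_lit 389) (nat_lit 325)) (XT.nd (nat_lit 78) (nat_lit 76) (nat_lit 0) (XT.lf (nat_lit 0) (nat_lit 20040997751) (nat_lit 152) (nat_lit 26479062611) (nat_lit 0) (nat_lit 5994446013) (nat_lit 32) (nat_lit 5) (nat_lit 34) (nat_lit 4) (nat_lit 32) (nat_lit 4) (nat_lit 487) (nat_lit 389) (nat_lit 324)) (XT.lf (nat_lit 0) (nat_lit 14586156159) (nat_lit 76) (nat_lit 26995828415) (nat_lit 76) (nat_lit 12919990935) (nat_lit 31) (nat_lit 4) (nat_lit 32) (nat_lit 5) (nat_lit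 32) (nat_lit 4) (nat_lit 488) (nat_lit 389) (nat_lit 323)))) (XT.nd (nat_lit 156) (nat_lit 228) (nat_lit 0) (XT.nd (nat_lit 78) (nat_lit 0) (nat_lit 0) (XT.lf (nat_lit 0) (nat_lit 1473876747) (nat_lit 76) (nat_lit 6199820498) (nat_lit 152) (nat_lit 48906595786) (nat_lit 29) (nat_lit 5) (nat_lit 30) (nat_lit 5) (nat_lit 31) (nat_lit 4) (nat_lit 489) (nat_lit 389) (nat_lit 322)) (XT.lf (nat_lit 0) (nat_lit 29520736024) (nat_lit 152) (nat_lit 13421220736) (nat_lit 0) (nat_lit 15802006226) (nat_lit 29) (nat_lit 5) (nat_lit 31) (nat_lit 4) (nat_lit 29) (nat_lit 4) (nat_lit 490) (nat_lit 389) (nat_lit 321))) (XT.nd (nat_lit 78) (nat_lit 152) (nat_lit 0) (XT.lf (nat_lit 0) (nat_lit 30739373677) (nat_lit 76) (nat_lit 22005594453) (nat_lit 76) (nat_lit 8262303369) (nat_lit 28) (nat_lit 4) (nat_lit 29) (nat_lit 5) (nat_lit 29) (nat_lit 4) (nat_lit 491) (nat_lit 389) (nat_lit 320)) (XT.lf (nat_lit 0) (nat_lit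 13683891303) (nat_lit 152) (nat_lit 49371546158) (nat_lit 0) (nat_lit 318179861) (nat_lit 26) (nat_lit 5) (nat_lit 28) (nat_lit 4) (nat_lit 26) (nat_lit 4) (nat_lit 492) (nat_lit 389) (nat_lit 319))))))))
noncomputable def xc30 : XT := (XT.nd (nat_lit 58266) (nat_lit 0) (nat_lit 3268) (XT.nd (nat_lit 57252) (nat_lit 0) (nat_lit 9120) (XT.nd (nat_lit 468) (nat_lit 0) (nat_lit 0) (XT.nd (nat_lit 234) (nat_lit 228) (nat_lit 0) (XT.nd (nat_lit 78) (nat_lit 228) (nat_lit 0) (XT.lf (nat_lit 0) (nat_lit 37024490896) (nat_lit 152) (nat_lit 5180145976) (nat_lit 0) (nat_lit 23637150513) (nat_lit 26) (nat_lit 5) (nat_lit 28) (nat_lit 4) (nat_lit 26) (nat_lit 4) (nat_lit 493) (nat_lit 389) (nat_lit 318)) (XT.nd (nat_lit 78) (nat_lit 152) (nat_lit 0) (XT.lf (nat_lit 0) (nat_lit 41904556442) (nat_lit 76) (nat_lit 19963337961) (nat_lit 76) (nat_lit 6555398586) (nat_lit 25) (nat_lit 4) (nat_lit 26) (nat_lit 5)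 (nat_lit 26) (nat_lit 4) (nat_lit 494) (nat_lit 389) (nat_lit 317)) (XT.lf (nat_lit 0) (nat_lit 16711859472) (nat_lit 152) (nat_lit 50735154032) (nat_lit 0) (nat_lit 3675395915) (nat_lit 23) (nat_lit 5) (nat_lit 25) (nat_lit 4) (nat_lit 23) (nat_lit 4) (nat_lit 495) (nat_lit 389) (nat_lit 316)))) (XT.nd (nat_lit 78) (nat_lit 228) (nat_lit 0) (XT.lf (nat_lit 0) (nat_lit 41420897552) (nat_lit 152) (nat_lit 4154923116) (nat_lit 0) (nat_lit 28366294293) (nat_lit 23) (nat_lit 5) (nat_lit 25) (nat_lit 4) (nat_lit 23) (nat_lit 4) (nat_lit 496) (nat_lit 389) (nat_lit 315)) (XT.nd (nat_lit 78) (nat_lit 152) (nat_lit 0) (XT.lf (nat_lit 0) (nat_lit 45519736504) (nat_lit 76) (nat_lit 22221831619) (nat_lit 76) (nat_lit 9149952453) (nat_lit 22) (nat_lit 4) (nat_lit 23) (nat_lit 5) (nat_lit 23) (nat_lit 4) (nat_lit 497) (nat_lit 389) (nat_lit 314)) (XT.lf (nat_lit 0) (nat_lit 15269337648) (nat_lit 152) (nat_lit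 62147008897) (nat_lit 0) (nat_lit 2562218803) (nat_lit 20) (nat_lit 5) (nat_lit 22) (nat_lit 4) (nat_lit 20) (nat_lit 4) (nat_lit 498) (nat_lit 389) (nat_lit 313))))) (XT.nd (nat_lit 56472) (nat_lit 0) (nat_lit 14972) (XT.nd (nat_lit 56316) (nat_lit 0) (nat_lit 17404) (XT.lf (nat_lit 0) (nat_lit 41213529627) (nat_lit 152) (nat_lit 13497722514) (nat_lit 0) (nat_lit 28491197426) (nat_lit 20) (nat_lit 5) (nat_lit 22) (nat_lit 4) (nat_lit 20) (nat_lit 4) (nat_lit 499) (nat_lit 389) (nat_lit 312)) (XT.nd (nat_lit 78) (nat_lit 1140) (nat_lit 0) (XT.lf (nat_lit 0) (nat_lit 3407964255) (nat_lit 608) (nat_lit 197284849) (nat_lit 608) (nat_lit 197284849) (nat_lit 264) (nat_lit 4) (nat_lit 272) (nat_lit 5) (nat_lit 272) (nat_lit 4) (nat_lit 420) (nat_lit 390) (nat_lit 390)) (XT.lf (nat_lit 0) (nat_lit 1727127228) (nat_lit 532) (nat_lit 4126365497) (nat_lit 532) (nat_lit 1872310558) (nat_lit 249) (nat_lit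 4) (nat_lit 256) (nat_lit 5) (nat_lit 256) (nat_lit 4) (nat_lit 421) (nat_lit 390) (nat_lit 389)))) (XT.nd (nat_lit 156) (nat_lit 1368) (nat_lit 0) (XT.nd (nat_lit 78) (nat_lit 532) (nat_lit 0) (XT.lf (nat_lit 0) (nat_lit 4329449224) (nat_lit 532) (nat_lit 3468919688) (nat_lit 0) (nat_lit 56853176) (nat_lit 242) (nat_lit 5) (nat_lit 249) (nat_lit 4) (nat_lit 242) (nat_lit 4) (nat_lit 422) (nat_lit 390) (nat_lit 388)) (XT.lf (nat_lit 0) (nat_lit 2661295988) (nat_lit 532) (nat_lit 855111089) (nat_lit 76) (nat_lit 4476237059) (nat_lit 235) (nat_lit 5) (nat_lit 242) (nat_lit 5) (nat_lit 236) (nat_lit 4) (nat_lit 423) (nat_lit 390) (nat_lit 387))) (XT.nd (nat_lit 78) (nat_lit 380) (nat_lit 0) (XT.lf (nat_lit 0) (nat_lit 830297468) (nat_lit 532) (nat_lit 6225143334) (nat_lit 76) (nat_lit 1083200501) (nat_lit 222) (nat_lit 5) (nat_lit 229) (nat_lit 5) (nat_lit 223) (nat_lit 4) (nat_lit 424) (nat_lit 390)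 (nat_lit 386)) (XT.lf (nat_lit 0) (nat_lit 4784923658) (nat_lit 380) (nat_lit 2330118870) (nat_lit 456) (nat_lit 1177574904) (nat_lit 217) (nat_lit 5) (nat_lit 222) (nat_lit 5) (nat_lit 223) (nat_lit 4) (nat_lit 425) (nat_lit 390) (nat_lit 385)))))) (XT.nd (nat_lit 468) (nat_lit 2660) (nat_lit 0) (XT.nd (nat_lit 234) (nat_lit 1444) (nat_lit 0) (XT.nd (nat_lit 78) (nat_lit 1216) (nat_lit 0) (XT.lf (nat_lit 0) (nat_lit 5071175378) (nat_lit 532) (nat_lit 699049615) (nat_lit 76) (nat_lit 2685147622) (nat_lit 210) (nat_lit 5) (nat_lit 217) (nat_lit 5) (nat_lit 211) (nat_lit 4) (nat_lit 426) (nat_lit 390) (nat_lit 384)) (XT.nd (nat_lit 78) (nat_lit 380) (nat_lit 0) (XT.lf (nat_lit 0) (nat_lit 2258746197) (nat_lit 380) (nat_lit 606960779) (nat_lit 456) (nat_lit 5761112638) (nat_lit 199) (nat_lit 5) (nat_lit 204) (nat_lit 5) (nat_lit 205) (nat_lit 5) (nat_lit 427) (nat_lit 390) (nat_lit 383)) (XT.lf (nat_lit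 0) (nat_lit 499930007) (nat_lit 380) (nat_lit 3489608377) (nat_lit 76) (nat_lit 4817399963) (nat_lit 194) (nat_lit 5) (nat_lit 199) (nat_lit 5) (nat_lit 195) (nat_lit 5) (nat_lit 428) (nat_lit 390) (nat_lit 382)))) (XT.nd (nat_lit 78) (nat_lit 1064) (nat_lit 0) (XT.lf (nat_lit 0) (nat_lit 6889463199) (nat_lit 456) (nat_lit 525618719) (nat_lit 76) (nat_lit 1581248076) (nat_lit 189) (nat_lit 5) (nat_lit 195) (nat_lit 5) (nat_lit 190) (nat_lit 4) (nat_lit 429) (nat_lit 390) (nat_lit 381)) (XT.nd (nat_lit 78) (nat_lit 380) (nat_lit 0) (XT.lf (nat_lit 0) (nat_lit 2572495279) (nat_lit 304) (nat_lit 1729928614) (nat_lit 380) (nat_lit 4891960161) (nat_lit 180) (nat_lit 5) (nat_lit 184) (nat_lit 5) (nat_lit 185) (nat_lit 5) (nat_lit 430) (nat_lit 390) (nat_lit 380)) (XT.lf (nat_lit 0) (nat_lit 1529470202) (nat_lit 380) (nat_lit 3628117242) (nat_lit 76) (nat_lit 4244477103) (nat_lit 175) (nat_lit 5) (nat_lit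 180) (nat_lit 5) (nat_lit 176) (nat_lit 5) (nat_lit 431) (nat_lit 390) (nat_lit 379))))) (XT.nd (nat_lit 234) (nat_lit 1368) (nat_lit 0) (XT.nd (nat_lit 78) (nat_lit 988) (nat_lit 0) (XT.lf (nat_lit 0) (nat_lit 8132387671) (nat_lit 380) (nat_lit 547611019) (nat_lit 76) (nat_lit 939842526) (nat_lit 171) (nat_lit 5) (nat_lit 176) (nat_lit 5) (nat_lit 172) (nat_lit 4) (nat_lit 432) (nat_lit 390) (nat_lit 378)) (XT.nd (nat_lit 78) (nat_lit 304) (nat_lit 0) (XT.lf (nat_lit 0) (nat_lit 2646725674) (nat_lit 304) (nat_lit 2487829286) (nat_lit 380) (nat_lit 4711876848) (nat_lit 162) (nat_lit 5) (nat_lit 166) (nat_lit 5) (nat_lit 167) (nat_lit 5) (nat_lit 433) (nat_lit 390) (nat_lit 377)) (XT.lf (nat_lit 0) (nat_lit 1927072586) (nat_lit 304) (nat_lit 4136444673) (nat_lit 76) (nat_lit 4020057437) (nat_lit 158) (nat_lit 5) (nat_lit 162) (nat_lit 5) (nat_lit 159) (nat_lit 5) (nat_lit 434) (nat_lit 390) (nat_lit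 376)))) (XT.nd (nat_lit 156) (nat_lit 532) (nat_lit 0) (XT.nd (nat_lit 78) (nat_lit 532) (nat_lit 0) (XT.lf (nat_lit 0) (nat_lit 8786528548) (nat_lit 380) (nat_lit 991244298) (nat_lit 76) (nat_lit 553832561) (nat_lit 154) (nat_lit 5) (nat_lit 159) (nat_lit 5) (nat_lit 155) (nat_lit 4) (nat_lit 435) (nat_lit 390) (nat_lit 375)) (XT.lf (nat_lit 0) (nat_lit 2246332260) (nat_lit 228) (nat_lit 3090363325) (nat_lit 304) (nat_lit 5252442726) (nat_lit 147) (nat_lit 5) (nat_lit 150) (nat_lit 5) (nat_lit 151) (nat_lit 5) (nat_lit 436) (nat_lit 390) (nat_lit 374))) (XT.nd (nat_lit 78) (nat_lit 228) (nat_lit 0) (XT.lf (nat_lit 0) (nat_lit 1655310499) (nat_lit 304) (nat_lit 5259348702) (nat_lit 76) (nat_lit 3943464225) (nat_lit 143) (nat_lit 5) (nat_lit 147) (nat_lit 5) (nat_lit 144) (nat_lit 5) (nat_lit 437) (nat_lit 390) (nat_lit 373)) (XT.lf (nat_lit 0) (nat_lit 8808298016) (nat_lit 304) (nat_lit 2105965229)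 (nat_lit 76) (nat_lit 224488698) (nat_lit 140) (nat_lit 5) (nat_lit 144) (nat_lit 5) (nat_lit 141) (nat_lit 4) (nat_lit 438) (nat_lit 390) (nat_lit 372))))))) (XT.nd (nat_lit 1014) (nat_lit 2432) (nat_lit 0) (XT.nd (nat_lit 468) (nat_lit 1520) (nat_lit 0) (XT.nd (nat_lit 234) (nat_lit 912) (nat_lit 0) (XT.nd (nat_lit 78) (nat_lit 456) (nat_lit 0) (XT.lf (nat_lit 0) (nat_lit 1109745138) (nat_lit 228) (nat_lit 3742566022) (nat_lit 304) (nat_lit 6577836070) (nat_lit 133) (nat_lit 5) (nat_lit 136) (nat_lit 5) (nat_lit 137) (nat_lit 5) (nat_lit 439) (nat_lit 390) (nat_lit 371)) (XT.nd (nat_lit 78) (nat_lit 228) (nat_lit 0) (XT.lf (nat_lit 0) (nat_lit 644798272) (nat_lit 228) (nat_lit 7272473498) (nat_lit 76) (nat_lit 3816596028) (nat_lit 130) (nat_lit 5) (nat_lit 133) (nat_lit 5) (nat_lit 131) (nat_lit 5) (nat_lit 440) (nat_lit 390) (nat_lit 370)) (XT.lf (nat_lit 0) (nat_lit 7871974875) (nat_lit 228)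 (nat_lit 252472694) (nat_lit 304) (nat_lit 3925422272) (nat_lit 127) (nat_lit 5) (nat_lit 130) (nat_lit 5) (nat_lit 131) (nat_lit 5) (nat_lit 441) (nat_lit 390) (nat_lit 369)))) (XT.nd (nat_lit 78) (nat_lit 684) (nat_lit 0) (XT.lf (nat_lit 0) (nat_lit 3601499980) (nat_lit 228) (nat_lit 1042045269) (nat_lit 76) (nat_lit 7734837893) (nat_lit 124) (nat_lit 5) (nat_lit 127) (nat_lit 5) (nat_lit 125) (nat_lit 5) (nat_lit 442) (nat_lit 390) (nat_lit 368)) (XT.nd (nat_lit 78) (nat_lit 304) (nat_lit 0) (XT.lf (nat_lit 0) (nat_lit 2213764681) (nat_lit 152) (nat_lit 9273630602) (nat_lit 228) (nat_lit 1232852658) (nat_lit 119) (nat_lit 5) (nat_lit 121) (nat_lit 5) (nat_lit 122) (nat_lit 4) (nat_lit 443) (nat_lit 390) (nat_lit 367)) (XT.lf (nat_lit 0) (nat_lit 5534191165) (nat_lit 228) (nat_lit 1092786445) (nat_lit 304) (nat_lit 6448231866) (nat_lit 115) (nat_lit 5) (nat_lit 118) (nat_lit 5) (nat_lit 119)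 (nat_lit 5) (nat_lit 444) (nat_lit 390) (nat_lit 366))))) (XT.nd (nat_lit 234) (nat_lit 760) (nat_lit 0) (XT.nd (nat_lit 78) (nat_lit 532) (nat_lit 0) (XT.lf (nat_lit 0) (nat_lit 1470274893) (nat_lit 228) (nat_lit 4532712549) (nat_lit 76) (nat_lit 7441435715) (nat_lit 112) (nat_lit 5) (nat_lit 115) (nat_lit 5) (nat_lit 113) (nat_lit 5) (nat_lit 445) (nat_lit 390) (nat_lit 365)) (XT.nd (nat_lit 78) (nat_lit 380) (nat_lit 0) (XT.lf (nat_lit 0) (nat_lit 9713286734) (nat_lit 228) (nat_lit 1483775160) (nat_lit 76) (nat_lit 2631267125) (nat_lit 110) (nat_lit 5) (nat_lit 113) (nat_lit 5) (nat_lit 111) (nat_lit 4) (nat_lit 446) (nat_lit 390) (nat_lit 364)) (XT.lf (nat_lit 0) (nat_lit 1638479052) (nat_lit 152) (nat_lit 2525453654) (nat_lit 228) (nat_lit 10063079792) (nat_lit 105) (nat_lit 5) (nat_lit 107) (nat_lit 5) (nat_lit 108) (nat_lit 5) (nat_lit 447) (nat_lit 390) (nat_lit 363)))) (XT.nd (nat_lit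 156) (nat_lit 380) (nat_lit 0) (XT.nd (nat_lit 78) (nat_lit 228) (nat_lit 0) (XT.lf (nat_lit 0) (nat_lit 4828253901) (nat_lit 152) (nat_lit 8059080773) (nat_lit 228) (nat_lit 1753610067) (nat_lit 103) (nat_lit 5) (nat_lit 105) (nat_lit 5) (nat_lit 106) (nat_lit 4) (nat_lit 448) (nat_lit 390) (nat_lit 362)) (XT.lf (nat_lit 0) (nat_lit 6914074251) (nat_lit 228) (nat_lit 7013863215) (nat_lit 76) (nat_lit 1143266499) (nat_lit 100) (nat_lit 5) (nat_lit 103) (nat_lit 5) (nat_lit 101) (nat_lit 4) (nat_lit 449) (nat_lit 390) (nat_lit 361))) (XT.nd (nat_lit 78) (nat_lit 152) (nat_lit 0) (XT.lf (nat_lit 0) (nat_lit 578877962) (nat_lit 228) (nat_lit 4194151996) (nat_lit 76) (nat_lit 10745356522) (nat_lit 97) (nat_lit 5) (nat_lit 100) (nat_lit 5) (nat_lit 98) (nat_lit 5) (nat_lit 450) (nat_lit 390) (nat_lit 360)) (XT.lf (nat_lit 0) (nat_lit 9687364066) (nat_lit 228) (nat_lit 1380716933) (nat_lit 76) (nat_lit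 4914296384) (nat_lit 95) (nat_lit 5) (nat_lit 98) (nat_lit 5) (nat_lit 96) (nat_lit 4) (nat_lit 451) (nat_lit 390) (nat_lit 359)))))) (XT.nd (nat_lit 546) (nat_lit 1140) (nat_lit 0) (XT.nd (nat_lit 234) (nat_lit 608) (nat_lit 0) (XT.nd (nat_lit 78) (nat_lit 304) (nat_lit 0) (XT.lf (nat_lit 0) (nat_lit 1507384977) (nat_lit 152) (nat_lit 1344636653) (nat_lit 228) (nat_lit 13613009439) (nat_lit 90) (nat_lit 5) (nat_lit 92) (nat_lit 5) (nat_lit 93) (nat_lit 5) (nat_lit 452) (nat_lit 390) (nat_lit 358)) (XT.nd (nat_lit 78) (nat_lit 228) (nat_lit 0) (XT.lf (nat_lit 0) (nat_lit 4392527175) (nat_lit 76) (nat_lit 8101329597) (nat_lit 152) (nat_lit 4471064839) (nat_lit 89) (nat_lit 5) (nat_lit 90) (nat_lit 5) (nat_lit 91) (nat_lit 4) (nat_lit 453) (nat_lit 390) (nat_lit 357)) (XT.lf (nat_lit 0) (nat_lit 5135687819) (nat_lit 228) (nat_lit 10175957722) (nat_lit 76) (nat_lit 2173451967) (nat_lit 86) (nat_lit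 5) (nat_lit 89) (nat_lit 5) (nat_lit 87) (nat_lit 4) (nat_lit 454) (nat_lit 390) (nat_lit 356)))) (XT.nd (nat_lit 156) (nat_lit 304) (nat_lit 0) (XT.nd (nat_lit 78) (nat_lit 228) (nat_lit 0) (XT.lf (nat_lit 0) (nat_lit 10210934028) (nat_lit 76) (nat_lit 5081176506) (nat_lit 152) (nat_lit 2732992370) (nat_lit 85) (nat_lit 5) (nat_lit 86) (nat_lit 5) (nat_lit 87) (nat_lit 4) (nat_lit 455) (nat_lit 390) (nat_lit 355)) (XT.lf (nat_lit 0) (nat_lit 7362310725) (nat_lit 228) (nat_lit 5493066081) (nat_lit 76) (nat_lit 5730357601) (nat_lit 82) (nat_lit 5) (nat_lit 85) (nat_lit 5) (nat_lit 83) (nat_lit 4) (nat_lit 456) (nat_lit 390) (nat_lit 354))) (XT.nd (nat_lit 78) (nat_lit 228) (nat_lit 0) (XT.lf (nat_lit 0) (nat_lit 15998389150) (nat_lit 76) (nat_lit 2050899402) (nat_lit 152) (nat_lit 1119996632) (nat_lit 81) (nat_lit 5) (nat_lit 82) (nat_lit 5) (nat_lit 83) (nat_lit 4) (nat_lit 457) (nat_lit 390) (nat_lit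 353)) (XT.lf (nat_lit 0) (nat_lit 9493262917) (nat_lit 228) (nat_lit 956933051) (nat_lit 76) (nat_lit 9323388943) (nat_lit 78) (nat_lit 5) (nat_lit 81) (nat_lit 5) (nat_lit 79) (nat_lit 4) (nat_lit 458) (nat_lit 390) (nat_lit 352))))) (XT.nd (nat_lit 234) (nat_lit 532) (nat_lit 0) (XT.nd (nat_lit 78) (nat_lit 304) (nat_lit 0) (XT.lf (nat_lit 0) (nat_lit 350374562) (nat_lit 228) (nat_lit 19101475064) (nat_lit 76) (nat_lit 951415608) (nat_lit 74) (nat_lit 5) (nat_lit 77) (nat_lit 5) (nat_lit 75) (nat_lit 4) (nat_lit 459) (nat_lit 390) (nat_lit 351)) (XT.nd (nat_lit 78) (nat_lit 228) (nat_lit 0) (XT.lf (nat_lit 0) (nat_lit 3423260892) (nat_lit 76) (nat_lit 8104511715) (nat_lit 152) (nat_lit 9526772008) (nat_lit 73) (nat_lit 5) (nat_lit 74) (nat_lit 5) (nat_lit 75) (nat_lit 4) (nat_lit 460) (nat_lit 390) (nat_lit 350)) (XT.lf (nat_lit 0) (nat_lit 1650574631) (nat_lit 228) (nat_lit 16198483247) (nat_lit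 76) (nat_lit 3884251169) (nat_lit 70) (nat_lit 5) (nat_lit 73) (nat_lit 5) (nat_lit 71) (nat_lit 4) (nat_lit 461) (nat_lit 390) (nat_lit 349)))) (XT.nd (nat_lit 156) (nat_lit 228) (nat_lit 0) (XT.nd (nat_lit 78) (nat_lit 228) (nat_lit 0) (XT.lf (nat_lit 0) (nat_lit 7499315088) (nat_lit 76) (nat_lit 5896794338) (nat_lit 152) (nat_lit 9040883817) (nat_lit 69) (nat_lit 5) (nat_lit 70) (nat_lit 5) (nat_lit 71) (nat_lit 4) (nat_lit 462) (nat_lit 390) (nat_lit 348)) (XT.lf (nat_lit 0) (nat_lit 2698172185) (nat_lit 228) (nat_lit 13778525257) (nat_lit 76) (nat_lit 6692581610) (nat_lit 66) (nat_lit 5) (nat_lit 69) (nat_lit 5) (nat_lit 67) (nat_lit 4) (nat_lit 463) (nat_lit 390) (nat_lit 347))) (XT.nd (nat_lit 78) (nat_lit 152) (nat_lit 0) (XT.lf (nat_lit 0) (nat_lit 11133974044) (nat_lit 76) (nat_lit 3899542540) (nat_lit 152) (nat_lit 8896089248) (nat_lit 65) (nat_lit 5) (nat_lit 66) (nat_lit 5) (nat_lit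 67) (nat_lit 4) (nat_lit 464) (nat_lit 390) (nat_lit 346)) (XT.lf (nat_lit 0) (nat_lit 3427295773) (nat_lit 152) (nat_lit 11980654938) (nat_lit 76) (nat_lit 9312064656) (nat_lit 63) (nat_lit 5) (nat_lit 65) (nat_lit 5) (nat_lit 64) (nat_lit 4) (nat_lit 465) (nat_lit 390) (nat_lit 345))))))))
noncomputable def xc31 : XT := (XT.nd (nat_lit 2028) (nat_lit 684) (nat_lit 0) (XT.nd (nat_lit 1014) (nat_lit 1140) (nat_lit 0) (XT.nd (nat_lit 468) (nat_lit 760) (nat_lit 0) (XT.nd (nat_lit 234) (nat_lit 380) (nat_lit 0) (XT.nd (nat_lit 78) (nat_lit 228) (nat_lit 0) (XT.lf (nat_lit 0) (nat_lit 14182499618) (nat_lit 76) (nat_lit 2188684226) (nat_lit 152) (nat_lit 9170470929) (nat_lit 62) (nat_lit 5) (nat_lit 63) (nat_lit 5) (nat_lit 64) (nat_lit 4) (nat_lit 466) (nat_lit 390) (nat_lit 344)) (XT.nd (nat_lit 78) (nat_lit 76) (nat_lit 0) (XT.lf (nat_lit 0) (nat_lit 3757074832) (nat_lit 152) (nat_lit 10973685472)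 (nat_lit 76) (nat_lit 11664532724) (nat_lit 60) (nat_lit 5) (nat_lit 62) (nat_lit 5) (nat_lit 61) (nat_lit 4) (nat_lit 467) (nat_lit 390) (nat_lit 343)) (XT.lf (nat_lit 0) (nat_lit 16468531678) (nat_lit 76) (nat_lit 855869170) (nat_lit 152) (nat_lit 9958997770) (nat_lit 59) (nat_lit 5) (nat_lit 60) (nat_lit 5) (nat_lit 61) (nat_lit 4) (nat_lit 468) (nat_lit 390) (nat_lit 342)))) (XT.nd (nat_lit 78) (nat_lit 228) (nat_lit 0) (XT.lf (nat_lit 0) (nat_lit 3588915431) (nat_lit 152) (nat_lit 10961803394) (nat_lit 76) (nat_lit 13655218975) (nat_lit 57) (nat_lit 5) (nat_lit 59) (nat_lit 5) (nat_lit 58) (nat_lit 4) (nat_lit 469) (nat_lit 390) (nat_lit 341)) (XT.nd (nat_lit 78) (nat_lit 152) (nat_lit 0) (XT.lf (nat_lit 0) (nat_lit 17778094262) (nat_lit 76) (nat_lit 11549514) (nat_lit 152) (nat_lit 11376561493) (nat_lit 56) (nat_lit 5) (nat_lit 57) (nat_lit 5) (nat_lit 58) (nat_lit 4) (nat_lit 470) (nat_lit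 390) (nat_lit 340)) (XT.lf (nat_lit 0) (nat_lit 2803284857) (nat_lit 152) (nat_lit 12191169575) (nat_lit 76) (nat_lit 15169504663) (nat_lit 54) (nat_lit 5) (nat_lit 56) (nat_lit 5) (nat_lit 55) (nat_lit 4) (nat_lit 471) (nat_lit 390) (nat_lit 339))))) (XT.nd (nat_lit 234) (nat_lit 456) (nat_lit 0) (XT.nd (nat_lit 78) (nat_lit 228) (nat_lit 0) (XT.lf (nat_lit 0) (nat_lit 17643169124) (nat_lit 152) (nat_lit 13352180162) (nat_lit 0) (nat_lit 207283165) (nat_lit 53) (nat_lit 5) (nat_lit 55) (nat_lit 4) (nat_lit 53) (nat_lit 4) (nat_lit 472) (nat_lit 390) (nat_lit 338)) (XT.nd (nat_lit 78) (nat_lit 76) (nat_lit 0) (XT.lf (nat_lit 0) (nat_lit 1255921118) (nat_lit 152) (nat_lit 14957678804) (nat_lit 76) (nat_lit 16069102819) (nat_lit 51) (nat_lit 5) (nat_lit 53) (nat_lit 5) (nat_lit 52) (nat_lit 4) (nat_lit 473) (nat_lit 390) (nat_lit 337)) (XT.lf (nat_lit 0) (nat_lit 16380287202) (nat_lit 76) (nat_lit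 346512182) (nat_lit 152) (nat_lit 16680095763) (nat_lit 50) (nat_lit 5) (nat_lit 51) (nat_lit 5) (nat_lit 52) (nat_lit 4) (nat_lit 474) (nat_lit 390) (nat_lit 336)))) (XT.nd (nat_lit 156) (nat_lit 228) (nat_lit 0) (XT.nd (nat_lit 78) (nat_lit 152) (nat_lit 0) (XT.lf (nat_lit 0) (nat_lit 14948561279) (nat_lit 76) (nat_lit 18377061197) (nat_lit 76) (nat_lit 1251043445) (nat_lit 49) (nat_lit 4) (nat_lit 50) (nat_lit 5) (nat_lit 50) (nat_lit 4) (nat_lit 475) (nat_lit 390) (nat_lit 335)) (XT.lf (nat_lit 0) (nat_lit 12987020269) (nat_lit 76) (nat_lit 1876450851) (nat_lit 152) (nat_lit 20930971907) (nat_lit 47) (nat_lit 5) (nat_lit 48) (nat_lit 5) (nat_lit 49) (nat_lit 4) (nat_lit 476) (nat_lit 390) (nat_lit 334))) (XT.nd (nat_lit 78) (nat_lit 152) (nat_lit 0) (XT.lf (nat_lit 0) (nat_lit 10423820788) (nat_lit 76) (nat_lit 21689412397) (nat_lit 76) (nat_lit 4948843033) (nat_lit 46) (nat_lit 4) (nat_lit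 47) (nat_lit 5) (nat_lit 47) (nat_lit 4) (nat_lit 477) (nat_lit 390) (nat_lit 333)) (XT.lf (nat_lit 0) (nat_lit 7224292247) (nat_lit 76) (nat_lit 4607003080) (nat_lit 152) (nat_lit 26551490300) (nat_lit 44) (nat_lit 5) (nat_lit 45) (nat_lit 5) (nat_lit 46) (nat_lit 4) (nat_lit 478) (nat_lit 390) (nat_lit 332)))))) (XT.nd (nat_lit 468) (nat_lit 608) (nat_lit 0) (XT.nd (nat_lit 234) (nat_lit 304) (nat_lit 0) (XT.nd (nat_lit 78) (nat_lit 152) (nat_lit 0) (XT.lf (nat_lit 0) (nat_lit 3273030684) (nat_lit 76) (nat_lit 26418766045) (nat_lit 76) (nat_lit 10065953252) (nat_lit 43) (nat_lit 4) (nat_lit 44) (nat_lit 5) (nat_lit 44) (nat_lit 4) (nat_lit 479) (nat_lit 390) (nat_lit 331)) (XT.nd (nat_lit 78) (nat_lit 76) (nat_lit 0) (XT.lf (nat_lit 0) (nat_lit 7380992062) (nat_lit 152) (nat_lit 1415778850) (nat_lit 76) (nat_lit 32394248670) (nat_lit 42) (nat_lit 5) (nat_lit 44) (nat_lit 5) (nat_lit 43) (nat_lit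 4) (nat_lit 480) (nat_lit 390) (nat_lit 330)) (XT.lf (nat_lit 0) (nat_lit 25847804365) (nat_lit 152) (nat_lit 6951114777) (nat_lit 0) (nat_lit 9883373190) (nat_lit 41) (nat_lit 5) (nat_lit 43) (nat_lit 4) (nat_lit 41) (nat_lit 4) (nat_lit 481) (nat_lit 390) (nat_lit 329)))) (XT.nd (nat_lit 78) (nat_lit 152) (nat_lit 0) (XT.lf (nat_lit 0) (nat_lit 1287973816) (nat_lit 152) (nat_lit 13390687021) (nat_lit 76) (nat_lit 29559659117) (nat_lit 39) (nat_lit 5) (nat_lit 41) (nat_lit 5) (nat_lit 40) (nat_lit 4) (nat_lit 482) (nat_lit 390) (nat_lit 328)) (XT.nd (nat_lit 78) (nat_lit 76) (nat_lit 0) (XT.lf (nat_lit 0) (nat_lit 20245473614) (nat_lit 152) (nat_lit 20944755220) (nat_lit 0) (nat_lit 4668607911) (nat_lit 38) (nat_lit 5) (nat_lit 40) (nat_lit 4) (nat_lit 38) (nat_lit 4) (nat_lit 483) (nat_lit 390) (nat_lit 327)) (XT.lf (nat_lit 0) (nat_lit 17893613328) (nat_lit 76) (nat_lit 22634145704) (nat_lit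 76) (nat_lit 7021313468) (nat_lit 37) (nat_lit 4) (nat_lit 38) (nat_lit 5) (nat_lit 38) (nat_lit 4) (nat_lit 484) (nat_lit 390) (nat_lit 326))))) (XT.nd (nat_lit 234) (nat_lit 304) (nat_lit 0) (XT.nd (nat_lit 78) (nat_lit 152) (nat_lit 0) (XT.lf (nat_lit 0) (nat_lit 9700607576) (nat_lit 76) (nat_lit 2785941020) (nat_lit 152) (nat_lit 36826762935) (nat_lit 35) (nat_lit 5) (nat_lit 36) (nat_lit 5) (nat_lit 37) (nat_lit 4) (nat_lit 485) (nat_lit 390) (nat_lit 325)) (XT.nd (nat_lit 78) (nat_lit 76) (nat_lit 0) (XT.lf (nat_lit 0) (nat_lit 84155552) (nat_lit 76) (nat_lit 33145198596) (nat_lit 76) (nat_lit 17922180362) (nat_lit 34) (nat_lit 4) (nat_lit 35) (nat_lit 5) (nat_lit 35) (nat_lit 4) (nat_lit 486) (nat_lit 390) (nat_lit 324)) (XT.lf (nat_lit 0) (nat_lit 2252241670) (nat_lit 152) (nat_lit 10681131956) (nat_lit 76) (nat_lit 40136872725) (nat_lit 33) (nat_lit 5) (nat_lit 35) (nat_lit 5) (nat_lit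 34) (nat_lit 4) (nat_lit 487) (nat_lit 390) (nat_lit 323)))) (XT.nd (nat_lit 156) (nat_lit 152) (nat_lit 0) (XT.nd (nat_lit 78) (nat_lit 76) (nat_lit 0) (XT.lf (nat_lit 0) (nat_lit 23385783364) (nat_lit 152) (nat_lit 23135178555) (nat_lit 0) (nat_lit 8548977087) (nat_lit 32) (nat_lit 5) (nat_lit 34) (nat_lit 4) (nat_lit 32) (nat_lit 4) (nat_lit 488) (nat_lit 390) (nat_lit 322)) (XT.lf (nat_lit 0) (nat_lit 19849498537) (nat_lit 76) (nat_lit 26086346061) (nat_lit 76) (nat_lit 11222976754) (nat_lit 31) (nat_lit 4) (nat_lit 32) (nat_lit 5) (nat_lit 32) (nat_lit 4) (nat_lit 489) (nat_lit 390) (nat_lit 321))) (XT.nd (nat_lit 78) (nat_lit 0) (nat_lit 0) (XT.lf (nat_lit 0) (nat_lit 5996057562) (nat_lit 76) (nat_lit 4291984306) (nat_lit 152) (nat_lit 49054336675) (nat_lit 29) (nat_lit 5) (nat_lit 30) (nat_lit 5) (nat_lit 31) (nat_lit 4) (nat_lit 490) (nat_lit 390) (nat_lit 320)) (XT.lf (nat_lit 0) (nat_lit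 33141514608) (nat_lit 152) (nat_lit 9812189386) (nat_lit 0) (nat_lit 18663105984) (nat_lit 29) (nat_lit 5) (nat_lit 31) (nat_lit 4) (nat_lit 29) (nat_lit 4) (nat_lit 491) (nat_lit 390) (nat_lit 319))))))) (XT.nd (nat_lit 57096) (nat_lit 0) (nat_lit 9880) (XT.nd (nat_lit 468) (nat_lit 228) (nat_lit 0) (XT.nd (nat_lit 234) (nat_lit 228) (nat_lit 0) (XT.nd (nat_lit 78) (nat_lit 152) (nat_lit 0) (XT.lf (nat_lit 0) (nat_lit 36433746758) (nat_lit 76) (nat_lit 21031044515) (nat_lit 76) (nat_lit 6530358080) (nat_lit 28) (nat_lit 4) (nat_lit 29) (nat_lit 5) (nat_lit 29) (nat_lit 4) (nat_lit 492) (nat_lit 390) (nat_lit 318)) (XT.nd (nat_lit 78) (nat_lit 0) (nat_lit 0) (XT.lf (nat_lit 0) (nat_lit 16429922271) (nat_lit 152) (nat_lit 47719526050) (nat_lit 0) (nat_lit 2330986935) (nat_lit 26) (nat_lit 5) (nat_lit 28) (nat_lit 4) (nat_lit 26) (nat_lit 4) (nat_lit 493) (nat_lit 390) (nat_lit 317)) (XT.lf (nat_lit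 0) (nat_lit 40839369159) (nat_lit 152) (nat_lit 1514774784) (nat_lit 0) (nat_lit 26720815734) (nat_lit 26) (nat_lit 5) (nat_lit 28) (nat_lit 4) (nat_lit 26) (nat_lit 4) (nat_lit 494) (nat_lit 390) (nat_lit 316)))) (XT.nd (nat_lit 78) (nat_lit 152) (nat_lit 0) (XT.lf (nat_lit 0) (nat_lit 47811671234) (nat_lit 76) (nat_lit 19056406477) (nat_lit 76) (nat_lit 4919169160) (nat_lit 25) (nat_lit 4) (nat_lit 26) (nat_lit 5) (nat_lit 26) (nat_lit 4) (nat_lit 495) (nat_lit 390) (nat_lit 315)) (XT.nd (nat_lit 78) (nat_lit 0) (nat_lit 0) (XT.lf (nat_lit 0) (nat_lit 19435352944) (nat_lit 152) (nat_lit 49493929443) (nat_lit 0) (nat_lit 5692603913) (nat_lit 23) (nat_lit 5) (nat_lit 25) (nat_lit 4) (nat_lit 23) (nat_lit 4) (nat_lit 496) (nat_lit 390) (nat_lit 314)) (XT.lf (nat_lit 0) (nat_lit 45289942904) (nat_lit 152) (nat_lit 764590900) (nat_lit 0) (nat_lit 31530740629) (nat_lit 23) (nat_lit 5) (nat_lit 25)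 (nat_lit 4) (nat_lit 23) (nat_lit 4) (nat_lit 497) (nat_lit 390) (nat_lit 313))))) (XT.nd (nat_lit 56316) (nat_lit 0) (nat_lit 16872) (XT.nd (nat_lit 78) (nat_lit 152) (nat_lit 0) (XT.lf (nat_lit 0) (nat_lit 51290663507) (nat_lit 76) (nat_lit 21583959929) (nat_lit 76) (nat_lit 7809087897) (nat_lit 22) (nat_lit 4) (nat_lit 23) (nat_lit 5) (nat_lit 23) (nat_lit 4) (nat_lit 498) (nat_lit 390) (nat_lit 312)) (XT.nd (nat_lit 56160) (nat_lit 0) (nat_lit 19760) (XT.lf (nat_lit 0) (nat_lit 17761570049) (nat_lit 152) (nat_lit 61790636116) (nat_lit 0) (nat_lit 4373418971) (nat_lit 20) (nat_lit 5) (nat_lit 22) (nat_lit 4) (nat_lit 20) (nat_lit 4) (nat_lit 499) (nat_lit 390) (nat_lit 311)) (XT.lf (nat_lit 0) (nat_lit 1037509006) (nat_lit 608) (nat_lit 1326824323) (nat_lit 608) (nat_lit 1326824323) (nat_lit 280) (nat_lit 4) (nat_lit 288) (nat_lit 5) (nat_lit 288) (nat_lit 4) (nat_lit 418) (nat_lit 391) (nat_lit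 391)))) (XT.nd (nat_lit 156) (nat_lit 1596) (nat_lit 0) (XT.nd (nat_lit 78) (nat_lit 684) (nat_lit 0) (XT.lf (nat_lit 0) (nat_lit 3370662042) (nat_lit 608) (nat_lit 3187890495) (nat_lit 0) (nat_lit 932901626) (nat_lit 272) (nat_lit 5) (nat_lit 280) (nat_lit 4) (nat_lit 272) (nat_lit 4) (nat_lit 419) (nat_lit 391) (nat_lit 390)) (XT.lf (nat_lit 0) (nat_lit 1866106620) (nat_lit 684) (nat_lit 971240564) (nat_lit 76) (nat_lit 4771261540) (nat_lit 263) (nat_lit 5) (nat_lit 272) (nat_lit 5) (nat_lit 264) (nat_lit 4) (nat_lit 420) (nat_lit 391) (nat_lit 389))) (XT.nd (nat_lit 78) (nat_lit 456) (nat_lit 0) (XT.lf (nat_lit 0) (nat_lit 207297287) (nat_lit 608) (nat_lit 6346718121) (nat_lit 76) (nat_lit 1179996119) (nat_lit 248) (nat_lit 5) (nat_lit 256) (nat_lit 5) (nat_lit 249) (nat_lit 4) (nat_lit 421) (nat_lit 391) (nat_lit 388)) (XT.lf (nat_lit 0) (nat_lit 3850893773) (nat_lit 456) (nat_lit 2386997687)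 (nat_lit 532) (nat_lit 1629049823) (nat_lit 242) (nat_lit 5) (nat_lit 248) (nat_lit 5) (nat_lit 249) (nat_lit 4) (nat_lit 422) (nat_lit 391) (nat_lit 387)))))) (XT.nd (nat_lit 546) (nat_lit 2964) (nat_lit 0) (XT.nd (nat_lit 234) (nat_lit 2052) (nat_lit 0) (XT.nd (nat_lit 78) (nat_lit 1444) (nat_lit 0) (XT.lf (nat_lit 0) (nat_lit 4365267245) (nat_lit 532) (nat_lit 1584297100) (nat_lit 76) (nat_lit 2058935287) (nat_lit 235) (nat_lit 5) (nat_lit 242) (nat_lit 5) (nat_lit 236) (nat_lit 4) (nat_lit 423) (nat_lit 391) (nat_lit 386)) (XT.nd (nat_lit 78) (nat_lit 456) (nat_lit 0) (XT.lf (nat_lit 0) (nat_lit 968016383) (nat_lit 456) (nat_lit 1366352342) (nat_lit 532) (nat_lit 5824184601) (nat_lit 222) (nat_lit 5) (nat_lit 228) (nat_lit 5) (nat_lit 229) (nat_lit 5) (nat_lit 424) (nat_lit 391) (nat_lit 385)) (XT.lf (nat_lit 0) (nat_lit 155088834) (nat_lit 456) (nat_lit 4668294857) (nat_lit 76) (nat_lit 3493432212)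 (nat_lit 216) (nat_lit 5) (nat_lit 222) (nat_lit 5) (nat_lit 217) (nat_lit 5) (nat_lit 425) (nat_lit 391) (nat_lit 384)))) (XT.nd (nat_lit 156) (nat_lit 760) (nat_lit 0) (XT.nd (nat_lit 78) (nat_lit 836) (nat_lit 0) (XT.lf (nat_lit 0) (nat_lit 6226468653) (nat_lit 532) (nat_lit 2059000703) (nat_lit 76) (nat_lit 198402914) (nat_lit 210) (nat_lit 5) (nat_lit 217) (nat_lit 5) (nat_lit 211) (nat_lit 4) (nat_lit 426) (nat_lit 391) (nat_lit 383)) (XT.lf (nat_lit 0) (nat_lit 638439060) (nat_lit 380) (nat_lit 3187082353) (nat_lit 456) (nat_lit 4833830996) (nat_lit 199) (nat_lit 5) (nat_lit 204) (nat_lit 5) (nat_lit 205) (nat_lit 5) (nat_lit 427) (nat_lit 391) (nat_lit 382))) (XT.nd (nat_lit 78) (nat_lit 380) (nat_lit 0) (XT.lf (nat_lit 0) (nat_lit 1252862268) (nat_lit 380) (nat_lit 5358159520) (nat_lit 76) (nat_lit 2232877302) (nat_lit 194) (nat_lit 5) (nat_lit 199) (nat_lit 5) (nat_lit 195) (nat_lit 5)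 (nat_lit 428) (nat_lit 391) (nat_lit 381)) (XT.lf (nat_lit 0) (nat_lit 6419847673) (nat_lit 380) (nat_lit 1077569788) (nat_lit 456) (nat_lit 1540229962) (nat_lit 189) (nat_lit 5) (nat_lit 194) (nat_lit 5) (nat_lit 195) (nat_lit 5) (nat_lit 429) (nat_lit 391) (nat_lit 380))))) (XT.nd (nat_lit 234) (nat_lit 1596) (nat_lit 0) (XT.nd (nat_lit 78) (nat_lit 684) (nat_lit 0) (XT.lf (nat_lit 0) (nat_lit 194015670) (nat_lit 304) (nat_lit 4501125634) (nat_lit 380) (nat_lit 4545289432) (nat_lit 180) (nat_lit 5) (nat_lit 184) (nat_lit 5) (nat_lit 185) (nat_lit 5) (nat_lit 430) (nat_lit 391) (nat_lit 379)) (XT.nd (nat_lit 78) (nat_lit 304) (nat_lit 0) (XT.lf (nat_lit 0) (nat_lit 1710358403) (nat_lit 380) (nat_lit 6288921688) (nat_lit 76) (nat_lit 1453507978) (nat_lit 175) (nat_lit 5) (nat_lit 180) (nat_lit 5) (nat_lit 176) (nat_lit 5) (nat_lit 431) (nat_lit 391) (nat_lit 378)) (XT.lf (nat_lit 0) (nat_lit 6207878326)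 (nat_lit 304) (nat_lit 1965344860) (nat_lit 380) (nat_lit 1501549114) (nat_lit 171) (nat_lit 5) (nat_lit 175) (nat_lit 5) (nat_lit 176) (nat_lit 5) (nat_lit 432) (nat_lit 391) (nat_lit 377)))) (XT.nd (nat_lit 156) (nat_lit 608) (nat_lit 0) (XT.nd (nat_lit 78) (nat_lit 608) (nat_lit 0) (XT.lf (nat_lit 0) (nat_lit 4944693506) (nat_lit 380) (nat_lit 578869829) (nat_lit 76) (nat_lit 4383090380) (nat_lit 166) (nat_lit 5) (nat_lit 171) (nat_lit 5) (nat_lit 167) (nat_lit 5) (nat_lit 433) (nat_lit 391) (nat_lit 376)) (XT.lf (nat_lit 0) (nat_lit 1511751542) (nat_lit 304) (nat_lit 7692059099) (nat_lit 76) (nat_lit 945166725) (nat_lit 158) (nat_lit 5) (nat_lit 162) (nat_lit 5) (nat_lit 159) (nat_lit 5) (nat_lit 434) (nat_lit 391) (nat_lit 375))) (XT.nd (nat_lit 78) (nat_lit 304) (nat_lit 0) (XT.lf (nat_lit 0) (nat_lit 5561116871) (nat_lit 304) (nat_lit 2670659491) (nat_lit 380) (nat_lit 2169419519) (nat_lit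 154) (nat_lit 5) (nat_lit 158) (nat_lit 5) (nat_lit 159) (nat_lit 5) (nat_lit 435) (nat_lit 391) (nat_lit 374)) (XT.lf (nat_lit 0) (nat_lit 4541737591) (nat_lit 304) (nat_lit 1919811077) (nat_lit 76) (nat_lit 4202848624) (nat_lit 150) (nat_lit 5) (nat_lit 154) (nat_lit 5) (nat_lit 151) (nat_lit 5) (nat_lit 436) (nat_lit 391) (nat_lit 373))))))))
noncomputable def xc32 : XT := (XT.nd (nat_lit 2028) (nat_lit 2812) (nat_lit 0) (XT.nd (nat_lit 1014) (nat_lit 2432) (nat_lit 0) (XT.nd (nat_lit 468) (nat_lit 1672) (nat_lit 0) (XT.nd (nat_lit 234) (nat_lit 912) (nat_lit 0) (XT.nd (nat_lit 78) (nat_lit 532) (nat_lit 0) (XT.lf (nat_lit 0) (nat_lit 610774463) (nat_lit 304) (nat_lit 9821201587) (nat_lit 76) (nat_lit 507400475) (nat_lit 143) (nat_lit 5) (nat_lit 147) (nat_lit 5) (nat_lit 144) (nat_lit 5) (nat_lit 437) (nat_lit 391) (nat_lit 372)) (XT.nd (nat_lit 78) (nat_lit 304) (nat_lit 0) (XT.lf (nat_lit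 0) (nat_lit 4226054437) (nat_lit 228) (nat_lit 3396592126) (nat_lit 304) (nat_lit 3601595906) (nat_lit 140) (nat_lit 5) (nat_lit 143) (nat_lit 5) (nat_lit 144) (nat_lit 5) (nat_lit 438) (nat_lit 391) (nat_lit 371)) (XT.lf (nat_lit 0) (nat_lit 3421550942) (nat_lit 304) (nat_lit 4098973626) (nat_lit 76) (nat_lit 4001016109) (nat_lit 136) (nat_lit 5) (nat_lit 140) (nat_lit 5) (nat_lit 137) (nat_lit 5) (nat_lit 439) (nat_lit 391) (nat_lit 370)))) (XT.nd (nat_lit 78) (nat_lit 684) (nat_lit 0) (XT.lf (nat_lit 0) (nat_lit 10712390675) (nat_lit 228) (nat_lit 38758633) (nat_lit 304) (nat_lit 1080598442) (nat_lit 133) (nat_lit 5) (nat_lit 136) (nat_lit 5) (nat_lit 137) (nat_lit 5) (nat_lit 440) (nat_lit 391) (nat_lit 369)) (XT.nd (nat_lit 78) (nat_lit 228) (nat_lit 0) (XT.lf (nat_lit 0) (nat_lit 1914469572) (nat_lit 228) (nat_lit 4348639552) (nat_lit 304) (nat_lit 5889666363) (nat_lit 127) (nat_lit 5) (nat_lit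 130) (nat_lit 5) (nat_lit 131) (nat_lit 5) (nat_lit 441) (nat_lit 391) (nat_lit 368)) (XT.lf (nat_lit 0) (nat_lit 1487784069) (nat_lit 228) (nat_lit 7422172777) (nat_lit 76) (nat_lit 3577535412) (nat_lit 124) (nat_lit 5) (nat_lit 127) (nat_lit 5) (nat_lit 125) (nat_lit 5) (nat_lit 442) (nat_lit 391) (nat_lit 367))))) (XT.nd (nat_lit 234) (nat_lit 836) (nat_lit 0) (XT.nd (nat_lit 78) (nat_lit 608) (nat_lit 0) (XT.lf (nat_lit 0) (nat_lit 8270071246) (nat_lit 228) (nat_lit 900553291) (nat_lit 304) (nat_lit 3664827009) (nat_lit 121) (nat_lit 5) (nat_lit 124) (nat_lit 5) (nat_lit 125) (nat_lit 5) (nat_lit 443) (nat_lit 391) (nat_lit 366)) (XT.nd (nat_lit 78) (nat_lit 380) (nat_lit 0) (XT.lf (nat_lit 0) (nat_lit 4051021803) (nat_lit 228) (nat_lit 1676063499) (nat_lit 76) (nat_lit 7469774878) (nat_lit 118) (nat_lit 5) (nat_lit 121) (nat_lit 5) (nat_lit 119) (nat_lit 5) (nat_lit 444) (nat_lit 391) (nat_lit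 365)) (XT.lf (nat_lit 0) (nat_lit 1311109805) (nat_lit 152) (nat_lit 10840634603) (nat_lit 228) (nat_lit 1421265139) (nat_lit 113) (nat_lit 5) (nat_lit 115) (nat_lit 5) (nat_lit 116) (nat_lit 4) (nat_lit 445) (nat_lit 391) (nat_lit 364)))) (XT.nd (nat_lit 156) (nat_lit 380) (nat_lit 0) (XT.nd (nat_lit 78) (nat_lit 228) (nat_lit 0) (XT.lf (nat_lit 0) (nat_lit 4355970138) (nat_lit 152) (nat_lit 2310089953) (nat_lit 228) (nat_lit 7296770112) (nat_lit 110) (nat_lit 5) (nat_lit 112) (nat_lit 5) (nat_lit 113) (nat_lit 5) (nat_lit 446) (nat_lit 391) (nat_lit 363)) (XT.lf (nat_lit 0) (nat_lit 845069007) (nat_lit 228) (nat_lit 6906846625) (nat_lit 76) (nat_lit 6616494418) (nat_lit 107) (nat_lit 5) (nat_lit 110) (nat_lit 5) (nat_lit 108) (nat_lit 5) (nat_lit 447) (nat_lit 391) (nat_lit 362))) (XT.nd (nat_lit 78) (nat_lit 228) (nat_lit 0) (XT.lf (nat_lit 0) (nat_lit 9324483534) (nat_lit 228) (nat_lit 4184142712)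 (nat_lit 76) (nat_lit 1281037710) (nat_lit 105) (nat_lit 5) (nat_lit 108) (nat_lit 5) (nat_lit 106) (nat_lit 4) (nat_lit 448) (nat_lit 391) (nat_lit 361)) (XT.lf (nat_lit 0) (nat_lit 3067446485) (nat_lit 228) (nat_lit 1438423011) (nat_lit 76) (nat_lit 10721350411) (nat_lit 102) (nat_lit 5) (nat_lit 105) (nat_lit 5) (nat_lit 103) (nat_lit 5) (nat_lit 449) (nat_lit 391) (nat_lit 360)))))) (XT.nd (nat_lit 468) (nat_lit 1216) (nat_lit 0) (XT.nd (nat_lit 234) (nat_lit 532) (nat_lit 0) (XT.nd (nat_lit 78) (nat_lit 380) (nat_lit 0) (XT.lf (nat_lit 0) (nat_lit 1360196928) (nat_lit 152) (nat_lit 10673234401) (nat_lit 228) (nat_lit 3648010038) (nat_lit 98) (nat_lit 5) (nat_lit 100) (nat_lit 5) (nat_lit 101) (nat_lit 4) (nat_lit 450) (nat_lit 391) (nat_lit 359)) (XT.nd (nat_lit 78) (nat_lit 152) (nat_lit 0) (XT.lf (nat_lit 0) (nat_lit 4220236620) (nat_lit 152) (nat_lit 1089052399) (nat_lit 228) (nat_lit 10843868105)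 (nat_lit 95) (nat_lit 5) (nat_lit 97) (nat_lit 5) (nat_lit 98) (nat_lit 5) (nat_lit 451) (nat_lit 391) (nat_lit 358)) (XT.lf (nat_lit 0) (nat_lit 7084735357) (nat_lit 152) (nat_lit 7710124904) (nat_lit 228) (nat_lit 1847842472) (nat_lit 93) (nat_lit 5) (nat_lit 95) (nat_lit 5) (nat_lit 96) (nat_lit 4) (nat_lit 452) (nat_lit 391) (nat_lit 357)))) (XT.nd (nat_lit 78) (nat_lit 304) (nat_lit 0) (XT.lf (nat_lit 0) (nat_lit 7559390342) (nat_lit 228) (nat_lit 7184300066) (nat_lit 76) (nat_lit 2407557017) (nat_lit 90) (nat_lit 5) (nat_lit 93) (nat_lit 5) (nat_lit 91) (nat_lit 4) (nat_lit 453) (nat_lit 391) (nat_lit 356)) (XT.nd (nat_lit 78) (nat_lit 228) (nat_lit 0) (XT.lf (nat_lit 0) (nat_lit 12875939853) (nat_lit 76) (nat_lit 4682369540) (nat_lit 152) (nat_lit 121577725) (nat_lit 89) (nat_lit 5) (nat_lit 90) (nat_lit 5) (nat_lit 91) (nat_lit 4) (nat_lit 454) (nat_lit 391) (nat_lit 355)) (XT.lf (nat_lit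 0) (nat_lit 9776950329) (nat_lit 228) (nat_lit 2476753271) (nat_lit 76) (nat_lit 5974033274) (nat_lit 86) (nat_lit 5) (nat_lit 89) (nat_lit 5) (nat_lit 87) (nat_lit 4) (nat_lit 455) (nat_lit 391) (nat_lit 354))))) (XT.nd (nat_lit 234) (nat_lit 608) (nat_lit 0) (XT.nd (nat_lit 78) (nat_lit 456) (nat_lit 0) (XT.lf (nat_lit 0) (nat_lit 1480865276) (nat_lit 152) (nat_lit 119026746) (nat_lit 76) (nat_lit 17198383214) (nat_lit 84) (nat_lit 5) (nat_lit 86) (nat_lit 5) (nat_lit 85) (nat_lit 5) (nat_lit 456) (nat_lit 391) (nat_lit 353)) (XT.nd (nat_lit 78) (nat_lit 228) (nat_lit 0) (XT.lf (nat_lit 0) (nat_lit 2192162183) (nat_lit 76) (nat_lit 9759788431) (nat_lit 152) (nat_lit 7436353309) (nat_lit 81) (nat_lit 5) (nat_lit 82) (nat_lit 5) (nat_lit 83) (nat_lit 4) (nat_lit 457) (nat_lit 391) (nat_lit 352)) (XT.lf (nat_lit 0) (nat_lit 3020154792) (nat_lit 228) (nat_lit 15475419850) (nat_lit 76) (nat_lit 1507251745)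 (nat_lit 78) (nat_lit 5) (nat_lit 81) (nat_lit 5) (nat_lit 79) (nat_lit 4) (nat_lit 458) (nat_lit 391) (nat_lit 351)))) (XT.nd (nat_lit 156) (nat_lit 304) (nat_lit 0) (XT.nd (nat_lit 78) (nat_lit 228) (nat_lit 0) (XT.lf (nat_lit 0) (nat_lit 6762110838) (nat_lit 76) (nat_lit 7296405642) (nat_lit 152) (nat_lit 6580967022) (nat_lit 77) (nat_lit 5) (nat_lit 78) (nat_lit 5) (nat_lit 79) (nat_lit 4) (nat_lit 459) (nat_lit 391) (nat_lit 350)) (XT.lf (nat_lit 0) (nat_lit 4420135377) (nat_lit 228) (nat_lit 12327037376) (nat_lit 76) (nat_lit 4554630281) (nat_lit 74) (nat_lit 5) (nat_lit 77) (nat_lit 5) (nat_lit 75) (nat_lit 4) (nat_lit 460) (nat_lit 391) (nat_lit 349))) (XT.nd (nat_lit 78) (nat_lit 228) (nat_lit 0) (XT.lf (nat_lit 0) (nat_lit 11102370485) (nat_lit 76) (nat_lit 4933239907) (nat_lit 152) (nat_lit 5953662553) (nat_lit 73) (nat_lit 5) (nat_lit 74) (nat_lit 5) (nat_lit 75) (nat_lit 4) (nat_lit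 461) (nat_lit 391) (nat_lit 348)) (XT.lf (nat_lit 0) (nat_lit 5619115391) (nat_lit 228) (nat_lit 9557061647) (nat_lit 76) (nat_lit 7527165851) (nat_lit 70) (nat_lit 5) (nat_lit 73) (nat_lit 5) (nat_lit 71) (nat_lit 4) (nat_lit 462) (nat_lit 391) (nat_lit 347))))))) (XT.nd (nat_lit 1014) (nat_lit 1292) (nat_lit 0) (XT.nd (nat_lit 468) (nat_lit 760) (nat_lit 0) (XT.nd (nat_lit 234) (nat_lit 380) (nat_lit 0) (XT.nd (nat_lit 78) (nat_lit 304) (nat_lit 0) (XT.lf (nat_lit 0) (nat_lit 15112035275) (nat_lit 76) (nat_lit 2724417182) (nat_lit 152) (nat_lit 5609225511) (nat_lit 69) (nat_lit 5) (nat_lit 70) (nat_lit 5) (nat_lit 71) (nat_lit 4) (nat_lit 463) (nat_lit 391) (nat_lit 346)) (XT.nd (nat_lit 78) (nat_lit 76) (nat_lit 0) (XT.lf (nat_lit 0) (nat_lit 6560726377) (nat_lit 228) (nat_lit 7285385831) (nat_lit 76) (nat_lit 10369756297) (nat_lit 66) (nat_lit 5) (nat_lit 69) (nat_lit 5) (nat_lit 67) (nat_lit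 4) (nat_lit 464) (nat_lit 391) (nat_lit 345)) (XT.lf (nat_lit 0) (nat_lit 18666865964) (nat_lit 76) (nat_lit 735524537) (nat_lit 152) (nat_lit 5615136699) (nat_lit 65) (nat_lit 5) (nat_lit 66) (nat_lit 5) (nat_lit 67) (nat_lit 4) (nat_lit 465) (nat_lit 391) (nat_lit 344)))) (XT.nd (nat_lit 78) (nat_lit 228) (nat_lit 0) (XT.lf (nat_lit 0) (nat_lit 7175316609) (nat_lit 152) (nat_lit 5658159495) (nat_lit 76) (nat_lit 13015200606) (nat_lit 63) (nat_lit 5) (nat_lit 65) (nat_lit 5) (nat_lit 64) (nat_lit 4) (nat_lit 466) (nat_lit 391) (nat_lit 343)) (XT.nd (nat_lit 78) (nat_lit 152) (nat_lit 0) (XT.lf (nat_lit 0) (nat_lit 20669879723) (nat_lit 152) (nat_lit 5108992925) (nat_lit 0) (nat_lit 935422912) (nat_lit 62) (nat_lit 5) (nat_lit 64) (nat_lit 4) (nat_lit 62) (nat_lit 4) (nat_lit 467) (nat_lit 391) (nat_lit 342)) (XT.lf (nat_lit 0) (nat_lit 7377526342) (nat_lit 152) (nat_lit 4852797062) (nat_lit 76)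 (nat_lit 15381721345) (nat_lit 60) (nat_lit 5) (nat_lit 62) (nat_lit 5) (nat_lit 61) (nat_lit 4) (nat_lit 468) (nat_lit 391) (nat_lit 341))))) (XT.nd (nat_lit 234) (nat_lit 456) (nat_lit 0) (XT.nd (nat_lit 78) (nat_lit 228) (nat_lit 0) (XT.lf (nat_lit 0) (nat_lit 21543648038) (nat_lit 152) (nat_lit 4798855946) (nat_lit 0) (nat_lit 2204440419) (nat_lit 59) (nat_lit 5) (nat_lit 61) (nat_lit 4) (nat_lit 59) (nat_lit 4) (nat_lit 469) (nat_lit 391) (nat_lit 340)) (XT.nd (nat_lit 78) (nat_lit 76) (nat_lit 0) (XT.lf (nat_lit 0) (nat_lit 7063423080) (nat_lit 152) (nat_lit 5083869131) (nat_lit 76) (nat_lit 17370059802) (nat_lit 57) (nat_lit 5) (nat_lit 59) (nat_lit 5) (nat_lit 58) (nat_lit 4) (nat_lit 470) (nat_lit 391) (nat_lit 339)) (XT.lf (nat_lit 0) (nat_lit 21906421402) (nat_lit 152) (nat_lit 5648859881) (nat_lit 0) (nat_lit 2972386034) (nat_lit 56) (nat_lit 5) (nat_lit 58) (nat_lit 4) (nat_lit 56)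 (nat_lit 4) (nat_lit 471) (nat_lit 391) (nat_lit 338)))) (XT.nd (nat_lit 156) (nat_lit 228) (nat_lit 0) (XT.nd (nat_lit 78) (nat_lit 76) (nat_lit 0) (XT.lf (nat_lit 0) (nat_lit 6107121629) (nat_lit 152) (nat_lit 6610030557) (nat_lit 76) (nat_lit 18860067547) (nat_lit 54) (nat_lit 5) (nat_lit 56) (nat_lit 5) (nat_lit 55) (nat_lit 4) (nat_lit 472) (nat_lit 391) (nat_lit 337)) (XT.lf (nat_lit 0) (nat_lit 21624436323) (nat_lit 152) (nat_lit 7942680516) (nat_lit 0) (nat_lit 3102648125) (nat_lit 53) (nat_lit 5) (nat_lit 55) (nat_lit 4) (nat_lit 53) (nat_lit 4) (nat_lit 473) (nat_lit 391) (nat_lit 336))) (XT.nd (nat_lit 78) (nat_lit 76) (nat_lit 0) (XT.lf (nat_lit 0) (nat_lit 4356800721) (nat_lit 152) (nat_lit 9742165469) (nat_lit 76) (nat_lit 19706705282) (nat_lit 51) (nat_lit 5) (nat_lit 53) (nat_lit 5) (nat_lit 52) (nat_lit 4) (nat_lit 474) (nat_lit 391) (nat_lit 335)) (XT.lf (nat_lit 0) (nat_lit 20536067626)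 (nat_lit 152) (nat_lit 12020819809) (nat_lit 0) (nat_lit 2431141859) (nat_lit 50) (nat_lit 5) (nat_lit 52) (nat_lit 4) (nat_lit 50) (nat_lit 4) (nat_lit 475) (nat_lit 391) (nat_lit 334)))))) (XT.nd (nat_lit 468) (nat_lit 608) (nat_lit 0) (XT.nd (nat_lit 234) (nat_lit 380) (nat_lit 0) (XT.nd (nat_lit 78) (nat_lit 152) (nat_lit 0) (XT.lf (nat_lit 0) (nat_lit 1630012819) (nat_lit 152) (nat_lit 14852960082) (nat_lit 76) (nat_lit 19735344818) (nat_lit 48) (nat_lit 5) (nat_lit 50) (nat_lit 5) (nat_lit 49) (nat_lit 4) (nat_lit 476) (nat_lit 391) (nat_lit 333)) (XT.nd (nat_lit 78) (nat_lit 76) (nat_lit 0) (XT.lf (nat_lit 0) (nat_lit 18446763024) (nat_lit 152) (nat_lit 18290982572) (nat_lit 0) (nat_lit 761195988) (nat_lit 47) (nat_lit 5) (nat_lit 49) (nat_lit 4) (nat_lit 47) (nat_lit 4) (nat_lit 477) (nat_lit 391) (nat_lit 332)) (XT.lf (nat_lit 0) (nat_lit 16421275214) (nat_lit 76) (nat_lit 20073173034)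 (nat_lit 76) (nat_lit 2337446089) (nat_lit 46) (nat_lit 4) (nat_lit 47) (nat_lit 5) (nat_lit 47) (nat_lit 4) (nat_lit 478) (nat_lit 391) (nat_lit 331)))) (XT.nd (nat_lit 78) (nat_lit 228) (nat_lit 0) (XT.lf (nat_lit 0) (nat_lit 12958999405) (nat_lit 76) (nat_lit 2185088127) (nat_lit 152) (nat_lit 25076182902) (nat_lit 44) (nat_lit 5) (nat_lit 45) (nat_lit 5) (nat_lit 46) (nat_lit 4) (nat_lit 479) (nat_lit 391) (nat_lit 330)) (XT.nd (nat_lit 78) (nat_lit 152) (nat_lit 0) (XT.lf (nat_lit 0) (nat_lit 8710694163) (nat_lit 76) (nat_lit 25132315748) (nat_lit 76) (nat_lit 7822612058) (nat_lit 43) (nat_lit 4) (nat_lit 44) (nat_lit 5) (nat_lit 44) (nat_lit 4) (nat_lit 480) (nat_lit 391) (nat_lit 329)) (XT.lf (nat_lit 0) (nat_lit 3658756373) (nat_lit 76) (nat_lit 6691257439) (nat_lit 152) (nat_lit 32822542040) (nat_lit 41) (nat_lit 5) (nat_lit 42) (nat_lit 5) (nat_lit 43) (nat_lit 4) (nat_lit 481) (nat_lit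 391) (nat_lit 328))))) (XT.nd (nat_lit 234) (nat_lit 380) (nat_lit 0) (XT.nd (nat_lit 78) (nat_lit 228) (nat_lit 0) (XT.lf (nat_lit 0) (nat_lit 29653678509) (nat_lit 152) (nat_lit 2318908673) (nat_lit 0) (nat_lit 12768400446) (nat_lit 41) (nat_lit 5) (nat_lit 43) (nat_lit 4) (nat_lit 41) (nat_lit 4) (nat_lit 482) (nat_lit 391) (nat_lit 327)) (XT.nd (nat_lit 78) (nat_lit 76) (nat_lit 0) (XT.lf (nat_lit 0) (nat_lit 3816838214) (nat_lit 152) (nat_lit 9174142015) (nat_lit 76) (nat_lit 33385308064) (nat_lit 39) (nat_lit 5) (nat_lit 41) (nat_lit 5) (nat_lit 40) (nat_lit 4) (nat_lit 483) (nat_lit 391) (nat_lit 326)) (XT.lf (nat_lit 0) (nat_lit 23673100402) (nat_lit 152) (nat_lit 17196798369) (nat_lit 0) (nat_lit 7209406182) (nat_lit 38) (nat_lit 5) (nat_lit 40) (nat_lit 4) (nat_lit 38) (nat_lit 4) (nat_lit 484) (nat_lit 391) (nat_lit 325)))) (XT.nd (nat_lit 156) (nat_lit 152) (nat_lit 0) (XT.nd (nat_lit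 78) (nat_lit 152) (nat_lit 0) (XT.lf (nat_lit 0) (nat_lit 23446035316) (nat_lit 76) (nat_lit 21453221019) (nat_lit 76) (nat_lit 4956904094) (nat_lit 37) (nat_lit 4) (nat_lit 38) (nat_lit 5) (nat_lit 38) (nat_lit 4) (nat_lit 485) (nat_lit 391) (nat_lit 324)) (XT.lf (nat_lit 0) (nat_lit 14755661278) (nat_lit 76) (nat_lit 654706921) (nat_lit 152) (nat_lit 36299612663) (nat_lit 35) (nat_lit 5) (nat_lit 36) (nat_lit 5) (nat_lit 37) (nat_lit 4) (nat_lit 486) (nat_lit 391) (nat_lit 323))) (XT.nd (nat_lit 78) (nat_lit 76) (nat_lit 0) (XT.lf (nat_lit 0) (nat_lit 4573206229) (nat_lit 76) (nat_lit 32571505639) (nat_lit 76) (nat_lit 16496771733) (nat_lit 34) (nat_lit 4) (nat_lit 35) (nat_lit 5) (nat_lit 35) (nat_lit 4) (nat_lit 487) (nat_lit 391) (nat_lit 322)) (XT.lf (nat_lit 0) (nat_lit 4532678968) (nat_lit 152) (nat_lit 6900755520) (nat_lit 76) (nat_lit 44225279314) (nat_lit 33) (nat_lit 5) (nat_lit 35)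 (nat_lit 5) (nat_lit 34) (nat_lit 4) (nat_lit 488) (nat_lit 391) (nat_lit 321))))))))
noncomputable def xc33 : XT := (XT.nd (nat_lit 57954) (nat_lit 0) (nat_lit 4560) (XT.nd (nat_lit 56940) (nat_lit 0) (nat_lit 12312) (XT.nd (nat_lit 468) (nat_lit 304) (nat_lit 0) (XT.nd (nat_lit 234) (nat_lit 228) (nat_lit 0) (XT.nd (nat_lit 78) (nat_lit 228) (nat_lit 0) (XT.lf (nat_lit 0) (nat_lit 26680002895) (nat_lit 152) (nat_lit 20058071555) (nat_lit 0) (nat_lit 11021603968) (nat_lit 32) (nat_lit 5) (nat_lit 34) (nat_lit 4) (nat_lit 32) (nat_lit 4) (nat_lit 489) (nat_lit 391) (nat_lit 320)) (XT.nd (nat_lit 78) (nat_lit 152) (nat_lit 0) (XT.lf (nat_lit 0) (nat_lit 24954476475) (nat_lit 76) (nat_lit 25341435450) (nat_lit 76) (nat_lit 9658943071) (nat_lit 31) (nat_lit 4) (nat_lit 32) (nat_lit 5) (nat_lit 32) (nat_lit 4) (nat_lit 490) (nat_lit 391) (nat_lit 319)) (XT.lf (nat_lit 0) (nat_lit 10330769262) (nat_lit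 76) (nat_lit 2494948858) (nat_lit 152) (nat_lit 49423072646) (nat_lit 29) (nat_lit 5) (nat_lit 30) (nat_lit 5) (nat_lit 31) (nat_lit 4) (nat_lit 491) (nat_lit 391) (nat_lit 318)))) (XT.nd (nat_lit 78) (nat_lit 228) (nat_lit 0) (XT.lf (nat_lit 0) (nat_lit 36743934360) (nat_lit 152) (nat_lit 6420628891) (nat_lit 0) (nat_lit 21474718831) (nat_lit 29) (nat_lit 5) (nat_lit 31) (nat_lit 4) (nat_lit 29) (nat_lit 4) (nat_lit 492) (nat_lit 391) (nat_lit 317)) (XT.nd (nat_lit 78) (nat_lit 152) (nat_lit 0) (XT.lf (nat_lit 0) (nat_lit 42026322438) (nat_lit 76) (nat_lit 20200665076) (nat_lit 76) (nat_lit 4911242917) (nat_lit 28) (nat_lit 4) (nat_lit 29) (nat_lit 5) (nat_lit 29) (nat_lit 4) (nat_lit 493) (nat_lit 391) (nat_lit 316)) (XT.lf (nat_lit 0) (nat_lit 19121564783) (nat_lit 152) (nat_lit 46367999028) (nat_lit 0) (nat_lit 4258781706) (nat_lit 26) (nat_lit 5) (nat_lit 28) (nat_lit 4) (nat_lit 26) (nat_lit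 4) (nat_lit 494) (nat_lit 391) (nat_lit 315))))) (XT.nd (nat_lit 234) (nat_lit 76) (nat_lit 0) (XT.nd (nat_lit 78) (nat_lit 152) (nat_lit 0) (XT.lf (nat_lit 0) (nat_lit 2008200680) (nat_lit 76) (nat_lit 42673532797) (nat_lit 76) (nat_lit 27792955536) (nat_lit 25) (nat_lit 4) (nat_lit 26) (nat_lit 5) (nat_lit 26) (nat_lit 4) (nat_lit 495) (nat_lit 391) (nat_lit 314)) (XT.nd (nat_lit 78) (nat_lit 152) (nat_lit 0) (XT.lf (nat_lit 0) (nat_lit 53659748645) (nat_lit 76) (nat_lit 18281246409) (nat_lit 76) (nat_lit 3383722306) (nat_lit 25) (nat_lit 4) (nat_lit 26) (nat_lit 5) (nat_lit 26) (nat_lit 4) (nat_lit 496) (nat_lit 391) (nat_lit 313)) (XT.lf (nat_lit 0) (nat_lit 22119501996) (nat_lit 152) (nat_lit 48541884608) (nat_lit 0) (nat_lit 7640216605) (nat_lit 23) (nat_lit 5) (nat_lit 25) (nat_lit 4) (nat_lit 23) (nat_lit 4) (nat_lit 497) (nat_lit 391) (nat_lit 312)))) (XT.nd (nat_lit 56082) (nat_lit 0)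 (nat_lit 20824) (XT.nd (nat_lit 78) (nat_lit 0) (nat_lit 0) (XT.lf (nat_lit 0) (nat_lit 2509716309) (nat_lit 76) (nat_lit 46699688102) (nat_lit 76) (nat_lit 32205479133) (nat_lit 22) (nat_lit 4) (nat_lit 23) (nat_lit 5) (nat_lit 23) (nat_lit 4) (nat_lit 498) (nat_lit 391) (nat_lit 311)) (XT.lf (nat_lit 0) (nat_lit 57025210450) (nat_lit 76) (nat_lit 21076796683) (nat_lit 76) (nat_lit 6568374783) (nat_lit 22) (nat_lit 4) (nat_lit 23) (nat_lit 5) (nat_lit 23) (nat_lit 4) (nat_lit 499) (nat_lit 391) (nat_lit 310))) (XT.nd (nat_lit 78) (nat_lit 912) (nat_lit 0) (XT.lf (nat_lit 0) (nat_lit 1335592869) (nat_lit 1292) (nat_lit 920850277) (nat_lit 0) (nat_lit 1335592869) (nat_lit 308) (nat_lit 5) (nat_lit 325) (nat_lit 4) (nat_lit 308) (nat_lit 4) (nat_lit 416) (nat_lit 392) (nat_lit 392)) (XT.lf (nat_lit 0) (nat_lit 1322227401) (nat_lit 912) (nat_lit 31409402) (nat_lit 76) (nat_lit 5927922087) (nat_lit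 296) (nat_lit 5) (nat_lit 308) (nat_lit 5) (nat_lit 297) (nat_lit 4) (nat_lit 417) (nat_lit 392) (nat_lit 391)))))) (XT.nd (nat_lit 468) (nat_lit 3876) (nat_lit 0) (XT.nd (nat_lit 234) (nat_lit 2128) (nat_lit 0) (XT.nd (nat_lit 78) (nat_lit 1292) (nat_lit 0) (XT.lf (nat_lit 0) (nat_lit 1920557501) (nat_lit 608) (nat_lit 5306620933) (nat_lit 608) (nat_lit 159289813) (nat_lit 280) (nat_lit 4) (nat_lit 288) (nat_lit 5) (nat_lit 288) (nat_lit 4) (nat_lit 418) (nat_lit 392) (nat_lit 390)) (XT.nd (nat_lit 78) (nat_lit 684) (nat_lit 0) (XT.lf (nat_lit 0) (nat_lit 3974019249) (nat_lit 532) (nat_lit 1697250334) (nat_lit 608) (nat_lit 1827984536) (nat_lit 272) (nat_lit 5) (nat_lit 279) (nat_lit 5) (nat_lit 280) (nat_lit 4) (nat_lit 419) (nat_lit 392) (nat_lit 389)) (XT.lf (nat_lit 0) (nat_lit 3963838136) (nat_lit 684) (nat_lit 1483614584) (nat_lit 76) (nat_lit 2172817776) (nat_lit 263) (nat_lit 5) (nat_lit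 272) (nat_lit 5) (nat_lit 264) (nat_lit 4) (nat_lit 420) (nat_lit 392) (nat_lit 388)))) (XT.nd (nat_lit 78) (nat_lit 988) (nat_lit 0) (XT.lf (nat_lit 0) (nat_lit 677915316) (nat_lit 532) (nat_lit 1424009315) (nat_lit 608) (nat_lit 5647681143) (nat_lit 248) (nat_lit 5) (nat_lit 255) (nat_lit 5) (nat_lit 256) (nat_lit 5) (nat_lit 421) (nat_lit 392) (nat_lit 387)) (XT.nd (nat_lit 78) (nat_lit 456) (nat_lit 0) (XT.lf (nat_lit 0) (nat_lit 98726668) (nat_lit 532) (nat_lit 4917321225) (nat_lit 76) (nat_lit 2870817981) (nat_lit 241) (nat_lit 5) (nat_lit 248) (nat_lit 5) (nat_lit 242) (nat_lit 5) (nat_lit 422) (nat_lit 392) (nat_lit 386)) (XT.lf (nat_lit 0) (nat_lit 5356902926) (nat_lit 456) (nat_lit 554171775) (nat_lit 532) (nat_lit 2121395702) (nat_lit 235) (nat_lit 5) (nat_lit 241) (nat_lit 5) (nat_lit 242) (nat_lit 5) (nat_lit 423) (nat_lit 392) (nat_lit 385))))) (XT.nd (nat_lit 234) (nat_lit 1976)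 (nat_lit 0) (XT.nd (nat_lit 78) (nat_lit 1368) (nat_lit 0) (XT.lf (nat_lit 0) (nat_lit 3682909830) (nat_lit 532) (nat_lit 351475175) (nat_lit 76) (nat_lit 4152017955) (nat_lit 228) (nat_lit 5) (nat_lit 235) (nat_lit 5) (nat_lit 229) (nat_lit 5) (nat_lit 424) (nat_lit 392) (nat_lit 384)) (XT.nd (nat_lit 78) (nat_lit 456) (nat_lit 0) (XT.lf (nat_lit 0) (nat_lit 1290465955) (nat_lit 456) (nat_lit 6223061276) (nat_lit 76) (nat_lit 835552754) (nat_lit 216) (nat_lit 5) (nat_lit 222) (nat_lit 5) (nat_lit 217) (nat_lit 5) (nat_lit 425) (nat_lit 392) (nat_lit 383)) (XT.lf (nat_lit 0) (nat_lit 4687529054) (nat_lit 456) (nat_lit 2544250245) (nat_lit 532) (nat_lit 1288267641) (nat_lit 210) (nat_lit 5) (nat_lit 216) (nat_lit 5) (nat_lit 217) (nat_lit 5) (nat_lit 426) (nat_lit 392) (nat_lit 382)))) (XT.nd (nat_lit 156) (nat_lit 760) (nat_lit 0) (XT.nd (nat_lit 78) (nat_lit 760) (nat_lit 0) (XT.lf (nat_lit 0)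 (nat_lit 4617162873) (nat_lit 456) (nat_lit 1358571504) (nat_lit 76) (nat_lit 2724278663) (nat_lit 204) (nat_lit 5) (nat_lit 210) (nat_lit 5) (nat_lit 205) (nat_lit 5) (nat_lit 427) (nat_lit 392) (nat_lit 381)) (XT.lf (nat_lit 0) (nat_lit 1239742533) (nat_lit 304) (nat_lit 584622115) (nat_lit 380) (nat_lit 7064930574) (nat_lit 194) (nat_lit 5) (nat_lit 198) (nat_lit 5) (nat_lit 199) (nat_lit 5) (nat_lit 428) (nat_lit 392) (nat_lit 380))) (XT.nd (nat_lit 78) (nat_lit 380) (nat_lit 0) (XT.lf (nat_lit 0) (nat_lit 3935161796) (nat_lit 380) (nat_lit 3999865483) (nat_lit 456) (nat_lit 1152040049) (nat_lit 189) (nat_lit 5) (nat_lit 194) (nat_lit 5) (nat_lit 195) (nat_lit 5) (nat_lit 429) (nat_lit 392) (nat_lit 379)) (XT.lf (nat_lit 0) (nat_lit 4916971164) (nat_lit 380) (nat_lit 2573611582) (nat_lit 76) (nat_lit 1803925970) (nat_lit 184) (nat_lit 5) (nat_lit 189) (nat_lit 5) (nat_lit 185) (nat_lit 5) (nat_lit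 430) (nat_lit 392) (nat_lit 378))))))) (XT.nd (nat_lit 1014) (nat_lit 2964) (nat_lit 0) (XT.nd (nat_lit 468) (nat_lit 2204) (nat_lit 0) (XT.nd (nat_lit 234) (nat_lit 1216) (nat_lit 0) (XT.nd (nat_lit 78) (nat_lit 684) (nat_lit 0) (XT.lf (nat_lit 0) (nat_lit 91912134) (nat_lit 304) (nat_lit 1612289702) (nat_lit 380) (nat_lit 7807740868) (nat_lit 175) (nat_lit 5) (nat_lit 179) (nat_lit 5) (nat_lit 180) (nat_lit 5) (nat_lit 431) (nat_lit 392) (nat_lit 377)) (XT.nd (nat_lit 78) (nat_lit 380) (nat_lit 0) (XT.lf (nat_lit 0) (nat_lit 2877801223) (nat_lit 304) (nat_lit 5143457857) (nat_lit 380) (nat_lit 1717047777) (nat_lit 171) (nat_lit 5) (nat_lit 175) (nat_lit 5) (nat_lit 176) (nat_lit 5) (nat_lit 432) (nat_lit 392) (nat_lit 376)) (XT.lf (nat_lit 0) (nat_lit 4571342196) (nat_lit 380) (nat_lit 4224066818) (nat_lit 76) (nat_lit 1179708404) (nat_lit 166) (nat_lit 5) (nat_lit 171) (nat_lit 5) (nat_lit 167)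 (nat_lit 5) (nat_lit 433) (nat_lit 392) (nat_lit 375)))) (XT.nd (nat_lit 78) (nat_lit 836) (nat_lit 0) (XT.lf (nat_lit 0) (nat_lit 913880134) (nat_lit 380) (nat_lit 1514346896) (nat_lit 76) (nat_lit 7794286652) (nat_lit 161) (nat_lit 5) (nat_lit 166) (nat_lit 5) (nat_lit 162) (nat_lit 5) (nat_lit 434) (nat_lit 392) (nat_lit 374)) (XT.nd (nat_lit 78) (nat_lit 304) (nat_lit 0) (XT.lf (nat_lit 0) (nat_lit 1277666348) (nat_lit 304) (nat_lit 6183757614) (nat_lit 380) (nat_lit 3018487303) (nat_lit 154) (nat_lit 5) (nat_lit 158) (nat_lit 5) (nat_lit 159) (nat_lit 5) (nat_lit 435) (nat_lit 392) (nat_lit 373)) (XT.lf (nat_lit 0) (nat_lit 3539491603) (nat_lit 304) (nat_lit 6557102374) (nat_lit 76) (nat_lit 651860237) (nat_lit 150) (nat_lit 5) (nat_lit 154) (nat_lit 5) (nat_lit 151) (nat_lit 5) (nat_lit 436) (nat_lit 392) (nat_lit 372))))) (XT.nd (nat_lit 234) (nat_lit 1140) (nat_lit 0) (XT.nd (nat_lit 78)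 (nat_lit 836) (nat_lit 0) (XT.lf (nat_lit 0) (nat_lit 7171306879) (nat_lit 228) (nat_lit 3238076881) (nat_lit 304) (nat_lit 618759105) (nat_lit 147) (nat_lit 5) (nat_lit 150) (nat_lit 5) (nat_lit 151) (nat_lit 5) (nat_lit 437) (nat_lit 392) (nat_lit 371)) (XT.nd (nat_lit 78) (nat_lit 532) (nat_lit 0) (XT.lf (nat_lit 0) (nat_lit 6206977110) (nat_lit 304) (nat_lit 1106637826) (nat_lit 76) (nat_lit 4005522391) (nat_lit 143) (nat_lit 5) (nat_lit 147) (nat_lit 5) (nat_lit 144) (nat_lit 5) (nat_lit 438) (nat_lit 392) (nat_lit 370)) (XT.lf (nat_lit 0) (nat_lit 1749531809) (nat_lit 304) (nat_lit 9849748269) (nat_lit 76) (nat_lit 23322503) (nat_lit 136) (nat_lit 5) (nat_lit 140) (nat_lit 5) (nat_lit 137) (nat_lit 5) (nat_lit 439) (nat_lit 392) (nat_lit 369)))) (XT.nd (nat_lit 156) (nat_lit 684) (nat_lit 0) (XT.nd (nat_lit 78) (nat_lit 228) (nat_lit 0) (XT.lf (nat_lit 0) (nat_lit 4702952895) (nat_lit 228)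 (nat_lit 4234358935) (nat_lit 304) (nat_lit 2999755702) (nat_lit 133) (nat_lit 5) (nat_lit 136) (nat_lit 5) (nat_lit 137) (nat_lit 5) (nat_lit 440) (nat_lit 392) (nat_lit 368)) (XT.lf (nat_lit 0) (nat_lit 4178025084) (nat_lit 228) (nat_lit 4550786378) (nat_lit 76) (nat_lit 3535941618) (nat_lit 130) (nat_lit 5) (nat_lit 133) (nat_lit 5) (nat_lit 131) (nat_lit 5) (nat_lit 441) (nat_lit 392) (nat_lit 367))) (XT.nd (nat_lit 78) (nat_lit 456) (nat_lit 0) (XT.lf (nat_lit 0) (nat_lit 10810682894) (nat_lit 228) (nat_lit 900216278) (nat_lit 304) (nat_lit 895291407) (nat_lit 127) (nat_lit 5) (nat_lit 130) (nat_lit 5) (nat_lit 131) (nat_lit 5) (nat_lit 442) (nat_lit 392) (nat_lit 366)) (XT.lf (nat_lit 0) (nat_lit 990659345) (nat_lit 228) (nat_lit 5637753488) (nat_lit 304) (nat_lit 6331296121) (nat_lit 121) (nat_lit 5) (nat_lit 124) (nat_lit 5) (nat_lit 125) (nat_lit 5) (nat_lit 443) (nat_lit 392) (nat_lit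 365)))))) (XT.nd (nat_lit 546) (nat_lit 1368) (nat_lit 0) (XT.nd (nat_lit 234) (nat_lit 912) (nat_lit 0) (XT.nd (nat_lit 78) (nat_lit 456) (nat_lit 0) (XT.lf (nat_lit 0) (nat_lit 1237381202) (nat_lit 228) (nat_lit 9422760179) (nat_lit 76) (nat_lit 2667723779) (nat_lit 118) (nat_lit 5) (nat_lit 121) (nat_lit 5) (nat_lit 119) (nat_lit 5) (nat_lit 444) (nat_lit 392) (nat_lit 364)) (XT.nd (nat_lit 78) (nat_lit 228) (nat_lit 0) (XT.lf (nat_lit 0) (nat_lit 6848419588) (nat_lit 228) (nat_lit 2296614280) (nat_lit 304) (nat_lit 4564775144) (nat_lit 115) (nat_lit 5) (nat_lit 118) (nat_lit 5) (nat_lit 119) (nat_lit 5) (nat_lit 445) (nat_lit 392) (nat_lit 363)) (XT.lf (nat_lit 0) (nat_lit 3375267738) (nat_lit 228) (nat_lit 4260347034) (nat_lit 76) (nat_lit 6471182328) (nat_lit 112) (nat_lit 5) (nat_lit 115) (nat_lit 5) (nat_lit 113) (nat_lit 5) (nat_lit 446) (nat_lit 392) (nat_lit 362)))) (XT.nd (nat_lit 156)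 (nat_lit 380) (nat_lit 0) (XT.nd (nat_lit 78) (nat_lit 380) (nat_lit 0) (XT.lf (nat_lit 0) (nat_lit 11699654347) (nat_lit 228) (nat_lit 1604560689) (nat_lit 76) (nat_lit 1215615542) (nat_lit 110) (nat_lit 5) (nat_lit 113) (nat_lit 5) (nat_lit 111) (nat_lit 4) (nat_lit 447) (nat_lit 392) (nat_lit 361)) (XT.lf (nat_lit 0) (nat_lit 1077815603) (nat_lit 152) (nat_lit 4442973627) (nat_lit 228) (nat_lit 9426914898) (nat_lit 105) (nat_lit 5) (nat_lit 107) (nat_lit 5) (nat_lit 108) (nat_lit 5) (nat_lit 448) (nat_lit 392) (nat_lit 360))) (XT.nd (nat_lit 78) (nat_lit 228) (nat_lit 0) (XT.lf (nat_lit 0) (nat_lit 3852647679) (nat_lit 152) (nat_lit 10490145473) (nat_lit 228) (nat_lit 1049674847) (nat_lit 103) (nat_lit 5) (nat_lit 105) (nat_lit 5) (nat_lit 106) (nat_lit 4) (nat_lit 449) (nat_lit 392) (nat_lit 359)) (XT.lf (nat_lit 0) (nat_lit 6643977474) (nat_lit 152) (nat_lit 1060486762) (nat_lit 228) (nat_lit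 8149499498) (nat_lit 100) (nat_lit 5) (nat_lit 102) (nat_lit 5) (nat_lit 103) (nat_lit 5) (nat_lit 450) (nat_lit 392) (nat_lit 358))))) (XT.nd (nat_lit 234) (nat_lit 760) (nat_lit 0) (XT.nd (nat_lit 78) (nat_lit 380) (nat_lit 0) (XT.lf (nat_lit 0) (nat_lit 683286626) (nat_lit 228) (nat_lit 6865491936) (nat_lit 76) (nat_lit 8784571238) (nat_lit 97) (nat_lit 5) (nat_lit 100) (nat_lit 5) (nat_lit 98) (nat_lit 5) (nat_lit 451) (nat_lit 392) (nat_lit 357)) (XT.nd (nat_lit 78) (nat_lit 228) (nat_lit 0) (XT.lf (nat_lit 0) (nat_lit 9901880621) (nat_lit 228) (nat_lit 4522155953) (nat_lit 76) (nat_lit 2406869658) (nat_lit 95) (nat_lit 5) (nat_lit 98) (nat_lit 5) (nat_lit 96) (nat_lit 4) (nat_lit 452) (nat_lit 392) (nat_lit 356)) (XT.lf (nat_lit 0) (nat_lit 2345565834) (nat_lit 228) (nat_lit 2165382142) (nat_lit 76) (nat_lit 12836923450) (nat_lit 92) (nat_lit 5) (nat_lit 95) (nat_lit 5) (nat_lit 93) (nat_lit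 5) (nat_lit 453) (nat_lit 392) (nat_lit 355)))) (XT.nd (nat_lit 156) (nat_lit 304) (nat_lit 0) (XT.nd (nat_lit 78) (nat_lit 228) (nat_lit 0) (XT.lf (nat_lit 0) (nat_lit 176626874) (nat_lit 76) (nat_lit 11915119604) (nat_lit 152) (nat_lit 5792348119) (nat_lit 89) (nat_lit 5) (nat_lit 90) (nat_lit 5) (nat_lit 91) (nat_lit 4) (nat_lit 454) (nat_lit 392) (nat_lit 354)) (XT.lf (nat_lit 0) (nat_lit 2584021267) (nat_lit 152) (nat_lit 1382594636) (nat_lit 228) (nat_lit 14474471640) (nat_lit 86) (nat_lit 5) (nat_lit 88) (nat_lit 5) (nat_lit 89) (nat_lit 5) (nat_lit 455) (nat_lit 392) (nat_lit 353))) (XT.nd (nat_lit 78) (nat_lit 228) (nat_lit 0) (XT.lf (nat_lit 0) (nat_lit 4940720394) (nat_lit 76) (nat_lit 9349421580) (nat_lit 152) (nat_lit 4728177801) (nat_lit 85) (nat_lit 5) (nat_lit 86) (nat_lit 5) (nat_lit 87) (nat_lit 4) (nat_lit 456) (nat_lit 392) (nat_lit 352)) (XT.lf (nat_lit 0) (nat_lit 5537953463)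 (nat_lit 228) (nat_lit 12309431313) (nat_lit 76) (nat_lit 1771244804) (nat_lit 82) (nat_lit 5) (nat_lit 85) (nat_lit 5) (nat_lit 83) (nat_lit 4) (nat_lit 457) (nat_lit 392) (nat_lit 351))))))))
noncomputable def xc34 : XT := (XT.nd (nat_lit 2028) (nat_lit 1368) (nat_lit 0) (XT.nd (nat_lit 1014) (nat_lit 1368) (nat_lit 0) (XT.nd (nat_lit 468) (nat_lit 912) (nat_lit 0) (XT.nd (nat_lit 234) (nat_lit 532) (nat_lit 0) (XT.nd (nat_lit 78) (nat_lit 304) (nat_lit 0) (XT.lf (nat_lit 0) (nat_lit 9625734459) (nat_lit 76) (nat_lit 6804149849) (nat_lit 152) (nat_lit 3811359895) (nat_lit 81) (nat_lit 5) (nat_lit 82) (nat_lit 5) (nat_lit 83) (nat_lit 4) (nat_lit 458) (nat_lit 392) (nat_lit 350)) (XT.nd (nat_lit 78) (nat_lit 76) (nat_lit 0) (XT.lf (nat_lit 0) (nat_lit 7005056695) (nat_lit 228) (nat_lit 8977821887) (nat_lit 76) (nat_lit 4905012355) (nat_lit 78) (nat_lit 5) (nat_lit 81) (nat_lit 5) (nat_lit 79)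 (nat_lit 4) (nat_lit 459) (nat_lit 392) (nat_lit 349)) (XT.lf (nat_lit 0) (nat_lit 14163153004) (nat_lit 76) (nat_lit 4317510342) (nat_lit 152) (nat_lit 3079160609) (nat_lit 77) (nat_lit 5) (nat_lit 78) (nat_lit 5) (nat_lit 79) (nat_lit 4) (nat_lit 460) (nat_lit 392) (nat_lit 348)))) (XT.nd (nat_lit 78) (nat_lit 304) (nat_lit 0) (XT.lf (nat_lit 0) (nat_lit 8316645173) (nat_lit 228) (nat_lit 5932494514) (nat_lit 76) (nat_lit 8007435621) (nat_lit 74) (nat_lit 5) (nat_lit 77) (nat_lit 5) (nat_lit 75) (nat_lit 4) (nat_lit 461) (nat_lit 392) (nat_lit 347)) (XT.nd (nat_lit 78) (nat_lit 228) (nat_lit 0) (XT.lf (nat_lit 0) (nat_lit 18467417850) (nat_lit 76) (nat_lit 1935913337) (nat_lit 152) (nat_lit 2578376923) (nat_lit 73) (nat_lit 5) (nat_lit 74) (nat_lit 5) (nat_lit 75) (nat_lit 4) (nat_lit 462) (nat_lit 392) (nat_lit 346)) (XT.lf (nat_lit 0) (nat_lit 9424798623) (nat_lit 228) (nat_lit 3276324468)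 (nat_lit 76) (nat_lit 11031598632) (nat_lit 70) (nat_lit 5) (nat_lit 73) (nat_lit 5) (nat_lit 71) (nat_lit 4) (nat_lit 463) (nat_lit 392) (nat_lit 345))))) (XT.nd (nat_lit 234) (nat_lit 532) (nat_lit 0) (XT.nd (nat_lit 78) (nat_lit 304) (nat_lit 0) (XT.lf (nat_lit 0) (nat_lit 22150995989) (nat_lit 152) (nat_lit 2085556458) (nat_lit 0) (nat_lit 278683521) (nat_lit 69) (nat_lit 5) (nat_lit 71) (nat_lit 4) (nat_lit 69) (nat_lit 4) (nat_lit 464) (nat_lit 392) (nat_lit 344)) (XT.nd (nat_lit 78) (nat_lit 76) (nat_lit 0) (XT.lf (nat_lit 0) (nat_lit 10269847125) (nat_lit 228) (nat_lit 1135309827) (nat_lit 76) (nat_lit 13920031511) (nat_lit 66) (nat_lit 5) (nat_lit 69) (nat_lit 5) (nat_lit 67) (nat_lit 4) (nat_lit 465) (nat_lit 392) (nat_lit 343)) (XT.lf (nat_lit 0) (nat_lit 23675278310) (nat_lit 152) (nat_lit 263978247) (nat_lit 0) (nat_lit 2230024967) (nat_lit 65) (nat_lit 5) (nat_lit 67) (nat_lit 4)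 (nat_lit 65) (nat_lit 4) (nat_lit 466) (nat_lit 392) (nat_lit 342)))) (XT.nd (nat_lit 156) (nat_lit 228) (nat_lit 0) (XT.nd (nat_lit 78) (nat_lit 76) (nat_lit 0) (XT.lf (nat_lit 0) (nat_lit 343668851) (nat_lit 76) (nat_lit 10437849613) (nat_lit 152) (nat_lit 16262132953) (nat_lit 62) (nat_lit 5) (nat_lit 63) (nat_lit 5) (nat_lit 64) (nat_lit 4) (nat_lit 467) (nat_lit 392) (nat_lit 341)) (XT.lf (nat_lit 0) (nat_lit 815672843) (nat_lit 76) (nat_lit 24072165291) (nat_lit 76) (nat_lit 3066603940) (nat_lit 61) (nat_lit 4) (nat_lit 62) (nat_lit 5) (nat_lit 62) (nat_lit 4) (nat_lit 468) (nat_lit 392) (nat_lit 340))) (XT.nd (nat_lit 78) (nat_lit 76) (nat_lit 0) (XT.lf (nat_lit 0) (nat_lit 973049823) (nat_lit 76) (nat_lit 9896173748) (nat_lit 152) (nat_lit 18029707043) (nat_lit 59) (nat_lit 5) (nat_lit 60) (nat_lit 5) (nat_lit 61) (nat_lit 4) (nat_lit 469) (nat_lit 392) (nat_lit 339)) (XT.lf (nat_lit 0)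 (nat_lit 918457776) (nat_lit 76) (nat_lit 24760331275) (nat_lit 76) (nat_lit 4203733581) (nat_lit 58) (nat_lit 4) (nat_lit 59) (nat_lit 5) (nat_lit 59) (nat_lit 4) (nat_lit 470) (nat_lit 392) (nat_lit 338)))))) (XT.nd (nat_lit 468) (nat_lit 760) (nat_lit 0) (XT.nd (nat_lit 234) (nat_lit 304) (nat_lit 0) (XT.nd (nat_lit 78) (nat_lit 152) (nat_lit 0) (XT.lf (nat_lit 0) (nat_lit 500293530) (nat_lit 76) (nat_lit 9909828087) (nat_lit 152) (nat_lit 20493264220) (nat_lit 56) (nat_lit 5) (nat_lit 57) (nat_lit 5) (nat_lit 58) (nat_lit 4) (nat_lit 471) (nat_lit 392) (nat_lit 337)) (XT.nd (nat_lit 78) (nat_lit 152) (nat_lit 0) (XT.lf (nat_lit 0) (nat_lit 25929100303) (nat_lit 152) (nat_lit 209271033) (nat_lit 0) (nat_lit 5827831987) (nat_lit 56) (nat_lit 5) (nat_lit 58) (nat_lit 4) (nat_lit 56) (nat_lit 4) (nat_lit 472) (nat_lit 392) (nat_lit 336)) (XT.lf (nat_lit 0) (nat_lit 9282021955) (nat_lit 152) (nat_lit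 1325386964) (nat_lit 76) (nat_lit 22462560857) (nat_lit 54) (nat_lit 5) (nat_lit 56) (nat_lit 5) (nat_lit 55) (nat_lit 4) (nat_lit 473) (nat_lit 392) (nat_lit 335)))) (XT.nd (nat_lit 78) (nat_lit 228) (nat_lit 0) (XT.lf (nat_lit 0) (nat_lit 25516641126) (nat_lit 152) (nat_lit 2827697848) (nat_lit 0) (nat_lit 5874561303) (nat_lit 53) (nat_lit 5) (nat_lit 55) (nat_lit 4) (nat_lit 53) (nat_lit 4) (nat_lit 474) (nat_lit 392) (nat_lit 334)) (XT.nd (nat_lit 78) (nat_lit 76) (nat_lit 0) (XT.lf (nat_lit 0) (nat_lit 7330272092) (nat_lit 152) (nat_lit 4820296623) (nat_lit 76) (nat_lit 23262695713) (nat_lit 51) (nat_lit 5) (nat_lit 53) (nat_lit 5) (nat_lit 52) (nat_lit 4) (nat_lit 475) (nat_lit 392) (nat_lit 333)) (XT.lf (nat_lit 0) (nat_lit 24262576862) (nat_lit 152) (nat_lit 7312453904) (nat_lit 0) (nat_lit 5081388171) (nat_lit 50) (nat_lit 5) (nat_lit 52) (nat_lit 4) (nat_lit 50) (nat_lit 4) (nat_lit 476)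 (nat_lit 392) (nat_lit 332))))) (XT.nd (nat_lit 234) (nat_lit 380) (nat_lit 0) (XT.nd (nat_lit 78) (nat_lit 228) (nat_lit 0) (XT.lf (nat_lit 0) (nat_lit 4358203215) (nat_lit 152) (nat_lit 10385700868) (nat_lit 76) (nat_lit 23205909739) (nat_lit 48) (nat_lit 5) (nat_lit 50) (nat_lit 5) (nat_lit 49) (nat_lit 4) (nat_lit 477) (nat_lit 392) (nat_lit 331)) (XT.nd (nat_lit 78) (nat_lit 152) (nat_lit 0) (XT.lf (nat_lit 0) (nat_lit 21962350898) (nat_lit 152) (nat_lit 14091815735) (nat_lit 0) (nat_lit 3241906357) (nat_lit 47) (nat_lit 5) (nat_lit 49) (nat_lit 4) (nat_lit 47) (nat_lit 4) (nat_lit 478) (nat_lit 392) (nat_lit 330)) (XT.lf (nat_lit 0) (nat_lit 136025759) (nat_lit 152) (nat_lit 18489808764) (nat_lit 76) (nat_lit 22072071945) (nat_lit 45) (nat_lit 5) (nat_lit 47) (nat_lit 5) (nat_lit 46) (nat_lit 4) (nat_lit 479) (nat_lit 392) (nat_lit 329)))) (XT.nd (nat_lit 156) (nat_lit 228) (nat_lit 0) (XT.nd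 (nat_lit 78) (nat_lit 76) (nat_lit 0) (XT.lf (nat_lit 0) (nat_lit 18370595682) (nat_lit 152) (nat_lit 23677425694) (nat_lit 0) (nat_lit 109167456) (nat_lit 44) (nat_lit 5) (nat_lit 46) (nat_lit 4) (nat_lit 44) (nat_lit 4) (nat_lit 480) (nat_lit 392) (nat_lit 328)) (XT.lf (nat_lit 0) (nat_lit 13929913176) (nat_lit 76) (nat_lit 24023953214) (nat_lit 76) (nat_lit 5722460250) (nat_lit 43) (nat_lit 4) (nat_lit 44) (nat_lit 5) (nat_lit 44) (nat_lit 4) (nat_lit 481) (nat_lit 392) (nat_lit 327))) (XT.nd (nat_lit 78) (nat_lit 76) (nat_lit 0) (XT.lf (nat_lit 0) (nat_lit 8535489911) (nat_lit 76) (nat_lit 4703495196) (nat_lit 152) (nat_lit 32021040320) (nat_lit 41) (nat_lit 5) (nat_lit 42) (nat_lit 5) (nat_lit 43) (nat_lit 4) (nat_lit 482) (nat_lit 392) (nat_lit 326)) (XT.lf (nat_lit 0) (nat_lit 2123371301) (nat_lit 76) (nat_lit 31313206290) (nat_lit 76) (nat_lit 13472439535) (nat_lit 40) (nat_lit 4) (nat_lit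 41) (nat_lit 5) (nat_lit 41) (nat_lit 4) (nat_lit 483) (nat_lit 392) (nat_lit 325))))))) (XT.nd (nat_lit 1014) (nat_lit 228) (nat_lit 0) (XT.nd (nat_lit 468) (nat_lit 608) (nat_lit 0) (XT.nd (nat_lit 234) (nat_lit 304) (nat_lit 0) (XT.nd (nat_lit 78) (nat_lit 152) (nat_lit 0) (XT.lf (nat_lit 0) (nat_lit 6243023169) (nat_lit 152) (nat_lit 5201031105) (nat_lit 76) (nat_lit 37183975727) (nat_lit 39) (nat_lit 5) (nat_lit 41) (nat_lit 5) (nat_lit 40) (nat_lit 4) (nat_lit 484) (nat_lit 392) (nat_lit 324)) (XT.nd (nat_lit 78) (nat_lit 76) (nat_lit 0) (XT.lf (nat_lit 0) (nat_lit 27047551890) (nat_lit 152) (nat_lit 13707255420) (nat_lit 0) (nat_lit 9662727171) (nat_lit 38) (nat_lit 5) (nat_lit 40) (nat_lit 4) (nat_lit 38) (nat_lit 4) (nat_lit 485) (nat_lit 392) (nat_lit 323)) (XT.lf (nat_lit 0) (nat_lit 28843045762) (nat_lit 76) (nat_lit 20428256701) (nat_lit 76) (nat_lit 3013842227) (nat_lit 37) (nat_lit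 4) (nat_lit 38) (nat_lit 5) (nat_lit 38) (nat_lit 4) (nat_lit 486) (nat_lit 392) (nat_lit 322)))) (XT.nd (nat_lit 78) (nat_lit 152) (nat_lit 0) (XT.lf (nat_lit 0) (nat_lit 18279782265) (nat_lit 152) (nat_lit 34607496533) (nat_lit 0) (nat_lit 1345223825) (nat_lit 35) (nat_lit 5) (nat_lit 37) (nat_lit 4) (nat_lit 35) (nat_lit 4) (nat_lit 487) (nat_lit 392) (nat_lit 321)) (XT.nd (nat_lit 78) (nat_lit 76) (nat_lit 0) (XT.lf (nat_lit 0) (nat_lit 8869751257) (nat_lit 76) (nat_lit 32176540887) (nat_lit 76) (nat_lit 15215925379) (nat_lit 34) (nat_lit 4) (nat_lit 35) (nat_lit 5) (nat_lit 35) (nat_lit 4) (nat_lit 488) (nat_lit 392) (nat_lit 320)) (XT.lf (nat_lit 0) (nat_lit 6725594291) (nat_lit 152) (nat_lit 3332475351) (nat_lit 76) (nat_lit 48324582239) (nat_lit 33) (nat_lit 5) (nat_lit 35) (nat_lit 5) (nat_lit 34) (nat_lit 4) (nat_lit 489) (nat_lit 392) (nat_lit 319))))) (XT.nd (nat_lit 234) (nat_lit 304)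 (nat_lit 0) (XT.nd (nat_lit 78) (nat_lit 228) (nat_lit 0) (XT.lf (nat_lit 0) (nat_lit 29941377519) (nat_lit 152) (nat_lit 17220733928) (nat_lit 0) (nat_lit 13427720925) (nat_lit 32) (nat_lit 5) (nat_lit 34) (nat_lit 4) (nat_lit 32) (nat_lit 4) (nat_lit 490) (nat_lit 392) (nat_lit 318)) (XT.nd (nat_lit 78) (nat_lit 152) (nat_lit 0) (XT.lf (nat_lit 0) (nat_lit 29932361761) (nat_lit 76) (nat_lit 24749797097) (nat_lit 76) (nat_lit 8214287032) (nat_lit 31) (nat_lit 4) (nat_lit 32) (nat_lit 5) (nat_lit 32) (nat_lit 4) (nat_lit 491) (nat_lit 392) (nat_lit 317)) (XT.lf (nat_lit 0) (nat_lit 14507088971) (nat_lit 76) (nat_lit 795084361) (nat_lit 152) (nat_lit 50003994203) (nat_lit 29) (nat_lit 5) (nat_lit 30) (nat_lit 5) (nat_lit 31) (nat_lit 4) (nat_lit 492) (nat_lit 392) (nat_lit 316)))) (XT.nd (nat_lit 156) (nat_lit 228) (nat_lit 0) (XT.nd (nat_lit 78) (nat_lit 76) (nat_lit 0) (XT.lf (nat_lit 0) (nat_lit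 40345615451) (nat_lit 152) (nat_lit 3220417737) (nat_lit 0) (nat_lit 24252271143) (nat_lit 29) (nat_lit 5) (nat_lit 31) (nat_lit 4) (nat_lit 29) (nat_lit 4) (nat_lit 493) (nat_lit 392) (nat_lit 315)) (XT.lf (nat_lit 0) (nat_lit 47547945446) (nat_lit 76) (nat_lit 19503730833) (nat_lit 76) (nat_lit 3392058516) (nat_lit 28) (nat_lit 4) (nat_lit 29) (nat_lit 5) (nat_lit 29) (nat_lit 4) (nat_lit 494) (nat_lit 392) (nat_lit 314))) (XT.nd (nat_lit 78) (nat_lit 76) (nat_lit 0) (XT.lf (nat_lit 0) (nat_lit 21773920934) (nat_lit 152) (nat_lit 45296373288) (nat_lit 0) (nat_lit 6114573784) (nat_lit 26) (nat_lit 5) (nat_lit 28) (nat_lit 4) (nat_lit 26) (nat_lit 4) (nat_lit 495) (nat_lit 392) (nat_lit 313)) (XT.lf (nat_lit 0) (nat_lit 5401462000) (nat_lit 76) (nat_lit 43161513825) (nat_lit 76) (nat_lit 27486026826) (nat_lit 25) (nat_lit 4) (nat_lit 26) (nat_lit 5) (nat_lit 26) (nat_lit 4) (nat_lit 496) (nat_lit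 392) (nat_lit 312)))))) (XT.nd (nat_lit 56316) (nat_lit 0) (nat_lit 15656) (XT.nd (nat_lit 56004) (nat_lit 0) (nat_lit 20824) (XT.nd (nat_lit 78) (nat_lit 228) (nat_lit 0) (XT.lf (nat_lit 0) (nat_lit 59478784921) (nat_lit 76) (nat_lit 17627979576) (nat_lit 76) (nat_lit 1937121291) (nat_lit 25) (nat_lit 4) (nat_lit 26) (nat_lit 5) (nat_lit 26) (nat_lit 4) (nat_lit 497) (nat_lit 392) (nat_lit 311)) (XT.nd (nat_lit 78) (nat_lit 76) (nat_lit 0) (XT.lf (nat_lit 0) (nat_lit 24778657508) (nat_lit 152) (nat_lit 47860823457) (nat_lit 0) (nat_lit 9530601582) (nat_lit 23) (nat_lit 5) (nat_lit 25) (nat_lit 4) (nat_lit 23) (nat_lit 4) (nat_lit 498) (nat_lit 392) (nat_lit 310)) (XT.lf (nat_lit 0) (nat_lit 5654262855) (nat_lit 76) (nat_lit 47523852275) (nat_lit 76) (nat_lit 32262260224) (nat_lit 22) (nat_lit 4) (nat_lit 23) (nat_lit 5) (nat_lit 23) (nat_lit 4) (nat_lit 499) (nat_lit 392) (nat_lit 309)))) (XT.nd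 (nat_lit 156) (nat_lit 2204) (nat_lit 0) (XT.nd (nat_lit 78) (nat_lit 1140) (nat_lit 0) (XT.lf (nat_lit 0) (nat_lit 511595472) (nat_lit 1140) (nat_lit 2481697722) (nat_lit 0) (nat_lit 511595472) (nat_lit 340) (nat_lit 5) (nat_lit 355) (nat_lit 4) (nat_lit 340) (nat_lit 4) (nat_lit 414) (nat_lit 393) (nat_lit 393)) (XT.lf (nat_lit 0) (nat_lit 3563455633) (nat_lit 1140) (nat_lit 3234174603) (nat_lit 1140) (nat_lit 297327797) (nat_lit 325) (nat_lit 4) (nat_lit 340) (nat_lit 5) (nat_lit 340) (nat_lit 4) (nat_lit 415) (nat_lit 393) (nat_lit 392))) (XT.nd (nat_lit 78) (nat_lit 912) (nat_lit 0) (XT.lf (nat_lit 0) (nat_lit 5198645729) (nat_lit 1216) (nat_lit 186817075) (nat_lit 1292) (nat_lit 1802736536) (nat_lit 308) (nat_lit 5) (nat_lit 324) (nat_lit 5) (nat_lit 325) (nat_lit 4) (nat_lit 416) (nat_lit 393) (nat_lit 391)) (XT.lf (nat_lit 0) (nat_lit 3841315528) (nat_lit 912) (nat_lit 355188109) (nat_lit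 76) (nat_lit 3092561473) (nat_lit 296) (nat_lit 5) (nat_lit 308) (nat_lit 5) (nat_lit 297) (nat_lit 4) (nat_lit 417) (nat_lit 393) (nat_lit 390))))) (XT.nd (nat_lit 234) (nat_lit 2660) (nat_lit 0) (XT.nd (nat_lit 78) (nat_lit 1216) (nat_lit 0) (XT.lf (nat_lit 0) (nat_lit 1428085178) (nat_lit 608) (nat_lit 718630882) (nat_lit 684) (nat_lit 5251384301) (nat_lit 279) (nat_lit 5) (nat_lit 287) (nat_lit 5) (nat_lit 288) (nat_lit 5) (nat_lit 418) (nat_lit 393) (nat_lit 389)) (XT.nd (nat_lit 78) (nat_lit 608) (nat_lit 0) (XT.lf (nat_lit 0) (nat_lit 313339985) (nat_lit 608) (nat_lit 4198213135) (nat_lit 76) (nat_lit 3003394892) (nat_lit 271) (nat_lit 5) (nat_lit 279) (nat_lit 5) (nat_lit 272) (nat_lit 5) (nat_lit 419) (nat_lit 393) (nat_lit 388)) (XT.lf (nat_lit 0) (nat_lit 5310499783) (nat_lit 608) (nat_lit 606650637) (nat_lit 684) (nat_lit 1722869411) (nat_lit 263) (nat_lit 5) (nat_lit 271) (nat_lit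 5) (nat_lit 272) (nat_lit 5) (nat_lit 420) (nat_lit 393) (nat_lit 387)))) (XT.nd (nat_lit 156) (nat_lit 988) (nat_lit 0) (XT.nd (nat_lit 78) (nat_lit 1064) (nat_lit 0) (XT.lf (nat_lit 0) (nat_lit 3855928183) (nat_lit 608) (nat_lit 376279404) (nat_lit 76) (nat_lit 3540856192) (nat_lit 255) (nat_lit 5) (nat_lit 263) (nat_lit 5) (nat_lit 256) (nat_lit 5) (nat_lit 421) (nat_lit 393) (nat_lit 386)) (XT.lf (nat_lit 0) (nat_lit 1634466413) (nat_lit 532) (nat_lit 6187447488) (nat_lit 76) (nat_lit 92752577) (nat_lit 241) (nat_lit 5) (nat_lit 248) (nat_lit 5) (nat_lit 242) (nat_lit 5) (nat_lit 422) (nat_lit 393) (nat_lit 385))) (XT.nd (nat_lit 78) (nat_lit 532) (nat_lit 0) (XT.lf (nat_lit 0) (nat_lit 3915871127) (nat_lit 456) (nat_lit 3403248030) (nat_lit 532) (nat_lit 744992757) (nat_lit 235) (nat_lit 5) (nat_lit 241) (nat_lit 5) (nat_lit 242) (nat_lit 5) (nat_lit 423) (nat_lit 393) (nat_lit 384)) (XT.lf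 (nat_lit 0) (nat_lit 4877950775) (nat_lit 532) (nat_lit 2018019400) (nat_lit 76) (nat_lit 1326321767) (nat_lit 228) (nat_lit 5) (nat_lit 235) (nat_lit 5) (nat_lit 229) (nat_lit 5) (nat_lit 424) (nat_lit 393) (nat_lit 383))))))))
noncomputable def xc35 : XT := (XT.nd (nat_lit 2028) (nat_lit 3952) (nat_lit 0) (XT.nd (nat_lit 1014) (nat_lit 3420) (nat_lit 0) (XT.nd (nat_lit 468) (nat_lit 2812) (nat_lit 0) (XT.nd (nat_lit 234) (nat_lit 1520) (nat_lit 0) (XT.nd (nat_lit 78) (nat_lit 912) (nat_lit 0) (XT.lf (nat_lit 0) (nat_lit 204964025) (nat_lit 380) (nat_lit 2069164516) (nat_lit 456) (nat_lit 6115100847) (nat_lit 216) (nat_lit 5) (nat_lit 221) (nat_lit 5) (nat_lit 222) (nat_lit 5) (nat_lit 425) (nat_lit 393) (nat_lit 382)) (XT.nd (nat_lit 78) (nat_lit 456) (nat_lit 0) (XT.lf (nat_lit 0) (nat_lit 2561258445) (nat_lit 456) (nat_lit 5507757502) (nat_lit 532) (nat_lit 495581354) (nat_lit 210) (nat_lit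 5) (nat_lit 216) (nat_lit 5) (nat_lit 217) (nat_lit 5) (nat_lit 426) (nat_lit 393) (nat_lit 381)) (XT.lf (nat_lit 0) (nat_lit 5002922374) (nat_lit 380) (nat_lit 238600778) (nat_lit 456) (nat_lit 3507404957) (nat_lit 204) (nat_lit 5) (nat_lit 209) (nat_lit 5) (nat_lit 210) (nat_lit 5) (nat_lit 427) (nat_lit 393) (nat_lit 380)))) (XT.nd (nat_lit 78) (nat_lit 1064) (nat_lit 0) (XT.lf (nat_lit 0) (nat_lit 2248184233) (nat_lit 456) (nat_lit 1416860881) (nat_lit 76) (nat_lit 5277218125) (nat_lit 198) (nat_lit 5) (nat_lit 204) (nat_lit 5) (nat_lit 199) (nat_lit 5) (nat_lit 428) (nat_lit 393) (nat_lit 379)) (XT.nd (nat_lit 78) (nat_lit 380) (nat_lit 0) (XT.lf (nat_lit 0) (nat_lit 1026705232) (nat_lit 380) (nat_lit 7161126916) (nat_lit 456) (nat_lit 957340300) (nat_lit 189) (nat_lit 5) (nat_lit 194) (nat_lit 5) (nat_lit 195) (nat_lit 5) (nat_lit 429) (nat_lit 393) (nat_lit 378)) (XT.lf (nat_lit 0) (nat_lit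 3567700654) (nat_lit 304) (nat_lit 1395021823) (nat_lit 380) (nat_lit 4394195847) (nat_lit 184) (nat_lit 5) (nat_lit 188) (nat_lit 5) (nat_lit 189) (nat_lit 5) (nat_lit 430) (nat_lit 393) (nat_lit 377))))) (XT.nd (nat_lit 234) (nat_lit 1444) (nat_lit 0) (XT.nd (nat_lit 78) (nat_lit 988) (nat_lit 0) (XT.lf (nat_lit 0) (nat_lit 1545325192) (nat_lit 380) (nat_lit 3383105963) (nat_lit 76) (nat_lit 4650207959) (nat_lit 179) (nat_lit 5) (nat_lit 184) (nat_lit 5) (nat_lit 180) (nat_lit 5) (nat_lit 431) (nat_lit 393) (nat_lit 376)) (XT.nd (nat_lit 78) (nat_lit 684) (nat_lit 0) (XT.lf (nat_lit 0) (nat_lit 7675728765) (nat_lit 380) (nat_lit 898556269) (nat_lit 76) (nat_lit 1236323267) (nat_lit 175) (nat_lit 5) (nat_lit 180) (nat_lit 5) (nat_lit 176) (nat_lit 5) (nat_lit 432) (nat_lit 393) (nat_lit 375)) (XT.lf (nat_lit 0) (nat_lit 1680487594) (nat_lit 304) (nat_lit 2330080719) (nat_lit 380) (nat_lit 6041508926)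 (nat_lit 166) (nat_lit 5) (nat_lit 170) (nat_lit 5) (nat_lit 171) (nat_lit 5) (nat_lit 433) (nat_lit 393) (nat_lit 374)))) (XT.nd (nat_lit 156) (nat_lit 836) (nat_lit 0) (XT.nd (nat_lit 78) (nat_lit 228) (nat_lit 0) (XT.lf (nat_lit 0) (nat_lit 134069835) (nat_lit 380) (nat_lit 5936520655) (nat_lit 76) (nat_lit 4233707191) (nat_lit 161) (nat_lit 5) (nat_lit 166) (nat_lit 5) (nat_lit 162) (nat_lit 5) (nat_lit 434) (nat_lit 393) (nat_lit 373)) (XT.lf (nat_lit 0) (nat_lit 6501991898) (nat_lit 304) (nat_lit 3446014088) (nat_lit 76) (nat_lit 619082349) (nat_lit 158) (nat_lit 5) (nat_lit 162) (nat_lit 5) (nat_lit 159) (nat_lit 5) (nat_lit 435) (nat_lit 393) (nat_lit 372))) (XT.nd (nat_lit 78) (nat_lit 456) (nat_lit 0) (XT.lf (nat_lit 0) (nat_lit 2345947684) (nat_lit 380) (nat_lit 892648919) (nat_lit 76) (nat_lit 7602361322) (nat_lit 153) (nat_lit 5) (nat_lit 158) (nat_lit 5) (nat_lit 154) (nat_lit 5)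 (nat_lit 436) (nat_lit 393) (nat_lit 371)) (XT.lf (nat_lit 0) (nat_lit 1765853511) (nat_lit 228) (nat_lit 7273895996) (nat_lit 304) (nat_lit 2086183669) (nat_lit 147) (nat_lit 5) (nat_lit 150) (nat_lit 5) (nat_lit 151) (nat_lit 5) (nat_lit 437) (nat_lit 393) (nat_lit 370)))))) (XT.nd (nat_lit 468) (nat_lit 1672) (nat_lit 0) (XT.nd (nat_lit 234) (nat_lit 912) (nat_lit 0) (XT.nd (nat_lit 78) (nat_lit 532) (nat_lit 0) (XT.lf (nat_lit 0) (nat_lit 4517508407) (nat_lit 228) (nat_lit 74037953) (nat_lit 304) (nat_lit 6831107275) (nat_lit 143) (nat_lit 5) (nat_lit 146) (nat_lit 5) (nat_lit 147) (nat_lit 5) (nat_lit 438) (nat_lit 393) (nat_lit 369)) (XT.nd (nat_lit 78) (nat_lit 304) (nat_lit 0) (XT.lf (nat_lit 0) (nat_lit 7330853834) (nat_lit 228) (nat_lit 4305162027) (nat_lit 304) (nat_lit 95301665) (nat_lit 140) (nat_lit 5) (nat_lit 143) (nat_lit 5) (nat_lit 144) (nat_lit 5) (nat_lit 439) (nat_lit 393)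 (nat_lit 368)) (XT.lf (nat_lit 0) (nat_lit 6884128095) (nat_lit 304) (nat_lit 1851660775) (nat_lit 76) (nat_lit 3316330555) (nat_lit 136) (nat_lit 5) (nat_lit 140) (nat_lit 5) (nat_lit 137) (nat_lit 5) (nat_lit 440) (nat_lit 393) (nat_lit 367)))) (XT.nd (nat_lit 78) (nat_lit 456) (nat_lit 0) (XT.lf (nat_lit 0) (nat_lit 795568867) (nat_lit 152) (nat_lit 1058419002) (nat_lit 228) (nat_lit 10532388656) (nat_lit 130) (nat_lit 5) (nat_lit 132) (nat_lit 5) (nat_lit 133) (nat_lit 5) (nat_lit 441) (nat_lit 393) (nat_lit 366)) (XT.nd (nat_lit 78) (nat_lit 228) (nat_lit 0) (XT.lf (nat_lit 0) (nat_lit 3507995150) (nat_lit 228) (nat_lit 5722213040) (nat_lit 304) (nat_lit 3502308236) (nat_lit 127) (nat_lit 5) (nat_lit 130) (nat_lit 5) (nat_lit 131) (nat_lit 5) (nat_lit 442) (nat_lit 393) (nat_lit 365)) (XT.lf (nat_lit 0) (nat_lit 3866456332) (nat_lit 228) (nat_lit 6794305931) (nat_lit 76) (nat_lit 2432201282)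 (nat_lit 124) (nat_lit 5) (nat_lit 127) (nat_lit 5) (nat_lit 125) (nat_lit 5) (nat_lit 443) (nat_lit 393) (nat_lit 364))))) (XT.nd (nat_lit 234) (nat_lit 836) (nat_lit 0) (XT.nd (nat_lit 78) (nat_lit 608) (nat_lit 0) (XT.lf (nat_lit 0) (nat_lit 9148167227) (nat_lit 228) (nat_lit 2476196207) (nat_lit 304) (nat_lit 1843240210) (nat_lit 121) (nat_lit 5) (nat_lit 124) (nat_lit 5) (nat_lit 125) (nat_lit 5) (nat_lit 444) (nat_lit 393) (nat_lit 363)) (XT.nd (nat_lit 78) (nat_lit 380) (nat_lit 0) (XT.lf (nat_lit 0) (nat_lit 5895088145) (nat_lit 228) (nat_lit 1822803970) (nat_lit 76) (nat_lit 6138347979) (nat_lit 118) (nat_lit 5) (nat_lit 121) (nat_lit 5) (nat_lit 119) (nat_lit 5) (nat_lit 445) (nat_lit 393) (nat_lit 362)) (XT.lf (nat_lit 0) (nat_lit 774722108) (nat_lit 152) (nat_lit 13296740744) (nat_lit 228) (nat_lit 189624922) (nat_lit 113) (nat_lit 5) (nat_lit 115) (nat_lit 5) (nat_lit 116) (nat_lit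 4) (nat_lit 446) (nat_lit 393) (nat_lit 361)))) (XT.nd (nat_lit 156) (nat_lit 380) (nat_lit 0) (XT.nd (nat_lit 78) (nat_lit 228) (nat_lit 0) (XT.lf (nat_lit 0) (nat_lit 3393584584) (nat_lit 152) (nat_lit 4571707599) (nat_lit 228) (nat_lit 6714080846) (nat_lit 110) (nat_lit 5) (nat_lit 112) (nat_lit 5) (nat_lit 113) (nat_lit 5) (nat_lit 447) (nat_lit 393) (nat_lit 360)) (XT.lf (nat_lit 0) (nat_lit 1482875504) (nat_lit 228) (nat_lit 9022701556) (nat_lit 76) (nat_lit 4609394083) (nat_lit 107) (nat_lit 5) (nat_lit 110) (nat_lit 5) (nat_lit 108) (nat_lit 5) (nat_lit 448) (nat_lit 393) (nat_lit 359))) (XT.nd (nat_lit 78) (nat_lit 228) (nat_lit 0) (XT.lf (nat_lit 0) (nat_lit 8818180162) (nat_lit 152) (nat_lit 1245829179) (nat_lit 228) (nat_lit 5502953536) (nat_lit 105) (nat_lit 5) (nat_lit 107) (nat_lit 5) (nat_lit 108) (nat_lit 5) (nat_lit 449) (nat_lit 393) (nat_lit 358)) (XT.lf (nat_lit 0) (nat_lit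 3128662257) (nat_lit 228) (nat_lit 4463670327) (nat_lit 76) (nat_lit 8443694569) (nat_lit 102) (nat_lit 5) (nat_lit 105) (nat_lit 5) (nat_lit 103) (nat_lit 5) (nat_lit 450) (nat_lit 393) (nat_lit 357))))))) (XT.nd (nat_lit 1014) (nat_lit 1520) (nat_lit 0) (XT.nd (nat_lit 468) (nat_lit 1216) (nat_lit 0) (XT.nd (nat_lit 234) (nat_lit 532) (nat_lit 0) (XT.nd (nat_lit 78) (nat_lit 532) (nat_lit 0) (XT.lf (nat_lit 0) (nat_lit 12191350243) (nat_lit 228) (nat_lit 2145940153) (nat_lit 76) (nat_lit 2186223858) (nat_lit 100) (nat_lit 5) (nat_lit 103) (nat_lit 5) (nat_lit 101) (nat_lit 4) (nat_lit 451) (nat_lit 393) (nat_lit 356)) (XT.nd (nat_lit 78) (nat_lit 152) (nat_lit 0) (XT.lf (nat_lit 0) (nat_lit 173294870) (nat_lit 152) (nat_lit 4572082275) (nat_lit 228) (nat_lit 12283711945) (nat_lit 95) (nat_lit 5) (nat_lit 97) (nat_lit 5) (nat_lit 98) (nat_lit 5) (nat_lit 452) (nat_lit 393) (nat_lit 355)) (XT.lf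 (nat_lit 0) (nat_lit 2554572467) (nat_lit 152) (nat_lit 11801760312) (nat_lit 228) (nat_lit 3197251912) (nat_lit 93) (nat_lit 5) (nat_lit 95) (nat_lit 5) (nat_lit 96) (nat_lit 4) (nat_lit 453) (nat_lit 393) (nat_lit 354)))) (XT.nd (nat_lit 78) (nat_lit 304) (nat_lit 0) (XT.lf (nat_lit 0) (nat_lit 4944681173) (nat_lit 152) (nat_lit 1418700570) (nat_lit 228) (nat_lit 11734787507) (nat_lit 90) (nat_lit 5) (nat_lit 92) (nat_lit 5) (nat_lit 93) (nat_lit 5) (nat_lit 454) (nat_lit 393) (nat_lit 353)) (XT.nd (nat_lit 78) (nat_lit 228) (nat_lit 0) (XT.lf (nat_lit 0) (nat_lit 7324027547) (nat_lit 76) (nat_lit 9207537683) (nat_lit 152) (nat_lit 2131601326) (nat_lit 89) (nat_lit 5) (nat_lit 90) (nat_lit 5) (nat_lit 91) (nat_lit 4) (nat_lit 455) (nat_lit 393) (nat_lit 352)) (XT.lf (nat_lit 0) (nat_lit 7938468886) (nat_lit 228) (nat_lit 9545583700) (nat_lit 76) (nat_lit 1765813555) (nat_lit 86) (nat_lit 5) (nat_lit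 89) (nat_lit 5) (nat_lit 87) (nat_lit 4) (nat_lit 456) (nat_lit 393) (nat_lit 351))))) (XT.nd (nat_lit 234) (nat_lit 836) (nat_lit 0) (XT.nd (nat_lit 78) (nat_lit 304) (nat_lit 0) (XT.lf (nat_lit 0) (nat_lit 12074893092) (nat_lit 76) (nat_lit 6603080351) (nat_lit 152) (nat_lit 1180995815) (nat_lit 85) (nat_lit 5) (nat_lit 86) (nat_lit 5) (nat_lit 87) (nat_lit 4) (nat_lit 457) (nat_lit 393) (nat_lit 350)) (XT.nd (nat_lit 78) (nat_lit 76) (nat_lit 0) (XT.lf (nat_lit 0) (nat_lit 9443359460) (nat_lit 228) (nat_lit 6085810263) (nat_lit 76) (nat_lit 4961474344) (nat_lit 82) (nat_lit 5) (nat_lit 85) (nat_lit 5) (nat_lit 83) (nat_lit 4) (nat_lit 458) (nat_lit 393) (nat_lit 349)) (XT.lf (nat_lit 0) (nat_lit 16750072580) (nat_lit 76) (nat_lit 4020885230) (nat_lit 152) (nat_lit 376702421) (nat_lit 81) (nat_lit 5) (nat_lit 82) (nat_lit 5) (nat_lit 83) (nat_lit 4) (nat_lit 459) (nat_lit 393) (nat_lit 348))))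 (XT.nd (nat_lit 156) (nat_lit 456) (nat_lit 0) (XT.nd (nat_lit 78) (nat_lit 152) (nat_lit 0) (XT.lf (nat_lit 0) (nat_lit 10832764553) (nat_lit 228) (nat_lit 2831366990) (nat_lit 76) (nat_lit 8163775918) (nat_lit 78) (nat_lit 5) (nat_lit 81) (nat_lit 5) (nat_lit 79) (nat_lit 4) (nat_lit 460) (nat_lit 393) (nat_lit 347)) (XT.lf (nat_lit 0) (nat_lit 236865470) (nat_lit 152) (nat_lit 1261279911) (nat_lit 76) (nat_lit 21038345029) (nat_lit 76) (nat_lit 5) (nat_lit 78) (nat_lit 5) (nat_lit 77) (nat_lit 5) (nat_lit 461) (nat_lit 393) (nat_lit 346))) (XT.nd (nat_lit 78) (nat_lit 228) (nat_lit 0) (XT.lf (nat_lit 0) (nat_lit 132555588) (nat_lit 76) (nat_lit 11934985642) (nat_lit 152) (nat_lit 11201763049) (nat_lit 73) (nat_lit 5) (nat_lit 74) (nat_lit 5) (nat_lit 75) (nat_lit 4) (nat_lit 462) (nat_lit 393) (nat_lit 345)) (XT.lf (nat_lit 0) (nat_lit 635946238) (nat_lit 228) (nat_lit 22483751236) (nat_lit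 76) (nat_lit 913120107) (nat_lit 70) (nat_lit 5) (nat_lit 73) (nat_lit 5) (nat_lit 71) (nat_lit 4) (nat_lit 463) (nat_lit 393) (nat_lit 344)))))) (XT.nd (nat_lit 546) (nat_lit 684) (nat_lit 0) (XT.nd (nat_lit 234) (nat_lit 456) (nat_lit 0) (XT.nd (nat_lit 78) (nat_lit 304) (nat_lit 0) (XT.lf (nat_lit 0) (nat_lit 2743638171) (nat_lit 76) (nat_lit 10375805624) (nat_lit 152) (nat_lit 11703169693) (nat_lit 69) (nat_lit 5) (nat_lit 70) (nat_lit 5) (nat_lit 71) (nat_lit 4) (nat_lit 464) (nat_lit 393) (nat_lit 343)) (XT.nd (nat_lit 78) (nat_lit 76) (nat_lit 0) (XT.lf (nat_lit 0) (nat_lit 764388480) (nat_lit 228) (nat_lit 21746844326) (nat_lit 76) (nat_lit 3134489893) (nat_lit 66) (nat_lit 5) (nat_lit 69) (nat_lit 5) (nat_lit 67) (nat_lit 4) (nat_lit 465) (nat_lit 393) (nat_lit 342)) (XT.lf (nat_lit 0) (nat_lit 4810498040) (nat_lit 76) (nat_lit 9085826136) (nat_lit 152) (nat_lit 12601697039) (nat_lit 65)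 (nat_lit 5) (nat_lit 66) (nat_lit 5) (nat_lit 67) (nat_lit 4) (nat_lit 466) (nat_lit 393) (nat_lit 341)))) (XT.nd (nat_lit 156) (nat_lit 228) (nat_lit 0) (XT.nd (nat_lit 78) (nat_lit 76) (nat_lit 0) (XT.lf (nat_lit 0) (nat_lit 519302601) (nat_lit 152) (nat_lit 21756244880) (nat_lit 76) (nat_lit 5110311797) (nat_lit 63) (nat_lit 5) (nat_lit 65) (nat_lit 5) (nat_lit 64) (nat_lit 4) (nat_lit 467) (nat_lit 393) (nat_lit 340)) (XT.lf (nat_lit 0) (nat_lit 6168539561) (nat_lit 76) (nat_lit 8150405650) (nat_lit 152) (nat_lit 13986905554) (nat_lit 62) (nat_lit 5) (nat_lit 63) (nat_lit 5) (nat_lit 64) (nat_lit 4) (nat_lit 468) (nat_lit 393) (nat_lit 339))) (XT.nd (nat_lit 78) (nat_lit 152) (nat_lit 0) (XT.lf (nat_lit 0) (nat_lit 6558840469) (nat_lit 76) (nat_lit 22509495694) (nat_lit 76) (nat_lit 195713691) (nat_lit 61) (nat_lit 4) (nat_lit 62) (nat_lit 5) (nat_lit 62) (nat_lit 4) (nat_lit 469) (nat_lit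 393) (nat_lit 338)) (XT.lf (nat_lit 0) (nat_lit 6617979797) (nat_lit 76) (nat_lit 7672506474) (nat_lit 152) (nat_lit 15967028035) (nat_lit 59) (nat_lit 5) (nat_lit 60) (nat_lit 5) (nat_lit 61) (nat_lit 4) (nat_lit 470) (nat_lit 393) (nat_lit 337))))) (XT.nd (nat_lit 234) (nat_lit 380) (nat_lit 0) (XT.nd (nat_lit 78) (nat_lit 228) (nat_lit 0) (XT.lf (nat_lit 0) (nat_lit 6458746648) (nat_lit 76) (nat_lit 23322447706) (nat_lit 76) (nat_lit 1510873012) (nat_lit 58) (nat_lit 4) (nat_lit 59) (nat_lit 5) (nat_lit 59) (nat_lit 4) (nat_lit 471) (nat_lit 393) (nat_lit 336)) (XT.nd (nat_lit 78) (nat_lit 76) (nat_lit 0) (XT.lf (nat_lit 0) (nat_lit 5917230230) (nat_lit 76) (nat_lit 7776083483) (nat_lit 152) (nat_lit 18672335480) (nat_lit 56) (nat_lit 5) (nat_lit 57) (nat_lit 5) (nat_lit 58) (nat_lit 4) (nat_lit 472) (nat_lit 393) (nat_lit 335)) (XT.lf (nat_lit 0) (nat_lit 5069236024) (nat_lit 76) (nat_lit 24860247739)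 (nat_lit 76) (nat_lit 3553887726) (nat_lit 55) (nat_lit 4) (nat_lit 56) (nat_lit 5) (nat_lit 56) (nat_lit 4) (nat_lit 473) (nat_lit 393) (nat_lit 334)))) (XT.nd (nat_lit 156) (nat_lit 152) (nat_lit 0) (XT.nd (nat_lit 78) (nat_lit 76) (nat_lit 0) (XT.lf (nat_lit 0) (nat_lit 3775111868) (nat_lit 76) (nat_lit 8610061089) (nat_lit 152) (nat_lit 22259101482) (nat_lit 53) (nat_lit 5) (nat_lit 54) (nat_lit 5) (nat_lit 55) (nat_lit 4) (nat_lit 474) (nat_lit 393) (nat_lit 333)) (XT.lf (nat_lit 0) (nat_lit 2070981905) (nat_lit 76) (nat_lit 27291043255) (nat_lit 76) (nat_lit 6490712307) (nat_lit 52) (nat_lit 4) (nat_lit 53) (nat_lit 5) (nat_lit 53) (nat_lit 4) (nat_lit 475) (nat_lit 393) (nat_lit 332))) (XT.nd (nat_lit 78) (nat_lit 76) (nat_lit 0) (XT.lf (nat_lit 0) (nat_lit 10196224549) (nat_lit 152) (nat_lit 155209758) (nat_lit 76) (nat_lit 26757490514) (nat_lit 51) (nat_lit 5) (nat_lit 53) (nat_lit 5)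 (nat_lit 52) (nat_lit 4) (nat_lit 476) (nat_lit 393) (nat_lit 331)) (XT.lf (nat_lit 0) (nat_lit 27924418497) (nat_lit 152) (nat_lit 2862288032) (nat_lit 0) (nat_lit 7629053244) (nat_lit 50) (nat_lit 5) (nat_lit 52) (nat_lit 4) (nat_lit 50) (nat_lit 4) (nat_lit 477) (nat_lit 393) (nat_lit 330))))))))
noncomputable def xc36 : XT := (XT.nd (nat_lit 57642) (nat_lit 0) (nat_lit 8132) (XT.nd (nat_lit 1014) (nat_lit 684) (nat_lit 0) (XT.nd (nat_lit 468) (nat_lit 684) (nat_lit 0) (XT.nd (nat_lit 234) (nat_lit 304) (nat_lit 0) (XT.nd (nat_lit 78) (nat_lit 228) (nat_lit 0) (XT.lf (nat_lit 0) (nat_lit 6976739004) (nat_lit 152) (nat_lit 6179446485) (nat_lit 76) (nat_lit 26619082941) (nat_lit 48) (nat_lit 5) (nat_lit 50) (nat_lit 5) (nat_lit 49) (nat_lit 4) (nat_lit 478) (nat_lit 393) (nat_lit 329)) (XT.nd (nat_lit 78) (nat_lit 152) (nat_lit 0) (XT.lf (nat_lit 0) (nat_lit 25412622387) (nat_lit 152) (nat_lit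 10158115397) (nat_lit 0) (nat_lit 5619557747) (nat_lit 47) (nat_lit 5) (nat_lit 49) (nat_lit 4) (nat_lit 47) (nat_lit 4) (nat_lit 479) (nat_lit 393) (nat_lit 328)) (XT.lf (nat_lit 0) (nat_lit 2448905562) (nat_lit 152) (nat_lit 14863053029) (nat_lit 76) (nat_lit 25351645598) (nat_lit 45) (nat_lit 5) (nat_lit 47) (nat_lit 5) (nat_lit 46) (nat_lit 4) (nat_lit 480) (nat_lit 393) (nat_lit 327)))) (XT.nd (nat_lit 78) (nat_lit 228) (nat_lit 0) (XT.lf (nat_lit 0) (nat_lit 21548860973) (nat_lit 152) (nat_lit 20394308985) (nat_lit 0) (nat_lit 2254071728) (nat_lit 44) (nat_lit 5) (nat_lit 46) (nat_lit 4) (nat_lit 44) (nat_lit 4) (nat_lit 481) (nat_lit 393) (nat_lit 326)) (XT.nd (nat_lit 78) (nat_lit 152) (nat_lit 0) (XT.lf (nat_lit 0) (nat_lit 18965351514) (nat_lit 76) (nat_lit 23080045821) (nat_lit 76) (nat_lit 3748916678) (nat_lit 43) (nat_lit 4) (nat_lit 44) (nat_lit 5) (nat_lit 44) (nat_lit 4) (nat_lit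 482) (nat_lit 393) (nat_lit 325)) (XT.lf (nat_lit 0) (nat_lit 13219675489) (nat_lit 76) (nat_lit 2832252619) (nat_lit 152) (nat_lit 31406555990) (nat_lit 41) (nat_lit 5) (nat_lit 42) (nat_lit 5) (nat_lit 43) (nat_lit 4) (nat_lit 483) (nat_lit 393) (nat_lit 324))))) (XT.nd (nat_lit 234) (nat_lit 456) (nat_lit 0) (XT.nd (nat_lit 78) (nat_lit 152) (nat_lit 0) (XT.lf (nat_lit 0) (nat_lit 6407937853) (nat_lit 76) (nat_lit 30808483381) (nat_lit 76) (nat_lit 11974794127) (nat_lit 40) (nat_lit 4) (nat_lit 41) (nat_lit 5) (nat_lit 41) (nat_lit 4) (nat_lit 484) (nat_lit 393) (nat_lit 323)) (XT.nd (nat_lit 78) (nat_lit 76) (nat_lit 0) (XT.lf (nat_lit 0) (nat_lit 8582696364) (nat_lit 152) (nat_lit 1441293081) (nat_lit 76) (nat_lit 40974605134) (nat_lit 39) (nat_lit 5) (nat_lit 41) (nat_lit 5) (nat_lit 40) (nat_lit 4) (nat_lit 485) (nat_lit 393) (nat_lit 322)) (XT.lf (nat_lit 0) (nat_lit 30387046463) (nat_lit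 152) (nat_lit 10447599717) (nat_lit 0) (nat_lit 12044140791) (nat_lit 38) (nat_lit 5) (nat_lit 40) (nat_lit 4) (nat_lit 38) (nat_lit 4) (nat_lit 486) (nat_lit 393) (nat_lit 321)))) (XT.nd (nat_lit 156) (nat_lit 228) (nat_lit 0) (XT.nd (nat_lit 78) (nat_lit 152) (nat_lit 0) (XT.lf (nat_lit 0) (nat_lit 34117133362) (nat_lit 76) (nat_lit 19547061491) (nat_lit 76) (nat_lit 1177317039) (nat_lit 37) (nat_lit 4) (nat_lit 38) (nat_lit 5) (nat_lit 38) (nat_lit 4) (nat_lit 487) (nat_lit 393) (nat_lit 320)) (XT.lf (nat_lit 0) (nat_lit 21103525365) (nat_lit 152) (nat_lit 32539294566) (nat_lit 0) (nat_lit 3244005759) (nat_lit 35) (nat_lit 5) (nat_lit 37) (nat_lit 4) (nat_lit 35) (nat_lit 4) (nat_lit 488) (nat_lit 393) (nat_lit 319))) (XT.nd (nat_lit 78) (nat_lit 152) (nat_lit 0) (XT.lf (nat_lit 0) (nat_lit 13002930173) (nat_lit 76) (nat_lit 31949957470) (nat_lit 76) (nat_lit 14066803335) (nat_lit 34) (nat_lit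 4) (nat_lit 35) (nat_lit 5) (nat_lit 35) (nat_lit 4) (nat_lit 489) (nat_lit 393) (nat_lit 318)) (XT.lf (nat_lit 0) (nat_lit 51398586) (nat_lit 76) (nat_lit 8794444663) (nat_lit 152) (nat_lit 52402413832) (nat_lit 32) (nat_lit 5) (nat_lit 33) (nat_lit 5) (nat_lit 34) (nat_lit 4) (nat_lit 490) (nat_lit 393) (nat_lit 317)))))) (XT.nd (nat_lit 468) (nat_lit 228) (nat_lit 0) (XT.nd (nat_lit 234) (nat_lit 228) (nat_lit 0) (XT.nd (nat_lit 78) (nat_lit 228) (nat_lit 0) (XT.lf (nat_lit 0) (nat_lit 33186631864) (nat_lit 152) (nat_lit 14598558647) (nat_lit 0) (nat_lit 15781679995) (nat_lit 32) (nat_lit 5) (nat_lit 34) (nat_lit 4) (nat_lit 32) (nat_lit 4) (nat_lit 491) (nat_lit 393) (nat_lit 316)) (XT.nd (nat_lit 78) (nat_lit 152) (nat_lit 0) (XT.lf (nat_lit 0) (nat_lit 34812346254) (nat_lit 76) (nat_lit 24301382076) (nat_lit 76) (nat_lit 6876608464) (nat_lit 31) (nat_lit 4) (nat_lit 32) (nat_lit 5) (nat_lit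 32) (nat_lit 4) (nat_lit 492) (nat_lit 393) (nat_lit 315)) (XT.lf (nat_lit 0) (nat_lit 17739718327) (nat_lit 152) (nat_lit 49977443135) (nat_lit 0) (nat_lit 804134385) (nat_lit 29) (nat_lit 5) (nat_lit 31) (nat_lit 4) (nat_lit 29) (nat_lit 4) (nat_lit 493) (nat_lit 393) (nat_lit 314)))) (XT.nd (nat_lit 78) (nat_lit 228) (nat_lit 0) (XT.lf (nat_lit 0) (nat_lit 43963335564) (nat_lit 152) (nat_lit 187567786) (nat_lit 0) (nat_lit 27010296374) (nat_lit 29) (nat_lit 5) (nat_lit 31) (nat_lit 4) (nat_lit 29) (nat_lit 4) (nat_lit 494) (nat_lit 393) (nat_lit 313)) (XT.nd (nat_lit 78) (nat_lit 152) (nat_lit 0) (XT.lf (nat_lit 0) (nat_lit 53027661889) (nat_lit 76) (nat_lit 18930647537) (nat_lit 76) (nat_lit 1960984302) (nat_lit 28) (nat_lit 4) (nat_lit 29) (nat_lit 5) (nat_lit 29) (nat_lit 4) (nat_lit 495) (nat_lit 393) (nat_lit 312)) (XT.lf (nat_lit 0) (nat_lit 24401191050) (nat_lit 152) (nat_lit 44486338717)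 (nat_lit 0) (nat_lit 7910418566) (nat_lit 26) (nat_lit 5) (nat_lit 28) (nat_lit 4) (nat_lit 26) (nat_lit 4) (nat_lit 496) (nat_lit 393) (nat_lit 311))))) (XT.nd (nat_lit 55848) (nat_lit 0) (nat_lit 22876) (XT.nd (nat_lit 78) (nat_lit 152) (nat_lit 0) (XT.lf (nat_lit 0) (nat_lit 8658248284) (nat_lit 76) (nat_lit 43826895085) (nat_lit 76) (nat_lit 27321483281) (nat_lit 25) (nat_lit 4) (nat_lit 26) (nat_lit 5) (nat_lit 26) (nat_lit 4) (nat_lit 497) (nat_lit 393) (nat_lit 310)) (XT.nd (nat_lit 78) (nat_lit 152) (nat_lit 0) (XT.lf (nat_lit 0) (nat_lit 65297212914) (nat_lit 76) (nat_lit 17087764810) (nat_lit 76) (nat_lit 568410798) (nat_lit 25) (nat_lit 4) (nat_lit 26) (nat_lit 5) (nat_lit 26) (nat_lit 4) (nat_lit 498) (nat_lit 393) (nat_lit 309)) (XT.lf (nat_lit 0) (nat_lit 27426370803) (nat_lit 152) (nat_lit 47434676077) (nat_lit 0) (nat_lit 11375271476) (nat_lit 23) (nat_lit 5) (nat_lit 25) (nat_lit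 4) (nat_lit 23) (nat_lit 4) (nat_lit 499) (nat_lit 393) (nat_lit 308)))) (XT.nd (nat_lit 156) (nat_lit 2356) (nat_lit 0) (XT.nd (nat_lit 78) (nat_lit 1976) (nat_lit 0) (XT.lf (nat_lit 0) (nat_lit 3189275772) (nat_lit 836) (nat_lit 120149038) (nat_lit 836) (nat_lit 120149038) (nat_lit 381) (nat_lit 4) (nat_lit 392) (nat_lit 5) (nat_lit 392) (nat_lit 4) (nat_lit 412) (nat_lit 394) (nat_lit 394)) (XT.lf (nat_lit 0) (nat_lit 638505975) (nat_lit 988) (nat_lit 4735002885) (nat_lit 988) (nat_lit 1558803064) (nat_lit 355) (nat_lit 4) (nat_lit 368) (nat_lit 5) (nat_lit 368) (nat_lit 4) (nat_lit 413) (nat_lit 394) (nat_lit 393))) (XT.nd (nat_lit 78) (nat_lit 1216) (nat_lit 0) (XT.lf (nat_lit 0) (nat_lit 1889480432) (nat_lit 1064) (nat_lit 2096052800) (nat_lit 1140) (nat_lit 3027902235) (nat_lit 340) (nat_lit 5) (nat_lit 354) (nat_lit 5) (nat_lit 355) (nat_lit 4) (nat_lit 414) (nat_lit 394) (nat_lit 392))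 (XT.lf (nat_lit 0) (nat_lit 2450253151) (nat_lit 1216) (nat_lit 3843519014) (nat_lit 76) (nat_lit 808868032) (nat_lit 324) (nat_lit 5) (nat_lit 340) (nat_lit 5) (nat_lit 325) (nat_lit 4) (nat_lit 415) (nat_lit 394) (nat_lit 391))))))) (XT.nd (nat_lit 1014) (nat_lit 5168) (nat_lit 0) (XT.nd (nat_lit 468) (nat_lit 4332) (nat_lit 0) (XT.nd (nat_lit 234) (nat_lit 1824) (nat_lit 0) (XT.nd (nat_lit 78) (nat_lit 2128) (nat_lit 0) (XT.lf (nat_lit 0) (nat_lit 776641465) (nat_lit 1292) (nat_lit 2465128734) (nat_lit 76) (nat_lit 3957870971) (nat_lit 307) (nat_lit 5) (nat_lit 324) (nat_lit 5) (nat_lit 308) (nat_lit 5) (nat_lit 416) (nat_lit 394) (nat_lit 390)) (XT.nd (nat_lit 78) (nat_lit 1292) (nat_lit 0) (XT.lf (nat_lit 0) (nat_lit 6222948374) (nat_lit 912) (nat_lit 977413081) (nat_lit 76) (nat_lit 104517068) (nat_lit 296) (nat_lit 5) (nat_lit 308) (nat_lit 5) (nat_lit 297) (nat_lit 4) (nat_lit 417) (nat_lit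 394) (nat_lit 389)) (XT.lf (nat_lit 0) (nat_lit 602449056) (nat_lit 608) (nat_lit 3724926359) (nat_lit 684) (nat_lit 3090039286) (nat_lit 279) (nat_lit 5) (nat_lit 287) (nat_lit 5) (nat_lit 288) (nat_lit 5) (nat_lit 418) (nat_lit 394) (nat_lit 388)))) (XT.nd (nat_lit 78) (nat_lit 1216) (nat_lit 0) (XT.lf (nat_lit 0) (nat_lit 2272358066) (nat_lit 608) (nat_lit 5212336350) (nat_lit 76) (nat_lit 53761532) (nat_lit 271) (nat_lit 5) (nat_lit 279) (nat_lit 5) (nat_lit 272) (nat_lit 5) (nat_lit 419) (nat_lit 394) (nat_lit 387)) (XT.nd (nat_lit 78) (nat_lit 532) (nat_lit 0) (XT.lf (nat_lit 0) (nat_lit 78915348) (nat_lit 684) (nat_lit 3528924746) (nat_lit 76) (nat_lit 4059525042) (nat_lit 262) (nat_lit 5) (nat_lit 271) (nat_lit 5) (nat_lit 263) (nat_lit 5) (nat_lit 420) (nat_lit 394) (nat_lit 386)) (XT.lf (nat_lit 0) (nat_lit 5468030626) (nat_lit 608) (nat_lit 1753471497) (nat_lit 76) (nat_lit 583102880)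 (nat_lit 255) (nat_lit 5) (nat_lit 263) (nat_lit 5) (nat_lit 256) (nat_lit 5) (nat_lit 421) (nat_lit 394) (nat_lit 385))))) (XT.nd (nat_lit 234) (nat_lit 2280) (nat_lit 0) (XT.nd (nat_lit 78) (nat_lit 988) (nat_lit 0) (XT.lf (nat_lit 0) (nat_lit 108040807) (nat_lit 456) (nat_lit 2933774997) (nat_lit 532) (nat_lit 4908217227) (nat_lit 241) (nat_lit 5) (nat_lit 247) (nat_lit 5) (nat_lit 248) (nat_lit 5) (nat_lit 422) (nat_lit 394) (nat_lit 384)) (XT.nd (nat_lit 78) (nat_lit 456) (nat_lit 0) (XT.lf (nat_lit 0) (nat_lit 459320998) (nat_lit 532) (nat_lit 5990140902) (nat_lit 76) (nat_lit 1654508076) (nat_lit 234) (nat_lit 5) (nat_lit 241) (nat_lit 5) (nat_lit 235) (nat_lit 5) (nat_lit 423) (nat_lit 394) (nat_lit 383)) (XT.lf (nat_lit 0) (nat_lit 4194935172) (nat_lit 456) (nat_lit 1734772250) (nat_lit 532) (nat_lit 2336377180) (nat_lit 228) (nat_lit 5) (nat_lit 234) (nat_lit 5) (nat_lit 235) (nat_lit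 5) (nat_lit 424) (nat_lit 394) (nat_lit 382)))) (XT.nd (nat_lit 156) (nat_lit 836) (nat_lit 0) (XT.nd (nat_lit 78) (nat_lit 912) (nat_lit 0) (XT.lf (nat_lit 0) (nat_lit 3119039513) (nat_lit 532) (nat_lit 2068113051) (nat_lit 76) (nat_lit 3249888511) (nat_lit 221) (nat_lit 5) (nat_lit 228) (nat_lit 5) (nat_lit 222) (nat_lit 5) (nat_lit 425) (nat_lit 394) (nat_lit 381)) (XT.lf (nat_lit 0) (nat_lit 41035930) (nat_lit 456) (nat_lit 77899847) (nat_lit 532) (nat_lit 8498694780) (nat_lit 209) (nat_lit 5) (nat_lit 215) (nat_lit 5) (nat_lit 216) (nat_lit 5) (nat_lit 426) (nat_lit 394) (nat_lit 380))) (XT.nd (nat_lit 78) (nat_lit 456) (nat_lit 0) (XT.lf (nat_lit 0) (nat_lit 2236994054) (nat_lit 380) (nat_lit 3483557599) (nat_lit 456) (nat_lit 3085048542) (nat_lit 204) (nat_lit 5) (nat_lit 209) (nat_lit 5) (nat_lit 210) (nat_lit 5) (nat_lit 427) (nat_lit 394) (nat_lit 379)) (XT.lf (nat_lit 0) (nat_lit 2505495224)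 (nat_lit 456) (nat_lit 4463674433) (nat_lit 76) (nat_lit 2034354646) (nat_lit 198) (nat_lit 5) (nat_lit 204) (nat_lit 5) (nat_lit 199) (nat_lit 5) (nat_lit 428) (nat_lit 394) (nat_lit 378)))))) (XT.nd (nat_lit 546) (nat_lit 2128) (nat_lit 0) (XT.nd (nat_lit 234) (nat_lit 1596) (nat_lit 0) (XT.nd (nat_lit 78) (nat_lit 1140) (nat_lit 0) (XT.lf (nat_lit 0) (nat_lit 6930635175) (nat_lit 304) (nat_lit 1361111298) (nat_lit 380) (nat_lit 919295283) (nat_lit 194) (nat_lit 5) (nat_lit 198) (nat_lit 5) (nat_lit 199) (nat_lit 5) (nat_lit 429) (nat_lit 394) (nat_lit 377)) (XT.nd (nat_lit 78) (nat_lit 684) (nat_lit 0) (XT.lf (nat_lit 0) (nat_lit 4837708027) (nat_lit 456) (nat_lit 42389859) (nat_lit 76) (nat_lit 4547554154) (nat_lit 188) (nat_lit 5) (nat_lit 194) (nat_lit 5) (nat_lit 189) (nat_lit 5) (nat_lit 430) (nat_lit 394) (nat_lit 376)) (XT.lf (nat_lit 0) (nat_lit 1191198656) (nat_lit 380) (nat_lit 7311424144)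 (nat_lit 76) (nat_lit 1151677848) (nat_lit 179) (nat_lit 5) (nat_lit 184) (nat_lit 5) (nat_lit 180) (nat_lit 5) (nat_lit 431) (nat_lit 394) (nat_lit 375)))) (XT.nd (nat_lit 156) (nat_lit 912) (nat_lit 0) (XT.nd (nat_lit 78) (nat_lit 380) (nat_lit 0) (XT.lf (nat_lit 0) (nat_lit 4784688187) (nat_lit 304) (nat_lit 2397549575) (nat_lit 380) (nat_lit 2708218175) (nat_lit 175) (nat_lit 5) (nat_lit 179) (nat_lit 5) (nat_lit 180) (nat_lit 5) (nat_lit 432) (nat_lit 394) (nat_lit 374)) (XT.lf (nat_lit 0) (nat_lit 3280523425) (nat_lit 380) (nat_lit 2828804168) (nat_lit 76) (nat_lit 4027804219) (nat_lit 170) (nat_lit 5) (nat_lit 175) (nat_lit 5) (nat_lit 171) (nat_lit 5) (nat_lit 433) (nat_lit 394) (nat_lit 373))) (XT.nd (nat_lit 78) (nat_lit 608) (nat_lit 0) (XT.lf (nat_lit 0) (nat_lit 9520118792) (nat_lit 380) (nat_lit 462704820) (nat_lit 76) (nat_lit 412299972) (nat_lit 166) (nat_lit 5) (nat_lit 171) (nat_lit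 5) (nat_lit 167) (nat_lit 5) (nat_lit 434) (nat_lit 394) (nat_lit 372)) (XT.lf (nat_lit 0) (nat_lit 1975012159) (nat_lit 228) (nat_lit 3392209151) (nat_lit 304) (nat_lit 5295232579) (nat_lit 158) (nat_lit 5) (nat_lit 161) (nat_lit 5) (nat_lit 162) (nat_lit 5) (nat_lit 435) (nat_lit 394) (nat_lit 371))))) (XT.nd (nat_lit 234) (nat_lit 1216) (nat_lit 0) (XT.nd (nat_lit 78) (nat_lit 532) (nat_lit 0) (XT.lf (nat_lit 0) (nat_lit 972936382) (nat_lit 380) (nat_lit 6422364544) (nat_lit 76) (nat_lit 3546387574) (nat_lit 153) (nat_lit 5) (nat_lit 158) (nat_lit 5) (nat_lit 154) (nat_lit 5) (nat_lit 436) (nat_lit 394) (nat_lit 370)) (XT.nd (nat_lit 78) (nat_lit 304) (nat_lit 0) (XT.lf (nat_lit 0) (nat_lit 7128572807) (nat_lit 228) (nat_lit 349693258) (nat_lit 304) (nat_lit 3754055555) (nat_lit 150) (nat_lit 5) (nat_lit 153) (nat_lit 5) (nat_lit 154) (nat_lit 5) (nat_lit 437) (nat_lit 394) (nat_lit 369)) (XT.lf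 (nat_lit 0) (nat_lit 2790480540) (nat_lit 304) (nat_lit 1737705341) (nat_lit 76) (nat_lit 7006312805) (nat_lit 146) (nat_lit 5) (nat_lit 150) (nat_lit 5) (nat_lit 147) (nat_lit 5) (nat_lit 438) (nat_lit 394) (nat_lit 368)))) (XT.nd (nat_lit 156) (nat_lit 456) (nat_lit 0) (XT.nd (nat_lit 78) (nat_lit 304) (nat_lit 0) (XT.lf (nat_lit 0) (nat_lit 716490085) (nat_lit 228) (nat_lit 8918603408) (nat_lit 304) (nat_lit 2214068043) (nat_lit 140) (nat_lit 5) (nat_lit 143) (nat_lit 5) (nat_lit 144) (nat_lit 5) (nat_lit 439) (nat_lit 394) (nat_lit 367)) (XT.lf (nat_lit 0) (nat_lit 3262063868) (nat_lit 228) (nat_lit 1370577095) (nat_lit 304) (nat_lit 7543158461) (nat_lit 136) (nat_lit 5) (nat_lit 139) (nat_lit 5) (nat_lit 140) (nat_lit 5) (nat_lit 440) (nat_lit 394) (nat_lit 366))) (XT.nd (nat_lit 78) (nat_lit 228) (nat_lit 0) (XT.lf (nat_lit 0) (nat_lit 5871532666) (nat_lit 228) (nat_lit 5991128943) (nat_lit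 304) (nat_lit 652852846) (nat_lit 133) (nat_lit 5) (nat_lit 136) (nat_lit 5) (nat_lit 137) (nat_lit 5) (nat_lit 441) (nat_lit 394) (nat_lit 365)) (XT.lf (nat_lit 0) (nat_lit 6516538532) (nat_lit 228) (nat_lit 4333124946) (nat_lit 76) (nat_lit 2018768856) (nat_lit 130) (nat_lit 5) (nat_lit 133) (nat_lit 5) (nat_lit 131) (nat_lit 5) (nat_lit 442) (nat_lit 394) (nat_lit 364))))))))
noncomputable def xc37 : XT := (XT.nd (nat_lit 2028) (nat_lit 2660) (nat_lit 0) (XT.nd (nat_lit 1014) (nat_lit 2052) (nat_lit 0) (XT.nd (nat_lit 468) (nat_lit 1520) (nat_lit 0) (XT.nd (nat_lit 234) (nat_lit 608) (nat_lit 0) (XT.nd (nat_lit 78) (nat_lit 608) (nat_lit 0) (XT.lf (nat_lit 0) (nat_lit 873898685) (nat_lit 304) (nat_lit 1958896746) (nat_lit 76) (nat_lit 10402865570) (nat_lit 126) (nat_lit 5) (nat_lit 130) (nat_lit 5) (nat_lit 127) (nat_lit 5) (nat_lit 443) (nat_lit 394) (nat_lit 363)) (XT.nd (nat_lit 78) (nat_lit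 228) (nat_lit 0) (XT.lf (nat_lit 0) (nat_lit 445878631) (nat_lit 228) (nat_lit 7986368617) (nat_lit 304) (nat_lit 5184042947) (nat_lit 121) (nat_lit 5) (nat_lit 124) (nat_lit 5) (nat_lit 125) (nat_lit 5) (nat_lit 444) (nat_lit 394) (nat_lit 362)) (XT.lf (nat_lit 0) (nat_lit 2409455025) (nat_lit 228) (nat_lit 11037195765) (nat_lit 76) (nat_lit 565542077) (nat_lit 118) (nat_lit 5) (nat_lit 121) (nat_lit 5) (nat_lit 119) (nat_lit 5) (nat_lit 445) (nat_lit 394) (nat_lit 361)))) (XT.nd (nat_lit 78) (nat_lit 380) (nat_lit 0) (XT.lf (nat_lit 0) (nat_lit 5514381658) (nat_lit 228) (nat_lit 4897028941) (nat_lit 304) (nat_lit 4010864582) (nat_lit 115) (nat_lit 5) (nat_lit 118) (nat_lit 5) (nat_lit 119) (nat_lit 5) (nat_lit 446) (nat_lit 394) (nat_lit 360)) (XT.nd (nat_lit 78) (nat_lit 152) (nat_lit 0) (XT.lf (nat_lit 0) (nat_lit 3984436108) (nat_lit 228) (nat_lit 6729505341) (nat_lit 76) (nat_lit 4134748332)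 (nat_lit 112) (nat_lit 5) (nat_lit 115) (nat_lit 5) (nat_lit 113) (nat_lit 5) (nat_lit 447) (nat_lit 394) (nat_lit 359)) (XT.lf (nat_lit 0) (nat_lit 10779570111) (nat_lit 152) (nat_lit 1633979944) (nat_lit 228) (nat_lit 2878177457) (nat_lit 110) (nat_lit 5) (nat_lit 112) (nat_lit 5) (nat_lit 113) (nat_lit 5) (nat_lit 448) (nat_lit 394) (nat_lit 358))))) (XT.nd (nat_lit 234) (nat_lit 760) (nat_lit 0) (XT.nd (nat_lit 78) (nat_lit 532) (nat_lit 0) (XT.lf (nat_lit 0) (nat_lit 5550632195) (nat_lit 228) (nat_lit 2296233787) (nat_lit 76) (nat_lit 7903939580) (nat_lit 107) (nat_lit 5) (nat_lit 110) (nat_lit 5) (nat_lit 108) (nat_lit 5) (nat_lit 449) (nat_lit 394) (nat_lit 357)) (XT.nd (nat_lit 78) (nat_lit 380) (nat_lit 0) (XT.lf (nat_lit 0) (nat_lit 14454906542) (nat_lit 228) (nat_lit 15387168) (nat_lit 76) (nat_lit 1758285693) (nat_lit 105) (nat_lit 5) (nat_lit 108) (nat_lit 5) (nat_lit 106) (nat_lit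 4) (nat_lit 450) (nat_lit 394) (nat_lit 356)) (XT.lf (nat_lit 0) (nat_lit 2289844125) (nat_lit 152) (nat_lit 4835234295) (nat_lit 228) (nat_lit 9597457474) (nat_lit 100) (nat_lit 5) (nat_lit 102) (nat_lit 5) (nat_lit 103) (nat_lit 5) (nat_lit 451) (nat_lit 394) (nat_lit 355)))) (XT.nd (nat_lit 156) (nat_lit 380) (nat_lit 0) (XT.nd (nat_lit 78) (nat_lit 228) (nat_lit 0) (XT.lf (nat_lit 0) (nat_lit 4652832245) (nat_lit 152) (nat_lit 11922849061) (nat_lit 228) (nat_lit 660677063) (nat_lit 98) (nat_lit 5) (nat_lit 100) (nat_lit 5) (nat_lit 101) (nat_lit 4) (nat_lit 452) (nat_lit 394) (nat_lit 354)) (XT.lf (nat_lit 0) (nat_lit 7007837158) (nat_lit 152) (nat_lit 1692360201) (nat_lit 228) (nat_lit 9068737638) (nat_lit 95) (nat_lit 5) (nat_lit 97) (nat_lit 5) (nat_lit 98) (nat_lit 5) (nat_lit 453) (nat_lit 394) (nat_lit 353))) (XT.nd (nat_lit 78) (nat_lit 152) (nat_lit 0) (XT.lf (nat_lit 0) (nat_lit 377924713)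 (nat_lit 228) (nat_lit 8933983738) (nat_lit 76) (nat_lit 9010161871) (nat_lit 92) (nat_lit 5) (nat_lit 95) (nat_lit 5) (nat_lit 93) (nat_lit 5) (nat_lit 454) (nat_lit 394) (nat_lit 352)) (XT.lf (nat_lit 0) (nat_lit 10254480240) (nat_lit 228) (nat_lit 7130871641) (nat_lit 76) (nat_lit 1510465732) (nat_lit 90) (nat_lit 5) (nat_lit 93) (nat_lit 5) (nat_lit 91) (nat_lit 4) (nat_lit 455) (nat_lit 394) (nat_lit 351)))))) (XT.nd (nat_lit 468) (nat_lit 1064) (nat_lit 0) (XT.nd (nat_lit 234) (nat_lit 532) (nat_lit 0) (XT.nd (nat_lit 78) (nat_lit 304) (nat_lit 0) (XT.lf (nat_lit 0) (nat_lit 1318671242) (nat_lit 152) (nat_lit 5339702478) (nat_lit 76) (nat_lit 12833134504) (nat_lit 88) (nat_lit 5) (nat_lit 90) (nat_lit 5) (nat_lit 89) (nat_lit 5) (nat_lit 456) (nat_lit 394) (nat_lit 350)) (XT.nd (nat_lit 78) (nat_lit 152) (nat_lit 0) (XT.lf (nat_lit 0) (nat_lit 11770745663) (nat_lit 228) (nat_lit 3591678279)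 (nat_lit 76) (nat_lit 4746811311) (nat_lit 86) (nat_lit 5) (nat_lit 89) (nat_lit 5) (nat_lit 87) (nat_lit 4) (nat_lit 457) (nat_lit 394) (nat_lit 349)) (XT.lf (nat_lit 0) (nat_lit 2149013275) (nat_lit 152) (nat_lit 1847497771) (nat_lit 76) (nat_lit 16754759640) (nat_lit 84) (nat_lit 5) (nat_lit 86) (nat_lit 5) (nat_lit 85) (nat_lit 5) (nat_lit 458) (nat_lit 394) (nat_lit 348)))) (XT.nd (nat_lit 78) (nat_lit 380) (nat_lit 0) (XT.lf (nat_lit 0) (nat_lit 13206691445) (nat_lit 228) (nat_lit 186842168) (nat_lit 76) (nat_lit 8022851733) (nat_lit 82) (nat_lit 5) (nat_lit 85) (nat_lit 5) (nat_lit 83) (nat_lit 4) (nat_lit 459) (nat_lit 394) (nat_lit 347)) (XT.nd (nat_lit 78) (nat_lit 76) (nat_lit 0) (XT.lf (nat_lit 0) (nat_lit 1505369889) (nat_lit 152) (nat_lit 1345303472) (nat_lit 228) (nat_lit 19257277389) (nat_lit 78) (nat_lit 5) (nat_lit 80) (nat_lit 5) (nat_lit 81) (nat_lit 5) (nat_lit 460) (nat_lit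 394) (nat_lit 346)) (XT.lf (nat_lit 0) (nat_lit 3069127630) (nat_lit 76) (nat_lit 11488931699) (nat_lit 152) (nat_lit 8265684492) (nat_lit 77) (nat_lit 5) (nat_lit 78) (nat_lit 5) (nat_lit 79) (nat_lit 4) (nat_lit 461) (nat_lit 394) (nat_lit 345))))) (XT.nd (nat_lit 234) (nat_lit 532) (nat_lit 0) (XT.nd (nat_lit 78) (nat_lit 304) (nat_lit 0) (XT.lf (nat_lit 0) (nat_lit 3395512992) (nat_lit 228) (nat_lit 18942881229) (nat_lit 76) (nat_lit 1230470984) (nat_lit 74) (nat_lit 5) (nat_lit 77) (nat_lit 5) (nat_lit 75) (nat_lit 4) (nat_lit 462) (nat_lit 394) (nat_lit 344)) (XT.nd (nat_lit 78) (nat_lit 228) (nat_lit 0) (XT.lf (nat_lit 0) (nat_lit 6021855944) (nat_lit 76) (nat_lit 9729455632) (nat_lit 152) (nat_lit 8589002690) (nat_lit 73) (nat_lit 5) (nat_lit 74) (nat_lit 5) (nat_lit 75) (nat_lit 4) (nat_lit 463) (nat_lit 394) (nat_lit 343)) (XT.lf (nat_lit 0) (nat_lit 3712535657) (nat_lit 228) (nat_lit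 17769614417) (nat_lit 76) (nat_lit 3660924467) (nat_lit 70) (nat_lit 5) (nat_lit 73) (nat_lit 5) (nat_lit 71) (nat_lit 4) (nat_lit 464) (nat_lit 394) (nat_lit 342)))) (XT.nd (nat_lit 156) (nat_lit 228) (nat_lit 0) (XT.nd (nat_lit 78) (nat_lit 228) (nat_lit 0) (XT.lf (nat_lit 0) (nat_lit 8551790064) (nat_lit 76) (nat_lit 8177940761) (nat_lit 152) (nat_lit 9245345649) (nat_lit 69) (nat_lit 5) (nat_lit 70) (nat_lit 5) (nat_lit 71) (nat_lit 4) (nat_lit 465) (nat_lit 394) (nat_lit 341)) (XT.lf (nat_lit 0) (nat_lit 3723315757) (nat_lit 228) (nat_lit 17206850146) (nat_lit 76) (nat_lit 5910186334) (nat_lit 66) (nat_lit 5) (nat_lit 69) (nat_lit 5) (nat_lit 67) (nat_lit 4) (nat_lit 466) (nat_lit 394) (nat_lit 340))) (XT.nd (nat_lit 78) (nat_lit 152) (nat_lit 0) (XT.lf (nat_lit 0) (nat_lit 10517052871) (nat_lit 76) (nat_lit 6908256865) (nat_lit 152) (nat_lit 10312553782) (nat_lit 65) (nat_lit 5) (nat_lit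 66) (nat_lit 5) (nat_lit 67) (nat_lit 4) (nat_lit 467) (nat_lit 394) (nat_lit 339)) (XT.lf (nat_lit 0) (nat_lit 3347671332) (nat_lit 152) (nat_lit 17420858676) (nat_lit 76) (nat_lit 7902518985) (nat_lit 63) (nat_lit 5) (nat_lit 65) (nat_lit 5) (nat_lit 64) (nat_lit 4) (nat_lit 468) (nat_lit 394) (nat_lit 338))))))) (XT.nd (nat_lit 1014) (nat_lit 1292) (nat_lit 0) (XT.nd (nat_lit 468) (nat_lit 760) (nat_lit 0) (XT.nd (nat_lit 234) (nat_lit 304) (nat_lit 0) (XT.nd (nat_lit 78) (nat_lit 228) (nat_lit 0) (XT.lf (nat_lit 0) (nat_lit 11744710093) (nat_lit 76) (nat_lit 6009774963) (nat_lit 152) (nat_lit 11885040813) (nat_lit 62) (nat_lit 5) (nat_lit 63) (nat_lit 5) (nat_lit 64) (nat_lit 4) (nat_lit 469) (nat_lit 394) (nat_lit 337)) (XT.nd (nat_lit 78) (nat_lit 76) (nat_lit 0) (XT.lf (nat_lit 0) (nat_lit 2488040827) (nat_lit 152) (nat_lit 18612709752) (nat_lit 76) (nat_lit 9545847702) (nat_lit 60) (nat_lit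 5) (nat_lit 62) (nat_lit 5) (nat_lit 61) (nat_lit 4) (nat_lit 470) (nat_lit 394) (nat_lit 336)) (XT.lf (nat_lit 0) (nat_lit 12024867434) (nat_lit 76) (nat_lit 5590393963) (nat_lit 152) (nat_lit 14076794983) (nat_lit 59) (nat_lit 5) (nat_lit 60) (nat_lit 5) (nat_lit 61) (nat_lit 4) (nat_lit 471) (nat_lit 394) (nat_lit 335)))) (XT.nd (nat_lit 78) (nat_lit 152) (nat_lit 0) (XT.lf (nat_lit 0) (nat_lit 1026307241) (nat_lit 152) (nat_lit 21024778858) (nat_lit 76) (nat_lit 10728564959) (nat_lit 57) (nat_lit 5) (nat_lit 59) (nat_lit 5) (nat_lit 58) (nat_lit 4) (nat_lit 472) (nat_lit 394) (nat_lit 334)) (XT.nd (nat_lit 78) (nat_lit 76) (nat_lit 0) (XT.lf (nat_lit 0) (nat_lit 11103723963) (nat_lit 76) (nat_lit 5780093091) (nat_lit 152) (nat_lit 17024916472) (nat_lit 56) (nat_lit 5) (nat_lit 57) (nat_lit 5) (nat_lit 58) (nat_lit 4) (nat_lit 473) (nat_lit 394) (nat_lit 333)) (XT.lf (nat_lit 0) (nat_lit 10123916655)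 (nat_lit 76) (nat_lit 23756538081) (nat_lit 76) (nat_lit 1203428521) (nat_lit 55) (nat_lit 4) (nat_lit 56) (nat_lit 5) (nat_lit 56) (nat_lit 4) (nat_lit 474) (nat_lit 394) (nat_lit 332))))) (XT.nd (nat_lit 234) (nat_lit 380) (nat_lit 0) (XT.nd (nat_lit 78) (nat_lit 228) (nat_lit 0) (XT.lf (nat_lit 0) (nat_lit 8675400224) (nat_lit 76) (nat_lit 6735102667) (nat_lit 152) (nat_lit 20893782878) (nat_lit 53) (nat_lit 5) (nat_lit 54) (nat_lit 5) (nat_lit 55) (nat_lit 4) (nat_lit 475) (nat_lit 394) (nat_lit 331)) (XT.nd (nat_lit 78) (nat_lit 152) (nat_lit 0) (XT.lf (nat_lit 0) (nat_lit 6799615095) (nat_lit 76) (nat_lit 26387573120) (nat_lit 76) (nat_lit 4387454983) (nat_lit 52) (nat_lit 4) (nat_lit 53) (nat_lit 5) (nat_lit 53) (nat_lit 4) (nat_lit 476) (nat_lit 394) (nat_lit 330)) (XT.lf (nat_lit 0) (nat_lit 4372328493) (nat_lit 76) (nat_lit 8642801498) (nat_lit 152) (nat_lit 25879950410) (nat_lit 50)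 (nat_lit 5) (nat_lit 51) (nat_lit 5) (nat_lit 52) (nat_lit 4) (nat_lit 477) (nat_lit 394) (nat_lit 329)))) (XT.nd (nat_lit 156) (nat_lit 228) (nat_lit 0) (XT.nd (nat_lit 78) (nat_lit 76) (nat_lit 0) (XT.lf (nat_lit 0) (nat_lit 1389779359) (nat_lit 76) (nat_lit 30165274159) (nat_lit 76) (nat_lit 8714444836) (nat_lit 49) (nat_lit 4) (nat_lit 50) (nat_lit 5) (nat_lit 50) (nat_lit 4) (nat_lit 478) (nat_lit 394) (nat_lit 328)) (XT.lf (nat_lit 0) (nat_lit 9503014166) (nat_lit 152) (nat_lit 2202215247) (nat_lit 76) (nat_lit 29993463587) (nat_lit 48) (nat_lit 5) (nat_lit 50) (nat_lit 5) (nat_lit 49) (nat_lit 4) (nat_lit 479) (nat_lit 394) (nat_lit 327))) (XT.nd (nat_lit 78) (nat_lit 152) (nat_lit 0) (XT.lf (nat_lit 0) (nat_lit 28816726471) (nat_lit 152) (nat_lit 6458954387) (nat_lit 0) (nat_lit 7910110302) (nat_lit 47) (nat_lit 5) (nat_lit 49) (nat_lit 4) (nat_lit 47) (nat_lit 4) (nat_lit 480) (nat_lit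 394) (nat_lit 326)) (XT.lf (nat_lit 0) (nat_lit 4663032032) (nat_lit 152) (nat_lit 11478091238) (nat_lit 76) (nat_lit 28592896862) (nat_lit 45) (nat_lit 5) (nat_lit 47) (nat_lit 5) (nat_lit 46) (nat_lit 4) (nat_lit 481) (nat_lit 394) (nat_lit 325)))))) (XT.nd (nat_lit 546) (nat_lit 608) (nat_lit 0) (XT.nd (nat_lit 234) (nat_lit 380) (nat_lit 0) (XT.nd (nat_lit 78) (nat_lit 228) (nat_lit 0) (XT.lf (nat_lit 0) (nat_lit 24675950741) (nat_lit 152) (nat_lit 17362334644) (nat_lit 0) (nat_lit 4307315813) (nat_lit 44) (nat_lit 5) (nat_lit 46) (nat_lit 4) (nat_lit 44) (nat_lit 4) (nat_lit 482) (nat_lit 394) (nat_lit 324)) (XT.nd (nat_lit 78) (nat_lit 152) (nat_lit 0) (XT.lf (nat_lit 0) (nat_lit 23849168005) (nat_lit 76) (nat_lit 22288374595) (nat_lit 76) (nat_lit 1886778307) (nat_lit 43) (nat_lit 4) (nat_lit 44) (nat_lit 5) (nat_lit 44) (nat_lit 4) (nat_lit 483) (nat_lit 394) (nat_lit 323)) (XT.lf (nat_lit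 0) (nat_lit 17742256618) (nat_lit 76) (nat_lit 1063282631) (nat_lit 152) (nat_lit 30967327013) (nat_lit 41) (nat_lit 5) (nat_lit 42) (nat_lit 5) (nat_lit 43) (nat_lit 4) (nat_lit 484) (nat_lit 394) (nat_lit 322)))) (XT.nd (nat_lit 156) (nat_lit 152) (nat_lit 0) (XT.nd (nat_lit 78) (nat_lit 152) (nat_lit 0) (XT.lf (nat_lit 0) (nat_lit 10518264892) (nat_lit 76) (nat_lit 30471008934) (nat_lit 76) (nat_lit 10604130310) (nat_lit 40) (nat_lit 4) (nat_lit 41) (nat_lit 5) (nat_lit 41) (nat_lit 4) (nat_lit 485) (nat_lit 394) (nat_lit 321)) (XT.lf (nat_lit 0) (nat_lit 2175155019) (nat_lit 76) (nat_lit 8696607339) (nat_lit 152) (nat_lit 42620953801) (nat_lit 38) (nat_lit 5) (nat_lit 39) (nat_lit 5) (nat_lit 40) (nat_lit 4) (nat_lit 486) (nat_lit 394) (nat_lit 320))) (XT.nd (nat_lit 78) (nat_lit 152) (nat_lit 0) (XT.lf (nat_lit 0) (nat_lit 33708772463) (nat_lit 152) (nat_lit 7391731653) (nat_lit 0) (nat_lit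 14368141265) (nat_lit 38) (nat_lit 5) (nat_lit 40) (nat_lit 4) (nat_lit 38) (nat_lit 4) (nat_lit 487) (nat_lit 394) (nat_lit 319)) (XT.lf (nat_lit 0) (nat_lit 555231581) (nat_lit 152) (nat_lit 18237854651) (nat_lit 76) (nat_lit 38737829985) (nat_lit 36) (nat_lit 5) (nat_lit 38) (nat_lit 5) (nat_lit 37) (nat_lit 4) (nat_lit 488) (nat_lit 394) (nat_lit 318))))) (XT.nd (nat_lit 234) (nat_lit 304) (nat_lit 0) (XT.nd (nat_lit 78) (nat_lit 228) (nat_lit 0) (XT.lf (nat_lit 0) (nat_lit 23890904797) (nat_lit 152) (nat_lit 30720838166) (nat_lit 0) (nat_lit 5067449350) (nat_lit 35) (nat_lit 5) (nat_lit 37) (nat_lit 4) (nat_lit 35) (nat_lit 4) (nat_lit 489) (nat_lit 394) (nat_lit 317)) (XT.nd (nat_lit 78) (nat_lit 152) (nat_lit 0) (XT.lf (nat_lit 0) (nat_lit 16999735504) (nat_lit 76) (nat_lit 31882683951) (nat_lit 76) (nat_lit 13037791290) (nat_lit 34) (nat_lit 4) (nat_lit 35) (nat_lit 5) (nat_lit 35) (nat_lit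 4) (nat_lit 490) (nat_lit 394) (nat_lit 316)) (XT.lf (nat_lit 0) (nat_lit 3337539164) (nat_lit 76) (nat_lit 7599824490) (nat_lit 152) (nat_lit 53323821890) (nat_lit 32) (nat_lit 5) (nat_lit 33) (nat_lit 5) (nat_lit 34) (nat_lit 4) (nat_lit 491) (nat_lit 394) (nat_lit 315)))) (XT.nd (nat_lit 156) (nat_lit 228) (nat_lit 0) (XT.nd (nat_lit 78) (nat_lit 76) (nat_lit 0) (XT.lf (nat_lit 0) (nat_lit 36431619211) (nat_lit 152) (nat_lit 12169110637) (nat_lit 0) (nat_lit 18096907326) (nat_lit 32) (nat_lit 5) (nat_lit 34) (nat_lit 4) (nat_lit 32) (nat_lit 4) (nat_lit 492) (nat_lit 394) (nat_lit 314)) (XT.lf (nat_lit 0) (nat_lit 39621776632) (nat_lit 76) (nat_lit 23987285759) (nat_lit 76) (nat_lit 5634594970) (nat_lit 31) (nat_lit 4) (nat_lit 32) (nat_lit 5) (nat_lit 32) (nat_lit 4) (nat_lit 493) (nat_lit 394) (nat_lit 313))) (XT.nd (nat_lit 78) (nat_lit 76) (nat_lit 0) (XT.lf (nat_lit 0) (nat_lit 20150932187)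 (nat_lit 152) (nat_lit 49434533541) (nat_lit 0) (nat_lit 2316161745) (nat_lit 29) (nat_lit 5) (nat_lit 31) (nat_lit 4) (nat_lit 29) (nat_lit 4) (nat_lit 494) (nat_lit 394) (nat_lit 312)) (XT.lf (nat_lit 0) (nat_lit 2753723895) (nat_lit 76) (nat_lit 44885894585) (nat_lit 76) (nat_lit 27035291720) (nat_lit 28) (nat_lit 4) (nat_lit 29) (nat_lit 5) (nat_lit 29) (nat_lit 4) (nat_lit 495) (nat_lit 394) (nat_lit 311))))))))
noncomputable def xc38 : XT := (XT.nd (nat_lit 57486) (nat_lit 0) (nat_lit 4636) (XT.nd (nat_lit 56472) (nat_lit 0) (nat_lit 12084) (XT.nd (nat_lit 55926) (nat_lit 0) (nat_lit 19988) (XT.nd (nat_lit 234) (nat_lit 76) (nat_lit 0) (XT.nd (nat_lit 78) (nat_lit 228) (nat_lit 0) (XT.lf (nat_lit 0) (nat_lit 58492939924) (nat_lit 76) (nat_lit 18472853530) (nat_lit 76) (nat_lit 607172165) (nat_lit 28) (nat_lit 4) (nat_lit 29) (nat_lit 5) (nat_lit 29) (nat_lit 4) (nat_lit 496) (nat_lit 394)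 (nat_lit 310)) (XT.nd (nat_lit 78) (nat_lit 76) (nat_lit 0) (XT.lf (nat_lit 0) (nat_lit 27016782639) (nat_lit 152) (nat_lit 43921673127) (nat_lit 0) (nat_lit 9657518717) (nat_lit 26) (nat_lit 5) (nat_lit 28) (nat_lit 4) (nat_lit 26) (nat_lit 4) (nat_lit 497) (nat_lit 394) (nat_lit 309)) (XT.lf (nat_lit 0) (nat_lit 11800197600) (nat_lit 76) (nat_lit 44664321987) (nat_lit 76) (nat_lit 27291779771) (nat_lit 25) (nat_lit 4) (nat_lit 26) (nat_lit 5) (nat_lit 26) (nat_lit 4) (nat_lit 498) (nat_lit 394) (nat_lit 308)))) (XT.nd (nat_lit 55536) (nat_lit 0) (nat_lit 27968) (XT.lf (nat_lit 0) (nat_lit 718187395) (nat_lit 152) (nat_lit 15927267797) (nat_lit 76) (nat_lit 70416669024) (nat_lit 24) (nat_lit 5) (nat_lit 26) (nat_lit 5) (nat_lit 25) (nat_lit 4) (nat_lit 499) (nat_lit 394) (nat_lit 307)) (XT.nd (nat_lit 78) (nat_lit 836) (nat_lit 0) (XT.lf (nat_lit 0) (nat_lit 2244675272) (nat_lit 684) (nat_lit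 560472810) (nat_lit 684) (nat_lit 560472810) (nat_lit 403) (nat_lit 4) (nat_lit 412) (nat_lit 5) (nat_lit 412) (nat_lit 4) (nat_lit 410) (nat_lit 395) (nat_lit 395)) (XT.lf (nat_lit 0) (nat_lit 4366695406) (nat_lit 836) (nat_lit 1494701008) (nat_lit 0) (nat_lit 931635300) (nat_lit 392) (nat_lit 5) (nat_lit 403) (nat_lit 4) (nat_lit 392) (nat_lit 4) (nat_lit 411) (nat_lit 395) (nat_lit 394))))) (XT.nd (nat_lit 234) (nat_lit 4028) (nat_lit 0) (XT.nd (nat_lit 78) (nat_lit 3040) (nat_lit 0) (XT.lf (nat_lit 0) (nat_lit 2989058807) (nat_lit 912) (nat_lit 638756542) (nat_lit 76) (nat_lit 3234731079) (nat_lit 380) (nat_lit 5) (nat_lit 392) (nat_lit 5) (nat_lit 381) (nat_lit 4) (nat_lit 412) (nat_lit 395) (nat_lit 393)) (XT.nd (nat_lit 78) (nat_lit 1064) (nat_lit 0) (XT.lf (nat_lit 0) (nat_lit 344943474) (nat_lit 988) (nat_lit 1119876848) (nat_lit 1064) (nat_lit 5475317511) (nat_lit 354) (nat_lit 5) (nat_lit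 367) (nat_lit 5) (nat_lit 368) (nat_lit 5) (nat_lit 413) (nat_lit 395) (nat_lit 392)) (XT.lf (nat_lit 0) (nat_lit 1448176827) (nat_lit 1064) (nat_lit 5381993388) (nat_lit 1140) (nat_lit 195115576) (nat_lit 340) (nat_lit 5) (nat_lit 354) (nat_lit 5) (nat_lit 355) (nat_lit 4) (nat_lit 414) (nat_lit 395) (nat_lit 391)))) (XT.nd (nat_lit 156) (nat_lit 1520) (nat_lit 0) (XT.nd (nat_lit 78) (nat_lit 1292) (nat_lit 0) (XT.lf (nat_lit 0) (nat_lit 2648797671) (nat_lit 1140) (nat_lit 2435413889) (nat_lit 1216) (nat_lit 2033784167) (nat_lit 324) (nat_lit 5) (nat_lit 339) (nat_lit 5) (nat_lit 340) (nat_lit 5) (nat_lit 415) (nat_lit 395) (nat_lit 390)) (XT.lf (nat_lit 0) (nat_lit 3187386964) (nat_lit 1292) (nat_lit 3251758516) (nat_lit 76) (nat_lit 779813278) (nat_lit 307) (nat_lit 5) (nat_lit 324) (nat_lit 5) (nat_lit 308) (nat_lit 5) (nat_lit 416) (nat_lit 395) (nat_lit 389))) (XT.nd (nat_lit 78) (nat_lit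 608) (nat_lit 0) (XT.lf (nat_lit 0) (nat_lit 1151572778) (nat_lit 912) (nat_lit 1940692258) (nat_lit 76) (nat_lit 4235537949) (nat_lit 295) (nat_lit 5) (nat_lit 307) (nat_lit 5) (nat_lit 296) (nat_lit 5) (nat_lit 417) (nat_lit 395) (nat_lit 388)) (XT.lf (nat_lit 0) (nat_lit 6375762952) (nat_lit 684) (nat_lit 525298154) (nat_lit 76) (nat_lit 543898855) (nat_lit 287) (nat_lit 5) (nat_lit 296) (nat_lit 5) (nat_lit 288) (nat_lit 5) (nat_lit 418) (nat_lit 395) (nat_lit 387)))))) (XT.nd (nat_lit 468) (nat_lit 3420) (nat_lit 0) (XT.nd (nat_lit 234) (nat_lit 2052) (nat_lit 0) (XT.nd (nat_lit 78) (nat_lit 1216) (nat_lit 0) (XT.lf (nat_lit 0) (nat_lit 986897627) (nat_lit 532) (nat_lit 3132619626) (nat_lit 608) (nat_lit 3449940416) (nat_lit 271) (nat_lit 5) (nat_lit 278) (nat_lit 5) (nat_lit 279) (nat_lit 5) (nat_lit 419) (nat_lit 395) (nat_lit 386)) (XT.nd (nat_lit 78) (nat_lit 532) (nat_lit 0) (XT.lf (nat_lit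 0) (nat_lit 1702110789) (nat_lit 684) (nat_lit 5077746748) (nat_lit 76) (nat_lit 922722114) (nat_lit 262) (nat_lit 5) (nat_lit 271) (nat_lit 5) (nat_lit 263) (nat_lit 5) (nat_lit 420) (nat_lit 395) (nat_lit 385)) (XT.lf (nat_lit 0) (nat_lit 4348468153) (nat_lit 532) (nat_lit 2612195629) (nat_lit 608) (nat_lit 883082955) (nat_lit 255) (nat_lit 5) (nat_lit 262) (nat_lit 5) (nat_lit 263) (nat_lit 5) (nat_lit 421) (nat_lit 395) (nat_lit 384)))) (XT.nd (nat_lit 78) (nat_lit 1444) (nat_lit 0) (XT.lf (nat_lit 0) (nat_lit 4316644520) (nat_lit 608) (nat_lit 1829261648) (nat_lit 76) (nat_lit 1847368008) (nat_lit 247) (nat_lit 5) (nat_lit 255) (nat_lit 5) (nat_lit 248) (nat_lit 5) (nat_lit 422) (nat_lit 395) (nat_lit 383)) (XT.nd (nat_lit 78) (nat_lit 912) (nat_lit 0) (XT.lf (nat_lit 0) (nat_lit 1508002377) (nat_lit 532) (nat_lit 68904442) (nat_lit 76) (nat_lit 6574724193) (nat_lit 240) (nat_lit 5) (nat_lit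 247) (nat_lit 5) (nat_lit 241) (nat_lit 5) (nat_lit 423) (nat_lit 395) (nat_lit 382)) (XT.lf (nat_lit 0) (nat_lit 1803847142) (nat_lit 456) (nat_lit 5035171176) (nat_lit 532) (nat_lit 1478916859) (nat_lit 228) (nat_lit 5) (nat_lit 234) (nat_lit 5) (nat_lit 235) (nat_lit 5) (nat_lit 424) (nat_lit 395) (nat_lit 381))))) (XT.nd (nat_lit 234) (nat_lit 1976) (nat_lit 0) (XT.nd (nat_lit 78) (nat_lit 912) (nat_lit 0) (XT.lf (nat_lit 0) (nat_lit 3773170527) (nat_lit 456) (nat_lit 31549326) (nat_lit 532) (nat_lit 4688583755) (nat_lit 221) (nat_lit 5) (nat_lit 227) (nat_lit 5) (nat_lit 228) (nat_lit 5) (nat_lit 425) (nat_lit 395) (nat_lit 380)) (XT.nd (nat_lit 78) (nat_lit 456) (nat_lit 0) (XT.lf (nat_lit 0) (nat_lit 612229901) (nat_lit 456) (nat_lit 2856578847) (nat_lit 76) (nat_lit 5208625279) (nat_lit 215) (nat_lit 5) (nat_lit 221) (nat_lit 5) (nat_lit 216) (nat_lit 5) (nat_lit 426) (nat_lit 395) (nat_lit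 379)) (XT.lf (nat_lit 0) (nat_lit 6037672129) (nat_lit 532) (nat_lit 917165696) (nat_lit 76) (nat_lit 1915857914) (nat_lit 209) (nat_lit 5) (nat_lit 216) (nat_lit 5) (nat_lit 210) (nat_lit 5) (nat_lit 427) (nat_lit 395) (nat_lit 378)))) (XT.nd (nat_lit 156) (nat_lit 836) (nat_lit 0) (XT.nd (nat_lit 78) (nat_lit 304) (nat_lit 0) (XT.lf (nat_lit 0) (nat_lit 1126860425) (nat_lit 380) (nat_lit 1472285183) (nat_lit 456) (nat_lit 6474011603) (nat_lit 198) (nat_lit 5) (nat_lit 203) (nat_lit 5) (nat_lit 204) (nat_lit 5) (nat_lit 428) (nat_lit 395) (nat_lit 377)) (XT.lf (nat_lit 0) (nat_lit 3265528298) (nat_lit 304) (nat_lit 4981900060) (nat_lit 380) (nat_lit 1037391404) (nat_lit 194) (nat_lit 5) (nat_lit 198) (nat_lit 5) (nat_lit 199) (nat_lit 5) (nat_lit 429) (nat_lit 395) (nat_lit 376))) (XT.nd (nat_lit 78) (nat_lit 380) (nat_lit 0) (XT.lf (nat_lit 0) (nat_lit 4562130551) (nat_lit 456) (nat_lit 4022236288)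 (nat_lit 76) (nat_lit 921896426) (nat_lit 188) (nat_lit 5) (nat_lit 194) (nat_lit 5) (nat_lit 189) (nat_lit 5) (nat_lit 430) (nat_lit 395) (nat_lit 375)) (XT.lf (nat_lit 0) (nat_lit 684778437) (nat_lit 380) (nat_lit 1952503393) (nat_lit 76) (nat_lit 7100511639) (nat_lit 183) (nat_lit 5) (nat_lit 188) (nat_lit 5) (nat_lit 184) (nat_lit 5) (nat_lit 431) (nat_lit 395) (nat_lit 374))))))) (XT.nd (nat_lit 1014) (nat_lit 2964) (nat_lit 0) (XT.nd (nat_lit 468) (nat_lit 1976) (nat_lit 0) (XT.nd (nat_lit 234) (nat_lit 1216) (nat_lit 0) (XT.nd (nat_lit 78) (nat_lit 684) (nat_lit 0) (XT.lf (nat_lit 0) (nat_lit 177499686) (nat_lit 304) (nat_lit 6326063196) (nat_lit 380) (nat_lit 3475558437) (nat_lit 175) (nat_lit 5) (nat_lit 179) (nat_lit 5) (nat_lit 180) (nat_lit 5) (nat_lit 432) (nat_lit 395) (nat_lit 373)) (XT.nd (nat_lit 78) (nat_lit 304) (nat_lit 0) (XT.lf (nat_lit 0) (nat_lit 2361006518) (nat_lit 380)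 (nat_lit 7789649353) (nat_lit 76) (nat_lit 80381664) (nat_lit 170) (nat_lit 5) (nat_lit 175) (nat_lit 5) (nat_lit 171) (nat_lit 5) (nat_lit 433) (nat_lit 395) (nat_lit 372)) (XT.lf (nat_lit 0) (nat_lit 4753565947) (nat_lit 304) (nat_lit 3714225422) (nat_lit 380) (nat_lit 2025226586) (nat_lit 166) (nat_lit 5) (nat_lit 170) (nat_lit 5) (nat_lit 171) (nat_lit 5) (nat_lit 434) (nat_lit 395) (nat_lit 371)))) (XT.nd (nat_lit 78) (nat_lit 836) (nat_lit 0) (XT.lf (nat_lit 0) (nat_lit 4053851421) (nat_lit 380) (nat_lit 3620872859) (nat_lit 76) (nat_lit 3091527477) (nat_lit 161) (nat_lit 5) (nat_lit 166) (nat_lit 5) (nat_lit 162) (nat_lit 5) (nat_lit 435) (nat_lit 395) (nat_lit 370)) (XT.nd (nat_lit 78) (nat_lit 608) (nat_lit 0) (XT.lf (nat_lit 0) (nat_lit 9631508499) (nat_lit 228) (nat_lit 800045964) (nat_lit 304) (nat_lit 619902380) (nat_lit 158) (nat_lit 5) (nat_lit 161) (nat_lit 5) (nat_lit 162) (nat_lit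 5) (nat_lit 436) (nat_lit 395) (nat_lit 369)) (XT.lf (nat_lit 0) (nat_lit 821840041) (nat_lit 228) (nat_lit 4918592516) (nat_lit 304) (nat_lit 5606552438) (nat_lit 150) (nat_lit 5) (nat_lit 153) (nat_lit 5) (nat_lit 154) (nat_lit 5) (nat_lit 437) (nat_lit 395) (nat_lit 368))))) (XT.nd (nat_lit 234) (nat_lit 1140) (nat_lit 0) (XT.nd (nat_lit 78) (nat_lit 532) (nat_lit 0) (XT.lf (nat_lit 0) (nat_lit 792042521) (nat_lit 304) (nat_lit 8462990653) (nat_lit 76) (nat_lit 2400129070) (nat_lit 146) (nat_lit 5) (nat_lit 150) (nat_lit 5) (nat_lit 147) (nat_lit 5) (nat_lit 438) (nat_lit 395) (nat_lit 367)) (XT.nd (nat_lit 78) (nat_lit 304) (nat_lit 0) (XT.lf (nat_lit 0) (nat_lit 5603874038) (nat_lit 228) (nat_lit 1859117657) (nat_lit 304) (nat_lit 4512046421) (nat_lit 143) (nat_lit 5) (nat_lit 146) (nat_lit 5) (nat_lit 147) (nat_lit 5) (nat_lit 439) (nat_lit 395) (nat_lit 366)) (XT.lf (nat_lit 0) (nat_lit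 2196210452) (nat_lit 304) (nat_lit 4221306254) (nat_lit 76) (nat_lit 5890323675) (nat_lit 139) (nat_lit 5) (nat_lit 143) (nat_lit 5) (nat_lit 140) (nat_lit 5) (nat_lit 440) (nat_lit 395) (nat_lit 365)))) (XT.nd (nat_lit 156) (nat_lit 456) (nat_lit 0) (XT.nd (nat_lit 78) (nat_lit 456) (nat_lit 0) (XT.lf (nat_lit 0) (nat_lit 9210331202) (nat_lit 304) (nat_lit 2011110929) (nat_lit 76) (nat_lit 1432593014) (nat_lit 136) (nat_lit 5) (nat_lit 140) (nat_lit 5) (nat_lit 137) (nat_lit 5) (nat_lit 441) (nat_lit 395) (nat_lit 364)) (XT.lf (nat_lit 0) (nat_lit 244410162) (nat_lit 152) (nat_lit 3348531428) (nat_lit 228) (nat_lit 9420434947) (nat_lit 130) (nat_lit 5) (nat_lit 132) (nat_lit 5) (nat_lit 133) (nat_lit 5) (nat_lit 442) (nat_lit 395) (nat_lit 363))) (XT.nd (nat_lit 78) (nat_lit 228) (nat_lit 0) (XT.lf (nat_lit 0) (nat_lit 2599854013) (nat_lit 228) (nat_lit 8422182334) (nat_lit 304) (nat_lit 2364275569)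 (nat_lit 127) (nat_lit 5) (nat_lit 130) (nat_lit 5) (nat_lit 131) (nat_lit 5) (nat_lit 443) (nat_lit 395) (nat_lit 362)) (XT.lf (nat_lit 0) (nat_lit 5017485729) (nat_lit 152) (nat_lit 11434319) (nat_lit 228) (nat_lit 8745043750) (nat_lit 124) (nat_lit 5) (nat_lit 126) (nat_lit 5) (nat_lit 127) (nat_lit 5) (nat_lit 444) (nat_lit 395) (nat_lit 361)))))) (XT.nd (nat_lit 546) (nat_lit 1292) (nat_lit 0) (XT.nd (nat_lit 234) (nat_lit 988) (nat_lit 0) (XT.nd (nat_lit 78) (nat_lit 456) (nat_lit 0) (XT.lf (nat_lit 0) (nat_lit 7472146142) (nat_lit 228) (nat_lit 5411109827) (nat_lit 304) (nat_lit 1292833073) (nat_lit 121) (nat_lit 5) (nat_lit 124) (nat_lit 5) (nat_lit 125) (nat_lit 5) (nat_lit 445) (nat_lit 395) (nat_lit 360)) (XT.nd (nat_lit 78) (nat_lit 228) (nat_lit 0) (XT.lf (nat_lit 0) (nat_lit 6499985336) (nat_lit 228) (nat_lit 4616940907) (nat_lit 76) (nat_lit 3476650850) (nat_lit 118) (nat_lit 5)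 (nat_lit 121) (nat_lit 5) (nat_lit 119) (nat_lit 5) (nat_lit 446) (nat_lit 395) (nat_lit 359)) (XT.lf (nat_lit 0) (nat_lit 12562361121) (nat_lit 228) (nat_lit 2215726317) (nat_lit 304) (nat_lit 249800511) (nat_lit 115) (nat_lit 5) (nat_lit 118) (nat_lit 5) (nat_lit 119) (nat_lit 5) (nat_lit 447) (nat_lit 395) (nat_lit 358)))) (XT.nd (nat_lit 156) (nat_lit 380) (nat_lit 0) (XT.nd (nat_lit 78) (nat_lit 380) (nat_lit 0) (XT.lf (nat_lit 0) (nat_lit 7974730021) (nat_lit 228) (nat_lit 327418541) (nat_lit 76) (nat_lit 7175134621) (nat_lit 112) (nat_lit 5) (nat_lit 115) (nat_lit 5) (nat_lit 113) (nat_lit 5) (nat_lit 448) (nat_lit 395) (nat_lit 357)) (XT.lf (nat_lit 0) (nat_lit 776925608) (nat_lit 228) (nat_lit 14007949019) (nat_lit 76) (nat_lit 1160008846) (nat_lit 107) (nat_lit 5) (nat_lit 110) (nat_lit 5) (nat_lit 108) (nat_lit 5) (nat_lit 449) (nat_lit 395) (nat_lit 356))) (XT.nd (nat_lit 78) (nat_lit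 228) (nat_lit 0) (XT.lf (nat_lit 0) (nat_lit 4180835041) (nat_lit 152) (nat_lit 5309842147) (nat_lit 228) (nat_lit 6937697331) (nat_lit 105) (nat_lit 5) (nat_lit 107) (nat_lit 5) (nat_lit 108) (nat_lit 5) (nat_lit 450) (nat_lit 395) (nat_lit 355)) (XT.lf (nat_lit 0) (nat_lit 1809988305) (nat_lit 228) (nat_lit 10436668604) (nat_lit 76) (nat_lit 4684719730) (nat_lit 102) (nat_lit 5) (nat_lit 105) (nat_lit 5) (nat_lit 103) (nat_lit 5) (nat_lit 451) (nat_lit 395) (nat_lit 354))))) (XT.nd (nat_lit 234) (nat_lit 760) (nat_lit 0) (XT.nd (nat_lit 78) (nat_lit 380) (nat_lit 0) (XT.lf (nat_lit 0) (nat_lit 8817012567) (nat_lit 152) (nat_lit 2188975190) (nat_lit 228) (nat_lit 6446850800) (nat_lit 100) (nat_lit 5) (nat_lit 102) (nat_lit 5) (nat_lit 103) (nat_lit 5) (nat_lit 452) (nat_lit 395) (nat_lit 353)) (XT.nd (nat_lit 78) (nat_lit 152) (nat_lit 0) (XT.lf (nat_lit 0) (nat_lit 2797860973) (nat_lit 228) (nat_lit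 6832053021) (nat_lit 76) (nat_lit 8364043190) (nat_lit 97) (nat_lit 5) (nat_lit 100) (nat_lit 5) (nat_lit 98) (nat_lit 5) (nat_lit 453) (nat_lit 395) (nat_lit 352)) (XT.lf (nat_lit 0) (nat_lit 12517155749) (nat_lit 228) (nat_lit 5016668191) (nat_lit 76) (nat_lit 1022024968) (nat_lit 95) (nat_lit 5) (nat_lit 98) (nat_lit 5) (nat_lit 96) (nat_lit 4) (nat_lit 454) (nat_lit 395) (nat_lit 351)))) (XT.nd (nat_lit 156) (nat_lit 380) (nat_lit 0) (XT.nd (nat_lit 78) (nat_lit 152) (nat_lit 0) (XT.lf (nat_lit 0) (nat_lit 3725192673) (nat_lit 228) (nat_lit 3228566408) (nat_lit 76) (nat_lit 12184494828) (nat_lit 92) (nat_lit 5) (nat_lit 95) (nat_lit 5) (nat_lit 93) (nat_lit 5) (nat_lit 455) (nat_lit 395) (nat_lit 350)) (XT.lf (nat_lit 0) (nat_lit 14020944567) (nat_lit 228) (nat_lit 1441182523) (nat_lit 76) (nat_lit 4280803691) (nat_lit 90) (nat_lit 5) (nat_lit 93) (nat_lit 5) (nat_lit 91) (nat_lit 4) (nat_lit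 456) (nat_lit 395) (nat_lit 349))) (XT.nd (nat_lit 78) (nat_lit 76) (nat_lit 0) (XT.lf (nat_lit 0) (nat_lit 336272206) (nat_lit 152) (nat_lit 4238120748) (nat_lit 228) (nat_lit 15795936469) (nat_lit 86) (nat_lit 5) (nat_lit 88) (nat_lit 5) (nat_lit 89) (nat_lit 5) (nat_lit 457) (nat_lit 395) (nat_lit 348)) (XT.lf (nat_lit 0) (nat_lit 2103049902) (nat_lit 76) (nat_lit 13392415587) (nat_lit 152) (nat_lit 5525088367) (nat_lit 85) (nat_lit 5) (nat_lit 86) (nat_lit 5) (nat_lit 87) (nat_lit 4) (nat_lit 458) (nat_lit 395) (nat_lit 347))))))))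
noncomputable def xc39 : XT := (XT.nd (nat_lit 2028) (nat_lit 1368) (nat_lit 0) (XT.nd (nat_lit 1014) (nat_lit 1292) (nat_lit 0) (XT.nd (nat_lit 468) (nat_lit 988) (nat_lit 0) (XT.nd (nat_lit 234) (nat_lit 380) (nat_lit 0) (XT.nd (nat_lit 78) (nat_lit 304) (nat_lit 0) (XT.lf (nat_lit 0) (nat_lit 3862354866) (nat_lit 152) (nat_lit 1483264622) (nat_lit 228) (nat_lit 16350486731) (nat_lit 82) (nat_lit 5) (nat_lit 84) (nat_lit 5) (nat_lit 85) (nat_lit 5) (nat_lit 459) (nat_lit 395) (nat_lit 346)) (XT.nd (nat_lit 78) (nat_lit 228) (nat_lit 0) (XT.lf (nat_lit 0) (nat_lit 5538428838) (nat_lit 76) (nat_lit 11367018723) (nat_lit 152) (nat_lit 5490553610) (nat_lit 81) (nat_lit 5) (nat_lit 82) (nat_lit 5) (nat_lit 83) (nat_lit 4) (nat_lit 460) (nat_lit 395) (nat_lit 345)) (XT.lf (nat_lit 0) (nat_lit 5983584952) (nat_lit 228) (nat_lit 15921823587) (nat_lit 76) (nat_lit 1218181442) (nat_lit 78) (nat_lit 5)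 (nat_lit 81) (nat_lit 5) (nat_lit 79) (nat_lit 4) (nat_lit 461) (nat_lit 395) (nat_lit 344)))) (XT.nd (nat_lit 78) (nat_lit 304) (nat_lit 0) (XT.lf (nat_lit 0) (nat_lit 8756579668) (nat_lit 76) (nat_lit 9443489633) (nat_lit 152) (nat_lit 5677393770) (nat_lit 77) (nat_lit 5) (nat_lit 78) (nat_lit 5) (nat_lit 79) (nat_lit 4) (nat_lit 462) (nat_lit 395) (nat_lit 343)) (XT.nd (nat_lit 78) (nat_lit 76) (nat_lit 0) (XT.lf (nat_lit 0) (nat_lit 6445141438) (nat_lit 228) (nat_lit 14396805818) (nat_lit 76) (nat_lit 3818924264) (nat_lit 74) (nat_lit 5) (nat_lit 77) (nat_lit 5) (nat_lit 75) (nat_lit 4) (nat_lit 463) (nat_lit 395) (nat_lit 342)) (XT.lf (nat_lit 0) (nat_lit 11658706181) (nat_lit 76) (nat_lit 7674178489) (nat_lit 152) (nat_lit 6140585694) (nat_lit 73) (nat_lit 5) (nat_lit 74) (nat_lit 5) (nat_lit 75) (nat_lit 4) (nat_lit 464) (nat_lit 395) (nat_lit 341))))) (XT.nd (nat_lit 234) (nat_lit 456)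 (nat_lit 0) (XT.nd (nat_lit 78) (nat_lit 304) (nat_lit 0) (XT.lf (nat_lit 0) (nat_lit 6659878637) (nat_lit 228) (nat_lit 13362562820) (nat_lit 76) (nat_lit 6294898903) (nat_lit 70) (nat_lit 5) (nat_lit 73) (nat_lit 5) (nat_lit 71) (nat_lit 4) (nat_lit 465) (nat_lit 395) (nat_lit 340)) (XT.nd (nat_lit 78) (nat_lit 228) (nat_lit 0) (XT.lf (nat_lit 0) (nat_lit 14123116515) (nat_lit 76) (nat_lit 6122751500) (nat_lit 152) (nat_lit 6947538076) (nat_lit 69) (nat_lit 5) (nat_lit 70) (nat_lit 5) (nat_lit 71) (nat_lit 4) (nat_lit 466) (nat_lit 395) (nat_lit 339)) (XT.lf (nat_lit 0) (nat_lit 6558649666) (nat_lit 228) (nat_lit 12963032657) (nat_lit 76) (nat_lit 8581180408) (nat_lit 66) (nat_lit 5) (nat_lit 69) (nat_lit 5) (nat_lit 67) (nat_lit 4) (nat_lit 467) (nat_lit 395) (nat_lit 338)))) (XT.nd (nat_lit 156) (nat_lit 228) (nat_lit 0) (XT.nd (nat_lit 78) (nat_lit 152) (nat_lit 0) (XT.lf (nat_lit 0) (nat_lit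 16000755789) (nat_lit 76) (nat_lit 4866494581) (nat_lit 152) (nat_lit 8180355522) (nat_lit 65) (nat_lit 5) (nat_lit 66) (nat_lit 5) (nat_lit 67) (nat_lit 4) (nat_lit 468) (nat_lit 395) (nat_lit 337)) (XT.lf (nat_lit 0) (nat_lit 6056917576) (nat_lit 152) (nat_lit 13372900749) (nat_lit 76) (nat_lit 10598498993) (nat_lit 63) (nat_lit 5) (nat_lit 65) (nat_lit 5) (nat_lit 64) (nat_lit 4) (nat_lit 469) (nat_lit 395) (nat_lit 336))) (XT.nd (nat_lit 78) (nat_lit 152) (nat_lit 0) (XT.lf (nat_lit 0) (nat_lit 17109944286) (nat_lit 76) (nat_lit 3999015667) (nat_lit 152) (nat_lit 9938512790) (nat_lit 62) (nat_lit 5) (nat_lit 63) (nat_lit 5) (nat_lit 64) (nat_lit 4) (nat_lit 470) (nat_lit 395) (nat_lit 335)) (XT.lf (nat_lit 0) (nat_lit 5051926016) (nat_lit 152) (nat_lit 14803404454) (nat_lit 76) (nat_lit 12250388358) (nat_lit 60) (nat_lit 5) (nat_lit 62) (nat_lit 5) (nat_lit 61) (nat_lit 4) (nat_lit 471) (nat_lit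 395) (nat_lit 334)))))) (XT.nd (nat_lit 468) (nat_lit 684) (nat_lit 0) (XT.nd (nat_lit 234) (nat_lit 304) (nat_lit 0) (XT.nd (nat_lit 78) (nat_lit 228) (nat_lit 0) (XT.lf (nat_lit 0) (nat_lit 17230182141) (nat_lit 76) (nat_lit 3633416760) (nat_lit 152) (nat_lit 12342009377) (nat_lit 59) (nat_lit 5) (nat_lit 60) (nat_lit 5) (nat_lit 61) (nat_lit 4) (nat_lit 472) (nat_lit 395) (nat_lit 333)) (XT.nd (nat_lit 78) (nat_lit 76) (nat_lit 0) (XT.lf (nat_lit 0) (nat_lit 3419361561) (nat_lit 152) (nat_lit 17509162209) (nat_lit 76) (nat_lit 13419835769) (nat_lit 57) (nat_lit 5) (nat_lit 59) (nat_lit 5) (nat_lit 58) (nat_lit 4) (nat_lit 473) (nat_lit 395) (nat_lit 332)) (XT.lf (nat_lit 0) (nat_lit 16094857754) (nat_lit 76) (nat_lit 3906018774) (nat_lit 152) (nat_lit 15535086755) (nat_lit 56) (nat_lit 5) (nat_lit 57) (nat_lit 5) (nat_lit 58) (nat_lit 4) (nat_lit 474) (nat_lit 395) (nat_lit 331)))) (XT.nd (nat_lit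 78) (nat_lit 152) (nat_lit 0) (XT.lf (nat_lit 0) (nat_lit 1009420440) (nat_lit 152) (nat_lit 21796205305) (nat_lit 76) (nat_lit 13965345891) (nat_lit 54) (nat_lit 5) (nat_lit 56) (nat_lit 5) (nat_lit 55) (nat_lit 4) (nat_lit 475) (nat_lit 395) (nat_lit 330)) (XT.nd (nat_lit 78) (nat_lit 76) (nat_lit 0) (XT.lf (nat_lit 0) (nat_lit 13382669339) (nat_lit 76) (nat_lit 4980736281) (nat_lit 152) (nat_lit 19690604740) (nat_lit 53) (nat_lit 5) (nat_lit 54) (nat_lit 5) (nat_lit 55) (nat_lit 4) (nat_lit 476) (nat_lit 395) (nat_lit 329)) (XT.lf (nat_lit 0) (nat_lit 11334683464) (nat_lit 76) (nat_lit 25649788695) (nat_lit 76) (nat_lit 2404747968) (nat_lit 52) (nat_lit 4) (nat_lit 53) (nat_lit 5) (nat_lit 53) (nat_lit 4) (nat_lit 477) (nat_lit 395) (nat_lit 328))))) (XT.nd (nat_lit 234) (nat_lit 304) (nat_lit 0) (XT.nd (nat_lit 78) (nat_lit 228) (nat_lit 0) (XT.lf (nat_lit 0) (nat_lit 8707536453) (nat_lit 76)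 (nat_lit 7054215764) (nat_lit 152) (nat_lit 25015190056) (nat_lit 50) (nat_lit 5) (nat_lit 51) (nat_lit 5) (nat_lit 52) (nat_lit 4) (nat_lit 478) (nat_lit 395) (nat_lit 327)) (XT.nd (nat_lit 78) (nat_lit 152) (nat_lit 0) (XT.lf (nat_lit 0) (nat_lit 5500080295) (nat_lit 76) (nat_lit 29686130731) (nat_lit 76) (nat_lit 7035144695) (nat_lit 49) (nat_lit 4) (nat_lit 50) (nat_lit 5) (nat_lit 50) (nat_lit 4) (nat_lit 479) (nat_lit 395) (nat_lit 326)) (XT.lf (nat_lit 0) (nat_lit 1606740261) (nat_lit 76) (nat_lit 10361870229) (nat_lit 152) (nat_lit 31755289546) (nat_lit 47) (nat_lit 5) (nat_lit 48) (nat_lit 5) (nat_lit 49) (nat_lit 4) (nat_lit 480) (nat_lit 395) (nat_lit 325)))) (XT.nd (nat_lit 156) (nat_lit 152) (nat_lit 0) (XT.nd (nat_lit 78) (nat_lit 152) (nat_lit 0) (XT.lf (nat_lit 0) (nat_lit 32192685666) (nat_lit 152) (nat_lit 2965968520) (nat_lit 0) (nat_lit 10128359281) (nat_lit 47) (nat_lit 5)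 (nat_lit 49) (nat_lit 4) (nat_lit 47) (nat_lit 4) (nat_lit 481) (nat_lit 395) (nat_lit 324)) (XT.lf (nat_lit 0) (nat_lit 6793400135) (nat_lit 152) (nat_lit 8307674310) (nat_lit 76) (nat_lit 31812717654) (nat_lit 45) (nat_lit 5) (nat_lit 47) (nat_lit 5) (nat_lit 46) (nat_lit 4) (nat_lit 482) (nat_lit 395) (nat_lit 323))) (XT.nd (nat_lit 78) (nat_lit 76) (nat_lit 0) (XT.lf (nat_lit 0) (nat_lit 27768838272) (nat_lit 152) (nat_lit 14555449299) (nat_lit 0) (nat_lit 6282809039) (nat_lit 44) (nat_lit 5) (nat_lit 46) (nat_lit 4) (nat_lit 44) (nat_lit 4) (nat_lit 483) (nat_lit 395) (nat_lit 322)) (XT.lf (nat_lit 0) (nat_lit 28611285286) (nat_lit 76) (nat_lit 21638010088) (nat_lit 76) (nat_lit 122083931) (nat_lit 43) (nat_lit 4) (nat_lit 44) (nat_lit 5) (nat_lit 44) (nat_lit 4) (nat_lit 484) (nat_lit 395) (nat_lit 321))))))) (XT.nd (nat_lit 1014) (nat_lit 152) (nat_lit 0) (XT.nd (nat_lit 468) (nat_lit 608)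 (nat_lit 0) (XT.nd (nat_lit 234) (nat_lit 228) (nat_lit 0) (XT.nd (nat_lit 78) (nat_lit 228) (nat_lit 0) (XT.lf (nat_lit 0) (nat_lit 21521370342) (nat_lit 152) (nat_lit 30082384387) (nat_lit 0) (nat_lit 604477701) (nat_lit 41) (nat_lit 5) (nat_lit 43) (nat_lit 4) (nat_lit 41) (nat_lit 4) (nat_lit 485) (nat_lit 395) (nat_lit 320)) (XT.nd (nat_lit 78) (nat_lit 152) (nat_lit 0) (XT.lf (nat_lit 0) (nat_lit 14481756501) (nat_lit 76) (nat_lit 30291249979) (nat_lit 76) (nat_lit 9348029774) (nat_lit 40) (nat_lit 4) (nat_lit 41) (nat_lit 5) (nat_lit 41) (nat_lit 4) (nat_lit 486) (nat_lit 395) (nat_lit 319)) (XT.lf (nat_lit 0) (nat_lit 5656821197) (nat_lit 76) (nat_lit 7458999135) (nat_lit 152) (nat_lit 43000508275) (nat_lit 38) (nat_lit 5) (nat_lit 39) (nat_lit 5) (nat_lit 40) (nat_lit 4) (nat_lit 487) (nat_lit 395) (nat_lit 318)))) (XT.nd (nat_lit 78) (nat_lit 228) (nat_lit 0) (XT.lf (nat_lit 0) (nat_lit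 37029017142) (nat_lit 152) (nat_lit 4515741774) (nat_lit 0) (nat_lit 16648265729) (nat_lit 38) (nat_lit 5) (nat_lit 40) (nat_lit 4) (nat_lit 38) (nat_lit 4) (nat_lit 488) (nat_lit 395) (nat_lit 317)) (XT.nd (nat_lit 78) (nat_lit 76) (nat_lit 0) (XT.lf (nat_lit 0) (nat_lit 2185979185) (nat_lit 152) (nat_lit 15965293995) (nat_lit 76) (nat_lit 42208091108) (nat_lit 36) (nat_lit 5) (nat_lit 38) (nat_lit 5) (nat_lit 37) (nat_lit 4) (nat_lit 489) (nat_lit 395) (nat_lit 316)) (XT.lf (nat_lit 0) (nat_lit 26656609368) (nat_lit 152) (nat_lit 29131781545) (nat_lit 0) (nat_lit 6827618465) (nat_lit 35) (nat_lit 5) (nat_lit 37) (nat_lit 4) (nat_lit 35) (nat_lit 4) (nat_lit 490) (nat_lit 395) (nat_lit 315))))) (XT.nd (nat_lit 234) (nat_lit 380) (nat_lit 0) (XT.nd (nat_lit 78) (nat_lit 152) (nat_lit 0) (XT.lf (nat_lit 0) (nat_lit 20885240487) (nat_lit 76) (nat_lit 31966821420) (nat_lit 76) (nat_lit 12118386332)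 (nat_lit 34) (nat_lit 4) (nat_lit 35) (nat_lit 5) (nat_lit 35) (nat_lit 4) (nat_lit 491) (nat_lit 395) (nat_lit 314)) (XT.nd (nat_lit 78) (nat_lit 0) (nat_lit 0) (XT.lf (nat_lit 0) (nat_lit 6482711494) (nat_lit 76) (nat_lit 6497418975) (nat_lit 152) (nat_lit 54449230551) (nat_lit 32) (nat_lit 5) (nat_lit 33) (nat_lit 5) (nat_lit 34) (nat_lit 4) (nat_lit 492) (nat_lit 395) (nat_lit 313)) (XT.lf (nat_lit 0) (nat_lit 39691436682) (nat_lit 152) (nat_lit 9911919055) (nat_lit 0) (nat_lit 20386009683) (nat_lit 32) (nat_lit 5) (nat_lit 34) (nat_lit 4) (nat_lit 32) (nat_lit 4) (nat_lit 493) (nat_lit 395) (nat_lit 312)))) (XT.nd (nat_lit 156) (nat_lit 152) (nat_lit 0) (XT.nd (nat_lit 78) (nat_lit 152) (nat_lit 0) (XT.lf (nat_lit 0) (nat_lit 44386369378) (nat_lit 76) (nat_lit 23799651933) (nat_lit 76) (nat_lit 4477917538) (nat_lit 31) (nat_lit 4) (nat_lit 32) (nat_lit 5) (nat_lit 32) (nat_lit 4) (nat_lit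 494) (nat_lit 395) (nat_lit 311)) (XT.lf (nat_lit 0) (nat_lit 22540998473) (nat_lit 152) (nat_lit 49147274504) (nat_lit 0) (nat_lit 3766954542) (nat_lit 29) (nat_lit 5) (nat_lit 31) (nat_lit 4) (nat_lit 29) (nat_lit 4) (nat_lit 495) (nat_lit 395) (nat_lit 310))) (XT.nd (nat_lit 78) (nat_lit 76) (nat_lit 0) (XT.lf (nat_lit 0) (nat_lit 5571310033) (nat_lit 76) (nat_lit 45792735616) (nat_lit 76) (nat_lit 27004331209) (nat_lit 28) (nat_lit 4) (nat_lit 29) (nat_lit 5) (nat_lit 29) (nat_lit 4) (nat_lit 496) (nat_lit 395) (nat_lit 309)) (XT.lf (nat_lit 0) (nat_lit 666093699) (nat_lit 152) (nat_lit 17449910839) (nat_lit 76) (nat_lit 63297052640) (nat_lit 27) (nat_lit 5) (nat_lit 29) (nat_lit 5) (nat_lit 28) (nat_lit 4) (nat_lit 497) (nat_lit 395) (nat_lit 308)))))) (XT.nd (nat_lit 55848) (nat_lit 0) (nat_lit 19228) (XT.nd (nat_lit 55536) (nat_lit 0) (nat_lit 26980) (XT.nd (nat_lit 78) (nat_lit 76) (nat_lit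 0) (XT.lf (nat_lit 0) (nat_lit 29633410466) (nat_lit 152) (nat_lit 43588067418) (nat_lit 0) (nat_lit 11366316850) (nat_lit 26) (nat_lit 5) (nat_lit 28) (nat_lit 4) (nat_lit 26) (nat_lit 4) (nat_lit 498) (nat_lit 395) (nat_lit 307)) (XT.nd (nat_lit 55380) (nat_lit 0) (nat_lit 30096) (XT.lf (nat_lit 0) (nat_lit 14847383808) (nat_lit 76) (nat_lit 45669494683) (nat_lit 76) (nat_lit 27390357263) (nat_lit 25) (nat_lit 4) (nat_lit 26) (nat_lit 5) (nat_lit 26) (nat_lit 4) (nat_lit 499) (nat_lit 395) (nat_lit 306)) (XT.lf (nat_lit 0) (nat_lit 1680884926) (nat_lit 532) (nat_lit 816280996) (nat_lit 532) (nat_lit 816280996) (nat_lit 421) (nat_lit 4) (nat_lit 428) (nat_lit 5) (nat_lit 428) (nat_lit 4) (nat_lit 408) (nat_lit 396) (nat_lit 396)))) (XT.nd (nat_lit 156) (nat_lit 1672) (nat_lit 0) (XT.nd (nat_lit 78) (nat_lit 760) (nat_lit 0) (XT.lf (nat_lit 0) (nat_lit 3757285848) (nat_lit 684) (nat_lit 2877624518)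 (nat_lit 0) (nat_lit 42268343) (nat_lit 412) (nat_lit 5) (nat_lit 421) (nat_lit 4) (nat_lit 412) (nat_lit 4) (nat_lit 409) (nat_lit 396) (nat_lit 395)) (XT.lf (nat_lit 0) (nat_lit 2396628164) (nat_lit 760) (nat_lit 2387974241) (nat_lit 76) (nat_lit 1950316760) (nat_lit 402) (nat_lit 5) (nat_lit 412) (nat_lit 5) (nat_lit 403) (nat_lit 4) (nat_lit 410) (nat_lit 396) (nat_lit 394))) (XT.nd (nat_lit 78) (nat_lit 836) (nat_lit 0) (XT.lf (nat_lit 0) (nat_lit 892052197) (nat_lit 836) (nat_lit 1779616391) (nat_lit 76) (nat_lit 4129023684) (nat_lit 391) (nat_lit 5) (nat_lit 402) (nat_lit 5) (nat_lit 392) (nat_lit 5) (nat_lit 411) (nat_lit 396) (nat_lit 393)) (XT.lf (nat_lit 0) (nat_lit 5815600841) (nat_lit 836) (nat_lit 282174539) (nat_lit 912) (nat_lit 776619923) (nat_lit 380) (nat_lit 5) (nat_lit 391) (nat_lit 5) (nat_lit 392) (nat_lit 5) (nat_lit 412) (nat_lit 396) (nat_lit 392))))) (XT.nd (nat_lit 234)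 (nat_lit 3420) (nat_lit 0) (XT.nd (nat_lit 78) (nat_lit 3344) (nat_lit 0) (XT.lf (nat_lit 0) (nat_lit 4358587392) (nat_lit 988) (nat_lit 249728797) (nat_lit 76) (nat_lit 2347074419) (nat_lit 367) (nat_lit 5) (nat_lit 380) (nat_lit 5) (nat_lit 368) (nat_lit 5) (nat_lit 413) (nat_lit 396) (nat_lit 391)) (XT.nd (nat_lit 78) (nat_lit 1216) (nat_lit 0) (XT.lf (nat_lit 0) (nat_lit 689224018) (nat_lit 1064) (nat_lit 1787197970) (nat_lit 1140) (nat_lit 4567996772) (nat_lit 339) (nat_lit 5) (nat_lit 353) (nat_lit 5) (nat_lit 354) (nat_lit 5) (nat_lit 414) (nat_lit 396) (nat_lit 390)) (XT.lf (nat_lit 0) (nat_lit 452043134) (nat_lit 1216) (nat_lit 5397589258) (nat_lit 76) (nat_lit 1291801994) (nat_lit 323) (nat_lit 5) (nat_lit 339) (nat_lit 5) (nat_lit 324) (nat_lit 5) (nat_lit 415) (nat_lit 396) (nat_lit 389)))) (XT.nd (nat_lit 156) (nat_lit 1292) (nat_lit 0) (XT.nd (nat_lit 78) (nat_lit 912) (nat_lit 0)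 (XT.lf (nat_lit 0) (nat_lit 2886903469) (nat_lit 1216) (nat_lit 2608589603) (nat_lit 1292) (nat_lit 1750472634) (nat_lit 307) (nat_lit 5) (nat_lit 323) (nat_lit 5) (nat_lit 324) (nat_lit 5) (nat_lit 416) (nat_lit 396) (nat_lit 388)) (XT.lf (nat_lit 0) (nat_lit 3234455258) (nat_lit 912) (nat_lit 3217890082) (nat_lit 76) (nat_lit 906430612) (nat_lit 295) (nat_lit 5) (nat_lit 307) (nat_lit 5) (nat_lit 296) (nat_lit 5) (nat_lit 417) (nat_lit 396) (nat_lit 387))) (XT.nd (nat_lit 78) (nat_lit 608) (nat_lit 0) (XT.lf (nat_lit 0) (nat_lit 831154664) (nat_lit 684) (nat_lit 1985719582) (nat_lit 76) (nat_lit 4662758490) (nat_lit 286) (nat_lit 5) (nat_lit 295) (nat_lit 5) (nat_lit 287) (nat_lit 5) (nat_lit 418) (nat_lit 396) (nat_lit 386)) (XT.lf (nat_lit 0) (nat_lit 5837845536) (nat_lit 684) (nat_lit 662241312) (nat_lit 76) (nat_lit 1108581242) (nat_lit 278) (nat_lit 5) (nat_lit 287) (nat_lit 5) (nat_lit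 279) (nat_lit 5) (nat_lit 419) (nat_lit 396) (nat_lit 385))))))))
noncomputable def xc40 : XT := (XT.nd (nat_lit 2028) (nat_lit 4712) (nat_lit 0) (XT.nd (nat_lit 1014) (nat_lit 4180) (nat_lit 0) (XT.nd (nat_lit 468) (nat_lit 3192) (nat_lit 0) (XT.nd (nat_lit 234) (nat_lit 1976) (nat_lit 0) (XT.nd (nat_lit 78) (nat_lit 1140) (nat_lit 0) (XT.lf (nat_lit 0) (nat_lit 758885516) (nat_lit 608) (nat_lit 2448855432) (nat_lit 684) (nat_lit 4537796915) (nat_lit 262) (nat_lit 5) (nat_lit 270) (nat_lit 5) (nat_lit 271) (nat_lit 5) (nat_lit 420) (nat_lit 396) (nat_lit 384)) (XT.nd (nat_lit 78) (nat_lit 532) (nat_lit 0) (XT.lf (nat_lit 0) (nat_lit 420356350) (nat_lit 608) (nat_lit 5592418385) (nat_lit 76) (nat_lit 1878210325) (nat_lit 254) (nat_lit 5) (nat_lit 262) (nat_lit 5) (nat_lit 255) (nat_lit 5) (nat_lit 421) (nat_lit 396) (nat_lit 383)) (XT.lf (nat_lit 0) (nat_lit 3913834828) (nat_lit 532) (nat_lit 1548636183)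 (nat_lit 608) (nat_lit 2582007361) (nat_lit 247) (nat_lit 5) (nat_lit 254) (nat_lit 5) (nat_lit 255) (nat_lit 5) (nat_lit 422) (nat_lit 396) (nat_lit 382)))) (XT.nd (nat_lit 78) (nat_lit 1444) (nat_lit 0) (XT.lf (nat_lit 0) (nat_lit 2444486256) (nat_lit 532) (nat_lit 2585970008) (nat_lit 76) (nat_lit 3176175059) (nat_lit 240) (nat_lit 5) (nat_lit 247) (nat_lit 5) (nat_lit 241) (nat_lit 5) (nat_lit 423) (nat_lit 396) (nat_lit 381)) (XT.nd (nat_lit 78) (nat_lit 988) (nat_lit 0) (XT.lf (nat_lit 0) (nat_lit 7433842968) (nat_lit 456) (nat_lit 172097194) (nat_lit 532) (nat_lit 772090214) (nat_lit 234) (nat_lit 5) (nat_lit 240) (nat_lit 5) (nat_lit 241) (nat_lit 5) (nat_lit 424) (nat_lit 396) (nat_lit 380)) (XT.lf (nat_lit 0) (nat_lit 762069792) (nat_lit 456) (nat_lit 3602480813) (nat_lit 532) (nat_lit 4192647881) (nat_lit 221) (nat_lit 5) (nat_lit 227) (nat_lit 5) (nat_lit 228) (nat_lit 5) (nat_lit 425)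 (nat_lit 396) (nat_lit 379))))) (XT.nd (nat_lit 234) (nat_lit 1824) (nat_lit 0) (XT.nd (nat_lit 78) (nat_lit 912) (nat_lit 0) (XT.lf (nat_lit 0) (nat_lit 941444307) (nat_lit 456) (nat_lit 6151030593) (nat_lit 76) (nat_lit 1653429172) (nat_lit 215) (nat_lit 5) (nat_lit 221) (nat_lit 5) (nat_lit 216) (nat_lit 5) (nat_lit 426) (nat_lit 396) (nat_lit 378)) (XT.nd (nat_lit 78) (nat_lit 456) (nat_lit 0) (XT.lf (nat_lit 0) (nat_lit 4493077852) (nat_lit 456) (nat_lit 1733697245) (nat_lit 532) (nat_lit 2716600565) (nat_lit 209) (nat_lit 5) (nat_lit 215) (nat_lit 5) (nat_lit 216) (nat_lit 5) (nat_lit 427) (nat_lit 396) (nat_lit 377)) (XT.lf (nat_lit 0) (nat_lit 2563745582) (nat_lit 456) (nat_lit 2676806774) (nat_lit 76) (nat_lit 3909743784) (nat_lit 203) (nat_lit 5) (nat_lit 209) (nat_lit 5) (nat_lit 204) (nat_lit 5) (nat_lit 428) (nat_lit 396) (nat_lit 376)))) (XT.nd (nat_lit 156) (nat_lit 684) (nat_lit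 0) (XT.nd (nat_lit 78) (nat_lit 760) (nat_lit 0) (XT.lf (nat_lit 0) (nat_lit 8033545727) (nat_lit 456) (nat_lit 815737938) (nat_lit 76) (nat_lit 518035260) (nat_lit 198) (nat_lit 5) (nat_lit 204) (nat_lit 5) (nat_lit 199) (nat_lit 5) (nat_lit 429) (nat_lit 396) (nat_lit 375)) (XT.lf (nat_lit 0) (nat_lit 1113164828) (nat_lit 380) (nat_lit 3016874203) (nat_lit 456) (nat_lit 5463058984) (nat_lit 188) (nat_lit 5) (nat_lit 193) (nat_lit 5) (nat_lit 194) (nat_lit 5) (nat_lit 430) (nat_lit 396) (nat_lit 374))) (XT.nd (nat_lit 78) (nat_lit 304) (nat_lit 0) (XT.lf (nat_lit 0) (nat_lit 21114367) (nat_lit 380) (nat_lit 6672661813) (nat_lit 76) (nat_lit 3135652525) (nat_lit 183) (nat_lit 5) (nat_lit 188) (nat_lit 5) (nat_lit 184) (nat_lit 5) (nat_lit 431) (nat_lit 396) (nat_lit 373)) (XT.lf (nat_lit 0) (nat_lit 5259401789) (nat_lit 304) (nat_lit 417760078) (nat_lit 380) (nat_lit 4398481482) (nat_lit 179) (nat_lit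 5) (nat_lit 183) (nat_lit 5) (nat_lit 184) (nat_lit 5) (nat_lit 432) (nat_lit 396) (nat_lit 372)))))) (XT.nd (nat_lit 468) (nat_lit 1976) (nat_lit 0) (XT.nd (nat_lit 234) (nat_lit 836) (nat_lit 0) (XT.nd (nat_lit 78) (nat_lit 988) (nat_lit 0) (XT.lf (nat_lit 0) (nat_lit 1302715510) (nat_lit 380) (nat_lit 2896370490) (nat_lit 76) (nat_lit 6133345374) (nat_lit 174) (nat_lit 5) (nat_lit 179) (nat_lit 5) (nat_lit 175) (nat_lit 5) (nat_lit 433) (nat_lit 396) (nat_lit 371)) (XT.nd (nat_lit 78) (nat_lit 684) (nat_lit 0) (XT.lf (nat_lit 0) (nat_lit 7219578358) (nat_lit 380) (nat_lit 911464077) (nat_lit 76) (nat_lit 2469071147) (nat_lit 170) (nat_lit 5) (nat_lit 175) (nat_lit 5) (nat_lit 171) (nat_lit 5) (nat_lit 434) (nat_lit 396) (nat_lit 370)) (XT.lf (nat_lit 0) (nat_lit 1168511837) (nat_lit 304) (nat_lit 1385984883) (nat_lit 380) (nat_lit 8324360112) (nat_lit 161) (nat_lit 5) (nat_lit 165) (nat_lit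 5) (nat_lit 166) (nat_lit 5) (nat_lit 435) (nat_lit 396) (nat_lit 369)))) (XT.nd (nat_lit 78) (nat_lit 608) (nat_lit 0) (XT.lf (nat_lit 0) (nat_lit 3320270982) (nat_lit 228) (nat_lit 5466591783) (nat_lit 304) (nat_lit 2381562896) (nat_lit 158) (nat_lit 5) (nat_lit 161) (nat_lit 5) (nat_lit 162) (nat_lit 5) (nat_lit 436) (nat_lit 396) (nat_lit 368)) (XT.nd (nat_lit 78) (nat_lit 228) (nat_lit 0) (XT.lf (nat_lit 0) (nat_lit 3825585365) (nat_lit 380) (nat_lit 5920814144) (nat_lit 76) (nat_lit 1723692580) (nat_lit 153) (nat_lit 5) (nat_lit 158) (nat_lit 5) (nat_lit 154) (nat_lit 5) (nat_lit 437) (nat_lit 396) (nat_lit 367)) (XT.lf (nat_lit 0) (nat_lit 7846633941) (nat_lit 228) (nat_lit 2520921771) (nat_lit 304) (nat_lit 1416373720) (nat_lit 150) (nat_lit 5) (nat_lit 153) (nat_lit 5) (nat_lit 154) (nat_lit 5) (nat_lit 438) (nat_lit 396) (nat_lit 366))))) (XT.nd (nat_lit 234) (nat_lit 912) (nat_lit 0)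 (XT.nd (nat_lit 78) (nat_lit 760) (nat_lit 0) (XT.lf (nat_lit 0) (nat_lit 5097472517) (nat_lit 304) (nat_lit 1915556491) (nat_lit 76) (nat_lit 5096729950) (nat_lit 146) (nat_lit 5) (nat_lit 150) (nat_lit 5) (nat_lit 147) (nat_lit 5) (nat_lit 439) (nat_lit 396) (nat_lit 365)) (XT.nd (nat_lit 78) (nat_lit 304) (nat_lit 0) (XT.lf (nat_lit 0) (nat_lit 202369443) (nat_lit 228) (nat_lit 11770136722) (nat_lit 304) (nat_lit 477015231) (nat_lit 140) (nat_lit 5) (nat_lit 143) (nat_lit 5) (nat_lit 144) (nat_lit 5) (nat_lit 440) (nat_lit 396) (nat_lit 364)) (XT.lf (nat_lit 0) (nat_lit 2367247486) (nat_lit 228) (nat_lit 4021045685) (nat_lit 304) (nat_lit 6412306774) (nat_lit 136) (nat_lit 5) (nat_lit 139) (nat_lit 5) (nat_lit 140) (nat_lit 5) (nat_lit 441) (nat_lit 396) (nat_lit 363)))) (XT.nd (nat_lit 156) (nat_lit 456) (nat_lit 0) (XT.nd (nat_lit 78) (nat_lit 152) (nat_lit 0) (XT.lf (nat_lit 0) (nat_lit 493487217)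 (nat_lit 304) (nat_lit 8540152107) (nat_lit 76) (nat_lit 4132823895) (nat_lit 132) (nat_lit 5) (nat_lit 136) (nat_lit 5) (nat_lit 133) (nat_lit 5) (nat_lit 442) (nat_lit 396) (nat_lit 362)) (XT.lf (nat_lit 0) (nat_lit 6925755547) (nat_lit 152) (nat_lit 777345523) (nat_lit 228) (nat_lit 5842884247) (nat_lit 130) (nat_lit 5) (nat_lit 132) (nat_lit 5) (nat_lit 133) (nat_lit 5) (nat_lit 443) (nat_lit 396) (nat_lit 361))) (XT.nd (nat_lit 78) (nat_lit 152) (nat_lit 0) (XT.lf (nat_lit 0) (nat_lit 1435567518) (nat_lit 304) (nat_lit 4657709884) (nat_lit 76) (nat_lit 7846843796) (nat_lit 126) (nat_lit 5) (nat_lit 130) (nat_lit 5) (nat_lit 127) (nat_lit 5) (nat_lit 444) (nat_lit 396) (nat_lit 360)) (XT.lf (nat_lit 0) (nat_lit 9053650526) (nat_lit 228) (nat_lit 2653900061) (nat_lit 76) (nat_lit 2641785464) (nat_lit 124) (nat_lit 5) (nat_lit 127) (nat_lit 5) (nat_lit 125) (nat_lit 5) (nat_lit 445) (nat_lit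 396) (nat_lit 359))))))) (XT.nd (nat_lit 1014) (nat_lit 1824) (nat_lit 0) (XT.nd (nat_lit 468) (nat_lit 1444) (nat_lit 0) (XT.nd (nat_lit 234) (nat_lit 532) (nat_lit 0) (XT.nd (nat_lit 78) (nat_lit 608) (nat_lit 0) (XT.lf (nat_lit 0) (nat_lit 2360100692) (nat_lit 304) (nat_lit 599703011) (nat_lit 76) (nat_lit 11814630870) (nat_lit 120) (nat_lit 5) (nat_lit 124) (nat_lit 5) (nat_lit 121) (nat_lit 5) (nat_lit 446) (nat_lit 396) (nat_lit 358)) (XT.nd (nat_lit 78) (nat_lit 228) (nat_lit 0) (XT.lf (nat_lit 0) (nat_lit 1505503352) (nat_lit 228) (nat_lit 8934912308) (nat_lit 304) (nat_lit 4774265164) (nat_lit 115) (nat_lit 5) (nat_lit 118) (nat_lit 5) (nat_lit 119) (nat_lit 5) (nat_lit 447) (nat_lit 396) (nat_lit 357)) (XT.lf (nat_lit 0) (nat_lit 3305376982) (nat_lit 228) (nat_lit 11977554581) (nat_lit 76) (nat_lit 389446207) (nat_lit 112) (nat_lit 5) (nat_lit 115) (nat_lit 5) (nat_lit 113) (nat_lit 5)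 (nat_lit 448) (nat_lit 396) (nat_lit 356)))) (XT.nd (nat_lit 78) (nat_lit 380) (nat_lit 0) (XT.lf (nat_lit 0) (nat_lit 5883085149) (nat_lit 152) (nat_lit 5985547343) (nat_lit 228) (nat_lit 4277561075) (nat_lit 110) (nat_lit 5) (nat_lit 112) (nat_lit 5) (nat_lit 113) (nat_lit 5) (nat_lit 449) (nat_lit 396) (nat_lit 355)) (XT.nd (nat_lit 78) (nat_lit 152) (nat_lit 0) (XT.lf (nat_lit 0) (nat_lit 4265604878) (nat_lit 228) (nat_lit 8508063263) (nat_lit 76) (nat_lit 3864873163) (nat_lit 107) (nat_lit 5) (nat_lit 110) (nat_lit 5) (nat_lit 108) (nat_lit 5) (nat_lit 450) (nat_lit 396) (nat_lit 354)) (XT.lf (nat_lit 0) (nat_lit 10412430126) (nat_lit 152) (nat_lit 2896228616) (nat_lit 228) (nat_lit 3840744069) (nat_lit 105) (nat_lit 5) (nat_lit 107) (nat_lit 5) (nat_lit 108) (nat_lit 5) (nat_lit 451) (nat_lit 396) (nat_lit 353))))) (XT.nd (nat_lit 234) (nat_lit 836) (nat_lit 0) (XT.nd (nat_lit 78) (nat_lit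 380) (nat_lit 0) (XT.lf (nat_lit 0) (nat_lit 5198595197) (nat_lit 228) (nat_lit 4970366963) (nat_lit 76) (nat_lit 7509959642) (nat_lit 102) (nat_lit 5) (nat_lit 105) (nat_lit 5) (nat_lit 103) (nat_lit 5) (nat_lit 452) (nat_lit 396) (nat_lit 352)) (XT.nd (nat_lit 78) (nat_lit 228) (nat_lit 0) (XT.lf (nat_lit 0) (nat_lit 14756340083) (nat_lit 228) (nat_lit 3158231874) (nat_lit 76) (nat_lit 314830326) (nat_lit 100) (nat_lit 5) (nat_lit 103) (nat_lit 5) (nat_lit 101) (nat_lit 4) (nat_lit 453) (nat_lit 396) (nat_lit 351)) (XT.lf (nat_lit 0) (nat_lit 6092434377) (nat_lit 228) (nat_lit 1392266977) (nat_lit 76) (nat_lit 11314242437) (nat_lit 97) (nat_lit 5) (nat_lit 100) (nat_lit 5) (nat_lit 98) (nat_lit 5) (nat_lit 454) (nat_lit 396) (nat_lit 350)))) (XT.nd (nat_lit 156) (nat_lit 304) (nat_lit 0) (XT.nd (nat_lit 78) (nat_lit 228) (nat_lit 0) (XT.lf (nat_lit 0) (nat_lit 423671088) (nat_lit 152) (nat_lit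 15806435371) (nat_lit 228) (nat_lit 3160854638) (nat_lit 93) (nat_lit 5) (nat_lit 95) (nat_lit 5) (nat_lit 96) (nat_lit 4) (nat_lit 455) (nat_lit 396) (nat_lit 349)) (XT.lf (nat_lit 0) (nat_lit 2233744712) (nat_lit 152) (nat_lit 4718110984) (nat_lit 228) (nat_lit 13052036423) (nat_lit 90) (nat_lit 5) (nat_lit 92) (nat_lit 5) (nat_lit 93) (nat_lit 5) (nat_lit 456) (nat_lit 396) (nat_lit 348))) (XT.nd (nat_lit 78) (nat_lit 228) (nat_lit 0) (XT.lf (nat_lit 0) (nat_lit 4049897734) (nat_lit 76) (nat_lit 13662262537) (nat_lit 152) (nat_lit 2928152582) (nat_lit 89) (nat_lit 5) (nat_lit 90) (nat_lit 5) (nat_lit 91) (nat_lit 4) (nat_lit 457) (nat_lit 396) (nat_lit 347)) (XT.lf (nat_lit 0) (nat_lit 5844735599) (nat_lit 152) (nat_lit 1901466051) (nat_lit 228) (nat_lit 13554296637) (nat_lit 86) (nat_lit 5) (nat_lit 88) (nat_lit 5) (nat_lit 89) (nat_lit 5) (nat_lit 458) (nat_lit 396) (nat_lit 346)))))) (XT.nd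 (nat_lit 468) (nat_lit 912) (nat_lit 0) (XT.nd (nat_lit 234) (nat_lit 532) (nat_lit 0) (XT.nd (nat_lit 78) (nat_lit 304) (nat_lit 0) (XT.lf (nat_lit 0) (nat_lit 7604454197) (nat_lit 76) (nat_lit 11543930329) (nat_lit 152) (nat_lit 2836800330) (nat_lit 85) (nat_lit 5) (nat_lit 86) (nat_lit 5) (nat_lit 87) (nat_lit 4) (nat_lit 459) (nat_lit 396) (nat_lit 345)) (XT.nd (nat_lit 78) (nat_lit 76) (nat_lit 0) (XT.lf (nat_lit 0) (nat_lit 8440960730) (nat_lit 228) (nat_lit 13351859953) (nat_lit 76) (nat_lit 903200662) (nat_lit 82) (nat_lit 5) (nat_lit 85) (nat_lit 5) (nat_lit 83) (nat_lit 4) (nat_lit 460) (nat_lit 396) (nat_lit 344)) (XT.lf (nat_lit 0) (nat_lit 11020354876) (nat_lit 76) (nat_lit 9488047529) (nat_lit 152) (nat_lit 2924622277) (nat_lit 81) (nat_lit 5) (nat_lit 82) (nat_lit 5) (nat_lit 83) (nat_lit 4) (nat_lit 461) (nat_lit 396) (nat_lit 343)))) (XT.nd (nat_lit 78) (nat_lit 304) (nat_lit 0)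 (XT.lf (nat_lit 0) (nat_lit 9007441203) (nat_lit 228) (nat_lit 11550288605) (nat_lit 76) (nat_lit 3640256760) (nat_lit 78) (nat_lit 5) (nat_lit 81) (nat_lit 5) (nat_lit 79) (nat_lit 4) (nat_lit 462) (nat_lit 396) (nat_lit 342)) (XT.nd (nat_lit 78) (nat_lit 228) (nat_lit 0) (XT.lf (nat_lit 0) (nat_lit 14213905846) (nat_lit 76) (nat_lit 7539347877) (nat_lit 152) (nat_lit 3238746500) (nat_lit 77) (nat_lit 5) (nat_lit 78) (nat_lit 5) (nat_lit 79) (nat_lit 4) (nat_lit 463) (nat_lit 396) (nat_lit 341)) (XT.lf (nat_lit 0) (nat_lit 9379509890) (nat_lit 228) (nat_lit 10134134116) (nat_lit 76) (nat_lit 6301870233) (nat_lit 74) (nat_lit 5) (nat_lit 77) (nat_lit 5) (nat_lit 75) (nat_lit 4) (nat_lit 464) (nat_lit 396) (nat_lit 340))))) (XT.nd (nat_lit 234) (nat_lit 532) (nat_lit 0) (XT.nd (nat_lit 78) (nat_lit 304) (nat_lit 0) (XT.lf (nat_lit 0) (nat_lit 17081330777) (nat_lit 76) (nat_lit 5752445304) (nat_lit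 152) (nat_lit 3837304656) (nat_lit 73) (nat_lit 5) (nat_lit 74) (nat_lit 5) (nat_lit 75) (nat_lit 4) (nat_lit 465) (nat_lit 396) (nat_lit 339)) (XT.nd (nat_lit 78) (nat_lit 76) (nat_lit 0) (XT.lf (nat_lit 0) (nat_lit 9497830571) (nat_lit 228) (nat_lit 9227487044) (nat_lit 76) (nat_lit 8832707986) (nat_lit 70) (nat_lit 5) (nat_lit 73) (nat_lit 5) (nat_lit 71) (nat_lit 4) (nat_lit 466) (nat_lit 396) (nat_lit 338)) (XT.lf (nat_lit 0) (nat_lit 19494793381) (nat_lit 76) (nat_lit 4193890164) (nat_lit 152) (nat_lit 4791445723) (nat_lit 69) (nat_lit 5) (nat_lit 70) (nat_lit 5) (nat_lit 71) (nat_lit 4) (nat_lit 467) (nat_lit 396) (nat_lit 337)))) (XT.nd (nat_lit 156) (nat_lit 228) (nat_lit 0) (XT.nd (nat_lit 78) (nat_lit 76) (nat_lit 0) (XT.lf (nat_lit 0) (nat_lit 9289455728) (nat_lit 228) (nat_lit 8981560710) (nat_lit 76) (nat_lit 11164874130) (nat_lit 66) (nat_lit 5) (nat_lit 69) (nat_lit 5) (nat_lit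 67) (nat_lit 4) (nat_lit 468) (nat_lit 396) (nat_lit 336)) (XT.lf (nat_lit 0) (nat_lit 21297709928) (nat_lit 76) (nat_lit 2944581099) (nat_lit 152) (nat_lit 6187717109) (nat_lit 65) (nat_lit 5) (nat_lit 66) (nat_lit 5) (nat_lit 67) (nat_lit 4) (nat_lit 469) (nat_lit 396) (nat_lit 335))) (XT.nd (nat_lit 78) (nat_lit 76) (nat_lit 0) (XT.lf (nat_lit 0) (nat_lit 8665307834) (nat_lit 152) (nat_lit 9579867001) (nat_lit 76) (nat_lit 13215366399) (nat_lit 63) (nat_lit 5) (nat_lit 65) (nat_lit 5) (nat_lit 64) (nat_lit 4) (nat_lit 470) (nat_lit 396) (nat_lit 334)) (XT.lf (nat_lit 0) (nat_lit 22299227159) (nat_lit 76) (nat_lit 2102596341) (nat_lit 152) (nat_lit 8130876015) (nat_lit 62) (nat_lit 5) (nat_lit 63) (nat_lit 5) (nat_lit 64) (nat_lit 4) (nat_lit 471) (nat_lit 396) (nat_lit 333))))))))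
noncomputable def xc41 : XT := (XT.nd (nat_lit 2028) (nat_lit 152) (nat_lit 0) (XT.nd (nat_lit 1014) (nat_lit 1216) (nat_lit 0) (XT.nd (nat_lit 468) (nat_lit 684) (nat_lit 0) (XT.nd (nat_lit 234) (nat_lit 304) (nat_lit 0) (XT.nd (nat_lit 78) (nat_lit 228) (nat_lit 0) (XT.lf (nat_lit 0) (nat_lit 7517205443) (nat_lit 152) (nat_lit 11244308658) (nat_lit 76) (nat_lit 14883087614) (nat_lit 60) (nat_lit 5) (nat_lit 62) (nat_lit 5) (nat_lit 61) (nat_lit 4) (nat_lit 472) (nat_lit 396) (nat_lit 332)) (XT.nd (nat_lit 78) (nat_lit 152) (nat_lit 0) (XT.lf (nat_lit 0) (nat_lit 22267719669) (nat_lit 76) (nat_lit 1786518980) (nat_lit 152) (nat_lit 10747204763) (nat_lit 59) (nat_lit 5) (nat_lit 60) (nat_lit 5) (nat_lit 61) (nat_lit 4) (nat_lit 473) (nat_lit 396) (nat_lit 331)) (XT.lf (nat_lit 0) (nat_lit 5714355905) (nat_lit 152) (nat_lit 14242347674) (nat_lit 76) (nat_lit 16045333282) (nat_lit 57) (nat_lit 5)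 (nat_lit 59) (nat_lit 5) (nat_lit 58) (nat_lit 4) (nat_lit 474) (nat_lit 396) (nat_lit 330)))) (XT.nd (nat_lit 78) (nat_lit 228) (nat_lit 0) (XT.lf (nat_lit 0) (nat_lit 20923135873) (nat_lit 76) (nat_lit 2139343321) (nat_lit 152) (nat_lit 14188416567) (nat_lit 56) (nat_lit 5) (nat_lit 57) (nat_lit 5) (nat_lit 58) (nat_lit 4) (nat_lit 475) (nat_lit 396) (nat_lit 329)) (XT.nd (nat_lit 78) (nat_lit 76) (nat_lit 0) (XT.lf (nat_lit 0) (nat_lit 3099222983) (nat_lit 152) (nat_lit 18895436767) (nat_lit 76) (nat_lit 16553663028) (nat_lit 54) (nat_lit 5) (nat_lit 56) (nat_lit 5) (nat_lit 55) (nat_lit 4) (nat_lit 476) (nat_lit 396) (nat_lit 328)) (XT.lf (nat_lit 0) (nat_lit 17927992470) (nat_lit 76) (nat_lit 3333064234) (nat_lit 152) (nat_lit 18636253090) (nat_lit 53) (nat_lit 5) (nat_lit 54) (nat_lit 5) (nat_lit 55) (nat_lit 4) (nat_lit 477) (nat_lit 396) (nat_lit 327))))) (XT.nd (nat_lit 234) (nat_lit 380)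 (nat_lit 0) (XT.nd (nat_lit 78) (nat_lit 228) (nat_lit 0) (XT.lf (nat_lit 0) (nat_lit 15706485768) (nat_lit 76) (nat_lit 25066370573) (nat_lit 76) (nat_lit 527634107) (nat_lit 52) (nat_lit 4) (nat_lit 53) (nat_lit 5) (nat_lit 53) (nat_lit 4) (nat_lit 478) (nat_lit 396) (nat_lit 326)) (XT.nd (nat_lit 78) (nat_lit 76) (nat_lit 0) (XT.lf (nat_lit 0) (nat_lit 12876783149) (nat_lit 76) (nat_lit 5574068675) (nat_lit 152) (nat_lit 24307892530) (nat_lit 50) (nat_lit 5) (nat_lit 51) (nat_lit 5) (nat_lit 52) (nat_lit 4) (nat_lit 479) (nat_lit 396) (nat_lit 325)) (XT.lf (nat_lit 0) (nat_lit 9440219882) (nat_lit 76) (nat_lit 29367800408) (nat_lit 76) (nat_lit 5468514281) (nat_lit 49) (nat_lit 4) (nat_lit 50) (nat_lit 5) (nat_lit 50) (nat_lit 4) (nat_lit 480) (nat_lit 396) (nat_lit 324)))) (XT.nd (nat_lit 156) (nat_lit 152) (nat_lit 0) (XT.nd (nat_lit 78) (nat_lit 76) (nat_lit 0) (XT.lf (nat_lit 0) (nat_lit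 5283527244) (nat_lit 76) (nat_lit 9109468852) (nat_lit 152) (nat_lit 31462307367) (nat_lit 47) (nat_lit 5) (nat_lit 48) (nat_lit 5) (nat_lit 49) (nat_lit 4) (nat_lit 481) (nat_lit 396) (nat_lit 323)) (XT.lf (nat_lit 0) (nat_lit 353801241) (nat_lit 76) (nat_lit 35207133149) (nat_lit 76) (nat_lit 11937659010) (nat_lit 46) (nat_lit 4) (nat_lit 47) (nat_lit 5) (nat_lit 47) (nat_lit 4) (nat_lit 482) (nat_lit 396) (nat_lit 322))) (XT.nd (nat_lit 78) (nat_lit 76) (nat_lit 0) (XT.lf (nat_lit 0) (nat_lit 8853901435) (nat_lit 152) (nat_lit 5326848058) (nat_lit 76) (nat_lit 35027095895) (nat_lit 45) (nat_lit 5) (nat_lit 47) (nat_lit 5) (nat_lit 46) (nat_lit 4) (nat_lit 483) (nat_lit 396) (nat_lit 321)) (XT.lf (nat_lit 0) (nat_lit 30843529614) (nat_lit 152) (nat_lit 11949886547) (nat_lit 0) (nat_lit 8193436961) (nat_lit 44) (nat_lit 5) (nat_lit 46) (nat_lit 4) (nat_lit 44) (nat_lit 4) (nat_lit 484) (nat_lit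 396) (nat_lit 320)))))) (XT.nd (nat_lit 468) (nat_lit 608) (nat_lit 0) (XT.nd (nat_lit 234) (nat_lit 304) (nat_lit 0) (XT.nd (nat_lit 78) (nat_lit 152) (nat_lit 0) (XT.lf (nat_lit 0) (nat_lit 1527607485) (nat_lit 152) (nat_lit 19576166849) (nat_lit 76) (nat_lit 31736602057) (nat_lit 42) (nat_lit 5) (nat_lit 44) (nat_lit 5) (nat_lit 43) (nat_lit 4) (nat_lit 485) (nat_lit 396) (nat_lit 319)) (XT.nd (nat_lit 78) (nat_lit 76) (nat_lit 0) (XT.lf (nat_lit 0) (nat_lit 24217653007) (nat_lit 152) (nat_lit 28376504722) (nat_lit 0) (nat_lit 2175870355) (nat_lit 41) (nat_lit 5) (nat_lit 43) (nat_lit 4) (nat_lit 41) (nat_lit 4) (nat_lit 486) (nat_lit 396) (nat_lit 318)) (XT.lf (nat_lit 0) (nat_lit 18323829237) (nat_lit 76) (nat_lit 30260860640) (nat_lit 76) (nat_lit 8195198110) (nat_lit 40) (nat_lit 4) (nat_lit 41) (nat_lit 5) (nat_lit 41) (nat_lit 4) (nat_lit 487) (nat_lit 396) (nat_lit 317)))) (XT.nd (nat_lit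 78) (nat_lit 152) (nat_lit 0) (XT.lf (nat_lit 0) (nat_lit 8998989628) (nat_lit 76) (nat_lit 6314998006) (nat_lit 152) (nat_lit 43561877710) (nat_lit 38) (nat_lit 5) (nat_lit 39) (nat_lit 5) (nat_lit 40) (nat_lit 4) (nat_lit 488) (nat_lit 396) (nat_lit 316)) (XT.nd (nat_lit 78) (nat_lit 152) (nat_lit 0) (XT.lf (nat_lit 0) (nat_lit 40363285283) (nat_lit 152) (nat_lit 1797695338) (nat_lit 0) (nat_lit 18897202735) (nat_lit 38) (nat_lit 5) (nat_lit 40) (nat_lit 4) (nat_lit 38) (nat_lit 4) (nat_lit 489) (nat_lit 396) (nat_lit 315)) (XT.lf (nat_lit 0) (nat_lit 3749233723) (nat_lit 152) (nat_lit 13875165600) (nat_lit 76) (nat_lit 45709307113) (nat_lit 36) (nat_lit 5) (nat_lit 38) (nat_lit 5) (nat_lit 37) (nat_lit 4) (nat_lit 490) (nat_lit 396) (nat_lit 314))))) (XT.nd (nat_lit 234) (nat_lit 304) (nat_lit 0) (XT.nd (nat_lit 78) (nat_lit 228) (nat_lit 0) (XT.lf (nat_lit 0) (nat_lit 29414527665) (nat_lit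 152) (nat_lit 27753814134) (nat_lit 0) (nat_lit 8535708366) (nat_lit 35) (nat_lit 5) (nat_lit 37) (nat_lit 4) (nat_lit 35) (nat_lit 4) (nat_lit 491) (nat_lit 396) (nat_lit 313)) (XT.nd (nat_lit 78) (nat_lit 152) (nat_lit 0) (XT.lf (nat_lit 0) (nat_lit 24682807007) (nat_lit 76) (nat_lit 32195550946) (nat_lit 76) (nat_lit 11299095197) (nat_lit 34) (nat_lit 4) (nat_lit 35) (nat_lit 5) (nat_lit 35) (nat_lit 4) (nat_lit 492) (nat_lit 396) (nat_lit 312)) (XT.lf (nat_lit 0) (nat_lit 9508248767) (nat_lit 76) (nat_lit 5477712382) (nat_lit 152) (nat_lit 55774156991) (nat_lit 32) (nat_lit 5) (nat_lit 33) (nat_lit 5) (nat_lit 34) (nat_lit 4) (nat_lit 493) (nat_lit 396) (nat_lit 311)))) (XT.nd (nat_lit 156) (nat_lit 228) (nat_lit 0) (XT.nd (nat_lit 78) (nat_lit 76) (nat_lit 0) (XT.lf (nat_lit 0) (nat_lit 42980531429) (nat_lit 152) (nat_lit 7808288600) (nat_lit 0) (nat_lit 22660872064) (nat_lit 32) (nat_lit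 5) (nat_lit 34) (nat_lit 4) (nat_lit 32) (nat_lit 4) (nat_lit 494) (nat_lit 396) (nat_lit 310)) (XT.lf (nat_lit 0) (nat_lit 49130407951) (nat_lit 76) (nat_lit 23731586354) (nat_lit 76) (nat_lit 3397135699) (nat_lit 31) (nat_lit 4) (nat_lit 32) (nat_lit 5) (nat_lit 32) (nat_lit 4) (nat_lit 495) (nat_lit 396) (nat_lit 309))) (XT.nd (nat_lit 78) (nat_lit 76) (nat_lit 0) (XT.lf (nat_lit 0) (nat_lit 24922034498) (nat_lit 152) (nat_lit 49102156856) (nat_lit 0) (nat_lit 5166172753) (nat_lit 29) (nat_lit 5) (nat_lit 31) (nat_lit 4) (nat_lit 29) (nat_lit 4) (nat_lit 496) (nat_lit 396) (nat_lit 308)) (XT.lf (nat_lit 0) (nat_lit 8280623782) (nat_lit 76) (nat_lit 46869262466) (nat_lit 76) (nat_lit 27100375347) (nat_lit 28) (nat_lit 4) (nat_lit 29) (nat_lit 5) (nat_lit 29) (nat_lit 4) (nat_lit 497) (nat_lit 396) (nat_lit 307))))))) (XT.nd (nat_lit 56160) (nat_lit 0) (nat_lit 12692) (XT.nd (nat_lit 55614) (nat_lit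 0) (nat_lit 21280) (XT.nd (nat_lit 55380) (nat_lit 0) (nat_lit 29260) (XT.nd (nat_lit 78) (nat_lit 76) (nat_lit 0) (XT.lf (nat_lit 0) (nat_lit 1870540290) (nat_lit 152) (nat_lit 15984095446) (nat_lit 76) (nat_lit 67593935459) (nat_lit 27) (nat_lit 5) (nat_lit 29) (nat_lit 5) (nat_lit 28) (nat_lit 4) (nat_lit 498) (nat_lit 396) (nat_lit 306)) (XT.nd (nat_lit 55224) (nat_lit 0) (nat_lit 31084) (XT.lf (nat_lit 0) (nat_lit 32263188649) (nat_lit 152) (nat_lit 43472967962) (nat_lit 0) (nat_lit 13046580264) (nat_lit 26) (nat_lit 5) (nat_lit 28) (nat_lit 4) (nat_lit 26) (nat_lit 4) (nat_lit 499) (nat_lit 396) (nat_lit 305)) (XT.lf (nat_lit 0) (nat_lit 1495829474) (nat_lit 380) (nat_lit 888554775) (nat_lit 380) (nat_lit 888554775) (nat_lit 435) (nat_lit 4) (nat_lit 440) (nat_lit 5) (nat_lit 440) (nat_lit 4) (nat_lit 406) (nat_lit 397) (nat_lit 397)))) (XT.nd (nat_lit 78) (nat_lit 1292) (nat_lit 0) (XT.lf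 (nat_lit 0) (nat_lit 3051357255) (nat_lit 456) (nat_lit 490358227) (nat_lit 532) (nat_lit 3042792440) (nat_lit 428) (nat_lit 5) (nat_lit 434) (nat_lit 5) (nat_lit 435) (nat_lit 4) (nat_lit 407) (nat_lit 397) (nat_lit 396)) (XT.nd (nat_lit 78) (nat_lit 684) (nat_lit 0) (XT.lf (nat_lit 0) (nat_lit 2188032220) (nat_lit 608) (nat_lit 3402554054) (nat_lit 76) (nat_lit 1040161725) (nat_lit 420) (nat_lit 5) (nat_lit 428) (nat_lit 5) (nat_lit 421) (nat_lit 4) (nat_lit 408) (nat_lit 397) (nat_lit 395)) (XT.lf (nat_lit 0) (nat_lit 700637917) (nat_lit 684) (nat_lit 3159255637) (nat_lit 76) (nat_lit 2824877713) (nat_lit 411) (nat_lit 5) (nat_lit 420) (nat_lit 5) (nat_lit 412) (nat_lit 5) (nat_lit 409) (nat_lit 397) (nat_lit 394))))) (XT.nd (nat_lit 234) (nat_lit 5548) (nat_lit 0) (XT.nd (nat_lit 78) (nat_lit 1748) (nat_lit 0) (XT.lf (nat_lit 0) (nat_lit 3939475879) (nat_lit 684) (nat_lit 1858849335) (nat_lit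 760) (nat_lit 948219906) (nat_lit 402) (nat_lit 5) (nat_lit 411) (nat_lit 5) (nat_lit 412) (nat_lit 5) (nat_lit 410) (nat_lit 397) (nat_lit 393)) (XT.nd (nat_lit 78) (nat_lit 912) (nat_lit 0) (XT.lf (nat_lit 0) (nat_lit 4058354261) (nat_lit 836) (nat_lit 2348267706) (nat_lit 76) (nat_lit 409465391) (nat_lit 391) (nat_lit 5) (nat_lit 402) (nat_lit 5) (nat_lit 392) (nat_lit 5) (nat_lit 411) (nat_lit 397) (nat_lit 392)) (XT.lf (nat_lit 0) (nat_lit 2190806275) (nat_lit 912) (nat_lit 1791225228) (nat_lit 76) (nat_lit 2911205574) (nat_lit 379) (nat_lit 5) (nat_lit 391) (nat_lit 5) (nat_lit 380) (nat_lit 5) (nat_lit 412) (nat_lit 397) (nat_lit 391)))) (XT.nd (nat_lit 156) (nat_lit 3572) (nat_lit 0) (XT.nd (nat_lit 78) (nat_lit 988) (nat_lit 0) (XT.lf (nat_lit 0) (nat_lit 172124310) (nat_lit 988) (nat_lit 1116528802) (nat_lit 76) (nat_lit 5690018372) (nat_lit 366) (nat_lit 5) (nat_lit 379) (nat_lit 5)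 (nat_lit 367) (nat_lit 5) (nat_lit 413) (nat_lit 397) (nat_lit 390)) (XT.lf (nat_lit 0) (nat_lit 5044628788) (nat_lit 1064) (nat_lit 358278197) (nat_lit 76) (nat_lit 1668560090) (nat_lit 353) (nat_lit 5) (nat_lit 367) (nat_lit 5) (nat_lit 354) (nat_lit 5) (nat_lit 414) (nat_lit 397) (nat_lit 389))) (XT.nd (nat_lit 78) (nat_lit 1292) (nat_lit 0) (XT.lf (nat_lit 0) (nat_lit 513357419) (nat_lit 1140) (nat_lit 2283226220) (nat_lit 1216) (nat_lit 4375590917) (nat_lit 323) (nat_lit 5) (nat_lit 338) (nat_lit 5) (nat_lit 339) (nat_lit 5) (nat_lit 415) (nat_lit 397) (nat_lit 388)) (XT.lf (nat_lit 0) (nat_lit 401415768) (nat_lit 1292) (nat_lit 5777763016) (nat_lit 76) (nat_lit 1101904934) (nat_lit 306) (nat_lit 5) (nat_lit 323) (nat_lit 5) (nat_lit 307) (nat_lit 5) (nat_lit 416) (nat_lit 397) (nat_lit 387)))))) (XT.nd (nat_lit 546) (nat_lit 3572) (nat_lit 0) (XT.nd (nat_lit 234) (nat_lit 2888) (nat_lit 0)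 (XT.nd (nat_lit 78) (nat_lit 1292) (nat_lit 0) (XT.lf (nat_lit 0) (nat_lit 2571405865) (nat_lit 836) (nat_lit 2645781066) (nat_lit 912) (nat_lit 2180264301) (nat_lit 295) (nat_lit 5) (nat_lit 306) (nat_lit 5) (nat_lit 307) (nat_lit 5) (nat_lit 417) (nat_lit 397) (nat_lit 386)) (XT.nd (nat_lit 78) (nat_lit 608) (nat_lit 0) (XT.lf (nat_lit 0) (nat_lit 2587014683) (nat_lit 684) (nat_lit 3774811766) (nat_lit 76) (nat_lit 1160439962) (nat_lit 286) (nat_lit 5) (nat_lit 295) (nat_lit 5) (nat_lit 287) (nat_lit 5) (nat_lit 418) (nat_lit 397) (nat_lit 385)) (XT.lf (nat_lit 0) (nat_lit 5019582698) (nat_lit 608) (nat_lit 2440905148) (nat_lit 684) (nat_lit 194821111) (nat_lit 278) (nat_lit 5) (nat_lit 286) (nat_lit 5) (nat_lit 287) (nat_lit 5) (nat_lit 419) (nat_lit 397) (nat_lit 384)))) (XT.nd (nat_lit 156) (nat_lit 1596) (nat_lit 0) (XT.nd (nat_lit 78) (nat_lit 684) (nat_lit 0) (XT.lf (nat_lit 0) (nat_lit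 4600698048) (nat_lit 608) (nat_lit 1422515649) (nat_lit 76) (nat_lit 1773089131) (nat_lit 270) (nat_lit 5) (nat_lit 278) (nat_lit 5) (nat_lit 271) (nat_lit 5) (nat_lit 420) (nat_lit 397) (nat_lit 383)) (XT.lf (nat_lit 0) (nat_lit 1582389099) (nat_lit 684) (nat_lit 115148883) (nat_lit 76) (nat_lit 6248453151) (nat_lit 261) (nat_lit 5) (nat_lit 270) (nat_lit 5) (nat_lit 262) (nat_lit 5) (nat_lit 421) (nat_lit 397) (nat_lit 382))) (XT.nd (nat_lit 78) (nat_lit 532) (nat_lit 0) (XT.lf (nat_lit 0) (nat_lit 1294741147) (nat_lit 532) (nat_lit 5191452393) (nat_lit 608) (nat_lit 1617448892) (nat_lit 247) (nat_lit 5) (nat_lit 254) (nat_lit 5) (nat_lit 255) (nat_lit 5) (nat_lit 422) (nat_lit 397) (nat_lit 381)) (XT.lf (nat_lit 0) (nat_lit 2797609446) (nat_lit 456) (nat_lit 440930721) (nat_lit 532) (nat_lit 5031535559) (nat_lit 240) (nat_lit 5) (nat_lit 246) (nat_lit 5) (nat_lit 247) (nat_lit 5) (nat_lit 423)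 (nat_lit 397) (nat_lit 380))))) (XT.nd (nat_lit 234) (nat_lit 2052) (nat_lit 0) (XT.nd (nat_lit 78) (nat_lit 1064) (nat_lit 0) (XT.lf (nat_lit 0) (nat_lit 4380818545) (nat_lit 456) (nat_lit 3895697435) (nat_lit 532) (nat_lit 168670787) (nat_lit 234) (nat_lit 5) (nat_lit 240) (nat_lit 5) (nat_lit 241) (nat_lit 5) (nat_lit 424) (nat_lit 397) (nat_lit 379)) (XT.nd (nat_lit 78) (nat_lit 532) (nat_lit 0) (XT.lf (nat_lit 0) (nat_lit 4793368100) (nat_lit 532) (nat_lit 2587234915) (nat_lit 76) (nat_lit 1248469730) (nat_lit 227) (nat_lit 5) (nat_lit 234) (nat_lit 5) (nat_lit 228) (nat_lit 5) (nat_lit 425) (nat_lit 397) (nat_lit 378)) (XT.lf (nat_lit 0) (nat_lit 1137983534) (nat_lit 532) (nat_lit 1028829184) (nat_lit 76) (nat_lit 6655472376) (nat_lit 220) (nat_lit 5) (nat_lit 227) (nat_lit 5) (nat_lit 221) (nat_lit 5) (nat_lit 426) (nat_lit 397) (nat_lit 377)))) (XT.nd (nat_lit 156) (nat_lit 760) (nat_lit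 0) (XT.nd (nat_lit 78) (nat_lit 456) (nat_lit 0) (XT.lf (nat_lit 0) (nat_lit 605431560) (nat_lit 456) (nat_lit 5665803300) (nat_lit 532) (nat_lit 2753090431) (nat_lit 209) (nat_lit 5) (nat_lit 215) (nat_lit 5) (nat_lit 216) (nat_lit 5) (nat_lit 427) (nat_lit 397) (nat_lit 376)) (XT.lf (nat_lit 0) (nat_lit 2353280790) (nat_lit 380) (nat_lit 14812522) (nat_lit 456) (nat_lit 6867964969) (nat_lit 203) (nat_lit 5) (nat_lit 208) (nat_lit 5) (nat_lit 209) (nat_lit 5) (nat_lit 428) (nat_lit 397) (nat_lit 375))) (XT.nd (nat_lit 78) (nat_lit 380) (nat_lit 0) (XT.lf (nat_lit 0) (nat_lit 4155899956) (nat_lit 380) (nat_lit 3555490932) (nat_lit 456) (nat_lit 1745490735) (nat_lit 198) (nat_lit 5) (nat_lit 203) (nat_lit 5) (nat_lit 204) (nat_lit 5) (nat_lit 429) (nat_lit 397) (nat_lit 374)) (XT.lf (nat_lit 0) (nat_lit 3558713543) (nat_lit 380) (nat_lit 3647173990) (nat_lit 76) (nat_lit 2481926241) (nat_lit 193)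 (nat_lit 5) (nat_lit 198) (nat_lit 5) (nat_lit 194) (nat_lit 5) (nat_lit 430) (nat_lit 397) (nat_lit 373))))))))
noncomputable def xc42 : XT := (XT.nd (nat_lit 2028) (nat_lit 3572) (nat_lit 0) (XT.nd (nat_lit 1014) (nat_lit 2964) (nat_lit 0) (XT.nd (nat_lit 468) (nat_lit 2204) (nat_lit 0) (XT.nd (nat_lit 234) (nat_lit 988) (nat_lit 0) (XT.nd (nat_lit 78) (nat_lit 1064) (nat_lit 0) (XT.lf (nat_lit 0) (nat_lit 8015559873) (nat_lit 380) (nat_lit 1091870219) (nat_lit 456) (nat_lit 821891827) (nat_lit 188) (nat_lit 5) (nat_lit 193) (nat_lit 5) (nat_lit 194) (nat_lit 5) (nat_lit 431) (nat_lit 397) (nat_lit 372)) (XT.nd (nat_lit 78) (nat_lit 684) (nat_lit 0) (XT.lf (nat_lit 0) (nat_lit 4696063342) (nat_lit 380) (nat_lit 142580162) (nat_lit 76) (nat_lit 5341758448) (nat_lit 183) (nat_lit 5) (nat_lit 188) (nat_lit 5) (nat_lit 184) (nat_lit 5) (nat_lit 432) (nat_lit 397) (nat_lit 371)) (XT.lf (nat_lit 0)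 (nat_lit 65848991) (nat_lit 380) (nat_lit 8679745080) (nat_lit 76) (nat_lit 1697079123) (nat_lit 174) (nat_lit 5) (nat_lit 179) (nat_lit 5) (nat_lit 175) (nat_lit 5) (nat_lit 433) (nat_lit 397) (nat_lit 370)))) (XT.nd (nat_lit 78) (nat_lit 684) (nat_lit 0) (XT.lf (nat_lit 0) (nat_lit 3707116225) (nat_lit 304) (nat_lit 2123436046) (nat_lit 380) (nat_lit 4884371847) (nat_lit 170) (nat_lit 5) (nat_lit 174) (nat_lit 5) (nat_lit 175) (nat_lit 5) (nat_lit 434) (nat_lit 397) (nat_lit 369)) (XT.nd (nat_lit 78) (nat_lit 304) (nat_lit 0) (XT.lf (nat_lit 0) (nat_lit 918090706) (nat_lit 380) (nat_lit 5261134845) (nat_lit 76) (nat_lit 4819736566) (nat_lit 165) (nat_lit 5) (nat_lit 170) (nat_lit 5) (nat_lit 166) (nat_lit 5) (nat_lit 435) (nat_lit 397) (nat_lit 368)) (XT.lf (nat_lit 0) (nat_lit 6952425139) (nat_lit 380) (nat_lit 3460542651) (nat_lit 76) (nat_lit 881507565) (nat_lit 161) (nat_lit 5) (nat_lit 166)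 (nat_lit 5) (nat_lit 162) (nat_lit 5) (nat_lit 436) (nat_lit 397) (nat_lit 367))))) (XT.nd (nat_lit 234) (nat_lit 1064) (nat_lit 0) (XT.nd (nat_lit 78) (nat_lit 836) (nat_lit 0) (XT.lf (nat_lit 0) (nat_lit 1732319465) (nat_lit 304) (nat_lit 1604384964) (nat_lit 76) (nat_lit 8265136959) (nat_lit 157) (nat_lit 5) (nat_lit 161) (nat_lit 5) (nat_lit 158) (nat_lit 5) (nat_lit 437) (nat_lit 397) (nat_lit 366)) (XT.nd (nat_lit 78) (nat_lit 304) (nat_lit 0) (XT.lf (nat_lit 0) (nat_lit 310562211) (nat_lit 228) (nat_lit 7778782889) (nat_lit 304) (nat_lit 3831885019) (nat_lit 150) (nat_lit 5) (nat_lit 153) (nat_lit 5) (nat_lit 154) (nat_lit 5) (nat_lit 438) (nat_lit 397) (nat_lit 365)) (XT.lf (nat_lit 0) (nat_lit 2339514391) (nat_lit 228) (nat_lit 200558225) (nat_lit 304) (nat_lit 9713357147) (nat_lit 146) (nat_lit 5) (nat_lit 149) (nat_lit 5) (nat_lit 150) (nat_lit 5) (nat_lit 439) (nat_lit 397) (nat_lit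 364)))) (XT.nd (nat_lit 156) (nat_lit 532) (nat_lit 0) (XT.nd (nat_lit 78) (nat_lit 304) (nat_lit 0) (XT.lf (nat_lit 0) (nat_lit 4396991723) (nat_lit 228) (nat_lit 4866852622) (nat_lit 304) (nat_lit 3333888398) (nat_lit 143) (nat_lit 5) (nat_lit 146) (nat_lit 5) (nat_lit 147) (nat_lit 5) (nat_lit 440) (nat_lit 397) (nat_lit 363)) (XT.lf (nat_lit 0) (nat_lit 3375114149) (nat_lit 304) (nat_lit 6422861084) (nat_lit 76) (nat_lit 3158024012) (nat_lit 139) (nat_lit 5) (nat_lit 143) (nat_lit 5) (nat_lit 140) (nat_lit 5) (nat_lit 441) (nat_lit 397) (nat_lit 362))) (XT.nd (nat_lit 78) (nat_lit 304) (nat_lit 0) (XT.lf (nat_lit 0) (nat_lit 8733076472) (nat_lit 228) (nat_lit 1716787204) (nat_lit 304) (nat_lit 2878352577) (nat_lit 136) (nat_lit 5) (nat_lit 139) (nat_lit 5) (nat_lit 140) (nat_lit 5) (nat_lit 442) (nat_lit 397) (nat_lit 361)) (XT.lf (nat_lit 0) (nat_lit 4200451762) (nat_lit 304) (nat_lit 2739553779)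 (nat_lit 76) (nat_lit 6774174347) (nat_lit 132) (nat_lit 5) (nat_lit 136) (nat_lit 5) (nat_lit 133) (nat_lit 5) (nat_lit 443) (nat_lit 397) (nat_lit 360)))))) (XT.nd (nat_lit 468) (nat_lit 1444) (nat_lit 0) (XT.nd (nat_lit 234) (nat_lit 684) (nat_lit 0) (XT.nd (nat_lit 78) (nat_lit 684) (nat_lit 0) (XT.lf (nat_lit 0) (nat_lit 11669378550) (nat_lit 228) (nat_lit 811096270) (nat_lit 76) (nat_lit 1635244866) (nat_lit 130) (nat_lit 5) (nat_lit 133) (nat_lit 5) (nat_lit 131) (nat_lit 5) (nat_lit 444) (nat_lit 397) (nat_lit 359)) (XT.nd (nat_lit 78) (nat_lit 228) (nat_lit 0) (XT.lf (nat_lit 0) (nat_lit 1158503449) (nat_lit 152) (nat_lit 3869833163) (nat_lit 228) (nat_lit 9503039589) (nat_lit 124) (nat_lit 5) (nat_lit 126) (nat_lit 5) (nat_lit 127) (nat_lit 5) (nat_lit 445) (nat_lit 397) (nat_lit 358)) (XT.lf (nat_lit 0) (nat_lit 3208241946) (nat_lit 228) (nat_lit 9751515621) (nat_lit 304) (nat_lit 2003326994)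 (nat_lit 121) (nat_lit 5) (nat_lit 124) (nat_lit 5) (nat_lit 125) (nat_lit 5) (nat_lit 446) (nat_lit 397) (nat_lit 357)))) (XT.nd (nat_lit 78) (nat_lit 456) (nat_lit 0) (XT.lf (nat_lit 0) (nat_lit 5302710313) (nat_lit 152) (nat_lit 574292298) (nat_lit 228) (nat_lit 9534079936) (nat_lit 118) (nat_lit 5) (nat_lit 120) (nat_lit 5) (nat_lit 121) (nat_lit 5) (nat_lit 447) (nat_lit 397) (nat_lit 356)) (XT.nd (nat_lit 78) (nat_lit 228) (nat_lit 0) (XT.lf (nat_lit 0) (nat_lit 7430911663) (nat_lit 228) (nat_lit 6853936017) (nat_lit 304) (nat_lit 1590793086) (nat_lit 115) (nat_lit 5) (nat_lit 118) (nat_lit 5) (nat_lit 119) (nat_lit 5) (nat_lit 448) (nat_lit 397) (nat_lit 355)) (XT.lf (nat_lit 0) (nat_lit 6745516456) (nat_lit 228) (nat_lit 6755409036) (nat_lit 76) (nat_lit 2856730954) (nat_lit 112) (nat_lit 5) (nat_lit 115) (nat_lit 5) (nat_lit 113) (nat_lit 5) (nat_lit 449) (nat_lit 397) (nat_lit 354)))))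 (XT.nd (nat_lit 234) (nat_lit 912) (nat_lit 0) (XT.nd (nat_lit 78) (nat_lit 380) (nat_lit 0) (XT.lf (nat_lit 0) (nat_lit 11831404216) (nat_lit 152) (nat_lit 3803935596) (nat_lit 228) (nat_lit 1222875550) (nat_lit 110) (nat_lit 5) (nat_lit 112) (nat_lit 5) (nat_lit 113) (nat_lit 5) (nat_lit 450) (nat_lit 397) (nat_lit 353)) (XT.nd (nat_lit 78) (nat_lit 152) (nat_lit 0) (XT.lf (nat_lit 0) (nat_lit 7607985340) (nat_lit 228) (nat_lit 3309626782) (nat_lit 76) (nat_lit 6458900381) (nat_lit 107) (nat_lit 5) (nat_lit 110) (nat_lit 5) (nat_lit 108) (nat_lit 5) (nat_lit 451) (nat_lit 397) (nat_lit 352)) (XT.lf (nat_lit 0) (nat_lit 16395685042) (nat_lit 152) (nat_lit 611012257) (nat_lit 228) (nat_lit 909118571) (nat_lit 105) (nat_lit 5) (nat_lit 107) (nat_lit 5) (nat_lit 108) (nat_lit 5) (nat_lit 452) (nat_lit 397) (nat_lit 351)))) (XT.nd (nat_lit 156) (nat_lit 380) (nat_lit 0) (XT.nd (nat_lit 78) (nat_lit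 152) (nat_lit 0) (XT.lf (nat_lit 0) (nat_lit 216759478) (nat_lit 152) (nat_lit 8235329808) (nat_lit 228) (nat_lit 10020898709) (nat_lit 100) (nat_lit 5) (nat_lit 102) (nat_lit 5) (nat_lit 103) (nat_lit 5) (nat_lit 453) (nat_lit 397) (nat_lit 350)) (XT.lf (nat_lit 0) (nat_lit 2064081182) (nat_lit 152) (nat_lit 16372499241) (nat_lit 228) (nat_lit 615949781) (nat_lit 98) (nat_lit 5) (nat_lit 100) (nat_lit 5) (nat_lit 101) (nat_lit 4) (nat_lit 454) (nat_lit 397) (nat_lit 349))) (XT.nd (nat_lit 78) (nat_lit 152) (nat_lit 0) (XT.lf (nat_lit 0) (nat_lit 3857279053) (nat_lit 152) (nat_lit 5438243645) (nat_lit 228) (nat_lit 10356350029) (nat_lit 95) (nat_lit 5) (nat_lit 97) (nat_lit 5) (nat_lit 98) (nat_lit 5) (nat_lit 455) (nat_lit 397) (nat_lit 348)) (XT.lf (nat_lit 0) (nat_lit 5702003214) (nat_lit 152) (nat_lit 14186533825) (nat_lit 228) (nat_lit 386503160) (nat_lit 93) (nat_lit 5) (nat_lit 95) (nat_lit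 5) (nat_lit 96) (nat_lit 4) (nat_lit 456) (nat_lit 397) (nat_lit 347))))))) (XT.nd (nat_lit 1014) (nat_lit 1520) (nat_lit 0) (XT.nd (nat_lit 468) (nat_lit 1140) (nat_lit 0) (XT.nd (nat_lit 234) (nat_lit 380) (nat_lit 0) (XT.nd (nat_lit 78) (nat_lit 304) (nat_lit 0) (XT.lf (nat_lit 0) (nat_lit 7507524449) (nat_lit 152) (nat_lit 2579804878) (nat_lit 228) (nat_lit 10833064389) (nat_lit 90) (nat_lit 5) (nat_lit 92) (nat_lit 5) (nat_lit 93) (nat_lit 5) (nat_lit 457) (nat_lit 397) (nat_lit 346)) (XT.nd (nat_lit 78) (nat_lit 228) (nat_lit 0) (XT.lf (nat_lit 0) (nat_lit 9325640567) (nat_lit 76) (nat_lit 11997755090) (nat_lit 152) (nat_lit 267110128) (nat_lit 89) (nat_lit 5) (nat_lit 90) (nat_lit 5) (nat_lit 91) (nat_lit 4) (nat_lit 458) (nat_lit 397) (nat_lit 345)) (XT.lf (nat_lit 0) (nat_lit 10806009003) (nat_lit 228) (nat_lit 11170357446) (nat_lit 76) (nat_lit 308932007) (nat_lit 86) (nat_lit 5) (nat_lit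 89) (nat_lit 5) (nat_lit 87) (nat_lit 4) (nat_lit 459) (nat_lit 397) (nat_lit 344)))) (XT.nd (nat_lit 78) (nat_lit 304) (nat_lit 0) (XT.lf (nat_lit 0) (nat_lit 12879236363) (nat_lit 76) (nat_lit 9837130440) (nat_lit 152) (nat_lit 289712950) (nat_lit 85) (nat_lit 5) (nat_lit 86) (nat_lit 5) (nat_lit 87) (nat_lit 4) (nat_lit 460) (nat_lit 397) (nat_lit 343)) (XT.nd (nat_lit 78) (nat_lit 76) (nat_lit 0) (XT.lf (nat_lit 0) (nat_lit 11441721889) (nat_lit 228) (nat_lit 9159037514) (nat_lit 76) (nat_lit 3152657736) (nat_lit 82) (nat_lit 5) (nat_lit 85) (nat_lit 5) (nat_lit 83) (nat_lit 4) (nat_lit 461) (nat_lit 397) (nat_lit 342)) (XT.lf (nat_lit 0) (nat_lit 16292465224) (nat_lit 76) (nat_lit 7742656591) (nat_lit 152) (nat_lit 494473333) (nat_lit 81) (nat_lit 5) (nat_lit 82) (nat_lit 5) (nat_lit 83) (nat_lit 4) (nat_lit 462) (nat_lit 397) (nat_lit 341))))) (XT.nd (nat_lit 234) (nat_lit 608) (nat_lit 0)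 (XT.nd (nat_lit 78) (nat_lit 304) (nat_lit 0) (XT.lf (nat_lit 0) (nat_lit 11929175625) (nat_lit 228) (nat_lit 7440613774) (nat_lit 76) (nat_lit 5963916987) (nat_lit 78) (nat_lit 5) (nat_lit 81) (nat_lit 5) (nat_lit 79) (nat_lit 4) (nat_lit 463) (nat_lit 397) (nat_lit 340)) (XT.nd (nat_lit 78) (nat_lit 228) (nat_lit 0) (XT.lf (nat_lit 0) (nat_lit 19477433061) (nat_lit 76) (nat_lit 5760926394) (nat_lit 152) (nat_lit 931280687) (nat_lit 77) (nat_lit 5) (nat_lit 78) (nat_lit 5) (nat_lit 79) (nat_lit 4) (nat_lit 464) (nat_lit 397) (nat_lit 339)) (XT.lf (nat_lit 0) (nat_lit 12217747408) (nat_lit 228) (nat_lit 6121555567) (nat_lit 76) (nat_lit 8695875089) (nat_lit 74) (nat_lit 5) (nat_lit 77) (nat_lit 5) (nat_lit 75) (nat_lit 4) (nat_lit 465) (nat_lit 397) (nat_lit 338)))) (XT.nd (nat_lit 156) (nat_lit 304) (nat_lit 0) (XT.nd (nat_lit 78) (nat_lit 228) (nat_lit 0) (XT.lf (nat_lit 0) (nat_lit 22325138165)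 (nat_lit 76) (nat_lit 3948963616) (nat_lit 152) (nat_lit 1661541479) (nat_lit 73) (nat_lit 5) (nat_lit 74) (nat_lit 5) (nat_lit 75) (nat_lit 4) (nat_lit 466) (nat_lit 397) (nat_lit 337)) (XT.lf (nat_lit 0) (nat_lit 12244792849) (nat_lit 228) (nat_lit 5332213853) (nat_lit 76) (nat_lit 11290728092) (nat_lit 70) (nat_lit 5) (nat_lit 73) (nat_lit 5) (nat_lit 71) (nat_lit 4) (nat_lit 467) (nat_lit 397) (nat_lit 336))) (XT.nd (nat_lit 78) (nat_lit 228) (nat_lit 0) (XT.lf (nat_lit 0) (nat_lit 24701298166) (nat_lit 76) (nat_lit 2376374776) (nat_lit 152) (nat_lit 2760297594) (nat_lit 69) (nat_lit 5) (nat_lit 70) (nat_lit 5) (nat_lit 71) (nat_lit 4) (nat_lit 468) (nat_lit 397) (nat_lit 335)) (XT.lf (nat_lit 0) (nat_lit 11933405684) (nat_lit 228) (nat_lit 5231433684) (nat_lit 76) (nat_lit 13677435026) (nat_lit 66) (nat_lit 5) (nat_lit 69) (nat_lit 5) (nat_lit 67) (nat_lit 4) (nat_lit 469) (nat_lit 397) (nat_lit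 334)))))) (XT.nd (nat_lit 546) (nat_lit 760) (nat_lit 0) (XT.nd (nat_lit 234) (nat_lit 456) (nat_lit 0) (XT.nd (nat_lit 78) (nat_lit 228) (nat_lit 0) (XT.lf (nat_lit 0) (nat_lit 26441431116) (nat_lit 76) (nat_lit 1127875269) (nat_lit 152) (nat_lit 4318730003) (nat_lit 65) (nat_lit 5) (nat_lit 66) (nat_lit 5) (nat_lit 67) (nat_lit 4) (nat_lit 470) (nat_lit 397) (nat_lit 333)) (XT.nd (nat_lit 78) (nat_lit 76) (nat_lit 0) (XT.lf (nat_lit 0) (nat_lit 11189769941) (nat_lit 152) (nat_lit 6011986170) (nat_lit 76) (nat_lit 15769053047) (nat_lit 63) (nat_lit 5) (nat_lit 65) (nat_lit 5) (nat_lit 64) (nat_lit 4) (nat_lit 471) (nat_lit 397) (nat_lit 332)) (XT.lf (nat_lit 0) (nat_lit 27345059863) (nat_lit 76) (nat_lit 306256672) (nat_lit 152) (nat_lit 6447113770) (nat_lit 62) (nat_lit 5) (nat_lit 63) (nat_lit 5) (nat_lit 64) (nat_lit 4) (nat_lit 472) (nat_lit 397) (nat_lit 331)))) (XT.nd (nat_lit 156) (nat_lit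 228) (nat_lit 0) (XT.nd (nat_lit 78) (nat_lit 76) (nat_lit 0) (XT.lf (nat_lit 0) (nat_lit 9900034538) (nat_lit 152) (nat_lit 7906963076) (nat_lit 76) (nat_lit 17459604660) (nat_lit 60) (nat_lit 5) (nat_lit 62) (nat_lit 5) (nat_lit 61) (nat_lit 4) (nat_lit 473) (nat_lit 397) (nat_lit 330)) (XT.lf (nat_lit 0) (nat_lit 27168886534) (nat_lit 76) (nat_lit 35873393) (nat_lit 152) (nat_lit 9278301886) (nat_lit 59) (nat_lit 5) (nat_lit 60) (nat_lit 5) (nat_lit 61) (nat_lit 4) (nat_lit 474) (nat_lit 397) (nat_lit 329))) (XT.nd (nat_lit 78) (nat_lit 76) (nat_lit 0) (XT.lf (nat_lit 0) (nat_lit 7926628136) (nat_lit 152) (nat_lit 11197301661) (nat_lit 76) (nat_lit 18620394254) (nat_lit 57) (nat_lit 5) (nat_lit 59) (nat_lit 5) (nat_lit 58) (nat_lit 4) (nat_lit 475) (nat_lit 397) (nat_lit 328)) (XT.lf (nat_lit 0) (nat_lit 25618757729) (nat_lit 76) (nat_lit 466740064) (nat_lit 152) (nat_lit 12971828755) (nat_lit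 56) (nat_lit 5) (nat_lit 57) (nat_lit 5) (nat_lit 58) (nat_lit 4) (nat_lit 476) (nat_lit 397) (nat_lit 327))))) (XT.nd (nat_lit 234) (nat_lit 380) (nat_lit 0) (XT.nd (nat_lit 78) (nat_lit 228) (nat_lit 0) (XT.lf (nat_lit 0) (nat_lit 5103917937) (nat_lit 152) (nat_lit 16220635994) (nat_lit 76) (nat_lit 19095677102) (nat_lit 54) (nat_lit 5) (nat_lit 56) (nat_lit 5) (nat_lit 55) (nat_lit 4) (nat_lit 477) (nat_lit 397) (nat_lit 326)) (XT.nd (nat_lit 78) (nat_lit 152) (nat_lit 0) (XT.lf (nat_lit 0) (nat_lit 22340210382) (nat_lit 76) (nat_lit 1779346596) (nat_lit 152) (nat_lit 17718739768) (nat_lit 53) (nat_lit 5) (nat_lit 54) (nat_lit 5) (nat_lit 55) (nat_lit 4) (nat_lit 478) (nat_lit 397) (nat_lit 325)) (XT.lf (nat_lit 0) (nat_lit 1233099559) (nat_lit 152) (nat_lit 23381704497) (nat_lit 76) (nat_lit 18697567571) (nat_lit 51) (nat_lit 5) (nat_lit 53) (nat_lit 5) (nat_lit 52) (nat_lit 4) (nat_lit 479)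 (nat_lit 397) (nat_lit 324)))) (XT.nd (nat_lit 156) (nat_lit 228) (nat_lit 0) (XT.nd (nat_lit 78) (nat_lit 76) (nat_lit 0) (XT.lf (nat_lit 0) (nat_lit 16907352350) (nat_lit 76) (nat_lit 4190315984) (nat_lit 152) (nat_lit 23747271711) (nat_lit 50) (nat_lit 5) (nat_lit 51) (nat_lit 5) (nat_lit 52) (nat_lit 4) (nat_lit 480) (nat_lit 397) (nat_lit 323)) (XT.lf (nat_lit 0) (nat_lit 13236616882) (nat_lit 76) (nat_lit 29201145659) (nat_lit 76) (nat_lit 4001905847) (nat_lit 49) (nat_lit 4) (nat_lit 50) (nat_lit 5) (nat_lit 50) (nat_lit 4) (nat_lit 481) (nat_lit 397) (nat_lit 322))) (XT.nd (nat_lit 78) (nat_lit 76) (nat_lit 0) (XT.lf (nat_lit 0) (nat_lit 8809789748) (nat_lit 76) (nat_lit 7959051240) (nat_lit 152) (nat_lit 31329530077) (nat_lit 47) (nat_lit 5) (nat_lit 48) (nat_lit 5) (nat_lit 49) (nat_lit 4) (nat_lit 482) (nat_lit 397) (nat_lit 321)) (XT.lf (nat_lit 0) (nat_lit 3573349087) (nat_lit 76)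 (nat_lit 35388440614) (nat_lit 76) (nat_lit 10863037951) (nat_lit 46) (nat_lit 4) (nat_lit 47) (nat_lit 5) (nat_lit 47) (nat_lit 4) (nat_lit 483) (nat_lit 397) (nat_lit 320))))))))
noncomputable def xc43 : XT := (XT.nd (nat_lit 57018) (nat_lit 0) (nat_lit 9044) (XT.nd (nat_lit 1014) (nat_lit 304) (nat_lit 0) (XT.nd (nat_lit 468) (nat_lit 532) (nat_lit 0) (XT.nd (nat_lit 234) (nat_lit 304) (nat_lit 0) (XT.nd (nat_lit 78) (nat_lit 228) (nat_lit 0) (XT.lf (nat_lit 0) (nat_lit 10857441217) (nat_lit 152) (nat_lit 2512727904) (nat_lit 76) (nat_lit 38251232873) (nat_lit 45) (nat_lit 5) (nat_lit 47) (nat_lit 5) (nat_lit 46) (nat_lit 4) (nat_lit 484) (nat_lit 397) (nat_lit 319)) (XT.nd (nat_lit 78) (nat_lit 152) (nat_lit 0) (XT.lf (nat_lit 0) (nat_lit 33915184033) (nat_lit 152) (nat_lit 9523947570) (nat_lit 0) (nat_lit 10051170007) (nat_lit 44) (nat_lit 5) (nat_lit 46) (nat_lit 4) (nat_lit 44) (nat_lit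 4) (nat_lit 485) (nat_lit 397) (nat_lit 318)) (XT.lf (nat_lit 0) (nat_lit 3103574435) (nat_lit 152) (nat_lit 17588354195) (nat_lit 76) (nat_lit 34745469895) (nat_lit 42) (nat_lit 5) (nat_lit 44) (nat_lit 5) (nat_lit 43) (nat_lit 4) (nat_lit 486) (nat_lit 397) (nat_lit 317)))) (XT.nd (nat_lit 78) (nat_lit 228) (nat_lit 0) (XT.lf (nat_lit 0) (nat_lit 26898117652) (nat_lit 152) (nat_lit 26883766345) (nat_lit 0) (nat_lit 3682549377) (nat_lit 41) (nat_lit 5) (nat_lit 43) (nat_lit 4) (nat_lit 41) (nat_lit 4) (nat_lit 487) (nat_lit 397) (nat_lit 316)) (XT.nd (nat_lit 78) (nat_lit 152) (nat_lit 0) (XT.lf (nat_lit 0) (nat_lit 22068124926) (nat_lit 76) (nat_lit 30372586812) (nat_lit 76) (nat_lit 7135358784) (nat_lit 40) (nat_lit 4) (nat_lit 41) (nat_lit 5) (nat_lit 41) (nat_lit 4) (nat_lit 488) (nat_lit 397) (nat_lit 315)) (XT.lf (nat_lit 0) (nat_lit 12223839220) (nat_lit 76) (nat_lit 5254828555) (nat_lit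 152) (nat_lit 44299013792) (nat_lit 38) (nat_lit 5) (nat_lit 39) (nat_lit 5) (nat_lit 40) (nat_lit 4) (nat_lit 489) (nat_lit 397) (nat_lit 314))))) (XT.nd (nat_lit 234) (nat_lit 304) (nat_lit 0) (XT.nd (nat_lit 78) (nat_lit 152) (nat_lit 0) (XT.lf (nat_lit 0) (nat_lit 798138233) (nat_lit 76) (nat_lit 42935942494) (nat_lit 76) (nat_lit 20336425602) (nat_lit 37) (nat_lit 4) (nat_lit 38) (nat_lit 5) (nat_lit 38) (nat_lit 4) (nat_lit 490) (nat_lit 397) (nat_lit 313)) (XT.nd (nat_lit 78) (nat_lit 76) (nat_lit 0) (XT.lf (nat_lit 0) (nat_lit 5255475979) (nat_lit 152) (nat_lit 11949066197) (nat_lit 76) (nat_lit 49256279453) (nat_lit 36) (nat_lit 5) (nat_lit 38) (nat_lit 5) (nat_lit 37) (nat_lit 4) (nat_lit 491) (nat_lit 397) (nat_lit 312)) (XT.lf (nat_lit 0) (nat_lit 32177850719) (nat_lit 152) (nat_lit 26570478547) (nat_lit 0) (nat_lit 10202139115) (nat_lit 35) (nat_lit 5) (nat_lit 37) (nat_lit 4) (nat_lit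 35) (nat_lit 4) (nat_lit 492) (nat_lit 397) (nat_lit 311)))) (XT.nd (nat_lit 156) (nat_lit 76) (nat_lit 0) (XT.nd (nat_lit 78) (nat_lit 152) (nat_lit 0) (XT.lf (nat_lit 0) (nat_lit 28414275699) (nat_lit 76) (nat_lit 32563050447) (nat_lit 76) (nat_lit 10571342064) (nat_lit 34) (nat_lit 4) (nat_lit 35) (nat_lit 5) (nat_lit 35) (nat_lit 4) (nat_lit 493) (nat_lit 397) (nat_lit 310)) (XT.lf (nat_lit 0) (nat_lit 12433912179) (nat_lit 76) (nat_lit 4532026535) (nat_lit 152) (nat_lit 57295259319) (nat_lit 32) (nat_lit 5) (nat_lit 33) (nat_lit 5) (nat_lit 34) (nat_lit 4) (nat_lit 494) (nat_lit 397) (nat_lit 309))) (XT.nd (nat_lit 78) (nat_lit 76) (nat_lit 0) (XT.lf (nat_lit 0) (nat_lit 46312798738) (nat_lit 152) (nat_lit 5841128058) (nat_lit 0) (nat_lit 24932747319) (nat_lit 32) (nat_lit 5) (nat_lit 34) (nat_lit 4) (nat_lit 32) (nat_lit 4) (nat_lit 495) (nat_lit 397) (nat_lit 308)) (XT.lf (nat_lit 0) (nat_lit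 53876923908) (nat_lit 76) (nat_lit 23777078892) (nat_lit 76) (nat_lit 2383611337) (nat_lit 31) (nat_lit 4) (nat_lit 32) (nat_lit 5) (nat_lit 32) (nat_lit 4) (nat_lit 496) (nat_lit 397) (nat_lit 307)))))) (XT.nd (nat_lit 55458) (nat_lit 0) (nat_lit 25764) (XT.nd (nat_lit 55224) (nat_lit 0) (nat_lit 30932) (XT.nd (nat_lit 78) (nat_lit 152) (nat_lit 0) (XT.lf (nat_lit 0) (nat_lit 27305538582) (nat_lit 152) (nat_lit 49287440323) (nat_lit 0) (nat_lit 6522776615) (nat_lit 29) (nat_lit 5) (nat_lit 31) (nat_lit 4) (nat_lit 29) (nat_lit 4) (nat_lit 497) (nat_lit 397) (nat_lit 306)) (XT.nd (nat_lit 78) (nat_lit 76) (nat_lit 0) (XT.lf (nat_lit 0) (nat_lit 10899415286) (nat_lit 76) (nat_lit 48112399121) (nat_lit 76) (nat_lit 27317822755) (nat_lit 28) (nat_lit 4) (nat_lit 29) (nat_lit 5) (nat_lit 29) (nat_lit 4) (nat_lit 498) (nat_lit 397) (nat_lit 305)) (XT.lf (nat_lit 0) (nat_lit 3026327538) (nat_lit 152)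 (nat_lit 14662383271) (nat_lit 76) (nat_lit 72000416983) (nat_lit 27) (nat_lit 5) (nat_lit 29) (nat_lit 5) (nat_lit 28) (nat_lit 4) (nat_lit 499) (nat_lit 397) (nat_lit 304)))) (XT.nd (nat_lit 78) (nat_lit 836) (nat_lit 0) (XT.lf (nat_lit 0) (nat_lit 1689344752) (nat_lit 228) (nat_lit 777351167) (nat_lit 228) (nat_lit 777351167) (nat_lit 445) (nat_lit 4) (nat_lit 448) (nat_lit 5) (nat_lit 448) (nat_lit 4) (nat_lit 404) (nat_lit 398) (nat_lit 398)) (XT.nd (nat_lit 78) (nat_lit 456) (nat_lit 0) (XT.lf (nat_lit 0) (nat_lit 3059616965) (nat_lit 304) (nat_lit 652311921) (nat_lit 380) (nat_lit 2803164114) (nat_lit 440) (nat_lit 5) (nat_lit 444) (nat_lit 5) (nat_lit 445) (nat_lit 4) (nat_lit 405) (nat_lit 398) (nat_lit 397)) (XT.lf (nat_lit 0) (nat_lit 2363141162) (nat_lit 456) (nat_lit 3686390047) (nat_lit 76) (nat_lit 500276815) (nat_lit 434) (nat_lit 5) (nat_lit 440) (nat_lit 5) (nat_lit 435) (nat_lit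 4) (nat_lit 406) (nat_lit 398) (nat_lit 396))))) (XT.nd (nat_lit 234) (nat_lit 3420) (nat_lit 0) (XT.nd (nat_lit 78) (nat_lit 1216) (nat_lit 0) (XT.lf (nat_lit 0) (nat_lit 887214523) (nat_lit 532) (nat_lit 3806416029) (nat_lit 76) (nat_lit 1898556086) (nat_lit 427) (nat_lit 5) (nat_lit 434) (nat_lit 5) (nat_lit 428) (nat_lit 5) (nat_lit 407) (nat_lit 398) (nat_lit 395)) (XT.nd (nat_lit 78) (nat_lit 684) (nat_lit 0) (XT.lf (nat_lit 0) (nat_lit 2825830119) (nat_lit 532) (nat_lit 3075810919) (nat_lit 608) (nat_lit 740640227) (nat_lit 420) (nat_lit 5) (nat_lit 427) (nat_lit 5) (nat_lit 428) (nat_lit 5) (nat_lit 408) (nat_lit 398) (nat_lit 394)) (XT.lf (nat_lit 0) (nat_lit 2980937785) (nat_lit 608) (nat_lit 1188244732) (nat_lit 684) (nat_lit 2530912870) (nat_lit 411) (nat_lit 5) (nat_lit 419) (nat_lit 5) (nat_lit 420) (nat_lit 5) (nat_lit 409) (nat_lit 398) (nat_lit 393)))) (XT.nd (nat_lit 156) (nat_lit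 1824) (nat_lit 0) (XT.nd (nat_lit 78) (nat_lit 836) (nat_lit 0) (XT.lf (nat_lit 0) (nat_lit 2304372218) (nat_lit 760) (nat_lit 3514501275) (nat_lit 76) (nat_lit 946844021) (nat_lit 401) (nat_lit 5) (nat_lit 411) (nat_lit 5) (nat_lit 402) (nat_lit 5) (nat_lit 410) (nat_lit 398) (nat_lit 392)) (XT.lf (nat_lit 0) (nat_lit 306709577) (nat_lit 836) (nat_lit 3206266953) (nat_lit 76) (nat_lit 3326149359) (nat_lit 390) (nat_lit 5) (nat_lit 401) (nat_lit 5) (nat_lit 391) (nat_lit 5) (nat_lit 411) (nat_lit 398) (nat_lit 391))) (XT.nd (nat_lit 78) (nat_lit 988) (nat_lit 0) (XT.lf (nat_lit 0) (nat_lit 4120444839) (nat_lit 836) (nat_lit 922336110) (nat_lit 912) (nat_lit 1877475109) (nat_lit 379) (nat_lit 5) (nat_lit 390) (nat_lit 5) (nat_lit 391) (nat_lit 5) (nat_lit 412) (nat_lit 398) (nat_lit 390)) (XT.lf (nat_lit 0) (nat_lit 2801589575) (nat_lit 988) (nat_lit 2298709018) (nat_lit 76) (nat_lit 1908803044)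 (nat_lit 366) (nat_lit 5) (nat_lit 379) (nat_lit 5) (nat_lit 367) (nat_lit 5) (nat_lit 413) (nat_lit 398) (nat_lit 389))))))) (XT.nd (nat_lit 1014) (nat_lit 5624) (nat_lit 0) (XT.nd (nat_lit 468) (nat_lit 4332) (nat_lit 0) (XT.nd (nat_lit 234) (nat_lit 3420) (nat_lit 0) (XT.nd (nat_lit 78) (nat_lit 2280) (nat_lit 0) (XT.lf (nat_lit 0) (nat_lit 414900870) (nat_lit 1064) (nat_lit 1690907725) (nat_lit 76) (nat_lit 5000321280) (nat_lit 352) (nat_lit 5) (nat_lit 366) (nat_lit 5) (nat_lit 353) (nat_lit 5) (nat_lit 414) (nat_lit 398) (nat_lit 388)) (XT.nd (nat_lit 78) (nat_lit 1216) (nat_lit 0) (XT.lf (nat_lit 0) (nat_lit 5047195558) (nat_lit 1140) (nat_lit 997680494) (nat_lit 76) (nat_lit 1165937192) (nat_lit 338) (nat_lit 5) (nat_lit 353) (nat_lit 5) (nat_lit 339) (nat_lit 5) (nat_lit 415) (nat_lit 398) (nat_lit 387)) (XT.lf (nat_lit 0) (nat_lit 2425077107) (nat_lit 1216) (nat_lit 212911332) (nat_lit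 76) (nat_lit 4685462637) (nat_lit 322) (nat_lit 5) (nat_lit 338) (nat_lit 5) (nat_lit 323) (nat_lit 5) (nat_lit 416) (nat_lit 398) (nat_lit 386)))) (XT.nd (nat_lit 78) (nat_lit 1368) (nat_lit 0) (XT.lf (nat_lit 0) (nat_lit 690223173) (nat_lit 836) (nat_lit 6399421417) (nat_lit 912) (nat_lit 354721641) (nat_lit 295) (nat_lit 5) (nat_lit 306) (nat_lit 5) (nat_lit 307) (nat_lit 5) (nat_lit 417) (nat_lit 398) (nat_lit 385)) (XT.nd (nat_lit 78) (nat_lit 684) (nat_lit 0) (XT.lf (nat_lit 0) (nat_lit 1666755407) (nat_lit 608) (nat_lit 2576049571) (nat_lit 684) (nat_lit 3329884528) (nat_lit 286) (nat_lit 5) (nat_lit 294) (nat_lit 5) (nat_lit 295) (nat_lit 5) (nat_lit 418) (nat_lit 398) (nat_lit 384)) (XT.lf (nat_lit 0) (nat_lit 1236341979) (nat_lit 684) (nat_lit 4958860718) (nat_lit 76) (nat_lit 1514532819) (nat_lit 277) (nat_lit 5) (nat_lit 286) (nat_lit 5) (nat_lit 278) (nat_lit 5) (nat_lit 419) (nat_lit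 398) (nat_lit 383))))) (XT.nd (nat_lit 234) (nat_lit 2584) (nat_lit 0) (XT.nd (nat_lit 78) (nat_lit 1216) (nat_lit 0) (XT.lf (nat_lit 0) (nat_lit 3913605345) (nat_lit 532) (nat_lit 1977234318) (nat_lit 608) (nat_lit 1963959525) (nat_lit 270) (nat_lit 5) (nat_lit 277) (nat_lit 5) (nat_lit 278) (nat_lit 5) (nat_lit 420) (nat_lit 398) (nat_lit 382)) (XT.nd (nat_lit 78) (nat_lit 532) (nat_lit 0) (XT.lf (nat_lit 0) (nat_lit 2651587489) (nat_lit 684) (nat_lit 2844159439) (nat_lit 76) (nat_lit 2512546456) (nat_lit 261) (nat_lit 5) (nat_lit 270) (nat_lit 5) (nat_lit 262) (nat_lit 5) (nat_lit 421) (nat_lit 398) (nat_lit 381)) (XT.lf (nat_lit 0) (nat_lit 6514176979) (nat_lit 532) (nat_lit 882602582) (nat_lit 608) (nat_lit 773931760) (nat_lit 254) (nat_lit 5) (nat_lit 261) (nat_lit 5) (nat_lit 262) (nat_lit 5) (nat_lit 422) (nat_lit 398) (nat_lit 380)))) (XT.nd (nat_lit 156) (nat_lit 988) (nat_lit 0) (XT.nd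 (nat_lit 78) (nat_lit 988) (nat_lit 0) (XT.lf (nat_lit 0) (nat_lit 3925154351) (nat_lit 608) (nat_lit 414799231) (nat_lit 76) (nat_lit 4001168713) (nat_lit 246) (nat_lit 5) (nat_lit 254) (nat_lit 5) (nat_lit 247) (nat_lit 5) (nat_lit 423) (nat_lit 398) (nat_lit 379)) (XT.lf (nat_lit 0) (nat_lit 276442139) (nat_lit 532) (nat_lit 7570020108) (nat_lit 76) (nat_lit 674501304) (nat_lit 233) (nat_lit 5) (nat_lit 240) (nat_lit 5) (nat_lit 234) (nat_lit 5) (nat_lit 424) (nat_lit 398) (nat_lit 378))) (XT.nd (nat_lit 78) (nat_lit 532) (nat_lit 0) (XT.lf (nat_lit 0) (nat_lit 2370763444) (nat_lit 456) (nat_lit 2733429137) (nat_lit 532) (nat_lit 3604544950) (nat_lit 227) (nat_lit 5) (nat_lit 233) (nat_lit 5) (nat_lit 234) (nat_lit 5) (nat_lit 425) (nat_lit 398) (nat_lit 377)) (XT.lf (nat_lit 0) (nat_lit 1218832021) (nat_lit 532) (nat_lit 5018020171) (nat_lit 76) (nat_lit 2669411265) (nat_lit 220) (nat_lit 5)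 (nat_lit 227) (nat_lit 5) (nat_lit 221) (nat_lit 5) (nat_lit 426) (nat_lit 398) (nat_lit 376)))))) (XT.nd (nat_lit 546) (nat_lit 2508) (nat_lit 0) (XT.nd (nat_lit 234) (nat_lit 1824) (nat_lit 0) (XT.nd (nat_lit 78) (nat_lit 912) (nat_lit 0) (XT.lf (nat_lit 0) (nat_lit 5479015230) (nat_lit 380) (nat_lit 715799947) (nat_lit 456) (nat_lit 2918212449) (nat_lit 215) (nat_lit 5) (nat_lit 220) (nat_lit 5) (nat_lit 221) (nat_lit 5) (nat_lit 427) (nat_lit 398) (nat_lit 375)) (XT.nd (nat_lit 78) (nat_lit 380) (nat_lit 0) (XT.lf (nat_lit 0) (nat_lit 2063036786) (nat_lit 532) (nat_lit 2190381095) (nat_lit 76) (nat_lit 5075690534) (nat_lit 208) (nat_lit 5) (nat_lit 215) (nat_lit 5) (nat_lit 209) (nat_lit 5) (nat_lit 428) (nat_lit 398) (nat_lit 374)) (XT.lf (nat_lit 0) (nat_lit 7228737972) (nat_lit 456) (nat_lit 669194961) (nat_lit 76) (nat_lit 1657331936) (nat_lit 203) (nat_lit 5) (nat_lit 209) (nat_lit 5)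 (nat_lit 204) (nat_lit 5) (nat_lit 429) (nat_lit 398) (nat_lit 373)))) (XT.nd (nat_lit 156) (nat_lit 684) (nat_lit 0) (XT.nd (nat_lit 78) (nat_lit 380) (nat_lit 0) (XT.lf (nat_lit 0) (nat_lit 931687387) (nat_lit 304) (nat_lit 1903689055) (nat_lit 380) (nat_lit 6955602134) (nat_lit 193) (nat_lit 5) (nat_lit 197) (nat_lit 5) (nat_lit 198) (nat_lit 5) (nat_lit 430) (nat_lit 398) (nat_lit 372)) (XT.lf (nat_lit 0) (nat_lit 2614953818) (nat_lit 380) (nat_lit 5627854877) (nat_lit 456) (nat_lit 1793921151) (nat_lit 188) (nat_lit 5) (nat_lit 193) (nat_lit 5) (nat_lit 194) (nat_lit 5) (nat_lit 431) (nat_lit 398) (nat_lit 371))) (XT.nd (nat_lit 78) (nat_lit 304) (nat_lit 0) (XT.lf (nat_lit 0) (nat_lit 3574264409) (nat_lit 380) (nat_lit 5919438876) (nat_lit 76) (nat_lit 799453280) (nat_lit 183) (nat_lit 5) (nat_lit 188) (nat_lit 5) (nat_lit 184) (nat_lit 5) (nat_lit 432) (nat_lit 398) (nat_lit 370)) (XT.lf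 (nat_lit 0) (nat_lit 6196804407) (nat_lit 304) (nat_lit 3032988541) (nat_lit 380) (nat_lit 1330406080) (nat_lit 179) (nat_lit 5) (nat_lit 183) (nat_lit 5) (nat_lit 184) (nat_lit 5) (nat_lit 433) (nat_lit 398) (nat_lit 369))))) (XT.nd (nat_lit 234) (nat_lit 1140) (nat_lit 0) (XT.nd (nat_lit 78) (nat_lit 988) (nat_lit 0) (XT.lf (nat_lit 0) (nat_lit 4285394695) (nat_lit 380) (nat_lit 2755669428) (nat_lit 76) (nat_lit 3797019138) (nat_lit 174) (nat_lit 5) (nat_lit 179) (nat_lit 5) (nat_lit 175) (nat_lit 5) (nat_lit 434) (nat_lit 398) (nat_lit 368)) (XT.nd (nat_lit 78) (nat_lit 684) (nat_lit 0) (XT.lf (nat_lit 0) (nat_lit 10068282345) (nat_lit 304) (nat_lit 128642495) (nat_lit 380) (nat_lit 931275377) (nat_lit 170) (nat_lit 5) (nat_lit 174) (nat_lit 5) (nat_lit 175) (nat_lit 5) (nat_lit 435) (nat_lit 398) (nat_lit 367)) (XT.lf (nat_lit 0) (nat_lit 666720237) (nat_lit 304) (nat_lit 4301746120) (nat_lit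 380) (nat_lit 6460101911) (nat_lit 161) (nat_lit 5) (nat_lit 165) (nat_lit 5) (nat_lit 166) (nat_lit 5) (nat_lit 436) (nat_lit 398) (nat_lit 366)))) (XT.nd (nat_lit 156) (nat_lit 532) (nat_lit 0) (XT.nd (nat_lit 78) (nat_lit 380) (nat_lit 0) (XT.lf (nat_lit 0) (nat_lit 2511891170) (nat_lit 228) (nat_lit 8698190097) (nat_lit 304) (nat_lit 531618885) (nat_lit 158) (nat_lit 5) (nat_lit 161) (nat_lit 5) (nat_lit 162) (nat_lit 5) (nat_lit 437) (nat_lit 398) (nat_lit 365)) (XT.lf (nat_lit 0) (nat_lit 4398634669) (nat_lit 304) (nat_lit 1257743220) (nat_lit 380) (nat_lit 6410249285) (nat_lit 153) (nat_lit 5) (nat_lit 157) (nat_lit 5) (nat_lit 158) (nat_lit 5) (nat_lit 438) (nat_lit 398) (nat_lit 364))) (XT.nd (nat_lit 78) (nat_lit 304) (nat_lit 0) (XT.lf (nat_lit 0) (nat_lit 6358874598) (nat_lit 228) (nat_lit 5884080638) (nat_lit 304) (nat_lit 161687809) (nat_lit 150) (nat_lit 5) (nat_lit 153) (nat_lit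 5) (nat_lit 154) (nat_lit 5) (nat_lit 439) (nat_lit 398) (nat_lit 363)) (XT.lf (nat_lit 0) (nat_lit 6350034467) (nat_lit 304) (nat_lit 4386134579) (nat_lit 76) (nat_lit 2019282299) (nat_lit 146) (nat_lit 5) (nat_lit 150) (nat_lit 5) (nat_lit 147) (nat_lit 5) (nat_lit 440) (nat_lit 398) (nat_lit 362))))))))
noncomputable def xc44 : XT := (XT.nd (nat_lit 2028) (nat_lit 2964) (nat_lit 0) (XT.nd (nat_lit 1014) (nat_lit 2128) (nat_lit 0) (XT.nd (nat_lit 468) (nat_lit 1672) (nat_lit 0) (XT.nd (nat_lit 234) (nat_lit 608) (nat_lit 0) (XT.nd (nat_lit 78) (nat_lit 760) (nat_lit 0) (XT.lf (nat_lit 0) (nat_lit 168910763) (nat_lit 304) (nat_lit 2656460119) (nat_lit 76) (nat_lit 10295073437) (nat_lit 142) (nat_lit 5) (nat_lit 146) (nat_lit 5) (nat_lit 143) (nat_lit 5) (nat_lit 441) (nat_lit 398) (nat_lit 361)) (XT.nd (nat_lit 78) (nat_lit 532) (nat_lit 0) (XT.lf (nat_lit 0) (nat_lit 7050633071) (nat_lit 304)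 (nat_lit 910141248) (nat_lit 76) (nat_lit 5537680074) (nat_lit 139) (nat_lit 5) (nat_lit 143) (nat_lit 5) (nat_lit 140) (nat_lit 5) (nat_lit 442) (nat_lit 398) (nat_lit 360)) (XT.lf (nat_lit 0) (nat_lit 478548998) (nat_lit 304) (nat_lit 12939066357) (nat_lit 76) (nat_lit 474496729) (nat_lit 132) (nat_lit 5) (nat_lit 136) (nat_lit 5) (nat_lit 133) (nat_lit 5) (nat_lit 443) (nat_lit 398) (nat_lit 359)))) (XT.nd (nat_lit 78) (nat_lit 456) (nat_lit 0) (XT.lf (nat_lit 0) (nat_lit 2827260732) (nat_lit 152) (nat_lit 4950336721) (nat_lit 228) (nat_lit 6521152760) (nat_lit 130) (nat_lit 5) (nat_lit 132) (nat_lit 5) (nat_lit 133) (nat_lit 5) (nat_lit 444) (nat_lit 398) (nat_lit 358)) (XT.nd (nat_lit 78) (nat_lit 152) (nat_lit 0) (XT.lf (nat_lit 0) (nat_lit 815751937) (nat_lit 304) (nat_lit 9926066155) (nat_lit 76) (nat_lit 3980284176) (nat_lit 126) (nat_lit 5) (nat_lit 130) (nat_lit 5) (nat_lit 127) (nat_lit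 5) (nat_lit 445) (nat_lit 398) (nat_lit 357)) (XT.lf (nat_lit 0) (nat_lit 6791422966) (nat_lit 152) (nat_lit 1725462207) (nat_lit 228) (nat_lit 6643835832) (nat_lit 124) (nat_lit 5) (nat_lit 126) (nat_lit 5) (nat_lit 127) (nat_lit 5) (nat_lit 446) (nat_lit 398) (nat_lit 356))))) (XT.nd (nat_lit 234) (nat_lit 912) (nat_lit 0) (XT.nd (nat_lit 78) (nat_lit 456) (nat_lit 0) (XT.lf (nat_lit 0) (nat_lit 1126052424) (nat_lit 304) (nat_lit 6771008969) (nat_lit 76) (nat_lit 7719027265) (nat_lit 120) (nat_lit 5) (nat_lit 124) (nat_lit 5) (nat_lit 121) (nat_lit 5) (nat_lit 447) (nat_lit 398) (nat_lit 355)) (XT.nd (nat_lit 78) (nat_lit 304) (nat_lit 0) (XT.lf (nat_lit 0) (nat_lit 9275700251) (nat_lit 228) (nat_lit 5145160113) (nat_lit 76) (nat_lit 1667533969) (nat_lit 118) (nat_lit 5) (nat_lit 121) (nat_lit 5) (nat_lit 119) (nat_lit 5) (nat_lit 448) (nat_lit 398) (nat_lit 354)) (XT.lf (nat_lit 0) (nat_lit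 1405713779) (nat_lit 304) (nat_lit 3484005804) (nat_lit 76) (nat_lit 11688791728) (nat_lit 114) (nat_lit 5) (nat_lit 118) (nat_lit 5) (nat_lit 115) (nat_lit 5) (nat_lit 449) (nat_lit 398) (nat_lit 353)))) (XT.nd (nat_lit 156) (nat_lit 532) (nat_lit 0) (XT.nd (nat_lit 78) (nat_lit 228) (nat_lit 0) (XT.lf (nat_lit 0) (nat_lit 10053196474) (nat_lit 228) (nat_lit 1813339785) (nat_lit 76) (nat_lit 5219805540) (nat_lit 112) (nat_lit 5) (nat_lit 115) (nat_lit 5) (nat_lit 113) (nat_lit 5) (nat_lit 450) (nat_lit 398) (nat_lit 352)) (XT.lf (nat_lit 0) (nat_lit 1647868378) (nat_lit 228) (nat_lit 79384199) (nat_lit 76) (nat_lit 15886959966) (nat_lit 109) (nat_lit 5) (nat_lit 112) (nat_lit 5) (nat_lit 110) (nat_lit 5) (nat_lit 451) (nat_lit 398) (nat_lit 351))) (XT.nd (nat_lit 78) (nat_lit 228) (nat_lit 0) (XT.lf (nat_lit 0) (nat_lit 1658238420) (nat_lit 152) (nat_lit 9184272326) (nat_lit 228) (nat_lit 7317128442)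 (nat_lit 105) (nat_lit 5) (nat_lit 107) (nat_lit 5) (nat_lit 108) (nat_lit 5) (nat_lit 452) (nat_lit 398) (nat_lit 350)) (XT.lf (nat_lit 0) (nat_lit 1891111494) (nat_lit 228) (nat_lit 15251705547) (nat_lit 76) (nat_lit 1584183646) (nat_lit 102) (nat_lit 5) (nat_lit 105) (nat_lit 5) (nat_lit 103) (nat_lit 5) (nat_lit 453) (nat_lit 398) (nat_lit 349)))))) (XT.nd (nat_lit 468) (nat_lit 1064) (nat_lit 0) (XT.nd (nat_lit 234) (nat_lit 532) (nat_lit 0) (XT.nd (nat_lit 78) (nat_lit 380) (nat_lit 0) (XT.lf (nat_lit 0) (nat_lit 5252097080) (nat_lit 152) (nat_lit 6384256417) (nat_lit 228) (nat_lit 7677367922) (nat_lit 100) (nat_lit 5) (nat_lit 102) (nat_lit 5) (nat_lit 103) (nat_lit 5) (nat_lit 454) (nat_lit 398) (nat_lit 348)) (XT.nd (nat_lit 78) (nat_lit 152) (nat_lit 0) (XT.lf (nat_lit 0) (nat_lit 2091004599) (nat_lit 228) (nat_lit 12837473617) (nat_lit 76) (nat_lit 4995049866) (nat_lit 97) (nat_lit 5)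 (nat_lit 100) (nat_lit 5) (nat_lit 98) (nat_lit 5) (nat_lit 455) (nat_lit 398) (nat_lit 347)) (XT.lf (nat_lit 0) (nat_lit 8901166739) (nat_lit 152) (nat_lit 3501126437) (nat_lit 228) (nat_lit 8152855076) (nat_lit 95) (nat_lit 5) (nat_lit 97) (nat_lit 5) (nat_lit 98) (nat_lit 5) (nat_lit 456) (nat_lit 398) (nat_lit 346)))) (XT.nd (nat_lit 78) (nat_lit 304) (nat_lit 0) (XT.lf (nat_lit 0) (nat_lit 2209957191) (nat_lit 228) (nat_lit 10477443494) (nat_lit 76) (nat_lit 8523218677) (nat_lit 92) (nat_lit 5) (nat_lit 95) (nat_lit 5) (nat_lit 93) (nat_lit 5) (nat_lit 457) (nat_lit 398) (nat_lit 345)) (XT.nd (nat_lit 78) (nat_lit 152) (nat_lit 0) (XT.lf (nat_lit 0) (nat_lit 12565070740) (nat_lit 152) (nat_lit 555315162) (nat_lit 228) (nat_lit 8770115473) (nat_lit 90) (nat_lit 5) (nat_lit 92) (nat_lit 5) (nat_lit 93) (nat_lit 5) (nat_lit 458) (nat_lit 398) (nat_lit 344)) (XT.lf (nat_lit 0) (nat_lit 2221757028)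 (nat_lit 152) (nat_lit 8224089363) (nat_lit 76) (nat_lit 12149315616) (nat_lit 88) (nat_lit 5) (nat_lit 90) (nat_lit 5) (nat_lit 89) (nat_lit 5) (nat_lit 459) (nat_lit 398) (nat_lit 343))))) (XT.nd (nat_lit 234) (nat_lit 608) (nat_lit 0) (XT.nd (nat_lit 78) (nat_lit 304) (nat_lit 0) (XT.lf (nat_lit 0) (nat_lit 13787750929) (nat_lit 228) (nat_lit 7158352488) (nat_lit 76) (nat_lit 2380171520) (nat_lit 86) (nat_lit 5) (nat_lit 89) (nat_lit 5) (nat_lit 87) (nat_lit 4) (nat_lit 460) (nat_lit 398) (nat_lit 342)) (XT.nd (nat_lit 78) (nat_lit 152) (nat_lit 0) (XT.lf (nat_lit 0) (nat_lit 2093081392) (nat_lit 152) (nat_lit 6143117483) (nat_lit 76) (nat_lit 15848490481) (nat_lit 84) (nat_lit 5) (nat_lit 86) (nat_lit 5) (nat_lit 85) (nat_lit 5) (nat_lit 461) (nat_lit 398) (nat_lit 341)) (XT.lf (nat_lit 0) (nat_lit 14352776802) (nat_lit 228) (nat_lit 5208449311) (nat_lit 76) (nat_lit 5309653019) (nat_lit 82)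 (nat_lit 5) (nat_lit 85) (nat_lit 5) (nat_lit 83) (nat_lit 4) (nat_lit 462) (nat_lit 398) (nat_lit 340)))) (XT.nd (nat_lit 156) (nat_lit 304) (nat_lit 0) (XT.nd (nat_lit 78) (nat_lit 152) (nat_lit 0) (XT.lf (nat_lit 0) (nat_lit 1782186651) (nat_lit 152) (nat_lit 4316188206) (nat_lit 76) (nat_lit 19589075406) (nat_lit 80) (nat_lit 5) (nat_lit 82) (nat_lit 5) (nat_lit 81) (nat_lit 5) (nat_lit 463) (nat_lit 398) (nat_lit 339)) (XT.lf (nat_lit 0) (nat_lit 14767232920) (nat_lit 228) (nat_lit 3561225631) (nat_lit 76) (nat_lit 8204650150) (nat_lit 78) (nat_lit 5) (nat_lit 81) (nat_lit 5) (nat_lit 79) (nat_lit 4) (nat_lit 464) (nat_lit 398) (nat_lit 338))) (XT.nd (nat_lit 78) (nat_lit 152) (nat_lit 0) (XT.lf (nat_lit 0) (nat_lit 1237351006) (nat_lit 152) (nat_lit 2844125638) (nat_lit 76) (nat_lit 23331011653) (nat_lit 76) (nat_lit 5) (nat_lit 78) (nat_lit 5) (nat_lit 77) (nat_lit 5) (nat_lit 465) (nat_lit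 398) (nat_lit 337)) (XT.lf (nat_lit 0) (nat_lit 14977625275) (nat_lit 228) (nat_lit 2328508398) (nat_lit 76) (nat_lit 11016302715) (nat_lit 74) (nat_lit 5) (nat_lit 77) (nat_lit 5) (nat_lit 75) (nat_lit 4) (nat_lit 466) (nat_lit 398) (nat_lit 336))))))) (XT.nd (nat_lit 1014) (nat_lit 1368) (nat_lit 0) (XT.nd (nat_lit 468) (nat_lit 760) (nat_lit 0) (XT.nd (nat_lit 234) (nat_lit 456) (nat_lit 0) (XT.nd (nat_lit 78) (nat_lit 228) (nat_lit 0) (XT.lf (nat_lit 0) (nat_lit 395028369) (nat_lit 152) (nat_lit 1850701487) (nat_lit 76) (nat_lit 27024002046) (nat_lit 72) (nat_lit 5) (nat_lit 74) (nat_lit 5) (nat_lit 73) (nat_lit 5) (nat_lit 467) (nat_lit 398) (nat_lit 335)) (XT.nd (nat_lit 78) (nat_lit 76) (nat_lit 0) (XT.lf (nat_lit 0) (nat_lit 14917867639) (nat_lit 228) (nat_lit 1647216796) (nat_lit 76) (nat_lit 13684184864) (nat_lit 70) (nat_lit 5) (nat_lit 73) (nat_lit 5) (nat_lit 71) (nat_lit 4) (nat_lit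 468) (nat_lit 398) (nat_lit 334)) (XT.lf (nat_lit 0) (nat_lit 29774698781) (nat_lit 76) (nat_lit 656454380) (nat_lit 152) (nat_lit 838702121) (nat_lit 69) (nat_lit 5) (nat_lit 70) (nat_lit 5) (nat_lit 71) (nat_lit 4) (nat_lit 469) (nat_lit 398) (nat_lit 333)))) (XT.nd (nat_lit 78) (nat_lit 228) (nat_lit 0) (XT.lf (nat_lit 0) (nat_lit 14506926008) (nat_lit 228) (nat_lit 1684202592) (nat_lit 76) (nat_lit 16133930078) (nat_lit 66) (nat_lit 5) (nat_lit 69) (nat_lit 5) (nat_lit 67) (nat_lit 4) (nat_lit 470) (nat_lit 398) (nat_lit 332)) (XT.nd (nat_lit 78) (nat_lit 152) (nat_lit 0) (XT.lf (nat_lit 0) (nat_lit 30871788556) (nat_lit 152) (nat_lit 1967479688) (nat_lit 0) (nat_lit 585426663) (nat_lit 65) (nat_lit 5) (nat_lit 67) (nat_lit 4) (nat_lit 65) (nat_lit 4) (nat_lit 471) (nat_lit 398) (nat_lit 331)) (XT.lf (nat_lit 0) (nat_lit 13646035504) (nat_lit 152) (nat_lit 2641951300) (nat_lit 76) (nat_lit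 18274438422) (nat_lit 63) (nat_lit 5) (nat_lit 65) (nat_lit 5) (nat_lit 64) (nat_lit 4) (nat_lit 472) (nat_lit 398) (nat_lit 330))))) (XT.nd (nat_lit 234) (nat_lit 456) (nat_lit 0) (XT.nd (nat_lit 78) (nat_lit 228) (nat_lit 0) (XT.lf (nat_lit 0) (nat_lit 30888097314) (nat_lit 152) (nat_lit 3483868528) (nat_lit 0) (nat_lit 1375739457) (nat_lit 62) (nat_lit 5) (nat_lit 64) (nat_lit 4) (nat_lit 62) (nat_lit 4) (nat_lit 473) (nat_lit 398) (nat_lit 329)) (XT.nd (nat_lit 78) (nat_lit 76) (nat_lit 0) (XT.lf (nat_lit 0) (nat_lit 12215416149) (nat_lit 152) (nat_lit 4765294436) (nat_lit 76) (nat_lit 19994591845) (nat_lit 60) (nat_lit 5) (nat_lit 62) (nat_lit 5) (nat_lit 61) (nat_lit 4) (nat_lit 474) (nat_lit 398) (nat_lit 328)) (XT.lf (nat_lit 0) (nat_lit 30347398909) (nat_lit 152) (nat_lit 6306916325) (nat_lit 0) (nat_lit 1599409964) (nat_lit 59) (nat_lit 5) (nat_lit 61) (nat_lit 4) (nat_lit 59) (nat_lit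 4) (nat_lit 475) (nat_lit 398) (nat_lit 327)))) (XT.nd (nat_lit 156) (nat_lit 228) (nat_lit 0) (XT.nd (nat_lit 78) (nat_lit 76) (nat_lit 0) (XT.lf (nat_lit 0) (nat_lit 10070401209) (nat_lit 152) (nat_lit 8349308788) (nat_lit 76) (nat_lit 21159390663) (nat_lit 57) (nat_lit 5) (nat_lit 59) (nat_lit 5) (nat_lit 58) (nat_lit 4) (nat_lit 476) (nat_lit 398) (nat_lit 326)) (XT.lf (nat_lit 0) (nat_lit 29096627258) (nat_lit 152) (nat_lit 10760232831) (nat_lit 0) (nat_lit 1102111583) (nat_lit 56) (nat_lit 5) (nat_lit 58) (nat_lit 4) (nat_lit 56) (nat_lit 4) (nat_lit 477) (nat_lit 398) (nat_lit 325))) (XT.nd (nat_lit 78) (nat_lit 76) (nat_lit 0) (XT.lf (nat_lit 0) (nat_lit 7036876923) (nat_lit 152) (nat_lit 13748608736) (nat_lit 76) (nat_lit 21605409641) (nat_lit 54) (nat_lit 5) (nat_lit 56) (nat_lit 5) (nat_lit 55) (nat_lit 4) (nat_lit 478) (nat_lit 398) (nat_lit 324)) (XT.lf (nat_lit 0) (nat_lit 26646171730)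 (nat_lit 76) (nat_lit 307886852) (nat_lit 152) (nat_lit 16927283582) (nat_lit 53) (nat_lit 5) (nat_lit 54) (nat_lit 5) (nat_lit 55) (nat_lit 4) (nat_lit 479) (nat_lit 398) (nat_lit 323)))))) (XT.nd (nat_lit 546) (nat_lit 684) (nat_lit 0) (XT.nd (nat_lit 234) (nat_lit 380) (nat_lit 0) (XT.nd (nat_lit 78) (nat_lit 152) (nat_lit 0) (XT.lf (nat_lit 0) (nat_lit 2905915107) (nat_lit 152) (nat_lit 21388272825) (nat_lit 76) (nat_lit 21135454785) (nat_lit 51) (nat_lit 5) (nat_lit 53) (nat_lit 5) (nat_lit 52) (nat_lit 4) (nat_lit 480) (nat_lit 398) (nat_lit 322)) (XT.nd (nat_lit 78) (nat_lit 76) (nat_lit 0) (XT.lf (nat_lit 0) (nat_lit 20824583953) (nat_lit 76) (nat_lit 2891935072) (nat_lit 152) (nat_lit 23323736934) (nat_lit 50) (nat_lit 5) (nat_lit 51) (nat_lit 5) (nat_lit 52) (nat_lit 4) (nat_lit 481) (nat_lit 398) (nat_lit 321)) (XT.lf (nat_lit 0) (nat_lit 16913763832) (nat_lit 76) (nat_lit 29178169137)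 (nat_lit 76) (nat_lit 2623738873) (nat_lit 49) (nat_lit 4) (nat_lit 50) (nat_lit 5) (nat_lit 50) (nat_lit 4) (nat_lit 482) (nat_lit 398) (nat_lit 320)))) (XT.nd (nat_lit 156) (nat_lit 152) (nat_lit 0) (XT.nd (nat_lit 78) (nat_lit 76) (nat_lit 0) (XT.lf (nat_lit 0) (nat_lit 12209087526) (nat_lit 76) (nat_lit 6900413276) (nat_lit 152) (nat_lit 31348711653) (nat_lit 47) (nat_lit 5) (nat_lit 48) (nat_lit 5) (nat_lit 49) (nat_lit 4) (nat_lit 483) (nat_lit 398) (nat_lit 319)) (XT.lf (nat_lit 0) (nat_lit 6656195937) (nat_lit 76) (nat_lit 35725618478) (nat_lit 76) (nat_lit 9890086438) (nat_lit 46) (nat_lit 4) (nat_lit 47) (nat_lit 5) (nat_lit 47) (nat_lit 4) (nat_lit 484) (nat_lit 398) (nat_lit 318))) (XT.nd (nat_lit 78) (nat_lit 0) (nat_lit 0) (XT.lf (nat_lit 0) (nat_lit 158804901) (nat_lit 76) (nat_lit 12658767071) (nat_lit 152) (nat_lit 41342373002) (nat_lit 44) (nat_lit 5) (nat_lit 45) (nat_lit 5)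 (nat_lit 46) (nat_lit 4) (nat_lit 485) (nat_lit 398) (nat_lit 317)) (XT.lf (nat_lit 0) (nat_lit 36998224813) (nat_lit 152) (nat_lit 7257801816) (nat_lit 0) (nat_lit 11867162700) (nat_lit 44) (nat_lit 5) (nat_lit 46) (nat_lit 4) (nat_lit 44) (nat_lit 4) (nat_lit 486) (nat_lit 398) (nat_lit 316))))) (XT.nd (nat_lit 234) (nat_lit 380) (nat_lit 0) (XT.nd (nat_lit 78) (nat_lit 152) (nat_lit 0) (XT.lf (nat_lit 0) (nat_lit 4618922388) (nat_lit 152) (nat_lit 15776959210) (nat_lit 76) (nat_lit 37772573534) (nat_lit 42) (nat_lit 5) (nat_lit 44) (nat_lit 5) (nat_lit 43) (nat_lit 4) (nat_lit 487) (nat_lit 398) (nat_lit 315)) (XT.nd (nat_lit 78) (nat_lit 76) (nat_lit 0) (XT.lf (nat_lit 0) (nat_lit 29575977725) (nat_lit 152) (nat_lit 25587080635) (nat_lit 0) (nat_lit 5134600206) (nat_lit 41) (nat_lit 5) (nat_lit 43) (nat_lit 4) (nat_lit 41) (nat_lit 4) (nat_lit 488) (nat_lit 398) (nat_lit 314)) (XT.lf (nat_lit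 0) (nat_lit 25736705075) (nat_lit 76) (nat_lit 30620180452) (nat_lit 76) (nat_lit 6159156898) (nat_lit 40) (nat_lit 4) (nat_lit 41) (nat_lit 5) (nat_lit 41) (nat_lit 4) (nat_lit 489) (nat_lit 398) (nat_lit 313)))) (XT.nd (nat_lit 156) (nat_lit 152) (nat_lit 0) (XT.nd (nat_lit 78) (nat_lit 76) (nat_lit 0) (XT.lf (nat_lit 0) (nat_lit 15351947380) (nat_lit 76) (nat_lit 4269570571) (nat_lit 152) (nat_lit 45206973276) (nat_lit 38) (nat_lit 5) (nat_lit 39) (nat_lit 5) (nat_lit 40) (nat_lit 4) (nat_lit 490) (nat_lit 398) (nat_lit 312)) (XT.lf (nat_lit 0) (nat_lit 3308144813) (nat_lit 76) (nat_lit 43856301509) (nat_lit 76) (nat_lit 20072268892) (nat_lit 37) (nat_lit 4) (nat_lit 38) (nat_lit 5) (nat_lit 38) (nat_lit 4) (nat_lit 491) (nat_lit 398) (nat_lit 311))) (XT.nd (nat_lit 78) (nat_lit 76) (nat_lit 0) (XT.lf (nat_lit 0) (nat_lit 6714422630) (nat_lit 152) (nat_lit 10170231359) (nat_lit 76) (nat_lit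 52863317447) (nat_lit 36) (nat_lit 5) (nat_lit 38) (nat_lit 5) (nat_lit 37) (nat_lit 4) (nat_lit 492) (nat_lit 398) (nat_lit 310)) (XT.lf (nat_lit 0) (nat_lit 34959166539) (nat_lit 152) (nat_lit 25567005836) (nat_lit 0) (nat_lit 11836640929) (nat_lit 35) (nat_lit 5) (nat_lit 37) (nat_lit 4) (nat_lit 35) (nat_lit 4) (nat_lit 493) (nat_lit 398) (nat_lit 309))))))))
noncomputable def xc45 : XT := (XT.nd (nat_lit 56862) (nat_lit 0) (nat_lit 6992) (XT.nd (nat_lit 55848) (nat_lit 0) (nat_lit 17708) (XT.nd (nat_lit 55302) (nat_lit 0) (nat_lit 29716) (XT.nd (nat_lit 234) (nat_lit 304) (nat_lit 0) (XT.nd (nat_lit 78) (nat_lit 152) (nat_lit 0) (XT.lf (nat_lit 0) (nat_lit 32100139907) (nat_lit 76) (nat_lit 33064420162) (nat_lit 76) (nat_lit 9927385001) (nat_lit 34) (nat_lit 4) (nat_lit 35) (nat_lit 5) (nat_lit 35) (nat_lit 4) (nat_lit 494) (nat_lit 398) (nat_lit 308)) (XT.nd (nat_lit 78) (nat_lit 0) (nat_lit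 0) (XT.lf (nat_lit 0) (nat_lit 15278057650) (nat_lit 76) (nat_lit 3652440590) (nat_lit 152) (nat_lit 59010266710) (nat_lit 32) (nat_lit 5) (nat_lit 33) (nat_lit 5) (nat_lit 34) (nat_lit 4) (nat_lit 495) (nat_lit 398) (nat_lit 307)) (XT.lf (nat_lit 0) (nat_lit 49701672904) (nat_lit 152) (nat_lit 3994794463) (nat_lit 0) (nat_lit 27212338564) (nat_lit 32) (nat_lit 5) (nat_lit 34) (nat_lit 4) (nat_lit 32) (nat_lit 4) (nat_lit 496) (nat_lit 398) (nat_lit 306)))) (XT.nd (nat_lit 78) (nat_lit 228) (nat_lit 0) (XT.lf (nat_lit 0) (nat_lit 58647863581) (nat_lit 76) (nat_lit 23930933489) (nat_lit 76) (nat_lit 1429430318) (nat_lit 31) (nat_lit 4) (nat_lit 32) (nat_lit 5) (nat_lit 32) (nat_lit 4) (nat_lit 497) (nat_lit 398) (nat_lit 305)) (XT.nd (nat_lit 78) (nat_lit 76) (nat_lit 0) (XT.lf (nat_lit 0) (nat_lit 29702472980) (nat_lit 152) (nat_lit 49693014720) (nat_lit 0) (nat_lit 7845101589) (nat_lit 29) (nat_lit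 5) (nat_lit 31) (nat_lit 4) (nat_lit 29) (nat_lit 4) (nat_lit 498) (nat_lit 398) (nat_lit 304)) (XT.lf (nat_lit 0) (nat_lit 13444168649) (nat_lit 76) (nat_lit 49519990535) (nat_lit 76) (nat_lit 27651903136) (nat_lit 28) (nat_lit 4) (nat_lit 29) (nat_lit 5) (nat_lit 29) (nat_lit 4) (nat_lit 499) (nat_lit 398) (nat_lit 303))))) (XT.nd (nat_lit 234) (nat_lit 1900) (nat_lit 0) (XT.nd (nat_lit 78) (nat_lit 532) (nat_lit 0) (XT.lf (nat_lit 0) (nat_lit 2263216226) (nat_lit 76) (nat_lit 481783818) (nat_lit 76) (nat_lit 481783818) (nat_lit 451) (nat_lit 4) (nat_lit 452) (nat_lit 5) (nat_lit 452) (nat_lit 4) (nat_lit 402) (nat_lit 399) (nat_lit 399)) (XT.nd (nat_lit 78) (nat_lit 304) (nat_lit 0) (XT.lf (nat_lit 0) (nat_lit 3826369170) (nat_lit 152) (nat_lit 442955528) (nat_lit 228) (nat_lit 2199584196) (nat_lit 448) (nat_lit 5) (nat_lit 450) (nat_lit 5) (nat_lit 451) (nat_lit 4) (nat_lit 403) (nat_lit 399)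 (nat_lit 398)) (XT.lf (nat_lit 0) (nat_lit 2923783645) (nat_lit 304) (nat_lit 3239696485) (nat_lit 76) (nat_lit 328519275) (nat_lit 444) (nat_lit 5) (nat_lit 448) (nat_lit 5) (nat_lit 445) (nat_lit 4) (nat_lit 404) (nat_lit 399) (nat_lit 397)))) (XT.nd (nat_lit 156) (nat_lit 1140) (nat_lit 0) (XT.nd (nat_lit 78) (nat_lit 380) (nat_lit 0) (XT.lf (nat_lit 0) (nat_lit 1453652656) (nat_lit 380) (nat_lit 3723160141) (nat_lit 76) (nat_lit 1345963236) (nat_lit 439) (nat_lit 5) (nat_lit 444) (nat_lit 5) (nat_lit 440) (nat_lit 5) (nat_lit 405) (nat_lit 399) (nat_lit 396)) (XT.lf (nat_lit 0) (nat_lit 2470558930) (nat_lit 380) (nat_lit 3938917743) (nat_lit 456) (nat_lit 151902553) (nat_lit 434) (nat_lit 5) (nat_lit 439) (nat_lit 5) (nat_lit 440) (nat_lit 5) (nat_lit 406) (nat_lit 399) (nat_lit 395))) (XT.nd (nat_lit 78) (nat_lit 608) (nat_lit 0) (XT.lf (nat_lit 0) (nat_lit 2250318524) (nat_lit 456) (nat_lit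 2431577885) (nat_lit 532) (nat_lit 1925559737) (nat_lit 427) (nat_lit 5) (nat_lit 433) (nat_lit 5) (nat_lit 434) (nat_lit 5) (nat_lit 407) (nat_lit 399) (nat_lit 394)) (XT.lf (nat_lit 0) (nat_lit 2153640386) (nat_lit 532) (nat_lit 665015554) (nat_lit 608) (nat_lit 3842862829) (nat_lit 419) (nat_lit 5) (nat_lit 426) (nat_lit 5) (nat_lit 427) (nat_lit 5) (nat_lit 408) (nat_lit 399) (nat_lit 393)))))) (XT.nd (nat_lit 468) (nat_lit 6916) (nat_lit 0) (XT.nd (nat_lit 234) (nat_lit 2888) (nat_lit 0) (XT.nd (nat_lit 78) (nat_lit 1520) (nat_lit 0) (XT.lf (nat_lit 0) (nat_lit 828102213) (nat_lit 684) (nat_lit 4555836359) (nat_lit 76) (nat_lit 1339333795) (nat_lit 410) (nat_lit 5) (nat_lit 419) (nat_lit 5) (nat_lit 411) (nat_lit 5) (nat_lit 409) (nat_lit 399) (nat_lit 392)) (XT.nd (nat_lit 78) (nat_lit 836) (nat_lit 0) (XT.lf (nat_lit 0) (nat_lit 2283658284) (nat_lit 684) (nat_lit 3183969623) (nat_lit 760)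 (nat_lit 1324945282) (nat_lit 401) (nat_lit 5) (nat_lit 410) (nat_lit 5) (nat_lit 411) (nat_lit 5) (nat_lit 410) (nat_lit 399) (nat_lit 391)) (XT.lf (nat_lit 0) (nat_lit 2513264596) (nat_lit 760) (nat_lit 710571470) (nat_lit 836) (nat_lit 3645999240) (nat_lit 390) (nat_lit 5) (nat_lit 400) (nat_lit 5) (nat_lit 401) (nat_lit 5) (nat_lit 411) (nat_lit 399) (nat_lit 390)))) (XT.nd (nat_lit 78) (nat_lit 1976) (nat_lit 0) (XT.lf (nat_lit 0) (nat_lit 850354193) (nat_lit 912) (nat_lit 4108960515) (nat_lit 76) (nat_lit 1995541667) (nat_lit 378) (nat_lit 5) (nat_lit 390) (nat_lit 5) (nat_lit 379) (nat_lit 5) (nat_lit 412) (nat_lit 399) (nat_lit 389)) (XT.nd (nat_lit 78) (nat_lit 1064) (nat_lit 0) (XT.lf (nat_lit 0) (nat_lit 3276837253) (nat_lit 912) (nat_lit 2068332659) (nat_lit 988) (nat_lit 1702433160) (nat_lit 366) (nat_lit 5) (nat_lit 378) (nat_lit 5) (nat_lit 379) (nat_lit 5) (nat_lit 413) (nat_lit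 399) (nat_lit 388)) (XT.lf (nat_lit 0) (nat_lit 2724349115) (nat_lit 1064) (nat_lit 3337421210) (nat_lit 76) (nat_lit 1086554094) (nat_lit 352) (nat_lit 5) (nat_lit 366) (nat_lit 5) (nat_lit 353) (nat_lit 5) (nat_lit 414) (nat_lit 399) (nat_lit 387))))) (XT.nd (nat_lit 234) (nat_lit 3344) (nat_lit 0) (XT.nd (nat_lit 78) (nat_lit 2508) (nat_lit 0) (XT.lf (nat_lit 0) (nat_lit 4446382691) (nat_lit 1064) (nat_lit 2774790622) (nat_lit 1140) (nat_lit 35911057) (nat_lit 338) (nat_lit 5) (nat_lit 352) (nat_lit 5) (nat_lit 353) (nat_lit 5) (nat_lit 415) (nat_lit 399) (nat_lit 386)) (XT.nd (nat_lit 78) (nat_lit 1292) (nat_lit 0) (XT.lf (nat_lit 0) (nat_lit 4361965099) (nat_lit 1216) (nat_lit 2204151934) (nat_lit 76) (nat_lit 807482097) (nat_lit 322) (nat_lit 5) (nat_lit 338) (nat_lit 5) (nat_lit 323) (nat_lit 5) (nat_lit 416) (nat_lit 399) (nat_lit 385)) (XT.lf (nat_lit 0) (nat_lit 1363778785) (nat_lit 1292)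 (nat_lit 1509883053) (nat_lit 76) (nat_lit 4624571634) (nat_lit 305) (nat_lit 5) (nat_lit 322) (nat_lit 5) (nat_lit 306) (nat_lit 5) (nat_lit 417) (nat_lit 399) (nat_lit 384)))) (XT.nd (nat_lit 156) (nat_lit 1216) (nat_lit 0) (XT.nd (nat_lit 78) (nat_lit 1292) (nat_lit 0) (XT.lf (nat_lit 0) (nat_lit 5798037480) (nat_lit 912) (nat_lit 726772103) (nat_lit 76) (nat_lit 1106345405) (nat_lit 294) (nat_lit 5) (nat_lit 306) (nat_lit 5) (nat_lit 295) (nat_lit 5) (nat_lit 418) (nat_lit 399) (nat_lit 383)) (XT.lf (nat_lit 0) (nat_lit 133911994) (nat_lit 608) (nat_lit 2427663479) (nat_lit 684) (nat_lit 5210473064) (nat_lit 277) (nat_lit 5) (nat_lit 285) (nat_lit 5) (nat_lit 286) (nat_lit 5) (nat_lit 419) (nat_lit 399) (nat_lit 382))) (XT.nd (nat_lit 78) (nat_lit 684) (nat_lit 0) (XT.lf (nat_lit 0) (nat_lit 1103086196) (nat_lit 532) (nat_lit 5971190818) (nat_lit 608) (nat_lit 847098020) (nat_lit 270) (nat_lit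 5) (nat_lit 277) (nat_lit 5) (nat_lit 278) (nat_lit 5) (nat_lit 420) (nat_lit 399) (nat_lit 381)) (XT.lf (nat_lit 0) (nat_lit 2143583070) (nat_lit 608) (nat_lit 1460259698) (nat_lit 684) (nat_lit 4474997018) (nat_lit 261) (nat_lit 5) (nat_lit 269) (nat_lit 5) (nat_lit 270) (nat_lit 5) (nat_lit 421) (nat_lit 399) (nat_lit 380))))))) (XT.nd (nat_lit 1014) (nat_lit 4104) (nat_lit 0) (XT.nd (nat_lit 468) (nat_lit 3116) (nat_lit 0) (XT.nd (nat_lit 234) (nat_lit 1824) (nat_lit 0) (XT.nd (nat_lit 78) (nat_lit 1140) (nat_lit 0) (XT.lf (nat_lit 0) (nat_lit 3275616669) (nat_lit 532) (nat_lit 4942563857) (nat_lit 608) (nat_lit 27010700) (nat_lit 254) (nat_lit 5) (nat_lit 261) (nat_lit 5) (nat_lit 262) (nat_lit 5) (nat_lit 422) (nat_lit 399) (nat_lit 379)) (XT.nd (nat_lit 78) (nat_lit 532) (nat_lit 0) (XT.lf (nat_lit 0) (nat_lit 4481342359) (nat_lit 532) (nat_lit 20078766) (nat_lit 608) (nat_lit 3918655333)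 (nat_lit 246) (nat_lit 5) (nat_lit 253) (nat_lit 5) (nat_lit 254) (nat_lit 5) (nat_lit 423) (nat_lit 399) (nat_lit 378)) (XT.lf (nat_lit 0) (nat_lit 630965825) (nat_lit 532) (nat_lit 2839452046) (nat_lit 76) (nat_lit 5133355699) (nat_lit 239) (nat_lit 5) (nat_lit 246) (nat_lit 5) (nat_lit 240) (nat_lit 5) (nat_lit 424) (nat_lit 399) (nat_lit 377)))) (XT.nd (nat_lit 78) (nat_lit 1368) (nat_lit 0) (XT.lf (nat_lit 0) (nat_lit 5295075425) (nat_lit 532) (nat_lit 1671963485) (nat_lit 76) (nat_lit 1829424277) (nat_lit 233) (nat_lit 5) (nat_lit 240) (nat_lit 5) (nat_lit 234) (nat_lit 5) (nat_lit 425) (nat_lit 399) (nat_lit 376)) (XT.nd (nat_lit 78) (nat_lit 836) (nat_lit 0) (XT.lf (nat_lit 0) (nat_lit 1162324453) (nat_lit 532) (nat_lit 424489062) (nat_lit 76) (nat_lit 7411881329) (nat_lit 226) (nat_lit 5) (nat_lit 233) (nat_lit 5) (nat_lit 227) (nat_lit 5) (nat_lit 426) (nat_lit 399) (nat_lit 375)) (XT.lf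 (nat_lit 0) (nat_lit 893631603) (nat_lit 380) (nat_lit 5106412934) (nat_lit 456) (nat_lit 3209568014) (nat_lit 215) (nat_lit 5) (nat_lit 220) (nat_lit 5) (nat_lit 221) (nat_lit 5) (nat_lit 427) (nat_lit 399) (nat_lit 374))))) (XT.nd (nat_lit 234) (nat_lit 1748) (nat_lit 0) (XT.nd (nat_lit 78) (nat_lit 836) (nat_lit 0) (XT.lf (nat_lit 0) (nat_lit 1614829586) (nat_lit 532) (nat_lit 7118053003) (nat_lit 76) (nat_lit 697776102) (nat_lit 208) (nat_lit 5) (nat_lit 215) (nat_lit 5) (nat_lit 209) (nat_lit 5) (nat_lit 428) (nat_lit 399) (nat_lit 373)) (XT.nd (nat_lit 78) (nat_lit 456) (nat_lit 0) (XT.lf (nat_lit 0) (nat_lit 3779909119) (nat_lit 380) (nat_lit 2864675886) (nat_lit 456) (nat_lit 3016313486) (nat_lit 203) (nat_lit 5) (nat_lit 208) (nat_lit 5) (nat_lit 209) (nat_lit 5) (nat_lit 429) (nat_lit 399) (nat_lit 372)) (XT.lf (nat_lit 0) (nat_lit 2001117610) (nat_lit 456) (nat_lit 4572113858) (nat_lit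 76) (nat_lit 3328322219) (nat_lit 197) (nat_lit 5) (nat_lit 203) (nat_lit 5) (nat_lit 198) (nat_lit 5) (nat_lit 430) (nat_lit 399) (nat_lit 371)))) (XT.nd (nat_lit 156) (nat_lit 988) (nat_lit 0) (XT.nd (nat_lit 78) (nat_lit 456) (nat_lit 0) (XT.lf (nat_lit 0) (nat_lit 6956072008) (nat_lit 304) (nat_lit 272115496) (nat_lit 380) (nat_lit 2924532703) (nat_lit 193) (nat_lit 5) (nat_lit 197) (nat_lit 5) (nat_lit 198) (nat_lit 5) (nat_lit 431) (nat_lit 399) (nat_lit 370)) (XT.lf (nat_lit 0) (nat_lit 2315474781) (nat_lit 456) (nat_lit 1777195798) (nat_lit 76) (nat_lit 6321313650) (nat_lit 187) (nat_lit 5) (nat_lit 193) (nat_lit 5) (nat_lit 188) (nat_lit 5) (nat_lit 432) (nat_lit 399) (nat_lit 369))) (XT.nd (nat_lit 78) (nat_lit 684) (nat_lit 0) (XT.lf (nat_lit 0) (nat_lit 7790462357) (nat_lit 380) (nat_lit 286275959) (nat_lit 76) (nat_lit 2609708460) (nat_lit 183) (nat_lit 5) (nat_lit 188) (nat_lit 5)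 (nat_lit 184) (nat_lit 5) (nat_lit 433) (nat_lit 399) (nat_lit 368)) (XT.lf (nat_lit 0) (nat_lit 1294937204) (nat_lit 304) (nat_lit 1287274120) (nat_lit 380) (nat_lit 8387619381) (nat_lit 174) (nat_lit 5) (nat_lit 178) (nat_lit 5) (nat_lit 179) (nat_lit 5) (nat_lit 434) (nat_lit 399) (nat_lit 367)))))) (XT.nd (nat_lit 546) (nat_lit 1748) (nat_lit 0) (XT.nd (nat_lit 234) (nat_lit 1368) (nat_lit 0) (XT.nd (nat_lit 78) (nat_lit 684) (nat_lit 0) (XT.lf (nat_lit 0) (nat_lit 2930685817) (nat_lit 304) (nat_lit 5421416147) (nat_lit 380) (nat_lit 2912098279) (nat_lit 170) (nat_lit 5) (nat_lit 174) (nat_lit 5) (nat_lit 175) (nat_lit 5) (nat_lit 435) (nat_lit 399) (nat_lit 366)) (XT.nd (nat_lit 78) (nat_lit 304) (nat_lit 0) (XT.lf (nat_lit 0) (nat_lit 2836602929) (nat_lit 380) (nat_lit 6925478537) (nat_lit 76) (nat_lit 1808751998) (nat_lit 165) (nat_lit 5) (nat_lit 170) (nat_lit 5) (nat_lit 166) (nat_lit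 5) (nat_lit 436) (nat_lit 399) (nat_lit 365)) (XT.lf (nat_lit 0) (nat_lit 6415116630) (nat_lit 304) (nat_lit 2483069969) (nat_lit 380) (nat_lit 2991182676) (nat_lit 161) (nat_lit 5) (nat_lit 165) (nat_lit 5) (nat_lit 166) (nat_lit 5) (nat_lit 437) (nat_lit 399) (nat_lit 364)))) (XT.nd (nat_lit 156) (nat_lit 760) (nat_lit 0) (XT.nd (nat_lit 78) (nat_lit 304) (nat_lit 0) (XT.lf (nat_lit 0) (nat_lit 3067130834) (nat_lit 304) (nat_lit 3974118744) (nat_lit 76) (nat_lit 5179089115) (nat_lit 157) (nat_lit 5) (nat_lit 161) (nat_lit 5) (nat_lit 158) (nat_lit 5) (nat_lit 438) (nat_lit 399) (nat_lit 363)) (XT.lf (nat_lit 0) (nat_lit 9441884998) (nat_lit 380) (nat_lit 2405304161) (nat_lit 76) (nat_lit 717522733) (nat_lit 153) (nat_lit 5) (nat_lit 158) (nat_lit 5) (nat_lit 154) (nat_lit 5) (nat_lit 439) (nat_lit 399) (nat_lit 362))) (XT.nd (nat_lit 78) (nat_lit 456) (nat_lit 0) (XT.lf (nat_lit 0) (nat_lit 3267947922)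 (nat_lit 304) (nat_lit 806006816) (nat_lit 76) (nat_lit 8847783715) (nat_lit 149) (nat_lit 5) (nat_lit 153) (nat_lit 5) (nat_lit 150) (nat_lit 5) (nat_lit 440) (nat_lit 399) (nat_lit 361)) (XT.lf (nat_lit 0) (nat_lit 873233340) (nat_lit 228) (nat_lit 9145084661) (nat_lit 304) (nat_lit 3274236280) (nat_lit 143) (nat_lit 5) (nat_lit 146) (nat_lit 5) (nat_lit 147) (nat_lit 5) (nat_lit 441) (nat_lit 399) (nat_lit 360))))) (XT.nd (nat_lit 234) (nat_lit 912) (nat_lit 0) (XT.nd (nat_lit 78) (nat_lit 532) (nat_lit 0) (XT.lf (nat_lit 0) (nat_lit 2632303188) (nat_lit 228) (nat_lit 836737013) (nat_lit 304) (nat_lit 10208540656) (nat_lit 139) (nat_lit 5) (nat_lit 142) (nat_lit 5) (nat_lit 143) (nat_lit 5) (nat_lit 442) (nat_lit 399) (nat_lit 359)) (XT.nd (nat_lit 78) (nat_lit 304) (nat_lit 0) (XT.lf (nat_lit 0) (nat_lit 4422128968) (nat_lit 228) (nat_lit 6204281575) (nat_lit 304) (nat_lit 3450140471) (nat_lit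 136) (nat_lit 5) (nat_lit 139) (nat_lit 5) (nat_lit 140) (nat_lit 5) (nat_lit 443) (nat_lit 399) (nat_lit 358)) (XT.lf (nat_lit 0) (nat_lit 3683377157) (nat_lit 304) (nat_lit 8206379521) (nat_lit 76) (nat_lit 2601414964) (nat_lit 132) (nat_lit 5) (nat_lit 136) (nat_lit 5) (nat_lit 133) (nat_lit 5) (nat_lit 444) (nat_lit 399) (nat_lit 357)))) (XT.nd (nat_lit 156) (nat_lit 456) (nat_lit 0) (XT.nd (nat_lit 78) (nat_lit 304) (nat_lit 0) (XT.lf (nat_lit 0) (nat_lit 8194057617) (nat_lit 152) (nat_lit 3052079023) (nat_lit 228) (nat_lit 3675047949) (nat_lit 130) (nat_lit 5) (nat_lit 132) (nat_lit 5) (nat_lit 133) (nat_lit 5) (nat_lit 445) (nat_lit 399) (nat_lit 356)) (XT.lf (nat_lit 0) (nat_lit 3888483794) (nat_lit 304) (nat_lit 5216458868) (nat_lit 76) (nat_lit 6262201578) (nat_lit 126) (nat_lit 5) (nat_lit 130) (nat_lit 5) (nat_lit 127) (nat_lit 5) (nat_lit 446) (nat_lit 399) (nat_lit 355))) (XT.nd (nat_lit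 78) (nat_lit 304) (nat_lit 0) (XT.lf (nat_lit 0) (nat_lit 11881871470) (nat_lit 228) (nat_lit 3645861822) (nat_lit 76) (nat_lit 302749678) (nat_lit 124) (nat_lit 5) (nat_lit 127) (nat_lit 5) (nat_lit 125) (nat_lit 5) (nat_lit 447) (nat_lit 399) (nat_lit 354)) (XT.lf (nat_lit 0) (nat_lit 4074417665) (nat_lit 304) (nat_lit 2074316140) (nat_lit 76) (nat_lit 10161305107) (nat_lit 120) (nat_lit 5) (nat_lit 124) (nat_lit 5) (nat_lit 121) (nat_lit 5) (nat_lit 448) (nat_lit 399) (nat_lit 353))))))))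
noncomputable def xc46 : XT := (XT.nd (nat_lit 2028) (nat_lit 2508) (nat_lit 0) (XT.nd (nat_lit 1014) (nat_lit 1824) (nat_lit 0) (XT.nd (nat_lit 468) (nat_lit 1216) (nat_lit 0) (XT.nd (nat_lit 234) (nat_lit 608) (nat_lit 0) (XT.nd (nat_lit 78) (nat_lit 608) (nat_lit 0) (XT.lf (nat_lit 0) (nat_lit 12560931051) (nat_lit 228) (nat_lit 447466407) (nat_lit 76) (nat_lit 3799685313) (nat_lit 118) (nat_lit 5) (nat_lit 121) (nat_lit 5) (nat_lit 119) (nat_lit 5) (nat_lit 449) (nat_lit 399) (nat_lit 352)) (XT.nd (nat_lit 78) (nat_lit 152) (nat_lit 0) (XT.lf (nat_lit 0) (nat_lit 1233809653) (nat_lit 152) (nat_lit 3014550911) (nat_lit 228) (nat_lit 13075824199) (nat_lit 112) (nat_lit 5) (nat_lit 114) (nat_lit 5) (nat_lit 115) (nat_lit 5) (nat_lit 450) (nat_lit 399) (nat_lit 351)) (XT.lf (nat_lit 0) (nat_lit 2942379908) (nat_lit 152) (nat_lit 10336004513) (nat_lit 228) (nat_lit 4580521214) (nat_lit 110) (nat_lit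 5) (nat_lit 112) (nat_lit 5) (nat_lit 113) (nat_lit 5) (nat_lit 451) (nat_lit 399) (nat_lit 350)))) (XT.nd (nat_lit 78) (nat_lit 380) (nat_lit 0) (XT.lf (nat_lit 0) (nat_lit 4415037355) (nat_lit 228) (nat_lit 13704434190) (nat_lit 76) (nat_lit 294836782) (nat_lit 107) (nat_lit 5) (nat_lit 110) (nat_lit 5) (nat_lit 108) (nat_lit 5) (nat_lit 452) (nat_lit 399) (nat_lit 349)) (XT.nd (nat_lit 78) (nat_lit 228) (nat_lit 0) (XT.lf (nat_lit 0) (nat_lit 6459978467) (nat_lit 152) (nat_lit 7544336573) (nat_lit 228) (nat_lit 4984647578) (nat_lit 105) (nat_lit 5) (nat_lit 107) (nat_lit 5) (nat_lit 108) (nat_lit 5) (nat_lit 453) (nat_lit 399) (nat_lit 348)) (XT.lf (nat_lit 0) (nat_lit 4569820576) (nat_lit 228) (nat_lit 11322430307) (nat_lit 76) (nat_lit 3693512201) (nat_lit 102) (nat_lit 5) (nat_lit 105) (nat_lit 5) (nat_lit 103) (nat_lit 5) (nat_lit 454) (nat_lit 399) (nat_lit 347))))) (XT.nd (nat_lit 234)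 (nat_lit 684) (nat_lit 0) (XT.nd (nat_lit 78) (nat_lit 380) (nat_lit 0) (XT.lf (nat_lit 0) (nat_lit 10072071212) (nat_lit 152) (nat_lit 4651006761) (nat_lit 228) (nat_lit 5481122284) (nat_lit 100) (nat_lit 5) (nat_lit 102) (nat_lit 5) (nat_lit 103) (nat_lit 5) (nat_lit 455) (nat_lit 399) (nat_lit 346)) (XT.nd (nat_lit 78) (nat_lit 152) (nat_lit 0) (XT.lf (nat_lit 0) (nat_lit 4667329434) (nat_lit 228) (nat_lit 8949477977) (nat_lit 76) (nat_lit 7228688331) (nat_lit 97) (nat_lit 5) (nat_lit 100) (nat_lit 5) (nat_lit 98) (nat_lit 5) (nat_lit 456) (nat_lit 399) (nat_lit 345)) (XT.lf (nat_lit 0) (nat_lit 13746246602) (nat_lit 152) (nat_lit 1672527984) (nat_lit 228) (nat_lit 6092187213) (nat_lit 95) (nat_lit 5) (nat_lit 97) (nat_lit 5) (nat_lit 98) (nat_lit 5) (nat_lit 457) (nat_lit 399) (nat_lit 344)))) (XT.nd (nat_lit 156) (nat_lit 304) (nat_lit 0) (XT.nd (nat_lit 78) (nat_lit 152) (nat_lit 0) (XT.lf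 (nat_lit 0) (nat_lit 4685866694) (nat_lit 228) (nat_lit 6629121320) (nat_lit 76) (nat_lit 10885151087) (nat_lit 92) (nat_lit 5) (nat_lit 95) (nat_lit 5) (nat_lit 93) (nat_lit 5) (nat_lit 458) (nat_lit 399) (nat_lit 343)) (XT.lf (nat_lit 0) (nat_lit 16083172762) (nat_lit 228) (nat_lit 5489152538) (nat_lit 76) (nat_lit 1343451564) (nat_lit 90) (nat_lit 5) (nat_lit 93) (nat_lit 5) (nat_lit 91) (nat_lit 4) (nat_lit 459) (nat_lit 399) (nat_lit 342))) (XT.nd (nat_lit 78) (nat_lit 152) (nat_lit 0) (XT.lf (nat_lit 0) (nat_lit 4597470520) (nat_lit 152) (nat_lit 4416406656) (nat_lit 76) (nat_lit 14643061118) (nat_lit 88) (nat_lit 5) (nat_lit 90) (nat_lit 5) (nat_lit 89) (nat_lit 5) (nat_lit 460) (nat_lit 399) (nat_lit 341)) (XT.lf (nat_lit 0) (nat_lit 16691597864) (nat_lit 228) (nat_lit 3370671174) (nat_lit 76) (nat_lit 4363844871) (nat_lit 86) (nat_lit 5) (nat_lit 89) (nat_lit 5) (nat_lit 87) (nat_lit 4)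 (nat_lit 461) (nat_lit 399) (nat_lit 340)))))) (XT.nd (nat_lit 468) (nat_lit 836) (nat_lit 0) (XT.nd (nat_lit 234) (nat_lit 532) (nat_lit 0) (XT.nd (nat_lit 78) (nat_lit 304) (nat_lit 0) (XT.lf (nat_lit 0) (nat_lit 4366754944) (nat_lit 152) (nat_lit 2380301534) (nat_lit 76) (nat_lit 18476758855) (nat_lit 84) (nat_lit 5) (nat_lit 86) (nat_lit 5) (nat_lit 85) (nat_lit 5) (nat_lit 462) (nat_lit 399) (nat_lit 339)) (XT.nd (nat_lit 78) (nat_lit 152) (nat_lit 0) (XT.lf (nat_lit 0) (nat_lit 17191929309) (nat_lit 228) (nat_lit 1470195968) (nat_lit 76) (nat_lit 7388616302) (nat_lit 82) (nat_lit 5) (nat_lit 85) (nat_lit 5) (nat_lit 83) (nat_lit 4) (nat_lit 463) (nat_lit 399) (nat_lit 338)) (XT.lf (nat_lit 0) (nat_lit 3949529315) (nat_lit 152) (nat_lit 606548750) (nat_lit 76) (nat_lit 22353364332) (nat_lit 80) (nat_lit 5) (nat_lit 82) (nat_lit 5) (nat_lit 81) (nat_lit 5) (nat_lit 464) (nat_lit 399) (nat_lit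 337)))) (XT.nd (nat_lit 78) (nat_lit 304) (nat_lit 0) (XT.lf (nat_lit 0) (nat_lit 119201340) (nat_lit 76) (nat_lit 17420734994) (nat_lit 152) (nat_lit 10258765761) (nat_lit 77) (nat_lit 5) (nat_lit 78) (nat_lit 5) (nat_lit 79) (nat_lit 4) (nat_lit 465) (nat_lit 399) (nat_lit 336)) (XT.nd (nat_lit 78) (nat_lit 76) (nat_lit 0) (XT.lf (nat_lit 0) (nat_lit 814868097) (nat_lit 152) (nat_lit 2484124019) (nat_lit 228) (nat_lit 25424097996) (nat_lit 74) (nat_lit 5) (nat_lit 76) (nat_lit 5) (nat_lit 77) (nat_lit 5) (nat_lit 466) (nat_lit 399) (nat_lit 335)) (XT.lf (nat_lit 0) (nat_lit 1298430398) (nat_lit 76) (nat_lit 16389755177) (nat_lit 152) (nat_lit 11991494266) (nat_lit 73) (nat_lit 5) (nat_lit 74) (nat_lit 5) (nat_lit 75) (nat_lit 4) (nat_lit 467) (nat_lit 399) (nat_lit 334))))) (XT.nd (nat_lit 234) (nat_lit 304) (nat_lit 0) (XT.nd (nat_lit 78) (nat_lit 304) (nat_lit 0) (XT.lf (nat_lit 0) (nat_lit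 1740207340) (nat_lit 152) (nat_lit 601144495) (nat_lit 228) (nat_lit 28334043616) (nat_lit 70) (nat_lit 5) (nat_lit 72) (nat_lit 5) (nat_lit 73) (nat_lit 5) (nat_lit 468) (nat_lit 399) (nat_lit 333)) (XT.nd (nat_lit 78) (nat_lit 228) (nat_lit 0) (XT.lf (nat_lit 0) (nat_lit 1891558192) (nat_lit 76) (nat_lit 15659623872) (nat_lit 152) (nat_lit 14153903417) (nat_lit 69) (nat_lit 5) (nat_lit 70) (nat_lit 5) (nat_lit 71) (nat_lit 4) (nat_lit 469) (nat_lit 399) (nat_lit 332)) (XT.lf (nat_lit 0) (nat_lit 997092041) (nat_lit 228) (nat_lit 30792293904) (nat_lit 76) (nat_lit 988376917) (nat_lit 66) (nat_lit 5) (nat_lit 69) (nat_lit 5) (nat_lit 67) (nat_lit 4) (nat_lit 470) (nat_lit 399) (nat_lit 331)))) (XT.nd (nat_lit 156) (nat_lit 152) (nat_lit 0) (XT.nd (nat_lit 78) (nat_lit 76) (nat_lit 0) (XT.lf (nat_lit 0) (nat_lit 1719844025) (nat_lit 76) (nat_lit 15322021737) (nat_lit 152) (nat_lit 16845136338) (nat_lit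 65) (nat_lit 5) (nat_lit 66) (nat_lit 5) (nat_lit 67) (nat_lit 4) (nat_lit 471) (nat_lit 399) (nat_lit 330)) (XT.lf (nat_lit 0) (nat_lit 1352901805) (nat_lit 76) (nat_lit 32830946650) (nat_lit 76) (nat_lit 859006408) (nat_lit 64) (nat_lit 4) (nat_lit 65) (nat_lit 5) (nat_lit 65) (nat_lit 4) (nat_lit 472) (nat_lit 399) (nat_lit 329))) (XT.nd (nat_lit 78) (nat_lit 0) (nat_lit 0) (XT.lf (nat_lit 0) (nat_lit 566376585) (nat_lit 76) (nat_lit 15487837764) (nat_lit 152) (nat_lit 20184536709) (nat_lit 62) (nat_lit 5) (nat_lit 63) (nat_lit 5) (nat_lit 64) (nat_lit 4) (nat_lit 473) (nat_lit 399) (nat_lit 328)) (XT.lf (nat_lit 0) (nat_lit 34117133540) (nat_lit 152) (nat_lit 389055774) (nat_lit 0) (nat_lit 2978344102) (nat_lit 62) (nat_lit 5) (nat_lit 64) (nat_lit 4) (nat_lit 62) (nat_lit 4) (nat_lit 474) (nat_lit 399) (nat_lit 327))))))) (XT.nd (nat_lit 1014) (nat_lit 1140) (nat_lit 0) (XT.nd (nat_lit 468)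 (nat_lit 684) (nat_lit 0) (XT.nd (nat_lit 234) (nat_lit 304) (nat_lit 0) (XT.nd (nat_lit 78) (nat_lit 228) (nat_lit 0) (XT.lf (nat_lit 0) (nat_lit 14477325174) (nat_lit 152) (nat_lit 1795380660) (nat_lit 76) (nat_lit 22501810737) (nat_lit 60) (nat_lit 5) (nat_lit 62) (nat_lit 5) (nat_lit 61) (nat_lit 4) (nat_lit 475) (nat_lit 399) (nat_lit 326)) (XT.nd (nat_lit 78) (nat_lit 152) (nat_lit 0) (XT.lf (nat_lit 0) (nat_lit 33481787506) (nat_lit 152) (nat_lit 3472506459) (nat_lit 0) (nat_lit 3163590900) (nat_lit 59) (nat_lit 5) (nat_lit 61) (nat_lit 4) (nat_lit 59) (nat_lit 4) (nat_lit 476) (nat_lit 399) (nat_lit 325)) (XT.lf (nat_lit 0) (nat_lit 12158902372) (nat_lit 152) (nat_lit 5675746602) (nat_lit 76) (nat_lit 23675842461) (nat_lit 57) (nat_lit 5) (nat_lit 59) (nat_lit 5) (nat_lit 58) (nat_lit 4) (nat_lit 477) (nat_lit 399) (nat_lit 324)))) (XT.nd (nat_lit 78) (nat_lit 228) (nat_lit 0) (XT.lf (nat_lit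 0) (nat_lit 32103898980) (nat_lit 152) (nat_lit 8263728818) (nat_lit 0) (nat_lit 2592705128) (nat_lit 56) (nat_lit 5) (nat_lit 58) (nat_lit 4) (nat_lit 56) (nat_lit 4) (nat_lit 478) (nat_lit 399) (nat_lit 323)) (XT.nd (nat_lit 78) (nat_lit 76) (nat_lit 0) (XT.lf (nat_lit 0) (nat_lit 8910501349) (nat_lit 152) (nat_lit 11458207828) (nat_lit 76) (nat_lit 24096064416) (nat_lit 54) (nat_lit 5) (nat_lit 56) (nat_lit 5) (nat_lit 55) (nat_lit 4) (nat_lit 479) (nat_lit 399) (nat_lit 322)) (XT.lf (nat_lit 0) (nat_lit 29789378229) (nat_lit 152) (nat_lit 15170628209) (nat_lit 0) (nat_lit 1070761899) (nat_lit 53) (nat_lit 5) (nat_lit 55) (nat_lit 4) (nat_lit 53) (nat_lit 4) (nat_lit 480) (nat_lit 399) (nat_lit 321))))) (XT.nd (nat_lit 234) (nat_lit 380) (nat_lit 0) (XT.nd (nat_lit 78) (nat_lit 152) (nat_lit 0) (XT.lf (nat_lit 0) (nat_lit 4512580993) (nat_lit 152) (nat_lit 19589190414) (nat_lit 76) (nat_lit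 23555500845) (nat_lit 51) (nat_lit 5) (nat_lit 53) (nat_lit 5) (nat_lit 52) (nat_lit 4) (nat_lit 481) (nat_lit 399) (nat_lit 320)) (XT.nd (nat_lit 78) (nat_lit 76) (nat_lit 0) (XT.lf (nat_lit 0) (nat_lit 24652084339) (nat_lit 76) (nat_lit 1668825058) (nat_lit 152) (nat_lit 23028791478) (nat_lit 50) (nat_lit 5) (nat_lit 51) (nat_lit 5) (nat_lit 52) (nat_lit 4) (nat_lit 482) (nat_lit 399) (nat_lit 319)) (XT.lf (nat_lit 0) (nat_lit 20494432618) (nat_lit 76) (nat_lit 29291922215) (nat_lit 76) (nat_lit 1323395417) (nat_lit 49) (nat_lit 4) (nat_lit 50) (nat_lit 5) (nat_lit 50) (nat_lit 4) (nat_lit 483) (nat_lit 399) (nat_lit 318)))) (XT.nd (nat_lit 156) (nat_lit 152) (nat_lit 0) (XT.nd (nat_lit 78) (nat_lit 76) (nat_lit 0) (XT.lf (nat_lit 0) (nat_lit 15503268244) (nat_lit 76) (nat_lit 5924263395) (nat_lit 152) (nat_lit 31512705124) (nat_lit 47) (nat_lit 5) (nat_lit 48) (nat_lit 5) (nat_lit 49) (nat_lit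 4) (nat_lit 484) (nat_lit 399) (nat_lit 317)) (XT.lf (nat_lit 0) (nat_lit 9623182057) (nat_lit 76) (nat_lit 36212811723) (nat_lit 76) (nat_lit 9009440274) (nat_lit 46) (nat_lit 4) (nat_lit 47) (nat_lit 5) (nat_lit 47) (nat_lit 4) (nat_lit 485) (nat_lit 399) (nat_lit 316))) (XT.nd (nat_lit 78) (nat_lit 0) (nat_lit 0) (XT.lf (nat_lit 0) (nat_lit 2751486936) (nat_lit 76) (nat_lit 12015920559) (nat_lit 152) (nat_lit 42061257528) (nat_lit 44) (nat_lit 5) (nat_lit 45) (nat_lit 5) (nat_lit 46) (nat_lit 4) (nat_lit 486) (nat_lit 399) (nat_lit 315)) (XT.lf (nat_lit 0) (nat_lit 40106441339) (nat_lit 152) (nat_lit 5133305845) (nat_lit 0) (nat_lit 13651844366) (nat_lit 44) (nat_lit 5) (nat_lit 46) (nat_lit 4) (nat_lit 44) (nat_lit 4) (nat_lit 487) (nat_lit 399) (nat_lit 314)))))) (XT.nd (nat_lit 546) (nat_lit 456) (nat_lit 0) (XT.nd (nat_lit 234) (nat_lit 380) (nat_lit 0) (XT.nd (nat_lit 78) (nat_lit 152)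 (nat_lit 0) (XT.lf (nat_lit 0) (nat_lit 6083582095) (nat_lit 152) (nat_lit 14125160734) (nat_lit 76) (nat_lit 40831116174) (nat_lit 42) (nat_lit 5) (nat_lit 44) (nat_lit 5) (nat_lit 43) (nat_lit 4) (nat_lit 488) (nat_lit 399) (nat_lit 313)) (XT.nd (nat_lit 78) (nat_lit 76) (nat_lit 0) (XT.lf (nat_lit 0) (nat_lit 32263805355) (nat_lit 152) (nat_lit 24471084077) (nat_lit 0) (nat_lit 6541374080) (nat_lit 41) (nat_lit 5) (nat_lit 43) (nat_lit 4) (nat_lit 41) (nat_lit 4) (nat_lit 489) (nat_lit 399) (nat_lit 312)) (XT.lf (nat_lit 0) (nat_lit 29350228675) (nat_lit 76) (nat_lit 30998322626) (nat_lit 76) (nat_lit 5258071818) (nat_lit 40) (nat_lit 4) (nat_lit 41) (nat_lit 5) (nat_lit 41) (nat_lit 4) (nat_lit 490) (nat_lit 399) (nat_lit 311)))) (XT.nd (nat_lit 156) (nat_lit 152) (nat_lit 0) (XT.nd (nat_lit 78) (nat_lit 76) (nat_lit 0) (XT.lf (nat_lit 0) (nat_lit 18402461937) (nat_lit 76) (nat_lit 3351076844)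 (nat_lit 152) (nat_lit 46281842389) (nat_lit 38) (nat_lit 5) (nat_lit 39) (nat_lit 5) (nat_lit 40) (nat_lit 4) (nat_lit 491) (nat_lit 399) (nat_lit 310)) (XT.lf (nat_lit 0) (nat_lit 5714005268) (nat_lit 76) (nat_lit 44936701066) (nat_lit 76) (nat_lit 19913997539) (nat_lit 37) (nat_lit 4) (nat_lit 38) (nat_lit 5) (nat_lit 38) (nat_lit 4) (nat_lit 492) (nat_lit 399) (nat_lit 309))) (XT.nd (nat_lit 78) (nat_lit 76) (nat_lit 0) (XT.lf (nat_lit 0) (nat_lit 8135107800) (nat_lit 152) (nat_lit 8523379528) (nat_lit 76) (nat_lit 56544328237) (nat_lit 36) (nat_lit 5) (nat_lit 38) (nat_lit 5) (nat_lit 37) (nat_lit 4) (nat_lit 493) (nat_lit 399) (nat_lit 308)) (XT.lf (nat_lit 0) (nat_lit 37770547345) (nat_lit 152) (nat_lit 24730166433) (nat_lit 0) (nat_lit 13448332257) (nat_lit 35) (nat_lit 5) (nat_lit 37) (nat_lit 4) (nat_lit 35) (nat_lit 4) (nat_lit 494) (nat_lit 399) (nat_lit 307))))) (XT.nd (nat_lit 234)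 (nat_lit 228) (nat_lit 0) (XT.nd (nat_lit 78) (nat_lit 152) (nat_lit 0) (XT.lf (nat_lit 0) (nat_lit 35759705109) (nat_lit 76) (nat_lit 33695615948) (nat_lit 76) (nat_lit 9360240269) (nat_lit 34) (nat_lit 4) (nat_lit 35) (nat_lit 5) (nat_lit 35) (nat_lit 4) (nat_lit 495) (nat_lit 399) (nat_lit 306)) (XT.nd (nat_lit 78) (nat_lit 0) (nat_lit 0) (XT.lf (nat_lit 0) (nat_lit 18057788073) (nat_lit 76) (nat_lit 2831718156) (nat_lit 152) (nat_lit 60917917846) (nat_lit 32) (nat_lit 5) (nat_lit 33) (nat_lit 5) (nat_lit 34) (nat_lit 4) (nat_lit 496) (nat_lit 399) (nat_lit 305)) (XT.lf (nat_lit 0) (nat_lit 53160211632) (nat_lit 152) (nat_lit 2254951422) (nat_lit 0) (nat_lit 29509875110) (nat_lit 32) (nat_lit 5) (nat_lit 34) (nat_lit 4) (nat_lit 32) (nat_lit 4) (nat_lit 497) (nat_lit 399) (nat_lit 304)))) (XT.nd (nat_lit 54834) (nat_lit 0) (nat_lit 32148) (XT.nd (nat_lit 78) (nat_lit 152) (nat_lit 0) (XT.lf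 (nat_lit 0) (nat_lit 63464241774) (nat_lit 76) (nat_lit 24188705245) (nat_lit 76) (nat_lit 527331235) (nat_lit 31) (nat_lit 4) (nat_lit 32) (nat_lit 5) (nat_lit 32) (nat_lit 4) (nat_lit 498) (nat_lit 399) (nat_lit 303)) (XT.lf (nat_lit 0) (nat_lit 32123340365) (nat_lit 152) (nat_lit 50310275326) (nat_lit 0) (nat_lit 9140926868) (nat_lit 29) (nat_lit 5) (nat_lit 31) (nat_lit 4) (nat_lit 29) (nat_lit 4) (nat_lit 499) (nat_lit 399) (nat_lit 302))) (XT.nd (nat_lit 78) (nat_lit 76) (nat_lit 0) (XT.lf (nat_lit 0) (nat_lit 0) (nat_lit 0) (nat_lit 0) (nat_lit 0) (nat_lit 1073741823) (nat_lit 1) (nat_lit 0) (nat_lit 1) (nat_lit 0) (nat_lit 453) (nat_lit 0) (nat_lit 400) (nat_lit 400) (nat_lit 400)) (XT.lf (nat_lit 0) (nat_lit 5219082192) (nat_lit 76) (nat_lit 1090217643) (nat_lit 0) (nat_lit 136704225) (nat_lit 452) (nat_lit 5) (nat_lit 453) (nat_lit 0) (nat_lit 452) (nat_lit 4) (nat_lit 401) (nat_lit 400)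 (nat_lit 399))))))))
noncomputable def xc47 : XT := (XT.nd (nat_lit 2028) (nat_lit 8740) (nat_lit 0) (XT.nd (nat_lit 1014) (nat_lit 10032) (nat_lit 0) (XT.nd (nat_lit 468) (nat_lit 5624) (nat_lit 0) (XT.nd (nat_lit 234) (nat_lit 1292) (nat_lit 0) (XT.nd (nat_lit 78) (nat_lit 532) (nat_lit 0) (XT.lf (nat_lit 0) (nat_lit 3873796392) (nat_lit 152) (nat_lit 2058931259) (nat_lit 76) (nat_lit 524619900) (nat_lit 450) (nat_lit 5) (nat_lit 452) (nat_lit 5) (nat_lit 451) (nat_lit 4) (nat_lit 402) (nat_lit 400) (nat_lit 398)) (XT.nd (nat_lit 78) (nat_lit 304) (nat_lit 0) (XT.lf (nat_lit 0) (nat_lit 2403791778) (nat_lit 228) (nat_lit 2907832816) (nat_lit 76) (nat_lit 1164877617) (nat_lit 447) (nat_lit 5) (nat_lit 450) (nat_lit 5) (nat_lit 448) (nat_lit 5) (nat_lit 403) (nat_lit 400) (nat_lit 397)) (XT.lf (nat_lit 0) (nat_lit 805897433) (nat_lit 304) (nat_lit 3638255593) (nat_lit 76) (nat_lit 2059350171) (nat_lit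 443) (nat_lit 5) (nat_lit 447) (nat_lit 5) (nat_lit 444) (nat_lit 5) (nat_lit 404) (nat_lit 400) (nat_lit 396)))) (XT.nd (nat_lit 78) (nat_lit 988) (nat_lit 0) (XT.lf (nat_lit 0) (nat_lit 2277899842) (nat_lit 304) (nat_lit 3318418089) (nat_lit 380) (nat_lit 941810571) (nat_lit 439) (nat_lit 5) (nat_lit 443) (nat_lit 5) (nat_lit 444) (nat_lit 5) (nat_lit 405) (nat_lit 400) (nat_lit 395)) (XT.nd (nat_lit 78) (nat_lit 532) (nat_lit 0) (XT.lf (nat_lit 0) (nat_lit 1805891527) (nat_lit 380) (nat_lit 1930931071) (nat_lit 456) (nat_lit 2843614422) (nat_lit 433) (nat_lit 5) (nat_lit 438) (nat_lit 5) (nat_lit 439) (nat_lit 5) (nat_lit 406) (nat_lit 400) (nat_lit 394)) (XT.lf (nat_lit 0) (nat_lit 1457134838) (nat_lit 456) (nat_lit 285730863) (nat_lit 532) (nat_lit 4887877646) (nat_lit 426) (nat_lit 5) (nat_lit 432) (nat_lit 5) (nat_lit 433) (nat_lit 5) (nat_lit 407) (nat_lit 400) (nat_lit 393))))) (XT.nd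 (nat_lit 234) (nat_lit 3648) (nat_lit 0) (XT.nd (nat_lit 78) (nat_lit 1444) (nat_lit 0) (XT.lf (nat_lit 0) (nat_lit 1211930535) (nat_lit 532) (nat_lit 5094497976) (nat_lit 608) (nat_lit 382133325) (nat_lit 419) (nat_lit 5) (nat_lit 426) (nat_lit 5) (nat_lit 427) (nat_lit 5) (nat_lit 408) (nat_lit 400) (nat_lit 392)) (XT.nd (nat_lit 78) (nat_lit 760) (nat_lit 0) (XT.lf (nat_lit 0) (nat_lit 1066150943) (nat_lit 608) (nat_lit 3004160077) (nat_lit 684) (nat_lit 2683553486) (nat_lit 410) (nat_lit 5) (nat_lit 418) (nat_lit 5) (nat_lit 419) (nat_lit 5) (nat_lit 409) (nat_lit 400) (nat_lit 391)) (XT.lf (nat_lit 0) (nat_lit 1040970041) (nat_lit 684) (nat_lit 651310496) (nat_lit 760) (nat_lit 5135084048) (nat_lit 400) (nat_lit 5) (nat_lit 409) (nat_lit 5) (nat_lit 410) (nat_lit 5) (nat_lit 410) (nat_lit 400) (nat_lit 390)))) (XT.nd (nat_lit 156) (nat_lit 1976) (nat_lit 0) (XT.nd (nat_lit 78) (nat_lit 912)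 (nat_lit 0) (XT.lf (nat_lit 0) (nat_lit 1109787556) (nat_lit 760) (nat_lit 4967809562) (nat_lit 836) (nat_lit 830791121) (nat_lit 390) (nat_lit 5) (nat_lit 400) (nat_lit 5) (nat_lit 401) (nat_lit 5) (nat_lit 411) (nat_lit 400) (nat_lit 389)) (XT.lf (nat_lit 0) (nat_lit 1274109148) (nat_lit 836) (nat_lit 2187410931) (nat_lit 912) (nat_lit 3535564765) (nat_lit 378) (nat_lit 5) (nat_lit 389) (nat_lit 5) (nat_lit 390) (nat_lit 5) (nat_lit 412) (nat_lit 400) (nat_lit 388))) (XT.nd (nat_lit 78) (nat_lit 988) (nat_lit 0) (XT.lf (nat_lit 0) (nat_lit 701113836) (nat_lit 988) (nat_lit 5543479094) (nat_lit 76) (nat_lit 849456275) (nat_lit 365) (nat_lit 5) (nat_lit 378) (nat_lit 5) (nat_lit 366) (nat_lit 5) (nat_lit 413) (nat_lit 400) (nat_lit 387)) (XT.lf (nat_lit 0) (nat_lit 1903236786) (nat_lit 988) (nat_lit 3056176703) (nat_lit 1064) (nat_lit 2238936449) (nat_lit 352) (nat_lit 5) (nat_lit 365) (nat_lit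 5) (nat_lit 366) (nat_lit 5) (nat_lit 414) (nat_lit 400) (nat_lit 386)))))) (XT.nd (nat_lit 468) (nat_lit 4256) (nat_lit 0) (XT.nd (nat_lit 234) (nat_lit 2204) (nat_lit 0) (XT.nd (nat_lit 78) (nat_lit 2432) (nat_lit 0) (XT.lf (nat_lit 0) (nat_lit 1954641110) (nat_lit 1140) (nat_lit 4945640455) (nat_lit 76) (nat_lit 410796576) (nat_lit 337) (nat_lit 5) (nat_lit 352) (nat_lit 5) (nat_lit 338) (nat_lit 5) (nat_lit 415) (nat_lit 400) (nat_lit 385)) (XT.nd (nat_lit 78) (nat_lit 1292) (nat_lit 0) (XT.lf (nat_lit 0) (nat_lit 2905996929) (nat_lit 1140) (nat_lit 3317220819) (nat_lit 1216) (nat_lit 1208233739) (nat_lit 322) (nat_lit 5) (nat_lit 337) (nat_lit 5) (nat_lit 338) (nat_lit 5) (nat_lit 416) (nat_lit 400) (nat_lit 384)) (XT.lf (nat_lit 0) (nat_lit 2980310057) (nat_lit 1292) (nat_lit 4017186112) (nat_lit 76) (nat_lit 562630099) (nat_lit 305) (nat_lit 5) (nat_lit 322) (nat_lit 5) (nat_lit 306) (nat_lit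 5) (nat_lit 417) (nat_lit 400) (nat_lit 383)))) (XT.nd (nat_lit 78) (nat_lit 1368) (nat_lit 0) (XT.lf (nat_lit 0) (nat_lit 4265060620) (nat_lit 836) (nat_lit 3020985497) (nat_lit 912) (nat_lit 410867015) (nat_lit 294) (nat_lit 5) (nat_lit 305) (nat_lit 5) (nat_lit 306) (nat_lit 5) (nat_lit 418) (nat_lit 400) (nat_lit 382)) (XT.nd (nat_lit 78) (nat_lit 684) (nat_lit 0) (XT.lf (nat_lit 0) (nat_lit 3808506556) (nat_lit 684) (nat_lit 2773687344) (nat_lit 76) (nat_lit 1259638562) (nat_lit 285) (nat_lit 5) (nat_lit 294) (nat_lit 5) (nat_lit 286) (nat_lit 5) (nat_lit 419) (nat_lit 400) (nat_lit 381)) (XT.lf (nat_lit 0) (nat_lit 178326697) (nat_lit 684) (nat_lit 2029611210) (nat_lit 76) (nat_lit 5787492599) (nat_lit 276) (nat_lit 5) (nat_lit 285) (nat_lit 5) (nat_lit 277) (nat_lit 5) (nat_lit 420) (nat_lit 400) (nat_lit 380))))) (XT.nd (nat_lit 234) (nat_lit 1976) (nat_lit 0) (XT.nd (nat_lit 78) (nat_lit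 1748) (nat_lit 0) (XT.lf (nat_lit 0) (nat_lit 4466146097) (nat_lit 608) (nat_lit 1226667734) (nat_lit 76) (nat_lit 2464242759) (nat_lit 269) (nat_lit 5) (nat_lit 277) (nat_lit 5) (nat_lit 270) (nat_lit 5) (nat_lit 421) (nat_lit 400) (nat_lit 379)) (XT.nd (nat_lit 78) (nat_lit 1064) (nat_lit 0) (XT.lf (nat_lit 0) (nat_lit 583644062) (nat_lit 684) (nat_lit 328912455) (nat_lit 76) (nat_lit 7415400224) (nat_lit 260) (nat_lit 5) (nat_lit 269) (nat_lit 5) (nat_lit 261) (nat_lit 5) (nat_lit 422) (nat_lit 400) (nat_lit 378)) (XT.lf (nat_lit 0) (nat_lit 628235436) (nat_lit 532) (nat_lit 4354866945) (nat_lit 608) (nat_lit 3523592129) (nat_lit 246) (nat_lit 5) (nat_lit 253) (nat_lit 5) (nat_lit 254) (nat_lit 5) (nat_lit 423) (nat_lit 400) (nat_lit 377)))) (XT.nd (nat_lit 156) (nat_lit 988) (nat_lit 0) (XT.nd (nat_lit 78) (nat_lit 456) (nat_lit 0) (XT.lf (nat_lit 0) (nat_lit 859375699) (nat_lit 532) (nat_lit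 7002549826) (nat_lit 76) (nat_lit 833126905) (nat_lit 239) (nat_lit 5) (nat_lit 246) (nat_lit 5) (nat_lit 240) (nat_lit 5) (nat_lit 424) (nat_lit 400) (nat_lit 376)) (XT.lf (nat_lit 0) (nat_lit 2804316284) (nat_lit 456) (nat_lit 2584986314) (nat_lit 532) (nat_lit 3502471036) (nat_lit 233) (nat_lit 5) (nat_lit 239) (nat_lit 5) (nat_lit 240) (nat_lit 5) (nat_lit 425) (nat_lit 400) (nat_lit 375))) (XT.nd (nat_lit 78) (nat_lit 456) (nat_lit 0) (XT.lf (nat_lit 0) (nat_lit 1019084937) (nat_lit 532) (nat_lit 5092743002) (nat_lit 76) (nat_lit 2986448632) (nat_lit 226) (nat_lit 5) (nat_lit 233) (nat_lit 5) (nat_lit 227) (nat_lit 5) (nat_lit 426) (nat_lit 400) (nat_lit 374)) (XT.lf (nat_lit 0) (nat_lit 5275370535) (nat_lit 456) (nat_lit 415954481) (nat_lit 532) (nat_lit 3622839040) (nat_lit 220) (nat_lit 5) (nat_lit 226) (nat_lit 5) (nat_lit 227) (nat_lit 5) (nat_lit 427) (nat_lit 400) (nat_lit 373)))))))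 (XT.nd (nat_lit 1014) (nat_lit 3344) (nat_lit 0) (XT.nd (nat_lit 468) (nat_lit 2584) (nat_lit 0) (XT.nd (nat_lit 234) (nat_lit 1444) (nat_lit 0) (XT.nd (nat_lit 78) (nat_lit 912) (nat_lit 0) (XT.lf (nat_lit 0) (nat_lit 1067164591) (nat_lit 456) (nat_lit 2927341346) (nat_lit 76) (nat_lit 5545102160) (nat_lit 214) (nat_lit 5) (nat_lit 220) (nat_lit 5) (nat_lit 215) (nat_lit 5) (nat_lit 428) (nat_lit 400) (nat_lit 372)) (XT.nd (nat_lit 78) (nat_lit 456) (nat_lit 0) (XT.lf (nat_lit 0) (nat_lit 5926105904) (nat_lit 532) (nat_lit 1753908389) (nat_lit 76) (nat_lit 2094962760) (nat_lit 208) (nat_lit 5) (nat_lit 215) (nat_lit 5) (nat_lit 209) (nat_lit 5) (nat_lit 429) (nat_lit 400) (nat_lit 371)) (XT.lf (nat_lit 0) (nat_lit 1017861656) (nat_lit 456) (nat_lit 506175629) (nat_lit 76) (nat_lit 8496847770) (nat_lit 202) (nat_lit 5) (nat_lit 208) (nat_lit 5) (nat_lit 203) (nat_lit 5) (nat_lit 430) (nat_lit 400)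 (nat_lit 370)))) (XT.nd (nat_lit 78) (nat_lit 760) (nat_lit 0) (XT.lf (nat_lit 0) (nat_lit 796879813) (nat_lit 304) (nat_lit 5305839457) (nat_lit 380) (nat_lit 4173602842) (nat_lit 193) (nat_lit 5) (nat_lit 197) (nat_lit 5) (nat_lit 198) (nat_lit 5) (nat_lit 431) (nat_lit 400) (nat_lit 369)) (XT.nd (nat_lit 78) (nat_lit 304) (nat_lit 0) (XT.lf (nat_lit 0) (nat_lit 917312593) (nat_lit 456) (nat_lit 8340069884) (nat_lit 76) (nat_lit 1285771693) (nat_lit 187) (nat_lit 5) (nat_lit 193) (nat_lit 5) (nat_lit 188) (nat_lit 5) (nat_lit 432) (nat_lit 400) (nat_lit 368)) (XT.lf (nat_lit 0) (nat_lit 3645038270) (nat_lit 304) (nat_lit 2596609888) (nat_lit 380) (nat_lit 4578491792) (nat_lit 183) (nat_lit 5) (nat_lit 187) (nat_lit 5) (nat_lit 188) (nat_lit 5) (nat_lit 433) (nat_lit 400) (nat_lit 367))))) (XT.nd (nat_lit 234) (nat_lit 1520) (nat_lit 0) (XT.nd (nat_lit 78) (nat_lit 684) (nat_lit 0) (XT.lf (nat_lit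 0) (nat_lit 767415831) (nat_lit 380) (nat_lit 5938356693) (nat_lit 76) (nat_lit 4403193547) (nat_lit 178) (nat_lit 5) (nat_lit 183) (nat_lit 5) (nat_lit 179) (nat_lit 5) (nat_lit 434) (nat_lit 400) (nat_lit 366)) (XT.nd (nat_lit 78) (nat_lit 380) (nat_lit 0) (XT.lf (nat_lit 0) (nat_lit 6340487207) (nat_lit 380) (nat_lit 4653311616) (nat_lit 76) (nat_lit 415444597) (nat_lit 174) (nat_lit 5) (nat_lit 179) (nat_lit 5) (nat_lit 175) (nat_lit 5) (nat_lit 435) (nat_lit 400) (nat_lit 365)) (XT.lf (nat_lit 0) (nat_lit 557009784) (nat_lit 380) (nat_lit 3314959599) (nat_lit 76) (nat_lit 7849482763) (nat_lit 169) (nat_lit 5) (nat_lit 174) (nat_lit 5) (nat_lit 170) (nat_lit 5) (nat_lit 436) (nat_lit 400) (nat_lit 364)))) (XT.nd (nat_lit 156) (nat_lit 836) (nat_lit 0) (XT.nd (nat_lit 78) (nat_lit 380) (nat_lit 0) (XT.lf (nat_lit 0) (nat_lit 6432109520) (nat_lit 380) (nat_lit 1935048684) (nat_lit 76) (nat_lit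 3678427116) (nat_lit 165) (nat_lit 5) (nat_lit 170) (nat_lit 5) (nat_lit 166) (nat_lit 5) (nat_lit 437) (nat_lit 400) (nat_lit 363)) (XT.lf (nat_lit 0) (nat_lit 292817691) (nat_lit 380) (nat_lit 466765483) (nat_lit 76) (nat_lit 11623826122) (nat_lit 160) (nat_lit 5) (nat_lit 165) (nat_lit 5) (nat_lit 161) (nat_lit 5) (nat_lit 438) (nat_lit 400) (nat_lit 362))) (XT.nd (nat_lit 78) (nat_lit 304) (nat_lit 0) (XT.lf (nat_lit 0) (nat_lit 1028020212) (nat_lit 304) (nat_lit 5480751096) (nat_lit 380) (nat_lit 6223777711) (nat_lit 153) (nat_lit 5) (nat_lit 157) (nat_lit 5) (nat_lit 158) (nat_lit 5) (nat_lit 439) (nat_lit 400) (nat_lit 361)) (XT.lf (nat_lit 0) (nat_lit 30874657) (nat_lit 304) (nat_lit 10461170186) (nat_lit 76) (nat_lit 2604326298) (nat_lit 149) (nat_lit 5) (nat_lit 153) (nat_lit 5) (nat_lit 150) (nat_lit 5) (nat_lit 440) (nat_lit 400) (nat_lit 360)))))) (XT.nd (nat_lit 546) (nat_lit 1596)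 (nat_lit 0) (XT.nd (nat_lit 234) (nat_lit 988) (nat_lit 0) (XT.nd (nat_lit 78) (nat_lit 532) (nat_lit 0) (XT.lf (nat_lit 0) (nat_lit 4262185982) (nat_lit 228) (nat_lit 2325238697) (nat_lit 304) (nat_lit 6885579100) (nat_lit 146) (nat_lit 5) (nat_lit 149) (nat_lit 5) (nat_lit 150) (nat_lit 5) (nat_lit 441) (nat_lit 400) (nat_lit 359)) (XT.nd (nat_lit 78) (nat_lit 304) (nat_lit 0) (XT.lf (nat_lit 0) (nat_lit 5969350300) (nat_lit 228) (nat_lit 7630095117) (nat_lit 304) (nat_lit 265197647) (nat_lit 143) (nat_lit 5) (nat_lit 146) (nat_lit 5) (nat_lit 147) (nat_lit 5) (nat_lit 442) (nat_lit 400) (nat_lit 358)) (XT.lf (nat_lit 0) (nat_lit 6663320735) (nat_lit 304) (nat_lit 6549586054) (nat_lit 76) (nat_lit 1057805659) (nat_lit 139) (nat_lit 5) (nat_lit 143) (nat_lit 5) (nat_lit 140) (nat_lit 5) (nat_lit 443) (nat_lit 400) (nat_lit 357)))) (XT.nd (nat_lit 156) (nat_lit 456) (nat_lit 0) (XT.nd (nat_lit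 78) (nat_lit 304) (nat_lit 0) (XT.lf (nat_lit 0) (nat_lit 9538288980) (nat_lit 228) (nat_lit 4551519114) (nat_lit 304) (nat_lit 602491402) (nat_lit 136) (nat_lit 5) (nat_lit 139) (nat_lit 5) (nat_lit 140) (nat_lit 5) (nat_lit 444) (nat_lit 400) (nat_lit 356)) (XT.lf (nat_lit 0) (nat_lit 6752716727) (nat_lit 304) (nat_lit 3737206295) (nat_lit 76) (nat_lit 4639144123) (nat_lit 132) (nat_lit 5) (nat_lit 136) (nat_lit 5) (nat_lit 133) (nat_lit 5) (nat_lit 445) (nat_lit 400) (nat_lit 355))) (XT.nd (nat_lit 78) (nat_lit 304) (nat_lit 0) (XT.lf (nat_lit 0) (nat_lit 13343383036) (nat_lit 152) (nat_lit 1258402217) (nat_lit 228) (nat_lit 981555494) (nat_lit 130) (nat_lit 5) (nat_lit 132) (nat_lit 5) (nat_lit 133) (nat_lit 5) (nat_lit 446) (nat_lit 400) (nat_lit 354)) (XT.lf (nat_lit 0) (nat_lit 6832970805) (nat_lit 304) (nat_lit 755367439) (nat_lit 76) (nat_lit 8464566253) (nat_lit 126) (nat_lit 5) (nat_lit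 130) (nat_lit 5) (nat_lit 127) (nat_lit 5) (nat_lit 447) (nat_lit 400) (nat_lit 353))))) (XT.nd (nat_lit 234) (nat_lit 760) (nat_lit 0) (XT.nd (nat_lit 78) (nat_lit 456) (nat_lit 0) (XT.lf (nat_lit 0) (nat_lit 836222306) (nat_lit 228) (nat_lit 14329465867) (nat_lit 304) (nat_lit 1375536710) (nat_lit 121) (nat_lit 5) (nat_lit 124) (nat_lit 5) (nat_lit 125) (nat_lit 5) (nat_lit 448) (nat_lit 400) (nat_lit 352)) (XT.nd (nat_lit 78) (nat_lit 228) (nat_lit 0) (XT.lf (nat_lit 0) (nat_lit 2436629554) (nat_lit 152) (nat_lit 4488117417) (nat_lit 228) (nat_lit 10121311915) (nat_lit 118) (nat_lit 5) (nat_lit 120) (nat_lit 5) (nat_lit 121) (nat_lit 5) (nat_lit 449) (nat_lit 400) (nat_lit 351)) (XT.lf (nat_lit 0) (nat_lit 4104541935) (nat_lit 228) (nat_lit 11683025536) (nat_lit 304) (nat_lit 1782882009) (nat_lit 115) (nat_lit 5) (nat_lit 118) (nat_lit 5) (nat_lit 119) (nat_lit 5) (nat_lit 450) (nat_lit 400)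 (nat_lit 350)))) (XT.nd (nat_lit 156) (nat_lit 380) (nat_lit 0) (XT.nd (nat_lit 78) (nat_lit 152) (nat_lit 0) (XT.lf (nat_lit 0) (nat_lit 5798739340) (nat_lit 152) (nat_lit 1209182892) (nat_lit 228) (nat_lit 11105983736) (nat_lit 112) (nat_lit 5) (nat_lit 114) (nat_lit 5) (nat_lit 115) (nat_lit 5) (nat_lit 451) (nat_lit 400) (nat_lit 349)) (XT.lf (nat_lit 0) (nat_lit 7519684981) (nat_lit 152) (nat_lit 8908963202) (nat_lit 228) (nat_lit 2248542184) (nat_lit 110) (nat_lit 5) (nat_lit 112) (nat_lit 5) (nat_lit 113) (nat_lit 5) (nat_lit 452) (nat_lit 400) (nat_lit 348))) (XT.nd (nat_lit 78) (nat_lit 152) (nat_lit 0) (XT.lf (nat_lit 0) (nat_lit 7087521121) (nat_lit 228) (nat_lit 9983230383) (nat_lit 76) (nat_lit 2190655360) (nat_lit 107) (nat_lit 5) (nat_lit 110) (nat_lit 5) (nat_lit 108) (nat_lit 5) (nat_lit 453) (nat_lit 400) (nat_lit 347)) (XT.lf (nat_lit 0) (nat_lit 11063093605) (nat_lit 152) (nat_lit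 6017563043) (nat_lit 228) (nat_lit 2786408495) (nat_lit 105) (nat_lit 5) (nat_lit 107) (nat_lit 5) (nat_lit 108) (nat_lit 5) (nat_lit 454) (nat_lit 400) (nat_lit 346))))))))
noncomputable def xc48 : XT := (XT.nd (nat_lit 2028) (nat_lit 1824) (nat_lit 0) (XT.nd (nat_lit 1014) (nat_lit 1520) (nat_lit 0) (XT.nd (nat_lit 468) (nat_lit 1216) (nat_lit 0) (XT.nd (nat_lit 234) (nat_lit 532) (nat_lit 0) (XT.nd (nat_lit 78) (nat_lit 380) (nat_lit 0) (XT.lf (nat_lit 0) (nat_lit 7142215013) (nat_lit 228) (nat_lit 7632896024) (nat_lit 76) (nat_lit 5719565927) (nat_lit 102) (nat_lit 5) (nat_lit 105) (nat_lit 5) (nat_lit 103) (nat_lit 5) (nat_lit 455) (nat_lit 400) (nat_lit 345)) (XT.nd (nat_lit 78) (nat_lit 228) (nat_lit 0) (XT.lf (nat_lit 0) (nat_lit 14709343051) (nat_lit 152) (nat_lit 3021913128) (nat_lit 228) (nat_lit 3414938912) (nat_lit 100) (nat_lit 5) (nat_lit 102) (nat_lit 5) (nat_lit 103) (nat_lit 5)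 (nat_lit 456) (nat_lit 400) (nat_lit 344)) (XT.lf (nat_lit 0) (nat_lit 7142668337) (nat_lit 228) (nat_lit 5288226868) (nat_lit 76) (nat_lit 9389565806) (nat_lit 97) (nat_lit 5) (nat_lit 100) (nat_lit 5) (nat_lit 98) (nat_lit 5) (nat_lit 457) (nat_lit 400) (nat_lit 343)))) (XT.nd (nat_lit 78) (nat_lit 380) (nat_lit 0) (XT.lf (nat_lit 0) (nat_lit 18363877080) (nat_lit 228) (nat_lit 4097335001) (nat_lit 76) (nat_lit 60024947) (nat_lit 95) (nat_lit 5) (nat_lit 98) (nat_lit 5) (nat_lit 96) (nat_lit 4) (nat_lit 458) (nat_lit 400) (nat_lit 342)) (XT.nd (nat_lit 78) (nat_lit 152) (nat_lit 0) (XT.lf (nat_lit 0) (nat_lit 7065658119) (nat_lit 228) (nat_lit 2994868225) (nat_lit 76) (nat_lit 13185210434) (nat_lit 92) (nat_lit 5) (nat_lit 95) (nat_lit 5) (nat_lit 93) (nat_lit 5) (nat_lit 459) (nat_lit 400) (nat_lit 341)) (XT.lf (nat_lit 0) (nat_lit 18984721419) (nat_lit 228) (nat_lit 1866154657) (nat_lit 76)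 (nat_lit 3147725708) (nat_lit 90) (nat_lit 5) (nat_lit 93) (nat_lit 5) (nat_lit 91) (nat_lit 4) (nat_lit 460) (nat_lit 400) (nat_lit 340))))) (XT.nd (nat_lit 234) (nat_lit 608) (nat_lit 0) (XT.nd (nat_lit 78) (nat_lit 456) (nat_lit 0) (XT.lf (nat_lit 0) (nat_lit 6881426260) (nat_lit 152) (nat_lit 810571955) (nat_lit 76) (nat_lit 17086125486) (nat_lit 88) (nat_lit 5) (nat_lit 90) (nat_lit 5) (nat_lit 89) (nat_lit 5) (nat_lit 461) (nat_lit 400) (nat_lit 339)) (XT.nd (nat_lit 78) (nat_lit 228) (nat_lit 0) (XT.lf (nat_lit 0) (nat_lit 225373559) (nat_lit 76) (nat_lit 19311550571) (nat_lit 152) (nat_lit 6050135901) (nat_lit 85) (nat_lit 5) (nat_lit 86) (nat_lit 5) (nat_lit 87) (nat_lit 4) (nat_lit 462) (nat_lit 400) (nat_lit 338)) (XT.lf (nat_lit 0) (nat_lit 1215996275) (nat_lit 152) (nat_lit 5348149927) (nat_lit 228) (nat_lit 19861453913) (nat_lit 82) (nat_lit 5) (nat_lit 84) (nat_lit 5) (nat_lit 85)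 (nat_lit 5) (nat_lit 463) (nat_lit 400) (nat_lit 337)))) (XT.nd (nat_lit 156) (nat_lit 304) (nat_lit 0) (XT.nd (nat_lit 78) (nat_lit 228) (nat_lit 0) (XT.lf (nat_lit 0) (nat_lit 2124671051) (nat_lit 76) (nat_lit 17871553796) (nat_lit 152) (nat_lit 7298680095) (nat_lit 81) (nat_lit 5) (nat_lit 82) (nat_lit 5) (nat_lit 83) (nat_lit 4) (nat_lit 464) (nat_lit 400) (nat_lit 336)) (XT.lf (nat_lit 0) (nat_lit 2981807454) (nat_lit 152) (nat_lit 3078880179) (nat_lit 228) (nat_lit 22136786153) (nat_lit 78) (nat_lit 5) (nat_lit 80) (nat_lit 5) (nat_lit 81) (nat_lit 5) (nat_lit 465) (nat_lit 400) (nat_lit 335))) (XT.nd (nat_lit 78) (nat_lit 228) (nat_lit 0) (XT.lf (nat_lit 0) (nat_lit 3692424350) (nat_lit 76) (nat_lit 16602968159) (nat_lit 152) (nat_lit 8836862075) (nat_lit 77) (nat_lit 5) (nat_lit 78) (nat_lit 5) (nat_lit 79) (nat_lit 4) (nat_lit 466) (nat_lit 400) (nat_lit 334)) (XT.lf (nat_lit 0) (nat_lit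 4357320236) (nat_lit 152) (nat_lit 947030850) (nat_lit 228) (nat_lit 24799654589) (nat_lit 74) (nat_lit 5) (nat_lit 76) (nat_lit 5) (nat_lit 77) (nat_lit 5) (nat_lit 467) (nat_lit 400) (nat_lit 333)))))) (XT.nd (nat_lit 468) (nat_lit 684) (nat_lit 0) (XT.nd (nat_lit 234) (nat_lit 456) (nat_lit 0) (XT.nd (nat_lit 78) (nat_lit 304) (nat_lit 0) (XT.lf (nat_lit 0) (nat_lit 4802828738) (nat_lit 76) (nat_lit 15570808271) (nat_lit 152) (nat_lit 10735970168) (nat_lit 73) (nat_lit 5) (nat_lit 74) (nat_lit 5) (nat_lit 75) (nat_lit 4) (nat_lit 468) (nat_lit 400) (nat_lit 332)) (XT.nd (nat_lit 78) (nat_lit 76) (nat_lit 0) (XT.lf (nat_lit 0) (nat_lit 4232578815) (nat_lit 228) (nat_lit 26962332671) (nat_lit 76) (nat_lit 961005477) (nat_lit 70) (nat_lit 5) (nat_lit 73) (nat_lit 5) (nat_lit 71) (nat_lit 4) (nat_lit 469) (nat_lit 400) (nat_lit 331)) (XT.lf (nat_lit 0) (nat_lit 5301834801) (nat_lit 76) (nat_lit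 14854233067) (nat_lit 152) (nat_lit 13082429727) (nat_lit 69) (nat_lit 5) (nat_lit 70) (nat_lit 5) (nat_lit 71) (nat_lit 4) (nat_lit 470) (nat_lit 400) (nat_lit 330)))) (XT.nd (nat_lit 78) (nat_lit 228) (nat_lit 0) (XT.lf (nat_lit 0) (nat_lit 2754624034) (nat_lit 228) (nat_lit 29041721556) (nat_lit 76) (nat_lit 2569054418) (nat_lit 66) (nat_lit 5) (nat_lit 69) (nat_lit 5) (nat_lit 67) (nat_lit 4) (nat_lit 471) (nat_lit 400) (nat_lit 329)) (XT.nd (nat_lit 78) (nat_lit 152) (nat_lit 0) (XT.lf (nat_lit 0) (nat_lit 5001710719) (nat_lit 76) (nat_lit 14549328452) (nat_lit 152) (nat_lit 15980580940) (nat_lit 65) (nat_lit 5) (nat_lit 66) (nat_lit 5) (nat_lit 67) (nat_lit 4) (nat_lit 472) (nat_lit 400) (nat_lit 328)) (XT.lf (nat_lit 0) (nat_lit 754151040) (nat_lit 152) (nat_lit 32194948738) (nat_lit 76) (nat_lit 3796984506) (nat_lit 63) (nat_lit 5) (nat_lit 65) (nat_lit 5) (nat_lit 64) (nat_lit 4) (nat_lit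 473) (nat_lit 400) (nat_lit 327))))) (XT.nd (nat_lit 234) (nat_lit 380) (nat_lit 0) (XT.nd (nat_lit 78) (nat_lit 228) (nat_lit 0) (XT.lf (nat_lit 0) (nat_lit 3674635971) (nat_lit 76) (nat_lit 14772378555) (nat_lit 152) (nat_lit 19555954062) (nat_lit 62) (nat_lit 5) (nat_lit 63) (nat_lit 5) (nat_lit 64) (nat_lit 4) (nat_lit 474) (nat_lit 400) (nat_lit 326)) (XT.nd (nat_lit 78) (nat_lit 152) (nat_lit 0) (XT.lf (nat_lit 0) (nat_lit 2607457291) (nat_lit 76) (nat_lit 34768607704) (nat_lit 76) (nat_lit 1936086334) (nat_lit 61) (nat_lit 4) (nat_lit 62) (nat_lit 5) (nat_lit 62) (nat_lit 4) (nat_lit 475) (nat_lit 400) (nat_lit 325)) (XT.lf (nat_lit 0) (nat_lit 1045157564) (nat_lit 76) (nat_lit 15663711598) (nat_lit 152) (nat_lit 23959127636) (nat_lit 59) (nat_lit 5) (nat_lit 60) (nat_lit 5) (nat_lit 61) (nat_lit 4) (nat_lit 476) (nat_lit 400) (nat_lit 324)))) (XT.nd (nat_lit 156) (nat_lit 228) (nat_lit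 0) (XT.nd (nat_lit 78) (nat_lit 152) (nat_lit 0) (XT.lf (nat_lit 0) (nat_lit 36622560466) (nat_lit 152) (nat_lit 789210528) (nat_lit 0) (nat_lit 4667993065) (nat_lit 59) (nat_lit 5) (nat_lit 61) (nat_lit 4) (nat_lit 59) (nat_lit 4) (nat_lit 477) (nat_lit 400) (nat_lit 323)) (XT.lf (nat_lit 0) (nat_lit 14204472073) (nat_lit 152) (nat_lit 3155880758) (nat_lit 76) (nat_lit 26182520991) (nat_lit 57) (nat_lit 5) (nat_lit 59) (nat_lit 5) (nat_lit 58) (nat_lit 4) (nat_lit 478) (nat_lit 400) (nat_lit 322))) (XT.nd (nat_lit 78) (nat_lit 152) (nat_lit 0) (XT.lf (nat_lit 0) (nat_lit 35117203098) (nat_lit 152) (nat_lit 5924520107) (nat_lit 0) (nat_lit 4024370285) (nat_lit 56) (nat_lit 5) (nat_lit 58) (nat_lit 4) (nat_lit 56) (nat_lit 4) (nat_lit 479) (nat_lit 400) (nat_lit 321)) (XT.lf (nat_lit 0) (nat_lit 10736326262) (nat_lit 152) (nat_lit 9330137407) (nat_lit 76) (nat_lit 26580127766) (nat_lit 54) (nat_lit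 5) (nat_lit 56) (nat_lit 5) (nat_lit 55) (nat_lit 4) (nat_lit 480) (nat_lit 400) (nat_lit 320))))))) (XT.nd (nat_lit 1014) (nat_lit 532) (nat_lit 0) (XT.nd (nat_lit 468) (nat_lit 684) (nat_lit 0) (XT.nd (nat_lit 234) (nat_lit 304) (nat_lit 0) (XT.nd (nat_lit 78) (nat_lit 228) (nat_lit 0) (XT.lf (nat_lit 0) (nat_lit 32630978019) (nat_lit 152) (nat_lit 13277737243) (nat_lit 0) (nat_lit 2383016287) (nat_lit 53) (nat_lit 5) (nat_lit 55) (nat_lit 4) (nat_lit 53) (nat_lit 4) (nat_lit 481) (nat_lit 400) (nat_lit 319)) (XT.nd (nat_lit 78) (nat_lit 76) (nat_lit 0) (XT.lf (nat_lit 0) (nat_lit 6063715831) (nat_lit 152) (nat_lit 17966839457) (nat_lit 76) (nat_lit 25969804975) (nat_lit 51) (nat_lit 5) (nat_lit 53) (nat_lit 5) (nat_lit 52) (nat_lit 4) (nat_lit 482) (nat_lit 400) (nat_lit 318)) (XT.lf (nat_lit 0) (nat_lit 28411918659) (nat_lit 76) (nat_lit 511715955) (nat_lit 152) (nat_lit 22854940982) (nat_lit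 50) (nat_lit 5) (nat_lit 51) (nat_lit 5) (nat_lit 52) (nat_lit 4) (nat_lit 483) (nat_lit 400) (nat_lit 317)))) (XT.nd (nat_lit 78) (nat_lit 228) (nat_lit 0) (XT.lf (nat_lit 0) (nat_lit 23999862271) (nat_lit 76) (nat_lit 29536422744) (nat_lit 76) (nat_lit 91124916) (nat_lit 49) (nat_lit 4) (nat_lit 50) (nat_lit 5) (nat_lit 50) (nat_lit 4) (nat_lit 484) (nat_lit 400) (nat_lit 316)) (XT.nd (nat_lit 78) (nat_lit 76) (nat_lit 0) (XT.lf (nat_lit 0) (nat_lit 18712650560) (nat_lit 76) (nat_lit 5022135935) (nat_lit 152) (nat_lit 31815377013) (nat_lit 47) (nat_lit 5) (nat_lit 48) (nat_lit 5) (nat_lit 49) (nat_lit 4) (nat_lit 485) (nat_lit 400) (nat_lit 315)) (XT.lf (nat_lit 0) (nat_lit 12493616736) (nat_lit 76) (nat_lit 36845141489) (nat_lit 76) (nat_lit 8212610260) (nat_lit 46) (nat_lit 4) (nat_lit 47) (nat_lit 5) (nat_lit 47) (nat_lit 4) (nat_lit 486) (nat_lit 400) (nat_lit 314))))) (XT.nd (nat_lit 234)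 (nat_lit 380) (nat_lit 0) (XT.nd (nat_lit 78) (nat_lit 152) (nat_lit 0) (XT.lf (nat_lit 0) (nat_lit 5233498282) (nat_lit 76) (nat_lit 11459542106) (nat_lit 152) (nat_lit 42941432310) (nat_lit 44) (nat_lit 5) (nat_lit 45) (nat_lit 5) (nat_lit 46) (nat_lit 4) (nat_lit 487) (nat_lit 400) (nat_lit 313)) (XT.nd (nat_lit 78) (nat_lit 152) (nat_lit 0) (XT.lf (nat_lit 0) (nat_lit 43253083393) (nat_lit 152) (nat_lit 3133838656) (nat_lit 0) (nat_lit 15415002145) (nat_lit 44) (nat_lit 5) (nat_lit 46) (nat_lit 4) (nat_lit 44) (nat_lit 4) (nat_lit 488) (nat_lit 400) (nat_lit 312)) (XT.lf (nat_lit 0) (nat_lit 7506775792) (nat_lit 152) (nat_lit 12617680507) (nat_lit 76) (nat_lit 43933818435) (nat_lit 42) (nat_lit 5) (nat_lit 44) (nat_lit 5) (nat_lit 43) (nat_lit 4) (nat_lit 489) (nat_lit 400) (nat_lit 311)))) (XT.nd (nat_lit 156) (nat_lit 228) (nat_lit 0) (XT.nd (nat_lit 78) (nat_lit 76) (nat_lit 0) (XT.lf (nat_lit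 0) (nat_lit 34973620333) (nat_lit 152) (nat_lit 23521984683) (nat_lit 0) (nat_lit 7911566470) (nat_lit 41) (nat_lit 5) (nat_lit 43) (nat_lit 4) (nat_lit 41) (nat_lit 4) (nat_lit 490) (nat_lit 400) (nat_lit 310)) (XT.lf (nat_lit 0) (nat_lit 32928115027) (nat_lit 76) (nat_lit 31502554540) (nat_lit 76) (nat_lit 4424337836) (nat_lit 40) (nat_lit 4) (nat_lit 41) (nat_lit 5) (nat_lit 41) (nat_lit 4) (nat_lit 491) (nat_lit 400) (nat_lit 309))) (XT.nd (nat_lit 78) (nat_lit 76) (nat_lit 0) (XT.lf (nat_lit 0) (nat_lit 21393258220) (nat_lit 76) (nat_lit 2491898482) (nat_lit 152) (nat_lit 47520669609) (nat_lit 38) (nat_lit 5) (nat_lit 39) (nat_lit 5) (nat_lit 40) (nat_lit 4) (nat_lit 492) (nat_lit 400) (nat_lit 308)) (XT.lf (nat_lit 0) (nat_lit 8031862641) (nat_lit 76) (nat_lit 46174542451) (nat_lit 76) (nat_lit 19855833654) (nat_lit 37) (nat_lit 4) (nat_lit 38) (nat_lit 5) (nat_lit 38) (nat_lit 4) (nat_lit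 493) (nat_lit 400) (nat_lit 307)))))) (XT.nd (nat_lit 55224) (nat_lit 0) (nat_lit 30096) (XT.nd (nat_lit 234) (nat_lit 304) (nat_lit 0) (XT.nd (nat_lit 78) (nat_lit 152) (nat_lit 0) (XT.lf (nat_lit 0) (nat_lit 9525957556) (nat_lit 152) (nat_lit 6994570364) (nat_lit 76) (nat_lit 60312900583) (nat_lit 36) (nat_lit 5) (nat_lit 38) (nat_lit 5) (nat_lit 37) (nat_lit 4) (nat_lit 494) (nat_lit 400) (nat_lit 306)) (XT.nd (nat_lit 78) (nat_lit 76) (nat_lit 0) (XT.lf (nat_lit 0) (nat_lit 40623630250) (nat_lit 152) (nat_lit 24048135349) (nat_lit 0) (nat_lit 15045791302) (nat_lit 35) (nat_lit 5) (nat_lit 37) (nat_lit 4) (nat_lit 35) (nat_lit 4) (nat_lit 495) (nat_lit 400) (nat_lit 305)) (XT.lf (nat_lit 0) (nat_lit 39411235223) (nat_lit 76) (nat_lit 34453389741) (nat_lit 76) (nat_lit 8863613750) (nat_lit 34) (nat_lit 4) (nat_lit 35) (nat_lit 5) (nat_lit 35) (nat_lit 4) (nat_lit 496) (nat_lit 400) (nat_lit 304))))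 (XT.nd (nat_lit 78) (nat_lit 152) (nat_lit 0) (XT.lf (nat_lit 0) (nat_lit 20789092478) (nat_lit 76) (nat_lit 2063241059) (nat_lit 152) (nat_lit 63017906981) (nat_lit 32) (nat_lit 5) (nat_lit 33) (nat_lit 5) (nat_lit 34) (nat_lit 4) (nat_lit 497) (nat_lit 400) (nat_lit 303)) (XT.nd (nat_lit 78) (nat_lit 152) (nat_lit 0) (XT.lf (nat_lit 0) (nat_lit 56701174669) (nat_lit 152) (nat_lit 608440250) (nat_lit 0) (nat_lit 31835182579) (nat_lit 32) (nat_lit 5) (nat_lit 34) (nat_lit 4) (nat_lit 32) (nat_lit 4) (nat_lit 498) (nat_lit 400) (nat_lit 302)) (XT.lf (nat_lit 0) (nat_lit 322932445) (nat_lit 152) (nat_lit 24220450552) (nat_lit 76) (nat_lit 68020090376) (nat_lit 30) (nat_lit 5) (nat_lit 32) (nat_lit 5) (nat_lit 31) (nat_lit 4) (nat_lit 499) (nat_lit 400) (nat_lit 301))))) (XT.nd (nat_lit 234) (nat_lit 1216) (nat_lit 0) (XT.nd (nat_lit 78) (nat_lit 532) (nat_lit 0) (XT.lf (nat_lit 0) (nat_lit 1871749580)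 (nat_lit 228) (nat_lit 677488609) (nat_lit 228) (nat_lit 677488609) (nat_lit 449) (nat_lit 3) (nat_lit 452) (nat_lit 3) (nat_lit 452) (nat_lit 5) (nat_lit 401) (nat_lit 401) (nat_lit 398)) (XT.nd (nat_lit 78) (nat_lit 304) (nat_lit 0) (XT.lf (nat_lit 0) (nat_lit 2144172879) (nat_lit 228) (nat_lit 2452474060) (nat_lit 304) (nat_lit 1872113852) (nat_lit 446) (nat_lit 5) (nat_lit 449) (nat_lit 3) (nat_lit 450) (nat_lit 5) (nat_lit 402) (nat_lit 401) (nat_lit 397)) (XT.lf (nat_lit 0) (nat_lit 417995152) (nat_lit 304) (nat_lit 3430822441) (nat_lit 380) (nat_lit 2643136177) (nat_lit 442) (nat_lit 5) (nat_lit 446) (nat_lit 5) (nat_lit 447) (nat_lit 5) (nat_lit 403) (nat_lit 401) (nat_lit 396)))) (XT.nd (nat_lit 156) (nat_lit 836) (nat_lit 0) (XT.nd (nat_lit 78) (nat_lit 380) (nat_lit 0) (XT.lf (nat_lit 76) (nat_lit 2217258312) (nat_lit 0) (nat_lit 2838248715) (nat_lit 380) (nat_lit 1467145028) (nat_lit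 443) (nat_lit 5) (nat_lit 442) (nat_lit 5) (nat_lit 447) (nat_lit 5) (nat_lit 404) (nat_lit 401) (nat_lit 395)) (XT.lf (nat_lit 76) (nat_lit 1492765334) (nat_lit 0) (nat_lit 1570938638) (nat_lit 456) (nat_lit 3497469552) (nat_lit 438) (nat_lit 5) (nat_lit 437) (nat_lit 5) (nat_lit 443) (nat_lit 5) (nat_lit 405) (nat_lit 401) (nat_lit 394))) (XT.nd (nat_lit 78) (nat_lit 380) (nat_lit 0) (XT.lf (nat_lit 76) (nat_lit 891351295) (nat_lit 0) (nat_lit 47367921) (nat_lit 532) (nat_lit 5668992563) (nat_lit 432) (nat_lit 5) (nat_lit 431) (nat_lit 5) (nat_lit 438) (nat_lit 5) (nat_lit 406) (nat_lit 401) (nat_lit 393)) (XT.lf (nat_lit 0) (nat_lit 382464809) (nat_lit 456) (nat_lit 4945580976) (nat_lit 532) (nat_lit 1333421022) (nat_lit 426) (nat_lit 5) (nat_lit 432) (nat_lit 5) (nat_lit 433) (nat_lit 5) (nat_lit 407) (nat_lit 401) (nat_lit 392))))))))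
noncomputable def xc49 : XT := (XT.nd (nat_lit 2028) (nat_lit 7372) (nat_lit 0) (XT.nd (nat_lit 1014) (nat_lit 6764) (nat_lit 0) (XT.nd (nat_lit 468) (nat_lit 7676) (nat_lit 0) (XT.nd (nat_lit 234) (nat_lit 2432) (nat_lit 0) (XT.nd (nat_lit 78) (nat_lit 1216) (nat_lit 0) (XT.lf (nat_lit 0) (nat_lit 2956287612) (nat_lit 532) (nat_lit 16931014) (nat_lit 76) (nat_lit 3749793198) (nat_lit 425) (nat_lit 5) (nat_lit 432) (nat_lit 5) (nat_lit 426) (nat_lit 5) (nat_lit 408) (nat_lit 401) (nat_lit 391)) (XT.nd (nat_lit 78) (nat_lit 608) (nat_lit 0) (XT.lf (nat_lit 0) (nat_lit 446632404) (nat_lit 608) (nat_lit 291617990) (nat_lit 76) (nat_lit 6054427440) (nat_lit 417) (nat_lit 5) (nat_lit 425) (nat_lit 5) (nat_lit 418) (nat_lit 5) (nat_lit 409) (nat_lit 401) (nat_lit 390)) (XT.lf (nat_lit 0) (nat_lit 4632813613) (nat_lit 684) (nat_lit 487051585) (nat_lit 76) (nat_lit 1749672761) (nat_lit 409) (nat_lit 5)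 (nat_lit 418) (nat_lit 5) (nat_lit 410) (nat_lit 5) (nat_lit 410) (nat_lit 401) (nat_lit 389)))) (XT.nd (nat_lit 78) (nat_lit 1672) (nat_lit 0) (XT.lf (nat_lit 0) (nat_lit 1878871146) (nat_lit 760) (nat_lit 578873936) (nat_lit 76) (nat_lit 4496685000) (nat_lit 399) (nat_lit 5) (nat_lit 409) (nat_lit 5) (nat_lit 400) (nat_lit 5) (nat_lit 411) (nat_lit 401) (nat_lit 388)) (XT.nd (nat_lit 78) (nat_lit 912) (nat_lit 0) (XT.lf (nat_lit 0) (nat_lit 6004565788) (nat_lit 836) (nat_lit 568863454) (nat_lit 76) (nat_lit 473983494) (nat_lit 389) (nat_lit 5) (nat_lit 400) (nat_lit 5) (nat_lit 390) (nat_lit 5) (nat_lit 412) (nat_lit 401) (nat_lit 387)) (XT.lf (nat_lit 0) (nat_lit 3010759613) (nat_lit 912) (nat_lit 486989690) (nat_lit 76) (nat_lit 3649954321) (nat_lit 377) (nat_lit 5) (nat_lit 389) (nat_lit 5) (nat_lit 378) (nat_lit 5) (nat_lit 413) (nat_lit 401) (nat_lit 386))))) (XT.nd (nat_lit 234) (nat_lit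 3420) (nat_lit 0) (XT.nd (nat_lit 78) (nat_lit 3344) (nat_lit 0) (XT.lf (nat_lit 0) (nat_lit 6966286860) (nat_lit 912) (nat_lit 146328889) (nat_lit 988) (nat_lit 144093790) (nat_lit 365) (nat_lit 5) (nat_lit 377) (nat_lit 5) (nat_lit 378) (nat_lit 5) (nat_lit 414) (nat_lit 401) (nat_lit 385)) (XT.nd (nat_lit 78) (nat_lit 2280) (nat_lit 0) (XT.lf (nat_lit 0) (nat_lit 3879430580) (nat_lit 1064) (nat_lit 40422181) (nat_lit 76) (nat_lit 3452867111) (nat_lit 351) (nat_lit 5) (nat_lit 365) (nat_lit 5) (nat_lit 352) (nat_lit 5) (nat_lit 415) (nat_lit 401) (nat_lit 384)) (XT.lf (nat_lit 0) (nat_lit 331224416) (nat_lit 1140) (nat_lit 153917407) (nat_lit 1216) (nat_lit 7012482460) (nat_lit 321) (nat_lit 5) (nat_lit 336) (nat_lit 5) (nat_lit 337) (nat_lit 5) (nat_lit 416) (nat_lit 401) (nat_lit 383)))) (XT.nd (nat_lit 156) (nat_lit 1292) (nat_lit 0) (XT.nd (nat_lit 78) (nat_lit 912) (nat_lit 0) (XT.lf (nat_lit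 0) (nat_lit 756120428) (nat_lit 1216) (nat_lit 3768769406) (nat_lit 1292) (nat_lit 3104827033) (nat_lit 305) (nat_lit 5) (nat_lit 321) (nat_lit 5) (nat_lit 322) (nat_lit 5) (nat_lit 417) (nat_lit 401) (nat_lit 382)) (XT.lf (nat_lit 0) (nat_lit 889299806) (nat_lit 912) (nat_lit 6479905323) (nat_lit 76) (nat_lit 401622399) (nat_lit 293) (nat_lit 5) (nat_lit 305) (nat_lit 5) (nat_lit 294) (nat_lit 5) (nat_lit 418) (nat_lit 401) (nat_lit 381))) (XT.nd (nat_lit 78) (nat_lit 684) (nat_lit 0) (XT.lf (nat_lit 0) (nat_lit 1880080430) (nat_lit 608) (nat_lit 3092173876) (nat_lit 684) (nat_lit 2947234629) (nat_lit 285) (nat_lit 5) (nat_lit 293) (nat_lit 5) (nat_lit 294) (nat_lit 5) (nat_lit 419) (nat_lit 401) (nat_lit 380)) (XT.lf (nat_lit 0) (nat_lit 1097445303) (nat_lit 684) (nat_lit 5509035018) (nat_lit 76) (nat_lit 1470674700) (nat_lit 276) (nat_lit 5) (nat_lit 285) (nat_lit 5) (nat_lit 277) (nat_lit 5)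 (nat_lit 420) (nat_lit 401) (nat_lit 379)))))) (XT.nd (nat_lit 468) (nat_lit 3420) (nat_lit 0) (XT.nd (nat_lit 234) (nat_lit 1596) (nat_lit 0) (XT.nd (nat_lit 78) (nat_lit 1216) (nat_lit 0) (XT.lf (nat_lit 0) (nat_lit 3319480615) (nat_lit 532) (nat_lit 1926940740) (nat_lit 608) (nat_lit 2996532549) (nat_lit 269) (nat_lit 5) (nat_lit 276) (nat_lit 5) (nat_lit 277) (nat_lit 5) (nat_lit 421) (nat_lit 401) (nat_lit 378)) (XT.nd (nat_lit 78) (nat_lit 532) (nat_lit 0) (XT.lf (nat_lit 0) (nat_lit 1130940797) (nat_lit 684) (nat_lit 4262554483) (nat_lit 76) (nat_lit 3024171405) (nat_lit 260) (nat_lit 5) (nat_lit 269) (nat_lit 5) (nat_lit 261) (nat_lit 5) (nat_lit 422) (nat_lit 401) (nat_lit 377)) (XT.lf (nat_lit 0) (nat_lit 5066838332) (nat_lit 532) (nat_lit 302812718) (nat_lit 608) (nat_lit 3231582451) (nat_lit 253) (nat_lit 5) (nat_lit 260) (nat_lit 5) (nat_lit 261) (nat_lit 5) (nat_lit 423) (nat_lit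 401) (nat_lit 376)))) (XT.nd (nat_lit 78) (nat_lit 988) (nat_lit 0) (XT.lf (nat_lit 0) (nat_lit 1009714817) (nat_lit 608) (nat_lit 2747442862) (nat_lit 76) (nat_lit 5036434811) (nat_lit 245) (nat_lit 5) (nat_lit 253) (nat_lit 5) (nat_lit 246) (nat_lit 5) (nat_lit 424) (nat_lit 401) (nat_lit 375)) (XT.nd (nat_lit 78) (nat_lit 532) (nat_lit 0) (XT.lf (nat_lit 0) (nat_lit 5378374654) (nat_lit 532) (nat_lit 1894564345) (nat_lit 76) (nat_lit 1722218520) (nat_lit 239) (nat_lit 5) (nat_lit 246) (nat_lit 5) (nat_lit 240) (nat_lit 5) (nat_lit 425) (nat_lit 401) (nat_lit 374)) (XT.lf (nat_lit 0) (nat_lit 751070905) (nat_lit 532) (nat_lit 967771769) (nat_lit 76) (nat_lit 7487534109) (nat_lit 232) (nat_lit 5) (nat_lit 239) (nat_lit 5) (nat_lit 233) (nat_lit 5) (nat_lit 426) (nat_lit 401) (nat_lit 373))))) (XT.nd (nat_lit 234) (nat_lit 1596) (nat_lit 0) (XT.nd (nat_lit 78) (nat_lit 912) (nat_lit 0) (XT.lf (nat_lit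 0) (nat_lit 3296139) (nat_lit 456) (nat_lit 5276464493) (nat_lit 532) (nat_lit 4146815267) (nat_lit 220) (nat_lit 5) (nat_lit 226) (nat_lit 5) (nat_lit 227) (nat_lit 5) (nat_lit 427) (nat_lit 401) (nat_lit 372)) (XT.nd (nat_lit 78) (nat_lit 456) (nat_lit 0) (XT.lf (nat_lit 0) (nat_lit 387347603) (nat_lit 456) (nat_lit 8567890995) (nat_lit 76) (nat_lit 701919143) (nat_lit 214) (nat_lit 5) (nat_lit 220) (nat_lit 5) (nat_lit 215) (nat_lit 5) (nat_lit 428) (nat_lit 401) (nat_lit 371)) (XT.lf (nat_lit 0) (nat_lit 2204727552) (nat_lit 456) (nat_lit 2902021803) (nat_lit 532) (nat_lit 4789968039) (nat_lit 208) (nat_lit 5) (nat_lit 214) (nat_lit 5) (nat_lit 215) (nat_lit 5) (nat_lit 429) (nat_lit 401) (nat_lit 370)))) (XT.nd (nat_lit 156) (nat_lit 760) (nat_lit 0) (XT.nd (nat_lit 78) (nat_lit 456) (nat_lit 0) (XT.lf (nat_lit 0) (nat_lit 3413252528) (nat_lit 380) (nat_lit 6679188751) (nat_lit 456) (nat_lit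 54912952) (nat_lit 203) (nat_lit 5) (nat_lit 208) (nat_lit 5) (nat_lit 209) (nat_lit 5) (nat_lit 430) (nat_lit 401) (nat_lit 369)) (XT.lf (nat_lit 0) (nat_lit 4673932944) (nat_lit 380) (nat_lit 179604210) (nat_lit 456) (nat_lit 5554598312) (nat_lit 197) (nat_lit 5) (nat_lit 202) (nat_lit 5) (nat_lit 203) (nat_lit 5) (nat_lit 431) (nat_lit 401) (nat_lit 368))) (XT.nd (nat_lit 78) (nat_lit 456) (nat_lit 0) (XT.lf (nat_lit 0) (nat_lit 6000572417) (nat_lit 304) (nat_lit 4079492936) (nat_lit 380) (nat_lit 599668115) (nat_lit 193) (nat_lit 5) (nat_lit 197) (nat_lit 5) (nat_lit 198) (nat_lit 5) (nat_lit 432) (nat_lit 401) (nat_lit 367)) (XT.lf (nat_lit 0) (nat_lit 4558760414) (nat_lit 456) (nat_lit 3576153347) (nat_lit 76) (nat_lit 2827310176) (nat_lit 187) (nat_lit 5) (nat_lit 193) (nat_lit 5) (nat_lit 188) (nat_lit 5) (nat_lit 433) (nat_lit 401) (nat_lit 366))))))) (XT.nd (nat_lit 1014) (nat_lit 3040)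 (nat_lit 0) (XT.nd (nat_lit 468) (nat_lit 2052) (nat_lit 0) (XT.nd (nat_lit 234) (nat_lit 988) (nat_lit 0) (XT.nd (nat_lit 78) (nat_lit 988) (nat_lit 0) (XT.lf (nat_lit 0) (nat_lit 8859700182) (nat_lit 304) (nat_lit 1166768978) (nat_lit 380) (nat_lit 1230285651) (nat_lit 183) (nat_lit 5) (nat_lit 187) (nat_lit 5) (nat_lit 188) (nat_lit 5) (nat_lit 434) (nat_lit 401) (nat_lit 365)) (XT.nd (nat_lit 78) (nat_lit 608) (nat_lit 0) (XT.lf (nat_lit 0) (nat_lit 4208815164) (nat_lit 380) (nat_lit 1192359458) (nat_lit 76) (nat_lit 6160954741) (nat_lit 178) (nat_lit 5) (nat_lit 183) (nat_lit 5) (nat_lit 179) (nat_lit 5) (nat_lit 435) (nat_lit 401) (nat_lit 364)) (XT.lf (nat_lit 0) (nat_lit 97636701) (nat_lit 304) (nat_lit 9864358158) (nat_lit 380) (nat_lit 1918391323) (nat_lit 170) (nat_lit 5) (nat_lit 174) (nat_lit 5) (nat_lit 175) (nat_lit 5) (nat_lit 436) (nat_lit 401) (nat_lit 363)))) (XT.nd (nat_lit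 78) (nat_lit 608) (nat_lit 0) (XT.lf (nat_lit 0) (nat_lit 1450858346) (nat_lit 304) (nat_lit 2372480142) (nat_lit 380) (nat_lit 8386860944) (nat_lit 165) (nat_lit 5) (nat_lit 169) (nat_lit 5) (nat_lit 170) (nat_lit 5) (nat_lit 437) (nat_lit 401) (nat_lit 362)) (XT.nd (nat_lit 78) (nat_lit 304) (nat_lit 0) (XT.lf (nat_lit 0) (nat_lit 2864646089) (nat_lit 304) (nat_lit 7049191982) (nat_lit 380) (nat_lit 2639059991) (nat_lit 161) (nat_lit 5) (nat_lit 165) (nat_lit 5) (nat_lit 166) (nat_lit 5) (nat_lit 438) (nat_lit 401) (nat_lit 361)) (XT.lf (nat_lit 0) (nat_lit 3417227000) (nat_lit 304) (nat_lit 8560786971) (nat_lit 76) (nat_lit 931122175) (nat_lit 157) (nat_lit 5) (nat_lit 161) (nat_lit 5) (nat_lit 158) (nat_lit 5) (nat_lit 439) (nat_lit 401) (nat_lit 360))))) (XT.nd (nat_lit 234) (nat_lit 1216) (nat_lit 0) (XT.nd (nat_lit 78) (nat_lit 532) (nat_lit 0) (XT.lf (nat_lit 0) (nat_lit 5872067288) (nat_lit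 304) (nat_lit 3981819663) (nat_lit 380) (nat_lit 3424555814) (nat_lit 153) (nat_lit 5) (nat_lit 157) (nat_lit 5) (nat_lit 158) (nat_lit 5) (nat_lit 440) (nat_lit 401) (nat_lit 359)) (XT.nd (nat_lit 78) (nat_lit 228) (nat_lit 0) (XT.lf (nat_lit 0) (nat_lit 2999188506) (nat_lit 304) (nat_lit 6198207229) (nat_lit 76) (nat_lit 4464658273) (nat_lit 149) (nat_lit 5) (nat_lit 153) (nat_lit 5) (nat_lit 150) (nat_lit 5) (nat_lit 441) (nat_lit 401) (nat_lit 358)) (XT.lf (nat_lit 0) (nat_lit 9124126403) (nat_lit 228) (nat_lit 662852268) (nat_lit 304) (nat_lit 4273443541) (nat_lit 146) (nat_lit 5) (nat_lit 149) (nat_lit 5) (nat_lit 150) (nat_lit 5) (nat_lit 442) (nat_lit 401) (nat_lit 357)))) (XT.nd (nat_lit 156) (nat_lit 684) (nat_lit 0) (XT.nd (nat_lit 78) (nat_lit 228) (nat_lit 0) (XT.lf (nat_lit 0) (nat_lit 2548598545) (nat_lit 304) (nat_lit 3648382234) (nat_lit 76) (nat_lit 8276209310) (nat_lit 142) (nat_lit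 5) (nat_lit 146) (nat_lit 5) (nat_lit 143) (nat_lit 5) (nat_lit 443) (nat_lit 401) (nat_lit 356)) (XT.lf (nat_lit 0) (nat_lit 9744127510) (nat_lit 304) (nat_lit 2306081130) (nat_lit 76) (nat_lit 2851499011) (nat_lit 139) (nat_lit 5) (nat_lit 143) (nat_lit 5) (nat_lit 140) (nat_lit 5) (nat_lit 444) (nat_lit 401) (nat_lit 355))) (XT.nd (nat_lit 78) (nat_lit 380) (nat_lit 0) (XT.lf (nat_lit 0) (nat_lit 2065644261) (nat_lit 304) (nat_lit 912114264) (nat_lit 76) (nat_lit 12368658093) (nat_lit 135) (nat_lit 5) (nat_lit 139) (nat_lit 5) (nat_lit 136) (nat_lit 5) (nat_lit 445) (nat_lit 401) (nat_lit 354)) (XT.lf (nat_lit 0) (nat_lit 511762997) (nat_lit 152) (nat_lit 9200443830) (nat_lit 228) (nat_lit 6094560125) (nat_lit 130) (nat_lit 5) (nat_lit 132) (nat_lit 5) (nat_lit 133) (nat_lit 5) (nat_lit 446) (nat_lit 401) (nat_lit 353)))))) (XT.nd (nat_lit 546) (nat_lit 1520) (nat_lit 0) (XT.nd (nat_lit 234)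 (nat_lit 760) (nat_lit 0) (XT.nd (nat_lit 78) (nat_lit 456) (nat_lit 0) (XT.lf (nat_lit 0) (nat_lit 1572597499) (nat_lit 304) (nat_lit 14242065620) (nat_lit 76) (nat_lit 470557754) (nat_lit 126) (nat_lit 5) (nat_lit 130) (nat_lit 5) (nat_lit 127) (nat_lit 5) (nat_lit 447) (nat_lit 401) (nat_lit 352)) (XT.nd (nat_lit 78) (nat_lit 304) (nat_lit 0) (XT.lf (nat_lit 0) (nat_lit 3559233177) (nat_lit 152) (nat_lit 6143987741) (nat_lit 228) (nat_lit 7076384526) (nat_lit 124) (nat_lit 5) (nat_lit 126) (nat_lit 5) (nat_lit 127) (nat_lit 5) (nat_lit 448) (nat_lit 401) (nat_lit 351)) (XT.lf (nat_lit 0) (nat_lit 1082142641) (nat_lit 304) (nat_lit 12126736621) (nat_lit 76) (nat_lit 4084795468) (nat_lit 120) (nat_lit 5) (nat_lit 124) (nat_lit 5) (nat_lit 121) (nat_lit 5) (nat_lit 449) (nat_lit 401) (nat_lit 350)))) (XT.nd (nat_lit 156) (nat_lit 304) (nat_lit 0) (XT.nd (nat_lit 78) (nat_lit 304) (nat_lit 0) (XT.lf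 (nat_lit 0) (nat_lit 6783412150) (nat_lit 152) (nat_lit 2907492057) (nat_lit 228) (nat_lit 8134784090) (nat_lit 118) (nat_lit 5) (nat_lit 120) (nat_lit 5) (nat_lit 121) (nat_lit 5) (nat_lit 450) (nat_lit 401) (nat_lit 349)) (XT.lf (nat_lit 0) (nat_lit 549128385) (nat_lit 304) (nat_lit 9916098542) (nat_lit 76) (nat_lit 7912675931) (nat_lit 114) (nat_lit 5) (nat_lit 118) (nat_lit 5) (nat_lit 115) (nat_lit 5) (nat_lit 451) (nat_lit 401) (nat_lit 348))) (XT.nd (nat_lit 78) (nat_lit 152) (nat_lit 0) (XT.lf (nat_lit 0) (nat_lit 9673503180) (nat_lit 228) (nat_lit 8781827822) (nat_lit 76) (nat_lit 494747850) (nat_lit 112) (nat_lit 5) (nat_lit 115) (nat_lit 5) (nat_lit 113) (nat_lit 5) (nat_lit 452) (nat_lit 401) (nat_lit 347)) (XT.lf (nat_lit 0) (nat_lit 11913978597) (nat_lit 152) (nat_lit 7591289787) (nat_lit 228) (nat_lit 38062181) (nat_lit 110) (nat_lit 5) (nat_lit 112) (nat_lit 5) (nat_lit 113) (nat_lit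 5) (nat_lit 453) (nat_lit 401) (nat_lit 346))))) (XT.nd (nat_lit 234) (nat_lit 912) (nat_lit 0) (XT.nd (nat_lit 78) (nat_lit 380) (nat_lit 0) (XT.lf (nat_lit 0) (nat_lit 9665690282) (nat_lit 228) (nat_lit 6485634064) (nat_lit 76) (nat_lit 4006380182) (nat_lit 107) (nat_lit 5) (nat_lit 110) (nat_lit 5) (nat_lit 108) (nat_lit 5) (nat_lit 454) (nat_lit 401) (nat_lit 345)) (XT.nd (nat_lit 78) (nat_lit 228) (nat_lit 0) (XT.lf (nat_lit 0) (nat_lit 15498439862) (nat_lit 152) (nat_lit 4591465813) (nat_lit 228) (nat_lit 705800156) (nat_lit 105) (nat_lit 5) (nat_lit 107) (nat_lit 5) (nat_lit 108) (nat_lit 5) (nat_lit 455) (nat_lit 401) (nat_lit 344)) (XT.lf (nat_lit 0) (nat_lit 9625315250) (nat_lit 228) (nat_lit 4154535566) (nat_lit 76) (nat_lit 7675728456) (nat_lit 102) (nat_lit 5) (nat_lit 105) (nat_lit 5) (nat_lit 103) (nat_lit 5) (nat_lit 456) (nat_lit 401) (nat_lit 343)))) (XT.nd (nat_lit 156) (nat_lit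 532) (nat_lit 0) (XT.nd (nat_lit 78) (nat_lit 228) (nat_lit 0) (XT.lf (nat_lit 0) (nat_lit 19194169187) (nat_lit 152) (nat_lit 1484442825) (nat_lit 228) (nat_lit 1463019656) (nat_lit 100) (nat_lit 5) (nat_lit 102) (nat_lit 5) (nat_lit 103) (nat_lit 5) (nat_lit 457) (nat_lit 401) (nat_lit 342)) (XT.lf (nat_lit 0) (nat_lit 9533336838) (nat_lit 228) (nat_lit 1825903511) (nat_lit 76) (nat_lit 11491191995) (nat_lit 97) (nat_lit 5) (nat_lit 100) (nat_lit 5) (nat_lit 98) (nat_lit 5) (nat_lit 458) (nat_lit 401) (nat_lit 341))) (XT.nd (nat_lit 78) (nat_lit 380) (nat_lit 0) (XT.lf (nat_lit 0) (nat_lit 21269413332) (nat_lit 228) (nat_lit 638950298) (nat_lit 76) (nat_lit 1679271487) (nat_lit 95) (nat_lit 5) (nat_lit 98) (nat_lit 5) (nat_lit 96) (nat_lit 4) (nat_lit 459) (nat_lit 401) (nat_lit 340)) (XT.lf (nat_lit 0) (nat_lit 461407190) (nat_lit 152) (nat_lit 8907999176) (nat_lit 228) (nat_lit 14980063078)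 (nat_lit 90) (nat_lit 5) (nat_lit 92) (nat_lit 5) (nat_lit 93) (nat_lit 5) (nat_lit 460) (nat_lit 401) (nat_lit 339))))))))
noncomputable def xc50 : XT := (XT.nd (nat_lit 2028) (nat_lit 1216) (nat_lit 0) (XT.nd (nat_lit 1014) (nat_lit 1368) (nat_lit 0) (XT.nd (nat_lit 468) (nat_lit 988) (nat_lit 0) (XT.nd (nat_lit 234) (nat_lit 532) (nat_lit 0) (XT.nd (nat_lit 78) (nat_lit 304) (nat_lit 0) (XT.lf (nat_lit 0) (nat_lit 1607003063) (nat_lit 76) (nat_lit 20244796497) (nat_lit 152) (nat_lit 3289158752) (nat_lit 89) (nat_lit 5) (nat_lit 90) (nat_lit 5) (nat_lit 91) (nat_lit 4) (nat_lit 461) (nat_lit 401) (nat_lit 338)) (XT.nd (nat_lit 78) (nat_lit 76) (nat_lit 0) (XT.lf (nat_lit 0) (nat_lit 2671927291) (nat_lit 152) (nat_lit 6442367600) (nat_lit 228) (nat_lit 16846035663) (nat_lit 86) (nat_lit 5) (nat_lit 88) (nat_lit 5) (nat_lit 89) (nat_lit 5) (nat_lit 462) (nat_lit 401) (nat_lit 337)) (XT.lf (nat_lit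 0) (nat_lit 3715114261) (nat_lit 76) (nat_lit 18653934496) (nat_lit 152) (nat_lit 4441672197) (nat_lit 85) (nat_lit 5) (nat_lit 86) (nat_lit 5) (nat_lit 87) (nat_lit 4) (nat_lit 463) (nat_lit 401) (nat_lit 336)))) (XT.nd (nat_lit 78) (nat_lit 304) (nat_lit 0) (XT.lf (nat_lit 0) (nat_lit 4691811225) (nat_lit 152) (nat_lit 4017827198) (nat_lit 228) (nat_lit 18982691966) (nat_lit 82) (nat_lit 5) (nat_lit 84) (nat_lit 5) (nat_lit 85) (nat_lit 5) (nat_lit 464) (nat_lit 401) (nat_lit 335)) (XT.nd (nat_lit 78) (nat_lit 228) (nat_lit 0) (XT.lf (nat_lit 0) (nat_lit 5586096975) (nat_lit 76) (nat_lit 17187565820) (nat_lit 152) (nat_lit 5832628893) (nat_lit 81) (nat_lit 5) (nat_lit 82) (nat_lit 5) (nat_lit 83) (nat_lit 4) (nat_lit 465) (nat_lit 401) (nat_lit 334)) (XT.lf (nat_lit 0) (nat_lit 6424647238) (nat_lit 152) (nat_lit 1680504015) (nat_lit 228) (nat_lit 21449925883) (nat_lit 78) (nat_lit 5) (nat_lit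 80) (nat_lit 5) (nat_lit 81) (nat_lit 5) (nat_lit 466) (nat_lit 401) (nat_lit 333))))) (XT.nd (nat_lit 234) (nat_lit 608) (nat_lit 0) (XT.nd (nat_lit 78) (nat_lit 304) (nat_lit 0) (XT.lf (nat_lit 0) (nat_lit 7112658214) (nat_lit 76) (nat_lit 15901321932) (nat_lit 152) (nat_lit 7523746473) (nat_lit 77) (nat_lit 5) (nat_lit 78) (nat_lit 5) (nat_lit 79) (nat_lit 4) (nat_lit 467) (nat_lit 401) (nat_lit 332)) (XT.nd (nat_lit 78) (nat_lit 76) (nat_lit 0) (XT.lf (nat_lit 0) (nat_lit 7243800315) (nat_lit 228) (nat_lit 23812689444) (nat_lit 76) (nat_lit 502465067) (nat_lit 74) (nat_lit 5) (nat_lit 77) (nat_lit 5) (nat_lit 75) (nat_lit 4) (nat_lit 468) (nat_lit 401) (nat_lit 331)) (XT.lf (nat_lit 0) (nat_lit 8162677041) (nat_lit 76) (nat_lit 14863240146) (nat_lit 152) (nat_lit 9590139368) (nat_lit 73) (nat_lit 5) (nat_lit 74) (nat_lit 5) (nat_lit 75) (nat_lit 4) (nat_lit 469) (nat_lit 401) (nat_lit 330))))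 (XT.nd (nat_lit 156) (nat_lit 304) (nat_lit 0) (XT.nd (nat_lit 78) (nat_lit 76) (nat_lit 0) (XT.lf (nat_lit 0) (nat_lit 6058926018) (nat_lit 228) (nat_lit 25214261234) (nat_lit 76) (nat_lit 2442062716) (nat_lit 70) (nat_lit 5) (nat_lit 73) (nat_lit 5) (nat_lit 71) (nat_lit 4) (nat_lit 470) (nat_lit 401) (nat_lit 329)) (XT.lf (nat_lit 0) (nat_lit 8574363003) (nat_lit 76) (nat_lit 14156244495) (nat_lit 152) (nat_lit 12122792608) (nat_lit 69) (nat_lit 5) (nat_lit 70) (nat_lit 5) (nat_lit 71) (nat_lit 4) (nat_lit 471) (nat_lit 401) (nat_lit 328))) (XT.nd (nat_lit 78) (nat_lit 76) (nat_lit 0) (XT.lf (nat_lit 0) (nat_lit 4441268970) (nat_lit 228) (nat_lit 27509510995) (nat_lit 76) (nat_lit 4086403879) (nat_lit 66) (nat_lit 5) (nat_lit 69) (nat_lit 5) (nat_lit 67) (nat_lit 4) (nat_lit 472) (nat_lit 401) (nat_lit 327)) (XT.lf (nat_lit 0) (nat_lit 8150548629) (nat_lit 76) (nat_lit 13881063018) (nat_lit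 152) (nat_lit 15231480993) (nat_lit 65) (nat_lit 5) (nat_lit 66) (nat_lit 5) (nat_lit 67) (nat_lit 4) (nat_lit 473) (nat_lit 401) (nat_lit 326)))))) (XT.nd (nat_lit 468) (nat_lit 760) (nat_lit 0) (XT.nd (nat_lit 234) (nat_lit 304) (nat_lit 0) (XT.nd (nat_lit 78) (nat_lit 152) (nat_lit 0) (XT.lf (nat_lit 0) (nat_lit 2278033056) (nat_lit 152) (nat_lit 30928658249) (nat_lit 76) (nat_lit 5332095446) (nat_lit 63) (nat_lit 5) (nat_lit 65) (nat_lit 5) (nat_lit 64) (nat_lit 4) (nat_lit 474) (nat_lit 401) (nat_lit 325)) (XT.nd (nat_lit 78) (nat_lit 76) (nat_lit 0) (XT.lf (nat_lit 0) (nat_lit 6651964646) (nat_lit 76) (nat_lit 14159658619) (nat_lit 152) (nat_lit 19048210284) (nat_lit 62) (nat_lit 5) (nat_lit 63) (nat_lit 5) (nat_lit 64) (nat_lit 4) (nat_lit 475) (nat_lit 401) (nat_lit 324)) (XT.lf (nat_lit 0) (nat_lit 5480774352) (nat_lit 76) (nat_lit 35176411140) (nat_lit 76) (nat_lit 578188908) (nat_lit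 61) (nat_lit 4) (nat_lit 62) (nat_lit 5) (nat_lit 62) (nat_lit 4) (nat_lit 476) (nat_lit 401) (nat_lit 323)))) (XT.nd (nat_lit 78) (nat_lit 152) (nat_lit 0) (XT.lf (nat_lit 0) (nat_lit 3789320597) (nat_lit 76) (nat_lit 15139263759) (nat_lit 152) (nat_lit 23731270279) (nat_lit 59) (nat_lit 5) (nat_lit 60) (nat_lit 5) (nat_lit 61) (nat_lit 4) (nat_lit 477) (nat_lit 401) (nat_lit 322)) (XT.nd (nat_lit 78) (nat_lit 76) (nat_lit 0) (XT.lf (nat_lit 0) (nat_lit 1797720746) (nat_lit 76) (nat_lit 38003573781) (nat_lit 76) (nat_lit 4342016363) (nat_lit 58) (nat_lit 4) (nat_lit 59) (nat_lit 5) (nat_lit 59) (nat_lit 4) (nat_lit 478) (nat_lit 401) (nat_lit 321)) (XT.lf (nat_lit 0) (nat_lit 16218663552) (nat_lit 152) (nat_lit 770678719) (nat_lit 76) (nat_lit 28691544009) (nat_lit 57) (nat_lit 5) (nat_lit 59) (nat_lit 5) (nat_lit 58) (nat_lit 4) (nat_lit 479) (nat_lit 401) (nat_lit 320))))) (XT.nd (nat_lit 234)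 (nat_lit 456) (nat_lit 0) (XT.nd (nat_lit 78) (nat_lit 228) (nat_lit 0) (XT.lf (nat_lit 0) (nat_lit 38150259778) (nat_lit 152) (nat_lit 3724242574) (nat_lit 0) (nat_lit 5406568302) (nat_lit 56) (nat_lit 5) (nat_lit 58) (nat_lit 4) (nat_lit 56) (nat_lit 4) (nat_lit 480) (nat_lit 401) (nat_lit 319)) (XT.nd (nat_lit 78) (nat_lit 76) (nat_lit 0) (XT.lf (nat_lit 0) (nat_lit 12525115224) (nat_lit 152) (nat_lit 7346775061) (nat_lit 76) (nat_lit 29069460803) (nat_lit 54) (nat_lit 5) (nat_lit 56) (nat_lit 5) (nat_lit 55) (nat_lit 4) (nat_lit 481) (nat_lit 401) (nat_lit 318)) (XT.lf (nat_lit 0) (nat_lit 35488949486) (nat_lit 152) (nat_lit 11536705850) (nat_lit 0) (nat_lit 3643859885) (nat_lit 53) (nat_lit 5) (nat_lit 55) (nat_lit 4) (nat_lit 53) (nat_lit 4) (nat_lit 482) (nat_lit 401) (nat_lit 317)))) (XT.nd (nat_lit 156) (nat_lit 228) (nat_lit 0) (XT.nd (nat_lit 78) (nat_lit 76) (nat_lit 0) (XT.lf (nat_lit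 0) (nat_lit 7569174446) (nat_lit 152) (nat_lit 16505262629) (nat_lit 76) (nat_lit 28389863559) (nat_lit 51) (nat_lit 5) (nat_lit 53) (nat_lit 5) (nat_lit 52) (nat_lit 4) (nat_lit 483) (nat_lit 401) (nat_lit 316)) (XT.lf (nat_lit 0) (nat_lit 31542524193) (nat_lit 152) (nat_lit 22213348270) (nat_lit 0) (nat_lit 576441669) (nat_lit 50) (nat_lit 5) (nat_lit 52) (nat_lit 4) (nat_lit 50) (nat_lit 4) (nat_lit 484) (nat_lit 401) (nat_lit 315))) (XT.nd (nat_lit 78) (nat_lit 76) (nat_lit 0) (XT.lf (nat_lit 0) (nat_lit 1060927895) (nat_lit 152) (nat_lit 28834940036) (nat_lit 76) (nat_lit 26378289502) (nat_lit 48) (nat_lit 5) (nat_lit 50) (nat_lit 5) (nat_lit 49) (nat_lit 4) (nat_lit 485) (nat_lit 401) (nat_lit 314)) (XT.lf (nat_lit 0) (nat_lit 21856191391) (nat_lit 76) (nat_lit 4186312454) (nat_lit 152) (nat_lit 32251530565) (nat_lit 47) (nat_lit 5) (nat_lit 48) (nat_lit 5) (nat_lit 49) (nat_lit 4) (nat_lit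 486) (nat_lit 401) (nat_lit 313))))))) (XT.nd (nat_lit 55848) (nat_lit 0) (nat_lit 24320) (XT.nd (nat_lit 468) (nat_lit 684) (nat_lit 0) (XT.nd (nat_lit 234) (nat_lit 304) (nat_lit 0) (XT.nd (nat_lit 78) (nat_lit 152) (nat_lit 0) (XT.lf (nat_lit 0) (nat_lit 15285440952) (nat_lit 76) (nat_lit 37618635915) (nat_lit 76) (nat_lit 7491901066) (nat_lit 46) (nat_lit 4) (nat_lit 47) (nat_lit 5) (nat_lit 47) (nat_lit 4) (nat_lit 487) (nat_lit 401) (nat_lit 312)) (XT.nd (nat_lit 78) (nat_lit 0) (nat_lit 0) (XT.lf (nat_lit 0) (nat_lit 7621646663) (nat_lit 76) (nat_lit 10982927845) (nat_lit 152) (nat_lit 43979308375) (nat_lit 44) (nat_lit 5) (nat_lit 45) (nat_lit 5) (nat_lit 46) (nat_lit 4) (nat_lit 488) (nat_lit 401) (nat_lit 311)) (XT.lf (nat_lit 0) (nat_lit 46450948435) (nat_lit 152) (nat_lit 1244151920) (nat_lit 0) (nat_lit 17165857069) (nat_lit 44) (nat_lit 5) (nat_lit 46) (nat_lit 4) (nat_lit 44) (nat_lit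 4) (nat_lit 489) (nat_lit 401) (nat_lit 310)))) (XT.nd (nat_lit 78) (nat_lit 152) (nat_lit 0) (XT.lf (nat_lit 0) (nat_lit 8897093803) (nat_lit 152) (nat_lit 11240638670) (nat_lit 76) (nat_lit 47093000469) (nat_lit 42) (nat_lit 5) (nat_lit 44) (nat_lit 5) (nat_lit 43) (nat_lit 4) (nat_lit 490) (nat_lit 401) (nat_lit 309)) (XT.nd (nat_lit 78) (nat_lit 76) (nat_lit 0) (XT.lf (nat_lit 0) (nat_lit 37716972290) (nat_lit 152) (nat_lit 22727423059) (nat_lit 0) (nat_lit 9253288726) (nat_lit 41) (nat_lit 5) (nat_lit 43) (nat_lit 4) (nat_lit 41) (nat_lit 4) (nat_lit 491) (nat_lit 401) (nat_lit 308)) (XT.lf (nat_lit 0) (nat_lit 36488693039) (nat_lit 76) (nat_lit 32129215858) (nat_lit 76) (nat_lit 3650872121) (nat_lit 40) (nat_lit 4) (nat_lit 41) (nat_lit 5) (nat_lit 41) (nat_lit 4) (nat_lit 492) (nat_lit 401) (nat_lit 307))))) (XT.nd (nat_lit 234) (nat_lit 380) (nat_lit 0) (XT.nd (nat_lit 78) (nat_lit 152)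 (nat_lit 0) (XT.lf (nat_lit 0) (nat_lit 24341082752) (nat_lit 76) (nat_lit 1685217030) (nat_lit 152) (nat_lit 48921406129) (nat_lit 38) (nat_lit 5) (nat_lit 39) (nat_lit 5) (nat_lit 40) (nat_lit 4) (nat_lit 493) (nat_lit 401) (nat_lit 306)) (XT.nd (nat_lit 78) (nat_lit 76) (nat_lit 0) (XT.lf (nat_lit 0) (nat_lit 10276682177) (nat_lit 76) (nat_lit 47568082573) (nat_lit 76) (nat_lit 19892739839) (nat_lit 37) (nat_lit 4) (nat_lit 38) (nat_lit 5) (nat_lit 38) (nat_lit 4) (nat_lit 494) (nat_lit 401) (nat_lit 305)) (XT.lf (nat_lit 0) (nat_lit 10894858033) (nat_lit 152) (nat_lit 5571076080) (nat_lit 76) (nat_lit 64182383195) (nat_lit 36) (nat_lit 5) (nat_lit 38) (nat_lit 5) (nat_lit 37) (nat_lit 4) (nat_lit 495) (nat_lit 401) (nat_lit 304)))) (XT.nd (nat_lit 156) (nat_lit 228) (nat_lit 0) (XT.nd (nat_lit 78) (nat_lit 76) (nat_lit 0) (XT.lf (nat_lit 0) (nat_lit 43529692068) (nat_lit 152) (nat_lit 23510370320)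 (nat_lit 0) (nat_lit 16637121622) (nat_lit 35) (nat_lit 5) (nat_lit 37) (nat_lit 4) (nat_lit 35) (nat_lit 4) (nat_lit 496) (nat_lit 401) (nat_lit 303)) (XT.lf (nat_lit 0) (nat_lit 43072087105) (nat_lit 76) (nat_lit 35335236548) (nat_lit 76) (nat_lit 8431838852) (nat_lit 34) (nat_lit 4) (nat_lit 35) (nat_lit 5) (nat_lit 35) (nat_lit 4) (nat_lit 497) (nat_lit 401) (nat_lit 302))) (XT.nd (nat_lit 78) (nat_lit 76) (nat_lit 0) (XT.lf (nat_lit 0) (nat_lit 23486973408) (nat_lit 76) (nat_lit 1340949138) (nat_lit 152) (nat_lit 65310837017) (nat_lit 32) (nat_lit 5) (nat_lit 33) (nat_lit 5) (nat_lit 34) (nat_lit 4) (nat_lit 498) (nat_lit 401) (nat_lit 301)) (XT.lf (nat_lit 0) (nat_lit 975880214) (nat_lit 76) (nat_lit 59370597851) (nat_lit 76) (nat_lit 33231248339) (nat_lit 31) (nat_lit 4) (nat_lit 32) (nat_lit 5) (nat_lit 32) (nat_lit 4) (nat_lit 499) (nat_lit 401) (nat_lit 300)))))) (XT.nd (nat_lit 546)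 (nat_lit 5548) (nat_lit 0) (XT.nd (nat_lit 234) (nat_lit 912) (nat_lit 0) (XT.nd (nat_lit 78) (nat_lit 380) (nat_lit 0) (XT.lf (nat_lit 0) (nat_lit 144409721) (nat_lit 380) (nat_lit 1549821724) (nat_lit 380) (nat_lit 1549821724) (nat_lit 441) (nat_lit 3) (nat_lit 446) (nat_lit 3) (nat_lit 446) (nat_lit 5) (nat_lit 402) (nat_lit 402) (nat_lit 396)) (XT.nd (nat_lit 78) (nat_lit 380) (nat_lit 0) (XT.lf (nat_lit 76) (nat_lit 2289522987) (nat_lit 0) (nat_lit 2495966688) (nat_lit 380) (nat_lit 1729431361) (nat_lit 442) (nat_lit 5) (nat_lit 441) (nat_lit 3) (nat_lit 446) (nat_lit 5) (nat_lit 403) (nat_lit 402) (nat_lit 395)) (XT.lf (nat_lit 76) (nat_lit 1311536736) (nat_lit 0) (nat_lit 1349068759) (nat_lit 456) (nat_lit 3889024266) (nat_lit 437) (nat_lit 5) (nat_lit 436) (nat_lit 5) (nat_lit 442) (nat_lit 5) (nat_lit 404) (nat_lit 402) (nat_lit 394)))) (XT.nd (nat_lit 156) (nat_lit 532) (nat_lit 0) (XT.nd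 (nat_lit 78) (nat_lit 0) (nat_lit 0) (XT.lf (nat_lit 0) (nat_lit 404410129) (nat_lit 456) (nat_lit 6136289259) (nat_lit 532) (nat_lit 51666593) (nat_lit 431) (nat_lit 5) (nat_lit 437) (nat_lit 5) (nat_lit 438) (nat_lit 5) (nat_lit 405) (nat_lit 402) (nat_lit 393)) (XT.lf (nat_lit 0) (nat_lit 4633189718) (nat_lit 456) (nat_lit 306527993) (nat_lit 532) (nat_lit 1702371566) (nat_lit 431) (nat_lit 5) (nat_lit 437) (nat_lit 5) (nat_lit 438) (nat_lit 5) (nat_lit 406) (nat_lit 402) (nat_lit 392))) (XT.nd (nat_lit 78) (nat_lit 0) (nat_lit 0) (XT.lf (nat_lit 0) (nat_lit 2131202032) (nat_lit 532) (nat_lit 948045777) (nat_lit 608) (nat_lit 3620444970) (nat_lit 424) (nat_lit 5) (nat_lit 431) (nat_lit 5) (nat_lit 432) (nat_lit 5) (nat_lit 407) (nat_lit 402) (nat_lit 391)) (XT.lf (nat_lit 76) (nat_lit 5287186552) (nat_lit 0) (nat_lit 957253478) (nat_lit 608) (nat_lit 520943321) (nat_lit 425) (nat_lit 5) (nat_lit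 424) (nat_lit 5) (nat_lit 432) (nat_lit 5) (nat_lit 408) (nat_lit 402) (nat_lit 390))))) (XT.nd (nat_lit 234) (nat_lit 3648) (nat_lit 0) (XT.nd (nat_lit 78) (nat_lit 1368) (nat_lit 0) (XT.lf (nat_lit 0) (nat_lit 3488568864) (nat_lit 608) (nat_lit 1927695918) (nat_lit 76) (nat_lit 1422079108) (nat_lit 417) (nat_lit 5) (nat_lit 425) (nat_lit 5) (nat_lit 418) (nat_lit 5) (nat_lit 409) (nat_lit 402) (nat_lit 389)) (XT.nd (nat_lit 78) (nat_lit 684) (nat_lit 0) (XT.lf (nat_lit 0) (nat_lit 598047637) (nat_lit 684) (nat_lit 2272670986) (nat_lit 76) (nat_lit 4048680821) (nat_lit 408) (nat_lit 5) (nat_lit 417) (nat_lit 5) (nat_lit 409) (nat_lit 5) (nat_lit 410) (nat_lit 402) (nat_lit 388)) (XT.lf (nat_lit 0) (nat_lit 4481518296) (nat_lit 684) (nat_lit 35307155) (nat_lit 760) (nat_lit 2491429714) (nat_lit 399) (nat_lit 5) (nat_lit 408) (nat_lit 5) (nat_lit 409) (nat_lit 5) (nat_lit 411) (nat_lit 402) (nat_lit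 387)))) (XT.nd (nat_lit 156) (nat_lit 1976) (nat_lit 0) (XT.nd (nat_lit 78) (nat_lit 836) (nat_lit 0) (XT.lf (nat_lit 0) (nat_lit 1381997546) (nat_lit 836) (nat_lit 2701475227) (nat_lit 76) (nat_lit 3021209305) (nat_lit 388) (nat_lit 5) (nat_lit 399) (nat_lit 5) (nat_lit 389) (nat_lit 5) (nat_lit 412) (nat_lit 402) (nat_lit 386)) (XT.lf (nat_lit 0) (nat_lit 4427866134) (nat_lit 836) (nat_lit 834583626) (nat_lit 912) (nat_lit 1946818487) (nat_lit 377) (nat_lit 5) (nat_lit 388) (nat_lit 5) (nat_lit 389) (nat_lit 5) (nat_lit 413) (nat_lit 402) (nat_lit 385))) (XT.nd (nat_lit 78) (nat_lit 988) (nat_lit 0) (XT.lf (nat_lit 0) (nat_lit 1877951380) (nat_lit 988) (nat_lit 2786608252) (nat_lit 76) (nat_lit 2656980124) (nat_lit 364) (nat_lit 5) (nat_lit 377) (nat_lit 5) (nat_lit 365) (nat_lit 5) (nat_lit 414) (nat_lit 402) (nat_lit 384)) (XT.lf (nat_lit 0) (nat_lit 4739803058) (nat_lit 988) (nat_lit 1006976865)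 (nat_lit 1064) (nat_lit 1695295593) (nat_lit 351) (nat_lit 5) (nat_lit 364) (nat_lit 5) (nat_lit 365) (nat_lit 5) (nat_lit 415) (nat_lit 402) (nat_lit 383))))))))
noncomputable def xc51 : XT := (XT.nd (nat_lit 2028) (nat_lit 5776) (nat_lit 0) (XT.nd (nat_lit 1014) (nat_lit 5092) (nat_lit 0) (XT.nd (nat_lit 468) (nat_lit 4256) (nat_lit 0) (XT.nd (nat_lit 234) (nat_lit 2128) (nat_lit 0) (XT.nd (nat_lit 78) (nat_lit 2432) (nat_lit 0) (XT.lf (nat_lit 0) (nat_lit 2118189462) (nat_lit 1140) (nat_lit 2550013573) (nat_lit 76) (nat_lit 2902163880) (nat_lit 336) (nat_lit 5) (nat_lit 351) (nat_lit 5) (nat_lit 337) (nat_lit 5) (nat_lit 416) (nat_lit 402) (nat_lit 382)) (XT.nd (nat_lit 78) (nat_lit 1292) (nat_lit 0) (XT.lf (nat_lit 0) (nat_lit 5398126488) (nat_lit 1140) (nat_lit 602665546) (nat_lit 1216) (nat_lit 1706391039) (nat_lit 321) (nat_lit 5) (nat_lit 336) (nat_lit 5) (nat_lit 337) (nat_lit 5) (nat_lit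 417) (nat_lit 402) (nat_lit 381)) (XT.lf (nat_lit 0) (nat_lit 2130912258) (nat_lit 1292) (nat_lit 2009101136) (nat_lit 76) (nat_lit 3711771626) (nat_lit 304) (nat_lit 5) (nat_lit 321) (nat_lit 5) (nat_lit 305) (nat_lit 5) (nat_lit 418) (nat_lit 402) (nat_lit 380)))) (XT.nd (nat_lit 78) (nat_lit 1292) (nat_lit 0) (XT.lf (nat_lit 0) (nat_lit 6054882719) (nat_lit 912) (nat_lit 1620384924) (nat_lit 76) (nat_lit 329956413) (nat_lit 293) (nat_lit 5) (nat_lit 305) (nat_lit 5) (nat_lit 294) (nat_lit 5) (nat_lit 419) (nat_lit 402) (nat_lit 379)) (XT.nd (nat_lit 78) (nat_lit 608) (nat_lit 0) (XT.lf (nat_lit 0) (nat_lit 1940690675) (nat_lit 684) (nat_lit 1177217499) (nat_lit 76) (nat_lit 5048727834) (nat_lit 284) (nat_lit 5) (nat_lit 293) (nat_lit 5) (nat_lit 285) (nat_lit 5) (nat_lit 420) (nat_lit 402) (nat_lit 378)) (XT.lf (nat_lit 0) (nat_lit 5940193231) (nat_lit 684) (nat_lit 655155946) (nat_lit 76) (nat_lit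 1741577060) (nat_lit 276) (nat_lit 5) (nat_lit 285) (nat_lit 5) (nat_lit 277) (nat_lit 5) (nat_lit 421) (nat_lit 402) (nat_lit 377))))) (XT.nd (nat_lit 234) (nat_lit 1900) (nat_lit 0) (XT.nd (nat_lit 78) (nat_lit 1748) (nat_lit 0) (XT.lf (nat_lit 0) (nat_lit 1568854103) (nat_lit 608) (nat_lit 64066234) (nat_lit 76) (nat_lit 6883057775) (nat_lit 268) (nat_lit 5) (nat_lit 276) (nat_lit 5) (nat_lit 269) (nat_lit 5) (nat_lit 422) (nat_lit 402) (nat_lit 376)) (XT.nd (nat_lit 78) (nat_lit 608) (nat_lit 0) (XT.lf (nat_lit 0) (nat_lit 596261714) (nat_lit 532) (nat_lit 5080880836) (nat_lit 608) (nat_lit 3026321320) (nat_lit 253) (nat_lit 5) (nat_lit 260) (nat_lit 5) (nat_lit 261) (nat_lit 5) (nat_lit 423) (nat_lit 402) (nat_lit 375)) (XT.lf (nat_lit 0) (nat_lit 1049718470) (nat_lit 608) (nat_lit 7553350430) (nat_lit 76) (nat_lit 297538144) (nat_lit 245) (nat_lit 5) (nat_lit 253) (nat_lit 5) (nat_lit 246)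 (nat_lit 5) (nat_lit 424) (nat_lit 402) (nat_lit 374)))) (XT.nd (nat_lit 156) (nat_lit 912) (nat_lit 0) (XT.nd (nat_lit 78) (nat_lit 532) (nat_lit 0) (XT.lf (nat_lit 0) (nat_lit 2135888542) (nat_lit 456) (nat_lit 3151002830) (nat_lit 532) (nat_lit 3819230848) (nat_lit 239) (nat_lit 5) (nat_lit 245) (nat_lit 5) (nat_lit 246) (nat_lit 5) (nat_lit 425) (nat_lit 402) (nat_lit 373)) (XT.lf (nat_lit 0) (nat_lit 406218144) (nat_lit 532) (nat_lit 6305583647) (nat_lit 76) (nat_lit 2609993854) (nat_lit 232) (nat_lit 5) (nat_lit 239) (nat_lit 5) (nat_lit 233) (nat_lit 5) (nat_lit 426) (nat_lit 402) (nat_lit 372))) (XT.nd (nat_lit 78) (nat_lit 456) (nat_lit 0) (XT.lf (nat_lit 0) (nat_lit 3948607440) (nat_lit 456) (nat_lit 829812331) (nat_lit 532) (nat_lit 4768274509) (nat_lit 226) (nat_lit 5) (nat_lit 232) (nat_lit 5) (nat_lit 233) (nat_lit 5) (nat_lit 427) (nat_lit 402) (nat_lit 371)) (XT.lf (nat_lit 0) (nat_lit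 4953211188) (nat_lit 456) (nat_lit 4456430214) (nat_lit 532) (nat_lit 371993669) (nat_lit 220) (nat_lit 5) (nat_lit 226) (nat_lit 5) (nat_lit 227) (nat_lit 5) (nat_lit 428) (nat_lit 402) (nat_lit 370)))))) (XT.nd (nat_lit 468) (nat_lit 2280) (nat_lit 0) (XT.nd (nat_lit 234) (nat_lit 1444) (nat_lit 0) (XT.nd (nat_lit 78) (nat_lit 912) (nat_lit 0) (XT.lf (nat_lit 0) (nat_lit 4182937216) (nat_lit 456) (nat_lit 4010177174) (nat_lit 76) (nat_lit 1833343798) (nat_lit 214) (nat_lit 5) (nat_lit 220) (nat_lit 5) (nat_lit 215) (nat_lit 5) (nat_lit 429) (nat_lit 402) (nat_lit 369)) (XT.nd (nat_lit 78) (nat_lit 456) (nat_lit 0) (XT.lf (nat_lit 0) (nat_lit 7158146505) (nat_lit 456) (nat_lit 1846898078) (nat_lit 532) (nat_lit 1276962069) (nat_lit 208) (nat_lit 5) (nat_lit 214) (nat_lit 5) (nat_lit 215) (nat_lit 5) (nat_lit 430) (nat_lit 402) (nat_lit 368)) (XT.lf (nat_lit 0) (nat_lit 3505231968) (nat_lit 456)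 (nat_lit 2199574359) (nat_lit 76) (nat_lit 4842840835) (nat_lit 202) (nat_lit 5) (nat_lit 208) (nat_lit 5) (nat_lit 203) (nat_lit 5) (nat_lit 431) (nat_lit 402) (nat_lit 367)))) (XT.nd (nat_lit 78) (nat_lit 1064) (nat_lit 0) (XT.lf (nat_lit 0) (nat_lit 8544469841) (nat_lit 456) (nat_lit 1197115738) (nat_lit 76) (nat_lit 1083281895) (nat_lit 197) (nat_lit 5) (nat_lit 203) (nat_lit 5) (nat_lit 198) (nat_lit 5) (nat_lit 432) (nat_lit 402) (nat_lit 366)) (XT.nd (nat_lit 78) (nat_lit 684) (nat_lit 0) (XT.lf (nat_lit 0) (nat_lit 2746628380) (nat_lit 380) (nat_lit 156143556) (nat_lit 76) (nat_lit 8210000012) (nat_lit 192) (nat_lit 5) (nat_lit 197) (nat_lit 5) (nat_lit 193) (nat_lit 5) (nat_lit 433) (nat_lit 402) (nat_lit 365)) (XT.lf (nat_lit 0) (nat_lit 963079325) (nat_lit 304) (nat_lit 7094175856) (nat_lit 380) (nat_lit 3354763271) (nat_lit 183) (nat_lit 5) (nat_lit 187) (nat_lit 5) (nat_lit 188) (nat_lit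 5) (nat_lit 434) (nat_lit 402) (nat_lit 364))))) (XT.nd (nat_lit 234) (nat_lit 1216) (nat_lit 0) (XT.nd (nat_lit 78) (nat_lit 684) (nat_lit 0) (XT.lf (nat_lit 0) (nat_lit 1937690941) (nat_lit 380) (nat_lit 9560116952) (nat_lit 76) (nat_lit 225843782) (nat_lit 178) (nat_lit 5) (nat_lit 183) (nat_lit 5) (nat_lit 179) (nat_lit 5) (nat_lit 435) (nat_lit 402) (nat_lit 363)) (XT.nd (nat_lit 78) (nat_lit 380) (nat_lit 0) (XT.lf (nat_lit 0) (nat_lit 3388211401) (nat_lit 304) (nat_lit 4150261285) (nat_lit 380) (nat_lit 4508010539) (nat_lit 174) (nat_lit 5) (nat_lit 178) (nat_lit 5) (nat_lit 179) (nat_lit 5) (nat_lit 436) (nat_lit 402) (nat_lit 362)) (XT.lf (nat_lit 0) (nat_lit 1095978120) (nat_lit 380) (nat_lit 7682758022) (nat_lit 76) (nat_lit 3603957924) (nat_lit 169) (nat_lit 5) (nat_lit 174) (nat_lit 5) (nat_lit 170) (nat_lit 5) (nat_lit 437) (nat_lit 402) (nat_lit 361)))) (XT.nd (nat_lit 156) (nat_lit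 532) (nat_lit 0) (XT.nd (nat_lit 78) (nat_lit 380) (nat_lit 0) (XT.lf (nat_lit 0) (nat_lit 6059309500) (nat_lit 304) (nat_lit 923543123) (nat_lit 380) (nat_lit 5748651286) (nat_lit 165) (nat_lit 5) (nat_lit 169) (nat_lit 5) (nat_lit 170) (nat_lit 5) (nat_lit 438) (nat_lit 402) (nat_lit 360)) (XT.lf (nat_lit 0) (nat_lit 196155072) (nat_lit 380) (nat_lit 5610008842) (nat_lit 76) (nat_lit 7287641891) (nat_lit 160) (nat_lit 5) (nat_lit 165) (nat_lit 5) (nat_lit 161) (nat_lit 5) (nat_lit 439) (nat_lit 402) (nat_lit 359))) (XT.nd (nat_lit 78) (nat_lit 304) (nat_lit 0) (XT.lf (nat_lit 0) (nat_lit 6420095238) (nat_lit 304) (nat_lit 4513469864) (nat_lit 76) (nat_lit 2535931081) (nat_lit 157) (nat_lit 5) (nat_lit 161) (nat_lit 5) (nat_lit 158) (nat_lit 5) (nat_lit 440) (nat_lit 402) (nat_lit 358)) (XT.lf (nat_lit 0) (nat_lit 10512741914) (nat_lit 304) (nat_lit 2572775510) (nat_lit 380) (nat_lit 774549335)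 (nat_lit 153) (nat_lit 5) (nat_lit 157) (nat_lit 5) (nat_lit 158) (nat_lit 5) (nat_lit 441) (nat_lit 402) (nat_lit 357))))))) (XT.nd (nat_lit 1014) (nat_lit 2432) (nat_lit 0) (XT.nd (nat_lit 468) (nat_lit 1596) (nat_lit 0) (XT.nd (nat_lit 234) (nat_lit 684) (nat_lit 0) (XT.nd (nat_lit 78) (nat_lit 760) (nat_lit 0) (XT.lf (nat_lit 0) (nat_lit 5840095883) (nat_lit 304) (nat_lit 2167055036) (nat_lit 76) (nat_lit 6257157091) (nat_lit 149) (nat_lit 5) (nat_lit 153) (nat_lit 5) (nat_lit 150) (nat_lit 5) (nat_lit 442) (nat_lit 402) (nat_lit 356)) (XT.nd (nat_lit 78) (nat_lit 532) (nat_lit 0) (XT.lf (nat_lit 0) (nat_lit 12888485543) (nat_lit 304) (nat_lit 897086556) (nat_lit 76) (nat_lit 899391952) (nat_lit 146) (nat_lit 5) (nat_lit 150) (nat_lit 5) (nat_lit 147) (nat_lit 5) (nat_lit 443) (nat_lit 402) (nat_lit 355)) (XT.lf (nat_lit 0) (nat_lit 384408200) (nat_lit 228) (nat_lit 4854610102) (nat_lit 304)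 (nat_lit 9880835695) (nat_lit 139) (nat_lit 5) (nat_lit 142) (nat_lit 5) (nat_lit 143) (nat_lit 5) (nat_lit 444) (nat_lit 402) (nat_lit 354)))) (XT.nd (nat_lit 78) (nat_lit 456) (nat_lit 0) (XT.lf (nat_lit 0) (nat_lit 1758955815) (nat_lit 228) (nat_lit 10981477376) (nat_lit 304) (nat_lit 2830986006) (nat_lit 136) (nat_lit 5) (nat_lit 139) (nat_lit 5) (nat_lit 140) (nat_lit 5) (nat_lit 445) (nat_lit 402) (nat_lit 353)) (XT.nd (nat_lit 78) (nat_lit 152) (nat_lit 0) (XT.lf (nat_lit 0) (nat_lit 3180086146) (nat_lit 228) (nat_lit 1455613903) (nat_lit 304) (nat_lit 11403940934) (nat_lit 132) (nat_lit 5) (nat_lit 135) (nat_lit 5) (nat_lit 136) (nat_lit 5) (nat_lit 446) (nat_lit 402) (nat_lit 352)) (XT.lf (nat_lit 0) (nat_lit 4631615298) (nat_lit 152) (nat_lit 7979195527) (nat_lit 228) (nat_lit 3913815848) (nat_lit 130) (nat_lit 5) (nat_lit 132) (nat_lit 5) (nat_lit 133) (nat_lit 5) (nat_lit 447) (nat_lit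 402) (nat_lit 351))))) (XT.nd (nat_lit 234) (nat_lit 836) (nat_lit 0) (XT.nd (nat_lit 78) (nat_lit 456) (nat_lit 0) (XT.lf (nat_lit 0) (nat_lit 4026835037) (nat_lit 304) (nat_lit 10875201729) (nat_lit 76) (nat_lit 2126094796) (nat_lit 126) (nat_lit 5) (nat_lit 130) (nat_lit 5) (nat_lit 127) (nat_lit 5) (nat_lit 448) (nat_lit 402) (nat_lit 350)) (XT.nd (nat_lit 78) (nat_lit 304) (nat_lit 0) (XT.lf (nat_lit 0) (nat_lit 7699239232) (nat_lit 152) (nat_lit 4789711815) (nat_lit 228) (nat_lit 5060539383) (nat_lit 124) (nat_lit 5) (nat_lit 126) (nat_lit 5) (nat_lit 127) (nat_lit 5) (nat_lit 449) (nat_lit 402) (nat_lit 349)) (XT.lf (nat_lit 0) (nat_lit 3402256510) (nat_lit 304) (nat_lit 8787828590) (nat_lit 76) (nat_lit 5900220845) (nat_lit 120) (nat_lit 5) (nat_lit 124) (nat_lit 5) (nat_lit 121) (nat_lit 5) (nat_lit 450) (nat_lit 402) (nat_lit 348)))) (XT.nd (nat_lit 156) (nat_lit 380) (nat_lit 0) (XT.nd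 (nat_lit 78) (nat_lit 304) (nat_lit 0) (XT.lf (nat_lit 0) (nat_lit 10954737968) (nat_lit 152) (nat_lit 1415650125) (nat_lit 228) (nat_lit 6280667584) (nat_lit 118) (nat_lit 5) (nat_lit 120) (nat_lit 5) (nat_lit 121) (nat_lit 5) (nat_lit 451) (nat_lit 402) (nat_lit 347)) (XT.lf (nat_lit 0) (nat_lit 2739509541) (nat_lit 304) (nat_lit 6597745355) (nat_lit 76) (nat_lit 9894591676) (nat_lit 114) (nat_lit 5) (nat_lit 118) (nat_lit 5) (nat_lit 115) (nat_lit 5) (nat_lit 452) (nat_lit 402) (nat_lit 346))) (XT.nd (nat_lit 78) (nat_lit 228) (nat_lit 0) (XT.lf (nat_lit 0) (nat_lit 12268189143) (nat_lit 228) (nat_lit 5468635710) (nat_lit 76) (nat_lit 2097366964) (nat_lit 112) (nat_lit 5) (nat_lit 115) (nat_lit 5) (nat_lit 113) (nat_lit 5) (nat_lit 453) (nat_lit 402) (nat_lit 345)) (XT.lf (nat_lit 0) (nat_lit 2026645712) (nat_lit 228) (nat_lit 4324540174) (nat_lit 76) (nat_lit 14107291717) (nat_lit 109) (nat_lit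 5) (nat_lit 112) (nat_lit 5) (nat_lit 110) (nat_lit 5) (nat_lit 454) (nat_lit 402) (nat_lit 344)))))) (XT.nd (nat_lit 546) (nat_lit 988) (nat_lit 0) (XT.nd (nat_lit 234) (nat_lit 912) (nat_lit 0) (XT.nd (nat_lit 78) (nat_lit 380) (nat_lit 0) (XT.lf (nat_lit 0) (nat_lit 12166020696) (nat_lit 228) (nat_lit 3184738590) (nat_lit 76) (nat_lit 5754265680) (nat_lit 107) (nat_lit 5) (nat_lit 110) (nat_lit 5) (nat_lit 108) (nat_lit 5) (nat_lit 455) (nat_lit 402) (nat_lit 343)) (XT.nd (nat_lit 78) (nat_lit 152) (nat_lit 0) (XT.lf (nat_lit 0) (nat_lit 1247620569) (nat_lit 228) (nat_lit 1994402434) (nat_lit 76) (nat_lit 18534404966) (nat_lit 104) (nat_lit 5) (nat_lit 107) (nat_lit 5) (nat_lit 105) (nat_lit 5) (nat_lit 456) (nat_lit 402) (nat_lit 342)) (XT.lf (nat_lit 0) (nat_lit 12034916147) (nat_lit 228) (nat_lit 861123788) (nat_lit 76) (nat_lit 9574421212) (nat_lit 102) (nat_lit 5) (nat_lit 105) (nat_lit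 5) (nat_lit 103) (nat_lit 5) (nat_lit 457) (nat_lit 402) (nat_lit 341)))) (XT.nd (nat_lit 156) (nat_lit 380) (nat_lit 0) (XT.nd (nat_lit 78) (nat_lit 152) (nat_lit 0) (XT.lf (nat_lit 0) (nat_lit 365454903) (nat_lit 152) (nat_lit 19614528) (nat_lit 228) (nat_lit 22807305413) (nat_lit 97) (nat_lit 5) (nat_lit 99) (nat_lit 5) (nat_lit 100) (nat_lit 5) (nat_lit 458) (nat_lit 402) (nat_lit 340)) (XT.lf (nat_lit 0) (nat_lit 1492177298) (nat_lit 152) (nat_lit 10376646370) (nat_lit 228) (nat_lit 12068324274) (nat_lit 95) (nat_lit 5) (nat_lit 97) (nat_lit 5) (nat_lit 98) (nat_lit 5) (nat_lit 459) (nat_lit 402) (nat_lit 339))) (XT.nd (nat_lit 78) (nat_lit 228) (nat_lit 0) (XT.lf (nat_lit 0) (nat_lit 2704554847) (nat_lit 152) (nat_lit 21456905126) (nat_lit 228) (nat_lit 550660173) (nat_lit 93) (nat_lit 5) (nat_lit 95) (nat_lit 5) (nat_lit 96) (nat_lit 4) (nat_lit 460) (nat_lit 402) (nat_lit 338)) (XT.lf (nat_lit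 0) (nat_lit 3812008402) (nat_lit 152) (nat_lit 7822961133) (nat_lit 228) (nat_lit 13878024122) (nat_lit 90) (nat_lit 5) (nat_lit 92) (nat_lit 5) (nat_lit 93) (nat_lit 5) (nat_lit 461) (nat_lit 402) (nat_lit 337))))) (XT.nd (nat_lit 234) (nat_lit 608) (nat_lit 0) (XT.nd (nat_lit 78) (nat_lit 304) (nat_lit 0) (XT.lf (nat_lit 0) (nat_lit 4957614077) (nat_lit 76) (nat_lit 19743739168) (nat_lit 152) (nat_lit 1643909334) (nat_lit 89) (nat_lit 5) (nat_lit 90) (nat_lit 5) (nat_lit 91) (nat_lit 4) (nat_lit 462) (nat_lit 402) (nat_lit 336)) (XT.nd (nat_lit 78) (nat_lit 76) (nat_lit 0) (XT.lf (nat_lit 0) (nat_lit 6016377547) (nat_lit 152) (nat_lit 5274395301) (nat_lit 228) (nat_lit 15915919217) (nat_lit 86) (nat_lit 5) (nat_lit 88) (nat_lit 5) (nat_lit 89) (nat_lit 5) (nat_lit 463) (nat_lit 402) (nat_lit 335)) (XT.lf (nat_lit 0) (nat_lit 7055946640) (nat_lit 76) (nat_lit 18114346773) (nat_lit 152) (nat_lit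 2930449232) (nat_lit 85) (nat_lit 5) (nat_lit 86) (nat_lit 5) (nat_lit 87) (nat_lit 4) (nat_lit 464) (nat_lit 402) (nat_lit 334)))) (XT.nd (nat_lit 156) (nat_lit 304) (nat_lit 0) (XT.nd (nat_lit 78) (nat_lit 76) (nat_lit 0) (XT.lf (nat_lit 0) (nat_lit 8023921184) (nat_lit 152) (nat_lit 2769530146) (nat_lit 228) (nat_lit 18234017364) (nat_lit 82) (nat_lit 5) (nat_lit 84) (nat_lit 5) (nat_lit 85) (nat_lit 5) (nat_lit 465) (nat_lit 402) (nat_lit 333)) (XT.lf (nat_lit 0) (nat_lit 8908660211) (nat_lit 76) (nat_lit 16616045548) (nat_lit 152) (nat_lit 4463502781) (nat_lit 81) (nat_lit 5) (nat_lit 82) (nat_lit 5) (nat_lit 83) (nat_lit 4) (nat_lit 466) (nat_lit 402) (nat_lit 332))) (XT.nd (nat_lit 78) (nat_lit 76) (nat_lit 0) (XT.lf (nat_lit 0) (nat_lit 9733407411) (nat_lit 152) (nat_lit 356529059) (nat_lit 228) (nat_lit 20895483785) (nat_lit 78) (nat_lit 5) (nat_lit 80) (nat_lit 5) (nat_lit 81) (nat_lit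 5) (nat_lit 467) (nat_lit 402) (nat_lit 331)) (XT.lf (nat_lit 0) (nat_lit 10403087176) (nat_lit 76) (nat_lit 15307005141) (nat_lit 152) (nat_lit 6308134517) (nat_lit 77) (nat_lit 5) (nat_lit 78) (nat_lit 5) (nat_lit 79) (nat_lit 4) (nat_lit 468) (nat_lit 402) (nat_lit 330))))))))
noncomputable def xc52 : XT := (XT.nd (nat_lit 2028) (nat_lit 304) (nat_lit 0) (XT.nd (nat_lit 1014) (nat_lit 1368) (nat_lit 0) (XT.nd (nat_lit 468) (nat_lit 684) (nat_lit 0) (XT.nd (nat_lit 234) (nat_lit 380) (nat_lit 0) (XT.nd (nat_lit 78) (nat_lit 304) (nat_lit 0) (XT.lf (nat_lit 0) (nat_lit 9133237756) (nat_lit 228) (nat_lit 22090152346) (nat_lit 76) (nat_lit 1867673109) (nat_lit 74) (nat_lit 5) (nat_lit 77) (nat_lit 5) (nat_lit 75) (nat_lit 4) (nat_lit 469) (nat_lit 402) (nat_lit 329)) (XT.nd (nat_lit 78) (nat_lit 228) (nat_lit 0) (XT.lf (nat_lit 0) (nat_lit 11400476985) (nat_lit 76) (nat_lit 14258457900) (nat_lit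 152) (nat_lit 8543451953) (nat_lit 73) (nat_lit 5) (nat_lit 74) (nat_lit 5) (nat_lit 75) (nat_lit 4) (nat_lit 470) (nat_lit 402) (nat_lit 328)) (XT.lf (nat_lit 0) (nat_lit 7826469383) (nat_lit 228) (nat_lit 23666640444) (nat_lit 76) (nat_lit 3863945412) (nat_lit 70) (nat_lit 5) (nat_lit 73) (nat_lit 5) (nat_lit 71) (nat_lit 4) (nat_lit 471) (nat_lit 402) (nat_lit 327)))) (XT.nd (nat_lit 78) (nat_lit 304) (nat_lit 0) (XT.lf (nat_lit 0) (nat_lit 11730914678) (nat_lit 76) (nat_lit 13557299145) (nat_lit 152) (nat_lit 11265205613) (nat_lit 69) (nat_lit 5) (nat_lit 70) (nat_lit 5) (nat_lit 71) (nat_lit 4) (nat_lit 472) (nat_lit 402) (nat_lit 326)) (XT.nd (nat_lit 78) (nat_lit 76) (nat_lit 0) (XT.lf (nat_lit 0) (nat_lit 6068242834) (nat_lit 228) (nat_lit 26178141522) (nat_lit 76) (nat_lit 5550494358) (nat_lit 66) (nat_lit 5) (nat_lit 69) (nat_lit 5) (nat_lit 67) (nat_lit 4) (nat_lit 473) (nat_lit 402)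 (nat_lit 325)) (XT.lf (nat_lit 0) (nat_lit 11187329915) (nat_lit 76) (nat_lit 13309146232) (nat_lit 152) (nat_lit 14588856409) (nat_lit 65) (nat_lit 5) (nat_lit 66) (nat_lit 5) (nat_lit 67) (nat_lit 4) (nat_lit 474) (nat_lit 402) (nat_lit 324))))) (XT.nd (nat_lit 234) (nat_lit 304) (nat_lit 0) (XT.nd (nat_lit 78) (nat_lit 228) (nat_lit 0) (XT.lf (nat_lit 0) (nat_lit 3739938757) (nat_lit 152) (nat_lit 29866439981) (nat_lit 76) (nat_lit 6818892250) (nat_lit 63) (nat_lit 5) (nat_lit 65) (nat_lit 5) (nat_lit 64) (nat_lit 4) (nat_lit 475) (nat_lit 402) (nat_lit 323)) (XT.nd (nat_lit 78) (nat_lit 152) (nat_lit 0) (XT.lf (nat_lit 0) (nat_lit 9518437596) (nat_lit 76) (nat_lit 13641937366) (nat_lit 152) (nat_lit 18653190884) (nat_lit 62) (nat_lit 5) (nat_lit 63) (nat_lit 5) (nat_lit 64) (nat_lit 4) (nat_lit 476) (nat_lit 402) (nat_lit 322)) (XT.lf (nat_lit 0) (nat_lit 698458319) (nat_lit 152) (nat_lit 35022802450)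 (nat_lit 76) (nat_lit 7537232934) (nat_lit 60) (nat_lit 5) (nat_lit 62) (nat_lit 5) (nat_lit 61) (nat_lit 4) (nat_lit 477) (nat_lit 402) (nat_lit 321)))) (XT.nd (nat_lit 156) (nat_lit 152) (nat_lit 0) (XT.nd (nat_lit 78) (nat_lit 76) (nat_lit 0) (XT.lf (nat_lit 0) (nat_lit 6420423956) (nat_lit 76) (nat_lit 14710164890) (nat_lit 152) (nat_lit 23624578701) (nat_lit 59) (nat_lit 5) (nat_lit 60) (nat_lit 5) (nat_lit 61) (nat_lit 4) (nat_lit 478) (nat_lit 402) (nat_lit 320)) (XT.lf (nat_lit 0) (nat_lit 4284780462) (nat_lit 76) (nat_lit 38736266105) (nat_lit 76) (nat_lit 3292527283) (nat_lit 58) (nat_lit 4) (nat_lit 59) (nat_lit 5) (nat_lit 59) (nat_lit 4) (nat_lit 479) (nat_lit 402) (nat_lit 319))) (XT.nd (nat_lit 78) (nat_lit 0) (nat_lit 0) (XT.lf (nat_lit 0) (nat_lit 1527160144) (nat_lit 76) (nat_lit 16699853885) (nat_lit 152) (nat_lit 29701982984) (nat_lit 56) (nat_lit 5) (nat_lit 57) (nat_lit 5)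 (nat_lit 58) (nat_lit 4) (nat_lit 480) (nat_lit 402) (nat_lit 318)) (XT.lf (nat_lit 0) (nat_lit 41216227666) (nat_lit 152) (nat_lit 1646052400) (nat_lit 0) (nat_lit 6748079938) (nat_lit 56) (nat_lit 5) (nat_lit 58) (nat_lit 4) (nat_lit 56) (nat_lit 4) (nat_lit 481) (nat_lit 402) (nat_lit 317)))))) (XT.nd (nat_lit 468) (nat_lit 684) (nat_lit 0) (XT.nd (nat_lit 234) (nat_lit 304) (nat_lit 0) (XT.nd (nat_lit 78) (nat_lit 228) (nat_lit 0) (XT.lf (nat_lit 0) (nat_lit 14286947084) (nat_lit 152) (nat_lit 5492010216) (nat_lit 76) (nat_lit 31575384318) (nat_lit 54) (nat_lit 5) (nat_lit 56) (nat_lit 5) (nat_lit 55) (nat_lit 4) (nat_lit 482) (nat_lit 402) (nat_lit 316)) (XT.nd (nat_lit 78) (nat_lit 152) (nat_lit 0) (XT.lf (nat_lit 0) (nat_lit 38375798381) (nat_lit 152) (nat_lit 9932209392) (nat_lit 0) (nat_lit 4861601889) (nat_lit 53) (nat_lit 5) (nat_lit 55) (nat_lit 4) (nat_lit 53) (nat_lit 4) (nat_lit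 483) (nat_lit 402) (nat_lit 315)) (XT.lf (nat_lit 0) (nat_lit 9038130061) (nat_lit 152) (nat_lit 15190009841) (nat_lit 76) (nat_lit 30826652278) (nat_lit 51) (nat_lit 5) (nat_lit 53) (nat_lit 5) (nat_lit 52) (nat_lit 4) (nat_lit 484) (nat_lit 402) (nat_lit 314)))) (XT.nd (nat_lit 78) (nat_lit 228) (nat_lit 0) (XT.lf (nat_lit 0) (nat_lit 34188015683) (nat_lit 152) (nat_lit 21222903083) (nat_lit 0) (nat_lit 1605951944) (nat_lit 50) (nat_lit 5) (nat_lit 52) (nat_lit 4) (nat_lit 50) (nat_lit 4) (nat_lit 485) (nat_lit 402) (nat_lit 313)) (XT.nd (nat_lit 78) (nat_lit 76) (nat_lit 0) (XT.lf (nat_lit 0) (nat_lit 2161359299) (nat_lit 152) (nat_lit 28214949838) (nat_lit 76) (nat_lit 28680127062) (nat_lit 48) (nat_lit 5) (nat_lit 50) (nat_lit 5) (nat_lit 49) (nat_lit 4) (nat_lit 486) (nat_lit 402) (nat_lit 312)) (XT.lf (nat_lit 0) (nat_lit 24951638876) (nat_lit 76) (nat_lit 3409750275) (nat_lit 152) (nat_lit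 32816836981) (nat_lit 47) (nat_lit 5) (nat_lit 48) (nat_lit 5) (nat_lit 49) (nat_lit 4) (nat_lit 487) (nat_lit 402) (nat_lit 311))))) (XT.nd (nat_lit 234) (nat_lit 380) (nat_lit 0) (XT.nd (nat_lit 78) (nat_lit 228) (nat_lit 0) (XT.lf (nat_lit 0) (nat_lit 18015375930) (nat_lit 76) (nat_lit 38530168483) (nat_lit 76) (nat_lit 6840337654) (nat_lit 46) (nat_lit 4) (nat_lit 47) (nat_lit 5) (nat_lit 47) (nat_lit 4) (nat_lit 488) (nat_lit 402) (nat_lit 310)) (XT.nd (nat_lit 78) (nat_lit 76) (nat_lit 0) (XT.lf (nat_lit 0) (nat_lit 9931503117) (nat_lit 76) (nat_lit 10580063928) (nat_lit 152) (nat_lit 45172200733) (nat_lit 44) (nat_lit 5) (nat_lit 45) (nat_lit 5) (nat_lit 46) (nat_lit 4) (nat_lit 489) (nat_lit 402) (nat_lit 309)) (XT.lf (nat_lit 0) (nat_lit 560707686) (nat_lit 76) (nat_lit 49157144814) (nat_lit 76) (nat_lit 18357816063) (nat_lit 43) (nat_lit 4) (nat_lit 44) (nat_lit 5) (nat_lit 44) (nat_lit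 4) (nat_lit 490) (nat_lit 402) (nat_lit 308)))) (XT.nd (nat_lit 156) (nat_lit 228) (nat_lit 0) (XT.nd (nat_lit 78) (nat_lit 76) (nat_lit 0) (XT.lf (nat_lit 0) (nat_lit 10262564568) (nat_lit 152) (nat_lit 9981422656) (nat_lit 76) (nat_lit 50320658305) (nat_lit 42) (nat_lit 5) (nat_lit 44) (nat_lit 5) (nat_lit 43) (nat_lit 4) (nat_lit 491) (nat_lit 402) (nat_lit 307)) (XT.lf (nat_lit 0) (nat_lit 40505016768) (nat_lit 152) (nat_lit 22076346720) (nat_lit 0) (nat_lit 10574133601) (nat_lit 41) (nat_lit 5) (nat_lit 43) (nat_lit 4) (nat_lit 41) (nat_lit 4) (nat_lit 492) (nat_lit 402) (nat_lit 306))) (XT.nd (nat_lit 78) (nat_lit 152) (nat_lit 0) (XT.lf (nat_lit 0) (nat_lit 40049338359) (nat_lit 76) (nat_lit 32875389658) (nat_lit 76) (nat_lit 2931209281) (nat_lit 40) (nat_lit 4) (nat_lit 41) (nat_lit 5) (nat_lit 41) (nat_lit 4) (nat_lit 493) (nat_lit 402) (nat_lit 305)) (XT.lf (nat_lit 0) (nat_lit 27261684844)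 (nat_lit 76) (nat_lit 924782756) (nat_lit 152) (nat_lit 50482853342) (nat_lit 38) (nat_lit 5) (nat_lit 39) (nat_lit 5) (nat_lit 40) (nat_lit 4) (nat_lit 494) (nat_lit 402) (nat_lit 304))))))) (XT.nd (nat_lit 56004) (nat_lit 0) (nat_lit 16036) (XT.nd (nat_lit 55458) (nat_lit 0) (nat_lit 27664) (XT.nd (nat_lit 234) (nat_lit 76) (nat_lit 0) (XT.nd (nat_lit 78) (nat_lit 152) (nat_lit 0) (XT.lf (nat_lit 0) (nat_lit 12462376969) (nat_lit 76) (nat_lit 49116385114) (nat_lit 76) (nat_lit 20020360505) (nat_lit 37) (nat_lit 4) (nat_lit 38) (nat_lit 5) (nat_lit 38) (nat_lit 4) (nat_lit 495) (nat_lit 402) (nat_lit 303)) (XT.nd (nat_lit 78) (nat_lit 76) (nat_lit 0) (XT.lf (nat_lit 0) (nat_lit 12249217805) (nat_lit 152) (nat_lit 4241264530) (nat_lit 76) (nat_lit 68165958211) (nat_lit 36) (nat_lit 5) (nat_lit 38) (nat_lit 5) (nat_lit 37) (nat_lit 4) (nat_lit 496) (nat_lit 402) (nat_lit 302)) (XT.lf (nat_lit 0)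 (nat_lit 46499718899) (nat_lit 152) (nat_lit 23107501719) (nat_lit 0) (nat_lit 18230012401) (nat_lit 35) (nat_lit 5) (nat_lit 37) (nat_lit 4) (nat_lit 35) (nat_lit 4) (nat_lit 497) (nat_lit 402) (nat_lit 301)))) (XT.nd (nat_lit 55068) (nat_lit 0) (nat_lit 30096) (XT.lf (nat_lit 0) (nat_lit 46758834428) (nat_lit 76) (nat_lit 36339347419) (nat_lit 76) (nat_lit 8059820286) (nat_lit 34) (nat_lit 4) (nat_lit 35) (nat_lit 5) (nat_lit 35) (nat_lit 4) (nat_lit 498) (nat_lit 402) (nat_lit 300)) (XT.nd (nat_lit 78) (nat_lit 456) (nat_lit 0) (XT.lf (nat_lit 0) (nat_lit 631592006) (nat_lit 0) (nat_lit 631592006) (nat_lit 380) (nat_lit 2009708101) (nat_lit 436) (nat_lit 5) (nat_lit 436) (nat_lit 3) (nat_lit 441) (nat_lit 3) (nat_lit 403) (nat_lit 403) (nat_lit 394)) (XT.lf (nat_lit 0) (nat_lit 137040397) (nat_lit 456) (nat_lit 6431319370) (nat_lit 532) (nat_lit 16358424) (nat_lit 430) (nat_lit 5) (nat_lit 436)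 (nat_lit 5) (nat_lit 437) (nat_lit 5) (nat_lit 404) (nat_lit 403) (nat_lit 393))))) (XT.nd (nat_lit 234) (nat_lit 1900) (nat_lit 0) (XT.nd (nat_lit 78) (nat_lit 532) (nat_lit 0) (XT.lf (nat_lit 0) (nat_lit 4219269011) (nat_lit 456) (nat_lit 855955383) (nat_lit 532) (nat_lit 1555186822) (nat_lit 430) (nat_lit 5) (nat_lit 436) (nat_lit 5) (nat_lit 437) (nat_lit 5) (nat_lit 405) (nat_lit 403) (nat_lit 392)) (XT.nd (nat_lit 78) (nat_lit 0) (nat_lit 0) (XT.lf (nat_lit 0) (nat_lit 1582450516) (nat_lit 532) (nat_lit 1747928235) (nat_lit 608) (nat_lit 3353792278) (nat_lit 423) (nat_lit 5) (nat_lit 430) (nat_lit 5) (nat_lit 431) (nat_lit 5) (nat_lit 406) (nat_lit 403) (nat_lit 391)) (XT.lf (nat_lit 76) (nat_lit 4209871326) (nat_lit 0) (nat_lit 1319528808) (nat_lit 608) (nat_lit 1216430169) (nat_lit 424) (nat_lit 5) (nat_lit 423) (nat_lit 5) (nat_lit 431) (nat_lit 5) (nat_lit 407) (nat_lit 403) (nat_lit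 390)))) (XT.nd (nat_lit 156) (nat_lit 1368) (nat_lit 0) (XT.nd (nat_lit 78) (nat_lit 0) (nat_lit 0) (XT.lf (nat_lit 0) (nat_lit 2630984556) (nat_lit 608) (nat_lit 3234342481) (nat_lit 684) (nat_lit 949739341) (nat_lit 416) (nat_lit 5) (nat_lit 424) (nat_lit 5) (nat_lit 425) (nat_lit 5) (nat_lit 408) (nat_lit 403) (nat_lit 389)) (XT.lf (nat_lit 76) (nat_lit 3055323778) (nat_lit 0) (nat_lit 3432158338) (nat_lit 684) (nat_lit 404694630) (nat_lit 417) (nat_lit 5) (nat_lit 416) (nat_lit 5) (nat_lit 425) (nat_lit 5) (nat_lit 409) (nat_lit 403) (nat_lit 388))) (XT.nd (nat_lit 78) (nat_lit 684) (nat_lit 0) (XT.lf (nat_lit 76) (nat_lit 2623657662) (nat_lit 0) (nat_lit 709157207) (nat_lit 760) (nat_lit 3644166941) (nat_lit 408) (nat_lit 5) (nat_lit 407) (nat_lit 5) (nat_lit 417) (nat_lit 5) (nat_lit 410) (nat_lit 403) (nat_lit 387)) (XT.lf (nat_lit 0) (nat_lit 50322088) (nat_lit 760) (nat_lit 4778794915)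 (nat_lit 76) (nat_lit 2240633678) (nat_lit 398) (nat_lit 5) (nat_lit 408) (nat_lit 5) (nat_lit 399) (nat_lit 5) (nat_lit 411) (nat_lit 403) (nat_lit 386)))))) (XT.nd (nat_lit 546) (nat_lit 4484) (nat_lit 0) (XT.nd (nat_lit 234) (nat_lit 4560) (nat_lit 0) (XT.nd (nat_lit 78) (nat_lit 1824) (nat_lit 0) (XT.lf (nat_lit 0) (nat_lit 2037584417) (nat_lit 760) (nat_lit 1685475454) (nat_lit 836) (nat_lit 3446973305) (nat_lit 388) (nat_lit 5) (nat_lit 398) (nat_lit 5) (nat_lit 399) (nat_lit 5) (nat_lit 412) (nat_lit 403) (nat_lit 385)) (XT.nd (nat_lit 78) (nat_lit 912) (nat_lit 0) (XT.lf (nat_lit 0) (nat_lit 185375675) (nat_lit 912) (nat_lit 5391332238) (nat_lit 76) (nat_lit 1701940543) (nat_lit 376) (nat_lit 5) (nat_lit 388) (nat_lit 5) (nat_lit 377) (nat_lit 5) (nat_lit 413) (nat_lit 403) (nat_lit 384)) (XT.lf (nat_lit 0) (nat_lit 1805246561) (nat_lit 912) (nat_lit 2022145961) (nat_lit 988) (nat_lit 3567319388)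 (nat_lit 364) (nat_lit 5) (nat_lit 376) (nat_lit 5) (nat_lit 377) (nat_lit 5) (nat_lit 414) (nat_lit 403) (nat_lit 383)))) (XT.nd (nat_lit 156) (nat_lit 2432) (nat_lit 0) (XT.nd (nat_lit 78) (nat_lit 1064) (nat_lit 0) (XT.lf (nat_lit 0) (nat_lit 40269102) (nat_lit 1064) (nat_lit 5695009431) (nat_lit 76) (nat_lit 1784041803) (nat_lit 350) (nat_lit 5) (nat_lit 364) (nat_lit 5) (nat_lit 351) (nat_lit 5) (nat_lit 415) (nat_lit 403) (nat_lit 382)) (XT.lf (nat_lit 0) (nat_lit 1904907015) (nat_lit 1064) (nat_lit 1771385199) (nat_lit 1140) (nat_lit 3975171261) (nat_lit 336) (nat_lit 5) (nat_lit 350) (nat_lit 5) (nat_lit 351) (nat_lit 5) (nat_lit 416) (nat_lit 403) (nat_lit 381))) (XT.nd (nat_lit 78) (nat_lit 1292) (nat_lit 0) (XT.lf (nat_lit 0) (nat_lit 2079046394) (nat_lit 1140) (nat_lit 5348700610) (nat_lit 1216) (nat_lit 364475832) (nat_lit 321) (nat_lit 5) (nat_lit 336) (nat_lit 5) (nat_lit 337) (nat_lit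 5) (nat_lit 417) (nat_lit 403) (nat_lit 380)) (XT.lf (nat_lit 0) (nat_lit 2319413595) (nat_lit 1216) (nat_lit 976821372) (nat_lit 1292) (nat_lit 4644723154) (nat_lit 304) (nat_lit 5) (nat_lit 320) (nat_lit 5) (nat_lit 321) (nat_lit 5) (nat_lit 418) (nat_lit 403) (nat_lit 379))))) (XT.nd (nat_lit 234) (nat_lit 2356) (nat_lit 0) (XT.nd (nat_lit 78) (nat_lit 1292) (nat_lit 0) (XT.lf (nat_lit 0) (nat_lit 2637454122) (nat_lit 836) (nat_lit 4457433638) (nat_lit 912) (nat_lit 1003276652) (nat_lit 293) (nat_lit 5) (nat_lit 304) (nat_lit 5) (nat_lit 305) (nat_lit 5) (nat_lit 419) (nat_lit 403) (nat_lit 378)) (XT.nd (nat_lit 78) (nat_lit 608) (nat_lit 0) (XT.lf (nat_lit 0) (nat_lit 2713257402) (nat_lit 684) (nat_lit 5231482343) (nat_lit 76) (nat_lit 319251166) (nat_lit 284) (nat_lit 5) (nat_lit 293) (nat_lit 5) (nat_lit 285) (nat_lit 5) (nat_lit 420) (nat_lit 403) (nat_lit 377)) (XT.lf (nat_lit 0) (nat_lit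 3489071074) (nat_lit 608) (nat_lit 3094574458) (nat_lit 684) (nat_lit 1854515843) (nat_lit 276) (nat_lit 5) (nat_lit 284) (nat_lit 5) (nat_lit 285) (nat_lit 5) (nat_lit 421) (nat_lit 403) (nat_lit 376)))) (XT.nd (nat_lit 156) (nat_lit 1140) (nat_lit 0) (XT.nd (nat_lit 78) (nat_lit 608) (nat_lit 0) (XT.lf (nat_lit 0) (nat_lit 1957932825) (nat_lit 608) (nat_lit 4597668547) (nat_lit 76) (nat_lit 2065738538) (nat_lit 268) (nat_lit 5) (nat_lit 276) (nat_lit 5) (nat_lit 269) (nat_lit 5) (nat_lit 422) (nat_lit 403) (nat_lit 375)) (XT.lf (nat_lit 0) (nat_lit 4626489281) (nat_lit 608) (nat_lit 1286428908) (nat_lit 684) (nat_lit 2900512561) (nat_lit 260) (nat_lit 5) (nat_lit 268) (nat_lit 5) (nat_lit 269) (nat_lit 5) (nat_lit 423) (nat_lit 403) (nat_lit 374))) (XT.nd (nat_lit 78) (nat_lit 532) (nat_lit 0) (XT.lf (nat_lit 0) (nat_lit 1037484682) (nat_lit 608) (nat_lit 3717816402) (nat_lit 76) (nat_lit 4259309724)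 (nat_lit 252) (nat_lit 5) (nat_lit 260) (nat_lit 5) (nat_lit 253) (nat_lit 5) (nat_lit 424) (nat_lit 403) (nat_lit 373)) (XT.lf (nat_lit 0) (nat_lit 5108070439) (nat_lit 608) (nat_lit 3189089695) (nat_lit 76) (nat_lit 927968738) (nat_lit 245) (nat_lit 5) (nat_lit 253) (nat_lit 5) (nat_lit 246) (nat_lit 5) (nat_lit 425) (nat_lit 403) (nat_lit 372))))))))
noncomputable def xc53 : XT := (XT.nd (nat_lit 2028) (nat_lit 4560) (nat_lit 0) (XT.nd (nat_lit 1014) (nat_lit 3724) (nat_lit 0) (XT.nd (nat_lit 468) (nat_lit 2508) (nat_lit 0) (XT.nd (nat_lit 234) (nat_lit 1824) (nat_lit 0) (XT.nd (nat_lit 78) (nat_lit 988) (nat_lit 0) (XT.lf (nat_lit 0) (nat_lit 6848684804) (nat_lit 456) (nat_lit 2561937364) (nat_lit 532) (nat_lit 34707869) (nat_lit 239) (nat_lit 5) (nat_lit 245) (nat_lit 5) (nat_lit 246) (nat_lit 5) (nat_lit 426) (nat_lit 403) (nat_lit 371)) (XT.nd (nat_lit 78) (nat_lit 456) (nat_lit 0) (XT.lf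 (nat_lit 0) (nat_lit 4190185138) (nat_lit 532) (nat_lit 1965894977) (nat_lit 76) (nat_lit 3518602789) (nat_lit 232) (nat_lit 5) (nat_lit 239) (nat_lit 5) (nat_lit 233) (nat_lit 5) (nat_lit 427) (nat_lit 403) (nat_lit 370)) (XT.lf (nat_lit 0) (nat_lit 8645453560) (nat_lit 532) (nat_lit 1247555888) (nat_lit 76) (nat_lit 21897265) (nat_lit 226) (nat_lit 5) (nat_lit 233) (nat_lit 5) (nat_lit 227) (nat_lit 5) (nat_lit 428) (nat_lit 403) (nat_lit 369)))) (XT.nd (nat_lit 78) (nat_lit 1292) (nat_lit 0) (XT.lf (nat_lit 0) (nat_lit 3158485247) (nat_lit 532) (nat_lit 505781263) (nat_lit 76) (nat_lit 6500061373) (nat_lit 219) (nat_lit 5) (nat_lit 226) (nat_lit 5) (nat_lit 220) (nat_lit 5) (nat_lit 429) (nat_lit 403) (nat_lit 368)) (XT.nd (nat_lit 78) (nat_lit 456) (nat_lit 0) (XT.lf (nat_lit 0) (nat_lit 318067892) (nat_lit 456) (nat_lit 7502218530) (nat_lit 532) (nat_lit 2604403006) (nat_lit 208) (nat_lit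 5) (nat_lit 214) (nat_lit 5) (nat_lit 215) (nat_lit 5) (nat_lit 430) (nat_lit 403) (nat_lit 367)) (XT.lf (nat_lit 0) (nat_lit 1216119991) (nat_lit 380) (nat_lit 818138923) (nat_lit 456) (nat_lit 8661540489) (nat_lit 202) (nat_lit 5) (nat_lit 207) (nat_lit 5) (nat_lit 208) (nat_lit 5) (nat_lit 431) (nat_lit 403) (nat_lit 366))))) (XT.nd (nat_lit 234) (nat_lit 1368) (nat_lit 0) (XT.nd (nat_lit 78) (nat_lit 760) (nat_lit 0) (XT.lf (nat_lit 0) (nat_lit 2150254828) (nat_lit 380) (nat_lit 4781534553) (nat_lit 456) (nat_lit 4045484986) (nat_lit 197) (nat_lit 5) (nat_lit 202) (nat_lit 5) (nat_lit 203) (nat_lit 5) (nat_lit 432) (nat_lit 403) (nat_lit 365)) (XT.nd (nat_lit 78) (nat_lit 380) (nat_lit 0) (XT.lf (nat_lit 0) (nat_lit 843663915) (nat_lit 380) (nat_lit 8100641126) (nat_lit 76) (nat_lit 2326555595) (nat_lit 192) (nat_lit 5) (nat_lit 197) (nat_lit 5) (nat_lit 193) (nat_lit 5) (nat_lit 433) (nat_lit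 403) (nat_lit 364)) (XT.lf (nat_lit 0) (nat_lit 4227775562) (nat_lit 380) (nat_lit 1748065138) (nat_lit 456) (nat_lit 5599622962) (nat_lit 187) (nat_lit 5) (nat_lit 192) (nat_lit 5) (nat_lit 193) (nat_lit 5) (nat_lit 434) (nat_lit 403) (nat_lit 363)))) (XT.nd (nat_lit 156) (nat_lit 684) (nat_lit 0) (XT.nd (nat_lit 78) (nat_lit 380) (nat_lit 0) (XT.lf (nat_lit 0) (nat_lit 5358418260) (nat_lit 304) (nat_lit 6101581849) (nat_lit 380) (nat_lit 432441414) (nat_lit 183) (nat_lit 5) (nat_lit 187) (nat_lit 5) (nat_lit 188) (nat_lit 5) (nat_lit 435) (nat_lit 403) (nat_lit 362)) (XT.lf (nat_lit 0) (nat_lit 4974239492) (nat_lit 380) (nat_lit 5681863156) (nat_lit 76) (nat_lit 1565373973) (nat_lit 178) (nat_lit 5) (nat_lit 183) (nat_lit 5) (nat_lit 179) (nat_lit 5) (nat_lit 436) (nat_lit 403) (nat_lit 361))) (XT.nd (nat_lit 78) (nat_lit 380) (nat_lit 0) (XT.lf (nat_lit 0) (nat_lit 7789010306) (nat_lit 304)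 (nat_lit 2966740710) (nat_lit 380) (nat_lit 1807685998) (nat_lit 174) (nat_lit 5) (nat_lit 178) (nat_lit 5) (nat_lit 179) (nat_lit 5) (nat_lit 437) (nat_lit 403) (nat_lit 360)) (XT.lf (nat_lit 0) (nat_lit 3936248727) (nat_lit 380) (nat_lit 3831280371) (nat_lit 76) (nat_lit 5150587826) (nat_lit 169) (nat_lit 5) (nat_lit 174) (nat_lit 5) (nat_lit 170) (nat_lit 5) (nat_lit 438) (nat_lit 403) (nat_lit 359)))))) (XT.nd (nat_lit 468) (nat_lit 1672) (nat_lit 0) (XT.nd (nat_lit 234) (nat_lit 1140) (nat_lit 0) (XT.nd (nat_lit 78) (nat_lit 608) (nat_lit 0) (XT.lf (nat_lit 0) (nat_lit 10028719575) (nat_lit 380) (nat_lit 2815035531) (nat_lit 76) (nat_lit 443281607) (nat_lit 165) (nat_lit 5) (nat_lit 170) (nat_lit 5) (nat_lit 166) (nat_lit 5) (nat_lit 439) (nat_lit 403) (nat_lit 358)) (XT.nd (nat_lit 78) (nat_lit 228) (nat_lit 0) (XT.lf (nat_lit 0) (nat_lit 2848226426) (nat_lit 380) (nat_lit 1776206283) (nat_lit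 76) (nat_lit 9044665417) (nat_lit 160) (nat_lit 5) (nat_lit 165) (nat_lit 5) (nat_lit 161) (nat_lit 5) (nat_lit 440) (nat_lit 403) (nat_lit 357)) (XT.lf (nat_lit 0) (nat_lit 9309813730) (nat_lit 304) (nat_lit 679863126) (nat_lit 76) (nat_lit 4076108857) (nat_lit 157) (nat_lit 5) (nat_lit 161) (nat_lit 5) (nat_lit 158) (nat_lit 5) (nat_lit 441) (nat_lit 403) (nat_lit 356)))) (XT.nd (nat_lit 78) (nat_lit 532) (nat_lit 0) (XT.lf (nat_lit 0) (nat_lit 495771411) (nat_lit 228) (nat_lit 1220595864) (nat_lit 304) (nat_lit 12761409597) (nat_lit 149) (nat_lit 5) (nat_lit 152) (nat_lit 5) (nat_lit 153) (nat_lit 5) (nat_lit 442) (nat_lit 403) (nat_lit 355)) (XT.nd (nat_lit 78) (nat_lit 304) (nat_lit 0) (XT.lf (nat_lit 0) (nat_lit 1695142247) (nat_lit 228) (nat_lit 6894022291) (nat_lit 304) (nat_lit 6314537877) (nat_lit 146) (nat_lit 5) (nat_lit 149) (nat_lit 5) (nat_lit 150) (nat_lit 5) (nat_lit 443) (nat_lit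 403) (nat_lit 354)) (XT.lf (nat_lit 0) (nat_lit 578603461) (nat_lit 304) (nat_lit 12354611633) (nat_lit 76) (nat_lit 2413597350) (nat_lit 142) (nat_lit 5) (nat_lit 146) (nat_lit 5) (nat_lit 143) (nat_lit 5) (nat_lit 444) (nat_lit 403) (nat_lit 353))))) (XT.nd (nat_lit 234) (nat_lit 912) (nat_lit 0) (XT.nd (nat_lit 78) (nat_lit 532) (nat_lit 0) (XT.lf (nat_lit 0) (nat_lit 4296100269) (nat_lit 228) (nat_lit 3563641470) (nat_lit 304) (nat_lit 7945245725) (nat_lit 139) (nat_lit 5) (nat_lit 142) (nat_lit 5) (nat_lit 143) (nat_lit 5) (nat_lit 445) (nat_lit 403) (nat_lit 352)) (XT.nd (nat_lit 78) (nat_lit 304) (nat_lit 0) (XT.lf (nat_lit 0) (nat_lit 5682306159) (nat_lit 228) (nat_lit 9992507761) (nat_lit 304) (nat_lit 606163981) (nat_lit 136) (nat_lit 5) (nat_lit 139) (nat_lit 5) (nat_lit 140) (nat_lit 5) (nat_lit 446) (nat_lit 403) (nat_lit 351)) (XT.lf (nat_lit 0) (nat_lit 7109491024) (nat_lit 228)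 (nat_lit 3946850) (nat_lit 304) (nat_lit 9660721985) (nat_lit 132) (nat_lit 5) (nat_lit 135) (nat_lit 5) (nat_lit 136) (nat_lit 5) (nat_lit 447) (nat_lit 403) (nat_lit 350)))) (XT.nd (nat_lit 156) (nat_lit 456) (nat_lit 0) (XT.nd (nat_lit 78) (nat_lit 304) (nat_lit 0) (XT.lf (nat_lit 0) (nat_lit 8576814341) (nat_lit 152) (nat_lit 6853193403) (nat_lit 228) (nat_lit 1855110011) (nat_lit 130) (nat_lit 5) (nat_lit 132) (nat_lit 5) (nat_lit 133) (nat_lit 5) (nat_lit 448) (nat_lit 403) (nat_lit 349)) (XT.lf (nat_lit 0) (nat_lit 6382922969) (nat_lit 304) (nat_lit 7719218349) (nat_lit 76) (nat_lit 3712679947) (nat_lit 126) (nat_lit 5) (nat_lit 130) (nat_lit 5) (nat_lit 127) (nat_lit 5) (nat_lit 449) (nat_lit 403) (nat_lit 348))) (XT.nd (nat_lit 78) (nat_lit 304) (nat_lit 0) (XT.lf (nat_lit 0) (nat_lit 11677892256) (nat_lit 152) (nat_lit 3522190319) (nat_lit 228) (nat_lit 3164210914) (nat_lit 124) (nat_lit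 5) (nat_lit 126) (nat_lit 5) (nat_lit 127) (nat_lit 5) (nat_lit 450) (nat_lit 403) (nat_lit 347)) (XT.lf (nat_lit 0) (nat_lit 5627704245) (nat_lit 304) (nat_lit 5648766630) (nat_lit 76) (nat_lit 7656624724) (nat_lit 120) (nat_lit 5) (nat_lit 124) (nat_lit 5) (nat_lit 121) (nat_lit 5) (nat_lit 451) (nat_lit 403) (nat_lit 346))))))) (XT.nd (nat_lit 1014) (nat_lit 1976) (nat_lit 0) (XT.nd (nat_lit 468) (nat_lit 1216) (nat_lit 0) (XT.nd (nat_lit 234) (nat_lit 760) (nat_lit 0) (XT.nd (nat_lit 78) (nat_lit 456) (nat_lit 0) (XT.lf (nat_lit 0) (nat_lit 14978352608) (nat_lit 152) (nat_lit 1428971) (nat_lit 228) (nat_lit 4544038186) (nat_lit 118) (nat_lit 5) (nat_lit 120) (nat_lit 5) (nat_lit 121) (nat_lit 5) (nat_lit 452) (nat_lit 403) (nat_lit 345)) (XT.nd (nat_lit 78) (nat_lit 152) (nat_lit 0) (XT.lf (nat_lit 0) (nat_lit 4838321515) (nat_lit 304) (nat_lit 3468078777) (nat_lit 76) (nat_lit 11828125749)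 (nat_lit 114) (nat_lit 5) (nat_lit 118) (nat_lit 5) (nat_lit 115) (nat_lit 5) (nat_lit 453) (nat_lit 403) (nat_lit 344)) (XT.lf (nat_lit 0) (nat_lit 14796347629) (nat_lit 228) (nat_lit 2338635746) (nat_lit 76) (nat_lit 3633420547) (nat_lit 112) (nat_lit 5) (nat_lit 115) (nat_lit 5) (nat_lit 113) (nat_lit 5) (nat_lit 454) (nat_lit 403) (nat_lit 343)))) (XT.nd (nat_lit 78) (nat_lit 532) (nat_lit 0) (XT.lf (nat_lit 0) (nat_lit 4001747735) (nat_lit 228) (nat_lit 1197551561) (nat_lit 76) (nat_lit 16225838226) (nat_lit 109) (nat_lit 5) (nat_lit 112) (nat_lit 5) (nat_lit 110) (nat_lit 5) (nat_lit 455) (nat_lit 403) (nat_lit 342)) (XT.nd (nat_lit 78) (nat_lit 380) (nat_lit 0) (XT.lf (nat_lit 0) (nat_lit 14603841821) (nat_lit 228) (nat_lit 55832955) (nat_lit 76) (nat_lit 7445667389) (nat_lit 107) (nat_lit 5) (nat_lit 110) (nat_lit 5) (nat_lit 108) (nat_lit 5) (nat_lit 456) (nat_lit 403) (nat_lit 341)) (XT.lf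 (nat_lit 0) (nat_lit 1158047014) (nat_lit 152) (nat_lit 1953788837) (nat_lit 228) (nat_lit 19699313692) (nat_lit 102) (nat_lit 5) (nat_lit 104) (nat_lit 5) (nat_lit 105) (nat_lit 5) (nat_lit 457) (nat_lit 403) (nat_lit 340))))) (XT.nd (nat_lit 234) (nat_lit 684) (nat_lit 0) (XT.nd (nat_lit 78) (nat_lit 380) (nat_lit 0) (XT.lf (nat_lit 0) (nat_lit 2316662327) (nat_lit 152) (nat_lit 12091325613) (nat_lit 228) (nat_lit 9132813821) (nat_lit 100) (nat_lit 5) (nat_lit 102) (nat_lit 5) (nat_lit 103) (nat_lit 5) (nat_lit 458) (nat_lit 403) (nat_lit 339)) (XT.nd (nat_lit 78) (nat_lit 152) (nat_lit 0) (XT.lf (nat_lit 0) (nat_lit 2160768993) (nat_lit 228) (nat_lit 20748774410) (nat_lit 76) (nat_lit 1389717354) (nat_lit 97) (nat_lit 5) (nat_lit 100) (nat_lit 5) (nat_lit 98) (nat_lit 5) (nat_lit 459) (nat_lit 403) (nat_lit 338)) (XT.lf (nat_lit 0) (nat_lit 4693799314) (nat_lit 152) (nat_lit 9471518647) (nat_lit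 228) (nat_lit 10917558216) (nat_lit 95) (nat_lit 5) (nat_lit 97) (nat_lit 5) (nat_lit 98) (nat_lit 5) (nat_lit 460) (nat_lit 403) (nat_lit 337)))) (XT.nd (nat_lit 156) (nat_lit 304) (nat_lit 0) (XT.nd (nat_lit 78) (nat_lit 152) (nat_lit 0) (XT.lf (nat_lit 0) (nat_lit 1114143343) (nat_lit 228) (nat_lit 19995148722) (nat_lit 76) (nat_lit 4788134473) (nat_lit 92) (nat_lit 5) (nat_lit 95) (nat_lit 5) (nat_lit 93) (nat_lit 5) (nat_lit 461) (nat_lit 403) (nat_lit 336)) (XT.lf (nat_lit 0) (nat_lit 7020777396) (nat_lit 152) (nat_lit 6825956806) (nat_lit 228) (nat_lit 12892975568) (nat_lit 90) (nat_lit 5) (nat_lit 92) (nat_lit 5) (nat_lit 93) (nat_lit 5) (nat_lit 462) (nat_lit 403) (nat_lit 335))) (XT.nd (nat_lit 78) (nat_lit 228) (nat_lit 0) (XT.lf (nat_lit 0) (nat_lit 8171717783) (nat_lit 76) (nat_lit 19358320999) (nat_lit 152) (nat_lit 84646882) (nat_lit 89) (nat_lit 5) (nat_lit 90) (nat_lit 5) (nat_lit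 91) (nat_lit 4) (nat_lit 463) (nat_lit 403) (nat_lit 334)) (XT.lf (nat_lit 0) (nat_lit 9229535554) (nat_lit 152) (nat_lit 4186558896) (nat_lit 228) (nat_lit 15104079596) (nat_lit 86) (nat_lit 5) (nat_lit 88) (nat_lit 5) (nat_lit 89) (nat_lit 5) (nat_lit 464) (nat_lit 403) (nat_lit 333)))))) (XT.nd (nat_lit 546) (nat_lit 988) (nat_lit 0) (XT.nd (nat_lit 234) (nat_lit 608) (nat_lit 0) (XT.nd (nat_lit 78) (nat_lit 304) (nat_lit 0) (XT.lf (nat_lit 0) (nat_lit 10270491515) (nat_lit 76) (nat_lit 17684658717) (nat_lit 152) (nat_lit 1504811535) (nat_lit 85) (nat_lit 5) (nat_lit 86) (nat_lit 5) (nat_lit 87) (nat_lit 4) (nat_lit 465) (nat_lit 403) (nat_lit 332)) (XT.nd (nat_lit 78) (nat_lit 76) (nat_lit 0) (XT.lf (nat_lit 0) (nat_lit 11234658647) (nat_lit 152) (nat_lit 1593550043) (nat_lit 228) (nat_lit 17605755239) (nat_lit 82) (nat_lit 5) (nat_lit 84) (nat_lit 5) (nat_lit 85) (nat_lit 5) (nat_lit 466)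 (nat_lit 403) (nat_lit 331)) (XT.lf (nat_lit 0) (nat_lit 12114418289) (nat_lit 76) (nat_lit 16148980649) (nat_lit 152) (nat_lit 3180321859) (nat_lit 81) (nat_lit 5) (nat_lit 82) (nat_lit 5) (nat_lit 83) (nat_lit 4) (nat_lit 467) (nat_lit 403) (nat_lit 330)))) (XT.nd (nat_lit 156) (nat_lit 304) (nat_lit 0) (XT.nd (nat_lit 78) (nat_lit 76) (nat_lit 0) (XT.lf (nat_lit 0) (nat_lit 12035789149) (nat_lit 228) (nat_lit 19570512467) (nat_lit 76) (nat_lit 885126384) (nat_lit 78) (nat_lit 5) (nat_lit 81) (nat_lit 5) (nat_lit 79) (nat_lit 4) (nat_lit 468) (nat_lit 403) (nat_lit 329)) (XT.lf (nat_lit 0) (nat_lit 13585188066) (nat_lit 76) (nat_lit 14812144161) (nat_lit 152) (nat_lit 5179732372) (nat_lit 77) (nat_lit 5) (nat_lit 78) (nat_lit 5) (nat_lit 79) (nat_lit 4) (nat_lit 469) (nat_lit 403) (nat_lit 328))) (XT.nd (nat_lit 78) (nat_lit 76) (nat_lit 0) (XT.lf (nat_lit 0) (nat_lit 10975158079) (nat_lit 228)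 (nat_lit 20552327473) (nat_lit 76) (nat_lit 3176553171) (nat_lit 74) (nat_lit 5) (nat_lit 77) (nat_lit 5) (nat_lit 75) (nat_lit 4) (nat_lit 470) (nat_lit 403) (nat_lit 327)) (XT.lf (nat_lit 0) (nat_lit 14537091394) (nat_lit 76) (nat_lit 13748755622) (nat_lit 152) (nat_lit 7586321255) (nat_lit 73) (nat_lit 5) (nat_lit 74) (nat_lit 5) (nat_lit 75) (nat_lit 4) (nat_lit 471) (nat_lit 403) (nat_lit 326))))) (XT.nd (nat_lit 234) (nat_lit 456) (nat_lit 0) (XT.nd (nat_lit 78) (nat_lit 304) (nat_lit 0) (XT.lf (nat_lit 0) (nat_lit 9546225563) (nat_lit 228) (nat_lit 22302730878) (nat_lit 76) (nat_lit 5236081059) (nat_lit 70) (nat_lit 5) (nat_lit 73) (nat_lit 5) (nat_lit 71) (nat_lit 4) (nat_lit 472) (nat_lit 403) (nat_lit 325)) (XT.nd (nat_lit 78) (nat_lit 228) (nat_lit 0) (XT.lf (nat_lit 0) (nat_lit 14791685832) (nat_lit 76) (nat_lit 13049896461) (nat_lit 152) (nat_lit 10500822696) (nat_lit 69) (nat_lit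 5) (nat_lit 70) (nat_lit 5) (nat_lit 71) (nat_lit 4) (nat_lit 473) (nat_lit 403) (nat_lit 324)) (XT.lf (nat_lit 0) (nat_lit 7645950138) (nat_lit 228) (nat_lit 25031860368) (nat_lit 76) (nat_lit 6970667861) (nat_lit 66) (nat_lit 5) (nat_lit 69) (nat_lit 5) (nat_lit 67) (nat_lit 4) (nat_lit 474) (nat_lit 403) (nat_lit 323)))) (XT.nd (nat_lit 156) (nat_lit 228) (nat_lit 0) (XT.nd (nat_lit 78) (nat_lit 152) (nat_lit 0) (XT.lf (nat_lit 0) (nat_lit 14131507163) (nat_lit 76) (nat_lit 12826331491) (nat_lit 152) (nat_lit 14044649675) (nat_lit 65) (nat_lit 5) (nat_lit 66) (nat_lit 5) (nat_lit 67) (nat_lit 4) (nat_lit 475) (nat_lit 403) (nat_lit 322)) (XT.lf (nat_lit 0) (nat_lit 5149615103) (nat_lit 152) (nat_lit 28993638461) (nat_lit 76) (nat_lit 8266587005) (nat_lit 63) (nat_lit 5) (nat_lit 65) (nat_lit 5) (nat_lit 64) (nat_lit 4) (nat_lit 476) (nat_lit 403) (nat_lit 321))) (XT.nd (nat_lit 78) (nat_lit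 152) (nat_lit 0) (XT.lf (nat_lit 0) (nat_lit 12292658539) (nat_lit 76) (nat_lit 13212284406) (nat_lit 152) (nat_lit 18363691775) (nat_lit 62) (nat_lit 5) (nat_lit 63) (nat_lit 5) (nat_lit 64) (nat_lit 4) (nat_lit 477) (nat_lit 403) (nat_lit 320)) (XT.lf (nat_lit 0) (nat_lit 1906814339) (nat_lit 152) (nat_lit 34493950011) (nat_lit 76) (nat_lit 8985439081) (nat_lit 60) (nat_lit 5) (nat_lit 62) (nat_lit 5) (nat_lit 61) (nat_lit 4) (nat_lit 478) (nat_lit 403) (nat_lit 319))))))))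
noncomputable def xc54 : XT := (XT.nd (nat_lit 57096) (nat_lit 0) (nat_lit 11172) (XT.nd (nat_lit 1014) (nat_lit 608) (nat_lit 0) (XT.nd (nat_lit 468) (nat_lit 760) (nat_lit 0) (XT.nd (nat_lit 234) (nat_lit 228) (nat_lit 0) (XT.nd (nat_lit 78) (nat_lit 228) (nat_lit 0) (XT.lf (nat_lit 0) (nat_lit 8956082187) (nat_lit 76) (nat_lit 14369879885) (nat_lit 152) (nat_lit 23632787144) (nat_lit 59) (nat_lit 5) (nat_lit 60) (nat_lit 5) (nat_lit 61) (nat_lit 4) (nat_lit 479) (nat_lit 403) (nat_lit 318)) (XT.nd (nat_lit 78) (nat_lit 152) (nat_lit 0) (XT.lf (nat_lit 0) (nat_lit 6673326677) (nat_lit 76) (nat_lit 39614134863) (nat_lit 76) (nat_lit 2308319273) (nat_lit 58) (nat_lit 4) (nat_lit 59) (nat_lit 5) (nat_lit 59) (nat_lit 4) (nat_lit 480) (nat_lit 403) (nat_lit 317)) (XT.lf (nat_lit 0) (nat_lit 3737284789) (nat_lit 76) (nat_lit 16494368609) (nat_lit 152) (nat_lit 30060984771) (nat_lit 56) (nat_lit 5)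 (nat_lit 57) (nat_lit 5) (nat_lit 58) (nat_lit 4) (nat_lit 481) (nat_lit 403) (nat_lit 316)))) (XT.nd (nat_lit 78) (nat_lit 152) (nat_lit 0) (XT.lf (nat_lit 0) (nat_lit 332003197) (nat_lit 76) (nat_lit 43998980011) (nat_lit 76) (nat_lit 7728266915) (nat_lit 55) (nat_lit 4) (nat_lit 56) (nat_lit 5) (nat_lit 56) (nat_lit 4) (nat_lit 482) (nat_lit 403) (nat_lit 315)) (XT.nd (nat_lit 78) (nat_lit 76) (nat_lit 0) (XT.lf (nat_lit 0) (nat_lit 16031295434) (nat_lit 152) (nat_lit 3751097259) (nat_lit 76) (nat_lit 34108757139) (nat_lit 54) (nat_lit 5) (nat_lit 56) (nat_lit 5) (nat_lit 55) (nat_lit 4) (nat_lit 483) (nat_lit 403) (nat_lit 314)) (XT.lf (nat_lit 0) (nat_lit 41303569180) (nat_lit 152) (nat_lit 8450287662) (nat_lit 0) (nat_lit 6043955461) (nat_lit 53) (nat_lit 5) (nat_lit 55) (nat_lit 4) (nat_lit 53) (nat_lit 4) (nat_lit 484) (nat_lit 403) (nat_lit 313))))) (XT.nd (nat_lit 234) (nat_lit 380) (nat_lit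 0) (XT.nd (nat_lit 78) (nat_lit 228) (nat_lit 0) (XT.lf (nat_lit 0) (nat_lit 10479149391) (nat_lit 152) (nat_lit 14007999296) (nat_lit 76) (nat_lit 33290701936) (nat_lit 51) (nat_lit 5) (nat_lit 53) (nat_lit 5) (nat_lit 52) (nat_lit 4) (nat_lit 485) (nat_lit 403) (nat_lit 312)) (XT.nd (nat_lit 78) (nat_lit 152) (nat_lit 0) (XT.lf (nat_lit 0) (nat_lit 36866455270) (nat_lit 152) (nat_lit 20378277171) (nat_lit 0) (nat_lit 2593903229) (nat_lit 50) (nat_lit 5) (nat_lit 52) (nat_lit 4) (nat_lit 50) (nat_lit 4) (nat_lit 486) (nat_lit 403) (nat_lit 311)) (XT.lf (nat_lit 0) (nat_lit 3219436344) (nat_lit 152) (nat_lit 27755640914) (nat_lit 76) (nat_lit 31005673627) (nat_lit 48) (nat_lit 5) (nat_lit 50) (nat_lit 5) (nat_lit 49) (nat_lit 4) (nat_lit 487) (nat_lit 403) (nat_lit 310)))) (XT.nd (nat_lit 156) (nat_lit 228) (nat_lit 0) (XT.nd (nat_lit 78) (nat_lit 76) (nat_lit 0) (XT.lf (nat_lit 0) (nat_lit 28015672445)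 (nat_lit 76) (nat_lit 2686017560) (nat_lit 152) (nat_lit 33507773966) (nat_lit 47) (nat_lit 5) (nat_lit 48) (nat_lit 5) (nat_lit 49) (nat_lit 4) (nat_lit 488) (nat_lit 403) (nat_lit 309)) (XT.lf (nat_lit 0) (nat_lit 20699058948) (nat_lit 76) (nat_lit 39577403231) (nat_lit 76) (nat_lit 6251598560) (nat_lit 46) (nat_lit 4) (nat_lit 47) (nat_lit 5) (nat_lit 47) (nat_lit 4) (nat_lit 489) (nat_lit 403) (nat_lit 308))) (XT.nd (nat_lit 78) (nat_lit 76) (nat_lit 0) (XT.lf (nat_lit 0) (nat_lit 12177533258) (nat_lit 76) (nat_lit 10245565711) (nat_lit 152) (nat_lit 46518272845) (nat_lit 44) (nat_lit 5) (nat_lit 45) (nat_lit 5) (nat_lit 46) (nat_lit 4) (nat_lit 490) (nat_lit 403) (nat_lit 307)) (XT.lf (nat_lit 0) (nat_lit 2305810026) (nat_lit 76) (nat_lit 50766111144) (nat_lit 76) (nat_lit 18381480066) (nat_lit 43) (nat_lit 4) (nat_lit 44) (nat_lit 5) (nat_lit 44) (nat_lit 4) (nat_lit 491) (nat_lit 403) (nat_lit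 306)))))) (XT.nd (nat_lit 468) (nat_lit 76) (nat_lit 0) (XT.nd (nat_lit 234) (nat_lit 304) (nat_lit 0) (XT.nd (nat_lit 78) (nat_lit 152) (nat_lit 0) (XT.lf (nat_lit 0) (nat_lit 11610718714) (nat_lit 152) (nat_lit 8828568212) (nat_lit 76) (nat_lit 53628535041) (nat_lit 42) (nat_lit 5) (nat_lit 44) (nat_lit 5) (nat_lit 43) (nat_lit 4) (nat_lit 492) (nat_lit 403) (nat_lit 305)) (XT.nd (nat_lit 78) (nat_lit 76) (nat_lit 0) (XT.lf (nat_lit 0) (nat_lit 43348585850) (nat_lit 152) (nat_lit 21558896491) (nat_lit 0) (nat_lit 11881235236) (nat_lit 41) (nat_lit 5) (nat_lit 43) (nat_lit 4) (nat_lit 41) (nat_lit 4) (nat_lit 493) (nat_lit 403) (nat_lit 304)) (XT.lf (nat_lit 0) (nat_lit 43626599533) (nat_lit 76) (nat_lit 33738853478) (nat_lit 76) (nat_lit 2259441903) (nat_lit 40) (nat_lit 4) (nat_lit 41) (nat_lit 5) (nat_lit 41) (nat_lit 4) (nat_lit 494) (nat_lit 403) (nat_lit 303)))) (XT.nd (nat_lit 78) (nat_lit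 152) (nat_lit 0) (XT.lf (nat_lit 0) (nat_lit 30169937300) (nat_lit 76) (nat_lit 204858514) (nat_lit 152) (nat_lit 52204616787) (nat_lit 38) (nat_lit 5) (nat_lit 39) (nat_lit 5) (nat_lit 40) (nat_lit 4) (nat_lit 495) (nat_lit 403) (nat_lit 302)) (XT.nd (nat_lit 78) (nat_lit 76) (nat_lit 0) (XT.lf (nat_lit 0) (nat_lit 14601922741) (nat_lit 76) (nat_lit 50819277759) (nat_lit 76) (nat_lit 20234969165) (nat_lit 37) (nat_lit 4) (nat_lit 38) (nat_lit 5) (nat_lit 38) (nat_lit 4) (nat_lit 496) (nat_lit 403) (nat_lit 301)) (XT.lf (nat_lit 0) (nat_lit 13596025063) (nat_lit 152) (nat_lit 2994492968) (nat_lit 76) (nat_lit 72276710414) (nat_lit 36) (nat_lit 5) (nat_lit 38) (nat_lit 5) (nat_lit 37) (nat_lit 4) (nat_lit 497) (nat_lit 403) (nat_lit 300))))) (XT.nd (nat_lit 55302) (nat_lit 0) (nat_lit 28196) (XT.nd (nat_lit 55146) (nat_lit 0) (nat_lit 29412) (XT.lf (nat_lit 0) (nat_lit 49544471036) (nat_lit 152)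 (nat_lit 22831233161) (nat_lit 0) (nat_lit 19831793927) (nat_lit 35) (nat_lit 5) (nat_lit 37) (nat_lit 4) (nat_lit 35) (nat_lit 4) (nat_lit 498) (nat_lit 403) (nat_lit 299)) (XT.nd (nat_lit 78) (nat_lit 532) (nat_lit 0) (XT.lf (nat_lit 0) (nat_lit 2040713260) (nat_lit 532) (nat_lit 636273611) (nat_lit 532) (nat_lit 636273611) (nat_lit 429) (nat_lit 3) (nat_lit 436) (nat_lit 3) (nat_lit 436) (nat_lit 5) (nat_lit 404) (nat_lit 404) (nat_lit 392)) (XT.lf (nat_lit 0) (nat_lit 1308466040) (nat_lit 532) (nat_lit 2416129799) (nat_lit 608) (nat_lit 2951821592) (nat_lit 422) (nat_lit 5) (nat_lit 429) (nat_lit 3) (nat_lit 430) (nat_lit 5) (nat_lit 405) (nat_lit 404) (nat_lit 391)))) (XT.nd (nat_lit 156) (nat_lit 684) (nat_lit 0) (XT.nd (nat_lit 78) (nat_lit 532) (nat_lit 0) (XT.lf (nat_lit 76) (nat_lit 3273735631) (nat_lit 0) (nat_lit 1827449468) (nat_lit 608) (nat_lit 1632928095) (nat_lit 423) (nat_lit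 5) (nat_lit 422) (nat_lit 5) (nat_lit 430) (nat_lit 5) (nat_lit 406) (nat_lit 404) (nat_lit 390)) (XT.lf (nat_lit 0) (nat_lit 2057662086) (nat_lit 608) (nat_lit 4407146205) (nat_lit 684) (nat_lit 334852410) (nat_lit 415) (nat_lit 5) (nat_lit 423) (nat_lit 5) (nat_lit 424) (nat_lit 5) (nat_lit 407) (nat_lit 404) (nat_lit 389))) (XT.nd (nat_lit 78) (nat_lit 684) (nat_lit 0) (XT.lf (nat_lit 76) (nat_lit 1601683342) (nat_lit 0) (nat_lit 4140537089) (nat_lit 684) (nat_lit 1130513721) (nat_lit 416) (nat_lit 5) (nat_lit 415) (nat_lit 5) (nat_lit 424) (nat_lit 5) (nat_lit 408) (nat_lit 404) (nat_lit 388)) (XT.lf (nat_lit 76) (nat_lit 908952046) (nat_lit 0) (nat_lit 1535635942) (nat_lit 760) (nat_lit 4509084033) (nat_lit 407) (nat_lit 5) (nat_lit 406) (nat_lit 5) (nat_lit 416) (nat_lit 5) (nat_lit 409) (nat_lit 404) (nat_lit 387))))))) (XT.nd (nat_lit 1014) (nat_lit 7068) (nat_lit 0) (XT.nd (nat_lit 468)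 (nat_lit 6688) (nat_lit 0) (XT.nd (nat_lit 234) (nat_lit 2584) (nat_lit 0) (XT.nd (nat_lit 78) (nat_lit 760) (nat_lit 0) (XT.lf (nat_lit 76) (nat_lit 312872701) (nat_lit 0) (nat_lit 5722076363) (nat_lit 760) (nat_lit 1007601700) (nat_lit 408) (nat_lit 5) (nat_lit 407) (nat_lit 5) (nat_lit 417) (nat_lit 5) (nat_lit 410) (nat_lit 404) (nat_lit 386)) (XT.nd (nat_lit 78) (nat_lit 0) (nat_lit 76) (XT.lf (nat_lit 0) (nat_lit 2492200803) (nat_lit 760) (nat_lit 201973835) (nat_lit 836) (nat_lit 4444693674) (nat_lit 397) (nat_lit 5) (nat_lit 407) (nat_lit 5) (nat_lit 408) (nat_lit 5) (nat_lit 411) (nat_lit 404) (nat_lit 385)) (XT.lf (nat_lit 0) (nat_lit 6022768629) (nat_lit 760) (nat_lit 612257598) (nat_lit 76) (nat_lit 608400988) (nat_lit 398) (nat_lit 5) (nat_lit 408) (nat_lit 5) (nat_lit 399) (nat_lit 5) (nat_lit 412) (nat_lit 404) (nat_lit 384)))) (XT.nd (nat_lit 78) (nat_lit 1824) (nat_lit 0) (XT.lf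 (nat_lit 0) (nat_lit 2235453003) (nat_lit 836) (nat_lit 959309857) (nat_lit 76) (nat_lit 4160631890) (nat_lit 387) (nat_lit 5) (nat_lit 398) (nat_lit 5) (nat_lit 388) (nat_lit 5) (nat_lit 413) (nat_lit 404) (nat_lit 383)) (XT.nd (nat_lit 78) (nat_lit 988) (nat_lit 0) (XT.lf (nat_lit 0) (nat_lit 5732082446) (nat_lit 912) (nat_lit 1212477700) (nat_lit 76) (nat_lit 531269641) (nat_lit 376) (nat_lit 5) (nat_lit 388) (nat_lit 5) (nat_lit 377) (nat_lit 5) (nat_lit 414) (nat_lit 404) (nat_lit 382)) (XT.lf (nat_lit 0) (nat_lit 1695905101) (nat_lit 988) (nat_lit 1404600467) (nat_lit 76) (nat_lit 4503386523) (nat_lit 363) (nat_lit 5) (nat_lit 376) (nat_lit 5) (nat_lit 364) (nat_lit 5) (nat_lit 415) (nat_lit 404) (nat_lit 381))))) (XT.nd (nat_lit 234) (nat_lit 3420) (nat_lit 0) (XT.nd (nat_lit 78) (nat_lit 2280) (nat_lit 0) (XT.lf (nat_lit 0) (nat_lit 5188288335) (nat_lit 1064) (nat_lit 1514988025) (nat_lit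 76) (nat_lit 1037076837) (nat_lit 350) (nat_lit 5) (nat_lit 364) (nat_lit 5) (nat_lit 351) (nat_lit 5) (nat_lit 416) (nat_lit 404) (nat_lit 380)) (XT.nd (nat_lit 78) (nat_lit 1140) (nat_lit 0) (XT.lf (nat_lit 0) (nat_lit 899617802) (nat_lit 1140) (nat_lit 1557107958) (nat_lit 76) (nat_lit 5428240274) (nat_lit 335) (nat_lit 5) (nat_lit 350) (nat_lit 5) (nat_lit 336) (nat_lit 5) (nat_lit 417) (nat_lit 404) (nat_lit 379)) (XT.lf (nat_lit 0) (nat_lit 4415898899) (nat_lit 1216) (nat_lit 1536642353) (nat_lit 76) (nat_lit 2085182207) (nat_lit 320) (nat_lit 5) (nat_lit 336) (nat_lit 5) (nat_lit 321) (nat_lit 5) (nat_lit 418) (nat_lit 404) (nat_lit 378)))) (XT.nd (nat_lit 156) (nat_lit 1292) (nat_lit 0) (XT.nd (nat_lit 78) (nat_lit 912) (nat_lit 0) (XT.lf (nat_lit 0) (nat_lit 6766096031) (nat_lit 1216) (nat_lit 1299561732) (nat_lit 1292) (nat_lit 133746160) (nat_lit 304) (nat_lit 5) (nat_lit 320) (nat_lit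 5) (nat_lit 321) (nat_lit 5) (nat_lit 419) (nat_lit 404) (nat_lit 377)) (XT.lf (nat_lit 0) (nat_lit 3435948051) (nat_lit 912) (nat_lit 1290492853) (nat_lit 76) (nat_lit 3642441731) (nat_lit 292) (nat_lit 5) (nat_lit 304) (nat_lit 5) (nat_lit 293) (nat_lit 5) (nat_lit 420) (nat_lit 404) (nat_lit 376))) (XT.nd (nat_lit 78) (nat_lit 684) (nat_lit 0) (XT.lf (nat_lit 0) (nat_lit 7146426212) (nat_lit 684) (nat_lit 1057756361) (nat_lit 76) (nat_lit 343674301) (nat_lit 284) (nat_lit 5) (nat_lit 293) (nat_lit 5) (nat_lit 285) (nat_lit 5) (nat_lit 421) (nat_lit 404) (nat_lit 375)) (XT.lf (nat_lit 0) (nat_lit 2266346349) (nat_lit 684) (nat_lit 786183564) (nat_lit 76) (nat_lit 5682455736) (nat_lit 275) (nat_lit 5) (nat_lit 284) (nat_lit 5) (nat_lit 276) (nat_lit 5) (nat_lit 422) (nat_lit 404) (nat_lit 374)))))) (XT.nd (nat_lit 546) (nat_lit 2812) (nat_lit 0) (XT.nd (nat_lit 234) (nat_lit 1976) (nat_lit 0)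 (XT.nd (nat_lit 78) (nat_lit 1748) (nat_lit 0) (XT.lf (nat_lit 0) (nat_lit 6075971119) (nat_lit 608) (nat_lit 443285920) (nat_lit 76) (nat_lit 2412185972) (nat_lit 268) (nat_lit 5) (nat_lit 276) (nat_lit 5) (nat_lit 269) (nat_lit 5) (nat_lit 423) (nat_lit 404) (nat_lit 373)) (XT.nd (nat_lit 78) (nat_lit 1064) (nat_lit 0) (XT.lf (nat_lit 0) (nat_lit 922182884) (nat_lit 684) (nat_lit 30305809) (nat_lit 76) (nat_lit 8184910569) (nat_lit 259) (nat_lit 5) (nat_lit 268) (nat_lit 5) (nat_lit 260) (nat_lit 5) (nat_lit 424) (nat_lit 404) (nat_lit 372)) (XT.lf (nat_lit 0) (nat_lit 425873365) (nat_lit 532) (nat_lit 4434576963) (nat_lit 608) (nat_lit 4491441570) (nat_lit 245) (nat_lit 5) (nat_lit 252) (nat_lit 5) (nat_lit 253) (nat_lit 5) (nat_lit 425) (nat_lit 404) (nat_lit 371)))) (XT.nd (nat_lit 156) (nat_lit 988) (nat_lit 0) (XT.nd (nat_lit 78) (nat_lit 532) (nat_lit 0) (XT.lf (nat_lit 0) (nat_lit 971481638)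 (nat_lit 456) (nat_lit 8034769388) (nat_lit 532) (nat_lit 570549352) (nat_lit 239) (nat_lit 5) (nat_lit 245) (nat_lit 5) (nat_lit 246) (nat_lit 5) (nat_lit 426) (nat_lit 404) (nat_lit 370)) (XT.lf (nat_lit 0) (nat_lit 1552591549) (nat_lit 456) (nat_lit 1962118698) (nat_lit 532) (nat_lit 6296104634) (nat_lit 232) (nat_lit 5) (nat_lit 238) (nat_lit 5) (nat_lit 239) (nat_lit 5) (nat_lit 427) (nat_lit 404) (nat_lit 369))) (XT.nd (nat_lit 78) (nat_lit 532) (nat_lit 0) (XT.lf (nat_lit 0) (nat_lit 2200951835) (nat_lit 456) (nat_lit 5633646472) (nat_lit 532) (nat_lit 2220506008) (nat_lit 226) (nat_lit 5) (nat_lit 232) (nat_lit 5) (nat_lit 233) (nat_lit 5) (nat_lit 428) (nat_lit 404) (nat_lit 368)) (XT.lf (nat_lit 0) (nat_lit 2052930651) (nat_lit 532) (nat_lit 7390949594) (nat_lit 76) (nat_lit 866115204) (nat_lit 219) (nat_lit 5) (nat_lit 226) (nat_lit 5) (nat_lit 220) (nat_lit 5) (nat_lit 429) (nat_lit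 404) (nat_lit 367))))) (XT.nd (nat_lit 234) (nat_lit 1520) (nat_lit 0) (XT.nd (nat_lit 78) (nat_lit 912) (nat_lit 0) (XT.lf (nat_lit 0) (nat_lit 3677016375) (nat_lit 380) (nat_lit 2886944505) (nat_lit 456) (nat_lit 4010922953) (nat_lit 214) (nat_lit 5) (nat_lit 219) (nat_lit 5) (nat_lit 220) (nat_lit 5) (nat_lit 430) (nat_lit 404) (nat_lit 366)) (XT.nd (nat_lit 78) (nat_lit 380) (nat_lit 0) (XT.lf (nat_lit 0) (nat_lit 497039155) (nat_lit 532) (nat_lit 6338471859) (nat_lit 76) (nat_lit 4015636216) (nat_lit 207) (nat_lit 5) (nat_lit 214) (nat_lit 5) (nat_lit 208) (nat_lit 5) (nat_lit 431) (nat_lit 404) (nat_lit 365)) (XT.lf (nat_lit 0) (nat_lit 5204501091) (nat_lit 456) (nat_lit 5737930766) (nat_lit 76) (nat_lit 195895660) (nat_lit 202) (nat_lit 5) (nat_lit 208) (nat_lit 5) (nat_lit 203) (nat_lit 5) (nat_lit 432) (nat_lit 404) (nat_lit 364)))) (XT.nd (nat_lit 156) (nat_lit 760) (nat_lit 0) (XT.nd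 (nat_lit 78) (nat_lit 380) (nat_lit 0) (XT.lf (nat_lit 0) (nat_lit 6344636088) (nat_lit 380) (nat_lit 3903301487) (nat_lit 456) (nat_lit 1188917580) (nat_lit 197) (nat_lit 5) (nat_lit 202) (nat_lit 5) (nat_lit 203) (nat_lit 5) (nat_lit 433) (nat_lit 404) (nat_lit 363)) (XT.lf (nat_lit 0) (nat_lit 3791790860) (nat_lit 380) (nat_lit 4401647308) (nat_lit 76) (nat_lit 3553605801) (nat_lit 192) (nat_lit 5) (nat_lit 197) (nat_lit 5) (nat_lit 193) (nat_lit 5) (nat_lit 434) (nat_lit 404) (nat_lit 362))) (XT.nd (nat_lit 78) (nat_lit 380) (nat_lit 0) (XT.lf (nat_lit 0) (nat_lit 8425549137) (nat_lit 380) (nat_lit 654968643) (nat_lit 456) (nat_lit 2989369764) (nat_lit 187) (nat_lit 5) (nat_lit 192) (nat_lit 5) (nat_lit 193) (nat_lit 5) (nat_lit 435) (nat_lit 404) (nat_lit 361)) (XT.lf (nat_lit 0) (nat_lit 2302880211) (nat_lit 380) (nat_lit 2858482800) (nat_lit 76) (nat_lit 7243229302) (nat_lit 182) (nat_lit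 5) (nat_lit 187) (nat_lit 5) (nat_lit 183) (nat_lit 5) (nat_lit 436) (nat_lit 404) (nat_lit 360))))))))
noncomputable def xc55 : XT := (XT.nd (nat_lit 2028) (nat_lit 3420) (nat_lit 0) (XT.nd (nat_lit 1014) (nat_lit 2812) (nat_lit 0) (XT.nd (nat_lit 468) (nat_lit 1824) (nat_lit 0) (XT.nd (nat_lit 234) (nat_lit 1216) (nat_lit 0) (XT.nd (nat_lit 78) (nat_lit 684) (nat_lit 0) (XT.lf (nat_lit 0) (nat_lit 7889313374) (nat_lit 380) (nat_lit 2014700402) (nat_lit 76) (nat_lit 2848393694) (nat_lit 178) (nat_lit 5) (nat_lit 183) (nat_lit 5) (nat_lit 179) (nat_lit 5) (nat_lit 437) (nat_lit 404) (nat_lit 359)) (XT.nd (nat_lit 78) (nat_lit 304) (nat_lit 0) (XT.lf (nat_lit 0) (nat_lit 740903159) (nat_lit 380) (nat_lit 1104984402) (nat_lit 76) (nat_lit 11268069948) (nat_lit 173) (nat_lit 5) (nat_lit 178) (nat_lit 5) (nat_lit 174) (nat_lit 5) (nat_lit 438) (nat_lit 404) (nat_lit 358)) (XT.lf (nat_lit 0) (nat_lit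 6659566107) (nat_lit 380) (nat_lit 181016224) (nat_lit 76) (nat_lit 6647511328) (nat_lit 169) (nat_lit 5) (nat_lit 174) (nat_lit 5) (nat_lit 170) (nat_lit 5) (nat_lit 439) (nat_lit 404) (nat_lit 357)))) (XT.nd (nat_lit 78) (nat_lit 608) (nat_lit 0) (XT.lf (nat_lit 0) (nat_lit 853564550) (nat_lit 304) (nat_lit 12139259357) (nat_lit 380) (nat_lit 884557007) (nat_lit 161) (nat_lit 5) (nat_lit 165) (nat_lit 5) (nat_lit 166) (nat_lit 5) (nat_lit 440) (nat_lit 404) (nat_lit 356)) (XT.nd (nat_lit 78) (nat_lit 304) (nat_lit 0) (XT.lf (nat_lit 0) (nat_lit 1903930039) (nat_lit 228) (nat_lit 3501620423) (nat_lit 304) (nat_lit 8874437219) (nat_lit 157) (nat_lit 5) (nat_lit 160) (nat_lit 5) (nat_lit 161) (nat_lit 5) (nat_lit 441) (nat_lit 404) (nat_lit 355)) (XT.lf (nat_lit 0) (nat_lit 3027100176) (nat_lit 304) (nat_lit 9107201653) (nat_lit 380) (nat_lit 2563890895) (nat_lit 153) (nat_lit 5) (nat_lit 157) (nat_lit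 5) (nat_lit 158) (nat_lit 5) (nat_lit 442) (nat_lit 404) (nat_lit 354))))) (XT.nd (nat_lit 234) (nat_lit 988) (nat_lit 0) (XT.nd (nat_lit 78) (nat_lit 532) (nat_lit 0) (XT.lf (nat_lit 0) (nat_lit 4114407886) (nat_lit 304) (nat_lit 10918812912) (nat_lit 76) (nat_lit 98974365) (nat_lit 149) (nat_lit 5) (nat_lit 153) (nat_lit 5) (nat_lit 150) (nat_lit 5) (nat_lit 443) (nat_lit 404) (nat_lit 353)) (XT.nd (nat_lit 78) (nat_lit 304) (nat_lit 0) (XT.lf (nat_lit 0) (nat_lit 5422380187) (nat_lit 228) (nat_lit 5845105871) (nat_lit 304) (nat_lit 4313836641) (nat_lit 146) (nat_lit 5) (nat_lit 149) (nat_lit 5) (nat_lit 150) (nat_lit 5) (nat_lit 444) (nat_lit 404) (nat_lit 352)) (XT.lf (nat_lit 0) (nat_lit 2818348590) (nat_lit 304) (nat_lit 9337565532) (nat_lit 76) (nat_lit 3891823014) (nat_lit 142) (nat_lit 5) (nat_lit 146) (nat_lit 5) (nat_lit 143) (nat_lit 5) (nat_lit 445) (nat_lit 404) (nat_lit 351)))) (XT.nd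 (nat_lit 156) (nat_lit 456) (nat_lit 0) (XT.nd (nat_lit 78) (nat_lit 304) (nat_lit 0) (XT.lf (nat_lit 0) (nat_lit 8041491822) (nat_lit 228) (nat_lit 2350713215) (nat_lit 304) (nat_lit 6138760388) (nat_lit 139) (nat_lit 5) (nat_lit 142) (nat_lit 5) (nat_lit 143) (nat_lit 5) (nat_lit 446) (nat_lit 404) (nat_lit 350)) (XT.lf (nat_lit 0) (nat_lit 1480432851) (nat_lit 304) (nat_lit 7601700051) (nat_lit 76) (nat_lit 7949862325) (nat_lit 135) (nat_lit 5) (nat_lit 139) (nat_lit 5) (nat_lit 136) (nat_lit 5) (nat_lit 447) (nat_lit 404) (nat_lit 349))) (XT.nd (nat_lit 78) (nat_lit 228) (nat_lit 0) (XT.lf (nat_lit 0) (nat_lit 9519506891) (nat_lit 304) (nat_lit 6680098431) (nat_lit 76) (nat_lit 1351673892) (nat_lit 132) (nat_lit 5) (nat_lit 136) (nat_lit 5) (nat_lit 133) (nat_lit 5) (nat_lit 448) (nat_lit 404) (nat_lit 348)) (XT.lf (nat_lit 0) (nat_lit 95047063) (nat_lit 228) (nat_lit 5716660823) (nat_lit 76)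 (nat_lit 12278009455) (nat_lit 129) (nat_lit 5) (nat_lit 132) (nat_lit 5) (nat_lit 130) (nat_lit 5) (nat_lit 449) (nat_lit 404) (nat_lit 347)))))) (XT.nd (nat_lit 468) (nat_lit 1368) (nat_lit 0) (XT.nd (nat_lit 234) (nat_lit 760) (nat_lit 0) (XT.nd (nat_lit 78) (nat_lit 456) (nat_lit 0) (XT.lf (nat_lit 0) (nat_lit 8656487421) (nat_lit 304) (nat_lit 4749402880) (nat_lit 76) (nat_lit 5240971914) (nat_lit 126) (nat_lit 5) (nat_lit 130) (nat_lit 5) (nat_lit 127) (nat_lit 5) (nat_lit 450) (nat_lit 404) (nat_lit 346)) (XT.nd (nat_lit 78) (nat_lit 304) (nat_lit 0) (XT.lf (nat_lit 0) (nat_lit 15521370599) (nat_lit 152) (nat_lit 2331399984) (nat_lit 228) (nat_lit 1372892719) (nat_lit 124) (nat_lit 5) (nat_lit 126) (nat_lit 5) (nat_lit 127) (nat_lit 5) (nat_lit 451) (nat_lit 404) (nat_lit 345)) (XT.lf (nat_lit 0) (nat_lit 7773338807) (nat_lit 304) (nat_lit 2685442251) (nat_lit 76) (nat_lit 9364982343) (nat_lit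 120) (nat_lit 5) (nat_lit 124) (nat_lit 5) (nat_lit 121) (nat_lit 5) (nat_lit 452) (nat_lit 404) (nat_lit 344)))) (XT.nd (nat_lit 78) (nat_lit 608) (nat_lit 0) (XT.lf (nat_lit 0) (nat_lit 17547485346) (nat_lit 228) (nat_lit 1578720040) (nat_lit 76) (nat_lit 1319187262) (nat_lit 118) (nat_lit 5) (nat_lit 121) (nat_lit 5) (nat_lit 119) (nat_lit 5) (nat_lit 453) (nat_lit 404) (nat_lit 343)) (XT.nd (nat_lit 78) (nat_lit 304) (nat_lit 0) (XT.lf (nat_lit 0) (nat_lit 6859681125) (nat_lit 304) (nat_lit 503565396) (nat_lit 76) (nat_lit 13724570122) (nat_lit 114) (nat_lit 5) (nat_lit 118) (nat_lit 5) (nat_lit 115) (nat_lit 5) (nat_lit 454) (nat_lit 404) (nat_lit 342)) (XT.lf (nat_lit 0) (nat_lit 644012391) (nat_lit 152) (nat_lit 16635077073) (nat_lit 228) (nat_lit 4475397022) (nat_lit 110) (nat_lit 5) (nat_lit 112) (nat_lit 5) (nat_lit 113) (nat_lit 5) (nat_lit 455) (nat_lit 404) (nat_lit 341))))) (XT.nd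 (nat_lit 234) (nat_lit 760) (nat_lit 0) (XT.nd (nat_lit 78) (nat_lit 380) (nat_lit 0) (XT.lf (nat_lit 0) (nat_lit 1810291285) (nat_lit 152) (nat_lit 4108509852) (nat_lit 228) (nat_lit 16526038143) (nat_lit 107) (nat_lit 5) (nat_lit 109) (nat_lit 5) (nat_lit 110) (nat_lit 5) (nat_lit 456) (nat_lit 404) (nat_lit 340)) (XT.nd (nat_lit 78) (nat_lit 228) (nat_lit 0) (XT.lf (nat_lit 0) (nat_lit 2982007336) (nat_lit 152) (nat_lit 14040120108) (nat_lit 228) (nat_lit 6137795081) (nat_lit 105) (nat_lit 5) (nat_lit 107) (nat_lit 5) (nat_lit 108) (nat_lit 5) (nat_lit 457) (nat_lit 404) (nat_lit 339)) (XT.lf (nat_lit 0) (nat_lit 4203565434) (nat_lit 152) (nat_lit 716800867) (nat_lit 228) (nat_lit 18981711931) (nat_lit 102) (nat_lit 5) (nat_lit 104) (nat_lit 5) (nat_lit 105) (nat_lit 5) (nat_lit 458) (nat_lit 404) (nat_lit 338)))) (XT.nd (nat_lit 156) (nat_lit 380) (nat_lit 0) (XT.nd (nat_lit 78) (nat_lit 228)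 (nat_lit 0) (XT.lf (nat_lit 0) (nat_lit 5370216315) (nat_lit 152) (nat_lit 11372856281) (nat_lit 228) (nat_lit 7926290001) (nat_lit 100) (nat_lit 5) (nat_lit 102) (nat_lit 5) (nat_lit 103) (nat_lit 5) (nat_lit 459) (nat_lit 404) (nat_lit 337)) (XT.lf (nat_lit 0) (nat_lit 3862135392) (nat_lit 228) (nat_lit 18866218977) (nat_lit 76) (nat_lit 2738033808) (nat_lit 97) (nat_lit 5) (nat_lit 100) (nat_lit 5) (nat_lit 98) (nat_lit 5) (nat_lit 460) (nat_lit 404) (nat_lit 336))) (XT.nd (nat_lit 78) (nat_lit 228) (nat_lit 0) (XT.lf (nat_lit 0) (nat_lit 7764782387) (nat_lit 152) (nat_lit 8653520847) (nat_lit 228) (nat_lit 9872341095) (nat_lit 95) (nat_lit 5) (nat_lit 97) (nat_lit 5) (nat_lit 98) (nat_lit 5) (nat_lit 461) (nat_lit 404) (nat_lit 335)) (XT.lf (nat_lit 0) (nat_lit 2694615946) (nat_lit 228) (nat_lit 18176550697) (nat_lit 76) (nat_lit 6275356750) (nat_lit 92) (nat_lit 5) (nat_lit 95) (nat_lit 5)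 (nat_lit 93) (nat_lit 5) (nat_lit 462) (nat_lit 404) (nat_lit 334))))))) (XT.nd (nat_lit 1014) (nat_lit 1444) (nat_lit 0) (XT.nd (nat_lit 468) (nat_lit 1140) (nat_lit 0) (XT.nd (nat_lit 234) (nat_lit 380) (nat_lit 0) (XT.nd (nat_lit 78) (nat_lit 304) (nat_lit 0) (XT.lf (nat_lit 0) (nat_lit 10109384134) (nat_lit 152) (nat_lit 5908159515) (nat_lit 228) (nat_lit 12014767421) (nat_lit 90) (nat_lit 5) (nat_lit 92) (nat_lit 5) (nat_lit 93) (nat_lit 5) (nat_lit 463) (nat_lit 404) (nat_lit 333)) (XT.nd (nat_lit 78) (nat_lit 152) (nat_lit 0) (XT.lf (nat_lit 0) (nat_lit 1372653006) (nat_lit 152) (nat_lit 17694729625) (nat_lit 76) (nat_lit 9884241265) (nat_lit 88) (nat_lit 5) (nat_lit 90) (nat_lit 5) (nat_lit 89) (nat_lit 5) (nat_lit 464) (nat_lit 404) (nat_lit 332)) (XT.lf (nat_lit 0) (nat_lit 12332589774) (nat_lit 152) (nat_lit 3169985552) (nat_lit 228) (nat_lit 14401110713) (nat_lit 86) (nat_lit 5) (nat_lit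 88) (nat_lit 5) (nat_lit 89) (nat_lit 5) (nat_lit 465) (nat_lit 404) (nat_lit 331)))) (XT.nd (nat_lit 78) (nat_lit 304) (nat_lit 0) (XT.lf (nat_lit 0) (nat_lit 13379705472) (nat_lit 76) (nat_lit 17357639594) (nat_lit 152) (nat_lit 154056503) (nat_lit 85) (nat_lit 5) (nat_lit 86) (nat_lit 5) (nat_lit 87) (nat_lit 4) (nat_lit 466) (nat_lit 404) (nat_lit 330)) (XT.nd (nat_lit 78) (nat_lit 76) (nat_lit 0) (XT.lf (nat_lit 0) (nat_lit 14344728454) (nat_lit 152) (nat_lit 480976651) (nat_lit 228) (nat_lit 17089251171) (nat_lit 82) (nat_lit 5) (nat_lit 84) (nat_lit 5) (nat_lit 85) (nat_lit 5) (nat_lit 467) (nat_lit 404) (nat_lit 329)) (XT.lf (nat_lit 0) (nat_lit 15223835410) (nat_lit 76) (nat_lit 15779225892) (nat_lit 152) (nat_lit 1973028600) (nat_lit 81) (nat_lit 5) (nat_lit 82) (nat_lit 5) (nat_lit 83) (nat_lit 4) (nat_lit 468) (nat_lit 404) (nat_lit 328))))) (XT.nd (nat_lit 234) (nat_lit 608) (nat_lit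 0) (XT.nd (nat_lit 78) (nat_lit 304) (nat_lit 0) (XT.lf (nat_lit 0) (nat_lit 13948194832) (nat_lit 228) (nat_lit 18063321550) (nat_lit 76) (nat_lit 2065144039) (nat_lit 78) (nat_lit 5) (nat_lit 81) (nat_lit 5) (nat_lit 79) (nat_lit 4) (nat_lit 469) (nat_lit 404) (nat_lit 327)) (XT.nd (nat_lit 78) (nat_lit 228) (nat_lit 0) (XT.lf (nat_lit 0) (nat_lit 16678911444) (nat_lit 76) (nat_lit 14409702629) (nat_lit 152) (nat_lit 4129141783) (nat_lit 77) (nat_lit 5) (nat_lit 78) (nat_lit 5) (nat_lit 79) (nat_lit 4) (nat_lit 470) (nat_lit 404) (nat_lit 326)) (XT.lf (nat_lit 0) (nat_lit 12780386219) (nat_lit 228) (nat_lit 19183270387) (nat_lit 76) (nat_lit 4437871901) (nat_lit 74) (nat_lit 5) (nat_lit 77) (nat_lit 5) (nat_lit 75) (nat_lit 4) (nat_lit 471) (nat_lit 404) (nat_lit 325)))) (XT.nd (nat_lit 156) (nat_lit 304) (nat_lit 0) (XT.nd (nat_lit 78) (nat_lit 228) (nat_lit 0) (XT.lf (nat_lit 0) (nat_lit 17591919260)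 (nat_lit 76) (nat_lit 13327236330) (nat_lit 152) (nat_lit 6710033421) (nat_lit 73) (nat_lit 5) (nat_lit 74) (nat_lit 5) (nat_lit 75) (nat_lit 4) (nat_lit 472) (nat_lit 404) (nat_lit 324)) (XT.lf (nat_lit 0) (nat_lit 11228464470) (nat_lit 228) (nat_lit 21107444212) (nat_lit 76) (nat_lit 6567216973) (nat_lit 70) (nat_lit 5) (nat_lit 73) (nat_lit 5) (nat_lit 71) (nat_lit 4) (nat_lit 473) (nat_lit 404) (nat_lit 323))) (XT.nd (nat_lit 78) (nat_lit 228) (nat_lit 0) (XT.lf (nat_lit 0) (nat_lit 17775465516) (nat_lit 76) (nat_lit 12627318594) (nat_lit 152) (nat_lit 9821652314) (nat_lit 69) (nat_lit 5) (nat_lit 70) (nat_lit 5) (nat_lit 71) (nat_lit 4) (nat_lit 474) (nat_lit 404) (nat_lit 322)) (XT.lf (nat_lit 0) (nat_lit 9184070920) (nat_lit 228) (nat_lit 24056525287) (nat_lit 76) (nat_lit 8355617385) (nat_lit 66) (nat_lit 5) (nat_lit 69) (nat_lit 5) (nat_lit 67) (nat_lit 4) (nat_lit 475) (nat_lit 404) (nat_lit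 321)))))) (XT.nd (nat_lit 546) (nat_lit 684) (nat_lit 0) (XT.nd (nat_lit 234) (nat_lit 456) (nat_lit 0) (XT.nd (nat_lit 78) (nat_lit 228) (nat_lit 0) (XT.lf (nat_lit 0) (nat_lit 17001176173) (nat_lit 76) (nat_lit 12426131465) (nat_lit 152) (nat_lit 13591644468) (nat_lit 65) (nat_lit 5) (nat_lit 66) (nat_lit 5) (nat_lit 67) (nat_lit 4) (nat_lit 476) (nat_lit 404) (nat_lit 320)) (XT.nd (nat_lit 78) (nat_lit 76) (nat_lit 0) (XT.lf (nat_lit 0) (nat_lit 6516102125) (nat_lit 152) (nat_lit 28297176602) (nat_lit 76) (nat_lit 9683771359) (nat_lit 63) (nat_lit 5) (nat_lit 65) (nat_lit 5) (nat_lit 64) (nat_lit 4) (nat_lit 477) (nat_lit 404) (nat_lit 319)) (XT.lf (nat_lit 0) (nat_lit 14991916467) (nat_lit 76) (nat_lit 12864508761) (nat_lit 152) (nat_lit 18173342438) (nat_lit 62) (nat_lit 5) (nat_lit 63) (nat_lit 5) (nat_lit 64) (nat_lit 4) (nat_lit 478) (nat_lit 404) (nat_lit 318)))) (XT.nd (nat_lit 156) (nat_lit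 228) (nat_lit 0) (XT.nd (nat_lit 78) (nat_lit 76) (nat_lit 0) (XT.lf (nat_lit 0) (nat_lit 3066493473) (nat_lit 152) (nat_lit 34150627047) (nat_lit 76) (nat_lit 10406452078) (nat_lit 60) (nat_lit 5) (nat_lit 62) (nat_lit 5) (nat_lit 61) (nat_lit 4) (nat_lit 479) (nat_lit 404) (nat_lit 317)) (XT.lf (nat_lit 0) (nat_lit 11412627369) (nat_lit 76) (nat_lit 14112597689) (nat_lit 152) (nat_lit 23750462337) (nat_lit 59) (nat_lit 5) (nat_lit 60) (nat_lit 5) (nat_lit 61) (nat_lit 4) (nat_lit 480) (nat_lit 404) (nat_lit 316))) (XT.nd (nat_lit 78) (nat_lit 152) (nat_lit 0) (XT.lf (nat_lit 0) (nat_lit 8979153729) (nat_lit 76) (nat_lit 40634347685) (nat_lit 76) (nat_lit 1381708593) (nat_lit 58) (nat_lit 4) (nat_lit 59) (nat_lit 5) (nat_lit 59) (nat_lit 4) (nat_lit 481) (nat_lit 404) (nat_lit 315)) (XT.lf (nat_lit 0) (nat_lit 5859538270) (nat_lit 76) (nat_lit 16375342849) (nat_lit 152) (nat_lit 30542630506) (nat_lit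 56) (nat_lit 5) (nat_lit 57) (nat_lit 5) (nat_lit 58) (nat_lit 4) (nat_lit 482) (nat_lit 404) (nat_lit 314))))) (XT.nd (nat_lit 234) (nat_lit 456) (nat_lit 0) (XT.nd (nat_lit 78) (nat_lit 152) (nat_lit 0) (XT.lf (nat_lit 0) (nat_lit 2248608683) (nat_lit 76) (nat_lit 45270251411) (nat_lit 76) (nat_lit 7114204036) (nat_lit 55) (nat_lit 4) (nat_lit 56) (nat_lit 5) (nat_lit 56) (nat_lit 4) (nat_lit 483) (nat_lit 404) (nat_lit 313)) (XT.nd (nat_lit 78) (nat_lit 76) (nat_lit 0) (XT.lf (nat_lit 0) (nat_lit 17767101473) (nat_lit 152) (nat_lit 2110521992) (nat_lit 76) (nat_lit 36680048606) (nat_lit 54) (nat_lit 5) (nat_lit 56) (nat_lit 5) (nat_lit 55) (nat_lit 4) (nat_lit 484) (nat_lit 404) (nat_lit 312)) (XT.lf (nat_lit 0) (nat_lit 44283923041) (nat_lit 152) (nat_lit 7078215015) (nat_lit 0) (nat_lit 7198101967) (nat_lit 53) (nat_lit 5) (nat_lit 55) (nat_lit 4) (nat_lit 53) (nat_lit 4) (nat_lit 485) (nat_lit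 404) (nat_lit 311)))) (XT.nd (nat_lit 156) (nat_lit 228) (nat_lit 0) (XT.nd (nat_lit 78) (nat_lit 76) (nat_lit 0) (XT.lf (nat_lit 0) (nat_lit 11900261353) (nat_lit 152) (nat_lit 12947391516) (nat_lit 76) (nat_lit 35792168592) (nat_lit 51) (nat_lit 5) (nat_lit 53) (nat_lit 5) (nat_lit 52) (nat_lit 4) (nat_lit 486) (nat_lit 404) (nat_lit 310)) (XT.lf (nat_lit 0) (nat_lit 39588724794) (nat_lit 152) (nat_lit 19668600494) (nat_lit 0) (nat_lit 3546867042) (nat_lit 50) (nat_lit 5) (nat_lit 52) (nat_lit 4) (nat_lit 50) (nat_lit 4) (nat_lit 487) (nat_lit 404) (nat_lit 309))) (XT.nd (nat_lit 78) (nat_lit 76) (nat_lit 0) (XT.lf (nat_lit 0) (nat_lit 4242094401) (nat_lit 152) (nat_lit 27447226663) (nat_lit 76) (nat_lit 33364610563) (nat_lit 48) (nat_lit 5) (nat_lit 50) (nat_lit 5) (nat_lit 49) (nat_lit 4) (nat_lit 488) (nat_lit 404) (nat_lit 308)) (XT.lf (nat_lit 0) (nat_lit 31064031237) (nat_lit 76) (nat_lit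 2009234330) (nat_lit 152) (nat_lit 34321570952) (nat_lit 47) (nat_lit 5) (nat_lit 48) (nat_lit 5) (nat_lit 49) (nat_lit 4) (nat_lit 489) (nat_lit 404) (nat_lit 307))))))))
noncomputable def xc56 : XT := (XT.nd (nat_lit 57174) (nat_lit 0) (nat_lit 7828) (XT.nd (nat_lit 56160) (nat_lit 0) (nat_lit 18848) (XT.nd (nat_lit 468) (nat_lit 304) (nat_lit 0) (XT.nd (nat_lit 234) (nat_lit 228) (nat_lit 0) (XT.nd (nat_lit 78) (nat_lit 228) (nat_lit 0) (XT.lf (nat_lit 0) (nat_lit 23351167652) (nat_lit 76) (nat_lit 40758746249) (nat_lit 76) (nat_lit 5719955379) (nat_lit 46) (nat_lit 4) (nat_lit 47) (nat_lit 5) (nat_lit 47) (nat_lit 4) (nat_lit 490) (nat_lit 404) (nat_lit 306)) (XT.nd (nat_lit 78) (nat_lit 76) (nat_lit 0) (XT.lf (nat_lit 0) (nat_lit 14373217163) (nat_lit 76) (nat_lit 9974622759) (nat_lit 152) (nat_lit 48016487690) (nat_lit 44) (nat_lit 5) (nat_lit 45) (nat_lit 5) (nat_lit 46) (nat_lit 4) (nat_lit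 491) (nat_lit 404) (nat_lit 305)) (XT.lf (nat_lit 0) (nat_lit 3978530873) (nat_lit 76) (nat_lit 52534447621) (nat_lit 76) (nat_lit 18489464002) (nat_lit 43) (nat_lit 4) (nat_lit 44) (nat_lit 5) (nat_lit 44) (nat_lit 4) (nat_lit 492) (nat_lit 404) (nat_lit 304)))) (XT.nd (nat_lit 78) (nat_lit 152) (nat_lit 0) (XT.lf (nat_lit 0) (nat_lit 12948647772) (nat_lit 152) (nat_lit 7771651429) (nat_lit 76) (nat_lit 57028187480) (nat_lit 42) (nat_lit 5) (nat_lit 44) (nat_lit 5) (nat_lit 43) (nat_lit 4) (nat_lit 493) (nat_lit 404) (nat_lit 303)) (XT.nd (nat_lit 78) (nat_lit 76) (nat_lit 0) (XT.lf (nat_lit 0) (nat_lit 46258253912) (nat_lit 152) (nat_lit 21166303841) (nat_lit 0) (nat_lit 13181324168) (nat_lit 41) (nat_lit 5) (nat_lit 43) (nat_lit 4) (nat_lit 41) (nat_lit 4) (nat_lit 494) (nat_lit 404) (nat_lit 302)) (XT.lf (nat_lit 0) (nat_lit 47236314323) (nat_lit 76) (nat_lit 34718035914) (nat_lit 76) (nat_lit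 1630166523) (nat_lit 40) (nat_lit 4) (nat_lit 41) (nat_lit 5) (nat_lit 41) (nat_lit 4) (nat_lit 495) (nat_lit 404) (nat_lit 301))))) (XT.nd (nat_lit 55380) (nat_lit 0) (nat_lit 28044) (XT.nd (nat_lit 78) (nat_lit 152) (nat_lit 0) (XT.lf (nat_lit 0) (nat_lit 32604728386) (nat_lit 152) (nat_lit 53611847120) (nat_lit 0) (nat_lit 470468092) (nat_lit 38) (nat_lit 5) (nat_lit 40) (nat_lit 4) (nat_lit 38) (nat_lit 4) (nat_lit 496) (nat_lit 404) (nat_lit 300)) (XT.nd (nat_lit 78) (nat_lit 76) (nat_lit 0) (XT.lf (nat_lit 0) (nat_lit 16707462800) (nat_lit 76) (nat_lit 52677315017) (nat_lit 76) (nat_lit 20533421147) (nat_lit 37) (nat_lit 4) (nat_lit 38) (nat_lit 5) (nat_lit 38) (nat_lit 4) (nat_lit 497) (nat_lit 404) (nat_lit 299)) (XT.lf (nat_lit 0) (nat_lit 14941900119) (nat_lit 152) (nat_lit 1821011459) (nat_lit 76) (nat_lit 76527692685) (nat_lit 36) (nat_lit 5) (nat_lit 38) (nat_lit 5) (nat_lit 37) (nat_lit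 4) (nat_lit 498) (nat_lit 404) (nat_lit 298)))) (XT.nd (nat_lit 156) (nat_lit 608) (nat_lit 0) (XT.nd (nat_lit 78) (nat_lit 684) (nat_lit 0) (XT.lf (nat_lit 0) (nat_lit 1239645368) (nat_lit 0) (nat_lit 1239645368) (nat_lit 532) (nat_lit 885814234) (nat_lit 422) (nat_lit 5) (nat_lit 422) (nat_lit 3) (nat_lit 429) (nat_lit 3) (nat_lit 405) (nat_lit 405) (nat_lit 390)) (XT.lf (nat_lit 76) (nat_lit 1341972296) (nat_lit 0) (nat_lit 429161907) (nat_lit 684) (nat_lit 5020839045) (nat_lit 414) (nat_lit 5) (nat_lit 413) (nat_lit 3) (nat_lit 422) (nat_lit 5) (nat_lit 406) (nat_lit 405) (nat_lit 389))) (XT.nd (nat_lit 78) (nat_lit 684) (nat_lit 0) (XT.lf (nat_lit 76) (nat_lit 291738811) (nat_lit 0) (nat_lit 4999939547) (nat_lit 684) (nat_lit 1569531534) (nat_lit 415) (nat_lit 5) (nat_lit 414) (nat_lit 5) (nat_lit 423) (nat_lit 5) (nat_lit 407) (nat_lit 405) (nat_lit 388)) (XT.lf (nat_lit 0) (nat_lit 1856052417)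 (nat_lit 684) (nat_lit 650058223) (nat_lit 760) (nat_lit 4431978985) (nat_lit 405) (nat_lit 5) (nat_lit 414) (nat_lit 5) (nat_lit 415) (nat_lit 5) (nat_lit 408) (nat_lit 405) (nat_lit 387)))))) (XT.nd (nat_lit 468) (nat_lit 6916) (nat_lit 0) (XT.nd (nat_lit 234) (nat_lit 1596) (nat_lit 0) (XT.nd (nat_lit 78) (nat_lit 760) (nat_lit 0) (XT.lf (nat_lit 0) (nat_lit 5267820383) (nat_lit 684) (nat_lit 1489697332) (nat_lit 760) (nat_lit 265434807) (nat_lit 406) (nat_lit 5) (nat_lit 415) (nat_lit 5) (nat_lit 416) (nat_lit 5) (nat_lit 409) (nat_lit 405) (nat_lit 386)) (XT.nd (nat_lit 78) (nat_lit 0) (nat_lit 0) (XT.lf (nat_lit 0) (nat_lit 1582712611) (nat_lit 760) (nat_lit 2258932844) (nat_lit 836) (nat_lit 3273580876) (nat_lit 396) (nat_lit 5) (nat_lit 406) (nat_lit 5) (nat_lit 407) (nat_lit 5) (nat_lit 410) (nat_lit 405) (nat_lit 385)) (XT.lf (nat_lit 76) (nat_lit 4279523681) (nat_lit 0) (nat_lit 635832270)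 (nat_lit 836) (nat_lit 2300333584) (nat_lit 397) (nat_lit 5) (nat_lit 396) (nat_lit 5) (nat_lit 407) (nat_lit 5) (nat_lit 411) (nat_lit 405) (nat_lit 384)))) (XT.nd (nat_lit 78) (nat_lit 836) (nat_lit 0) (XT.lf (nat_lit 0) (nat_lit 973161290) (nat_lit 836) (nat_lit 3542301961) (nat_lit 912) (nat_lit 2808387466) (nat_lit 386) (nat_lit 5) (nat_lit 397) (nat_lit 5) (nat_lit 398) (nat_lit 5) (nat_lit 412) (nat_lit 405) (nat_lit 383)) (XT.nd (nat_lit 78) (nat_lit 836) (nat_lit 0) (XT.lf (nat_lit 76) (nat_lit 3368112998) (nat_lit 0) (nat_lit 886071612) (nat_lit 912) (nat_lit 3185829655) (nat_lit 387) (nat_lit 5) (nat_lit 386) (nat_lit 5) (nat_lit 398) (nat_lit 5) (nat_lit 413) (nat_lit 405) (nat_lit 382)) (XT.lf (nat_lit 0) (nat_lit 57385548) (nat_lit 912) (nat_lit 4526479074) (nat_lit 76) (nat_lit 2980416926) (nat_lit 375) (nat_lit 5) (nat_lit 387) (nat_lit 5) (nat_lit 376) (nat_lit 5) (nat_lit 414)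 (nat_lit 405) (nat_lit 381))))) (XT.nd (nat_lit 234) (nat_lit 3876) (nat_lit 0) (XT.nd (nat_lit 78) (nat_lit 2128) (nat_lit 0) (XT.lf (nat_lit 0) (nat_lit 2778069036) (nat_lit 912) (nat_lit 532090049) (nat_lit 988) (nat_lit 4386276242) (nat_lit 363) (nat_lit 5) (nat_lit 375) (nat_lit 5) (nat_lit 376) (nat_lit 5) (nat_lit 415) (nat_lit 405) (nat_lit 380)) (XT.nd (nat_lit 78) (nat_lit 1140) (nat_lit 0) (XT.lf (nat_lit 0) (nat_lit 2592384227) (nat_lit 988) (nat_lit 4082622238) (nat_lit 1064) (nat_lit 1161724396) (nat_lit 350) (nat_lit 5) (nat_lit 363) (nat_lit 5) (nat_lit 364) (nat_lit 5) (nat_lit 416) (nat_lit 405) (nat_lit 379)) (XT.lf (nat_lit 0) (nat_lit 2111252207) (nat_lit 1140) (nat_lit 5498937200) (nat_lit 76) (nat_lit 375308337) (nat_lit 335) (nat_lit 5) (nat_lit 350) (nat_lit 5) (nat_lit 336) (nat_lit 5) (nat_lit 417) (nat_lit 405) (nat_lit 378)))) (XT.nd (nat_lit 156) (nat_lit 1444) (nat_lit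 0) (XT.nd (nat_lit 78) (nat_lit 1292) (nat_lit 0) (XT.lf (nat_lit 0) (nat_lit 2436762586) (nat_lit 1140) (nat_lit 3059240913) (nat_lit 1216) (nat_lit 2646204919) (nat_lit 320) (nat_lit 5) (nat_lit 335) (nat_lit 5) (nat_lit 336) (nat_lit 5) (nat_lit 418) (nat_lit 405) (nat_lit 377)) (XT.lf (nat_lit 0) (nat_lit 684513971) (nat_lit 1292) (nat_lit 5835891491) (nat_lit 76) (nat_lit 1787475389) (nat_lit 303) (nat_lit 5) (nat_lit 320) (nat_lit 5) (nat_lit 304) (nat_lit 5) (nat_lit 419) (nat_lit 405) (nat_lit 376))) (XT.nd (nat_lit 78) (nat_lit 608) (nat_lit 0) (XT.lf (nat_lit 0) (nat_lit 2558750802) (nat_lit 836) (nat_lit 1546434436) (nat_lit 912) (nat_lit 4376534625) (nat_lit 292) (nat_lit 5) (nat_lit 303) (nat_lit 5) (nat_lit 304) (nat_lit 5) (nat_lit 420) (nat_lit 405) (nat_lit 375)) (XT.lf (nat_lit 0) (nat_lit 2719016858) (nat_lit 608) (nat_lit 4968227913) (nat_lit 684) (nat_lit 977308060) (nat_lit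 284) (nat_lit 5) (nat_lit 292) (nat_lit 5) (nat_lit 293) (nat_lit 5) (nat_lit 421) (nat_lit 405) (nat_lit 374))))))) (XT.nd (nat_lit 1014) (nat_lit 4332) (nat_lit 0) (XT.nd (nat_lit 468) (nat_lit 3192) (nat_lit 0) (XT.nd (nat_lit 234) (nat_lit 1596) (nat_lit 0) (XT.nd (nat_lit 78) (nat_lit 1216) (nat_lit 0) (XT.lf (nat_lit 0) (nat_lit 2522968289) (nat_lit 684) (nat_lit 5911554459) (nat_lit 76) (nat_lit 421818990) (nat_lit 275) (nat_lit 5) (nat_lit 284) (nat_lit 5) (nat_lit 276) (nat_lit 5) (nat_lit 422) (nat_lit 405) (nat_lit 373)) (XT.nd (nat_lit 78) (nat_lit 684) (nat_lit 0) (XT.lf (nat_lit 0) (nat_lit 3220704622) (nat_lit 532) (nat_lit 2977301907) (nat_lit 608) (nat_lit 2858835598) (nat_lit 268) (nat_lit 5) (nat_lit 275) (nat_lit 5) (nat_lit 276) (nat_lit 5) (nat_lit 423) (nat_lit 405) (nat_lit 372)) (XT.lf (nat_lit 0) (nat_lit 777835190) (nat_lit 684) (nat_lit 5693802204) (nat_lit 76) (nat_lit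 2795398465) (nat_lit 259) (nat_lit 5) (nat_lit 268) (nat_lit 5) (nat_lit 260) (nat_lit 5) (nat_lit 424) (nat_lit 405) (nat_lit 371)))) (XT.nd (nat_lit 78) (nat_lit 1064) (nat_lit 0) (XT.lf (nat_lit 0) (nat_lit 3979351615) (nat_lit 532) (nat_lit 572128116) (nat_lit 608) (nat_lit 4934992237) (nat_lit 252) (nat_lit 5) (nat_lit 259) (nat_lit 5) (nat_lit 260) (nat_lit 5) (nat_lit 425) (nat_lit 405) (nat_lit 370)) (XT.nd (nat_lit 78) (nat_lit 532) (nat_lit 0) (XT.lf (nat_lit 0) (nat_lit 4444692672) (nat_lit 532) (nat_lit 4113984755) (nat_lit 608) (nat_lit 1156865666) (nat_lit 245) (nat_lit 5) (nat_lit 252) (nat_lit 5) (nat_lit 253) (nat_lit 5) (nat_lit 426) (nat_lit 405) (nat_lit 369)) (XT.lf (nat_lit 0) (nat_lit 2779773243) (nat_lit 532) (nat_lit 4983709721) (nat_lit 76) (nat_lit 2191049781) (nat_lit 238) (nat_lit 5) (nat_lit 245) (nat_lit 5) (nat_lit 239) (nat_lit 5) (nat_lit 427) (nat_lit 405) (nat_lit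 368))))) (XT.nd (nat_lit 234) (nat_lit 1748) (nat_lit 0) (XT.nd (nat_lit 78) (nat_lit 988) (nat_lit 0) (XT.lf (nat_lit 0) (nat_lit 5560356280) (nat_lit 456) (nat_lit 1374687312) (nat_lit 532) (nat_lit 3268721132) (nat_lit 232) (nat_lit 5) (nat_lit 238) (nat_lit 5) (nat_lit 239) (nat_lit 5) (nat_lit 428) (nat_lit 405) (nat_lit 367)) (XT.nd (nat_lit 78) (nat_lit 456) (nat_lit 0) (XT.lf (nat_lit 0) (nat_lit 879145143) (nat_lit 532) (nat_lit 4255349623) (nat_lit 76) (nat_lit 5328847828) (nat_lit 225) (nat_lit 5) (nat_lit 232) (nat_lit 5) (nat_lit 226) (nat_lit 5) (nat_lit 429) (nat_lit 405) (nat_lit 366)) (XT.lf (nat_lit 0) (nat_lit 5214820650) (nat_lit 532) (nat_lit 3821130532) (nat_lit 76) (nat_lit 1697543970) (nat_lit 219) (nat_lit 5) (nat_lit 226) (nat_lit 5) (nat_lit 220) (nat_lit 5) (nat_lit 430) (nat_lit 405) (nat_lit 365)))) (XT.nd (nat_lit 156) (nat_lit 836) (nat_lit 0) (XT.nd (nat_lit 78)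 (nat_lit 532) (nat_lit 0) (XT.lf (nat_lit 0) (nat_lit 7687312584) (nat_lit 380) (nat_lit 2155193679) (nat_lit 456) (nat_lit 1172399184) (nat_lit 214) (nat_lit 5) (nat_lit 219) (nat_lit 5) (nat_lit 220) (nat_lit 5) (nat_lit 431) (nat_lit 405) (nat_lit 364)) (XT.lf (nat_lit 0) (nat_lit 3404702872) (nat_lit 532) (nat_lit 2803065398) (nat_lit 76) (nat_lit 5099255799) (nat_lit 207) (nat_lit 5) (nat_lit 214) (nat_lit 5) (nat_lit 208) (nat_lit 5) (nat_lit 432) (nat_lit 405) (nat_lit 363))) (XT.nd (nat_lit 78) (nat_lit 456) (nat_lit 0) (XT.lf (nat_lit 0) (nat_lit 8255462568) (nat_lit 456) (nat_lit 2208523502) (nat_lit 76) (nat_lit 1147348903) (nat_lit 202) (nat_lit 5) (nat_lit 208) (nat_lit 5) (nat_lit 203) (nat_lit 5) (nat_lit 433) (nat_lit 405) (nat_lit 362)) (XT.lf (nat_lit 0) (nat_lit 1496316459) (nat_lit 456) (nat_lit 1573607319) (nat_lit 76) (nat_lit 8857351790) (nat_lit 196) (nat_lit 5) (nat_lit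 202) (nat_lit 5) (nat_lit 197) (nat_lit 5) (nat_lit 434) (nat_lit 405) (nat_lit 361)))))) (XT.nd (nat_lit 468) (nat_lit 1976) (nat_lit 0) (XT.nd (nat_lit 234) (nat_lit 988) (nat_lit 0) (XT.nd (nat_lit 78) (nat_lit 1064) (nat_lit 0) (XT.lf (nat_lit 0) (nat_lit 6617157046) (nat_lit 380) (nat_lit 899257226) (nat_lit 76) (nat_lit 4738744073) (nat_lit 192) (nat_lit 5) (nat_lit 197) (nat_lit 5) (nat_lit 193) (nat_lit 5) (nat_lit 435) (nat_lit 405) (nat_lit 360)) (XT.nd (nat_lit 78) (nat_lit 684) (nat_lit 0) (XT.lf (nat_lit 0) (nat_lit 12083246047) (nat_lit 456) (nat_lit 137961432) (nat_lit 76) (nat_lit 375556683) (nat_lit 187) (nat_lit 5) (nat_lit 193) (nat_lit 5) (nat_lit 188) (nat_lit 5) (nat_lit 436) (nat_lit 405) (nat_lit 359)) (XT.lf (nat_lit 0) (nat_lit 637219703) (nat_lit 304) (nat_lit 4279522411) (nat_lit 380) (nat_lit 8032973397) (nat_lit 178) (nat_lit 5) (nat_lit 182) (nat_lit 5) (nat_lit 183)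 (nat_lit 5) (nat_lit 437) (nat_lit 405) (nat_lit 358)))) (XT.nd (nat_lit 78) (nat_lit 684) (nat_lit 0) (XT.lf (nat_lit 0) (nat_lit 1497695602) (nat_lit 304) (nat_lit 9218949057) (nat_lit 380) (nat_lit 2600259234) (nat_lit 174) (nat_lit 5) (nat_lit 178) (nat_lit 5) (nat_lit 179) (nat_lit 5) (nat_lit 438) (nat_lit 405) (nat_lit 357)) (XT.nd (nat_lit 78) (nat_lit 304) (nat_lit 0) (XT.lf (nat_lit 0) (nat_lit 2415165457) (nat_lit 304) (nat_lit 746030897) (nat_lit 380) (nat_lit 10536834005) (nat_lit 169) (nat_lit 5) (nat_lit 173) (nat_lit 5) (nat_lit 174) (nat_lit 5) (nat_lit 439) (nat_lit 405) (nat_lit 356)) (XT.lf (nat_lit 0) (nat_lit 3360153049) (nat_lit 304) (nat_lit 5956305671) (nat_lit 380) (nat_lit 4776200684) (nat_lit 165) (nat_lit 5) (nat_lit 169) (nat_lit 5) (nat_lit 170) (nat_lit 5) (nat_lit 440) (nat_lit 405) (nat_lit 355))))) (XT.nd (nat_lit 234) (nat_lit 1064) (nat_lit 0) (XT.nd (nat_lit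 78) (nat_lit 532) (nat_lit 0) (XT.lf (nat_lit 0) (nat_lit 1371825722) (nat_lit 380) (nat_lit 10111989511) (nat_lit 76) (nat_lit 3019115618) (nat_lit 160) (nat_lit 5) (nat_lit 165) (nat_lit 5) (nat_lit 161) (nat_lit 5) (nat_lit 441) (nat_lit 405) (nat_lit 354)) (XT.nd (nat_lit 78) (nat_lit 304) (nat_lit 0) (XT.lf (nat_lit 0) (nat_lit 5451338900) (nat_lit 228) (nat_lit 2431470666) (nat_lit 304) (nat_lit 7044861051) (nat_lit 157) (nat_lit 5) (nat_lit 160) (nat_lit 5) (nat_lit 161) (nat_lit 5) (nat_lit 442) (nat_lit 405) (nat_lit 353)) (XT.lf (nat_lit 0) (nat_lit 6584499266) (nat_lit 304) (nat_lit 8302545778) (nat_lit 380) (nat_lit 481574567) (nat_lit 153) (nat_lit 5) (nat_lit 157) (nat_lit 5) (nat_lit 158) (nat_lit 5) (nat_lit 443) (nat_lit 405) (nat_lit 352)))) (XT.nd (nat_lit 156) (nat_lit 532) (nat_lit 0) (XT.nd (nat_lit 78) (nat_lit 228) (nat_lit 0) (XT.lf (nat_lit 0) (nat_lit 6428556413) (nat_lit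 304) (nat_lit 8063417456) (nat_lit 76) (nat_lit 1333483982) (nat_lit 149) (nat_lit 5) (nat_lit 153) (nat_lit 5) (nat_lit 150) (nat_lit 5) (nat_lit 444) (nat_lit 405) (nat_lit 351)) (XT.lf (nat_lit 0) (nat_lit 8997336681) (nat_lit 228) (nat_lit 4873308980) (nat_lit 304) (nat_lit 2428459875) (nat_lit 146) (nat_lit 5) (nat_lit 149) (nat_lit 5) (nat_lit 150) (nat_lit 5) (nat_lit 445) (nat_lit 405) (nat_lit 350))) (XT.nd (nat_lit 78) (nat_lit 228) (nat_lit 0) (XT.lf (nat_lit 0) (nat_lit 4964540355) (nat_lit 304) (nat_lit 6507594209) (nat_lit 76) (nat_lit 5317748220) (nat_lit 142) (nat_lit 5) (nat_lit 146) (nat_lit 5) (nat_lit 143) (nat_lit 5) (nat_lit 446) (nat_lit 405) (nat_lit 349)) (XT.lf (nat_lit 0) (nat_lit 11645912480) (nat_lit 228) (nat_lit 1206470801) (nat_lit 304) (nat_lit 4446834350) (nat_lit 139) (nat_lit 5) (nat_lit 142) (nat_lit 5) (nat_lit 143) (nat_lit 5) (nat_lit 447) (nat_lit 405) (nat_lit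 348))))))))
noncomputable def xc57 : XT := (XT.nd (nat_lit 2028) (nat_lit 2736) (nat_lit 0) (XT.nd (nat_lit 1014) (nat_lit 2052) (nat_lit 0) (XT.nd (nat_lit 468) (nat_lit 1368) (nat_lit 0) (XT.nd (nat_lit 234) (nat_lit 836) (nat_lit 0) (XT.nd (nat_lit 78) (nat_lit 456) (nat_lit 0) (XT.lf (nat_lit 0) (nat_lit 3463284577) (nat_lit 304) (nat_lit 4788327348) (nat_lit 76) (nat_lit 9574645089) (nat_lit 135) (nat_lit 5) (nat_lit 139) (nat_lit 5) (nat_lit 136) (nat_lit 5) (nat_lit 448) (nat_lit 405) (nat_lit 347)) (XT.nd (nat_lit 78) (nat_lit 228) (nat_lit 0) (XT.lf (nat_lit 0) (nat_lit 11855289000) (nat_lit 304) (nat_lit 3868739172) (nat_lit 76) (nat_lit 2648951208) (nat_lit 132) (nat_lit 5) (nat_lit 136) (nat_lit 5) (nat_lit 133) (nat_lit 5) (nat_lit 449) (nat_lit 405) (nat_lit 346)) (XT.lf (nat_lit 0) (nat_lit 1918305270) (nat_lit 228) (nat_lit 2911034738) (nat_lit 76) (nat_lit 14110243678) (nat_lit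 129) (nat_lit 5) (nat_lit 132) (nat_lit 5) (nat_lit 130) (nat_lit 5) (nat_lit 450) (nat_lit 405) (nat_lit 345)))) (XT.nd (nat_lit 78) (nat_lit 608) (nat_lit 0) (XT.lf (nat_lit 0) (nat_lit 10862026807) (nat_lit 304) (nat_lit 1943084919) (nat_lit 76) (nat_lit 6720850867) (nat_lit 126) (nat_lit 5) (nat_lit 130) (nat_lit 5) (nat_lit 127) (nat_lit 5) (nat_lit 451) (nat_lit 405) (nat_lit 344)) (XT.nd (nat_lit 78) (nat_lit 380) (nat_lit 0) (XT.lf (nat_lit 0) (nat_lit 320366755) (nat_lit 228) (nat_lit 884549691) (nat_lit 76) (nat_lit 18930375828) (nat_lit 123) (nat_lit 5) (nat_lit 126) (nat_lit 5) (nat_lit 124) (nat_lit 5) (nat_lit 452) (nat_lit 405) (nat_lit 343)) (XT.lf (nat_lit 0) (nat_lit 126761672) (nat_lit 152) (nat_lit 9727391702) (nat_lit 228) (nat_lit 10909979802) (nat_lit 118) (nat_lit 5) (nat_lit 120) (nat_lit 5) (nat_lit 121) (nat_lit 5) (nat_lit 453) (nat_lit 405) (nat_lit 342))))) (XT.nd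 (nat_lit 234) (nat_lit 760) (nat_lit 0) (XT.nd (nat_lit 78) (nat_lit 380) (nat_lit 0) (XT.lf (nat_lit 0) (nat_lit 1264068122) (nat_lit 228) (nat_lit 18822583404) (nat_lit 304) (nat_lit 1331105601) (nat_lit 115) (nat_lit 5) (nat_lit 118) (nat_lit 5) (nat_lit 119) (nat_lit 5) (nat_lit 454) (nat_lit 405) (nat_lit 341)) (XT.nd (nat_lit 78) (nat_lit 152) (nat_lit 0) (XT.lf (nat_lit 0) (nat_lit 2363561440) (nat_lit 152) (nat_lit 6475831480) (nat_lit 228) (nat_lit 13253665200) (nat_lit 112) (nat_lit 5) (nat_lit 114) (nat_lit 5) (nat_lit 115) (nat_lit 5) (nat_lit 455) (nat_lit 405) (nat_lit 340)) (XT.lf (nat_lit 0) (nat_lit 3531950457) (nat_lit 152) (nat_lit 16213813341) (nat_lit 228) (nat_lit 3048320157) (nat_lit 110) (nat_lit 5) (nat_lit 112) (nat_lit 5) (nat_lit 113) (nat_lit 5) (nat_lit 456) (nat_lit 405) (nat_lit 339)))) (XT.nd (nat_lit 156) (nat_lit 380) (nat_lit 0) (XT.nd (nat_lit 78) (nat_lit 152)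 (nat_lit 0) (XT.lf (nat_lit 0) (nat_lit 4706017396) (nat_lit 152) (nat_lit 3077244208) (nat_lit 228) (nat_lit 15736722178) (nat_lit 107) (nat_lit 5) (nat_lit 109) (nat_lit 5) (nat_lit 110) (nat_lit 5) (nat_lit 457) (nat_lit 405) (nat_lit 338)) (XT.lf (nat_lit 0) (nat_lit 5890108777) (nat_lit 152) (nat_lit 13514796952) (nat_lit 228) (nat_lit 4867022909) (nat_lit 105) (nat_lit 5) (nat_lit 107) (nat_lit 5) (nat_lit 108) (nat_lit 5) (nat_lit 458) (nat_lit 405) (nat_lit 337))) (XT.nd (nat_lit 78) (nat_lit 152) (nat_lit 0) (XT.lf (nat_lit 0) (nat_lit 6670050807) (nat_lit 228) (nat_lit 17932969921) (nat_lit 76) (nat_lit 449014576) (nat_lit 102) (nat_lit 5) (nat_lit 105) (nat_lit 5) (nat_lit 103) (nat_lit 5) (nat_lit 459) (nat_lit 405) (nat_lit 336)) (XT.lf (nat_lit 0) (nat_lit 8303326560) (nat_lit 152) (nat_lit 10741466793) (nat_lit 228) (nat_lit 6814065262) (nat_lit 100) (nat_lit 5) (nat_lit 102) (nat_lit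 5) (nat_lit 103) (nat_lit 5) (nat_lit 460) (nat_lit 405) (nat_lit 335)))))) (XT.nd (nat_lit 468) (nat_lit 988) (nat_lit 0) (XT.nd (nat_lit 234) (nat_lit 456) (nat_lit 0) (XT.nd (nat_lit 78) (nat_lit 380) (nat_lit 0) (XT.lf (nat_lit 0) (nat_lit 5500437580) (nat_lit 228) (nat_lit 17161009152) (nat_lit 76) (nat_lit 4034872538) (nat_lit 97) (nat_lit 5) (nat_lit 100) (nat_lit 5) (nat_lit 98) (nat_lit 5) (nat_lit 461) (nat_lit 405) (nat_lit 334)) (XT.nd (nat_lit 78) (nat_lit 228) (nat_lit 0) (XT.lf (nat_lit 0) (nat_lit 10725622964) (nat_lit 152) (nat_lit 7914701440) (nat_lit 228) (nat_lit 8922788053) (nat_lit 95) (nat_lit 5) (nat_lit 97) (nat_lit 5) (nat_lit 98) (nat_lit 5) (nat_lit 462) (nat_lit 405) (nat_lit 333)) (XT.lf (nat_lit 0) (nat_lit 4212353942) (nat_lit 228) (nat_lit 16529046748) (nat_lit 76) (nat_lit 7720930079) (nat_lit 92) (nat_lit 5) (nat_lit 95) (nat_lit 5) (nat_lit 93) (nat_lit 5) (nat_lit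 463) (nat_lit 405) (nat_lit 332)))) (XT.nd (nat_lit 78) (nat_lit 304) (nat_lit 0) (XT.lf (nat_lit 0) (nat_lit 13097908095) (nat_lit 152) (nat_lit 5061531089) (nat_lit 228) (nat_lit 11234229670) (nat_lit 90) (nat_lit 5) (nat_lit 92) (nat_lit 5) (nat_lit 93) (nat_lit 5) (nat_lit 464) (nat_lit 405) (nat_lit 331)) (XT.nd (nat_lit 78) (nat_lit 152) (nat_lit 0) (XT.lf (nat_lit 0) (nat_lit 2765365366) (nat_lit 152) (nat_lit 16112770152) (nat_lit 76) (nat_lit 11481322014) (nat_lit 88) (nat_lit 5) (nat_lit 90) (nat_lit 5) (nat_lit 89) (nat_lit 5) (nat_lit 465) (nat_lit 405) (nat_lit 330)) (XT.lf (nat_lit 0) (nat_lit 15345207872) (nat_lit 152) (nat_lit 2216556223) (nat_lit 228) (nat_lit 13798560477) (nat_lit 86) (nat_lit 5) (nat_lit 88) (nat_lit 5) (nat_lit 89) (nat_lit 5) (nat_lit 466) (nat_lit 405) (nat_lit 329))))) (XT.nd (nat_lit 234) (nat_lit 608) (nat_lit 0) (XT.nd (nat_lit 78) (nat_lit 228) (nat_lit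 0) (XT.lf (nat_lit 0) (nat_lit 1109577948) (nat_lit 152) (nat_lit 16006097740) (nat_lit 76) (nat_lit 15282275021) (nat_lit 84) (nat_lit 5) (nat_lit 86) (nat_lit 5) (nat_lit 85) (nat_lit 5) (nat_lit 467) (nat_lit 405) (nat_lit 328)) (XT.nd (nat_lit 78) (nat_lit 76) (nat_lit 0) (XT.lf (nat_lit 0) (nat_lit 16802540850) (nat_lit 228) (nat_lit 16105941671) (nat_lit 76) (nat_lit 565133948) (nat_lit 82) (nat_lit 5) (nat_lit 85) (nat_lit 5) (nat_lit 83) (nat_lit 4) (nat_lit 468) (nat_lit 405) (nat_lit 327)) (XT.lf (nat_lit 0) (nat_lit 18255953444) (nat_lit 76) (nat_lit 15500428648) (nat_lit 152) (nat_lit 832397171) (nat_lit 81) (nat_lit 5) (nat_lit 82) (nat_lit 5) (nat_lit 83) (nat_lit 4) (nat_lit 469) (nat_lit 405) (nat_lit 326)))) (XT.nd (nat_lit 156) (nat_lit 304) (nat_lit 0) (XT.nd (nat_lit 78) (nat_lit 76) (nat_lit 0) (XT.lf (nat_lit 0) (nat_lit 15834372125) (nat_lit 228) (nat_lit 16711869451) (nat_lit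 76) (nat_lit 3198570253) (nat_lit 78) (nat_lit 5) (nat_lit 81) (nat_lit 5) (nat_lit 79) (nat_lit 4) (nat_lit 470) (nat_lit 405) (nat_lit 325)) (XT.lf (nat_lit 0) (nat_lit 19702847016) (nat_lit 76) (nat_lit 14093408857) (nat_lit 152) (nat_lit 3147773741) (nat_lit 77) (nat_lit 5) (nat_lit 78) (nat_lit 5) (nat_lit 79) (nat_lit 4) (nat_lit 471) (nat_lit 405) (nat_lit 324))) (XT.nd (nat_lit 78) (nat_lit 76) (nat_lit 0) (XT.lf (nat_lit 0) (nat_lit 14559061073) (nat_lit 228) (nat_lit 17968580428) (nat_lit 76) (nat_lit 5659757397) (nat_lit 74) (nat_lit 5) (nat_lit 77) (nat_lit 5) (nat_lit 75) (nat_lit 4) (nat_lit 472) (nat_lit 405) (nat_lit 323)) (XT.lf (nat_lit 0) (nat_lit 20583055628) (nat_lit 76) (nat_lit 12987741391) (nat_lit 152) (nat_lit 5906665345) (nat_lit 73) (nat_lit 5) (nat_lit 74) (nat_lit 5) (nat_lit 75) (nat_lit 4) (nat_lit 473) (nat_lit 405) (nat_lit 322))))))) (XT.nd (nat_lit 1014) (nat_lit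 1216) (nat_lit 0) (XT.nd (nat_lit 468) (nat_lit 684) (nat_lit 0) (XT.nd (nat_lit 234) (nat_lit 304) (nat_lit 0) (XT.nd (nat_lit 78) (nat_lit 304) (nat_lit 0) (XT.lf (nat_lit 0) (nat_lit 12882792572) (nat_lit 228) (nat_lit 20067194464) (nat_lit 76) (nat_lit 7865493341) (nat_lit 70) (nat_lit 5) (nat_lit 73) (nat_lit 5) (nat_lit 71) (nat_lit 4) (nat_lit 474) (nat_lit 405) (nat_lit 321)) (XT.nd (nat_lit 78) (nat_lit 228) (nat_lit 0) (XT.lf (nat_lit 0) (nat_lit 20699790167) (nat_lit 76) (nat_lit 12283561902) (nat_lit 152) (nat_lit 9220479585) (nat_lit 69) (nat_lit 5) (nat_lit 70) (nat_lit 5) (nat_lit 71) (nat_lit 4) (nat_lit 475) (nat_lit 405) (nat_lit 320)) (XT.lf (nat_lit 0) (nat_lit 10691640250) (nat_lit 228) (nat_lit 23239462118) (nat_lit 76) (nat_lit 9713458238) (nat_lit 66) (nat_lit 5) (nat_lit 69) (nat_lit 5) (nat_lit 67) (nat_lit 4) (nat_lit 476) (nat_lit 405) (nat_lit 319)))) (XT.nd (nat_lit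 78) (nat_lit 228) (nat_lit 0) (XT.lf (nat_lit 0) (nat_lit 19813224690) (nat_lit 76) (nat_lit 12102751779) (nat_lit 152) (nat_lit 13223392052) (nat_lit 65) (nat_lit 5) (nat_lit 66) (nat_lit 5) (nat_lit 67) (nat_lit 4) (nat_lit 477) (nat_lit 405) (nat_lit 318)) (XT.nd (nat_lit 78) (nat_lit 76) (nat_lit 0) (XT.lf (nat_lit 0) (nat_lit 7847808607) (nat_lit 152) (nat_lit 27765419757) (nat_lit 76) (nat_lit 11078486008) (nat_lit 63) (nat_lit 5) (nat_lit 65) (nat_lit 5) (nat_lit 64) (nat_lit 4) (nat_lit 478) (nat_lit 405) (nat_lit 317)) (XT.lf (nat_lit 0) (nat_lit 17632328618) (nat_lit 76) (nat_lit 12593094864) (nat_lit 152) (nat_lit 18076536612) (nat_lit 62) (nat_lit 5) (nat_lit 63) (nat_lit 5) (nat_lit 64) (nat_lit 4) (nat_lit 479) (nat_lit 405) (nat_lit 316))))) (XT.nd (nat_lit 234) (nat_lit 380) (nat_lit 0) (XT.nd (nat_lit 78) (nat_lit 152) (nat_lit 0) (XT.lf (nat_lit 0) (nat_lit 4185204465) (nat_lit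 152) (nat_lit 33982402876) (nat_lit 76) (nat_lit 11808172454) (nat_lit 60) (nat_lit 5) (nat_lit 62) (nat_lit 5) (nat_lit 61) (nat_lit 4) (nat_lit 480) (nat_lit 405) (nat_lit 315)) (XT.nd (nat_lit 78) (nat_lit 76) (nat_lit 0) (XT.lf (nat_lit 0) (nat_lit 13805246105) (nat_lit 76) (nat_lit 13933169805) (nat_lit 152) (nat_lit 23972938593) (nat_lit 59) (nat_lit 5) (nat_lit 60) (nat_lit 5) (nat_lit 61) (nat_lit 4) (nat_lit 481) (nat_lit 405) (nat_lit 314)) (XT.lf (nat_lit 0) (nat_lit 11216919323) (nat_lit 76) (nat_lit 41794868769) (nat_lit 76) (nat_lit 505645139) (nat_lit 58) (nat_lit 4) (nat_lit 59) (nat_lit 5) (nat_lit 59) (nat_lit 4) (nat_lit 482) (nat_lit 405) (nat_lit 313)))) (XT.nd (nat_lit 156) (nat_lit 152) (nat_lit 0) (XT.nd (nat_lit 78) (nat_lit 76) (nat_lit 0) (XT.lf (nat_lit 0) (nat_lit 7907970278) (nat_lit 76) (nat_lit 16338106191) (nat_lit 152) (nat_lit 31143318944) (nat_lit 56) (nat_lit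 5) (nat_lit 57) (nat_lit 5) (nat_lit 58) (nat_lit 4) (nat_lit 483) (nat_lit 405) (nat_lit 312)) (XT.lf (nat_lit 0) (nat_lit 4084399957) (nat_lit 76) (nat_lit 46691426022) (nat_lit 76) (nat_lit 6562452809) (nat_lit 55) (nat_lit 4) (nat_lit 56) (nat_lit 5) (nat_lit 56) (nat_lit 4) (nat_lit 484) (nat_lit 405) (nat_lit 311))) (XT.nd (nat_lit 78) (nat_lit 76) (nat_lit 0) (XT.lf (nat_lit 0) (nat_lit 19502840915) (nat_lit 152) (nat_lit 557880174) (nat_lit 76) (nat_lit 39299405784) (nat_lit 54) (nat_lit 5) (nat_lit 56) (nat_lit 5) (nat_lit 55) (nat_lit 4) (nat_lit 485) (nat_lit 405) (nat_lit 310)) (XT.lf (nat_lit 0) (nat_lit 47328210260) (nat_lit 152) (nat_lit 5804382429) (nat_lit 0) (nat_lit 8330749681) (nat_lit 53) (nat_lit 5) (nat_lit 55) (nat_lit 4) (nat_lit 53) (nat_lit 4) (nat_lit 486) (nat_lit 405) (nat_lit 309)))))) (XT.nd (nat_lit 546) (nat_lit 456) (nat_lit 0) (XT.nd (nat_lit 234) (nat_lit 380)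 (nat_lit 0) (XT.nd (nat_lit 78) (nat_lit 228) (nat_lit 0) (XT.lf (nat_lit 0) (nat_lit 13309019992) (nat_lit 152) (nat_lit 11997475157) (nat_lit 76) (nat_lit 38340898618) (nat_lit 51) (nat_lit 5) (nat_lit 53) (nat_lit 5) (nat_lit 52) (nat_lit 4) (nat_lit 487) (nat_lit 405) (nat_lit 308)) (XT.nd (nat_lit 78) (nat_lit 152) (nat_lit 0) (XT.lf (nat_lit 0) (nat_lit 42365391655) (nat_lit 152) (nat_lit 19084147947) (nat_lit 0) (nat_lit 4470939329) (nat_lit 50) (nat_lit 5) (nat_lit 52) (nat_lit 4) (nat_lit 50) (nat_lit 4) (nat_lit 488) (nat_lit 405) (nat_lit 307)) (XT.lf (nat_lit 0) (nat_lit 5235773941) (nat_lit 152) (nat_lit 27281087955) (nat_lit 76) (nat_lit 35766313430) (nat_lit 48) (nat_lit 5) (nat_lit 50) (nat_lit 5) (nat_lit 49) (nat_lit 4) (nat_lit 489) (nat_lit 405) (nat_lit 306)))) (XT.nd (nat_lit 156) (nat_lit 228) (nat_lit 0) (XT.nd (nat_lit 78) (nat_lit 76) (nat_lit 0) (XT.lf (nat_lit 0) (nat_lit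 34111632046) (nat_lit 76) (nat_lit 1374018851) (nat_lit 152) (nat_lit 35256160417) (nat_lit 47) (nat_lit 5) (nat_lit 48) (nat_lit 5) (nat_lit 49) (nat_lit 4) (nat_lit 490) (nat_lit 405) (nat_lit 305)) (XT.lf (nat_lit 0) (nat_lit 25985533977) (nat_lit 76) (nat_lit 42073302932) (nat_lit 76) (nat_lit 5240217902) (nat_lit 46) (nat_lit 4) (nat_lit 47) (nat_lit 5) (nat_lit 47) (nat_lit 4) (nat_lit 491) (nat_lit 405) (nat_lit 304))) (XT.nd (nat_lit 78) (nat_lit 76) (nat_lit 0) (XT.lf (nat_lit 0) (nat_lit 16531158966) (nat_lit 76) (nat_lit 9762949146) (nat_lit 152) (nat_lit 49666564866) (nat_lit 44) (nat_lit 5) (nat_lit 45) (nat_lit 5) (nat_lit 46) (nat_lit 4) (nat_lit 492) (nat_lit 405) (nat_lit 303)) (XT.lf (nat_lit 0) (nat_lit 5590092650) (nat_lit 76) (nat_lit 54462785348) (nat_lit 76) (nat_lit 18678254602) (nat_lit 43) (nat_lit 4) (nat_lit 44) (nat_lit 5) (nat_lit 44) (nat_lit 4) (nat_lit 493) (nat_lit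 405) (nat_lit 302))))) (XT.nd (nat_lit 234) (nat_lit 228) (nat_lit 0) (XT.nd (nat_lit 78) (nat_lit 152) (nat_lit 0) (XT.lf (nat_lit 0) (nat_lit 14283058050) (nat_lit 152) (nat_lit 6801190740) (nat_lit 76) (nat_lit 60531048725) (nat_lit 42) (nat_lit 5) (nat_lit 44) (nat_lit 5) (nat_lit 43) (nat_lit 4) (nat_lit 494) (nat_lit 405) (nat_lit 301)) (XT.nd (nat_lit 78) (nat_lit 76) (nat_lit 0) (XT.lf (nat_lit 0) (nat_lit 49244399052) (nat_lit 152) (nat_lit 20890798194) (nat_lit 0) (nat_lit 14480777832) (nat_lit 41) (nat_lit 5) (nat_lit 43) (nat_lit 4) (nat_lit 41) (nat_lit 4) (nat_lit 495) (nat_lit 405) (nat_lit 300)) (XT.lf (nat_lit 0) (nat_lit 50893717171) (nat_lit 76) (nat_lit 35811978310) (nat_lit 76) (nat_lit 1038434508) (nat_lit 40) (nat_lit 4) (nat_lit 41) (nat_lit 5) (nat_lit 41) (nat_lit 4) (nat_lit 496) (nat_lit 405) (nat_lit 299)))) (XT.nd (nat_lit 55380) (nat_lit 0) (nat_lit 27892) (XT.nd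 (nat_lit 78) (nat_lit 76) (nat_lit 0) (XT.lf (nat_lit 0) (nat_lit 34881913074) (nat_lit 152) (nat_lit 55008054660) (nat_lit 0) (nat_lit 1112016103) (nat_lit 38) (nat_lit 5) (nat_lit 40) (nat_lit 4) (nat_lit 38) (nat_lit 4) (nat_lit 497) (nat_lit 405) (nat_lit 298)) (XT.lf (nat_lit 0) (nat_lit 18790404124) (nat_lit 76) (nat_lit 54691746182) (nat_lit 76) (nat_lit 20913111274) (nat_lit 37) (nat_lit 4) (nat_lit 38) (nat_lit 5) (nat_lit 38) (nat_lit 4) (nat_lit 498) (nat_lit 405) (nat_lit 297))) (XT.nd (nat_lit 78) (nat_lit 684) (nat_lit 0) (XT.lf (nat_lit 0) (nat_lit 2571513842) (nat_lit 684) (nat_lit 428575376) (nat_lit 684) (nat_lit 428575376) (nat_lit 413) (nat_lit 3) (nat_lit 422) (nat_lit 3) (nat_lit 422) (nat_lit 5) (nat_lit 406) (nat_lit 406) (nat_lit 388)) (XT.lf (nat_lit 0) (nat_lit 1566562305) (nat_lit 684) (nat_lit 2051351927) (nat_lit 760) (nat_lit 3312260627) (nat_lit 404) (nat_lit 5)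 (nat_lit 413) (nat_lit 3) (nat_lit 414) (nat_lit 5) (nat_lit 407) (nat_lit 406) (nat_lit 387))))))))
noncomputable def xc58 : XT := (XT.nd (nat_lit 2028) (nat_lit 7600) (nat_lit 0) (XT.nd (nat_lit 1014) (nat_lit 7676) (nat_lit 0) (XT.nd (nat_lit 468) (nat_lit 6232) (nat_lit 0) (XT.nd (nat_lit 234) (nat_lit 760) (nat_lit 0) (XT.nd (nat_lit 78) (nat_lit 684) (nat_lit 0) (XT.lf (nat_lit 76) (nat_lit 3858910043) (nat_lit 0) (nat_lit 954868683) (nat_lit 760) (nat_lit 2197268299) (nat_lit 405) (nat_lit 5) (nat_lit 404) (nat_lit 5) (nat_lit 414) (nat_lit 5) (nat_lit 408) (nat_lit 406) (nat_lit 386)) (XT.nd (nat_lit 78) (nat_lit 0) (nat_lit 0) (XT.lf (nat_lit 0) (nat_lit 972500179) (nat_lit 760) (nat_lit 4173651680) (nat_lit 836) (nat_lit 1953496974) (nat_lit 395) (nat_lit 5) (nat_lit 405) (nat_lit 5) (nat_lit 406) (nat_lit 5) (nat_lit 409) (nat_lit 406) (nat_lit 385)) (XT.lf (nat_lit 76) (nat_lit 2074223174)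 (nat_lit 0) (nat_lit 2051523933) (nat_lit 836) (nat_lit 3070191170) (nat_lit 396) (nat_lit 5) (nat_lit 395) (nat_lit 5) (nat_lit 406) (nat_lit 5) (nat_lit 410) (nat_lit 406) (nat_lit 384)))) (XT.nd (nat_lit 78) (nat_lit 0) (nat_lit 0) (XT.lf (nat_lit 0) (nat_lit 19740001) (nat_lit 836) (nat_lit 5980170251) (nat_lit 912) (nat_lit 1300627610) (nat_lit 385) (nat_lit 5) (nat_lit 396) (nat_lit 5) (nat_lit 397) (nat_lit 5) (nat_lit 411) (nat_lit 406) (nat_lit 383)) (XT.nd (nat_lit 78) (nat_lit 0) (nat_lit 76) (XT.lf (nat_lit 76) (nat_lit 623387558) (nat_lit 0) (nat_lit 2480106868) (nat_lit 912) (nat_lit 4308896792) (nat_lit 386) (nat_lit 5) (nat_lit 385) (nat_lit 5) (nat_lit 397) (nat_lit 5) (nat_lit 412) (nat_lit 406) (nat_lit 382)) (XT.lf (nat_lit 76) (nat_lit 20617740) (nat_lit 0) (nat_lit 6225032479) (nat_lit 912) (nat_lit 1287080058) (nat_lit 387) (nat_lit 5) (nat_lit 386) (nat_lit 5) (nat_lit 398)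 (nat_lit 5) (nat_lit 413) (nat_lit 406) (nat_lit 381))))) (XT.nd (nat_lit 234) (nat_lit 4484) (nat_lit 0) (XT.nd (nat_lit 78) (nat_lit 912) (nat_lit 0) (XT.lf (nat_lit 0) (nat_lit 1780120179) (nat_lit 912) (nat_lit 509648095) (nat_lit 988) (nat_lit 5370859404) (nat_lit 374) (nat_lit 5) (nat_lit 386) (nat_lit 5) (nat_lit 387) (nat_lit 5) (nat_lit 414) (nat_lit 406) (nat_lit 380)) (XT.nd (nat_lit 78) (nat_lit 988) (nat_lit 0) (XT.lf (nat_lit 0) (nat_lit 4902335077) (nat_lit 912) (nat_lit 968196053) (nat_lit 76) (nat_lit 1926175439) (nat_lit 375) (nat_lit 5) (nat_lit 387) (nat_lit 5) (nat_lit 376) (nat_lit 5) (nat_lit 415) (nat_lit 406) (nat_lit 379)) (XT.lf (nat_lit 0) (nat_lit 177623851) (nat_lit 988) (nat_lit 1349997205) (nat_lit 76) (nat_lit 6413676959) (nat_lit 362) (nat_lit 5) (nat_lit 375) (nat_lit 5) (nat_lit 363) (nat_lit 5) (nat_lit 416) (nat_lit 406) (nat_lit 378)))) (XT.nd (nat_lit 156)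 (nat_lit 2432) (nat_lit 0) (XT.nd (nat_lit 78) (nat_lit 1064) (nat_lit 0) (XT.lf (nat_lit 0) (nat_lit 3300938532) (nat_lit 1064) (nat_lit 1689169789) (nat_lit 76) (nat_lit 3103438690) (nat_lit 349) (nat_lit 5) (nat_lit 363) (nat_lit 5) (nat_lit 350) (nat_lit 5) (nat_lit 417) (nat_lit 406) (nat_lit 377)) (XT.lf (nat_lit 0) (nat_lit 6311447829) (nat_lit 1064) (nat_lit 219843259) (nat_lit 1140) (nat_lit 1723605565) (nat_lit 335) (nat_lit 5) (nat_lit 349) (nat_lit 5) (nat_lit 350) (nat_lit 5) (nat_lit 418) (nat_lit 406) (nat_lit 376))) (XT.nd (nat_lit 78) (nat_lit 1216) (nat_lit 0) (XT.lf (nat_lit 0) (nat_lit 1459931065) (nat_lit 1216) (nat_lit 2157637335) (nat_lit 76) (nat_lit 4806616478) (nat_lit 319) (nat_lit 5) (nat_lit 335) (nat_lit 5) (nat_lit 320) (nat_lit 5) (nat_lit 419) (nat_lit 406) (nat_lit 375)) (XT.lf (nat_lit 0) (nat_lit 4736151162) (nat_lit 1292) (nat_lit 2306311100) (nat_lit 76) (nat_lit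 1559901331) (nat_lit 303) (nat_lit 5) (nat_lit 320) (nat_lit 5) (nat_lit 304) (nat_lit 5) (nat_lit 420) (nat_lit 406) (nat_lit 374)))))) (XT.nd (nat_lit 468) (nat_lit 3800) (nat_lit 0) (XT.nd (nat_lit 234) (nat_lit 1748) (nat_lit 0) (XT.nd (nat_lit 78) (nat_lit 1292) (nat_lit 0) (XT.lf (nat_lit 0) (nat_lit 6398524361) (nat_lit 836) (nat_lit 1773706761) (nat_lit 912) (nat_lit 617350701) (nat_lit 292) (nat_lit 5) (nat_lit 303) (nat_lit 5) (nat_lit 304) (nat_lit 5) (nat_lit 421) (nat_lit 406) (nat_lit 373)) (XT.nd (nat_lit 78) (nat_lit 608) (nat_lit 0) (XT.lf (nat_lit 0) (nat_lit 2743227550) (nat_lit 684) (nat_lit 2438256520) (nat_lit 76) (nat_lit 3803768510) (nat_lit 283) (nat_lit 5) (nat_lit 292) (nat_lit 5) (nat_lit 284) (nat_lit 5) (nat_lit 422) (nat_lit 406) (nat_lit 372)) (XT.lf (nat_lit 0) (nat_lit 6256148589) (nat_lit 684) (nat_lit 2413465689) (nat_lit 76) (nat_lit 521007381) (nat_lit 275)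 (nat_lit 5) (nat_lit 284) (nat_lit 5) (nat_lit 276) (nat_lit 5) (nat_lit 423) (nat_lit 406) (nat_lit 371)))) (XT.nd (nat_lit 78) (nat_lit 1140) (nat_lit 0) (XT.lf (nat_lit 0) (nat_lit 562156177) (nat_lit 608) (nat_lit 2344102531) (nat_lit 76) (nat_lit 6498828805) (nat_lit 267) (nat_lit 5) (nat_lit 275) (nat_lit 5) (nat_lit 268) (nat_lit 5) (nat_lit 424) (nat_lit 406) (nat_lit 370)) (XT.nd (nat_lit 78) (nat_lit 532) (nat_lit 0) (XT.lf (nat_lit 0) (nat_lit 4192856227) (nat_lit 684) (nat_lit 2232281618) (nat_lit 76) (nat_lit 3203678667) (nat_lit 259) (nat_lit 5) (nat_lit 268) (nat_lit 5) (nat_lit 260) (nat_lit 5) (nat_lit 425) (nat_lit 406) (nat_lit 369)) (XT.lf (nat_lit 0) (nat_lit 7817145515) (nat_lit 532) (nat_lit 212248043) (nat_lit 608) (nat_lit 1833618230) (nat_lit 252) (nat_lit 5) (nat_lit 259) (nat_lit 5) (nat_lit 260) (nat_lit 5) (nat_lit 426) (nat_lit 406) (nat_lit 368))))) (XT.nd (nat_lit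 234) (nat_lit 2280) (nat_lit 0) (XT.nd (nat_lit 78) (nat_lit 912) (nat_lit 0) (XT.lf (nat_lit 0) (nat_lit 1974251709) (nat_lit 608) (nat_lit 1833595028) (nat_lit 76) (nat_lit 6298613120) (nat_lit 244) (nat_lit 5) (nat_lit 252) (nat_lit 5) (nat_lit 245) (nat_lit 5) (nat_lit 427) (nat_lit 406) (nat_lit 367)) (XT.nd (nat_lit 78) (nat_lit 456) (nat_lit 0) (XT.lf (nat_lit 0) (nat_lit 5972875208) (nat_lit 532) (nat_lit 1562948483) (nat_lit 76) (nat_lit 2824571371) (nat_lit 238) (nat_lit 5) (nat_lit 245) (nat_lit 5) (nat_lit 239) (nat_lit 5) (nat_lit 428) (nat_lit 406) (nat_lit 366)) (XT.lf (nat_lit 0) (nat_lit 9403122532) (nat_lit 456) (nat_lit 821619118) (nat_lit 532) (nat_lit 400693484) (nat_lit 232) (nat_lit 5) (nat_lit 238) (nat_lit 5) (nat_lit 239) (nat_lit 5) (nat_lit 429) (nat_lit 406) (nat_lit 365)))) (XT.nd (nat_lit 156) (nat_lit 1292) (nat_lit 0) (XT.nd (nat_lit 78) (nat_lit 456) (nat_lit 0)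 (XT.lf (nat_lit 0) (nat_lit 3794013856) (nat_lit 532) (nat_lit 868027873) (nat_lit 76) (nat_lit 6238128494) (nat_lit 225) (nat_lit 5) (nat_lit 232) (nat_lit 5) (nat_lit 226) (nat_lit 5) (nat_lit 430) (nat_lit 406) (nat_lit 364)) (XT.lf (nat_lit 0) (nat_lit 8250385688) (nat_lit 532) (nat_lit 439065479) (nat_lit 76) (nat_lit 2497271967) (nat_lit 219) (nat_lit 5) (nat_lit 226) (nat_lit 5) (nat_lit 220) (nat_lit 5) (nat_lit 431) (nat_lit 406) (nat_lit 363))) (XT.nd (nat_lit 78) (nat_lit 380) (nat_lit 0) (XT.lf (nat_lit 0) (nat_lit 43382700) (nat_lit 456) (nat_lit 1452773045) (nat_lit 532) (nat_lit 9988568546) (nat_lit 207) (nat_lit 5) (nat_lit 213) (nat_lit 5) (nat_lit 214) (nat_lit 5) (nat_lit 432) (nat_lit 406) (nat_lit 362)) (XT.lf (nat_lit 0) (nat_lit 561923399) (nat_lit 380) (nat_lit 5633211413) (nat_lit 456) (nat_lit 5598456624) (nat_lit 202) (nat_lit 5) (nat_lit 207) (nat_lit 5) (nat_lit 208)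 (nat_lit 5) (nat_lit 433) (nat_lit 406) (nat_lit 361))))))) (XT.nd (nat_lit 1014) (nat_lit 3344) (nat_lit 0) (XT.nd (nat_lit 468) (nat_lit 2128) (nat_lit 0) (XT.nd (nat_lit 234) (nat_lit 988) (nat_lit 0) (XT.nd (nat_lit 78) (nat_lit 760) (nat_lit 0) (XT.lf (nat_lit 0) (nat_lit 1165289363) (nat_lit 380) (nat_lit 10045428010) (nat_lit 456) (nat_lit 904740440) (nat_lit 197) (nat_lit 5) (nat_lit 202) (nat_lit 5) (nat_lit 203) (nat_lit 5) (nat_lit 434) (nat_lit 406) (nat_lit 360)) (XT.nd (nat_lit 78) (nat_lit 380) (nat_lit 0) (XT.lf (nat_lit 0) (nat_lit 1794264717) (nat_lit 304) (nat_lit 2261525432) (nat_lit 380) (nat_lit 8393152774) (nat_lit 192) (nat_lit 5) (nat_lit 196) (nat_lit 5) (nat_lit 197) (nat_lit 5) (nat_lit 435) (nat_lit 406) (nat_lit 359)) (XT.lf (nat_lit 0) (nat_lit 2480577150) (nat_lit 380) (nat_lit 6882009687) (nat_lit 456) (nat_lit 3432743039) (nat_lit 187) (nat_lit 5) (nat_lit 192)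 (nat_lit 5) (nat_lit 193) (nat_lit 5) (nat_lit 436) (nat_lit 406) (nat_lit 358)))) (XT.nd (nat_lit 78) (nat_lit 608) (nat_lit 0) (XT.lf (nat_lit 0) (nat_lit 1843791006) (nat_lit 380) (nat_lit 9915673972) (nat_lit 76) (nat_lit 1395981000) (nat_lit 182) (nat_lit 5) (nat_lit 187) (nat_lit 5) (nat_lit 183) (nat_lit 5) (nat_lit 437) (nat_lit 406) (nat_lit 357)) (XT.nd (nat_lit 78) (nat_lit 304) (nat_lit 0) (XT.lf (nat_lit 0) (nat_lit 4023602707) (nat_lit 304) (nat_lit 3432077147) (nat_lit 380) (nat_lit 6072597001) (nat_lit 178) (nat_lit 5) (nat_lit 182) (nat_lit 5) (nat_lit 183) (nat_lit 5) (nat_lit 438) (nat_lit 406) (nat_lit 356)) (XT.lf (nat_lit 0) (nat_lit 4887983863) (nat_lit 304) (nat_lit 8589985256) (nat_lit 380) (nat_lit 437890049) (nat_lit 174) (nat_lit 5) (nat_lit 178) (nat_lit 5) (nat_lit 179) (nat_lit 5) (nat_lit 439) (nat_lit 406) (nat_lit 355))))) (XT.nd (nat_lit 234) (nat_lit 1064) (nat_lit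 0) (XT.nd (nat_lit 78) (nat_lit 684) (nat_lit 0) (XT.lf (nat_lit 0) (nat_lit 5494216265) (nat_lit 380) (nat_lit 8520762661) (nat_lit 76) (nat_lit 302588426) (nat_lit 169) (nat_lit 5) (nat_lit 174) (nat_lit 5) (nat_lit 170) (nat_lit 5) (nat_lit 440) (nat_lit 406) (nat_lit 354)) (XT.nd (nat_lit 78) (nat_lit 380) (nat_lit 0) (XT.lf (nat_lit 0) (nat_lit 6751746001) (nat_lit 304) (nat_lit 5140084599) (nat_lit 380) (nat_lit 2842065094) (nat_lit 165) (nat_lit 5) (nat_lit 169) (nat_lit 5) (nat_lit 170) (nat_lit 5) (nat_lit 441) (nat_lit 406) (nat_lit 353)) (XT.lf (nat_lit 0) (nat_lit 3510699678) (nat_lit 380) (nat_lit 7393924928) (nat_lit 76) (nat_lit 4261242400) (nat_lit 160) (nat_lit 5) (nat_lit 165) (nat_lit 5) (nat_lit 161) (nat_lit 5) (nat_lit 442) (nat_lit 406) (nat_lit 352)))) (XT.nd (nat_lit 156) (nat_lit 456) (nat_lit 0) (XT.nd (nat_lit 78) (nat_lit 380) (nat_lit 0) (XT.lf (nat_lit 0) (nat_lit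 8855164220) (nat_lit 228) (nat_lit 1423583176) (nat_lit 304) (nat_lit 5335155778) (nat_lit 157) (nat_lit 5) (nat_lit 160) (nat_lit 5) (nat_lit 161) (nat_lit 5) (nat_lit 443) (nat_lit 406) (nat_lit 351)) (XT.lf (nat_lit 0) (nat_lit 1470087601) (nat_lit 380) (nat_lit 6089868845) (nat_lit 76) (nat_lit 8518174012) (nat_lit 152) (nat_lit 5) (nat_lit 157) (nat_lit 5) (nat_lit 153) (nat_lit 5) (nat_lit 444) (nat_lit 406) (nat_lit 350))) (XT.nd (nat_lit 78) (nat_lit 228) (nat_lit 0) (XT.lf (nat_lit 0) (nat_lit 8662390703) (nat_lit 304) (nat_lit 5381476219) (nat_lit 76) (nat_lit 2515406161) (nat_lit 149) (nat_lit 5) (nat_lit 153) (nat_lit 5) (nat_lit 150) (nat_lit 5) (nat_lit 445) (nat_lit 406) (nat_lit 349)) (XT.lf (nat_lit 0) (nat_lit 12443881506) (nat_lit 228) (nat_lit 3970441835) (nat_lit 304) (nat_lit 644151713) (nat_lit 146) (nat_lit 5) (nat_lit 149) (nat_lit 5) (nat_lit 150) (nat_lit 5) (nat_lit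 446) (nat_lit 406) (nat_lit 348)))))) (XT.nd (nat_lit 546) (nat_lit 1368) (nat_lit 0) (XT.nd (nat_lit 234) (nat_lit 1140) (nat_lit 0) (XT.nd (nat_lit 78) (nat_lit 532) (nat_lit 0) (XT.lf (nat_lit 0) (nat_lit 7031610309) (nat_lit 304) (nat_lit 3842634147) (nat_lit 76) (nat_lit 6700491917) (nat_lit 142) (nat_lit 5) (nat_lit 146) (nat_lit 5) (nat_lit 143) (nat_lit 5) (nat_lit 447) (nat_lit 406) (nat_lit 347)) (XT.nd (nat_lit 78) (nat_lit 304) (nat_lit 0) (XT.lf (nat_lit 0) (nat_lit 15132830388) (nat_lit 228) (nat_lit 122324431) (nat_lit 304) (nat_lit 2856147445) (nat_lit 139) (nat_lit 5) (nat_lit 142) (nat_lit 5) (nat_lit 143) (nat_lit 5) (nat_lit 448) (nat_lit 406) (nat_lit 346)) (XT.lf (nat_lit 0) (nat_lit 5367813962) (nat_lit 304) (nat_lit 2131183439) (nat_lit 76) (nat_lit 11166565233) (nat_lit 135) (nat_lit 5) (nat_lit 139) (nat_lit 5) (nat_lit 136) (nat_lit 5) (nat_lit 449) (nat_lit 406) (nat_lit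 345)))) (XT.nd (nat_lit 156) (nat_lit 684) (nat_lit 0) (XT.nd (nat_lit 78) (nat_lit 228) (nat_lit 0) (XT.lf (nat_lit 0) (nat_lit 14134953011) (nat_lit 304) (nat_lit 1209238099) (nat_lit 76) (nat_lit 3896767132) (nat_lit 132) (nat_lit 5) (nat_lit 136) (nat_lit 5) (nat_lit 133) (nat_lit 5) (nat_lit 450) (nat_lit 406) (nat_lit 344)) (XT.lf (nat_lit 0) (nat_lit 3663658949) (nat_lit 228) (nat_lit 252541915) (nat_lit 76) (nat_lit 15920820489) (nat_lit 129) (nat_lit 5) (nat_lit 132) (nat_lit 5) (nat_lit 130) (nat_lit 5) (nat_lit 451) (nat_lit 406) (nat_lit 343))) (XT.nd (nat_lit 78) (nat_lit 304) (nat_lit 0) (XT.lf (nat_lit 0) (nat_lit 734907056) (nat_lit 152) (nat_lit 12285190242) (nat_lit 228) (nat_lit 7433658765) (nat_lit 124) (nat_lit 5) (nat_lit 126) (nat_lit 5) (nat_lit 127) (nat_lit 5) (nat_lit 452) (nat_lit 406) (nat_lit 342)) (XT.lf (nat_lit 0) (nat_lit 1819749200) (nat_lit 228) (nat_lit 106713039)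 (nat_lit 304) (nat_lit 19167840939) (nat_lit 120) (nat_lit 5) (nat_lit 123) (nat_lit 5) (nat_lit 124) (nat_lit 5) (nat_lit 453) (nat_lit 406) (nat_lit 341))))) (XT.nd (nat_lit 234) (nat_lit 760) (nat_lit 0) (XT.nd (nat_lit 78) (nat_lit 456) (nat_lit 0) (XT.lf (nat_lit 0) (nat_lit 2856540918) (nat_lit 152) (nat_lit 9050222062) (nat_lit 228) (nat_lit 9848730848) (nat_lit 118) (nat_lit 5) (nat_lit 120) (nat_lit 5) (nat_lit 121) (nat_lit 5) (nat_lit 454) (nat_lit 406) (nat_lit 340)) (XT.nd (nat_lit 78) (nat_lit 152) (nat_lit 0) (XT.lf (nat_lit 0) (nat_lit 166762746) (nat_lit 304) (nat_lit 18437287322) (nat_lit 76) (nat_lit 3838838204) (nat_lit 114) (nat_lit 5) (nat_lit 118) (nat_lit 5) (nat_lit 115) (nat_lit 5) (nat_lit 455) (nat_lit 406) (nat_lit 339)) (XT.lf (nat_lit 0) (nat_lit 5114690208) (nat_lit 152) (nat_lit 5655934490) (nat_lit 228) (nat_lit 12382365359) (nat_lit 112) (nat_lit 5) (nat_lit 114)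 (nat_lit 5) (nat_lit 115) (nat_lit 5) (nat_lit 456) (nat_lit 406) (nat_lit 338)))) (XT.nd (nat_lit 156) (nat_lit 380) (nat_lit 0) (XT.nd (nat_lit 78) (nat_lit 228) (nat_lit 0) (XT.lf (nat_lit 0) (nat_lit 6298786027) (nat_lit 152) (nat_lit 15887980120) (nat_lit 228) (nat_lit 1703369529) (nat_lit 110) (nat_lit 5) (nat_lit 112) (nat_lit 5) (nat_lit 113) (nat_lit 5) (nat_lit 457) (nat_lit 406) (nat_lit 337)) (XT.lf (nat_lit 0) (nat_lit 7485727831) (nat_lit 152) (nat_lit 2109391102) (nat_lit 228) (nat_lit 15058145251) (nat_lit 107) (nat_lit 5) (nat_lit 109) (nat_lit 5) (nat_lit 110) (nat_lit 5) (nat_lit 458) (nat_lit 406) (nat_lit 336))) (XT.nd (nat_lit 78) (nat_lit 228) (nat_lit 0) (XT.lf (nat_lit 0) (nat_lit 8687109521) (nat_lit 152) (nat_lit 13077313071) (nat_lit 228) (nat_lit 3679388180) (nat_lit 105) (nat_lit 5) (nat_lit 107) (nat_lit 5) (nat_lit 108) (nat_lit 5) (nat_lit 459) (nat_lit 406) (nat_lit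 335)) (XT.lf (nat_lit 0) (nat_lit 8373985126) (nat_lit 228) (nat_lit 16341424611) (nat_lit 76) (nat_lit 1548080952) (nat_lit 102) (nat_lit 5) (nat_lit 105) (nat_lit 5) (nat_lit 103) (nat_lit 5) (nat_lit 460) (nat_lit 406) (nat_lit 334))))))))
noncomputable def xc59 : XT := (XT.nd (nat_lit 2028) (nat_lit 1140) (nat_lit 0) (XT.nd (nat_lit 1014) (nat_lit 1596) (nat_lit 0) (XT.nd (nat_lit 468) (nat_lit 1064) (nat_lit 0) (XT.nd (nat_lit 234) (nat_lit 532) (nat_lit 0) (XT.nd (nat_lit 78) (nat_lit 380) (nat_lit 0) (XT.lf (nat_lit 0) (nat_lit 11135363118) (nat_lit 152) (nat_lit 10190075460) (nat_lit 228) (nat_lit 5786478966) (nat_lit 100) (nat_lit 5) (nat_lit 102) (nat_lit 5) (nat_lit 103) (nat_lit 5) (nat_lit 461) (nat_lit 406) (nat_lit 333)) (XT.nd (nat_lit 78) (nat_lit 152) (nat_lit 0) (XT.lf (nat_lit 0) (nat_lit 7086294306) (nat_lit 228) (nat_lit 15616773193) (nat_lit 76) (nat_lit 5288713253) (nat_lit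 97) (nat_lit 5) (nat_lit 100) (nat_lit 5) (nat_lit 98) (nat_lit 5) (nat_lit 462) (nat_lit 406) (nat_lit 332)) (XT.lf (nat_lit 0) (nat_lit 13595329471) (nat_lit 152) (nat_lit 7247855605) (nat_lit 228) (nat_lit 8059929636) (nat_lit 95) (nat_lit 5) (nat_lit 97) (nat_lit 5) (nat_lit 98) (nat_lit 5) (nat_lit 463) (nat_lit 406) (nat_lit 331)))) (XT.nd (nat_lit 78) (nat_lit 304) (nat_lit 0) (XT.lf (nat_lit 0) (nat_lit 5677399937) (nat_lit 228) (nat_lit 15036831073) (nat_lit 76) (nat_lit 9133557527) (nat_lit 92) (nat_lit 5) (nat_lit 95) (nat_lit 5) (nat_lit 93) (nat_lit 5) (nat_lit 464) (nat_lit 406) (nat_lit 330)) (XT.nd (nat_lit 78) (nat_lit 152) (nat_lit 0) (XT.lf (nat_lit 0) (nat_lit 16005007360) (nat_lit 152) (nat_lit 4278746963) (nat_lit 228) (nat_lit 10543082992) (nat_lit 90) (nat_lit 5) (nat_lit 92) (nat_lit 5) (nat_lit 93) (nat_lit 5) (nat_lit 465) (nat_lit 406) (nat_lit 329)) (XT.lf (nat_lit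 0) (nat_lit 4104612963) (nat_lit 152) (nat_lit 14681042715) (nat_lit 76) (nat_lit 13055722524) (nat_lit 88) (nat_lit 5) (nat_lit 90) (nat_lit 5) (nat_lit 89) (nat_lit 5) (nat_lit 466) (nat_lit 406) (nat_lit 328))))) (XT.nd (nat_lit 234) (nat_lit 608) (nat_lit 0) (XT.nd (nat_lit 78) (nat_lit 304) (nat_lit 0) (XT.lf (nat_lit 0) (nat_lit 18285700565) (nat_lit 152) (nat_lit 1318832010) (nat_lit 228) (nat_lit 13288846078) (nat_lit 86) (nat_lit 5) (nat_lit 88) (nat_lit 5) (nat_lit 89) (nat_lit 5) (nat_lit 467) (nat_lit 406) (nat_lit 327)) (XT.nd (nat_lit 78) (nat_lit 152) (nat_lit 0) (XT.lf (nat_lit 0) (nat_lit 2315334187) (nat_lit 152) (nat_lit 14648009673) (nat_lit 76) (nat_lit 17019975963) (nat_lit 84) (nat_lit 5) (nat_lit 86) (nat_lit 5) (nat_lit 85) (nat_lit 5) (nat_lit 468) (nat_lit 406) (nat_lit 326)) (XT.lf (nat_lit 0) (nat_lit 18767751886) (nat_lit 228) (nat_lit 14790655599) (nat_lit 76) (nat_lit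 1555118143) (nat_lit 82) (nat_lit 5) (nat_lit 85) (nat_lit 5) (nat_lit 83) (nat_lit 4) (nat_lit 469) (nat_lit 406) (nat_lit 325)))) (XT.nd (nat_lit 156) (nat_lit 304) (nat_lit 0) (XT.nd (nat_lit 78) (nat_lit 152) (nat_lit 0) (XT.lf (nat_lit 0) (nat_lit 245169697) (nat_lit 152) (nat_lit 15059316179) (nat_lit 76) (nat_lit 20980902751) (nat_lit 80) (nat_lit 5) (nat_lit 82) (nat_lit 5) (nat_lit 81) (nat_lit 5) (nat_lit 470) (nat_lit 406) (nat_lit 324)) (XT.lf (nat_lit 0) (nat_lit 17704337944) (nat_lit 228) (nat_lit 15502457774) (nat_lit 76) (nat_lit 4292892428) (nat_lit 78) (nat_lit 5) (nat_lit 81) (nat_lit 5) (nat_lit 79) (nat_lit 4) (nat_lit 471) (nat_lit 406) (nat_lit 323))) (XT.nd (nat_lit 78) (nat_lit 228) (nat_lit 0) (XT.lf (nat_lit 0) (nat_lit 22674374854) (nat_lit 76) (nat_lit 13857690272) (nat_lit 152) (nat_lit 2227770019) (nat_lit 77) (nat_lit 5) (nat_lit 78) (nat_lit 5) (nat_lit 79) (nat_lit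 4) (nat_lit 472) (nat_lit 406) (nat_lit 322)) (XT.lf (nat_lit 0) (nat_lit 16320715299) (nat_lit 228) (nat_lit 16895260262) (nat_lit 76) (nat_lit 6849767400) (nat_lit 74) (nat_lit 5) (nat_lit 77) (nat_lit 5) (nat_lit 75) (nat_lit 4) (nat_lit 473) (nat_lit 406) (nat_lit 321)))))) (XT.nd (nat_lit 468) (nat_lit 760) (nat_lit 0) (XT.nd (nat_lit 234) (nat_lit 456) (nat_lit 0) (XT.nd (nat_lit 78) (nat_lit 304) (nat_lit 0) (XT.lf (nat_lit 0) (nat_lit 23527437802) (nat_lit 76) (nat_lit 12724786732) (nat_lit 152) (nat_lit 5169010179) (nat_lit 73) (nat_lit 5) (nat_lit 74) (nat_lit 5) (nat_lit 75) (nat_lit 4) (nat_lit 474) (nat_lit 406) (nat_lit 320)) (XT.nd (nat_lit 78) (nat_lit 76) (nat_lit 0) (XT.lf (nat_lit 0) (nat_lit 14518229143) (nat_lit 228) (nat_lit 19169763295) (nat_lit 76) (nat_lit 9138509976) (nat_lit 70) (nat_lit 5) (nat_lit 73) (nat_lit 5) (nat_lit 71) (nat_lit 4) (nat_lit 475) (nat_lit 406)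 (nat_lit 319)) (XT.lf (nat_lit 0) (nat_lit 23581084779) (nat_lit 76) (nat_lit 12013275035) (nat_lit 152) (nat_lit 8690795769) (nat_lit 69) (nat_lit 5) (nat_lit 70) (nat_lit 5) (nat_lit 71) (nat_lit 4) (nat_lit 476) (nat_lit 406) (nat_lit 318)))) (XT.nd (nat_lit 78) (nat_lit 228) (nat_lit 0) (XT.lf (nat_lit 0) (nat_lit 12177120932) (nat_lit 228) (nat_lit 22569335966) (nat_lit 76) (nat_lit 11051793266) (nat_lit 66) (nat_lit 5) (nat_lit 69) (nat_lit 5) (nat_lit 67) (nat_lit 4) (nat_lit 477) (nat_lit 406) (nat_lit 317)) (XT.nd (nat_lit 78) (nat_lit 152) (nat_lit 0) (XT.lf (nat_lit 0) (nat_lit 22583468426) (nat_lit 76) (nat_lit 11851031082) (nat_lit 152) (nat_lit 12934144747) (nat_lit 65) (nat_lit 5) (nat_lit 66) (nat_lit 5) (nat_lit 67) (nat_lit 4) (nat_lit 478) (nat_lit 406) (nat_lit 316)) (XT.lf (nat_lit 0) (nat_lit 9152581237) (nat_lit 152) (nat_lit 27388052944) (nat_lit 76) (nat_lit 12458284305)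 (nat_lit 63) (nat_lit 5) (nat_lit 65) (nat_lit 5) (nat_lit 64) (nat_lit 4) (nat_lit 479) (nat_lit 406) (nat_lit 315))))) (XT.nd (nat_lit 234) (nat_lit 456) (nat_lit 0) (XT.nd (nat_lit 78) (nat_lit 228) (nat_lit 0) (XT.lf (nat_lit 0) (nat_lit 20228971197) (nat_lit 76) (nat_lit 12393144769) (nat_lit 152) (nat_lit 18068369839) (nat_lit 62) (nat_lit 5) (nat_lit 63) (nat_lit 5) (nat_lit 64) (nat_lit 4) (nat_lit 480) (nat_lit 406) (nat_lit 314)) (XT.nd (nat_lit 78) (nat_lit 76) (nat_lit 0) (XT.lf (nat_lit 0) (nat_lit 5270098538) (nat_lit 152) (nat_lit 33980157466) (nat_lit 76) (nat_lit 13198034838) (nat_lit 60) (nat_lit 5) (nat_lit 62) (nat_lit 5) (nat_lit 61) (nat_lit 4) (nat_lit 481) (nat_lit 406) (nat_lit 313)) (XT.lf (nat_lit 0) (nat_lit 16148104662) (nat_lit 76) (nat_lit 13827054809) (nat_lit 152) (nat_lit 24296259571) (nat_lit 59) (nat_lit 5) (nat_lit 60) (nat_lit 5) (nat_lit 61) (nat_lit 4) (nat_lit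 482) (nat_lit 406) (nat_lit 312)))) (XT.nd (nat_lit 156) (nat_lit 228) (nat_lit 0) (XT.nd (nat_lit 78) (nat_lit 76) (nat_lit 0) (XT.lf (nat_lit 0) (nat_lit 319982227) (nat_lit 152) (nat_lit 42771198060) (nat_lit 76) (nat_lit 13077053371) (nat_lit 57) (nat_lit 5) (nat_lit 59) (nat_lit 5) (nat_lit 58) (nat_lit 4) (nat_lit 483) (nat_lit 406) (nat_lit 311)) (XT.lf (nat_lit 0) (nat_lit 9895618310) (nat_lit 76) (nat_lit 16378590820) (nat_lit 152) (nat_lit 31860173701) (nat_lit 56) (nat_lit 5) (nat_lit 57) (nat_lit 5) (nat_lit 58) (nat_lit 4) (nat_lit 484) (nat_lit 406) (nat_lit 310))) (XT.nd (nat_lit 78) (nat_lit 152) (nat_lit 0) (XT.lf (nat_lit 0) (nat_lit 5851759038) (nat_lit 76) (nat_lit 48261971963) (nat_lit 76) (nat_lit 6067481184) (nat_lit 55) (nat_lit 4) (nat_lit 56) (nat_lit 5) (nat_lit 56) (nat_lit 4) (nat_lit 485) (nat_lit 406) (nat_lit 309)) (XT.lf (nat_lit 0) (nat_lit 936507635) (nat_lit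 76) (nat_lit 20319080212) (nat_lit 152) (nat_lit 41049210630) (nat_lit 53) (nat_lit 5) (nat_lit 54) (nat_lit 5) (nat_lit 55) (nat_lit 4) (nat_lit 486) (nat_lit 406) (nat_lit 308))))))) (XT.nd (nat_lit 56316) (nat_lit 0) (nat_lit 19304) (XT.nd (nat_lit 468) (nat_lit 608) (nat_lit 0) (XT.nd (nat_lit 234) (nat_lit 304) (nat_lit 0) (XT.nd (nat_lit 78) (nat_lit 228) (nat_lit 0) (XT.lf (nat_lit 0) (nat_lit 50447537841) (nat_lit 152) (nat_lit 4618190360) (nat_lit 0) (nat_lit 9448187496) (nat_lit 53) (nat_lit 5) (nat_lit 55) (nat_lit 4) (nat_lit 53) (nat_lit 4) (nat_lit 487) (nat_lit 406) (nat_lit 307)) (XT.nd (nat_lit 78) (nat_lit 76) (nat_lit 0) (XT.lf (nat_lit 0) (nat_lit 14712562212) (nat_lit 152) (nat_lit 11148563485) (nat_lit 76) (nat_lit 40946489214) (nat_lit 51) (nat_lit 5) (nat_lit 53) (nat_lit 5) (nat_lit 52) (nat_lit 4) (nat_lit 488) (nat_lit 406) (nat_lit 306)) (XT.lf (nat_lit 0) (nat_lit 45206772913)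 (nat_lit 152) (nat_lit 18616239632) (nat_lit 0) (nat_lit 5371791453) (nat_lit 50) (nat_lit 5) (nat_lit 52) (nat_lit 4) (nat_lit 50) (nat_lit 4) (nat_lit 489) (nat_lit 406) (nat_lit 305)))) (XT.nd (nat_lit 78) (nat_lit 152) (nat_lit 0) (XT.lf (nat_lit 0) (nat_lit 6206474040) (nat_lit 152) (nat_lit 27249677462) (nat_lit 76) (nat_lit 38219910135) (nat_lit 48) (nat_lit 5) (nat_lit 50) (nat_lit 5) (nat_lit 49) (nat_lit 4) (nat_lit 490) (nat_lit 406) (nat_lit 304)) (XT.nd (nat_lit 78) (nat_lit 76) (nat_lit 0) (XT.lf (nat_lit 0) (nat_lit 37172677818) (nat_lit 76) (nat_lit 775438891) (nat_lit 152) (nat_lit 36310134803) (nat_lit 47) (nat_lit 5) (nat_lit 48) (nat_lit 5) (nat_lit 49) (nat_lit 4) (nat_lit 491) (nat_lit 406) (nat_lit 303)) (XT.lf (nat_lit 0) (nat_lit 28615248719) (nat_lit 76) (nat_lit 43520840524) (nat_lit 76) (nat_lit 4807684356) (nat_lit 46) (nat_lit 4) (nat_lit 47) (nat_lit 5) (nat_lit 47)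 (nat_lit 4) (nat_lit 492) (nat_lit 406) (nat_lit 302))))) (XT.nd (nat_lit 234) (nat_lit 304) (nat_lit 0) (XT.nd (nat_lit 78) (nat_lit 152) (nat_lit 0) (XT.lf (nat_lit 0) (nat_lit 18663187160) (nat_lit 76) (nat_lit 9606738553) (nat_lit 152) (nat_lit 51468943260) (nat_lit 44) (nat_lit 5) (nat_lit 45) (nat_lit 5) (nat_lit 46) (nat_lit 4) (nat_lit 493) (nat_lit 406) (nat_lit 301)) (XT.nd (nat_lit 78) (nat_lit 76) (nat_lit 0) (XT.lf (nat_lit 0) (nat_lit 7150899082) (nat_lit 76) (nat_lit 56552469148) (nat_lit 76) (nat_lit 18944881526) (nat_lit 43) (nat_lit 4) (nat_lit 44) (nat_lit 5) (nat_lit 44) (nat_lit 4) (nat_lit 494) (nat_lit 406) (nat_lit 300)) (XT.lf (nat_lit 0) (nat_lit 15620320149) (nat_lit 152) (nat_lit 5908557978) (nat_lit 76) (nat_lit 64148487212) (nat_lit 42) (nat_lit 5) (nat_lit 44) (nat_lit 5) (nat_lit 43) (nat_lit 4) (nat_lit 495) (nat_lit 406) (nat_lit 299)))) (XT.nd (nat_lit 156) (nat_lit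 152) (nat_lit 0) (XT.nd (nat_lit 78) (nat_lit 76) (nat_lit 0) (XT.lf (nat_lit 0) (nat_lit 52317260677) (nat_lit 152) (nat_lit 20725523284) (nat_lit 0) (nat_lit 15785667024) (nat_lit 41) (nat_lit 5) (nat_lit 43) (nat_lit 4) (nat_lit 41) (nat_lit 4) (nat_lit 496) (nat_lit 406) (nat_lit 298)) (XT.lf (nat_lit 0) (nat_lit 54613538751) (nat_lit 76) (nat_lit 37020301126) (nat_lit 76) (nat_lit 479707399) (nat_lit 40) (nat_lit 4) (nat_lit 41) (nat_lit 5) (nat_lit 41) (nat_lit 4) (nat_lit 497) (nat_lit 406) (nat_lit 297))) (XT.nd (nat_lit 55380) (nat_lit 0) (nat_lit 27816) (XT.lf (nat_lit 0) (nat_lit 37212809879) (nat_lit 152) (nat_lit 56593482503) (nat_lit 0) (nat_lit 1728183445) (nat_lit 38) (nat_lit 5) (nat_lit 40) (nat_lit 4) (nat_lit 38) (nat_lit 4) (nat_lit 498) (nat_lit 406) (nat_lit 296)) (XT.lf (nat_lit 0) (nat_lit 1165859915) (nat_lit 0) (nat_lit 1165859915) (nat_lit 684) (nat_lit 1171807684) (nat_lit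 404) (nat_lit 5) (nat_lit 404) (nat_lit 3) (nat_lit 413) (nat_lit 3) (nat_lit 407) (nat_lit 407) (nat_lit 386)))))) (XT.nd (nat_lit 546) (nat_lit 6156) (nat_lit 0) (XT.nd (nat_lit 234) (nat_lit 1596) (nat_lit 0) (XT.nd (nat_lit 78) (nat_lit 0) (nat_lit 0) (XT.lf (nat_lit 0) (nat_lit 659896408) (nat_lit 760) (nat_lit 5946324696) (nat_lit 836) (nat_lit 485884052) (nat_lit 394) (nat_lit 5) (nat_lit 404) (nat_lit 5) (nat_lit 405) (nat_lit 5) (nat_lit 408) (nat_lit 407) (nat_lit 385)) (XT.nd (nat_lit 78) (nat_lit 0) (nat_lit 0) (XT.lf (nat_lit 76) (nat_lit 20873269) (nat_lit 0) (nat_lit 3624948452) (nat_lit 836) (nat_lit 3538491906) (nat_lit 395) (nat_lit 5) (nat_lit 394) (nat_lit 5) (nat_lit 405) (nat_lit 5) (nat_lit 409) (nat_lit 407) (nat_lit 384)) (XT.lf (nat_lit 76) (nat_lit 6306217972) (nat_lit 0) (nat_lit 352096762) (nat_lit 836) (nat_lit 626521724) (nat_lit 395) (nat_lit 5) (nat_lit 394) (nat_lit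 5) (nat_lit 405) (nat_lit 5) (nat_lit 410) (nat_lit 407) (nat_lit 383)))) (XT.nd (nat_lit 156) (nat_lit 836) (nat_lit 0) (XT.nd (nat_lit 78) (nat_lit 0) (nat_lit 0) (XT.lf (nat_lit 0) (nat_lit 2290619349) (nat_lit 836) (nat_lit 1928254394) (nat_lit 912) (nat_lit 3173620718) (nat_lit 384) (nat_lit 5) (nat_lit 395) (nat_lit 5) (nat_lit 396) (nat_lit 5) (nat_lit 411) (nat_lit 407) (nat_lit 382)) (XT.lf (nat_lit 76) (nat_lit 4720742464) (nat_lit 0) (nat_lit 510337955) (nat_lit 912) (nat_lit 2277575685) (nat_lit 385) (nat_lit 5) (nat_lit 384) (nat_lit 5) (nat_lit 396) (nat_lit 5) (nat_lit 412) (nat_lit 407) (nat_lit 381))) (XT.nd (nat_lit 78) (nat_lit 0) (nat_lit 0) (XT.lf (nat_lit 0) (nat_lit 604124336) (nat_lit 912) (nat_lit 3588146892) (nat_lit 988) (nat_lit 3440285898) (nat_lit 373) (nat_lit 5) (nat_lit 385) (nat_lit 5) (nat_lit 386) (nat_lit 5) (nat_lit 413) (nat_lit 407) (nat_lit 380)) (XT.lf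 (nat_lit 76) (nat_lit 3445344101) (nat_lit 0) (nat_lit 49080167) (nat_lit 988) (nat_lit 4270220989) (nat_lit 374) (nat_lit 5) (nat_lit 373) (nat_lit 5) (nat_lit 386) (nat_lit 5) (nat_lit 414) (nat_lit 407) (nat_lit 379))))) (XT.nd (nat_lit 234) (nat_lit 4332) (nat_lit 0) (XT.nd (nat_lit 78) (nat_lit 1900) (nat_lit 0) (XT.lf (nat_lit 76) (nat_lit 2908188237) (nat_lit 0) (nat_lit 3578431518) (nat_lit 988) (nat_lit 1418012930) (nat_lit 375) (nat_lit 5) (nat_lit 374) (nat_lit 5) (nat_lit 387) (nat_lit 5) (nat_lit 415) (nat_lit 407) (nat_lit 378)) (XT.nd (nat_lit 78) (nat_lit 988) (nat_lit 0) (XT.lf (nat_lit 0) (nat_lit 1479997888) (nat_lit 988) (nat_lit 5603875836) (nat_lit 76) (nat_lit 969287276) (nat_lit 362) (nat_lit 5) (nat_lit 375) (nat_lit 5) (nat_lit 363) (nat_lit 5) (nat_lit 416) (nat_lit 407) (nat_lit 377)) (XT.lf (nat_lit 0) (nat_lit 2041862352) (nat_lit 988) (nat_lit 2421270100) (nat_lit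 1064) (nat_lit 3746489953) (nat_lit 349) (nat_lit 5) (nat_lit 362) (nat_lit 5) (nat_lit 363) (nat_lit 5) (nat_lit 417) (nat_lit 407) (nat_lit 376)))) (XT.nd (nat_lit 156) (nat_lit 2052) (nat_lit 0) (XT.nd (nat_lit 78) (nat_lit 1216) (nat_lit 0) (XT.lf (nat_lit 0) (nat_lit 1711625312) (nat_lit 1064) (nat_lit 5849676149) (nat_lit 1140) (nat_lit 813642766) (nat_lit 335) (nat_lit 5) (nat_lit 349) (nat_lit 5) (nat_lit 350) (nat_lit 5) (nat_lit 418) (nat_lit 407) (nat_lit 375)) (XT.lf (nat_lit 0) (nat_lit 1436842204) (nat_lit 1140) (nat_lit 758534254) (nat_lit 1216) (nat_lit 6353302570) (nat_lit 319) (nat_lit 5) (nat_lit 334) (nat_lit 5) (nat_lit 335) (nat_lit 5) (nat_lit 419) (nat_lit 407) (nat_lit 374))) (XT.nd (nat_lit 78) (nat_lit 836) (nat_lit 0) (XT.lf (nat_lit 0) (nat_lit 1210595488) (nat_lit 1216) (nat_lit 4129186704) (nat_lit 1292) (nat_lit 3391035858) (nat_lit 303) (nat_lit 5) (nat_lit 319)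 (nat_lit 5) (nat_lit 320) (nat_lit 5) (nat_lit 420) (nat_lit 407) (nat_lit 373)) (XT.lf (nat_lit 0) (nat_lit 1065260148) (nat_lit 836) (nat_lit 7561849154) (nat_lit 912) (nat_lit 295395159) (nat_lit 292) (nat_lit 5) (nat_lit 303) (nat_lit 5) (nat_lit 304) (nat_lit 5) (nat_lit 421) (nat_lit 407) (nat_lit 372))))))))
noncomputable def xc60 : XT := (XT.nd (nat_lit 2028) (nat_lit 5396) (nat_lit 0) (XT.nd (nat_lit 1014) (nat_lit 4332) (nat_lit 0) (XT.nd (nat_lit 468) (nat_lit 3192) (nat_lit 0) (XT.nd (nat_lit 234) (nat_lit 1748) (nat_lit 0) (XT.nd (nat_lit 78) (nat_lit 1216) (nat_lit 0) (XT.lf (nat_lit 0) (nat_lit 951670602) (nat_lit 608) (nat_lit 1959672752) (nat_lit 684) (nat_lit 6211170908) (nat_lit 283) (nat_lit 5) (nat_lit 291) (nat_lit 5) (nat_lit 292) (nat_lit 5) (nat_lit 422) (nat_lit 407) (nat_lit 371)) (XT.nd (nat_lit 78) (nat_lit 608) (nat_lit 0) (XT.lf (nat_lit 0) (nat_lit 899276320) (nat_lit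 608) (nat_lit 5390552169) (nat_lit 684) (nat_lit 3042092858) (nat_lit 275) (nat_lit 5) (nat_lit 283) (nat_lit 5) (nat_lit 284) (nat_lit 5) (nat_lit 423) (nat_lit 407) (nat_lit 370)) (XT.lf (nat_lit 0) (nat_lit 292274290) (nat_lit 608) (nat_lit 8629429025) (nat_lit 76) (nat_lit 629650341) (nat_lit 267) (nat_lit 5) (nat_lit 275) (nat_lit 5) (nat_lit 268) (nat_lit 5) (nat_lit 424) (nat_lit 407) (nat_lit 369)))) (XT.nd (nat_lit 78) (nat_lit 1140) (nat_lit 0) (XT.lf (nat_lit 0) (nat_lit 963375096) (nat_lit 608) (nat_lit 2815612539) (nat_lit 684) (nat_lit 6000418960) (nat_lit 259) (nat_lit 5) (nat_lit 267) (nat_lit 5) (nat_lit 268) (nat_lit 5) (nat_lit 425) (nat_lit 407) (nat_lit 368)) (XT.nd (nat_lit 78) (nat_lit 608) (nat_lit 0) (XT.lf (nat_lit 0) (nat_lit 1075005056) (nat_lit 532) (nat_lit 6400076365) (nat_lit 608) (nat_lit 2542737889) (nat_lit 252) (nat_lit 5) (nat_lit 259) (nat_lit 5) (nat_lit 260)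 (nat_lit 5) (nat_lit 426) (nat_lit 407) (nat_lit 367)) (XT.lf (nat_lit 0) (nat_lit 1103389974) (nat_lit 608) (nat_lit 9013399480) (nat_lit 76) (nat_lit 149953628) (nat_lit 244) (nat_lit 5) (nat_lit 252) (nat_lit 5) (nat_lit 245) (nat_lit 5) (nat_lit 427) (nat_lit 407) (nat_lit 366))))) (XT.nd (nat_lit 234) (nat_lit 1748) (nat_lit 0) (XT.nd (nat_lit 78) (nat_lit 988) (nat_lit 0) (XT.lf (nat_lit 0) (nat_lit 1449145110) (nat_lit 456) (nat_lit 3508730943) (nat_lit 532) (nat_lit 5567129997) (nat_lit 238) (nat_lit 5) (nat_lit 244) (nat_lit 5) (nat_lit 245) (nat_lit 5) (nat_lit 428) (nat_lit 407) (nat_lit 365)) (XT.nd (nat_lit 78) (nat_lit 532) (nat_lit 0) (XT.lf (nat_lit 0) (nat_lit 1721241578) (nat_lit 456) (nat_lit 7336993814) (nat_lit 532) (nat_lit 1736359408) (nat_lit 232) (nat_lit 5) (nat_lit 238) (nat_lit 5) (nat_lit 239) (nat_lit 5) (nat_lit 429) (nat_lit 407) (nat_lit 364)) (XT.lf (nat_lit 0)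 (nat_lit 2047764419) (nat_lit 456) (nat_lit 255373524) (nat_lit 532) (nat_lit 8772018537) (nat_lit 225) (nat_lit 5) (nat_lit 231) (nat_lit 5) (nat_lit 232) (nat_lit 5) (nat_lit 430) (nat_lit 407) (nat_lit 363)))) (XT.nd (nat_lit 156) (nat_lit 912) (nat_lit 0) (XT.nd (nat_lit 78) (nat_lit 380) (nat_lit 0) (XT.lf (nat_lit 0) (nat_lit 2400806165) (nat_lit 456) (nat_lit 4209987720) (nat_lit 532) (nat_lit 4755380035) (nat_lit 219) (nat_lit 5) (nat_lit 225) (nat_lit 5) (nat_lit 226) (nat_lit 5) (nat_lit 431) (nat_lit 407) (nat_lit 362)) (XT.lf (nat_lit 0) (nat_lit 2835233465) (nat_lit 380) (nat_lit 8371772676) (nat_lit 456) (nat_lit 462546846) (nat_lit 214) (nat_lit 5) (nat_lit 219) (nat_lit 5) (nat_lit 220) (nat_lit 5) (nat_lit 432) (nat_lit 407) (nat_lit 361))) (XT.nd (nat_lit 78) (nat_lit 380) (nat_lit 0) (XT.lf (nat_lit 0) (nat_lit 3306162535) (nat_lit 456) (nat_lit 747605435) (nat_lit 532) (nat_lit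 7930538944) (nat_lit 207) (nat_lit 5) (nat_lit 213) (nat_lit 5) (nat_lit 214) (nat_lit 5) (nat_lit 433) (nat_lit 407) (nat_lit 360)) (XT.lf (nat_lit 0) (nat_lit 3822416750) (nat_lit 380) (nat_lit 5085242951) (nat_lit 456) (nat_lit 3403366874) (nat_lit 202) (nat_lit 5) (nat_lit 207) (nat_lit 5) (nat_lit 208) (nat_lit 5) (nat_lit 434) (nat_lit 407) (nat_lit 359)))))) (XT.nd (nat_lit 468) (nat_lit 2128) (nat_lit 0) (XT.nd (nat_lit 234) (nat_lit 1064) (nat_lit 0) (XT.nd (nat_lit 78) (nat_lit 684) (nat_lit 0) (XT.lf (nat_lit 0) (nat_lit 1418474587) (nat_lit 456) (nat_lit 8239459551) (nat_lit 76) (nat_lit 2992923854) (nat_lit 196) (nat_lit 5) (nat_lit 202) (nat_lit 5) (nat_lit 197) (nat_lit 5) (nat_lit 435) (nat_lit 407) (nat_lit 358)) (XT.nd (nat_lit 78) (nat_lit 380) (nat_lit 0) (XT.lf (nat_lit 0) (nat_lit 5039929125) (nat_lit 304) (nat_lit 1487001340) (nat_lit 380) (nat_lit 6476266959) (nat_lit 192)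 (nat_lit 5) (nat_lit 196) (nat_lit 5) (nat_lit 197) (nat_lit 5) (nat_lit 436) (nat_lit 407) (nat_lit 357)) (XT.lf (nat_lit 0) (nat_lit 5728042805) (nat_lit 380) (nat_lit 6301157726) (nat_lit 456) (nat_lit 1339805955) (nat_lit 187) (nat_lit 5) (nat_lit 192) (nat_lit 5) (nat_lit 193) (nat_lit 5) (nat_lit 437) (nat_lit 407) (nat_lit 356)))) (XT.nd (nat_lit 78) (nat_lit 684) (nat_lit 0) (XT.lf (nat_lit 0) (nat_lit 4089175716) (nat_lit 380) (nat_lit 7279016516) (nat_lit 76) (nat_lit 2380305036) (nat_lit 182) (nat_lit 5) (nat_lit 187) (nat_lit 5) (nat_lit 183) (nat_lit 5) (nat_lit 438) (nat_lit 407) (nat_lit 355)) (XT.nd (nat_lit 78) (nat_lit 380) (nat_lit 0) (XT.lf (nat_lit 0) (nat_lit 7267433201) (nat_lit 304) (nat_lit 2640940520) (nat_lit 380) (nat_lit 4233800488) (nat_lit 178) (nat_lit 5) (nat_lit 182) (nat_lit 5) (nat_lit 183) (nat_lit 5) (nat_lit 439) (nat_lit 407) (nat_lit 354)) (XT.lf (nat_lit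 0) (nat_lit 1587871867) (nat_lit 380) (nat_lit 6426996622) (nat_lit 76) (nat_lit 6535645486) (nat_lit 173) (nat_lit 5) (nat_lit 178) (nat_lit 5) (nat_lit 174) (nat_lit 5) (nat_lit 440) (nat_lit 407) (nat_lit 353))))) (XT.nd (nat_lit 234) (nat_lit 1140) (nat_lit 0) (XT.nd (nat_lit 78) (nat_lit 684) (nat_lit 0) (XT.lf (nat_lit 0) (nat_lit 7748509812) (nat_lit 380) (nat_lit 5936627899) (nat_lit 76) (nat_lit 1288815563) (nat_lit 169) (nat_lit 5) (nat_lit 174) (nat_lit 5) (nat_lit 170) (nat_lit 5) (nat_lit 441) (nat_lit 407) (nat_lit 352)) (XT.nd (nat_lit 78) (nat_lit 380) (nat_lit 0) (XT.lf (nat_lit 0) (nat_lit 10013220194) (nat_lit 304) (nat_lit 4386625015) (nat_lit 380) (nat_lit 1013242613) (nat_lit 165) (nat_lit 5) (nat_lit 169) (nat_lit 5) (nat_lit 170) (nat_lit 5) (nat_lit 442) (nat_lit 407) (nat_lit 351)) (XT.lf (nat_lit 0) (nat_lit 5564042072) (nat_lit 380) (nat_lit 4839662846) (nat_lit 76)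 (nat_lit 5464028785) (nat_lit 160) (nat_lit 5) (nat_lit 165) (nat_lit 5) (nat_lit 161) (nat_lit 5) (nat_lit 443) (nat_lit 407) (nat_lit 350)))) (XT.nd (nat_lit 156) (nat_lit 532) (nat_lit 0) (XT.nd (nat_lit 78) (nat_lit 380) (nat_lit 0) (XT.lf (nat_lit 0) (nat_lit 12138066081) (nat_lit 228) (nat_lit 470307892) (nat_lit 304) (nat_lit 3731665652) (nat_lit 157) (nat_lit 5) (nat_lit 160) (nat_lit 5) (nat_lit 161) (nat_lit 5) (nat_lit 444) (nat_lit 407) (nat_lit 349)) (XT.lf (nat_lit 0) (nat_lit 3326697451) (nat_lit 380) (nat_lit 3556632701) (nat_lit 76) (nat_lit 9945132268) (nat_lit 152) (nat_lit 5) (nat_lit 157) (nat_lit 5) (nat_lit 153) (nat_lit 5) (nat_lit 445) (nat_lit 407) (nat_lit 348))) (XT.nd (nat_lit 78) (nat_lit 304) (nat_lit 0) (XT.lf (nat_lit 0) (nat_lit 10830119281) (nat_lit 304) (nat_lit 2852262401) (nat_lit 76) (nat_lit 3652739263) (nat_lit 149) (nat_lit 5) (nat_lit 153) (nat_lit 5)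 (nat_lit 150) (nat_lit 5) (nat_lit 446) (nat_lit 407) (nat_lit 347)) (XT.lf (nat_lit 0) (nat_lit 1031662921) (nat_lit 304) (nat_lit 2086944371) (nat_lit 76) (nat_lit 14742070163) (nat_lit 145) (nat_lit 5) (nat_lit 149) (nat_lit 5) (nat_lit 146) (nat_lit 5) (nat_lit 447) (nat_lit 407) (nat_lit 346))))))) (XT.nd (nat_lit 1014) (nat_lit 2356) (nat_lit 0) (XT.nd (nat_lit 468) (nat_lit 1444) (nat_lit 0) (XT.nd (nat_lit 234) (nat_lit 608) (nat_lit 0) (XT.nd (nat_lit 78) (nat_lit 760) (nat_lit 0) (XT.lf (nat_lit 0) (nat_lit 9032934983) (nat_lit 304) (nat_lit 1322439530) (nat_lit 76) (nat_lit 8048538088) (nat_lit 142) (nat_lit 5) (nat_lit 146) (nat_lit 5) (nat_lit 143) (nat_lit 5) (nat_lit 448) (nat_lit 407) (nat_lit 345)) (XT.nd (nat_lit 78) (nat_lit 532) (nat_lit 0) (XT.lf (nat_lit 0) (nat_lit 17623166543) (nat_lit 304) (nat_lit 453601012) (nat_lit 76) (nat_lit 891877187) (nat_lit 139) (nat_lit 5) (nat_lit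 143) (nat_lit 5) (nat_lit 140) (nat_lit 5) (nat_lit 449) (nat_lit 407) (nat_lit 344)) (XT.lf (nat_lit 0) (nat_lit 397275215) (nat_lit 228) (nat_lit 6813147531) (nat_lit 304) (nat_lit 12341131362) (nat_lit 132) (nat_lit 5) (nat_lit 135) (nat_lit 5) (nat_lit 136) (nat_lit 5) (nat_lit 450) (nat_lit 407) (nat_lit 343)))) (XT.nd (nat_lit 78) (nat_lit 456) (nat_lit 0) (XT.lf (nat_lit 0) (nat_lit 1344229653) (nat_lit 152) (nat_lit 15040460194) (nat_lit 228) (nat_lit 3771969379) (nat_lit 130) (nat_lit 5) (nat_lit 132) (nat_lit 5) (nat_lit 133) (nat_lit 5) (nat_lit 451) (nat_lit 407) (nat_lit 342)) (XT.nd (nat_lit 78) (nat_lit 152) (nat_lit 0) (XT.lf (nat_lit 0) (nat_lit 2323522352) (nat_lit 228) (nat_lit 3041743929) (nat_lit 304) (nat_lit 15418000470) (nat_lit 126) (nat_lit 5) (nat_lit 129) (nat_lit 5) (nat_lit 130) (nat_lit 5) (nat_lit 452) (nat_lit 407) (nat_lit 341)) (XT.lf (nat_lit 0) (nat_lit 3325621553)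 (nat_lit 152) (nat_lit 11828447953) (nat_lit 228) (nat_lit 6277834922) (nat_lit 124) (nat_lit 5) (nat_lit 126) (nat_lit 5) (nat_lit 127) (nat_lit 5) (nat_lit 453) (nat_lit 407) (nat_lit 340))))) (XT.nd (nat_lit 234) (nat_lit 684) (nat_lit 0) (XT.nd (nat_lit 78) (nat_lit 456) (nat_lit 0) (XT.lf (nat_lit 0) (nat_lit 3482396417) (nat_lit 304) (nat_lit 17694064582) (nat_lit 76) (nat_lit 928722387) (nat_lit 120) (nat_lit 5) (nat_lit 124) (nat_lit 5) (nat_lit 121) (nat_lit 5) (nat_lit 454) (nat_lit 407) (nat_lit 339)) (XT.nd (nat_lit 78) (nat_lit 304) (nat_lit 0) (XT.lf (nat_lit 0) (nat_lit 5469609380) (nat_lit 152) (nat_lit 8447368789) (nat_lit 228) (nat_lit 8883799641) (nat_lit 118) (nat_lit 5) (nat_lit 120) (nat_lit 5) (nat_lit 121) (nat_lit 5) (nat_lit 455) (nat_lit 407) (nat_lit 338)) (XT.lf (nat_lit 0) (nat_lit 1569341454) (nat_lit 304) (nat_lit 16900511360) (nat_lit 76) (nat_lit 5053311602) (nat_lit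 114) (nat_lit 5) (nat_lit 118) (nat_lit 5) (nat_lit 115) (nat_lit 5) (nat_lit 456) (nat_lit 407) (nat_lit 337)))) (XT.nd (nat_lit 156) (nat_lit 380) (nat_lit 0) (XT.nd (nat_lit 78) (nat_lit 152) (nat_lit 0) (XT.lf (nat_lit 0) (nat_lit 7758588616) (nat_lit 152) (nat_lit 4901371973) (nat_lit 228) (nat_lit 11610115734) (nat_lit 112) (nat_lit 5) (nat_lit 114) (nat_lit 5) (nat_lit 115) (nat_lit 5) (nat_lit 457) (nat_lit 407) (nat_lit 336)) (XT.lf (nat_lit 0) (nat_lit 8963147592) (nat_lit 152) (nat_lit 15651518457) (nat_lit 228) (nat_lit 430382326) (nat_lit 110) (nat_lit 5) (nat_lit 112) (nat_lit 5) (nat_lit 113) (nat_lit 5) (nat_lit 458) (nat_lit 407) (nat_lit 335))) (XT.nd (nat_lit 78) (nat_lit 152) (nat_lit 0) (XT.lf (nat_lit 0) (nat_lit 10167868705) (nat_lit 152) (nat_lit 1197431798) (nat_lit 228) (nat_lit 14481879693) (nat_lit 107) (nat_lit 5) (nat_lit 109) (nat_lit 5) (nat_lit 110) (nat_lit 5)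 (nat_lit 459) (nat_lit 407) (nat_lit 334)) (XT.lf (nat_lit 0) (nat_lit 11391302008) (nat_lit 152) (nat_lit 12721451986) (nat_lit 228) (nat_lit 2565411217) (nat_lit 105) (nat_lit 5) (nat_lit 107) (nat_lit 5) (nat_lit 108) (nat_lit 5) (nat_lit 460) (nat_lit 407) (nat_lit 333)))))) (XT.nd (nat_lit 546) (nat_lit 1064) (nat_lit 0) (XT.nd (nat_lit 234) (nat_lit 684) (nat_lit 0) (XT.nd (nat_lit 78) (nat_lit 380) (nat_lit 0) (XT.lf (nat_lit 0) (nat_lit 10035706403) (nat_lit 228) (nat_lit 14901630711) (nat_lit 76) (nat_lit 2602007129) (nat_lit 102) (nat_lit 5) (nat_lit 105) (nat_lit 5) (nat_lit 103) (nat_lit 5) (nat_lit 461) (nat_lit 407) (nat_lit 332)) (XT.nd (nat_lit 78) (nat_lit 228) (nat_lit 0) (XT.lf (nat_lit 0) (nat_lit 13884303819) (nat_lit 152) (nat_lit 9712309688) (nat_lit 228) (nat_lit 4834723949) (nat_lit 100) (nat_lit 5) (nat_lit 102) (nat_lit 5) (nat_lit 103) (nat_lit 5) (nat_lit 462) (nat_lit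 407) (nat_lit 331)) (XT.lf (nat_lit 0) (nat_lit 8629574869) (nat_lit 228) (nat_lit 14218667257) (nat_lit 76) (nat_lit 6507431988) (nat_lit 97) (nat_lit 5) (nat_lit 100) (nat_lit 5) (nat_lit 98) (nat_lit 5) (nat_lit 463) (nat_lit 407) (nat_lit 330)))) (XT.nd (nat_lit 156) (nat_lit 304) (nat_lit 0) (XT.nd (nat_lit 78) (nat_lit 228) (nat_lit 0) (XT.lf (nat_lit 0) (nat_lit 16391581531) (nat_lit 152) (nat_lit 6646456180) (nat_lit 228) (nat_lit 7275626508) (nat_lit 95) (nat_lit 5) (nat_lit 97) (nat_lit 5) (nat_lit 98) (nat_lit 5) (nat_lit 464) (nat_lit 407) (nat_lit 329)) (XT.lf (nat_lit 0) (nat_lit 7099073379) (nat_lit 228) (nat_lit 13685572388) (nat_lit 76) (nat_lit 10521374581) (nat_lit 92) (nat_lit 5) (nat_lit 95) (nat_lit 5) (nat_lit 93) (nat_lit 5) (nat_lit 465) (nat_lit 407) (nat_lit 328))) (XT.nd (nat_lit 78) (nat_lit 152) (nat_lit 0) (XT.lf (nat_lit 0) (nat_lit 18848073020) (nat_lit 152) (nat_lit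 3553128137) (nat_lit 228) (nat_lit 9933857858) (nat_lit 90) (nat_lit 5) (nat_lit 92) (nat_lit 5) (nat_lit 93) (nat_lit 5) (nat_lit 466) (nat_lit 407) (nat_lit 327)) (XT.lf (nat_lit 0) (nat_lit 5399167265) (nat_lit 152) (nat_lit 13385737985) (nat_lit 76) (nat_lit 14615841448) (nat_lit 88) (nat_lit 5) (nat_lit 90) (nat_lit 5) (nat_lit 89) (nat_lit 5) (nat_lit 467) (nat_lit 407) (nat_lit 326))))) (XT.nd (nat_lit 234) (nat_lit 608) (nat_lit 0) (XT.nd (nat_lit 78) (nat_lit 304) (nat_lit 0) (XT.lf (nat_lit 0) (nat_lit 21171171352) (nat_lit 152) (nat_lit 469987194) (nat_lit 228) (nat_lit 12865177340) (nat_lit 86) (nat_lit 5) (nat_lit 88) (nat_lit 5) (nat_lit 89) (nat_lit 5) (nat_lit 468) (nat_lit 407) (nat_lit 325)) (XT.nd (nat_lit 78) (nat_lit 152) (nat_lit 0) (XT.lf (nat_lit 0) (nat_lit 3474436354) (nat_lit 152) (nat_lit 13422684122) (nat_lit 76) (nat_lit 18754047042) (nat_lit 84) (nat_lit 5) (nat_lit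 86) (nat_lit 5) (nat_lit 85) (nat_lit 5) (nat_lit 469) (nat_lit 407) (nat_lit 324)) (XT.lf (nat_lit 0) (nat_lit 20726623828) (nat_lit 228) (nat_lit 13606756945) (nat_lit 76) (nat_lit 2505189241) (nat_lit 82) (nat_lit 5) (nat_lit 85) (nat_lit 5) (nat_lit 83) (nat_lit 4) (nat_lit 470) (nat_lit 407) (nat_lit 323)))) (XT.nd (nat_lit 156) (nat_lit 304) (nat_lit 0) (XT.nd (nat_lit 78) (nat_lit 152) (nat_lit 0) (XT.lf (nat_lit 0) (nat_lit 1257093948) (nat_lit 152) (nat_lit 13924073966) (nat_lit 76) (nat_lit 22888484116) (nat_lit 80) (nat_lit 5) (nat_lit 82) (nat_lit 5) (nat_lit 81) (nat_lit 5) (nat_lit 471) (nat_lit 407) (nat_lit 322)) (XT.lf (nat_lit 0) (nat_lit 19567556847) (nat_lit 228) (nat_lit 14422700709) (nat_lit 76) (nat_lit 5355059645) (nat_lit 78) (nat_lit 5) (nat_lit 81) (nat_lit 5) (nat_lit 79) (nat_lit 4) (nat_lit 472) (nat_lit 407) (nat_lit 321))) (XT.nd (nat_lit 78) (nat_lit 228) (nat_lit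 0) (XT.lf (nat_lit 0) (nat_lit 25609803789) (nat_lit 76) (nat_lit 13697614217) (nat_lit 152) (nat_lit 1361931845) (nat_lit 77) (nat_lit 5) (nat_lit 78) (nat_lit 5) (nat_lit 79) (nat_lit 4) (nat_lit 473) (nat_lit 407) (nat_lit 320)) (XT.lf (nat_lit 0) (nat_lit 18074348499) (nat_lit 228) (nat_lit 15951588639) (nat_lit 76) (nat_lit 8014951582) (nat_lit 74) (nat_lit 5) (nat_lit 77) (nat_lit 5) (nat_lit 75) (nat_lit 4) (nat_lit 474) (nat_lit 407) (nat_lit 319))))))))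
noncomputable def xc61 : XT := (XT.nd (nat_lit 57408) (nat_lit 0) (nat_lit 11932) (XT.nd (nat_lit 1014) (nat_lit 1064) (nat_lit 0) (XT.nd (nat_lit 468) (nat_lit 760) (nat_lit 0) (XT.nd (nat_lit 234) (nat_lit 456) (nat_lit 0) (XT.nd (nat_lit 78) (nat_lit 304) (nat_lit 0) (XT.lf (nat_lit 0) (nat_lit 26440979208) (nat_lit 76) (nat_lit 12533505227) (nat_lit 152) (nat_lit 4490509729) (nat_lit 73) (nat_lit 5) (nat_lit 74) (nat_lit 5) (nat_lit 75) (nat_lit 4) (nat_lit 475) (nat_lit 407) (nat_lit 318)) (XT.nd (nat_lit 78) (nat_lit 76) (nat_lit 0) (XT.lf (nat_lit 0) (nat_lit 16143276149) (nat_lit 228) (nat_lit 18404178088) (nat_lit 76) (nat_lit 10393387374) (nat_lit 70) (nat_lit 5) (nat_lit 73) (nat_lit 5) (nat_lit 71) (nat_lit 4) (nat_lit 476) (nat_lit 407) (nat_lit 317)) (XT.lf (nat_lit 0) (nat_lit 26434792172) (nat_lit 76) (nat_lit 11811702992) (nat_lit 152) (nat_lit 8226734383) (nat_lit 69) (nat_lit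 5) (nat_lit 70) (nat_lit 5) (nat_lit 71) (nat_lit 4) (nat_lit 477) (nat_lit 407) (nat_lit 316)))) (XT.nd (nat_lit 78) (nat_lit 228) (nat_lit 0) (XT.lf (nat_lit 0) (nat_lit 13648470103) (nat_lit 228) (nat_lit 22036034729) (nat_lit 76) (nat_lit 12377772604) (nat_lit 66) (nat_lit 5) (nat_lit 69) (nat_lit 5) (nat_lit 67) (nat_lit 4) (nat_lit 478) (nat_lit 407) (nat_lit 315)) (XT.nd (nat_lit 78) (nat_lit 152) (nat_lit 0) (XT.lf (nat_lit 0) (nat_lit 25326775635) (nat_lit 76) (nat_lit 11666386913) (nat_lit 152) (nat_lit 12718795833) (nat_lit 65) (nat_lit 5) (nat_lit 66) (nat_lit 5) (nat_lit 67) (nat_lit 4) (nat_lit 479) (nat_lit 407) (nat_lit 314)) (XT.lf (nat_lit 0) (nat_lit 10437767850) (nat_lit 152) (nat_lit 27155970058) (nat_lit 76) (nat_lit 13830290580) (nat_lit 63) (nat_lit 5) (nat_lit 65) (nat_lit 5) (nat_lit 64) (nat_lit 4) (nat_lit 480) (nat_lit 407) (nat_lit 313))))) (XT.nd (nat_lit 234) (nat_lit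 456) (nat_lit 0) (XT.nd (nat_lit 78) (nat_lit 228) (nat_lit 0) (XT.lf (nat_lit 0) (nat_lit 22795999029) (nat_lit 76) (nat_lit 12260325964) (nat_lit 152) (nat_lit 18144583248) (nat_lit 62) (nat_lit 5) (nat_lit 63) (nat_lit 5) (nat_lit 64) (nat_lit 4) (nat_lit 481) (nat_lit 407) (nat_lit 312)) (XT.nd (nat_lit 78) (nat_lit 76) (nat_lit 0) (XT.lf (nat_lit 0) (nat_lit 6327829179) (nat_lit 152) (nat_lit 34135976628) (nat_lit 76) (nat_lit 14583064708) (nat_lit 60) (nat_lit 5) (nat_lit 62) (nat_lit 5) (nat_lit 61) (nat_lit 4) (nat_lit 482) (nat_lit 407) (nat_lit 311)) (XT.lf (nat_lit 0) (nat_lit 18454463412) (nat_lit 76) (nat_lit 13790268333) (nat_lit 152) (nat_lit 24717126109) (nat_lit 59) (nat_lit 5) (nat_lit 60) (nat_lit 5) (nat_lit 61) (nat_lit 4) (nat_lit 483) (nat_lit 407) (nat_lit 310)))) (XT.nd (nat_lit 156) (nat_lit 228) (nat_lit 0) (XT.nd (nat_lit 78) (nat_lit 76) (nat_lit 0) (XT.lf (nat_lit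 0) (nat_lit 1098384349) (nat_lit 152) (nat_lit 43422920825) (nat_lit 76) (nat_lit 14432460946) (nat_lit 57) (nat_lit 5) (nat_lit 59) (nat_lit 5) (nat_lit 58) (nat_lit 4) (nat_lit 484) (nat_lit 407) (nat_lit 309)) (XT.lf (nat_lit 0) (nat_lit 11834616475) (nat_lit 76) (nat_lit 16493283916) (nat_lit 152) (nat_lit 32690995366) (nat_lit 56) (nat_lit 5) (nat_lit 57) (nat_lit 5) (nat_lit 58) (nat_lit 4) (nat_lit 485) (nat_lit 407) (nat_lit 308))) (XT.nd (nat_lit 78) (nat_lit 152) (nat_lit 0) (XT.lf (nat_lit 0) (nat_lit 7562160218) (nat_lit 76) (nat_lit 49982077037) (nat_lit 76) (nat_lit 5624284480) (nat_lit 55) (nat_lit 4) (nat_lit 56) (nat_lit 5) (nat_lit 56) (nat_lit 4) (nat_lit 486) (nat_lit 407) (nat_lit 307)) (XT.lf (nat_lit 0) (nat_lit 2374661701) (nat_lit 76) (nat_lit 20654225059) (nat_lit 152) (nat_lit 42369830075) (nat_lit 53) (nat_lit 5) (nat_lit 54) (nat_lit 5) (nat_lit 55) (nat_lit 4) (nat_lit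 487) (nat_lit 407) (nat_lit 306)))))) (XT.nd (nat_lit 468) (nat_lit 532) (nat_lit 0) (XT.nd (nat_lit 234) (nat_lit 304) (nat_lit 0) (XT.nd (nat_lit 78) (nat_lit 228) (nat_lit 0) (XT.lf (nat_lit 0) (nat_lit 53652832708) (nat_lit 152) (nat_lit 3509951405) (nat_lit 0) (nat_lit 10556334133) (nat_lit 53) (nat_lit 5) (nat_lit 55) (nat_lit 4) (nat_lit 53) (nat_lit 4) (nat_lit 488) (nat_lit 407) (nat_lit 305)) (XT.nd (nat_lit 78) (nat_lit 76) (nat_lit 0) (XT.lf (nat_lit 0) (nat_lit 16117660818) (nat_lit 152) (nat_lit 10391900568) (nat_lit 76) (nat_lit 43618344890) (nat_lit 51) (nat_lit 5) (nat_lit 53) (nat_lit 5) (nat_lit 52) (nat_lit 4) (nat_lit 489) (nat_lit 407) (nat_lit 304)) (XT.lf (nat_lit 0) (nat_lit 48122995164) (nat_lit 152) (nat_lit 18257150741) (nat_lit 0) (nat_lit 6254716768) (nat_lit 50) (nat_lit 5) (nat_lit 52) (nat_lit 4) (nat_lit 50) (nat_lit 4) (nat_lit 490) (nat_lit 407) (nat_lit 303))))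 (XT.nd (nat_lit 78) (nat_lit 152) (nat_lit 0) (XT.lf (nat_lit 0) (nat_lit 7159801281) (nat_lit 152) (nat_lit 27346433543) (nat_lit 76) (nat_lit 40734335151) (nat_lit 48) (nat_lit 5) (nat_lit 50) (nat_lit 5) (nat_lit 49) (nat_lit 4) (nat_lit 491) (nat_lit 407) (nat_lit 302)) (XT.nd (nat_lit 78) (nat_lit 76) (nat_lit 0) (XT.lf (nat_lit 0) (nat_lit 40260757667) (nat_lit 76) (nat_lit 208967386) (nat_lit 152) (nat_lit 37482708542) (nat_lit 47) (nat_lit 5) (nat_lit 48) (nat_lit 5) (nat_lit 49) (nat_lit 4) (nat_lit 492) (nat_lit 407) (nat_lit 301)) (XT.lf (nat_lit 0) (nat_lit 31252757679) (nat_lit 76) (nat_lit 45101755517) (nat_lit 76) (nat_lit 4418096292) (nat_lit 46) (nat_lit 4) (nat_lit 47) (nat_lit 5) (nat_lit 47) (nat_lit 4) (nat_lit 493) (nat_lit 407) (nat_lit 300))))) (XT.nd (nat_lit 234) (nat_lit 228) (nat_lit 0) (XT.nd (nat_lit 78) (nat_lit 152) (nat_lit 0) (XT.lf (nat_lit 0) (nat_lit 20780446514)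 (nat_lit 76) (nat_lit 9502623735) (nat_lit 152) (nat_lit 53424748837) (nat_lit 44) (nat_lit 5) (nat_lit 45) (nat_lit 5) (nat_lit 46) (nat_lit 4) (nat_lit 494) (nat_lit 407) (nat_lit 299)) (XT.nd (nat_lit 78) (nat_lit 76) (nat_lit 0) (XT.lf (nat_lit 0) (nat_lit 8670622540) (nat_lit 76) (nat_lit 58805529823) (nat_lit 76) (nat_lit 19286877706) (nat_lit 43) (nat_lit 4) (nat_lit 44) (nat_lit 5) (nat_lit 44) (nat_lit 4) (nat_lit 495) (nat_lit 407) (nat_lit 298)) (XT.lf (nat_lit 0) (nat_lit 16966514566) (nat_lit 152) (nat_lit 5085897623) (nat_lit 76) (nat_lit 67891862639) (nat_lit 42) (nat_lit 5) (nat_lit 44) (nat_lit 5) (nat_lit 43) (nat_lit 4) (nat_lit 496) (nat_lit 407) (nat_lit 297)))) (XT.nd (nat_lit 55536) (nat_lit 0) (nat_lit 26904) (XT.nd (nat_lit 78) (nat_lit 152) (nat_lit 0) (XT.lf (nat_lit 0) (nat_lit 55486993709) (nat_lit 152) (nat_lit 20664461744) (nat_lit 0) (nat_lit 17101798720) (nat_lit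 41) (nat_lit 5) (nat_lit 43) (nat_lit 4) (nat_lit 41) (nat_lit 4) (nat_lit 497) (nat_lit 407) (nat_lit 296)) (XT.lf (nat_lit 0) (nat_lit 49204460) (nat_lit 152) (nat_lit 38293473267) (nat_lit 76) (nat_lit 58360397099) (nat_lit 39) (nat_lit 5) (nat_lit 41) (nat_lit 5) (nat_lit 40) (nat_lit 4) (nat_lit 498) (nat_lit 407) (nat_lit 295))) (XT.nd (nat_lit 78) (nat_lit 0) (nat_lit 0) (XT.lf (nat_lit 0) (nat_lit 1746184161) (nat_lit 836) (nat_lit 921970412) (nat_lit 836) (nat_lit 921970412) (nat_lit 393) (nat_lit 3) (nat_lit 404) (nat_lit 3) (nat_lit 404) (nat_lit 5) (nat_lit 408) (nat_lit 408) (nat_lit 384)) (XT.lf (nat_lit 76) (nat_lit 4162543570) (nat_lit 0) (nat_lit 2177692725) (nat_lit 836) (nat_lit 936374637) (nat_lit 394) (nat_lit 5) (nat_lit 393) (nat_lit 3) (nat_lit 404) (nat_lit 5) (nat_lit 409) (nat_lit 408) (nat_lit 383))))))) (XT.nd (nat_lit 1014) (nat_lit 7220) (nat_lit 0) (XT.nd (nat_lit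 468) (nat_lit 5244) (nat_lit 0) (XT.nd (nat_lit 234) (nat_lit 1748) (nat_lit 0) (XT.nd (nat_lit 78) (nat_lit 0) (nat_lit 0) (XT.lf (nat_lit 0) (nat_lit 1798968289) (nat_lit 836) (nat_lit 4316767178) (nat_lit 912) (nat_lit 1264980825) (nat_lit 383) (nat_lit 5) (nat_lit 394) (nat_lit 5) (nat_lit 395) (nat_lit 5) (nat_lit 410) (nat_lit 408) (nat_lit 382)) (XT.nd (nat_lit 78) (nat_lit 0) (nat_lit 76) (XT.lf (nat_lit 76) (nat_lit 2036737685) (nat_lit 0) (nat_lit 2520576169) (nat_lit 912) (nat_lit 2935286346) (nat_lit 384) (nat_lit 5) (nat_lit 383) (nat_lit 5) (nat_lit 395) (nat_lit 5) (nat_lit 411) (nat_lit 408) (nat_lit 381)) (XT.lf (nat_lit 76) (nat_lit 1097481843) (nat_lit 0) (nat_lit 6262811398) (nat_lit 912) (nat_lit 252602086) (nat_lit 385) (nat_lit 5) (nat_lit 384) (nat_lit 5) (nat_lit 396) (nat_lit 5) (nat_lit 412) (nat_lit 408) (nat_lit 380)))) (XT.nd (nat_lit 78) (nat_lit 912) (nat_lit 0)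 (XT.lf (nat_lit 76) (nat_lit 207344189) (nat_lit 0) (nat_lit 2235392170) (nat_lit 988) (nat_lit 5297889796) (nat_lit 373) (nat_lit 5) (nat_lit 372) (nat_lit 5) (nat_lit 385) (nat_lit 5) (nat_lit 413) (nat_lit 408) (nat_lit 379)) (XT.nd (nat_lit 78) (nat_lit 988) (nat_lit 0) (XT.lf (nat_lit 0) (nat_lit 5205922179) (nat_lit 912) (nat_lit 595838852) (nat_lit 988) (nat_lit 2074774632) (nat_lit 373) (nat_lit 5) (nat_lit 385) (nat_lit 5) (nat_lit 386) (nat_lit 5) (nat_lit 414) (nat_lit 408) (nat_lit 378)) (XT.lf (nat_lit 0) (nat_lit 31142499) (nat_lit 988) (nat_lit 1322789707) (nat_lit 1064) (nat_lit 6666953128) (nat_lit 360) (nat_lit 5) (nat_lit 373) (nat_lit 5) (nat_lit 374) (nat_lit 5) (nat_lit 415) (nat_lit 408) (nat_lit 377))))) (XT.nd (nat_lit 234) (nat_lit 4332) (nat_lit 0) (XT.nd (nat_lit 78) (nat_lit 988) (nat_lit 0) (XT.lf (nat_lit 0) (nat_lit 2775062420) (nat_lit 988) (nat_lit 2014377789)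 (nat_lit 1064) (nat_lit 3383364134) (nat_lit 361) (nat_lit 5) (nat_lit 374) (nat_lit 5) (nat_lit 375) (nat_lit 5) (nat_lit 416) (nat_lit 408) (nat_lit 376)) (XT.nd (nat_lit 78) (nat_lit 1064) (nat_lit 0) (XT.lf (nat_lit 0) (nat_lit 5608283286) (nat_lit 988) (nat_lit 2627388362) (nat_lit 76) (nat_lit 98098182) (nat_lit 362) (nat_lit 5) (nat_lit 375) (nat_lit 5) (nat_lit 363) (nat_lit 5) (nat_lit 417) (nat_lit 408) (nat_lit 375)) (XT.lf (nat_lit 0) (nat_lit 73504399) (nat_lit 1064) (nat_lit 3196389947) (nat_lit 76) (nat_lit 5233037972) (nat_lit 348) (nat_lit 5) (nat_lit 362) (nat_lit 5) (nat_lit 349) (nat_lit 5) (nat_lit 418) (nat_lit 408) (nat_lit 374)))) (XT.nd (nat_lit 156) (nat_lit 2128) (nat_lit 0) (XT.nd (nat_lit 78) (nat_lit 1140) (nat_lit 0) (XT.lf (nat_lit 0) (nat_lit 2929998485) (nat_lit 1140) (nat_lit 3719673771) (nat_lit 76) (nat_lit 2030865543) (nat_lit 334) (nat_lit 5) (nat_lit 349)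 (nat_lit 5) (nat_lit 335) (nat_lit 5) (nat_lit 419) (nat_lit 408) (nat_lit 373)) (XT.lf (nat_lit 0) (nat_lit 4683589382) (nat_lit 1140) (nat_lit 1240315442) (nat_lit 1216) (nat_lit 2943292574) (nat_lit 319) (nat_lit 5) (nat_lit 334) (nat_lit 5) (nat_lit 335) (nat_lit 5) (nat_lit 420) (nat_lit 408) (nat_lit 372))) (XT.nd (nat_lit 78) (nat_lit 836) (nat_lit 0) (XT.lf (nat_lit 0) (nat_lit 16683886) (nat_lit 1292) (nat_lit 4598034115) (nat_lit 76) (nat_lit 4448107789) (nat_lit 302) (nat_lit 5) (nat_lit 319) (nat_lit 5) (nat_lit 303) (nat_lit 5) (nat_lit 421) (nat_lit 408) (nat_lit 371)) (XT.lf (nat_lit 0) (nat_lit 3065187021) (nat_lit 912) (nat_lit 4973335180) (nat_lit 76) (nat_lit 1228807267) (nat_lit 291) (nat_lit 5) (nat_lit 303) (nat_lit 5) (nat_lit 292) (nat_lit 5) (nat_lit 422) (nat_lit 408) (nat_lit 370)))))) (XT.nd (nat_lit 546) (nat_lit 3192) (nat_lit 0) (XT.nd (nat_lit 234) (nat_lit 2204)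 (nat_lit 0) (XT.nd (nat_lit 78) (nat_lit 1216) (nat_lit 0) (XT.lf (nat_lit 0) (nat_lit 4179201457) (nat_lit 608) (nat_lit 2117133334) (nat_lit 684) (nat_lit 3184826575) (nat_lit 283) (nat_lit 5) (nat_lit 291) (nat_lit 5) (nat_lit 292) (nat_lit 5) (nat_lit 423) (nat_lit 408) (nat_lit 369)) (XT.nd (nat_lit 78) (nat_lit 532) (nat_lit 0) (XT.lf (nat_lit 0) (nat_lit 14481289) (nat_lit 684) (nat_lit 5576646092) (nat_lit 76) (nat_lit 4113647131) (nat_lit 274) (nat_lit 5) (nat_lit 283) (nat_lit 5) (nat_lit 275) (nat_lit 5) (nat_lit 424) (nat_lit 408) (nat_lit 368)) (XT.lf (nat_lit 0) (nat_lit 3334948099) (nat_lit 608) (nat_lit 5817201585) (nat_lit 76) (nat_lit 785669296) (nat_lit 267) (nat_lit 5) (nat_lit 275) (nat_lit 5) (nat_lit 268) (nat_lit 5) (nat_lit 425) (nat_lit 408) (nat_lit 367)))) (XT.nd (nat_lit 156) (nat_lit 988) (nat_lit 0) (XT.nd (nat_lit 78) (nat_lit 608) (nat_lit 0) (XT.lf (nat_lit 0)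 (nat_lit 4162262765) (nat_lit 608) (nat_lit 2719827646) (nat_lit 684) (nat_lit 3298613764) (nat_lit 259) (nat_lit 5) (nat_lit 267) (nat_lit 5) (nat_lit 268) (nat_lit 5) (nat_lit 426) (nat_lit 408) (nat_lit 366)) (XT.lf (nat_lit 0) (nat_lit 218021233) (nat_lit 608) (nat_lit 6164268137) (nat_lit 76) (nat_lit 4051887477) (nat_lit 251) (nat_lit 5) (nat_lit 259) (nat_lit 5) (nat_lit 252) (nat_lit 5) (nat_lit 427) (nat_lit 408) (nat_lit 365))) (XT.nd (nat_lit 78) (nat_lit 456) (nat_lit 0) (XT.lf (nat_lit 0) (nat_lit 3892827748) (nat_lit 608) (nat_lit 6277267692) (nat_lit 76) (nat_lit 527738225) (nat_lit 244) (nat_lit 5) (nat_lit 252) (nat_lit 5) (nat_lit 245) (nat_lit 5) (nat_lit 428) (nat_lit 408) (nat_lit 364)) (XT.lf (nat_lit 0) (nat_lit 4617055094) (nat_lit 456) (nat_lit 3222535170) (nat_lit 532) (nat_lit 3132443359) (nat_lit 238) (nat_lit 5) (nat_lit 244) (nat_lit 5) (nat_lit 245) (nat_lit 5) (nat_lit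 429) (nat_lit 408) (nat_lit 363))))) (XT.nd (nat_lit 234) (nat_lit 1748) (nat_lit 0) (XT.nd (nat_lit 78) (nat_lit 912) (nat_lit 0) (XT.lf (nat_lit 0) (nat_lit 779991584) (nat_lit 532) (nat_lit 6378839105) (nat_lit 76) (nat_lit 4098799417) (nat_lit 231) (nat_lit 5) (nat_lit 238) (nat_lit 5) (nat_lit 232) (nat_lit 5) (nat_lit 430) (nat_lit 408) (nat_lit 362)) (XT.nd (nat_lit 78) (nat_lit 456) (nat_lit 0) (XT.lf (nat_lit 0) (nat_lit 4895718551) (nat_lit 532) (nat_lit 6366291682) (nat_lit 76) (nat_lit 292398090) (nat_lit 225) (nat_lit 5) (nat_lit 232) (nat_lit 5) (nat_lit 226) (nat_lit 5) (nat_lit 431) (nat_lit 408) (nat_lit 361)) (XT.lf (nat_lit 0) (nat_lit 5541594467) (nat_lit 456) (nat_lit 3790682349) (nat_lit 532) (nat_lit 2530302961) (nat_lit 219) (nat_lit 5) (nat_lit 225) (nat_lit 5) (nat_lit 226) (nat_lit 5) (nat_lit 432) (nat_lit 408) (nat_lit 360)))) (XT.nd (nat_lit 156) (nat_lit 836) (nat_lit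 0) (XT.nd (nat_lit 78) (nat_lit 456) (nat_lit 0) (XT.lf (nat_lit 0) (nat_lit 1858528257) (nat_lit 456) (nat_lit 6226619815) (nat_lit 76) (nat_lit 4097819478) (nat_lit 213) (nat_lit 5) (nat_lit 219) (nat_lit 5) (nat_lit 214) (nat_lit 5) (nat_lit 433) (nat_lit 408) (nat_lit 359)) (XT.lf (nat_lit 0) (nat_lit 6428940684) (nat_lit 456) (nat_lit 79492498) (nat_lit 532) (nat_lit 6007376069) (nat_lit 207) (nat_lit 5) (nat_lit 213) (nat_lit 5) (nat_lit 214) (nat_lit 5) (nat_lit 434) (nat_lit 408) (nat_lit 358))) (XT.nd (nat_lit 78) (nat_lit 456) (nat_lit 0) (XT.lf (nat_lit 0) (nat_lit 6945417116) (nat_lit 380) (nat_lit 4587007110) (nat_lit 456) (nat_lit 1328625847) (nat_lit 202) (nat_lit 5) (nat_lit 207) (nat_lit 5) (nat_lit 208) (nat_lit 5) (nat_lit 435) (nat_lit 408) (nat_lit 357)) (XT.lf (nat_lit 0) (nat_lit 3620840102) (nat_lit 456) (nat_lit 5704416149) (nat_lit 76) (nat_lit 3894066033) (nat_lit 196)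 (nat_lit 5) (nat_lit 202) (nat_lit 5) (nat_lit 197) (nat_lit 5) (nat_lit 436) (nat_lit 408) (nat_lit 356))))))))
noncomputable def xc62 : XT := (XT.nd (nat_lit 2028) (nat_lit 3724) (nat_lit 0) (XT.nd (nat_lit 1014) (nat_lit 2812) (nat_lit 0) (XT.nd (nat_lit 468) (nat_lit 2280) (nat_lit 0) (XT.nd (nat_lit 234) (nat_lit 988) (nat_lit 0) (XT.nd (nat_lit 78) (nat_lit 760) (nat_lit 0) (XT.lf (nat_lit 0) (nat_lit 8154466327) (nat_lit 304) (nat_lit 756271711) (nat_lit 380) (nat_lit 4680766517) (nat_lit 192) (nat_lit 5) (nat_lit 196) (nat_lit 5) (nat_lit 197) (nat_lit 5) (nat_lit 437) (nat_lit 408) (nat_lit 355)) (XT.nd (nat_lit 78) (nat_lit 304) (nat_lit 0) (XT.lf (nat_lit 0) (nat_lit 634609365) (nat_lit 456) (nat_lit 5136238803) (nat_lit 76) (nat_lit 8206476519) (nat_lit 186) (nat_lit 5) (nat_lit 192) (nat_lit 5) (nat_lit 187) (nat_lit 5) (nat_lit 438) (nat_lit 408) (nat_lit 354)) (XT.lf (nat_lit 0)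 (nat_lit 6246645985) (nat_lit 380) (nat_lit 4801750874) (nat_lit 76) (nat_lit 3328821410) (nat_lit 182) (nat_lit 5) (nat_lit 187) (nat_lit 5) (nat_lit 183) (nat_lit 5) (nat_lit 439) (nat_lit 408) (nat_lit 353)))) (XT.nd (nat_lit 78) (nat_lit 684) (nat_lit 0) (XT.lf (nat_lit 0) (nat_lit 10390578428) (nat_lit 304) (nat_lit 1899753546) (nat_lit 380) (nat_lit 2502246645) (nat_lit 178) (nat_lit 5) (nat_lit 182) (nat_lit 5) (nat_lit 183) (nat_lit 5) (nat_lit 440) (nat_lit 408) (nat_lit 352)) (XT.nd (nat_lit 78) (nat_lit 304) (nat_lit 0) (XT.lf (nat_lit 0) (nat_lit 3516412279) (nat_lit 380) (nat_lit 3983854191) (nat_lit 76) (nat_lit 7722198834) (nat_lit 173) (nat_lit 5) (nat_lit 178) (nat_lit 5) (nat_lit 174) (nat_lit 5) (nat_lit 441) (nat_lit 408) (nat_lit 351)) (XT.lf (nat_lit 0) (nat_lit 9931475196) (nat_lit 380) (nat_lit 3503143744) (nat_lit 76) (nat_lit 2234070596) (nat_lit 169) (nat_lit 5) (nat_lit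 174) (nat_lit 5) (nat_lit 170) (nat_lit 5) (nat_lit 442) (nat_lit 408) (nat_lit 350))))) (XT.nd (nat_lit 234) (nat_lit 1368) (nat_lit 0) (XT.nd (nat_lit 78) (nat_lit 532) (nat_lit 0) (XT.lf (nat_lit 0) (nat_lit 709659384) (nat_lit 380) (nat_lit 2972610246) (nat_lit 76) (nat_lit 12449107254) (nat_lit 164) (nat_lit 5) (nat_lit 169) (nat_lit 5) (nat_lit 165) (nat_lit 5) (nat_lit 443) (nat_lit 408) (nat_lit 349)) (XT.nd (nat_lit 78) (nat_lit 228) (nat_lit 0) (XT.lf (nat_lit 0) (nat_lit 7545470852) (nat_lit 380) (nat_lit 2429529590) (nat_lit 76) (nat_lit 6634939308) (nat_lit 160) (nat_lit 5) (nat_lit 165) (nat_lit 5) (nat_lit 161) (nat_lit 5) (nat_lit 444) (nat_lit 408) (nat_lit 348)) (XT.lf (nat_lit 0) (nat_lit 14889861515) (nat_lit 304) (nat_lit 1790677059) (nat_lit 76) (nat_lit 426891121) (nat_lit 157) (nat_lit 5) (nat_lit 161) (nat_lit 5) (nat_lit 158) (nat_lit 5) (nat_lit 445) (nat_lit 408) (nat_lit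 347)))) (XT.nd (nat_lit 156) (nat_lit 760) (nat_lit 0) (XT.nd (nat_lit 78) (nat_lit 228) (nat_lit 0) (XT.lf (nat_lit 0) (nat_lit 5110361548) (nat_lit 380) (nat_lit 1160559950) (nat_lit 76) (nat_lit 11350370337) (nat_lit 152) (nat_lit 5) (nat_lit 157) (nat_lit 5) (nat_lit 153) (nat_lit 5) (nat_lit 446) (nat_lit 408) (nat_lit 346)) (XT.lf (nat_lit 0) (nat_lit 12944966780) (nat_lit 304) (nat_lit 456746153) (nat_lit 76) (nat_lit 4752893500) (nat_lit 149) (nat_lit 5) (nat_lit 153) (nat_lit 5) (nat_lit 150) (nat_lit 5) (nat_lit 447) (nat_lit 408) (nat_lit 345))) (XT.nd (nat_lit 78) (nat_lit 228) (nat_lit 0) (XT.lf (nat_lit 0) (nat_lit 310807187) (nat_lit 228) (nat_lit 2312681891) (nat_lit 304) (nat_lit 16083949945) (nat_lit 142) (nat_lit 5) (nat_lit 145) (nat_lit 5) (nat_lit 146) (nat_lit 5) (nat_lit 448) (nat_lit 408) (nat_lit 344)) (XT.lf (nat_lit 0) (nat_lit 1092925333) (nat_lit 228) (nat_lit 9898528849)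 (nat_lit 304) (nat_lit 8287385956) (nat_lit 139) (nat_lit 5) (nat_lit 142) (nat_lit 5) (nat_lit 143) (nat_lit 5) (nat_lit 449) (nat_lit 408) (nat_lit 343)))))) (XT.nd (nat_lit 468) (nat_lit 1368) (nat_lit 0) (XT.nd (nat_lit 234) (nat_lit 760) (nat_lit 0) (XT.nd (nat_lit 78) (nat_lit 380) (nat_lit 0) (XT.lf (nat_lit 0) (nat_lit 105718436) (nat_lit 304) (nat_lit 17887192910) (nat_lit 76) (nat_lit 1879788708) (nat_lit 135) (nat_lit 5) (nat_lit 139) (nat_lit 5) (nat_lit 136) (nat_lit 5) (nat_lit 450) (nat_lit 408) (nat_lit 342)) (XT.nd (nat_lit 78) (nat_lit 152) (nat_lit 0) (XT.lf (nat_lit 0) (nat_lit 2847572802) (nat_lit 228) (nat_lit 6171132296) (nat_lit 304) (nat_lit 11466939352) (nat_lit 132) (nat_lit 5) (nat_lit 135) (nat_lit 5) (nat_lit 136) (nat_lit 5) (nat_lit 451) (nat_lit 408) (nat_lit 341)) (XT.lf (nat_lit 0) (nat_lit 3805272589) (nat_lit 152) (nat_lit 14809479166) (nat_lit 228) (nat_lit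 2507363680) (nat_lit 130) (nat_lit 5) (nat_lit 132) (nat_lit 5) (nat_lit 133) (nat_lit 5) (nat_lit 452) (nat_lit 408) (nat_lit 340)))) (XT.nd (nat_lit 78) (nat_lit 456) (nat_lit 0) (XT.lf (nat_lit 0) (nat_lit 4792504590) (nat_lit 228) (nat_lit 2220638684) (nat_lit 304) (nat_lit 14767850388) (nat_lit 126) (nat_lit 5) (nat_lit 129) (nat_lit 5) (nat_lit 130) (nat_lit 5) (nat_lit 453) (nat_lit 408) (nat_lit 339)) (XT.nd (nat_lit 78) (nat_lit 304) (nat_lit 0) (XT.lf (nat_lit 0) (nat_lit 5808427932) (nat_lit 152) (nat_lit 11448440146) (nat_lit 228) (nat_lit 5206232989) (nat_lit 124) (nat_lit 5) (nat_lit 126) (nat_lit 5) (nat_lit 127) (nat_lit 5) (nat_lit 454) (nat_lit 408) (nat_lit 338)) (XT.lf (nat_lit 0) (nat_lit 4981403446) (nat_lit 304) (nat_lit 16272064850) (nat_lit 76) (nat_lit 1917185359) (nat_lit 120) (nat_lit 5) (nat_lit 124) (nat_lit 5) (nat_lit 121) (nat_lit 5) (nat_lit 455) (nat_lit 408)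 (nat_lit 337))))) (XT.nd (nat_lit 234) (nat_lit 760) (nat_lit 0) (XT.nd (nat_lit 78) (nat_lit 456) (nat_lit 0) (XT.lf (nat_lit 0) (nat_lit 7983671633) (nat_lit 152) (nat_lit 7912490628) (nat_lit 228) (nat_lit 8006114113) (nat_lit 118) (nat_lit 5) (nat_lit 120) (nat_lit 5) (nat_lit 121) (nat_lit 5) (nat_lit 456) (nat_lit 408) (nat_lit 336)) (XT.nd (nat_lit 78) (nat_lit 152) (nat_lit 0) (XT.lf (nat_lit 0) (nat_lit 2912425824) (nat_lit 304) (nat_lit 15515477673) (nat_lit 76) (nat_lit 6233443385) (nat_lit 114) (nat_lit 5) (nat_lit 118) (nat_lit 5) (nat_lit 115) (nat_lit 5) (nat_lit 457) (nat_lit 408) (nat_lit 335)) (XT.lf (nat_lit 0) (nat_lit 10312653100) (nat_lit 152) (nat_lit 4205525160) (nat_lit 228) (nat_lit 10928609828) (nat_lit 112) (nat_lit 5) (nat_lit 114) (nat_lit 5) (nat_lit 115) (nat_lit 5) (nat_lit 458) (nat_lit 408) (nat_lit 334)))) (XT.nd (nat_lit 156) (nat_lit 380) (nat_lit 0) (XT.nd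 (nat_lit 78) (nat_lit 152) (nat_lit 0) (XT.lf (nat_lit 0) (nat_lit 764765461) (nat_lit 228) (nat_lit 14726585271) (nat_lit 76) (nat_lit 10769812130) (nat_lit 109) (nat_lit 5) (nat_lit 112) (nat_lit 5) (nat_lit 110) (nat_lit 5) (nat_lit 459) (nat_lit 408) (nat_lit 333)) (XT.lf (nat_lit 0) (nat_lit 12769554187) (nat_lit 152) (nat_lit 334465421) (nat_lit 228) (nat_lit 14000374746) (nat_lit 107) (nat_lit 5) (nat_lit 109) (nat_lit 5) (nat_lit 110) (nat_lit 5) (nat_lit 460) (nat_lit 408) (nat_lit 332))) (XT.nd (nat_lit 78) (nat_lit 228) (nat_lit 0) (XT.lf (nat_lit 0) (nat_lit 14019676189) (nat_lit 152) (nat_lit 12441672668) (nat_lit 228) (nat_lit 1516406158) (nat_lit 105) (nat_lit 5) (nat_lit 107) (nat_lit 5) (nat_lit 108) (nat_lit 5) (nat_lit 461) (nat_lit 408) (nat_lit 331)) (XT.lf (nat_lit 0) (nat_lit 11664949339) (nat_lit 228) (nat_lit 13599669044) (nat_lit 76) (nat_lit 3617841844) (nat_lit 102)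 (nat_lit 5) (nat_lit 105) (nat_lit 5) (nat_lit 103) (nat_lit 5) (nat_lit 462) (nat_lit 408) (nat_lit 330))))))) (XT.nd (nat_lit 1014) (nat_lit 1596) (nat_lit 0) (XT.nd (nat_lit 468) (nat_lit 1064) (nat_lit 0) (XT.nd (nat_lit 234) (nat_lit 532) (nat_lit 0) (XT.nd (nat_lit 78) (nat_lit 380) (nat_lit 0) (XT.lf (nat_lit 0) (nat_lit 16566884130) (nat_lit 152) (nat_lit 9302442592) (nat_lit 228) (nat_lit 3950764940) (nat_lit 100) (nat_lit 5) (nat_lit 102) (nat_lit 5) (nat_lit 103) (nat_lit 5) (nat_lit 463) (nat_lit 408) (nat_lit 329)) (XT.nd (nat_lit 78) (nat_lit 152) (nat_lit 0) (XT.lf (nat_lit 0) (nat_lit 10139480685) (nat_lit 228) (nat_lit 12953233640) (nat_lit 76) (nat_lit 7698366466) (nat_lit 97) (nat_lit 5) (nat_lit 100) (nat_lit 5) (nat_lit 98) (nat_lit 5) (nat_lit 464) (nat_lit 408) (nat_lit 328)) (XT.lf (nat_lit 0) (nat_lit 19130875425) (nat_lit 152) (nat_lit 6104591047) (nat_lit 228) (nat_lit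 6562492088) (nat_lit 95) (nat_lit 5) (nat_lit 97) (nat_lit 5) (nat_lit 98) (nat_lit 5) (nat_lit 465) (nat_lit 408) (nat_lit 327)))) (XT.nd (nat_lit 78) (nat_lit 304) (nat_lit 0) (XT.lf (nat_lit 0) (nat_lit 8486048313) (nat_lit 228) (nat_lit 12462277096) (nat_lit 76) (nat_lit 11892013994) (nat_lit 92) (nat_lit 5) (nat_lit 95) (nat_lit 5) (nat_lit 93) (nat_lit 5) (nat_lit 466) (nat_lit 408) (nat_lit 326)) (XT.nd (nat_lit 78) (nat_lit 152) (nat_lit 0) (XT.lf (nat_lit 0) (nat_lit 21643370360) (nat_lit 152) (nat_lit 2878579398) (nat_lit 228) (nat_lit 9399821241) (nat_lit 90) (nat_lit 5) (nat_lit 92) (nat_lit 5) (nat_lit 93) (nat_lit 5) (nat_lit 467) (nat_lit 408) (nat_lit 325)) (XT.lf (nat_lit 0) (nat_lit 6657174294) (nat_lit 152) (nat_lit 12214338384) (nat_lit 76) (nat_lit 16169611115) (nat_lit 88) (nat_lit 5) (nat_lit 90) (nat_lit 5) (nat_lit 89) (nat_lit 5) (nat_lit 468) (nat_lit 408) (nat_lit 324)))))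 (XT.nd (nat_lit 234) (nat_lit 608) (nat_lit 0) (XT.nd (nat_lit 78) (nat_lit 304) (nat_lit 0) (XT.lf (nat_lit 0) (nat_lit 23684634075) (nat_lit 228) (nat_lit 12188467982) (nat_lit 76) (nat_lit 329690210) (nat_lit 86) (nat_lit 5) (nat_lit 89) (nat_lit 5) (nat_lit 87) (nat_lit 4) (nat_lit 469) (nat_lit 408) (nat_lit 323)) (XT.nd (nat_lit 78) (nat_lit 152) (nat_lit 0) (XT.lf (nat_lit 0) (nat_lit 4594494188) (nat_lit 152) (nat_lit 12318103103) (nat_lit 76) (nat_lit 20492721985) (nat_lit 84) (nat_lit 5) (nat_lit 86) (nat_lit 5) (nat_lit 85) (nat_lit 5) (nat_lit 470) (nat_lit 408) (nat_lit 322)) (XT.lf (nat_lit 0) (nat_lit 22688564406) (nat_lit 228) (nat_lit 12542485782) (nat_lit 76) (nat_lit 3421664296) (nat_lit 82) (nat_lit 5) (nat_lit 85) (nat_lit 5) (nat_lit 83) (nat_lit 4) (nat_lit 471) (nat_lit 408) (nat_lit 321)))) (XT.nd (nat_lit 156) (nat_lit 304) (nat_lit 0) (XT.nd (nat_lit 78) (nat_lit 152)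 (nat_lit 0) (XT.lf (nat_lit 0) (nat_lit 2226674964) (nat_lit 152) (nat_lit 12907617326) (nat_lit 76) (nat_lit 24811625988) (nat_lit 80) (nat_lit 5) (nat_lit 82) (nat_lit 5) (nat_lit 81) (nat_lit 5) (nat_lit 472) (nat_lit 408) (nat_lit 320)) (XT.lf (nat_lit 0) (nat_lit 21433011340) (nat_lit 228) (nat_lit 13461404947) (nat_lit 76) (nat_lit 6391540605) (nat_lit 78) (nat_lit 5) (nat_lit 81) (nat_lit 5) (nat_lit 79) (nat_lit 4) (nat_lit 473) (nat_lit 408) (nat_lit 319))) (XT.nd (nat_lit 78) (nat_lit 228) (nat_lit 0) (XT.lf (nat_lit 0) (nat_lit 28524498235) (nat_lit 76) (nat_lit 13608834547) (nat_lit 152) (nat_lit 543655036) (nat_lit 77) (nat_lit 5) (nat_lit 78) (nat_lit 5) (nat_lit 79) (nat_lit 4) (nat_lit 474) (nat_lit 408) (nat_lit 318)) (XT.lf (nat_lit 0) (nat_lit 19828494437) (nat_lit 228) (nat_lit 15127005135) (nat_lit 76) (nat_lit 9161908515) (nat_lit 74) (nat_lit 5) (nat_lit 77) (nat_lit 5) (nat_lit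 75) (nat_lit 4) (nat_lit 475) (nat_lit 408) (nat_lit 317)))))) (XT.nd (nat_lit 546) (nat_lit 684) (nat_lit 0) (XT.nd (nat_lit 234) (nat_lit 532) (nat_lit 0) (XT.nd (nat_lit 78) (nat_lit 304) (nat_lit 0) (XT.lf (nat_lit 0) (nat_lit 29338692130) (nat_lit 76) (nat_lit 12409594690) (nat_lit 152) (nat_lit 3865193075) (nat_lit 73) (nat_lit 5) (nat_lit 74) (nat_lit 5) (nat_lit 75) (nat_lit 4) (nat_lit 476) (nat_lit 408) (nat_lit 316)) (XT.nd (nat_lit 78) (nat_lit 76) (nat_lit 0) (XT.lf (nat_lit 0) (nat_lit 17765982404) (nat_lit 228) (nat_lit 17760601621) (nat_lit 76) (nat_lit 11636822637) (nat_lit 70) (nat_lit 5) (nat_lit 73) (nat_lit 5) (nat_lit 71) (nat_lit 4) (nat_lit 477) (nat_lit 408) (nat_lit 315)) (XT.lf (nat_lit 0) (nat_lit 29275491559) (nat_lit 76) (nat_lit 11674636628) (nat_lit 152) (nat_lit 7823013347) (nat_lit 69) (nat_lit 5) (nat_lit 70) (nat_lit 5) (nat_lit 71) (nat_lit 4) (nat_lit 478)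 (nat_lit 408) (nat_lit 314)))) (XT.nd (nat_lit 156) (nat_lit 228) (nat_lit 0) (XT.nd (nat_lit 78) (nat_lit 76) (nat_lit 0) (XT.lf (nat_lit 0) (nat_lit 15113200297) (nat_lit 228) (nat_lit 21630563871) (nat_lit 76) (nat_lit 13698148467) (nat_lit 66) (nat_lit 5) (nat_lit 69) (nat_lit 5) (nat_lit 67) (nat_lit 4) (nat_lit 479) (nat_lit 408) (nat_lit 313)) (XT.lf (nat_lit 0) (nat_lit 28057181344) (nat_lit 76) (nat_lit 11544766827) (nat_lit 152) (nat_lit 12572825282) (nat_lit 65) (nat_lit 5) (nat_lit 66) (nat_lit 5) (nat_lit 67) (nat_lit 4) (nat_lit 480) (nat_lit 408) (nat_lit 312))) (XT.nd (nat_lit 78) (nat_lit 76) (nat_lit 0) (XT.lf (nat_lit 0) (nat_lit 11710275336) (nat_lit 152) (nat_lit 27061173973) (nat_lit 76) (nat_lit 15201253690) (nat_lit 63) (nat_lit 5) (nat_lit 65) (nat_lit 5) (nat_lit 64) (nat_lit 4) (nat_lit 481) (nat_lit 408) (nat_lit 311)) (XT.lf (nat_lit 0) (nat_lit 25346755236) (nat_lit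 76) (nat_lit 12190824308) (nat_lit 152) (nat_lit 18301513016) (nat_lit 62) (nat_lit 5) (nat_lit 63) (nat_lit 5) (nat_lit 64) (nat_lit 4) (nat_lit 482) (nat_lit 408) (nat_lit 310))))) (XT.nd (nat_lit 234) (nat_lit 304) (nat_lit 0) (XT.nd (nat_lit 78) (nat_lit 228) (nat_lit 0) (XT.lf (nat_lit 0) (nat_lit 7364606773) (nat_lit 152) (nat_lit 34443057808) (nat_lit 76) (nat_lit 15969930531) (nat_lit 60) (nat_lit 5) (nat_lit 62) (nat_lit 5) (nat_lit 61) (nat_lit 4) (nat_lit 483) (nat_lit 408) (nat_lit 309)) (XT.nd (nat_lit 78) (nat_lit 152) (nat_lit 0) (XT.lf (nat_lit 0) (nat_lit 20736781609) (nat_lit 76) (nat_lit 13819338015) (nat_lit 152) (nat_lit 25232849588) (nat_lit 59) (nat_lit 5) (nat_lit 60) (nat_lit 5) (nat_lit 61) (nat_lit 4) (nat_lit 484) (nat_lit 408) (nat_lit 308)) (XT.lf (nat_lit 0) (nat_lit 1844825572) (nat_lit 152) (nat_lit 44245461752) (nat_lit 76) (nat_lit 15790414975) (nat_lit 57) (nat_lit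 5) (nat_lit 59) (nat_lit 5) (nat_lit 58) (nat_lit 4) (nat_lit 485) (nat_lit 408) (nat_lit 307)))) (XT.nd (nat_lit 156) (nat_lit 152) (nat_lit 0) (XT.nd (nat_lit 78) (nat_lit 76) (nat_lit 0) (XT.lf (nat_lit 0) (nat_lit 13736294918) (nat_lit 76) (nat_lit 16679184896) (nat_lit 152) (nat_lit 33634219039) (nat_lit 56) (nat_lit 5) (nat_lit 57) (nat_lit 5) (nat_lit 58) (nat_lit 4) (nat_lit 486) (nat_lit 408) (nat_lit 306)) (XT.lf (nat_lit 0) (nat_lit 9226266621) (nat_lit 76) (nat_lit 51852615334) (nat_lit 76) (nat_lit 5228337014) (nat_lit 55) (nat_lit 4) (nat_lit 56) (nat_lit 5) (nat_lit 56) (nat_lit 4) (nat_lit 487) (nat_lit 408) (nat_lit 305))) (XT.nd (nat_lit 78) (nat_lit 0) (nat_lit 0) (XT.lf (nat_lit 0) (nat_lit 3755370916) (nat_lit 76) (nat_lit 21069422331) (nat_lit 152) (nat_lit 43824520141) (nat_lit 53) (nat_lit 5) (nat_lit 54) (nat_lit 5) (nat_lit 55) (nat_lit 4) (nat_lit 488) (nat_lit 408) (nat_lit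 304)) (XT.lf (nat_lit 0) (nat_lit 56954901079) (nat_lit 152) (nat_lit 2470801836) (nat_lit 0) (nat_lit 11660783276) (nat_lit 53) (nat_lit 5) (nat_lit 55) (nat_lit 4) (nat_lit 53) (nat_lit 4) (nat_lit 489) (nat_lit 408) (nat_lit 303))))))))
noncomputable def xc63 : XT := (XT.nd (nat_lit 57486) (nat_lit 0) (nat_lit 6916) (XT.nd (nat_lit 56472) (nat_lit 0) (nat_lit 17708) (XT.nd (nat_lit 468) (nat_lit 228) (nat_lit 0) (XT.nd (nat_lit 234) (nat_lit 304) (nat_lit 0) (XT.nd (nat_lit 78) (nat_lit 228) (nat_lit 0) (XT.lf (nat_lit 0) (nat_lit 17530773333) (nat_lit 152) (nat_lit 9719576238) (nat_lit 76) (nat_lit 46365730357) (nat_lit 51) (nat_lit 5) (nat_lit 53) (nat_lit 5) (nat_lit 52) (nat_lit 4) (nat_lit 490) (nat_lit 408) (nat_lit 302)) (XT.nd (nat_lit 78) (nat_lit 152) (nat_lit 0) (XT.lf (nat_lit 0) (nat_lit 51124050686) (nat_lit 152) (nat_lit 18000030163) (nat_lit 0) (nat_lit 7124673236) (nat_lit 50)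 (nat_lit 5) (nat_lit 52) (nat_lit 4) (nat_lit 50) (nat_lit 4) (nat_lit 491) (nat_lit 408) (nat_lit 301)) (XT.lf (nat_lit 0) (nat_lit 8101014510) (nat_lit 152) (nat_lit 27565702802) (nat_lit 76) (nat_lit 43318380261) (nat_lit 48) (nat_lit 5) (nat_lit 50) (nat_lit 5) (nat_lit 49) (nat_lit 4) (nat_lit 492) (nat_lit 408) (nat_lit 300)))) (XT.nd (nat_lit 78) (nat_lit 228) (nat_lit 0) (XT.lf (nat_lit 0) (nat_lit 43062549296) (nat_lit 152) (nat_lit 38447294802) (nat_lit 0) (nat_lit 323127032) (nat_lit 47) (nat_lit 5) (nat_lit 49) (nat_lit 4) (nat_lit 47) (nat_lit 4) (nat_lit 493) (nat_lit 408) (nat_lit 299)) (XT.nd (nat_lit 78) (nat_lit 152) (nat_lit 0) (XT.lf (nat_lit 0) (nat_lit 33909950234) (nat_lit 76) (nat_lit 46817045529) (nat_lit 76) (nat_lit 4067597677) (nat_lit 46) (nat_lit 4) (nat_lit 47) (nat_lit 5) (nat_lit 47) (nat_lit 4) (nat_lit 494) (nat_lit 408) (nat_lit 298)) (XT.lf (nat_lit 0) (nat_lit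 22893482441) (nat_lit 76) (nat_lit 9447639959) (nat_lit 152) (nat_lit 55535767152) (nat_lit 44) (nat_lit 5) (nat_lit 45) (nat_lit 5) (nat_lit 46) (nat_lit 4) (nat_lit 495) (nat_lit 408) (nat_lit 297))))) (XT.nd (nat_lit 55692) (nat_lit 0) (nat_lit 25080) (XT.nd (nat_lit 78) (nat_lit 152) (nat_lit 0) (XT.lf (nat_lit 0) (nat_lit 10158283828) (nat_lit 76) (nat_lit 61224660933) (nat_lit 76) (nat_lit 19702243908) (nat_lit 43) (nat_lit 4) (nat_lit 44) (nat_lit 5) (nat_lit 44) (nat_lit 4) (nat_lit 496) (nat_lit 408) (nat_lit 296)) (XT.nd (nat_lit 78) (nat_lit 76) (nat_lit 0) (XT.lf (nat_lit 0) (nat_lit 18327473772) (nat_lit 152) (nat_lit 4326053499) (nat_lit 76) (nat_lit 71772579187) (nat_lit 42) (nat_lit 5) (nat_lit 44) (nat_lit 5) (nat_lit 43) (nat_lit 4) (nat_lit 497) (nat_lit 408) (nat_lit 295)) (XT.lf (nat_lit 0) (nat_lit 58763719809) (nat_lit 152) (nat_lit 20702367185) (nat_lit 0) (nat_lit 18434755635)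 (nat_lit 41) (nat_lit 5) (nat_lit 43) (nat_lit 4) (nat_lit 41) (nat_lit 4) (nat_lit 498) (nat_lit 408) (nat_lit 294)))) (XT.nd (nat_lit 156) (nat_lit 836) (nat_lit 0) (XT.nd (nat_lit 78) (nat_lit 0) (nat_lit 0) (XT.lf (nat_lit 0) (nat_lit 407266731) (nat_lit 0) (nat_lit 407266731) (nat_lit 836) (nat_lit 2873955427) (nat_lit 382) (nat_lit 5) (nat_lit 382) (nat_lit 3) (nat_lit 393) (nat_lit 3) (nat_lit 409) (nat_lit 409) (nat_lit 382)) (XT.lf (nat_lit 0) (nat_lit 4214202271) (nat_lit 836) (nat_lit 477007691) (nat_lit 912) (nat_lit 2793570698) (nat_lit 382) (nat_lit 5) (nat_lit 393) (nat_lit 3) (nat_lit 394) (nat_lit 5) (nat_lit 410) (nat_lit 409) (nat_lit 381))) (XT.nd (nat_lit 78) (nat_lit 836) (nat_lit 0) (XT.lf (nat_lit 76) (nat_lit 5934087993) (nat_lit 0) (nat_lit 899423392) (nat_lit 912) (nat_lit 767333311) (nat_lit 383) (nat_lit 5) (nat_lit 382) (nat_lit 5) (nat_lit 394) (nat_lit 5) (nat_lit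 411) (nat_lit 409) (nat_lit 380)) (XT.lf (nat_lit 0) (nat_lit 1753175487) (nat_lit 912) (nat_lit 2811371067) (nat_lit 988) (nat_lit 3159793276) (nat_lit 371) (nat_lit 5) (nat_lit 383) (nat_lit 5) (nat_lit 384) (nat_lit 5) (nat_lit 412) (nat_lit 409) (nat_lit 379)))))) (XT.nd (nat_lit 468) (nat_lit 5548) (nat_lit 0) (XT.nd (nat_lit 234) (nat_lit 988) (nat_lit 0) (XT.nd (nat_lit 78) (nat_lit 836) (nat_lit 0) (XT.lf (nat_lit 76) (nat_lit 3974154991) (nat_lit 0) (nat_lit 326577063) (nat_lit 988) (nat_lit 3555559296) (nat_lit 372) (nat_lit 5) (nat_lit 371) (nat_lit 5) (nat_lit 384) (nat_lit 5) (nat_lit 413) (nat_lit 409) (nat_lit 378)) (XT.nd (nat_lit 78) (nat_lit 912) (nat_lit 0) (XT.lf (nat_lit 76) (nat_lit 3092511468) (nat_lit 0) (nat_lit 3840614477) (nat_lit 988) (nat_lit 1063006249) (nat_lit 373) (nat_lit 5) (nat_lit 372) (nat_lit 5) (nat_lit 385) (nat_lit 5) (nat_lit 414) (nat_lit 409) (nat_lit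 377)) (XT.lf (nat_lit 0) (nat_lit 1460933548) (nat_lit 988) (nat_lit 5863159194) (nat_lit 1064) (nat_lit 820325907) (nat_lit 360) (nat_lit 5) (nat_lit 373) (nat_lit 5) (nat_lit 374) (nat_lit 5) (nat_lit 415) (nat_lit 409) (nat_lit 376)))) (XT.nd (nat_lit 78) (nat_lit 988) (nat_lit 0) (XT.lf (nat_lit 76) (nat_lit 1515358489) (nat_lit 0) (nat_lit 2547672565) (nat_lit 1064) (nat_lit 4237567949) (nat_lit 361) (nat_lit 5) (nat_lit 360) (nat_lit 5) (nat_lit 374) (nat_lit 5) (nat_lit 416) (nat_lit 409) (nat_lit 375)) (XT.nd (nat_lit 78) (nat_lit 1064) (nat_lit 0) (XT.lf (nat_lit 76) (nat_lit 819328130) (nat_lit 0) (nat_lit 5943562325) (nat_lit 1064) (nat_lit 1702681233) (nat_lit 362) (nat_lit 5) (nat_lit 361) (nat_lit 5) (nat_lit 375) (nat_lit 5) (nat_lit 417) (nat_lit 409) (nat_lit 374)) (XT.lf (nat_lit 76) (nat_lit 182567431) (nat_lit 0) (nat_lit 734649052) (nat_lit 1140) (nat_lit 7722002652) (nat_lit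 348) (nat_lit 5) (nat_lit 347) (nat_lit 5) (nat_lit 362) (nat_lit 5) (nat_lit 418) (nat_lit 409) (nat_lit 373))))) (XT.nd (nat_lit 234) (nat_lit 3344) (nat_lit 0) (XT.nd (nat_lit 78) (nat_lit 2280) (nat_lit 0) (XT.lf (nat_lit 0) (nat_lit 3642309743) (nat_lit 1064) (nat_lit 415670779) (nat_lit 76) (nat_lit 4762791713) (nat_lit 348) (nat_lit 5) (nat_lit 362) (nat_lit 5) (nat_lit 349) (nat_lit 5) (nat_lit 419) (nat_lit 409) (nat_lit 372)) (XT.nd (nat_lit 78) (nat_lit 1216) (nat_lit 0) (XT.lf (nat_lit 0) (nat_lit 6493870232) (nat_lit 1140) (nat_lit 940941998) (nat_lit 76) (nat_lit 1576895310) (nat_lit 334) (nat_lit 5) (nat_lit 349) (nat_lit 5) (nat_lit 335) (nat_lit 5) (nat_lit 420) (nat_lit 409) (nat_lit 371)) (XT.lf (nat_lit 0) (nat_lit 284982313) (nat_lit 1216) (nat_lit 1417060231) (nat_lit 76) (nat_lit 7509641263) (nat_lit 318) (nat_lit 5) (nat_lit 334) (nat_lit 5) (nat_lit 319) (nat_lit 5) (nat_lit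 421) (nat_lit 409) (nat_lit 370)))) (XT.nd (nat_lit 156) (nat_lit 1292) (nat_lit 0) (XT.nd (nat_lit 78) (nat_lit 836) (nat_lit 0) (XT.lf (nat_lit 0) (nat_lit 3199188510) (nat_lit 1292) (nat_lit 1867416066) (nat_lit 76) (nat_lit 4353616510) (nat_lit 302) (nat_lit 5) (nat_lit 319) (nat_lit 5) (nat_lit 303) (nat_lit 5) (nat_lit 422) (nat_lit 409) (nat_lit 369)) (XT.lf (nat_lit 0) (nat_lit 6274500345) (nat_lit 912) (nat_lit 2252578035) (nat_lit 76) (nat_lit 1111654152) (nat_lit 291) (nat_lit 5) (nat_lit 303) (nat_lit 5) (nat_lit 292) (nat_lit 5) (nat_lit 423) (nat_lit 409) (nat_lit 368))) (XT.nd (nat_lit 78) (nat_lit 684) (nat_lit 0) (XT.lf (nat_lit 0) (nat_lit 7272467494) (nat_lit 608) (nat_lit 2276937343) (nat_lit 684) (nat_lit 317398626) (nat_lit 283) (nat_lit 5) (nat_lit 291) (nat_lit 5) (nat_lit 292) (nat_lit 5) (nat_lit 424) (nat_lit 409) (nat_lit 367)) (XT.lf (nat_lit 0) (nat_lit 2869036186)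 (nat_lit 684) (nat_lit 2910420251) (nat_lit 76) (nat_lit 4324693728) (nat_lit 274) (nat_lit 5) (nat_lit 283) (nat_lit 5) (nat_lit 275) (nat_lit 5) (nat_lit 425) (nat_lit 409) (nat_lit 366))))))) (XT.nd (nat_lit 1014) (nat_lit 4560) (nat_lit 0) (XT.nd (nat_lit 468) (nat_lit 2964) (nat_lit 0) (XT.nd (nat_lit 234) (nat_lit 1520) (nat_lit 0) (XT.nd (nat_lit 78) (nat_lit 1216) (nat_lit 0) (XT.lf (nat_lit 0) (nat_lit 6248235273) (nat_lit 608) (nat_lit 3165931150) (nat_lit 76) (nat_lit 937910982) (nat_lit 267) (nat_lit 5) (nat_lit 275) (nat_lit 5) (nat_lit 268) (nat_lit 5) (nat_lit 426) (nat_lit 409) (nat_lit 365)) (XT.nd (nat_lit 78) (nat_lit 608) (nat_lit 0) (XT.lf (nat_lit 0) (nat_lit 7228170837) (nat_lit 608) (nat_lit 2641247129) (nat_lit 684) (nat_lit 740799649) (nat_lit 259) (nat_lit 5) (nat_lit 267) (nat_lit 5) (nat_lit 268) (nat_lit 5) (nat_lit 427) (nat_lit 409) (nat_lit 364)) (XT.lf (nat_lit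 0) (nat_lit 2801073899) (nat_lit 608) (nat_lit 3569966930) (nat_lit 76) (nat_lit 4507472196) (nat_lit 251) (nat_lit 5) (nat_lit 259) (nat_lit 5) (nat_lit 252) (nat_lit 5) (nat_lit 428) (nat_lit 409) (nat_lit 363)))) (XT.nd (nat_lit 78) (nat_lit 988) (nat_lit 0) (XT.lf (nat_lit 0) (nat_lit 6567531063) (nat_lit 608) (nat_lit 3700607937) (nat_lit 76) (nat_lit 889986285) (nat_lit 244) (nat_lit 5) (nat_lit 252) (nat_lit 5) (nat_lit 245) (nat_lit 5) (nat_lit 429) (nat_lit 409) (nat_lit 362)) (XT.nd (nat_lit 78) (nat_lit 532) (nat_lit 0) (XT.lf (nat_lit 0) (nat_lit 7655574722) (nat_lit 456) (nat_lit 2964947807) (nat_lit 532) (nat_lit 828255424) (nat_lit 238) (nat_lit 5) (nat_lit 244) (nat_lit 5) (nat_lit 245) (nat_lit 5) (nat_lit 430) (nat_lit 409) (nat_lit 361)) (XT.lf (nat_lit 0) (nat_lit 3147872984) (nat_lit 532) (nat_lit 3858183524) (nat_lit 76) (nat_lit 4744414106) (nat_lit 231) (nat_lit 5) (nat_lit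 238) (nat_lit 5) (nat_lit 232) (nat_lit 5) (nat_lit 431) (nat_lit 409) (nat_lit 360))))) (XT.nd (nat_lit 234) (nat_lit 1596) (nat_lit 0) (XT.nd (nat_lit 78) (nat_lit 912) (nat_lit 0) (XT.lf (nat_lit 0) (nat_lit 7389938725) (nat_lit 532) (nat_lit 3863842152) (nat_lit 76) (nat_lit 810698603) (nat_lit 225) (nat_lit 5) (nat_lit 232) (nat_lit 5) (nat_lit 226) (nat_lit 5) (nat_lit 432) (nat_lit 409) (nat_lit 359)) (XT.nd (nat_lit 78) (nat_lit 456) (nat_lit 0) (XT.lf (nat_lit 0) (nat_lit 8558581668) (nat_lit 456) (nat_lit 3408964987) (nat_lit 532) (nat_lit 422944117) (nat_lit 219) (nat_lit 5) (nat_lit 225) (nat_lit 5) (nat_lit 226) (nat_lit 5) (nat_lit 433) (nat_lit 409) (nat_lit 358)) (XT.lf (nat_lit 0) (nat_lit 4069119243) (nat_lit 456) (nat_lit 3776275444) (nat_lit 76) (nat_lit 4883044918) (nat_lit 213) (nat_lit 5) (nat_lit 219) (nat_lit 5) (nat_lit 214) (nat_lit 5) (nat_lit 434) (nat_lit 409) (nat_lit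 357)))) (XT.nd (nat_lit 156) (nat_lit 684) (nat_lit 0) (XT.nd (nat_lit 78) (nat_lit 456) (nat_lit 0) (XT.lf (nat_lit 0) (nat_lit 8881813001) (nat_lit 532) (nat_lit 3652630613) (nat_lit 76) (nat_lit 545577942) (nat_lit 207) (nat_lit 5) (nat_lit 214) (nat_lit 5) (nat_lit 208) (nat_lit 5) (nat_lit 435) (nat_lit 409) (nat_lit 356)) (XT.lf (nat_lit 0) (nat_lit 628630849) (nat_lit 456) (nat_lit 3498840819) (nat_lit 76) (nat_lit 9317010343) (nat_lit 201) (nat_lit 5) (nat_lit 207) (nat_lit 5) (nat_lit 202) (nat_lit 5) (nat_lit 436) (nat_lit 409) (nat_lit 355))) (XT.nd (nat_lit 78) (nat_lit 304) (nat_lit 0) (XT.lf (nat_lit 0) (nat_lit 5735162638) (nat_lit 456) (nat_lit 3316606228) (nat_lit 76) (nat_lit 4770398347) (nat_lit 196) (nat_lit 5) (nat_lit 202) (nat_lit 5) (nat_lit 197) (nat_lit 5) (nat_lit 437) (nat_lit 409) (nat_lit 354)) (XT.lf (nat_lit 0) (nat_lit 11158598483) (nat_lit 304) (nat_lit 63854280)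 (nat_lit 380) (nat_lit 2992524761) (nat_lit 192) (nat_lit 5) (nat_lit 196) (nat_lit 5) (nat_lit 197) (nat_lit 5) (nat_lit 438) (nat_lit 409) (nat_lit 353)))))) (XT.nd (nat_lit 546) (nat_lit 2128) (nat_lit 0) (XT.nd (nat_lit 234) (nat_lit 1368) (nat_lit 0) (XT.nd (nat_lit 78) (nat_lit 608) (nat_lit 0) (XT.lf (nat_lit 0) (nat_lit 2493055440) (nat_lit 456) (nat_lit 2786928226) (nat_lit 76) (nat_lit 9341297676) (nat_lit 186) (nat_lit 5) (nat_lit 192) (nat_lit 5) (nat_lit 187) (nat_lit 5) (nat_lit 439) (nat_lit 409) (nat_lit 352)) (XT.nd (nat_lit 78) (nat_lit 304) (nat_lit 0) (XT.lf (nat_lit 0) (nat_lit 8330417271) (nat_lit 380) (nat_lit 2464771328) (nat_lit 76) (nat_lit 4247644450) (nat_lit 182) (nat_lit 5) (nat_lit 187) (nat_lit 5) (nat_lit 183) (nat_lit 5) (nat_lit 440) (nat_lit 409) (nat_lit 351)) (XT.lf (nat_lit 0) (nat_lit 13413303329) (nat_lit 304) (nat_lit 1202692244) (nat_lit 380) (nat_lit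 864779506) (nat_lit 178) (nat_lit 5) (nat_lit 182) (nat_lit 5) (nat_lit 183) (nat_lit 5) (nat_lit 441) (nat_lit 409) (nat_lit 350)))) (XT.nd (nat_lit 156) (nat_lit 684) (nat_lit 0) (XT.nd (nat_lit 78) (nat_lit 304) (nat_lit 0) (XT.lf (nat_lit 0) (nat_lit 5369463567) (nat_lit 380) (nat_lit 1675570927) (nat_lit 76) (nat_lit 8888146484) (nat_lit 173) (nat_lit 5) (nat_lit 178) (nat_lit 5) (nat_lit 174) (nat_lit 5) (nat_lit 442) (nat_lit 409) (nat_lit 349)) (XT.lf (nat_lit 0) (nat_lit 12056656570) (nat_lit 380) (nat_lit 1201824241) (nat_lit 76) (nat_lit 3144698620) (nat_lit 169) (nat_lit 5) (nat_lit 174) (nat_lit 5) (nat_lit 170) (nat_lit 5) (nat_lit 443) (nat_lit 409) (nat_lit 348))) (XT.nd (nat_lit 78) (nat_lit 304) (nat_lit 0) (XT.lf (nat_lit 0) (nat_lit 2334986812) (nat_lit 380) (nat_lit 684030908) (nat_lit 76) (nat_lit 13871152829) (nat_lit 164) (nat_lit 5) (nat_lit 169) (nat_lit 5) (nat_lit 165)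 (nat_lit 5) (nat_lit 444) (nat_lit 409) (nat_lit 347)) (XT.lf (nat_lit 0) (nat_lit 9467621198) (nat_lit 380) (nat_lit 145458315) (nat_lit 76) (nat_lit 7780934876) (nat_lit 160) (nat_lit 5) (nat_lit 165) (nat_lit 5) (nat_lit 161) (nat_lit 5) (nat_lit 445) (nat_lit 409) (nat_lit 346))))) (XT.nd (nat_lit 234) (nat_lit 1064) (nat_lit 0) (XT.nd (nat_lit 78) (nat_lit 532) (nat_lit 0) (XT.lf (nat_lit 0) (nat_lit 502981140) (nat_lit 304) (nat_lit 16638082130) (nat_lit 380) (nat_lit 776464227) (nat_lit 153) (nat_lit 5) (nat_lit 157) (nat_lit 5) (nat_lit 158) (nat_lit 5) (nat_lit 446) (nat_lit 409) (nat_lit 345)) (XT.nd (nat_lit 78) (nat_lit 228) (nat_lit 0) (XT.lf (nat_lit 0) (nat_lit 1138230176) (nat_lit 228) (nat_lit 5705556097) (nat_lit 304) (nat_lit 11614165989) (nat_lit 149) (nat_lit 5) (nat_lit 152) (nat_lit 5) (nat_lit 153) (nat_lit 5) (nat_lit 447) (nat_lit 409) (nat_lit 344)) (XT.lf (nat_lit 0)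 (nat_lit 1858847505) (nat_lit 228) (nat_lit 13178303145) (nat_lit 304) (nat_lit 3981774262) (nat_lit 146) (nat_lit 5) (nat_lit 149) (nat_lit 5) (nat_lit 150) (nat_lit 5) (nat_lit 448) (nat_lit 409) (nat_lit 343)))) (XT.nd (nat_lit 156) (nat_lit 532) (nat_lit 0) (XT.nd (nat_lit 78) (nat_lit 228) (nat_lit 0) (XT.lf (nat_lit 0) (nat_lit 2635381357) (nat_lit 228) (nat_lit 1535813931) (nat_lit 304) (nat_lit 15429060762) (nat_lit 142) (nat_lit 5) (nat_lit 145) (nat_lit 5) (nat_lit 146) (nat_lit 5) (nat_lit 449) (nat_lit 409) (nat_lit 342)) (XT.lf (nat_lit 0) (nat_lit 3423419163) (nat_lit 228) (nat_lit 9496733171) (nat_lit 304) (nat_lit 7281199887) (nat_lit 139) (nat_lit 5) (nat_lit 142) (nat_lit 5) (nat_lit 143) (nat_lit 5) (nat_lit 450) (nat_lit 409) (nat_lit 341))) (XT.nd (nat_lit 78) (nat_lit 228) (nat_lit 0) (XT.lf (nat_lit 0) (nat_lit 1467574261) (nat_lit 304) (nat_lit 16512021786) (nat_lit 76)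 (nat_lit 2845989983) (nat_lit 135) (nat_lit 5) (nat_lit 139) (nat_lit 5) (nat_lit 136) (nat_lit 5) (nat_lit 451) (nat_lit 409) (nat_lit 340)) (XT.lf (nat_lit 0) (nat_lit 5194426567) (nat_lit 228) (nat_lit 5588375885) (nat_lit 304) (nat_lit 10687679900) (nat_lit 132) (nat_lit 5) (nat_lit 135) (nat_lit 5) (nat_lit 136) (nat_lit 5) (nat_lit 452) (nat_lit 409) (nat_lit 339))))))))
noncomputable def xc64 : XT := (XT.nd (nat_lit 2028) (nat_lit 2128) (nat_lit 0) (XT.nd (nat_lit 1014) (nat_lit 2052) (nat_lit 0) (XT.nd (nat_lit 468) (nat_lit 1292) (nat_lit 0) (XT.nd (nat_lit 234) (nat_lit 760) (nat_lit 0) (XT.nd (nat_lit 78) (nat_lit 456) (nat_lit 0) (XT.lf (nat_lit 0) (nat_lit 6166811913) (nat_lit 152) (nat_lit 14658339485) (nat_lit 228) (nat_lit 1314632845) (nat_lit 130) (nat_lit 5) (nat_lit 132) (nat_lit 5) (nat_lit 133) (nat_lit 5) (nat_lit 453) (nat_lit 409) (nat_lit 338)) (XT.nd (nat_lit 78) (nat_lit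 152) (nat_lit 0) (XT.lf (nat_lit 0) (nat_lit 7166194328) (nat_lit 228) (nat_lit 1448956385) (nat_lit 304) (nat_lit 14217308572) (nat_lit 126) (nat_lit 5) (nat_lit 129) (nat_lit 5) (nat_lit 130) (nat_lit 5) (nat_lit 454) (nat_lit 409) (nat_lit 337)) (XT.lf (nat_lit 0) (nat_lit 8200006064) (nat_lit 152) (nat_lit 11139746322) (nat_lit 228) (nat_lit 4209861029) (nat_lit 124) (nat_lit 5) (nat_lit 126) (nat_lit 5) (nat_lit 127) (nat_lit 5) (nat_lit 455) (nat_lit 409) (nat_lit 336)))) (XT.nd (nat_lit 78) (nat_lit 456) (nat_lit 0) (XT.lf (nat_lit 0) (nat_lit 6432185372) (nat_lit 304) (nat_lit 14993420509) (nat_lit 76) (nat_lit 2867490752) (nat_lit 120) (nat_lit 5) (nat_lit 124) (nat_lit 5) (nat_lit 121) (nat_lit 5) (nat_lit 456) (nat_lit 409) (nat_lit 335)) (XT.nd (nat_lit 78) (nat_lit 304) (nat_lit 0) (XT.lf (nat_lit 0) (nat_lit 10415128941) (nat_lit 152) (nat_lit 7439864276) (nat_lit 228) (nat_lit 7207439764)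 (nat_lit 118) (nat_lit 5) (nat_lit 120) (nat_lit 5) (nat_lit 121) (nat_lit 5) (nat_lit 457) (nat_lit 409) (nat_lit 334)) (XT.lf (nat_lit 0) (nat_lit 4205092284) (nat_lit 304) (nat_lit 14268522074) (nat_lit 76) (nat_lit 7386354740) (nat_lit 114) (nat_lit 5) (nat_lit 118) (nat_lit 5) (nat_lit 115) (nat_lit 5) (nat_lit 458) (nat_lit 409) (nat_lit 333))))) (XT.nd (nat_lit 234) (nat_lit 760) (nat_lit 0) (XT.nd (nat_lit 78) (nat_lit 380) (nat_lit 0) (XT.lf (nat_lit 0) (nat_lit 12793034104) (nat_lit 152) (nat_lit 3562363402) (nat_lit 228) (nat_lit 10330358511) (nat_lit 112) (nat_lit 5) (nat_lit 114) (nat_lit 5) (nat_lit 115) (nat_lit 5) (nat_lit 459) (nat_lit 409) (nat_lit 332)) (XT.nd (nat_lit 78) (nat_lit 152) (nat_lit 0) (XT.lf (nat_lit 0) (nat_lit 1898558092) (nat_lit 228) (nat_lit 13508205602) (nat_lit 76) (nat_lit 12134560939) (nat_lit 109) (nat_lit 5) (nat_lit 112) (nat_lit 5) (nat_lit 110) (nat_lit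 5) (nat_lit 460) (nat_lit 409) (nat_lit 331)) (XT.lf (nat_lit 0) (nat_lit 14825527254) (nat_lit 228) (nat_lit 13125697478) (nat_lit 76) (nat_lit 476371814) (nat_lit 107) (nat_lit 5) (nat_lit 110) (nat_lit 5) (nat_lit 108) (nat_lit 5) (nat_lit 461) (nat_lit 409) (nat_lit 330)))) (XT.nd (nat_lit 156) (nat_lit 380) (nat_lit 0) (XT.nd (nat_lit 78) (nat_lit 228) (nat_lit 0) (XT.lf (nat_lit 0) (nat_lit 16588060526) (nat_lit 152) (nat_lit 12233051615) (nat_lit 228) (nat_lit 524402774) (nat_lit 105) (nat_lit 5) (nat_lit 107) (nat_lit 5) (nat_lit 108) (nat_lit 5) (nat_lit 462) (nat_lit 409) (nat_lit 329)) (XT.lf (nat_lit 0) (nat_lit 13270834099) (nat_lit 228) (nat_lit 12422923968) (nat_lit 76) (nat_lit 4602121109) (nat_lit 102) (nat_lit 5) (nat_lit 105) (nat_lit 5) (nat_lit 103) (nat_lit 5) (nat_lit 463) (nat_lit 409) (nat_lit 328))) (XT.nd (nat_lit 78) (nat_lit 228) (nat_lit 0) (XT.lf (nat_lit 0) (nat_lit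 19198734114) (nat_lit 152) (nat_lit 8955335624) (nat_lit 228) (nat_lit 3127264450) (nat_lit 100) (nat_lit 5) (nat_lit 102) (nat_lit 5) (nat_lit 103) (nat_lit 5) (nat_lit 464) (nat_lit 409) (nat_lit 327)) (XT.lf (nat_lit 0) (nat_lit 11624619865) (nat_lit 228) (nat_lit 11808272211) (nat_lit 76) (nat_lit 8868375835) (nat_lit 97) (nat_lit 5) (nat_lit 100) (nat_lit 5) (nat_lit 98) (nat_lit 5) (nat_lit 465) (nat_lit 409) (nat_lit 326)))))) (XT.nd (nat_lit 468) (nat_lit 1064) (nat_lit 0) (XT.nd (nat_lit 234) (nat_lit 456) (nat_lit 0) (XT.nd (nat_lit 78) (nat_lit 380) (nat_lit 0) (XT.lf (nat_lit 0) (nat_lit 21828657125) (nat_lit 152) (nat_lit 5616906367) (nat_lit 228) (nat_lit 5913822365) (nat_lit 95) (nat_lit 5) (nat_lit 97) (nat_lit 5) (nat_lit 98) (nat_lit 5) (nat_lit 466) (nat_lit 409) (nat_lit 325)) (XT.nd (nat_lit 78) (nat_lit 152) (nat_lit 0) (XT.lf (nat_lit 0) (nat_lit 9846424438) (nat_lit 228)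 (nat_lit 11355165180) (nat_lit 76) (nat_lit 13252665200) (nat_lit 92) (nat_lit 5) (nat_lit 95) (nat_lit 5) (nat_lit 93) (nat_lit 5) (nat_lit 467) (nat_lit 409) (nat_lit 324)) (XT.lf (nat_lit 0) (nat_lit 24406168074) (nat_lit 152) (nat_lit 2249533179) (nat_lit 228) (nat_lit 8934910253) (nat_lit 90) (nat_lit 5) (nat_lit 92) (nat_lit 5) (nat_lit 93) (nat_lit 5) (nat_lit 468) (nat_lit 409) (nat_lit 323)))) (XT.nd (nat_lit 78) (nat_lit 304) (nat_lit 0) (XT.lf (nat_lit 0) (nat_lit 7886222275) (nat_lit 152) (nat_lit 11155498388) (nat_lit 76) (nat_lit 17724556609) (nat_lit 88) (nat_lit 5) (nat_lit 90) (nat_lit 5) (nat_lit 89) (nat_lit 5) (nat_lit 469) (nat_lit 409) (nat_lit 322)) (XT.nd (nat_lit 78) (nat_lit 152) (nat_lit 0) (XT.lf (nat_lit 0) (nat_lit 25745202556) (nat_lit 228) (nat_lit 11157337109) (nat_lit 76) (nat_lit 1084085890) (nat_lit 86) (nat_lit 5) (nat_lit 89) (nat_lit 5) (nat_lit 87) (nat_lit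 4) (nat_lit 470) (nat_lit 409) (nat_lit 321)) (XT.lf (nat_lit 0) (nat_lit 5682573560) (nat_lit 152) (nat_lit 11323382204) (nat_lit 76) (nat_lit 22243863836) (nat_lit 84) (nat_lit 5) (nat_lit 86) (nat_lit 5) (nat_lit 85) (nat_lit 5) (nat_lit 471) (nat_lit 409) (nat_lit 320))))) (XT.nd (nat_lit 234) (nat_lit 608) (nat_lit 0) (XT.nd (nat_lit 78) (nat_lit 304) (nat_lit 0) (XT.lf (nat_lit 0) (nat_lit 24662547624) (nat_lit 228) (nat_lit 11587198271) (nat_lit 76) (nat_lit 4310403377) (nat_lit 82) (nat_lit 5) (nat_lit 85) (nat_lit 5) (nat_lit 83) (nat_lit 4) (nat_lit 472) (nat_lit 409) (nat_lit 319)) (XT.nd (nat_lit 78) (nat_lit 152) (nat_lit 0) (XT.lf (nat_lit 0) (nat_lit 3160436213) (nat_lit 152) (nat_lit 11999564779) (nat_lit 76) (nat_lit 26758527166) (nat_lit 80) (nat_lit 5) (nat_lit 82) (nat_lit 5) (nat_lit 81) (nat_lit 5) (nat_lit 473) (nat_lit 409) (nat_lit 318)) (XT.lf (nat_lit 0) (nat_lit 23309266578)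 (nat_lit 228) (nat_lit 12608460866) (nat_lit 76) (nat_lit 7408376572) (nat_lit 78) (nat_lit 5) (nat_lit 81) (nat_lit 5) (nat_lit 79) (nat_lit 4) (nat_lit 474) (nat_lit 409) (nat_lit 317)))) (XT.nd (nat_lit 156) (nat_lit 304) (nat_lit 0) (XT.nd (nat_lit 78) (nat_lit 152) (nat_lit 0) (XT.lf (nat_lit 0) (nat_lit 228579828) (nat_lit 152) (nat_lit 13356655466) (nat_lit 76) (nat_lit 31202106544) (nat_lit 76) (nat_lit 5) (nat_lit 78) (nat_lit 5) (nat_lit 77) (nat_lit 5) (nat_lit 475) (nat_lit 409) (nat_lit 316)) (XT.lf (nat_lit 0) (nat_lit 21591282890) (nat_lit 228) (nat_lit 14412005790) (nat_lit 76) (nat_lit 10296837822) (nat_lit 74) (nat_lit 5) (nat_lit 77) (nat_lit 5) (nat_lit 75) (nat_lit 4) (nat_lit 476) (nat_lit 409) (nat_lit 315))) (XT.nd (nat_lit 78) (nat_lit 228) (nat_lit 0) (XT.lf (nat_lit 0) (nat_lit 32234800397) (nat_lit 76) (nat_lit 12349270980) (nat_lit 152) (nat_lit 3287620856) (nat_lit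 73) (nat_lit 5) (nat_lit 74) (nat_lit 5) (nat_lit 75) (nat_lit 4) (nat_lit 477) (nat_lit 409) (nat_lit 314)) (XT.lf (nat_lit 0) (nat_lit 19394002565) (nat_lit 228) (nat_lit 17230232272) (nat_lit 76) (nat_lit 12875140770) (nat_lit 70) (nat_lit 5) (nat_lit 73) (nat_lit 5) (nat_lit 71) (nat_lit 4) (nat_lit 478) (nat_lit 409) (nat_lit 313))))))) (XT.nd (nat_lit 1014) (nat_lit 684) (nat_lit 0) (XT.nd (nat_lit 468) (nat_lit 684) (nat_lit 0) (XT.nd (nat_lit 234) (nat_lit 380) (nat_lit 0) (XT.nd (nat_lit 78) (nat_lit 304) (nat_lit 0) (XT.lf (nat_lit 0) (nat_lit 32117007431) (nat_lit 76) (nat_lit 11598367086) (nat_lit 152) (nat_lit 7474882604) (nat_lit 69) (nat_lit 5) (nat_lit 70) (nat_lit 5) (nat_lit 71) (nat_lit 4) (nat_lit 479) (nat_lit 409) (nat_lit 312)) (XT.nd (nat_lit 78) (nat_lit 76) (nat_lit 0) (XT.lf (nat_lit 0) (nat_lit 16578435540) (nat_lit 228) (nat_lit 21344951390) (nat_lit 76) (nat_lit 15019325490)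 (nat_lit 66) (nat_lit 5) (nat_lit 69) (nat_lit 5) (nat_lit 67) (nat_lit 4) (nat_lit 480) (nat_lit 409) (nat_lit 311)) (XT.lf (nat_lit 0) (nat_lit 30787992274) (nat_lit 76) (nat_lit 11482604324) (nat_lit 152) (nat_lit 12492250817) (nat_lit 65) (nat_lit 5) (nat_lit 66) (nat_lit 5) (nat_lit 67) (nat_lit 4) (nat_lit 481) (nat_lit 409) (nat_lit 310)))) (XT.nd (nat_lit 78) (nat_lit 228) (nat_lit 0) (XT.lf (nat_lit 0) (nat_lit 12976622748) (nat_lit 152) (nat_lit 27096686560) (nat_lit 76) (nat_lit 16577596266) (nat_lit 63) (nat_lit 5) (nat_lit 65) (nat_lit 5) (nat_lit 64) (nat_lit 4) (nat_lit 482) (nat_lit 409) (nat_lit 309)) (XT.nd (nat_lit 78) (nat_lit 152) (nat_lit 0) (XT.lf (nat_lit 0) (nat_lit 27893871915) (nat_lit 76) (nat_lit 12181301620) (nat_lit 152) (nat_lit 18536044998) (nat_lit 62) (nat_lit 5) (nat_lit 63) (nat_lit 5) (nat_lit 64) (nat_lit 4) (nat_lit 483) (nat_lit 409) (nat_lit 308)) (XT.lf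 (nat_lit 0) (nat_lit 8386248572) (nat_lit 152) (nat_lit 34895625526) (nat_lit 76) (nat_lit 17364991763) (nat_lit 60) (nat_lit 5) (nat_lit 62) (nat_lit 5) (nat_lit 61) (nat_lit 4) (nat_lit 484) (nat_lit 409) (nat_lit 307))))) (XT.nd (nat_lit 234) (nat_lit 380) (nat_lit 0) (XT.nd (nat_lit 78) (nat_lit 228) (nat_lit 0) (XT.lf (nat_lit 0) (nat_lit 23006813457) (nat_lit 76) (nat_lit 13911262981) (nat_lit 152) (nat_lit 25841310365) (nat_lit 59) (nat_lit 5) (nat_lit 60) (nat_lit 5) (nat_lit 61) (nat_lit 4) (nat_lit 485) (nat_lit 409) (nat_lit 306)) (XT.nd (nat_lit 78) (nat_lit 76) (nat_lit 0) (XT.lf (nat_lit 0) (nat_lit 2564297694) (nat_lit 152) (nat_lit 45234510247) (nat_lit 76) (nat_lit 17157106681) (nat_lit 57) (nat_lit 5) (nat_lit 59) (nat_lit 5) (nat_lit 58) (nat_lit 4) (nat_lit 486) (nat_lit 409) (nat_lit 305)) (XT.lf (nat_lit 0) (nat_lit 15611270770) (nat_lit 76) (nat_lit 16933767074) (nat_lit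 152) (nat_lit 34688876842) (nat_lit 56) (nat_lit 5) (nat_lit 57) (nat_lit 5) (nat_lit 58) (nat_lit 4) (nat_lit 487) (nat_lit 409) (nat_lit 304)))) (XT.nd (nat_lit 156) (nat_lit 152) (nat_lit 0) (XT.nd (nat_lit 78) (nat_lit 152) (nat_lit 0) (XT.lf (nat_lit 0) (nat_lit 10854018404) (nat_lit 76) (nat_lit 53875118614) (nat_lit 76) (nat_lit 4875548251) (nat_lit 55) (nat_lit 4) (nat_lit 56) (nat_lit 5) (nat_lit 56) (nat_lit 4) (nat_lit 488) (nat_lit 409) (nat_lit 303)) (XT.lf (nat_lit 0) (nat_lit 5087789013) (nat_lit 76) (nat_lit 21562790064) (nat_lit 152) (nat_lit 45413658675) (nat_lit 53) (nat_lit 5) (nat_lit 54) (nat_lit 5) (nat_lit 55) (nat_lit 4) (nat_lit 489) (nat_lit 409) (nat_lit 302))) (XT.nd (nat_lit 78) (nat_lit 152) (nat_lit 0) (XT.lf (nat_lit 0) (nat_lit 60364484441) (nat_lit 152) (nat_lit 1492621165) (nat_lit 0) (nat_lit 12766845059) (nat_lit 53) (nat_lit 5) (nat_lit 55) (nat_lit 4) (nat_lit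 53) (nat_lit 4) (nat_lit 490) (nat_lit 409) (nat_lit 301)) (XT.lf (nat_lit 0) (nat_lit 18958087033) (nat_lit 152) (nat_lit 9124449056) (nat_lit 76) (nat_lit 49197820252) (nat_lit 51) (nat_lit 5) (nat_lit 53) (nat_lit 5) (nat_lit 52) (nat_lit 4) (nat_lit 491) (nat_lit 409) (nat_lit 300)))))) (XT.nd (nat_lit 468) (nat_lit 76) (nat_lit 0) (XT.nd (nat_lit 234) (nat_lit 304) (nat_lit 0) (XT.nd (nat_lit 78) (nat_lit 228) (nat_lit 0) (XT.lf (nat_lit 0) (nat_lit 54219850286) (nat_lit 152) (nat_lit 17838827031) (nat_lit 0) (nat_lit 7986322434) (nat_lit 50) (nat_lit 5) (nat_lit 52) (nat_lit 4) (nat_lit 50) (nat_lit 4) (nat_lit 492) (nat_lit 409) (nat_lit 299)) (XT.nd (nat_lit 78) (nat_lit 76) (nat_lit 0) (XT.lf (nat_lit 0) (nat_lit 9035065838) (nat_lit 152) (nat_lit 27902670555) (nat_lit 76) (nat_lit 45980742224) (nat_lit 48) (nat_lit 5) (nat_lit 50) (nat_lit 5) (nat_lit 49) (nat_lit 4) (nat_lit 493) (nat_lit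 409) (nat_lit 298)) (XT.lf (nat_lit 0) (nat_lit 45733996169) (nat_lit 152) (nat_lit 39347568145) (nat_lit 0) (nat_lit 827502156) (nat_lit 47) (nat_lit 5) (nat_lit 49) (nat_lit 4) (nat_lit 47) (nat_lit 4) (nat_lit 494) (nat_lit 409) (nat_lit 297)))) (XT.nd (nat_lit 78) (nat_lit 228) (nat_lit 0) (XT.lf (nat_lit 0) (nat_lit 36598241098) (nat_lit 76) (nat_lit 48668285322) (nat_lit 76) (nat_lit 3752697805) (nat_lit 46) (nat_lit 4) (nat_lit 47) (nat_lit 5) (nat_lit 47) (nat_lit 4) (nat_lit 495) (nat_lit 409) (nat_lit 296)) (XT.nd (nat_lit 78) (nat_lit 76) (nat_lit 0) (XT.lf (nat_lit 0) (nat_lit 25012318560) (nat_lit 76) (nat_lit 9439192059) (nat_lit 152) (nat_lit 57804420248) (nat_lit 44) (nat_lit 5) (nat_lit 45) (nat_lit 5) (nat_lit 46) (nat_lit 4) (nat_lit 496) (nat_lit 409) (nat_lit 295)) (XT.lf (nat_lit 0) (nat_lit 11622325150) (nat_lit 76) (nat_lit 63813199756) (nat_lit 76) (nat_lit 20189417161)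 (nat_lit 43) (nat_lit 4) (nat_lit 44) (nat_lit 5) (nat_lit 44) (nat_lit 4) (nat_lit 497) (nat_lit 409) (nat_lit 294))))) (XT.nd (nat_lit 55770) (nat_lit 0) (nat_lit 24016) (XT.nd (nat_lit 55614) (nat_lit 0) (nat_lit 24928) (XT.lf (nat_lit 0) (nat_lit 19708821137) (nat_lit 152) (nat_lit 3622502201) (nat_lit 76) (nat_lit 75802136415) (nat_lit 42) (nat_lit 5) (nat_lit 44) (nat_lit 5) (nat_lit 43) (nat_lit 4) (nat_lit 498) (nat_lit 409) (nat_lit 293)) (XT.nd (nat_lit 78) (nat_lit 912) (nat_lit 0) (XT.lf (nat_lit 0) (nat_lit 1666491557) (nat_lit 0) (nat_lit 1666491557) (nat_lit 836) (nat_lit 465313745) (nat_lit 382) (nat_lit 5) (nat_lit 382) (nat_lit 3) (nat_lit 393) (nat_lit 3) (nat_lit 410) (nat_lit 410) (nat_lit 380)) (XT.lf (nat_lit 0) (nat_lit 1396764846) (nat_lit 912) (nat_lit 5666708844) (nat_lit 988) (nat_lit 653093865) (nat_lit 370) (nat_lit 5) (nat_lit 382) (nat_lit 5) (nat_lit 383) (nat_lit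 5) (nat_lit 411) (nat_lit 410) (nat_lit 379)))) (XT.nd (nat_lit 156) (nat_lit 912) (nat_lit 0) (XT.nd (nat_lit 78) (nat_lit 0) (nat_lit 76) (XT.lf (nat_lit 76) (nat_lit 816657643) (nat_lit 0) (nat_lit 2942947410) (nat_lit 988) (nat_lit 4084525166) (nat_lit 371) (nat_lit 5) (nat_lit 370) (nat_lit 5) (nat_lit 383) (nat_lit 5) (nat_lit 412) (nat_lit 410) (nat_lit 378)) (XT.lf (nat_lit 0) (nat_lit 6171976431) (nat_lit 912) (nat_lit 332748674) (nat_lit 988) (nat_lit 1475419765) (nat_lit 371) (nat_lit 5) (nat_lit 383) (nat_lit 5) (nat_lit 384) (nat_lit 5) (nat_lit 413) (nat_lit 410) (nat_lit 377))) (XT.nd (nat_lit 78) (nat_lit 0) (nat_lit 76) (XT.lf (nat_lit 0) (nat_lit 530395227) (nat_lit 988) (nat_lit 1412395242) (nat_lit 1064) (nat_lit 6181223925) (nat_lit 358) (nat_lit 5) (nat_lit 371) (nat_lit 5) (nat_lit 372) (nat_lit 5) (nat_lit 414) (nat_lit 410) (nat_lit 376)) (XT.lf (nat_lit 0) (nat_lit 2907411573)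 (nat_lit 988) (nat_lit 2450480094) (nat_lit 1064) (nat_lit 2917894718) (nat_lit 359) (nat_lit 5) (nat_lit 372) (nat_lit 5) (nat_lit 373) (nat_lit 5) (nat_lit 415) (nat_lit 410) (nat_lit 375))))))))
noncomputable def xc65 : XT := (XT.nd (nat_lit 2028) (nat_lit 6840) (nat_lit 0) (XT.nd (nat_lit 1014) (nat_lit 5776) (nat_lit 0) (XT.nd (nat_lit 468) (nat_lit 4560) (nat_lit 0) (XT.nd (nat_lit 234) (nat_lit 2204) (nat_lit 0) (XT.nd (nat_lit 78) (nat_lit 912) (nat_lit 0) (XT.lf (nat_lit 76) (nat_lit 5014573485) (nat_lit 0) (nat_lit 347283014) (nat_lit 1064) (nat_lit 3074546169) (nat_lit 360) (nat_lit 5) (nat_lit 359) (nat_lit 5) (nat_lit 373) (nat_lit 5) (nat_lit 416) (nat_lit 410) (nat_lit 374)) (XT.nd (nat_lit 78) (nat_lit 988) (nat_lit 0) (XT.lf (nat_lit 76) (nat_lit 4250473439) (nat_lit 0) (nat_lit 3683689559) (nat_lit 1064) (nat_lit 671044995) (nat_lit 361) (nat_lit 5) (nat_lit 360) (nat_lit 5) (nat_lit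 374) (nat_lit 5) (nat_lit 417) (nat_lit 410) (nat_lit 373)) (XT.lf (nat_lit 0) (nat_lit 1792213302) (nat_lit 1064) (nat_lit 5240671272) (nat_lit 1140) (nat_lit 1749774214) (nat_lit 347) (nat_lit 5) (nat_lit 361) (nat_lit 5) (nat_lit 362) (nat_lit 5) (nat_lit 418) (nat_lit 410) (nat_lit 372)))) (XT.nd (nat_lit 78) (nat_lit 2204) (nat_lit 0) (XT.lf (nat_lit 76) (nat_lit 2882973165) (nat_lit 0) (nat_lit 1482299949) (nat_lit 1140) (nat_lit 4603505109) (nat_lit 348) (nat_lit 5) (nat_lit 347) (nat_lit 5) (nat_lit 362) (nat_lit 5) (nat_lit 419) (nat_lit 410) (nat_lit 371)) (XT.nd (nat_lit 78) (nat_lit 1216) (nat_lit 0) (XT.lf (nat_lit 0) (nat_lit 2275096255) (nat_lit 1064) (nat_lit 4804876710) (nat_lit 1140) (nat_lit 2083851456) (nat_lit 334) (nat_lit 5) (nat_lit 348) (nat_lit 5) (nat_lit 349) (nat_lit 5) (nat_lit 420) (nat_lit 410) (nat_lit 370)) (XT.lf (nat_lit 0) (nat_lit 555347496) (nat_lit 1216)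 (nat_lit 7638992361) (nat_lit 76) (nat_lit 1173994933) (nat_lit 318) (nat_lit 5) (nat_lit 334) (nat_lit 5) (nat_lit 319) (nat_lit 5) (nat_lit 421) (nat_lit 410) (nat_lit 369))))) (XT.nd (nat_lit 234) (nat_lit 1900) (nat_lit 0) (XT.nd (nat_lit 78) (nat_lit 1444) (nat_lit 0) (XT.lf (nat_lit 0) (nat_lit 1207782675) (nat_lit 1216) (nat_lit 2109982568) (nat_lit 1292) (nat_lit 6263664949) (nat_lit 302) (nat_lit 5) (nat_lit 318) (nat_lit 5) (nat_lit 319) (nat_lit 5) (nat_lit 422) (nat_lit 410) (nat_lit 368)) (XT.nd (nat_lit 78) (nat_lit 608) (nat_lit 0) (XT.lf (nat_lit 0) (nat_lit 738910626) (nat_lit 836) (nat_lit 5513209041) (nat_lit 912) (nat_lit 3552054950) (nat_lit 291) (nat_lit 5) (nat_lit 302) (nat_lit 5) (nat_lit 303) (nat_lit 5) (nat_lit 423) (nat_lit 410) (nat_lit 367)) (XT.lf (nat_lit 0) (nat_lit 334678868) (nat_lit 608) (nat_lit 9028694672) (nat_lit 684) (nat_lit 673785580) (nat_lit 283) (nat_lit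 5) (nat_lit 291) (nat_lit 5) (nat_lit 292) (nat_lit 5) (nat_lit 424) (nat_lit 410) (nat_lit 366)))) (XT.nd (nat_lit 156) (nat_lit 1216) (nat_lit 0) (XT.nd (nat_lit 78) (nat_lit 608) (nat_lit 0) (XT.lf (nat_lit 0) (nat_lit 2364942701) (nat_lit 684) (nat_lit 50892054) (nat_lit 76) (nat_lit 7863417418) (nat_lit 282) (nat_lit 5) (nat_lit 291) (nat_lit 5) (nat_lit 283) (nat_lit 5) (nat_lit 425) (nat_lit 410) (nat_lit 365)) (XT.lf (nat_lit 0) (nat_lit 5600996687) (nat_lit 684) (nat_lit 384686709) (nat_lit 76) (nat_lit 4545793939) (nat_lit 274) (nat_lit 5) (nat_lit 283) (nat_lit 5) (nat_lit 275) (nat_lit 5) (nat_lit 426) (nat_lit 410) (nat_lit 364))) (XT.nd (nat_lit 78) (nat_lit 684) (nat_lit 0) (XT.lf (nat_lit 0) (nat_lit 9051839570) (nat_lit 608) (nat_lit 655628602) (nat_lit 76) (nat_lit 1087262967) (nat_lit 267) (nat_lit 5) (nat_lit 275) (nat_lit 5) (nat_lit 268) (nat_lit 5) (nat_lit 427) (nat_lit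 410) (nat_lit 363)) (XT.lf (nat_lit 0) (nat_lit 1658757636) (nat_lit 684) (nat_lit 903178611) (nat_lit 76) (nat_lit 8506175790) (nat_lit 258) (nat_lit 5) (nat_lit 267) (nat_lit 5) (nat_lit 259) (nat_lit 5) (nat_lit 428) (nat_lit 410) (nat_lit 362)))))) (XT.nd (nat_lit 468) (nat_lit 2736) (nat_lit 0) (XT.nd (nat_lit 234) (nat_lit 1444) (nat_lit 0) (XT.nd (nat_lit 78) (nat_lit 1064) (nat_lit 0) (XT.lf (nat_lit 0) (nat_lit 5274144922) (nat_lit 608) (nat_lit 1115798961) (nat_lit 76) (nat_lit 4962315506) (nat_lit 251) (nat_lit 5) (nat_lit 259) (nat_lit 5) (nat_lit 252) (nat_lit 5) (nat_lit 429) (nat_lit 410) (nat_lit 361)) (XT.nd (nat_lit 78) (nat_lit 532) (nat_lit 0) (XT.lf (nat_lit 0) (nat_lit 9145396893) (nat_lit 608) (nat_lit 1263848639) (nat_lit 76) (nat_lit 1239121561) (nat_lit 244) (nat_lit 5) (nat_lit 252) (nat_lit 5) (nat_lit 245) (nat_lit 5) (nat_lit 430) (nat_lit 410) (nat_lit 360)) (XT.lf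 (nat_lit 0) (nat_lit 1335774574) (nat_lit 532) (nat_lit 1384145867) (nat_lit 76) (nat_lit 9235726800) (nat_lit 237) (nat_lit 5) (nat_lit 244) (nat_lit 5) (nat_lit 238) (nat_lit 5) (nat_lit 431) (nat_lit 410) (nat_lit 359)))) (XT.nd (nat_lit 78) (nat_lit 988) (nat_lit 0) (XT.lf (nat_lit 0) (nat_lit 5417631096) (nat_lit 532) (nat_lit 1475494029) (nat_lit 76) (nat_lit 5381339771) (nat_lit 231) (nat_lit 5) (nat_lit 238) (nat_lit 5) (nat_lit 232) (nat_lit 5) (nat_lit 432) (nat_lit 410) (nat_lit 358)) (XT.nd (nat_lit 78) (nat_lit 532) (nat_lit 0) (XT.lf (nat_lit 0) (nat_lit 9799738833) (nat_lit 532) (nat_lit 1498518056) (nat_lit 76) (nat_lit 1308086693) (nat_lit 225) (nat_lit 5) (nat_lit 232) (nat_lit 5) (nat_lit 226) (nat_lit 5) (nat_lit 433) (nat_lit 410) (nat_lit 357)) (XT.lf (nat_lit 0) (nat_lit 1551225803) (nat_lit 532) (nat_lit 1494381161) (nat_lit 76) (nat_lit 9904797458) (nat_lit 218) (nat_lit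 5) (nat_lit 225) (nat_lit 5) (nat_lit 219) (nat_lit 5) (nat_lit 434) (nat_lit 410) (nat_lit 356))))) (XT.nd (nat_lit 234) (nat_lit 1444) (nat_lit 0) (XT.nd (nat_lit 78) (nat_lit 912) (nat_lit 0) (XT.lf (nat_lit 0) (nat_lit 6193359400) (nat_lit 456) (nat_lit 1460168253) (nat_lit 76) (nat_lit 5653577631) (nat_lit 213) (nat_lit 5) (nat_lit 219) (nat_lit 5) (nat_lit 214) (nat_lit 5) (nat_lit 435) (nat_lit 410) (nat_lit 355)) (XT.nd (nat_lit 78) (nat_lit 456) (nat_lit 0) (XT.lf (nat_lit 0) (nat_lit 11184189814) (nat_lit 532) (nat_lit 1352015843) (nat_lit 76) (nat_lit 1141941939) (nat_lit 207) (nat_lit 5) (nat_lit 214) (nat_lit 5) (nat_lit 208) (nat_lit 5) (nat_lit 436) (nat_lit 410) (nat_lit 354)) (XT.lf (nat_lit 0) (nat_lit 2470915361) (nat_lit 456) (nat_lit 1225561867) (nat_lit 76) (nat_lit 10365786370) (nat_lit 201) (nat_lit 5) (nat_lit 207) (nat_lit 5) (nat_lit 202) (nat_lit 5) (nat_lit 437) (nat_lit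 410) (nat_lit 353)))) (XT.nd (nat_lit 156) (nat_lit 760) (nat_lit 0) (XT.nd (nat_lit 78) (nat_lit 304) (nat_lit 0) (XT.lf (nat_lit 0) (nat_lit 7775463202) (nat_lit 456) (nat_lit 1057918871) (nat_lit 76) (nat_lit 5627175872) (nat_lit 196) (nat_lit 5) (nat_lit 202) (nat_lit 5) (nat_lit 197) (nat_lit 5) (nat_lit 438) (nat_lit 410) (nat_lit 352)) (XT.lf (nat_lit 0) (nat_lit 13481976031) (nat_lit 380) (nat_lit 809014567) (nat_lit 76) (nat_lit 583677731) (nat_lit 192) (nat_lit 5) (nat_lit 197) (nat_lit 5) (nat_lit 193) (nat_lit 5) (nat_lit 439) (nat_lit 410) (nat_lit 351))) (XT.nd (nat_lit 78) (nat_lit 304) (nat_lit 0) (XT.lf (nat_lit 0) (nat_lit 4274593116) (nat_lit 456) (nat_lit 562444689) (nat_lit 76) (nat_lit 10465502996) (nat_lit 186) (nat_lit 5) (nat_lit 192) (nat_lit 5) (nat_lit 187) (nat_lit 5) (nat_lit 440) (nat_lit 410) (nat_lit 350)) (XT.lf (nat_lit 0) (nat_lit 10353685514) (nat_lit 380) (nat_lit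 250534076) (nat_lit 76) (nat_lit 5142459299) (nat_lit 182) (nat_lit 5) (nat_lit 187) (nat_lit 5) (nat_lit 183) (nat_lit 5) (nat_lit 441) (nat_lit 410) (nat_lit 349))))))) (XT.nd (nat_lit 1014) (nat_lit 2888) (nat_lit 0) (XT.nd (nat_lit 468) (nat_lit 1672) (nat_lit 0) (XT.nd (nat_lit 234) (nat_lit 988) (nat_lit 0) (XT.nd (nat_lit 78) (nat_lit 608) (nat_lit 0) (XT.lf (nat_lit 0) (nat_lit 142417690) (nat_lit 304) (nat_lit 536166463) (nat_lit 380) (nat_lit 15529338662) (nat_lit 173) (nat_lit 5) (nat_lit 177) (nat_lit 5) (nat_lit 178) (nat_lit 5) (nat_lit 442) (nat_lit 410) (nat_lit 348)) (XT.nd (nat_lit 78) (nat_lit 304) (nat_lit 0) (XT.lf (nat_lit 0) (nat_lit 525254763) (nat_lit 304) (nat_lit 6639028715) (nat_lit 380) (nat_lit 9519683905) (nat_lit 169) (nat_lit 5) (nat_lit 173) (nat_lit 5) (nat_lit 174) (nat_lit 5) (nat_lit 443) (nat_lit 410) (nat_lit 347)) (XT.lf (nat_lit 0) (nat_lit 1003911842)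 (nat_lit 304) (nat_lit 13142422885) (nat_lit 380) (nat_lit 3032319990) (nat_lit 165) (nat_lit 5) (nat_lit 169) (nat_lit 5) (nat_lit 170) (nat_lit 5) (nat_lit 444) (nat_lit 410) (nat_lit 346)))) (XT.nd (nat_lit 78) (nat_lit 608) (nat_lit 0) (XT.lf (nat_lit 0) (nat_lit 1522090188) (nat_lit 304) (nat_lit 2386313016) (nat_lit 380) (nat_lit 13782503438) (nat_lit 160) (nat_lit 5) (nat_lit 164) (nat_lit 5) (nat_lit 165) (nat_lit 5) (nat_lit 445) (nat_lit 410) (nat_lit 345)) (XT.nd (nat_lit 78) (nat_lit 380) (nat_lit 0) (XT.lf (nat_lit 0) (nat_lit 2069555984) (nat_lit 228) (nat_lit 9292588913) (nat_lit 304) (nat_lit 6858866959) (nat_lit 157) (nat_lit 5) (nat_lit 160) (nat_lit 5) (nat_lit 161) (nat_lit 5) (nat_lit 446) (nat_lit 410) (nat_lit 344)) (XT.lf (nat_lit 0) (nat_lit 597731549) (nat_lit 380) (nat_lit 16054001249) (nat_lit 76) (nat_lit 2119929115) (nat_lit 152) (nat_lit 5) (nat_lit 157) (nat_lit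 5) (nat_lit 153) (nat_lit 5) (nat_lit 447) (nat_lit 410) (nat_lit 343))))) (XT.nd (nat_lit 234) (nat_lit 912) (nat_lit 0) (XT.nd (nat_lit 78) (nat_lit 532) (nat_lit 0) (XT.lf (nat_lit 0) (nat_lit 3354842740) (nat_lit 228) (nat_lit 5182473970) (nat_lit 304) (nat_lit 10802932192) (nat_lit 149) (nat_lit 5) (nat_lit 152) (nat_lit 5) (nat_lit 153) (nat_lit 5) (nat_lit 448) (nat_lit 410) (nat_lit 342)) (XT.nd (nat_lit 78) (nat_lit 304) (nat_lit 0) (XT.lf (nat_lit 0) (nat_lit 4081472981) (nat_lit 228) (nat_lit 13022398993) (nat_lit 304) (nat_lit 2826495423) (nat_lit 146) (nat_lit 5) (nat_lit 149) (nat_lit 5) (nat_lit 150) (nat_lit 5) (nat_lit 449) (nat_lit 410) (nat_lit 341)) (XT.lf (nat_lit 0) (nat_lit 4861512159) (nat_lit 228) (nat_lit 803078955) (nat_lit 304) (nat_lit 14877079170) (nat_lit 142) (nat_lit 5) (nat_lit 145) (nat_lit 5) (nat_lit 146) (nat_lit 5) (nat_lit 450) (nat_lit 410) (nat_lit 340))))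 (XT.nd (nat_lit 156) (nat_lit 380) (nat_lit 0) (XT.nd (nat_lit 78) (nat_lit 304) (nat_lit 0) (XT.lf (nat_lit 0) (nat_lit 5658850949) (nat_lit 228) (nat_lit 9158216432) (nat_lit 304) (nat_lit 6356774288) (nat_lit 139) (nat_lit 5) (nat_lit 142) (nat_lit 5) (nat_lit 143) (nat_lit 5) (nat_lit 451) (nat_lit 410) (nat_lit 339)) (XT.lf (nat_lit 0) (nat_lit 2771401865) (nat_lit 304) (nat_lit 15279091565) (nat_lit 76) (nat_lit 3779411332) (nat_lit 135) (nat_lit 5) (nat_lit 139) (nat_lit 5) (nat_lit 136) (nat_lit 5) (nat_lit 452) (nat_lit 410) (nat_lit 338))) (XT.nd (nat_lit 78) (nat_lit 152) (nat_lit 0) (XT.lf (nat_lit 0) (nat_lit 7453671819) (nat_lit 228) (nat_lit 5059347491) (nat_lit 304) (nat_lit 9995209999) (nat_lit 132) (nat_lit 5) (nat_lit 135) (nat_lit 5) (nat_lit 136) (nat_lit 5) (nat_lit 453) (nat_lit 410) (nat_lit 337)) (XT.lf (nat_lit 0) (nat_lit 8444563569) (nat_lit 152) (nat_lit 14582536604)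 (nat_lit 228) (nat_lit 184809822) (nat_lit 130) (nat_lit 5) (nat_lit 132) (nat_lit 5) (nat_lit 133) (nat_lit 5) (nat_lit 454) (nat_lit 410) (nat_lit 336)))))) (XT.nd (nat_lit 546) (nat_lit 1292) (nat_lit 0) (XT.nd (nat_lit 234) (nat_lit 836) (nat_lit 0) (XT.nd (nat_lit 78) (nat_lit 456) (nat_lit 0) (XT.lf (nat_lit 0) (nat_lit 9460163462) (nat_lit 228) (nat_lit 720756374) (nat_lit 304) (nat_lit 13759072562) (nat_lit 126) (nat_lit 5) (nat_lit 129) (nat_lit 5) (nat_lit 130) (nat_lit 5) (nat_lit 455) (nat_lit 410) (nat_lit 335)) (XT.nd (nat_lit 78) (nat_lit 304) (nat_lit 0) (XT.lf (nat_lit 0) (nat_lit 10515817465) (nat_lit 152) (nat_lit 10897535604) (nat_lit 228) (nat_lit 3280505002) (nat_lit 124) (nat_lit 5) (nat_lit 126) (nat_lit 5) (nat_lit 127) (nat_lit 5) (nat_lit 456) (nat_lit 410) (nat_lit 334)) (XT.lf (nat_lit 0) (nat_lit 7843782626) (nat_lit 304) (nat_lit 13845361300) (nat_lit 76) (nat_lit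 3785873113) (nat_lit 120) (nat_lit 5) (nat_lit 124) (nat_lit 5) (nat_lit 121) (nat_lit 5) (nat_lit 457) (nat_lit 410) (nat_lit 333)))) (XT.nd (nat_lit 156) (nat_lit 380) (nat_lit 0) (XT.nd (nat_lit 78) (nat_lit 304) (nat_lit 0) (XT.lf (nat_lit 0) (nat_lit 12779217567) (nat_lit 152) (nat_lit 7024328343) (nat_lit 228) (nat_lit 6480301499) (nat_lit 118) (nat_lit 5) (nat_lit 120) (nat_lit 5) (nat_lit 121) (nat_lit 5) (nat_lit 458) (nat_lit 410) (nat_lit 332)) (XT.lf (nat_lit 0) (nat_lit 5455750678) (nat_lit 304) (nat_lit 13147272910) (nat_lit 76) (nat_lit 8518701217) (nat_lit 114) (nat_lit 5) (nat_lit 118) (nat_lit 5) (nat_lit 115) (nat_lit 5) (nat_lit 459) (nat_lit 410) (nat_lit 331))) (XT.nd (nat_lit 78) (nat_lit 228) (nat_lit 0) (XT.lf (nat_lit 0) (nat_lit 15214770478) (nat_lit 152) (nat_lit 2966388134) (nat_lit 228) (nat_lit 9808616293) (nat_lit 112) (nat_lit 5) (nat_lit 114) (nat_lit 5) (nat_lit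 115) (nat_lit 5) (nat_lit 460) (nat_lit 410) (nat_lit 330)) (XT.lf (nat_lit 0) (nat_lit 2987186095) (nat_lit 228) (nat_lit 12410637258) (nat_lit 76) (nat_lit 13490729532) (nat_lit 109) (nat_lit 5) (nat_lit 112) (nat_lit 5) (nat_lit 110) (nat_lit 5) (nat_lit 461) (nat_lit 410) (nat_lit 329))))) (XT.nd (nat_lit 234) (nat_lit 760) (nat_lit 0) (XT.nd (nat_lit 78) (nat_lit 380) (nat_lit 0) (XT.lf (nat_lit 0) (nat_lit 16537037183) (nat_lit 228) (nat_lit 12038210146) (nat_lit 76) (nat_lit 1244596346) (nat_lit 107) (nat_lit 5) (nat_lit 110) (nat_lit 5) (nat_lit 108) (nat_lit 5) (nat_lit 462) (nat_lit 410) (nat_lit 328)) (XT.nd (nat_lit 78) (nat_lit 152) (nat_lit 0) (XT.lf (nat_lit 0) (nat_lit 409769437) (nat_lit 228) (nat_lit 11677323252) (nat_lit 76) (nat_lit 18697343572) (nat_lit 104) (nat_lit 5) (nat_lit 107) (nat_lit 5) (nat_lit 105) (nat_lit 5) (nat_lit 463) (nat_lit 410) (nat_lit 327)) (XT.lf (nat_lit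 0) (nat_lit 14861937975) (nat_lit 228) (nat_lit 11359962658) (nat_lit 76) (nat_lit 5560923013) (nat_lit 102) (nat_lit 5) (nat_lit 105) (nat_lit 5) (nat_lit 103) (nat_lit 5) (nat_lit 464) (nat_lit 410) (nat_lit 326)))) (XT.nd (nat_lit 156) (nat_lit 380) (nat_lit 0) (XT.nd (nat_lit 78) (nat_lit 228) (nat_lit 0) (XT.lf (nat_lit 0) (nat_lit 21794503725) (nat_lit 152) (nat_lit 8666386670) (nat_lit 228) (nat_lit 2357515440) (nat_lit 100) (nat_lit 5) (nat_lit 102) (nat_lit 5) (nat_lit 103) (nat_lit 5) (nat_lit 465) (nat_lit 410) (nat_lit 325)) (XT.lf (nat_lit 0) (nat_lit 13093075480) (nat_lit 228) (nat_lit 10772723816) (nat_lit 76) (nat_lit 10023895349) (nat_lit 97) (nat_lit 5) (nat_lit 100) (nat_lit 5) (nat_lit 98) (nat_lit 5) (nat_lit 466) (nat_lit 410) (nat_lit 324))) (XT.nd (nat_lit 78) (nat_lit 228) (nat_lit 0) (XT.lf (nat_lit 0) (nat_lit 24499444113) (nat_lit 152) (nat_lit 5178555102) (nat_lit 228)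 (nat_lit 5323532233) (nat_lit 95) (nat_lit 5) (nat_lit 97) (nat_lit 5) (nat_lit 98) (nat_lit 5) (nat_lit 467) (nat_lit 410) (nat_lit 323)) (XT.lf (nat_lit 0) (nat_lit 11187792109) (nat_lit 228) (nat_lit 10353557660) (nat_lit 76) (nat_lit 14610128851) (nat_lit 92) (nat_lit 5) (nat_lit 95) (nat_lit 5) (nat_lit 93) (nat_lit 5) (nat_lit 468) (nat_lit 410) (nat_lit 322))))))))
noncomputable def xc66 : XT := (XT.nd (nat_lit 2028) (nat_lit 380) (nat_lit 0) (XT.nd (nat_lit 1014) (nat_lit 1368) (nat_lit 0) (XT.nd (nat_lit 468) (nat_lit 1064) (nat_lit 0) (XT.nd (nat_lit 234) (nat_lit 456) (nat_lit 0) (XT.nd (nat_lit 78) (nat_lit 304) (nat_lit 0) (XT.lf (nat_lit 0) (nat_lit 27150856701) (nat_lit 152) (nat_lit 1660898556) (nat_lit 228) (nat_lit 8533672047) (nat_lit 90) (nat_lit 5) (nat_lit 92) (nat_lit 5) (nat_lit 93) (nat_lit 5) (nat_lit 469) (nat_lit 410) (nat_lit 321)) (XT.nd (nat_lit 78) (nat_lit 152)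 (nat_lit 0) (XT.lf (nat_lit 0) (nat_lit 9093403471) (nat_lit 152) (nat_lit 10198935968) (nat_lit 76) (nat_lit 19287850143) (nat_lit 88) (nat_lit 5) (nat_lit 90) (nat_lit 5) (nat_lit 89) (nat_lit 5) (nat_lit 470) (nat_lit 410) (nat_lit 320)) (XT.lf (nat_lit 0) (nat_lit 27827325973) (nat_lit 228) (nat_lit 10227172879) (nat_lit 76) (nat_lit 1807597368) (nat_lit 86) (nat_lit 5) (nat_lit 89) (nat_lit 5) (nat_lit 87) (nat_lit 4) (nat_lit 471) (nat_lit 410) (nat_lit 319)))) (XT.nd (nat_lit 78) (nat_lit 304) (nat_lit 0) (XT.lf (nat_lit 0) (nat_lit 6745255220) (nat_lit 152) (nat_lit 10428666004) (nat_lit 76) (nat_lit 24015019160) (nat_lit 84) (nat_lit 5) (nat_lit 86) (nat_lit 5) (nat_lit 85) (nat_lit 5) (nat_lit 472) (nat_lit 410) (nat_lit 318)) (XT.nd (nat_lit 78) (nat_lit 152) (nat_lit 0) (XT.lf (nat_lit 0) (nat_lit 26657176138) (nat_lit 228) (nat_lit 10731264034) (nat_lit 76) (nat_lit 5176858572) (nat_lit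 82) (nat_lit 5) (nat_lit 85) (nat_lit 5) (nat_lit 83) (nat_lit 4) (nat_lit 473) (nat_lit 410) (nat_lit 317)) (XT.lf (nat_lit 0) (nat_lit 4064424009) (nat_lit 152) (nat_lit 11190533120) (nat_lit 76) (nat_lit 28737106476) (nat_lit 80) (nat_lit 5) (nat_lit 82) (nat_lit 5) (nat_lit 81) (nat_lit 5) (nat_lit 474) (nat_lit 410) (nat_lit 316))))) (XT.nd (nat_lit 234) (nat_lit 608) (nat_lit 0) (XT.nd (nat_lit 78) (nat_lit 304) (nat_lit 0) (XT.lf (nat_lit 0) (nat_lit 25204530062) (nat_lit 228) (nat_lit 11854743929) (nat_lit 76) (nat_lit 8411229811) (nat_lit 78) (nat_lit 5) (nat_lit 81) (nat_lit 5) (nat_lit 79) (nat_lit 4) (nat_lit 475) (nat_lit 410) (nat_lit 315)) (XT.nd (nat_lit 78) (nat_lit 152) (nat_lit 0) (XT.lf (nat_lit 0) (nat_lit 955000671) (nat_lit 152) (nat_lit 12665784063) (nat_lit 76) (nat_lit 33384463890) (nat_lit 76) (nat_lit 5) (nat_lit 78) (nat_lit 5) (nat_lit 77) (nat_lit 5) (nat_lit 476)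 (nat_lit 410) (nat_lit 314)) (XT.lf (nat_lit 0) (nat_lit 23370496677) (nat_lit 228) (nat_lit 13798048618) (nat_lit 76) (nat_lit 11425587994) (nat_lit 74) (nat_lit 5) (nat_lit 77) (nat_lit 5) (nat_lit 75) (nat_lit 4) (nat_lit 477) (nat_lit 410) (nat_lit 313)))) (XT.nd (nat_lit 156) (nat_lit 304) (nat_lit 0) (XT.nd (nat_lit 78) (nat_lit 228) (nat_lit 0) (XT.lf (nat_lit 0) (nat_lit 35142843057) (nat_lit 76) (nat_lit 12349225736) (nat_lit 152) (nat_lit 2752834667) (nat_lit 73) (nat_lit 5) (nat_lit 74) (nat_lit 5) (nat_lit 75) (nat_lit 4) (nat_lit 478) (nat_lit 410) (nat_lit 312)) (XT.lf (nat_lit 0) (nat_lit 21034651484) (nat_lit 228) (nat_lit 16805213791) (nat_lit 76) (nat_lit 14114341802) (nat_lit 70) (nat_lit 5) (nat_lit 73) (nat_lit 5) (nat_lit 71) (nat_lit 4) (nat_lit 479) (nat_lit 410) (nat_lit 311))) (XT.nd (nat_lit 78) (nat_lit 228) (nat_lit 0) (XT.lf (nat_lit 0) (nat_lit 34972509771) (nat_lit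 76) (nat_lit 11579644740) (nat_lit 152) (nat_lit 7178076702) (nat_lit 69) (nat_lit 5) (nat_lit 70) (nat_lit 5) (nat_lit 71) (nat_lit 4) (nat_lit 480) (nat_lit 410) (nat_lit 310)) (XT.lf (nat_lit 0) (nat_lit 18050962966) (nat_lit 228) (nat_lit 21172162066) (nat_lit 76) (nat_lit 16347407047) (nat_lit 66) (nat_lit 5) (nat_lit 69) (nat_lit 5) (nat_lit 67) (nat_lit 4) (nat_lit 481) (nat_lit 410) (nat_lit 309)))))) (XT.nd (nat_lit 468) (nat_lit 684) (nat_lit 0) (XT.nd (nat_lit 234) (nat_lit 380) (nat_lit 0) (XT.nd (nat_lit 78) (nat_lit 228) (nat_lit 0) (XT.lf (nat_lit 0) (nat_lit 33531883372) (nat_lit 76) (nat_lit 11476779125) (nat_lit 152) (nat_lit 12473583785) (nat_lit 65) (nat_lit 5) (nat_lit 66) (nat_lit 5) (nat_lit 67) (nat_lit 4) (nat_lit 482) (nat_lit 410) (nat_lit 308)) (XT.nd (nat_lit 78) (nat_lit 76) (nat_lit 0) (XT.lf (nat_lit 0) (nat_lit 14242990072) (nat_lit 152) (nat_lit 27256467725) (nat_lit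 76) (nat_lit 17965460108) (nat_lit 63) (nat_lit 5) (nat_lit 65) (nat_lit 5) (nat_lit 64) (nat_lit 4) (nat_lit 483) (nat_lit 410) (nat_lit 307)) (XT.lf (nat_lit 0) (nat_lit 30449362714) (nat_lit 76) (nat_lit 12228857492) (nat_lit 152) (nat_lit 18845574079) (nat_lit 62) (nat_lit 5) (nat_lit 63) (nat_lit 5) (nat_lit 64) (nat_lit 4) (nat_lit 484) (nat_lit 410) (nat_lit 306)))) (XT.nd (nat_lit 78) (nat_lit 228) (nat_lit 0) (XT.lf (nat_lit 0) (nat_lit 9398224456) (nat_lit 152) (nat_lit 35488855627) (nat_lit 76) (nat_lit 18774343125) (nat_lit 60) (nat_lit 5) (nat_lit 62) (nat_lit 5) (nat_lit 61) (nat_lit 4) (nat_lit 485) (nat_lit 410) (nat_lit 305)) (XT.nd (nat_lit 78) (nat_lit 152) (nat_lit 0) (XT.lf (nat_lit 0) (nat_lit 25275696323) (nat_lit 76) (nat_lit 14063477435) (nat_lit 152) (nat_lit 26540920825) (nat_lit 59) (nat_lit 5) (nat_lit 60) (nat_lit 5) (nat_lit 61) (nat_lit 4) (nat_lit 486) (nat_lit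 410) (nat_lit 304)) (XT.lf (nat_lit 0) (nat_lit 3261429443) (nat_lit 152) (nat_lit 46386734994) (nat_lit 76) (nat_lit 18538473088) (nat_lit 57) (nat_lit 5) (nat_lit 59) (nat_lit 5) (nat_lit 58) (nat_lit 4) (nat_lit 487) (nat_lit 410) (nat_lit 303))))) (XT.nd (nat_lit 234) (nat_lit 380) (nat_lit 0) (XT.nd (nat_lit 78) (nat_lit 228) (nat_lit 0) (XT.lf (nat_lit 0) (nat_lit 17469531457) (nat_lit 76) (nat_lit 17254943350) (nat_lit 152) (nat_lit 35854564995) (nat_lit 56) (nat_lit 5) (nat_lit 57) (nat_lit 5) (nat_lit 58) (nat_lit 4) (nat_lit 488) (nat_lit 410) (nat_lit 302)) (XT.nd (nat_lit 78) (nat_lit 152) (nat_lit 0) (XT.lf (nat_lit 0) (nat_lit 12454713384) (nat_lit 76) (nat_lit 56051752107) (nat_lit 76) (nat_lit 4562223065) (nat_lit 55) (nat_lit 4) (nat_lit 56) (nat_lit 5) (nat_lit 56) (nat_lit 4) (nat_lit 489) (nat_lit 410) (nat_lit 301)) (XT.lf (nat_lit 0) (nat_lit 6380409349) (nat_lit 76) (nat_lit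 22132899287) (nat_lit 152) (nat_lit 47138230522) (nat_lit 53) (nat_lit 5) (nat_lit 54) (nat_lit 5) (nat_lit 55) (nat_lit 4) (nat_lit 490) (nat_lit 410) (nat_lit 300)))) (XT.nd (nat_lit 156) (nat_lit 228) (nat_lit 0) (XT.nd (nat_lit 78) (nat_lit 152) (nat_lit 0) (XT.lf (nat_lit 0) (nat_lit 63892312571) (nat_lit 152) (nat_lit 567959015) (nat_lit 0) (nat_lit 13879584244) (nat_lit 53) (nat_lit 5) (nat_lit 55) (nat_lit 4) (nat_lit 53) (nat_lit 4) (nat_lit 491) (nat_lit 410) (nat_lit 299)) (XT.lf (nat_lit 0) (nat_lit 20405560575) (nat_lit 152) (nat_lit 8600076504) (nat_lit 76) (nat_lit 52123746073) (nat_lit 51) (nat_lit 5) (nat_lit 53) (nat_lit 5) (nat_lit 52) (nat_lit 4) (nat_lit 492) (nat_lit 410) (nat_lit 298))) (XT.nd (nat_lit 78) (nat_lit 152) (nat_lit 0) (XT.lf (nat_lit 0) (nat_lit 57420273245) (nat_lit 152) (nat_lit 17768224492) (nat_lit 0) (nat_lit 8844065346) (nat_lit 50) (nat_lit 5) (nat_lit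 52) (nat_lit 4) (nat_lit 50) (nat_lit 4) (nat_lit 493) (nat_lit 410) (nat_lit 297)) (XT.lf (nat_lit 0) (nat_lit 9966638271) (nat_lit 152) (nat_lit 28353298516) (nat_lit 76) (nat_lit 48730067726) (nat_lit 48) (nat_lit 5) (nat_lit 50) (nat_lit 5) (nat_lit 49) (nat_lit 4) (nat_lit 494) (nat_lit 410) (nat_lit 296))))))) (XT.nd (nat_lit 56628) (nat_lit 0) (nat_lit 13832) (XT.nd (nat_lit 56082) (nat_lit 0) (nat_lit 22952) (XT.nd (nat_lit 234) (nat_lit 76) (nat_lit 0) (XT.nd (nat_lit 78) (nat_lit 228) (nat_lit 0) (XT.lf (nat_lit 0) (nat_lit 48490826959) (nat_lit 152) (nat_lit 40387879526) (nat_lit 0) (nat_lit 1311706083) (nat_lit 47) (nat_lit 5) (nat_lit 49) (nat_lit 4) (nat_lit 47) (nat_lit 4) (nat_lit 495) (nat_lit 410) (nat_lit 295)) (XT.nd (nat_lit 78) (nat_lit 152) (nat_lit 0) (XT.lf (nat_lit 0) (nat_lit 39328645989) (nat_lit 76) (nat_lit 50657606633) (nat_lit 76) (nat_lit 3470237679) (nat_lit 46)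 (nat_lit 4) (nat_lit 47) (nat_lit 5) (nat_lit 47) (nat_lit 4) (nat_lit 496) (nat_lit 410) (nat_lit 294)) (XT.lf (nat_lit 0) (nat_lit 27146528136) (nat_lit 76) (nat_lit 9475024770) (nat_lit 152) (nat_lit 60233747599) (nat_lit 44) (nat_lit 5) (nat_lit 45) (nat_lit 5) (nat_lit 46) (nat_lit 4) (nat_lit 497) (nat_lit 410) (nat_lit 293)))) (XT.nd (nat_lit 55692) (nat_lit 0) (nat_lit 24776) (XT.lf (nat_lit 0) (nat_lit 13070676900) (nat_lit 76) (nat_lit 66575112149) (nat_lit 76) (nat_lit 20747242720) (nat_lit 43) (nat_lit 4) (nat_lit 44) (nat_lit 5) (nat_lit 44) (nat_lit 4) (nat_lit 498) (nat_lit 410) (nat_lit 292)) (XT.nd (nat_lit 78) (nat_lit 0) (nat_lit 0) (XT.lf (nat_lit 0) (nat_lit 1790826727) (nat_lit 988) (nat_lit 1064589459) (nat_lit 988) (nat_lit 1064589459) (nat_lit 369) (nat_lit 3) (nat_lit 382) (nat_lit 3) (nat_lit 382) (nat_lit 5) (nat_lit 411) (nat_lit 411) (nat_lit 378)) (XT.lf (nat_lit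 76) (nat_lit 4430470949) (nat_lit 0) (nat_lit 1374807352) (nat_lit 988) (nat_lit 2166479691) (nat_lit 370) (nat_lit 5) (nat_lit 369) (nat_lit 3) (nat_lit 382) (nat_lit 5) (nat_lit 412) (nat_lit 411) (nat_lit 377))))) (XT.nd (nat_lit 234) (nat_lit 912) (nat_lit 0) (XT.nd (nat_lit 78) (nat_lit 988) (nat_lit 0) (XT.lf (nat_lit 76) (nat_lit 3210037895) (nat_lit 0) (nat_lit 4879646985) (nat_lit 988) (nat_lit 21933923) (nat_lit 371) (nat_lit 5) (nat_lit 370) (nat_lit 5) (nat_lit 383) (nat_lit 5) (nat_lit 413) (nat_lit 411) (nat_lit 376)) (XT.nd (nat_lit 78) (nat_lit 0) (nat_lit 76) (XT.lf (nat_lit 76) (nat_lit 2044333129) (nat_lit 0) (nat_lit 82790486) (nat_lit 1064) (nat_lit 6132495780) (nat_lit 358) (nat_lit 5) (nat_lit 357) (nat_lit 5) (nat_lit 371) (nat_lit 5) (nat_lit 414) (nat_lit 411) (nat_lit 375)) (XT.lf (nat_lit 76) (nat_lit 918547084) (nat_lit 0) (nat_lit 3448450723) (nat_lit 1064) (nat_lit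 4048514198) (nat_lit 359) (nat_lit 5) (nat_lit 358) (nat_lit 5) (nat_lit 372) (nat_lit 5) (nat_lit 415) (nat_lit 411) (nat_lit 374)))) (XT.nd (nat_lit 156) (nat_lit 0) (nat_lit 76) (XT.nd (nat_lit 78) (nat_lit 1064) (nat_lit 0) (XT.lf (nat_lit 0) (nat_lit 6682521744) (nat_lit 988) (nat_lit 135278486) (nat_lit 1064) (nat_lit 1762501740) (nat_lit 359) (nat_lit 5) (nat_lit 372) (nat_lit 5) (nat_lit 373) (nat_lit 5) (nat_lit 416) (nat_lit 411) (nat_lit 373)) (XT.lf (nat_lit 0) (nat_lit 349186152) (nat_lit 1064) (nat_lit 1123742279) (nat_lit 1140) (nat_lit 7280438610) (nat_lit 345) (nat_lit 5) (nat_lit 359) (nat_lit 5) (nat_lit 360) (nat_lit 5) (nat_lit 417) (nat_lit 411) (nat_lit 372))) (XT.nd (nat_lit 78) (nat_lit 0) (nat_lit 76) (XT.lf (nat_lit 0) (nat_lit 2669397908) (nat_lit 1064) (nat_lit 2086380639) (nat_lit 1140) (nat_lit 4178749664) (nat_lit 346) (nat_lit 5) (nat_lit 360) (nat_lit 5) (nat_lit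 361) (nat_lit 5) (nat_lit 418) (nat_lit 411) (nat_lit 371)) (XT.lf (nat_lit 0) (nat_lit 5097372160) (nat_lit 1064) (nat_lit 2989599267) (nat_lit 1140) (nat_lit 1038033860) (nat_lit 347) (nat_lit 5) (nat_lit 361) (nat_lit 5) (nat_lit 362) (nat_lit 5) (nat_lit 419) (nat_lit 411) (nat_lit 370)))))) (XT.nd (nat_lit 546) (nat_lit 3724) (nat_lit 0) (XT.nd (nat_lit 234) (nat_lit 3344) (nat_lit 0) (XT.nd (nat_lit 78) (nat_lit 2204) (nat_lit 0) (XT.lf (nat_lit 76) (nat_lit 5468189725) (nat_lit 0) (nat_lit 2201238931) (nat_lit 1140) (nat_lit 1654906963) (nat_lit 348) (nat_lit 5) (nat_lit 347) (nat_lit 5) (nat_lit 362) (nat_lit 5) (nat_lit 420) (nat_lit 411) (nat_lit 369)) (XT.nd (nat_lit 78) (nat_lit 1140) (nat_lit 0) (XT.lf (nat_lit 0) (nat_lit 840970923) (nat_lit 1140) (nat_lit 4685081344) (nat_lit 76) (nat_lit 4006723018) (nat_lit 333) (nat_lit 5) (nat_lit 348) (nat_lit 5) (nat_lit 334) (nat_lit 5) (nat_lit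 421) (nat_lit 411) (nat_lit 368)) (XT.lf (nat_lit 0) (nat_lit 3446851889) (nat_lit 1216) (nat_lit 5476058428) (nat_lit 76) (nat_lit 827660729) (nat_lit 318) (nat_lit 5) (nat_lit 334) (nat_lit 5) (nat_lit 319) (nat_lit 5) (nat_lit 422) (nat_lit 411) (nat_lit 367)))) (XT.nd (nat_lit 156) (nat_lit 1292) (nat_lit 0) (XT.nd (nat_lit 78) (nat_lit 836) (nat_lit 0) (XT.lf (nat_lit 0) (nat_lit 3740106784) (nat_lit 1216) (nat_lit 2494677061) (nat_lit 1292) (nat_lit 3742928354) (nat_lit 302) (nat_lit 5) (nat_lit 318) (nat_lit 5) (nat_lit 319) (nat_lit 5) (nat_lit 423) (nat_lit 411) (nat_lit 366)) (XT.lf (nat_lit 0) (nat_lit 3259956837) (nat_lit 836) (nat_lit 5946215644) (nat_lit 912) (nat_lit 1008724039) (nat_lit 291) (nat_lit 5) (nat_lit 302) (nat_lit 5) (nat_lit 303) (nat_lit 5) (nat_lit 424) (nat_lit 411) (nat_lit 365))) (XT.nd (nat_lit 78) (nat_lit 608) (nat_lit 0) (XT.lf (nat_lit 0) (nat_lit 1869861941)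 (nat_lit 684) (nat_lit 7637987267) (nat_lit 76) (nat_lit 954240868) (nat_lit 282) (nat_lit 5) (nat_lit 291) (nat_lit 5) (nat_lit 283) (nat_lit 5) (nat_lit 425) (nat_lit 411) (nat_lit 364)) (XT.lf (nat_lit 0) (nat_lit 2415426846) (nat_lit 608) (nat_lit 2532440044) (nat_lit 684) (nat_lit 5771193219) (nat_lit 274) (nat_lit 5) (nat_lit 282) (nat_lit 5) (nat_lit 283) (nat_lit 5) (nat_lit 426) (nat_lit 411) (nat_lit 363))))) (XT.nd (nat_lit 234) (nat_lit 1976) (nat_lit 0) (XT.nd (nat_lit 78) (nat_lit 1216) (nat_lit 0) (XT.lf (nat_lit 0) (nat_lit 2059167351) (nat_lit 532) (nat_lit 6189526834) (nat_lit 608) (nat_lit 2738123434) (nat_lit 267) (nat_lit 5) (nat_lit 274) (nat_lit 5) (nat_lit 275) (nat_lit 5) (nat_lit 427) (nat_lit 411) (nat_lit 362)) (XT.nd (nat_lit 78) (nat_lit 532) (nat_lit 0) (XT.lf (nat_lit 0) (nat_lit 504971665) (nat_lit 684) (nat_lit 9504367008) (nat_lit 76) (nat_lit 1256489081) (nat_lit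 258) (nat_lit 5) (nat_lit 267) (nat_lit 5) (nat_lit 259) (nat_lit 5) (nat_lit 428) (nat_lit 411) (nat_lit 361)) (XT.lf (nat_lit 0) (nat_lit 1475459369) (nat_lit 532) (nat_lit 2476717412) (nat_lit 608) (nat_lit 7602846641) (nat_lit 251) (nat_lit 5) (nat_lit 258) (nat_lit 5) (nat_lit 259) (nat_lit 5) (nat_lit 429) (nat_lit 411) (nat_lit 360)))) (XT.nd (nat_lit 156) (nat_lit 988) (nat_lit 0) (XT.nd (nat_lit 78) (nat_lit 456) (nat_lit 0) (XT.lf (nat_lit 0) (nat_lit 1240524140) (nat_lit 532) (nat_lit 6425368195) (nat_lit 608) (nat_lit 4189967600) (nat_lit 244) (nat_lit 5) (nat_lit 251) (nat_lit 5) (nat_lit 252) (nat_lit 5) (nat_lit 430) (nat_lit 411) (nat_lit 359)) (XT.lf (nat_lit 0) (nat_lit 1071916419) (nat_lit 456) (nat_lit 10581407320) (nat_lit 532) (nat_lit 515778933) (nat_lit 238) (nat_lit 5) (nat_lit 244) (nat_lit 5) (nat_lit 245) (nat_lit 5) (nat_lit 431) (nat_lit 411) (nat_lit 358))) (XT.nd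 (nat_lit 78) (nat_lit 456) (nat_lit 0) (XT.lf (nat_lit 0) (nat_lit 914013365) (nat_lit 456) (nat_lit 2482344984) (nat_lit 532) (nat_lit 9097106627) (nat_lit 231) (nat_lit 5) (nat_lit 237) (nat_lit 5) (nat_lit 238) (nat_lit 5) (nat_lit 432) (nat_lit 411) (nat_lit 357)) (XT.lf (nat_lit 0) (nat_lit 802535548) (nat_lit 456) (nat_lit 6809668402) (nat_lit 532) (nat_lit 5218129855) (nat_lit 225) (nat_lit 5) (nat_lit 231) (nat_lit 5) (nat_lit 232) (nat_lit 5) (nat_lit 433) (nat_lit 411) (nat_lit 356))))))))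
noncomputable def xc67 : XT := (XT.nd (nat_lit 2028) (nat_lit 4408) (nat_lit 0) (XT.nd (nat_lit 1014) (nat_lit 3192) (nat_lit 0) (XT.nd (nat_lit 468) (nat_lit 2432) (nat_lit 0) (XT.nd (nat_lit 234) (nat_lit 1140) (nat_lit 0) (XT.nd (nat_lit 78) (nat_lit 912) (nat_lit 0) (XT.lf (nat_lit 0) (nat_lit 762076515) (nat_lit 456) (nat_lit 11385589927) (nat_lit 532) (nat_lit 1033119342) (nat_lit 219) (nat_lit 5) (nat_lit 225) (nat_lit 5) (nat_lit 226) (nat_lit 5) (nat_lit 434) (nat_lit 411) (nat_lit 355)) (XT.nd (nat_lit 78) (nat_lit 456) (nat_lit 0) (XT.lf (nat_lit 0) (nat_lit 735366916) (nat_lit 380) (nat_lit 2702440272) (nat_lit 456) (nat_lit 10105720401) (nat_lit 213) (nat_lit 5) (nat_lit 218) (nat_lit 5) (nat_lit 219) (nat_lit 5) (nat_lit 435) (nat_lit 411) (nat_lit 354)) (XT.lf (nat_lit 0) (nat_lit 753565261) (nat_lit 456) (nat_lit 7498913724) (nat_lit 532) (nat_lit 5667377583) (nat_lit 207) (nat_lit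 5) (nat_lit 213) (nat_lit 5) (nat_lit 214) (nat_lit 5) (nat_lit 436) (nat_lit 411) (nat_lit 353)))) (XT.nd (nat_lit 78) (nat_lit 760) (nat_lit 0) (XT.lf (nat_lit 0) (nat_lit 849334537) (nat_lit 380) (nat_lit 12587749420) (nat_lit 456) (nat_lit 874045782) (nat_lit 202) (nat_lit 5) (nat_lit 207) (nat_lit 5) (nat_lit 208) (nat_lit 5) (nat_lit 437) (nat_lit 411) (nat_lit 352)) (XT.nd (nat_lit 78) (nat_lit 304) (nat_lit 0) (XT.lf (nat_lit 0) (nat_lit 952352475) (nat_lit 380) (nat_lit 3293760274) (nat_lit 456) (nat_lit 10469608428) (nat_lit 196) (nat_lit 5) (nat_lit 201) (nat_lit 5) (nat_lit 202) (nat_lit 5) (nat_lit 438) (nat_lit 411) (nat_lit 351)) (XT.lf (nat_lit 0) (nat_lit 1109953369) (nat_lit 304) (nat_lit 8655467221) (nat_lit 380) (nat_lit 5370028722) (nat_lit 192) (nat_lit 5) (nat_lit 196) (nat_lit 5) (nat_lit 197) (nat_lit 5) (nat_lit 439) (nat_lit 411) (nat_lit 350))))) (XT.nd (nat_lit 234)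 (nat_lit 1368) (nat_lit 0) (XT.nd (nat_lit 78) (nat_lit 608) (nat_lit 0) (XT.lf (nat_lit 0) (nat_lit 135783426) (nat_lit 456) (nat_lit 14219617055) (nat_lit 76) (nat_lit 1216242324) (nat_lit 186) (nat_lit 5) (nat_lit 192) (nat_lit 5) (nat_lit 187) (nat_lit 5) (nat_lit 440) (nat_lit 411) (nat_lit 349)) (XT.nd (nat_lit 78) (nat_lit 304) (nat_lit 0) (XT.lf (nat_lit 0) (nat_lit 1584414148) (nat_lit 304) (nat_lit 4421982432) (nat_lit 380) (nat_lit 10015640102) (nat_lit 182) (nat_lit 5) (nat_lit 186) (nat_lit 5) (nat_lit 187) (nat_lit 5) (nat_lit 441) (nat_lit 411) (nat_lit 348)) (XT.lf (nat_lit 0) (nat_lit 1894058598) (nat_lit 304) (nat_lit 10452885280) (nat_lit 380) (nat_lit 4142717024) (nat_lit 178) (nat_lit 5) (nat_lit 182) (nat_lit 5) (nat_lit 183) (nat_lit 5) (nat_lit 442) (nat_lit 411) (nat_lit 347)))) (XT.nd (nat_lit 156) (nat_lit 684) (nat_lit 0) (XT.nd (nat_lit 78) (nat_lit 304) (nat_lit 0)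 (XT.lf (nat_lit 0) (nat_lit 2155956620) (nat_lit 380) (nat_lit 14697316700) (nat_lit 76) (nat_lit 121664012) (nat_lit 173) (nat_lit 5) (nat_lit 178) (nat_lit 5) (nat_lit 174) (nat_lit 5) (nat_lit 443) (nat_lit 411) (nat_lit 346)) (XT.lf (nat_lit 0) (nat_lit 2655480078) (nat_lit 304) (nat_lit 6267103975) (nat_lit 380) (nat_lit 8553504511) (nat_lit 169) (nat_lit 5) (nat_lit 173) (nat_lit 5) (nat_lit 174) (nat_lit 5) (nat_lit 444) (nat_lit 411) (nat_lit 345))) (XT.nd (nat_lit 78) (nat_lit 380) (nat_lit 0) (XT.lf (nat_lit 0) (nat_lit 3132059260) (nat_lit 304) (nat_lit 13081426262) (nat_lit 380) (nat_lit 1783235866) (nat_lit 165) (nat_lit 5) (nat_lit 169) (nat_lit 5) (nat_lit 170) (nat_lit 5) (nat_lit 445) (nat_lit 411) (nat_lit 344)) (XT.lf (nat_lit 0) (nat_lit 3643198666) (nat_lit 304) (nat_lit 1788251498) (nat_lit 380) (nat_lit 13104107316) (nat_lit 160) (nat_lit 5) (nat_lit 164) (nat_lit 5) (nat_lit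 165) (nat_lit 5) (nat_lit 446) (nat_lit 411) (nat_lit 343)))))) (XT.nd (nat_lit 468) (nat_lit 1596) (nat_lit 0) (XT.nd (nat_lit 234) (nat_lit 760) (nat_lit 0) (XT.nd (nat_lit 78) (nat_lit 608) (nat_lit 0) (XT.lf (nat_lit 0) (nat_lit 4191470850) (nat_lit 228) (nat_lit 9029157712) (nat_lit 304) (nat_lit 5872660031) (nat_lit 157) (nat_lit 5) (nat_lit 160) (nat_lit 5) (nat_lit 161) (nat_lit 5) (nat_lit 447) (nat_lit 411) (nat_lit 342)) (XT.nd (nat_lit 78) (nat_lit 228) (nat_lit 0) (XT.lf (nat_lit 0) (nat_lit 1894837893) (nat_lit 380) (nat_lit 14839979875) (nat_lit 76) (nat_lit 2937352801) (nat_lit 152) (nat_lit 5) (nat_lit 157) (nat_lit 5) (nat_lit 153) (nat_lit 5) (nat_lit 448) (nat_lit 411) (nat_lit 341)) (XT.lf (nat_lit 0) (nat_lit 5481497399) (nat_lit 228) (nat_lit 4708391381) (nat_lit 304) (nat_lit 10080546288) (nat_lit 149) (nat_lit 5) (nat_lit 152) (nat_lit 5) (nat_lit 153) (nat_lit 5) (nat_lit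 449) (nat_lit 411) (nat_lit 340)))) (XT.nd (nat_lit 78) (nat_lit 532) (nat_lit 0) (XT.lf (nat_lit 0) (nat_lit 6217231982) (nat_lit 228) (nat_lit 12934453809) (nat_lit 304) (nat_lit 1739368899) (nat_lit 146) (nat_lit 5) (nat_lit 149) (nat_lit 5) (nat_lit 150) (nat_lit 5) (nat_lit 450) (nat_lit 411) (nat_lit 339)) (XT.nd (nat_lit 78) (nat_lit 228) (nat_lit 0) (XT.lf (nat_lit 0) (nat_lit 7004235597) (nat_lit 228) (nat_lit 108969254) (nat_lit 304) (nat_lit 14420538906) (nat_lit 142) (nat_lit 5) (nat_lit 145) (nat_lit 5) (nat_lit 146) (nat_lit 5) (nat_lit 451) (nat_lit 411) (nat_lit 338)) (XT.lf (nat_lit 0) (nat_lit 7814138918) (nat_lit 228) (nat_lit 8878391745) (nat_lit 304) (nat_lit 5505918586) (nat_lit 139) (nat_lit 5) (nat_lit 142) (nat_lit 5) (nat_lit 143) (nat_lit 5) (nat_lit 452) (nat_lit 411) (nat_lit 337))))) (XT.nd (nat_lit 234) (nat_lit 836) (nat_lit 0) (XT.nd (nat_lit 78) (nat_lit 456) (nat_lit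 0) (XT.lf (nat_lit 0) (nat_lit 4026025375) (nat_lit 304) (nat_lit 14175897563) (nat_lit 76) (nat_lit 4685952737) (nat_lit 135) (nat_lit 5) (nat_lit 139) (nat_lit 5) (nat_lit 136) (nat_lit 5) (nat_lit 453) (nat_lit 411) (nat_lit 336)) (XT.nd (nat_lit 78) (nat_lit 228) (nat_lit 0) (XT.lf (nat_lit 0) (nat_lit 9639982551) (nat_lit 228) (nat_lit 4579029433) (nat_lit 304) (nat_lit 9382177851) (nat_lit 132) (nat_lit 5) (nat_lit 135) (nat_lit 5) (nat_lit 136) (nat_lit 5) (nat_lit 454) (nat_lit 411) (nat_lit 335)) (XT.lf (nat_lit 0) (nat_lit 872979016) (nat_lit 228) (nat_lit 13696336294) (nat_lit 76) (nat_lit 9771311243) (nat_lit 129) (nat_lit 5) (nat_lit 132) (nat_lit 5) (nat_lit 130) (nat_lit 5) (nat_lit 455) (nat_lit 411) (nat_lit 334)))) (XT.nd (nat_lit 156) (nat_lit 456) (nat_lit 0) (XT.nd (nat_lit 78) (nat_lit 152) (nat_lit 0) (XT.lf (nat_lit 0) (nat_lit 11688871787) (nat_lit 228) (nat_lit 30583009)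 (nat_lit 304) (nat_lit 13386616721) (nat_lit 126) (nat_lit 5) (nat_lit 129) (nat_lit 5) (nat_lit 130) (nat_lit 5) (nat_lit 456) (nat_lit 411) (nat_lit 333)) (XT.lf (nat_lit 0) (nat_lit 12770235185) (nat_lit 152) (nat_lit 10717516209) (nat_lit 228) (nat_lit 2410653537) (nat_lit 124) (nat_lit 5) (nat_lit 126) (nat_lit 5) (nat_lit 127) (nat_lit 5) (nat_lit 457) (nat_lit 411) (nat_lit 332))) (XT.nd (nat_lit 78) (nat_lit 152) (nat_lit 0) (XT.lf (nat_lit 0) (nat_lit 9224622990) (nat_lit 304) (nat_lit 12816332100) (nat_lit 76) (nat_lit 4678121710) (nat_lit 120) (nat_lit 5) (nat_lit 124) (nat_lit 5) (nat_lit 121) (nat_lit 5) (nat_lit 458) (nat_lit 411) (nat_lit 331)) (XT.lf (nat_lit 0) (nat_lit 15090135070) (nat_lit 152) (nat_lit 6661232608) (nat_lit 228) (nat_lit 5817912717) (nat_lit 118) (nat_lit 5) (nat_lit 120) (nat_lit 5) (nat_lit 121) (nat_lit 5) (nat_lit 459) (nat_lit 411) (nat_lit 330))))))) (XT.nd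 (nat_lit 1014) (nat_lit 1976) (nat_lit 0) (XT.nd (nat_lit 468) (nat_lit 1216) (nat_lit 0) (XT.nd (nat_lit 234) (nat_lit 532) (nat_lit 0) (XT.nd (nat_lit 78) (nat_lit 380) (nat_lit 0) (XT.lf (nat_lit 0) (nat_lit 6672215111) (nat_lit 304) (nat_lit 12140532004) (nat_lit 76) (nat_lit 9636725838) (nat_lit 114) (nat_lit 5) (nat_lit 118) (nat_lit 5) (nat_lit 115) (nat_lit 5) (nat_lit 460) (nat_lit 411) (nat_lit 329)) (XT.nd (nat_lit 78) (nat_lit 228) (nat_lit 0) (XT.lf (nat_lit 0) (nat_lit 17591912331) (nat_lit 152) (nat_lit 2412581973) (nat_lit 228) (nat_lit 9357314551) (nat_lit 112) (nat_lit 5) (nat_lit 114) (nat_lit 5) (nat_lit 115) (nat_lit 5) (nat_lit 461) (nat_lit 411) (nat_lit 328)) (XT.lf (nat_lit 0) (nat_lit 4037860682) (nat_lit 228) (nat_lit 11423025245) (nat_lit 76) (nat_lit 14845030676) (nat_lit 109) (nat_lit 5) (nat_lit 112) (nat_lit 5) (nat_lit 110) (nat_lit 5) (nat_lit 462) (nat_lit 411)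 (nat_lit 327)))) (XT.nd (nat_lit 78) (nat_lit 380) (nat_lit 0) (XT.lf (nat_lit 0) (nat_lit 18243919487) (nat_lit 228) (nat_lit 11058467859) (nat_lit 76) (nat_lit 1982024297) (nat_lit 107) (nat_lit 5) (nat_lit 110) (nat_lit 5) (nat_lit 108) (nat_lit 5) (nat_lit 463) (nat_lit 411) (nat_lit 326)) (XT.nd (nat_lit 78) (nat_lit 152) (nat_lit 0) (XT.lf (nat_lit 0) (nat_lit 1291616380) (nat_lit 228) (nat_lit 10707710110) (nat_lit 76) (nat_lit 20298469282) (nat_lit 104) (nat_lit 5) (nat_lit 107) (nat_lit 5) (nat_lit 105) (nat_lit 5) (nat_lit 464) (nat_lit 411) (nat_lit 325)) (XT.lf (nat_lit 0) (nat_lit 16446361106) (nat_lit 228) (nat_lit 10400425635) (nat_lit 76) (nat_lit 6499917778) (nat_lit 102) (nat_lit 5) (nat_lit 105) (nat_lit 5) (nat_lit 103) (nat_lit 5) (nat_lit 465) (nat_lit 411) (nat_lit 324))))) (XT.nd (nat_lit 234) (nat_lit 684) (nat_lit 0) (XT.nd (nat_lit 78) (nat_lit 380) (nat_lit 0) (XT.lf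 (nat_lit 0) (nat_lit 24367977578) (nat_lit 152) (nat_lit 8431483115) (nat_lit 228) (nat_lit 1635380117) (nat_lit 100) (nat_lit 5) (nat_lit 102) (nat_lit 5) (nat_lit 103) (nat_lit 5) (nat_lit 466) (nat_lit 411) (nat_lit 323)) (XT.nd (nat_lit 78) (nat_lit 152) (nat_lit 0) (XT.lf (nat_lit 0) (nat_lit 14552468139) (nat_lit 228) (nat_lit 9836564537) (nat_lit 76) (nat_lit 11170986462) (nat_lit 97) (nat_lit 5) (nat_lit 100) (nat_lit 5) (nat_lit 98) (nat_lit 5) (nat_lit 467) (nat_lit 411) (nat_lit 322)) (XT.lf (nat_lit 0) (nat_lit 27156937072) (nat_lit 152) (nat_lit 4785150356) (nat_lit 228) (nat_lit 4786097735) (nat_lit 95) (nat_lit 5) (nat_lit 97) (nat_lit 5) (nat_lit 98) (nat_lit 5) (nat_lit 468) (nat_lit 411) (nat_lit 321)))) (XT.nd (nat_lit 156) (nat_lit 304) (nat_lit 0) (XT.nd (nat_lit 78) (nat_lit 152) (nat_lit 0) (XT.lf (nat_lit 0) (nat_lit 12517291872) (nat_lit 228) (nat_lit 9447774520) (nat_lit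 76) (nat_lit 15970866941) (nat_lit 92) (nat_lit 5) (nat_lit 95) (nat_lit 5) (nat_lit 93) (nat_lit 5) (nat_lit 469) (nat_lit 411) (nat_lit 320)) (XT.lf (nat_lit 0) (nat_lit 29891057335) (nat_lit 152) (nat_lit 1108014883) (nat_lit 228) (nat_lit 8191209420) (nat_lit 90) (nat_lit 5) (nat_lit 92) (nat_lit 5) (nat_lit 93) (nat_lit 5) (nat_lit 470) (nat_lit 411) (nat_lit 319))) (XT.nd (nat_lit 78) (nat_lit 152) (nat_lit 0) (XT.lf (nat_lit 0) (nat_lit 10285370772) (nat_lit 152) (nat_lit 9335334160) (nat_lit 76) (nat_lit 20866361202) (nat_lit 88) (nat_lit 5) (nat_lit 90) (nat_lit 5) (nat_lit 89) (nat_lit 5) (nat_lit 471) (nat_lit 411) (nat_lit 318)) (XT.lf (nat_lit 0) (nat_lit 29939656707) (nat_lit 228) (nat_lit 9388843463) (nat_lit 76) (nat_lit 2505058582) (nat_lit 86) (nat_lit 5) (nat_lit 89) (nat_lit 5) (nat_lit 87) (nat_lit 4) (nat_lit 472) (nat_lit 411) (nat_lit 317)))))) (XT.nd (nat_lit 546) (nat_lit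 988) (nat_lit 0) (XT.nd (nat_lit 234) (nat_lit 532) (nat_lit 0) (XT.nd (nat_lit 78) (nat_lit 304) (nat_lit 0) (XT.lf (nat_lit 0) (nat_lit 7788688487) (nat_lit 152) (nat_lit 9625033263) (nat_lit 76) (nat_lit 25813468198) (nat_lit 84) (nat_lit 5) (nat_lit 86) (nat_lit 5) (nat_lit 85) (nat_lit 5) (nat_lit 473) (nat_lit 411) (nat_lit 316)) (XT.nd (nat_lit 78) (nat_lit 152) (nat_lit 0) (XT.lf (nat_lit 0) (nat_lit 28680738920) (nat_lit 228) (nat_lit 9965973132) (nat_lit 76) (nat_lit 6026118757) (nat_lit 82) (nat_lit 5) (nat_lit 85) (nat_lit 5) (nat_lit 83) (nat_lit 4) (nat_lit 474) (nat_lit 411) (nat_lit 315)) (XT.lf (nat_lit 0) (nat_lit 4944258349) (nat_lit 152) (nat_lit 10472046262) (nat_lit 76) (nat_lit 30755052912) (nat_lit 80) (nat_lit 5) (nat_lit 82) (nat_lit 5) (nat_lit 81) (nat_lit 5) (nat_lit 475) (nat_lit 411) (nat_lit 314)))) (XT.nd (nat_lit 156) (nat_lit 228) (nat_lit 0) (XT.nd (nat_lit 78)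 (nat_lit 152) (nat_lit 0) (XT.lf (nat_lit 0) (nat_lit 27126706819) (nat_lit 228) (nat_lit 11192025361) (nat_lit 76) (nat_lit 9405427954) (nat_lit 78) (nat_lit 5) (nat_lit 81) (nat_lit 5) (nat_lit 79) (nat_lit 4) (nat_lit 476) (nat_lit 411) (nat_lit 313)) (XT.lf (nat_lit 0) (nat_lit 1651269390) (nat_lit 152) (nat_lit 12066688526) (nat_lit 76) (nat_lit 35618088009) (nat_lit 76) (nat_lit 5) (nat_lit 78) (nat_lit 5) (nat_lit 77) (nat_lit 5) (nat_lit 477) (nat_lit 411) (nat_lit 312))) (XT.nd (nat_lit 78) (nat_lit 76) (nat_lit 0) (XT.lf (nat_lit 0) (nat_lit 25173624361) (nat_lit 228) (nat_lit 13277468090) (nat_lit 76) (nat_lit 12553700303) (nat_lit 74) (nat_lit 5) (nat_lit 77) (nat_lit 5) (nat_lit 75) (nat_lit 4) (nat_lit 478) (nat_lit 411) (nat_lit 311)) (XT.lf (nat_lit 0) (nat_lit 38075769917) (nat_lit 76) (nat_lit 12406588344) (nat_lit 152) (nat_lit 2256311110) (nat_lit 73) (nat_lit 5) (nat_lit 74)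 (nat_lit 5) (nat_lit 75) (nat_lit 4) (nat_lit 479) (nat_lit 411) (nat_lit 310))))) (XT.nd (nat_lit 234) (nat_lit 456) (nat_lit 0) (XT.nd (nat_lit 78) (nat_lit 304) (nat_lit 0) (XT.lf (nat_lit 0) (nat_lit 22694954389) (nat_lit 228) (nat_lit 16478553759) (nat_lit 76) (nat_lit 15360144146) (nat_lit 70) (nat_lit 5) (nat_lit 73) (nat_lit 5) (nat_lit 71) (nat_lit 4) (nat_lit 480) (nat_lit 411) (nat_lit 309)) (XT.nd (nat_lit 78) (nat_lit 228) (nat_lit 0) (XT.lf (nat_lit 0) (nat_lit 37854606432) (nat_lit 76) (nat_lit 11615642214) (nat_lit 152) (nat_lit 6928771891) (nat_lit 69) (nat_lit 5) (nat_lit 70) (nat_lit 5) (nat_lit 71) (nat_lit 4) (nat_lit 481) (nat_lit 411) (nat_lit 308)) (XT.lf (nat_lit 0) (nat_lit 19537280410) (nat_lit 228) (nat_lit 21106020152) (nat_lit 76) (nat_lit 17688237974) (nat_lit 66) (nat_lit 5) (nat_lit 69) (nat_lit 5) (nat_lit 67) (nat_lit 4) (nat_lit 482) (nat_lit 411) (nat_lit 307))))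 (XT.nd (nat_lit 156) (nat_lit 228) (nat_lit 0) (XT.nd (nat_lit 78) (nat_lit 152) (nat_lit 0) (XT.lf (nat_lit 0) (nat_lit 36300986824) (nat_lit 76) (nat_lit 11524581424) (nat_lit 152) (nat_lit 12513789438) (nat_lit 65) (nat_lit 5) (nat_lit 66) (nat_lit 5) (nat_lit 67) (nat_lit 4) (nat_lit 483) (nat_lit 411) (nat_lit 306)) (XT.lf (nat_lit 0) (nat_lit 15515263100) (nat_lit 152) (nat_lit 27535342665) (nat_lit 76) (nat_lit 19370748106) (nat_lit 63) (nat_lit 5) (nat_lit 65) (nat_lit 5) (nat_lit 64) (nat_lit 4) (nat_lit 484) (nat_lit 411) (nat_lit 305))) (XT.nd (nat_lit 78) (nat_lit 152) (nat_lit 0) (XT.lf (nat_lit 0) (nat_lit 33024708132) (nat_lit 76) (nat_lit 12330994961) (nat_lit 152) (nat_lit 19227967822) (nat_lit 62) (nat_lit 5) (nat_lit 63) (nat_lit 5) (nat_lit 64) (nat_lit 4) (nat_lit 485) (nat_lit 411) (nat_lit 304)) (XT.lf (nat_lit 0) (nat_lit 10405698904) (nat_lit 152) (nat_lit 36218807545)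 (nat_lit 76) (nat_lit 20203855541) (nat_lit 60) (nat_lit 5) (nat_lit 62) (nat_lit 5) (nat_lit 61) (nat_lit 4) (nat_lit 486) (nat_lit 411) (nat_lit 303))))))))
noncomputable def xc68 : XT := (XT.nd (nat_lit 57720) (nat_lit 0) (nat_lit 7448) (XT.nd (nat_lit 56706) (nat_lit 0) (nat_lit 18696) (XT.nd (nat_lit 468) (nat_lit 608) (nat_lit 0) (XT.nd (nat_lit 234) (nat_lit 304) (nat_lit 0) (XT.nd (nat_lit 78) (nat_lit 228) (nat_lit 0) (XT.lf (nat_lit 0) (nat_lit 27554031881) (nat_lit 76) (nat_lit 14273818024) (nat_lit 152) (nat_lit 27330592664) (nat_lit 59) (nat_lit 5) (nat_lit 60) (nat_lit 5) (nat_lit 61) (nat_lit 4) (nat_lit 487) (nat_lit 411) (nat_lit 302)) (XT.nd (nat_lit 78) (nat_lit 76) (nat_lit 0) (XT.lf (nat_lit 0) (nat_lit 3940525283) (nat_lit 152) (nat_lit 47699721844) (nat_lit 76) (nat_lit 19940236718) (nat_lit 57) (nat_lit 5) (nat_lit 59) (nat_lit 5) (nat_lit 58) (nat_lit 4) (nat_lit 488) (nat_lit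 411) (nat_lit 301)) (XT.lf (nat_lit 0) (nat_lit 19320511112) (nat_lit 76) (nat_lit 17641035571) (nat_lit 152) (nat_lit 37131415068) (nat_lit 56) (nat_lit 5) (nat_lit 57) (nat_lit 5) (nat_lit 58) (nat_lit 4) (nat_lit 489) (nat_lit 411) (nat_lit 300)))) (XT.nd (nat_lit 78) (nat_lit 228) (nat_lit 0) (XT.lf (nat_lit 0) (nat_lit 14037080854) (nat_lit 76) (nat_lit 58385294417) (nat_lit 76) (nat_lit 4285025740) (nat_lit 55) (nat_lit 4) (nat_lit 56) (nat_lit 5) (nat_lit 56) (nat_lit 4) (nat_lit 490) (nat_lit 411) (nat_lit 299)) (XT.nd (nat_lit 78) (nat_lit 76) (nat_lit 0) (XT.lf (nat_lit 0) (nat_lit 7641135835) (nat_lit 76) (nat_lit 22778745811) (nat_lit 152) (nat_lit 48999803195) (nat_lit 53) (nat_lit 5) (nat_lit 54) (nat_lit 5) (nat_lit 55) (nat_lit 4) (nat_lit 491) (nat_lit 411) (nat_lit 298)) (XT.lf (nat_lit 0) (nat_lit 316201664) (nat_lit 76) (nat_lit 67235991825) (nat_lit 76) (nat_lit 14690693319)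 (nat_lit 52) (nat_lit 4) (nat_lit 53) (nat_lit 5) (nat_lit 53) (nat_lit 4) (nat_lit 492) (nat_lit 411) (nat_lit 297))))) (XT.nd (nat_lit 234) (nat_lit 304) (nat_lit 0) (XT.nd (nat_lit 78) (nat_lit 228) (nat_lit 0) (XT.lf (nat_lit 0) (nat_lit 21878962587) (nat_lit 152) (nat_lit 8140651752) (nat_lit 76) (nat_lit 55152640687) (nat_lit 51) (nat_lit 5) (nat_lit 53) (nat_lit 5) (nat_lit 52) (nat_lit 4) (nat_lit 493) (nat_lit 411) (nat_lit 296)) (XT.nd (nat_lit 78) (nat_lit 152) (nat_lit 0) (XT.lf (nat_lit 0) (nat_lit 60735214748) (nat_lit 152) (nat_lit 17783580033) (nat_lit 0) (nat_lit 9702075225) (nat_lit 50) (nat_lit 5) (nat_lit 52) (nat_lit 4) (nat_lit 50) (nat_lit 4) (nat_lit 494) (nat_lit 411) (nat_lit 295)) (XT.lf (nat_lit 0) (nat_lit 10900180290) (nat_lit 152) (nat_lit 28914269051) (nat_lit 76) (nat_lit 51574995956) (nat_lit 48) (nat_lit 5) (nat_lit 50) (nat_lit 5) (nat_lit 49) (nat_lit 4) (nat_lit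 495) (nat_lit 411) (nat_lit 294)))) (XT.nd (nat_lit 156) (nat_lit 152) (nat_lit 0) (XT.nd (nat_lit 78) (nat_lit 76) (nat_lit 0) (XT.lf (nat_lit 0) (nat_lit 51341790967) (nat_lit 152) (nat_lit 41566396380) (nat_lit 0) (nat_lit 1778950179) (nat_lit 47) (nat_lit 5) (nat_lit 49) (nat_lit 4) (nat_lit 47) (nat_lit 4) (nat_lit 496) (nat_lit 411) (nat_lit 293)) (XT.lf (nat_lit 0) (nat_lit 42111851836) (nat_lit 76) (nat_lit 52787681562) (nat_lit 76) (nat_lit 3217359526) (nat_lit 46) (nat_lit 4) (nat_lit 47) (nat_lit 5) (nat_lit 47) (nat_lit 4) (nat_lit 497) (nat_lit 411) (nat_lit 292))) (XT.nd (nat_lit 55770) (nat_lit 0) (nat_lit 24700) (XT.lf (nat_lit 0) (nat_lit 29305300028) (nat_lit 76) (nat_lit 9553196061) (nat_lit 152) (nat_lit 62827390842) (nat_lit 44) (nat_lit 5) (nat_lit 45) (nat_lit 5) (nat_lit 46) (nat_lit 4) (nat_lit 498) (nat_lit 411) (nat_lit 291)) (XT.lf (nat_lit 0) (nat_lit 3939209076) (nat_lit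 988) (nat_lit 57402076) (nat_lit 988) (nat_lit 57402076) (nat_lit 369) (nat_lit 3) (nat_lit 382) (nat_lit 3) (nat_lit 382) (nat_lit 5) (nat_lit 412) (nat_lit 412) (nat_lit 376)))))) (XT.nd (nat_lit 468) (nat_lit 4180) (nat_lit 0) (XT.nd (nat_lit 234) (nat_lit 836) (nat_lit 0) (XT.nd (nat_lit 78) (nat_lit 0) (nat_lit 76) (XT.lf (nat_lit 0) (nat_lit 1750438860) (nat_lit 988) (nat_lit 1556796716) (nat_lit 1064) (nat_lit 4943920075) (nat_lit 356) (nat_lit 5) (nat_lit 369) (nat_lit 3) (nat_lit 370) (nat_lit 5) (nat_lit 413) (nat_lit 412) (nat_lit 375)) (XT.nd (nat_lit 78) (nat_lit 0) (nat_lit 0) (XT.lf (nat_lit 0) (nat_lit 3772027882) (nat_lit 988) (nat_lit 2936687968) (nat_lit 1064) (nat_lit 1694251636) (nat_lit 357) (nat_lit 5) (nat_lit 370) (nat_lit 5) (nat_lit 371) (nat_lit 5) (nat_lit 414) (nat_lit 412) (nat_lit 374)) (XT.lf (nat_lit 76) (nat_lit 4292958329) (nat_lit 0) (nat_lit 1575067479) (nat_lit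 1064) (nat_lit 2695156629) (nat_lit 358) (nat_lit 5) (nat_lit 357) (nat_lit 5) (nat_lit 371) (nat_lit 5) (nat_lit 415) (nat_lit 412) (nat_lit 373)))) (XT.nd (nat_lit 78) (nat_lit 988) (nat_lit 0) (XT.lf (nat_lit 76) (nat_lit 3169532937) (nat_lit 0) (nat_lit 4884859822) (nat_lit 1064) (nat_lit 677460116) (nat_lit 359) (nat_lit 5) (nat_lit 358) (nat_lit 5) (nat_lit 372) (nat_lit 5) (nat_lit 416) (nat_lit 412) (nat_lit 372)) (XT.nd (nat_lit 78) (nat_lit 0) (nat_lit 0) (XT.lf (nat_lit 0) (nat_lit 1391917495) (nat_lit 1064) (nat_lit 6813015612) (nat_lit 1140) (nat_lit 704251531) (nat_lit 345) (nat_lit 5) (nat_lit 359) (nat_lit 5) (nat_lit 360) (nat_lit 5) (nat_lit 417) (nat_lit 412) (nat_lit 371)) (XT.lf (nat_lit 76) (nat_lit 1052070795) (nat_lit 0) (nat_lit 2512410612) (nat_lit 1140) (nat_lit 5530298912) (nat_lit 346) (nat_lit 5) (nat_lit 345) (nat_lit 5) (nat_lit 360) (nat_lit 5) (nat_lit 418) (nat_lit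 412) (nat_lit 370))))) (XT.nd (nat_lit 234) (nat_lit 3192) (nat_lit 0) (XT.nd (nat_lit 78) (nat_lit 1064) (nat_lit 0) (XT.lf (nat_lit 76) (nat_lit 59271092) (nat_lit 0) (nat_lit 5792008570) (nat_lit 1140) (nat_lit 3438217847) (nat_lit 347) (nat_lit 5) (nat_lit 346) (nat_lit 5) (nat_lit 361) (nat_lit 5) (nat_lit 419) (nat_lit 412) (nat_lit 369)) (XT.nd (nat_lit 78) (nat_lit 1140) (nat_lit 0) (XT.lf (nat_lit 0) (nat_lit 8268837768) (nat_lit 1064) (nat_lit 859618397) (nat_lit 1140) (nat_lit 365011232) (nat_lit 347) (nat_lit 5) (nat_lit 361) (nat_lit 5) (nat_lit 362) (nat_lit 5) (nat_lit 420) (nat_lit 412) (nat_lit 368)) (XT.lf (nat_lit 0) (nat_lit 1123234304) (nat_lit 1140) (nat_lit 1761598473) (nat_lit 1216) (nat_lit 6821142990) (nat_lit 332) (nat_lit 5) (nat_lit 347) (nat_lit 5) (nat_lit 348) (nat_lit 5) (nat_lit 421) (nat_lit 412) (nat_lit 367)))) (XT.nd (nat_lit 156) (nat_lit 2128) (nat_lit 0)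 (XT.nd (nat_lit 78) (nat_lit 1140) (nat_lit 0) (XT.lf (nat_lit 0) (nat_lit 3591698228) (nat_lit 1140) (nat_lit 2627226194) (nat_lit 76) (nat_lit 3708973671) (nat_lit 333) (nat_lit 5) (nat_lit 348) (nat_lit 5) (nat_lit 334) (nat_lit 5) (nat_lit 422) (nat_lit 412) (nat_lit 366)) (XT.lf (nat_lit 0) (nat_lit 6216688378) (nat_lit 1216) (nat_lit 3441576949) (nat_lit 76) (nat_lit 501666033) (nat_lit 318) (nat_lit 5) (nat_lit 334) (nat_lit 5) (nat_lit 319) (nat_lit 5) (nat_lit 423) (nat_lit 412) (nat_lit 365))) (XT.nd (nat_lit 78) (nat_lit 912) (nat_lit 0) (XT.lf (nat_lit 0) (nat_lit 6169230014) (nat_lit 1216) (nat_lit 2872649340) (nat_lit 1292) (nat_lit 1359625934) (nat_lit 302) (nat_lit 5) (nat_lit 318) (nat_lit 5) (nat_lit 319) (nat_lit 5) (nat_lit 424) (nat_lit 412) (nat_lit 364)) (XT.lf (nat_lit 0) (nat_lit 1381315901) (nat_lit 912) (nat_lit 4990979541) (nat_lit 76) (nat_lit 4280842740) (nat_lit 290)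 (nat_lit 5) (nat_lit 302) (nat_lit 5) (nat_lit 291) (nat_lit 5) (nat_lit 425) (nat_lit 412) (nat_lit 363))))))) (XT.nd (nat_lit 1014) (nat_lit 4484) (nat_lit 0) (XT.nd (nat_lit 468) (nat_lit 3268) (nat_lit 0) (XT.nd (nat_lit 234) (nat_lit 1748) (nat_lit 0) (XT.nd (nat_lit 78) (nat_lit 1140) (nat_lit 0) (XT.lf (nat_lit 0) (nat_lit 4288553604) (nat_lit 684) (nat_lit 5713477273) (nat_lit 76) (nat_lit 913203594) (nat_lit 282) (nat_lit 5) (nat_lit 291) (nat_lit 5) (nat_lit 283) (nat_lit 5) (nat_lit 426) (nat_lit 412) (nat_lit 362)) (XT.nd (nat_lit 78) (nat_lit 532) (nat_lit 0) (XT.lf (nat_lit 0) (nat_lit 4776494785) (nat_lit 608) (nat_lit 2654775375) (nat_lit 684) (nat_lit 3756468226) (nat_lit 274) (nat_lit 5) (nat_lit 282) (nat_lit 5) (nat_lit 283) (nat_lit 5) (nat_lit 427) (nat_lit 412) (nat_lit 361)) (XT.lf (nat_lit 0) (nat_lit 4403510951) (nat_lit 532) (nat_lit 6408736017) (nat_lit 608) (nat_lit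 659192818) (nat_lit 267) (nat_lit 5) (nat_lit 274) (nat_lit 5) (nat_lit 275) (nat_lit 5) (nat_lit 428) (nat_lit 412) (nat_lit 360)))) (XT.nd (nat_lit 78) (nat_lit 1064) (nat_lit 0) (XT.lf (nat_lit 0) (nat_lit 2621932863) (nat_lit 684) (nat_lit 7698627850) (nat_lit 76) (nat_lit 1445635833) (nat_lit 258) (nat_lit 5) (nat_lit 267) (nat_lit 5) (nat_lit 259) (nat_lit 5) (nat_lit 429) (nat_lit 412) (nat_lit 359)) (XT.nd (nat_lit 78) (nat_lit 532) (nat_lit 0) (XT.lf (nat_lit 0) (nat_lit 3764806658) (nat_lit 532) (nat_lit 2398383670) (nat_lit 608) (nat_lit 5909019059) (nat_lit 251) (nat_lit 5) (nat_lit 258) (nat_lit 5) (nat_lit 259) (nat_lit 5) (nat_lit 430) (nat_lit 412) (nat_lit 358)) (XT.lf (nat_lit 0) (nat_lit 3511557119) (nat_lit 532) (nat_lit 6478243287) (nat_lit 608) (nat_lit 2400478823) (nat_lit 244) (nat_lit 5) (nat_lit 251) (nat_lit 5) (nat_lit 252) (nat_lit 5) (nat_lit 431) (nat_lit 412) (nat_lit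 357))))) (XT.nd (nat_lit 234) (nat_lit 1824) (nat_lit 0) (XT.nd (nat_lit 78) (nat_lit 912) (nat_lit 0) (XT.lf (nat_lit 0) (nat_lit 1359484812) (nat_lit 532) (nat_lit 9409191272) (nat_lit 76) (nat_lit 1952179759) (nat_lit 237) (nat_lit 5) (nat_lit 244) (nat_lit 5) (nat_lit 238) (nat_lit 5) (nat_lit 432) (nat_lit 412) (nat_lit 356)) (XT.nd (nat_lit 78) (nat_lit 456) (nat_lit 0) (XT.lf (nat_lit 0) (nat_lit 3133220703) (nat_lit 456) (nat_lit 2254310308) (nat_lit 532) (nat_lit 7675829813) (nat_lit 231) (nat_lit 5) (nat_lit 237) (nat_lit 5) (nat_lit 238) (nat_lit 5) (nat_lit 433) (nat_lit 412) (nat_lit 355)) (XT.lf (nat_lit 0) (nat_lit 3003785014) (nat_lit 456) (nat_lit 6747650637) (nat_lit 532) (nat_lit 3667525952) (nat_lit 225) (nat_lit 5) (nat_lit 231) (nat_lit 5) (nat_lit 232) (nat_lit 5) (nat_lit 434) (nat_lit 412) (nat_lit 354)))) (XT.nd (nat_lit 156) (nat_lit 912) (nat_lit 0) (XT.nd (nat_lit 78)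 (nat_lit 380) (nat_lit 0) (XT.lf (nat_lit 0) (nat_lit 652536656) (nat_lit 532) (nat_lit 10848152943) (nat_lit 76) (nat_lit 2287843545) (nat_lit 218) (nat_lit 5) (nat_lit 225) (nat_lit 5) (nat_lit 219) (nat_lit 5) (nat_lit 435) (nat_lit 412) (nat_lit 353)) (XT.lf (nat_lit 0) (nat_lit 2890679758) (nat_lit 380) (nat_lit 2373805480) (nat_lit 456) (nat_lit 8906460402) (nat_lit 213) (nat_lit 5) (nat_lit 218) (nat_lit 5) (nat_lit 219) (nat_lit 5) (nat_lit 436) (nat_lit 412) (nat_lit 352))) (XT.nd (nat_lit 78) (nat_lit 456) (nat_lit 0) (XT.lf (nat_lit 0) (nat_lit 2893062254) (nat_lit 456) (nat_lit 7372478559) (nat_lit 532) (nat_lit 4302186214) (nat_lit 207) (nat_lit 5) (nat_lit 213) (nat_lit 5) (nat_lit 214) (nat_lit 5) (nat_lit 437) (nat_lit 412) (nat_lit 351)) (XT.lf (nat_lit 0) (nat_lit 664443380) (nat_lit 456) (nat_lit 12011197664) (nat_lit 76) (nat_lit 2304280352) (nat_lit 201) (nat_lit 5) (nat_lit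 207) (nat_lit 5) (nat_lit 202) (nat_lit 5) (nat_lit 438) (nat_lit 412) (nat_lit 350)))))) (XT.nd (nat_lit 546) (nat_lit 2052) (nat_lit 0) (XT.nd (nat_lit 234) (nat_lit 1292) (nat_lit 0) (XT.nd (nat_lit 78) (nat_lit 760) (nat_lit 0) (XT.lf (nat_lit 0) (nat_lit 3054213251) (nat_lit 380) (nat_lit 2913744997) (nat_lit 456) (nat_lit 9438166598) (nat_lit 196) (nat_lit 5) (nat_lit 201) (nat_lit 5) (nat_lit 202) (nat_lit 5) (nat_lit 439) (nat_lit 412) (nat_lit 349)) (XT.nd (nat_lit 78) (nat_lit 456) (nat_lit 0) (XT.lf (nat_lit 0) (nat_lit 3199805302) (nat_lit 304) (nat_lit 8516085474) (nat_lit 380) (nat_lit 4132373415) (nat_lit 192) (nat_lit 5) (nat_lit 196) (nat_lit 5) (nat_lit 197) (nat_lit 5) (nat_lit 440) (nat_lit 412) (nat_lit 348)) (XT.lf (nat_lit 0) (nat_lit 1573852074) (nat_lit 456) (nat_lit 12888632722) (nat_lit 76) (nat_lit 1844717056) (nat_lit 186) (nat_lit 5) (nat_lit 192) (nat_lit 5) (nat_lit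 187) (nat_lit 5) (nat_lit 441) (nat_lit 412) (nat_lit 347)))) (XT.nd (nat_lit 156) (nat_lit 684) (nat_lit 0) (XT.nd (nat_lit 78) (nat_lit 304) (nat_lit 0) (XT.lf (nat_lit 0) (nat_lit 3647067519) (nat_lit 304) (nat_lit 4041838169) (nat_lit 380) (nat_lit 9092686475) (nat_lit 182) (nat_lit 5) (nat_lit 186) (nat_lit 5) (nat_lit 187) (nat_lit 5) (nat_lit 442) (nat_lit 412) (nat_lit 346)) (XT.lf (nat_lit 0) (nat_lit 3950081077) (nat_lit 304) (nat_lit 10354938444) (nat_lit 380) (nat_lit 2968825739) (nat_lit 178) (nat_lit 5) (nat_lit 182) (nat_lit 5) (nat_lit 183) (nat_lit 5) (nat_lit 443) (nat_lit 412) (nat_lit 345))) (XT.nd (nat_lit 78) (nat_lit 304) (nat_lit 0) (XT.lf (nat_lit 0) (nat_lit 3577908571) (nat_lit 380) (nat_lit 13467509498) (nat_lit 76) (nat_lit 738770463) (nat_lit 173) (nat_lit 5) (nat_lit 178) (nat_lit 5) (nat_lit 174) (nat_lit 5) (nat_lit 444) (nat_lit 412) (nat_lit 344)) (XT.lf (nat_lit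 0) (nat_lit 4696610162) (nat_lit 304) (nat_lit 5942022733) (nat_lit 380) (nat_lit 7673094848) (nat_lit 169) (nat_lit 5) (nat_lit 173) (nat_lit 5) (nat_lit 174) (nat_lit 5) (nat_lit 445) (nat_lit 412) (nat_lit 343))))) (XT.nd (nat_lit 234) (nat_lit 1140) (nat_lit 0) (XT.nd (nat_lit 78) (nat_lit 608) (nat_lit 0) (XT.lf (nat_lit 0) (nat_lit 5173425784) (nat_lit 304) (nat_lit 13084143591) (nat_lit 380) (nat_lit 601921357) (nat_lit 165) (nat_lit 5) (nat_lit 169) (nat_lit 5) (nat_lit 170) (nat_lit 5) (nat_lit 446) (nat_lit 412) (nat_lit 342)) (XT.nd (nat_lit 78) (nat_lit 228) (nat_lit 0) (XT.lf (nat_lit 0) (nat_lit 5680237483) (nat_lit 304) (nat_lit 1226981833) (nat_lit 380) (nat_lit 12518930557) (nat_lit 160) (nat_lit 5) (nat_lit 164) (nat_lit 5) (nat_lit 165) (nat_lit 5) (nat_lit 447) (nat_lit 412) (nat_lit 341)) (XT.lf (nat_lit 0) (nat_lit 6231826313) (nat_lit 228) (nat_lit 8820243130) (nat_lit 304)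 (nat_lit 4960714551) (nat_lit 157) (nat_lit 5) (nat_lit 160) (nat_lit 5) (nat_lit 161) (nat_lit 5) (nat_lit 448) (nat_lit 412) (nat_lit 340)))) (XT.nd (nat_lit 156) (nat_lit 532) (nat_lit 0) (XT.nd (nat_lit 78) (nat_lit 228) (nat_lit 0) (XT.lf (nat_lit 0) (nat_lit 3138985472) (nat_lit 380) (nat_lit 13752753075) (nat_lit 76) (nat_lit 3729505910) (nat_lit 152) (nat_lit 5) (nat_lit 157) (nat_lit 5) (nat_lit 153) (nat_lit 5) (nat_lit 449) (nat_lit 412) (nat_lit 339)) (XT.lf (nat_lit 0) (nat_lit 7532363671) (nat_lit 228) (nat_lit 4278771234) (nat_lit 304) (nat_lit 9439419395) (nat_lit 149) (nat_lit 5) (nat_lit 152) (nat_lit 5) (nat_lit 153) (nat_lit 5) (nat_lit 450) (nat_lit 412) (nat_lit 338))) (XT.nd (nat_lit 78) (nat_lit 304) (nat_lit 0) (XT.lf (nat_lit 0) (nat_lit 8280189139) (nat_lit 228) (nat_lit 12910822638) (nat_lit 304) (nat_lit 712095807) (nat_lit 146) (nat_lit 5) (nat_lit 149) (nat_lit 5)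 (nat_lit 150) (nat_lit 5) (nat_lit 451) (nat_lit 412) (nat_lit 337)) (XT.lf (nat_lit 0) (nat_lit 8531205036) (nat_lit 304) (nat_lit 13506493983) (nat_lit 76) (nat_lit 540817723) (nat_lit 142) (nat_lit 5) (nat_lit 146) (nat_lit 5) (nat_lit 143) (nat_lit 5) (nat_lit 452) (nat_lit 412) (nat_lit 336))))))))
noncomputable def xc69 : XT := (XT.nd (nat_lit 2028) (nat_lit 2280) (nat_lit 0) (XT.nd (nat_lit 1014) (nat_lit 2128) (nat_lit 0) (XT.nd (nat_lit 468) (nat_lit 1520) (nat_lit 0) (XT.nd (nat_lit 234) (nat_lit 608) (nat_lit 0) (XT.nd (nat_lit 78) (nat_lit 532) (nat_lit 0) (XT.lf (nat_lit 0) (nat_lit 9903118356) (nat_lit 228) (nat_lit 8653163479) (nat_lit 304) (nat_lit 4721174229) (nat_lit 139) (nat_lit 5) (nat_lit 142) (nat_lit 5) (nat_lit 143) (nat_lit 5) (nat_lit 453) (nat_lit 412) (nat_lit 335)) (XT.nd (nat_lit 78) (nat_lit 228) (nat_lit 0) (XT.lf (nat_lit 0) (nat_lit 5239619992) (nat_lit 304) (nat_lit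 13191133638) (nat_lit 76) (nat_lit 5571108277) (nat_lit 135) (nat_lit 5) (nat_lit 139) (nat_lit 5) (nat_lit 136) (nat_lit 5) (nat_lit 454) (nat_lit 412) (nat_lit 334)) (XT.lf (nat_lit 0) (nat_lit 11766994959) (nat_lit 228) (nat_lit 4142869402) (nat_lit 304) (nat_lit 8841951007) (nat_lit 132) (nat_lit 5) (nat_lit 135) (nat_lit 5) (nat_lit 136) (nat_lit 5) (nat_lit 455) (nat_lit 412) (nat_lit 333)))) (XT.nd (nat_lit 78) (nat_lit 380) (nat_lit 0) (XT.lf (nat_lit 0) (nat_lit 1881020447) (nat_lit 228) (nat_lit 12741686329) (nat_lit 76) (nat_lit 10905985205) (nat_lit 129) (nat_lit 5) (nat_lit 132) (nat_lit 5) (nat_lit 130) (nat_lit 5) (nat_lit 456) (nat_lit 412) (nat_lit 332)) (XT.nd (nat_lit 78) (nat_lit 152) (nat_lit 0) (XT.lf (nat_lit 0) (nat_lit 13245227476) (nat_lit 304) (nat_lit 12473565217) (nat_lit 76) (nat_lit 614355903) (nat_lit 126) (nat_lit 5) (nat_lit 130) (nat_lit 5) (nat_lit 127) (nat_lit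 5) (nat_lit 457) (nat_lit 412) (nat_lit 331)) (XT.lf (nat_lit 0) (nat_lit 14976662451) (nat_lit 152) (nat_lit 10595889819) (nat_lit 228) (nat_lit 1593429556) (nat_lit 124) (nat_lit 5) (nat_lit 126) (nat_lit 5) (nat_lit 127) (nat_lit 5) (nat_lit 458) (nat_lit 412) (nat_lit 330))))) (XT.nd (nat_lit 234) (nat_lit 760) (nat_lit 0) (XT.nd (nat_lit 78) (nat_lit 456) (nat_lit 0) (XT.lf (nat_lit 0) (nat_lit 10582589953) (nat_lit 304) (nat_lit 11895881344) (nat_lit 76) (nat_lit 5549628650) (nat_lit 120) (nat_lit 5) (nat_lit 124) (nat_lit 5) (nat_lit 121) (nat_lit 5) (nat_lit 459) (nat_lit 412) (nat_lit 329)) (XT.nd (nat_lit 78) (nat_lit 304) (nat_lit 0) (XT.lf (nat_lit 0) (nat_lit 17361155769) (nat_lit 152) (nat_lit 6346392061) (nat_lit 228) (nat_lit 5214110976) (nat_lit 118) (nat_lit 5) (nat_lit 120) (nat_lit 5) (nat_lit 121) (nat_lit 5) (nat_lit 460) (nat_lit 412) (nat_lit 328)) (XT.lf (nat_lit 0) (nat_lit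 7861768632) (nat_lit 304) (nat_lit 11238166721) (nat_lit 76) (nat_lit 10746307762) (nat_lit 114) (nat_lit 5) (nat_lit 118) (nat_lit 5) (nat_lit 115) (nat_lit 5) (nat_lit 461) (nat_lit 412) (nat_lit 327)))) (XT.nd (nat_lit 156) (nat_lit 380) (nat_lit 0) (XT.nd (nat_lit 78) (nat_lit 228) (nat_lit 0) (XT.lf (nat_lit 0) (nat_lit 19937633415) (nat_lit 152) (nat_lit 1896362485) (nat_lit 228) (nat_lit 8971001089) (nat_lit 112) (nat_lit 5) (nat_lit 114) (nat_lit 5) (nat_lit 115) (nat_lit 5) (nat_lit 462) (nat_lit 412) (nat_lit 326)) (XT.lf (nat_lit 0) (nat_lit 5057273246) (nat_lit 228) (nat_lit 10535542605) (nat_lit 76) (nat_lit 16203848802) (nat_lit 109) (nat_lit 5) (nat_lit 112) (nat_lit 5) (nat_lit 110) (nat_lit 5) (nat_lit 463) (nat_lit 412) (nat_lit 325))) (XT.nd (nat_lit 78) (nat_lit 228) (nat_lit 0) (XT.lf (nat_lit 0) (nat_lit 19954329017) (nat_lit 228) (nat_lit 10176785543) (nat_lit 76) (nat_lit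 2693550122) (nat_lit 107) (nat_lit 5) (nat_lit 110) (nat_lit 5) (nat_lit 108) (nat_lit 5) (nat_lit 464) (nat_lit 412) (nat_lit 324)) (XT.lf (nat_lit 0) (nat_lit 2137474725) (nat_lit 228) (nat_lit 9834044092) (nat_lit 76) (nat_lit 21917708875) (nat_lit 104) (nat_lit 5) (nat_lit 107) (nat_lit 5) (nat_lit 105) (nat_lit 5) (nat_lit 465) (nat_lit 412) (nat_lit 323)))))) (XT.nd (nat_lit 468) (nat_lit 1064) (nat_lit 0) (XT.nd (nat_lit 234) (nat_lit 532) (nat_lit 0) (XT.nd (nat_lit 78) (nat_lit 380) (nat_lit 0) (XT.lf (nat_lit 0) (nat_lit 18031786854) (nat_lit 228) (nat_lit 9534927502) (nat_lit 76) (nat_lit 7424413545) (nat_lit 102) (nat_lit 5) (nat_lit 105) (nat_lit 5) (nat_lit 103) (nat_lit 5) (nat_lit 466) (nat_lit 412) (nat_lit 322)) (XT.nd (nat_lit 78) (nat_lit 228) (nat_lit 0) (XT.lf (nat_lit 0) (nat_lit 26932180236) (nat_lit 152) (nat_lit 8246959413) (nat_lit 228) (nat_lit 955234298) (nat_lit 100)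 (nat_lit 5) (nat_lit 102) (nat_lit 5) (nat_lit 103) (nat_lit 5) (nat_lit 467) (nat_lit 412) (nat_lit 321)) (XT.lf (nat_lit 0) (nat_lit 16010013438) (nat_lit 228) (nat_lit 8990709797) (nat_lit 76) (nat_lit 12315382812) (nat_lit 97) (nat_lit 5) (nat_lit 100) (nat_lit 5) (nat_lit 98) (nat_lit 5) (nat_lit 468) (nat_lit 412) (nat_lit 320)))) (XT.nd (nat_lit 78) (nat_lit 380) (nat_lit 0) (XT.lf (nat_lit 0) (nat_lit 29814122478) (nat_lit 152) (nat_lit 4432723065) (nat_lit 228) (nat_lit 4296503655) (nat_lit 95) (nat_lit 5) (nat_lit 97) (nat_lit 5) (nat_lit 98) (nat_lit 5) (nat_lit 469) (nat_lit 412) (nat_lit 319)) (XT.nd (nat_lit 78) (nat_lit 152) (nat_lit 0) (XT.lf (nat_lit 0) (nat_lit 13841669081) (nat_lit 228) (nat_lit 8629042136) (nat_lit 76) (nat_lit 17341048970) (nat_lit 92) (nat_lit 5) (nat_lit 95) (nat_lit 5) (nat_lit 93) (nat_lit 5) (nat_lit 470) (nat_lit 412) (nat_lit 318)) (XT.lf (nat_lit 0)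 (nat_lit 32639721584) (nat_lit 152) (nat_lit 586609639) (nat_lit 228) (nat_lit 7903131587) (nat_lit 90) (nat_lit 5) (nat_lit 92) (nat_lit 5) (nat_lit 93) (nat_lit 5) (nat_lit 471) (nat_lit 412) (nat_lit 317))))) (XT.nd (nat_lit 234) (nat_lit 608) (nat_lit 0) (XT.nd (nat_lit 78) (nat_lit 304) (nat_lit 0) (XT.lf (nat_lit 0) (nat_lit 11468389539) (nat_lit 152) (nat_lit 8556251792) (nat_lit 76) (nat_lit 22466702892) (nat_lit 88) (nat_lit 5) (nat_lit 90) (nat_lit 5) (nat_lit 89) (nat_lit 5) (nat_lit 472) (nat_lit 412) (nat_lit 316)) (XT.nd (nat_lit 78) (nat_lit 152) (nat_lit 0) (XT.lf (nat_lit 0) (nat_lit 32090575537) (nat_lit 228) (nat_lit 8634078779) (nat_lit 76) (nat_lit 3180952187) (nat_lit 86) (nat_lit 5) (nat_lit 89) (nat_lit 5) (nat_lit 87) (nat_lit 4) (nat_lit 473) (nat_lit 412) (nat_lit 315)) (XT.lf (nat_lit 0) (nat_lit 8818640376) (nat_lit 152) (nat_lit 8904410967) (nat_lit 76) (nat_lit 27646271385)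 (nat_lit 84) (nat_lit 5) (nat_lit 86) (nat_lit 5) (nat_lit 85) (nat_lit 5) (nat_lit 474) (nat_lit 412) (nat_lit 314)))) (XT.nd (nat_lit 156) (nat_lit 304) (nat_lit 0) (XT.nd (nat_lit 78) (nat_lit 152) (nat_lit 0) (XT.lf (nat_lit 0) (nat_lit 30741264732) (nat_lit 228) (nat_lit 9283451739) (nat_lit 76) (nat_lit 6862950552) (nat_lit 82) (nat_lit 5) (nat_lit 85) (nat_lit 5) (nat_lit 83) (nat_lit 4) (nat_lit 475) (nat_lit 412) (nat_lit 313)) (XT.lf (nat_lit 0) (nat_lit 5805179330) (nat_lit 152) (nat_lit 9836452645) (nat_lit 76) (nat_lit 32819872327) (nat_lit 80) (nat_lit 5) (nat_lit 82) (nat_lit 5) (nat_lit 81) (nat_lit 5) (nat_lit 476) (nat_lit 412) (nat_lit 312))) (XT.nd (nat_lit 78) (nat_lit 152) (nat_lit 0) (XT.lf (nat_lit 0) (nat_lit 29083450554) (nat_lit 228) (nat_lit 10612891241) (nat_lit 76) (nat_lit 10396004706) (nat_lit 78) (nat_lit 5) (nat_lit 81) (nat_lit 5) (nat_lit 79) (nat_lit 4) (nat_lit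 477) (nat_lit 412) (nat_lit 311)) (XT.lf (nat_lit 0) (nat_lit 2322058425) (nat_lit 152) (nat_lit 11552213664) (nat_lit 76) (nat_lit 37910920685) (nat_lit 76) (nat_lit 5) (nat_lit 78) (nat_lit 5) (nat_lit 77) (nat_lit 5) (nat_lit 478) (nat_lit 412) (nat_lit 310))))))) (XT.nd (nat_lit 1014) (nat_lit 684) (nat_lit 0) (XT.nd (nat_lit 468) (nat_lit 760) (nat_lit 0) (XT.nd (nat_lit 234) (nat_lit 380) (nat_lit 0) (XT.nd (nat_lit 78) (nat_lit 304) (nat_lit 0) (XT.lf (nat_lit 0) (nat_lit 27007909071) (nat_lit 228) (nat_lit 12843397768) (nat_lit 76) (nat_lit 13686449181) (nat_lit 74) (nat_lit 5) (nat_lit 77) (nat_lit 5) (nat_lit 75) (nat_lit 4) (nat_lit 479) (nat_lit 412) (nat_lit 309)) (XT.nd (nat_lit 78) (nat_lit 228) (nat_lit 0) (XT.lf (nat_lit 0) (nat_lit 41046029803) (nat_lit 76) (nat_lit 12518891748) (nat_lit 152) (nat_lit 1793920054) (nat_lit 73) (nat_lit 5) (nat_lit 74) (nat_lit 5) (nat_lit 75) (nat_lit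 4) (nat_lit 480) (nat_lit 412) (nat_lit 308)) (XT.lf (nat_lit 0) (nat_lit 24381693339) (nat_lit 228) (nat_lit 16244049954) (nat_lit 76) (nat_lit 16618024599) (nat_lit 70) (nat_lit 5) (nat_lit 73) (nat_lit 5) (nat_lit 71) (nat_lit 4) (nat_lit 481) (nat_lit 412) (nat_lit 307)))) (XT.nd (nat_lit 78) (nat_lit 304) (nat_lit 0) (XT.lf (nat_lit 0) (nat_lit 40775428521) (nat_lit 76) (nat_lit 11703921138) (nat_lit 152) (nat_lit 6723547315) (nat_lit 69) (nat_lit 5) (nat_lit 70) (nat_lit 5) (nat_lit 71) (nat_lit 4) (nat_lit 482) (nat_lit 412) (nat_lit 306)) (XT.nd (nat_lit 78) (nat_lit 76) (nat_lit 0) (XT.lf (nat_lit 0) (nat_lit 21043640391) (nat_lit 228) (nat_lit 21141139739) (nat_lit 76) (nat_lit 19047444044) (nat_lit 66) (nat_lit 5) (nat_lit 69) (nat_lit 5) (nat_lit 67) (nat_lit 4) (nat_lit 483) (nat_lit 412) (nat_lit 305)) (XT.lf (nat_lit 0) (nat_lit 39106974291) (nat_lit 76) (nat_lit 11623679740) (nat_lit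 152) (nat_lit 12610251213) (nat_lit 65) (nat_lit 5) (nat_lit 66) (nat_lit 5) (nat_lit 67) (nat_lit 4) (nat_lit 484) (nat_lit 412) (nat_lit 304))))) (XT.nd (nat_lit 234) (nat_lit 380) (nat_lit 0) (XT.nd (nat_lit 78) (nat_lit 228) (nat_lit 0) (XT.lf (nat_lit 0) (nat_lit 16799074804) (nat_lit 152) (nat_lit 27928936604) (nat_lit 76) (nat_lit 20799163055) (nat_lit 63) (nat_lit 5) (nat_lit 65) (nat_lit 5) (nat_lit 64) (nat_lit 4) (nat_lit 485) (nat_lit 412) (nat_lit 303)) (XT.nd (nat_lit 78) (nat_lit 152) (nat_lit 0) (XT.lf (nat_lit 0) (nat_lit 35630934270) (nat_lit 76) (nat_lit 12485589693) (nat_lit 152) (nat_lit 19681534050) (nat_lit 62) (nat_lit 5) (nat_lit 63) (nat_lit 5) (nat_lit 64) (nat_lit 4) (nat_lit 486) (nat_lit 412) (nat_lit 302)) (XT.lf (nat_lit 0) (nat_lit 11413569542) (nat_lit 152) (nat_lit 37082363920) (nat_lit 76) (nat_lit 21659214087) (nat_lit 60) (nat_lit 5) (nat_lit 62) (nat_lit 5)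 (nat_lit 61) (nat_lit 4) (nat_lit 487) (nat_lit 412) (nat_lit 301)))) (XT.nd (nat_lit 156) (nat_lit 152) (nat_lit 0) (XT.nd (nat_lit 78) (nat_lit 152) (nat_lit 0) (XT.lf (nat_lit 0) (nat_lit 29851960905) (nat_lit 76) (nat_lit 14540494610) (nat_lit 152) (nat_lit 28209708054) (nat_lit 59) (nat_lit 5) (nat_lit 60) (nat_lit 5) (nat_lit 61) (nat_lit 4) (nat_lit 488) (nat_lit 412) (nat_lit 300)) (XT.lf (nat_lit 0) (nat_lit 4605600859) (nat_lit 152) (nat_lit 49171918911) (nat_lit 76) (nat_lit 21367942409) (nat_lit 57) (nat_lit 5) (nat_lit 59) (nat_lit 5) (nat_lit 58) (nat_lit 4) (nat_lit 489) (nat_lit 412) (nat_lit 299))) (XT.nd (nat_lit 78) (nat_lit 76) (nat_lit 0) (XT.lf (nat_lit 0) (nat_lit 21173160778) (nat_lit 76) (nat_lit 18090747262) (nat_lit 152) (nat_lit 38520069108) (nat_lit 56) (nat_lit 5) (nat_lit 57) (nat_lit 5) (nat_lit 58) (nat_lit 4) (nat_lit 490) (nat_lit 412) (nat_lit 298)) (XT.lf (nat_lit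 0) (nat_lit 15609349228) (nat_lit 76) (nat_lit 60879121229) (nat_lit 76) (nat_lit 4040947341) (nat_lit 55) (nat_lit 4) (nat_lit 56) (nat_lit 5) (nat_lit 56) (nat_lit 4) (nat_lit 491) (nat_lit 412) (nat_lit 297)))))) (XT.nd (nat_lit 56316) (nat_lit 0) (nat_lit 22572) (XT.nd (nat_lit 234) (nat_lit 380) (nat_lit 0) (XT.nd (nat_lit 78) (nat_lit 152) (nat_lit 0) (XT.lf (nat_lit 0) (nat_lit 8877347746) (nat_lit 76) (nat_lit 23499725333) (nat_lit 152) (nat_lit 51000506412) (nat_lit 53) (nat_lit 5) (nat_lit 54) (nat_lit 5) (nat_lit 55) (nat_lit 4) (nat_lit 492) (nat_lit 412) (nat_lit 296)) (XT.nd (nat_lit 78) (nat_lit 76) (nat_lit 0) (XT.lf (nat_lit 0) (nat_lit 1170494562) (nat_lit 76) (nat_lit 70186621007) (nat_lit 76) (nat_lit 14985092710) (nat_lit 52) (nat_lit 4) (nat_lit 53) (nat_lit 5) (nat_lit 53) (nat_lit 4) (nat_lit 493) (nat_lit 412) (nat_lit 295)) (XT.lf (nat_lit 0) (nat_lit 23383907526) (nat_lit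 152) (nat_lit 7740946402) (nat_lit 76) (nat_lit 58293680711) (nat_lit 51) (nat_lit 5) (nat_lit 53) (nat_lit 5) (nat_lit 52) (nat_lit 4) (nat_lit 494) (nat_lit 412) (nat_lit 294)))) (XT.nd (nat_lit 156) (nat_lit 152) (nat_lit 0) (XT.nd (nat_lit 78) (nat_lit 152) (nat_lit 0) (XT.lf (nat_lit 0) (nat_lit 64174631124) (nat_lit 152) (nat_lit 17880871793) (nat_lit 0) (nat_lit 10564327841) (nat_lit 50) (nat_lit 5) (nat_lit 52) (nat_lit 4) (nat_lit 50) (nat_lit 4) (nat_lit 495) (nat_lit 412) (nat_lit 293)) (XT.lf (nat_lit 0) (nat_lit 11839937699) (nat_lit 152) (nat_lit 29582935437) (nat_lit 76) (nat_lit 54524199126) (nat_lit 48) (nat_lit 5) (nat_lit 50) (nat_lit 5) (nat_lit 49) (nat_lit 4) (nat_lit 496) (nat_lit 412) (nat_lit 292))) (XT.nd (nat_lit 78) (nat_lit 76) (nat_lit 0) (XT.lf (nat_lit 0) (nat_lit 54295658438) (nat_lit 152) (nat_lit 42882015863) (nat_lit 0) (nat_lit 2232214053) (nat_lit 47) (nat_lit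 5) (nat_lit 49) (nat_lit 4) (nat_lit 47) (nat_lit 4) (nat_lit 497) (nat_lit 412) (nat_lit 291)) (XT.lf (nat_lit 0) (nat_lit 44958282113) (nat_lit 76) (nat_lit 55061709267) (nat_lit 76) (nat_lit 2991479169) (nat_lit 46) (nat_lit 4) (nat_lit 47) (nat_lit 5) (nat_lit 47) (nat_lit 4) (nat_lit 498) (nat_lit 412) (nat_lit 290))))) (XT.nd (nat_lit 234) (nat_lit 988) (nat_lit 0) (XT.nd (nat_lit 78) (nat_lit 0) (nat_lit 0) (XT.lf (nat_lit 0) (nat_lit 892718372) (nat_lit 0) (nat_lit 892718372) (nat_lit 988) (nat_lit 2414002730) (nat_lit 356) (nat_lit 5) (nat_lit 356) (nat_lit 3) (nat_lit 369) (nat_lit 3) (nat_lit 413) (nat_lit 413) (nat_lit 374)) (XT.nd (nat_lit 78) (nat_lit 0) (nat_lit 76) (XT.lf (nat_lit 76) (nat_lit 312215880) (nat_lit 0) (nat_lit 5139497083) (nat_lit 1064) (nat_lit 3103206359) (nat_lit 357) (nat_lit 5) (nat_lit 356) (nat_lit 5) (nat_lit 370) (nat_lit 5) (nat_lit 414) (nat_lit 413) (nat_lit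 373)) (XT.lf (nat_lit 0) (nat_lit 7402451582) (nat_lit 988) (nat_lit 1079213432) (nat_lit 1064) (nat_lit 237832800) (nat_lit 357) (nat_lit 5) (nat_lit 370) (nat_lit 5) (nat_lit 371) (nat_lit 5) (nat_lit 415) (nat_lit 413) (nat_lit 372)))) (XT.nd (nat_lit 156) (nat_lit 0) (nat_lit 76) (XT.nd (nat_lit 78) (nat_lit 0) (nat_lit 76) (XT.lf (nat_lit 0) (nat_lit 554927063) (nat_lit 1064) (nat_lit 2443074668) (nat_lit 1140) (nat_lit 5893931328) (nat_lit 343) (nat_lit 5) (nat_lit 357) (nat_lit 5) (nat_lit 358) (nat_lit 5) (nat_lit 416) (nat_lit 413) (nat_lit 371)) (XT.lf (nat_lit 0) (nat_lit 2480550569) (nat_lit 1064) (nat_lit 3769976619) (nat_lit 1140) (nat_lit 2822463378) (nat_lit 344) (nat_lit 5) (nat_lit 358) (nat_lit 5) (nat_lit 359) (nat_lit 5) (nat_lit 417) (nat_lit 413) (nat_lit 370))) (XT.nd (nat_lit 78) (nat_lit 0) (nat_lit 76) (XT.lf (nat_lit 76) (nat_lit 4212912866) (nat_lit 0) (nat_lit 287288574)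 (nat_lit 1140) (nat_lit 4762977031) (nat_lit 345) (nat_lit 5) (nat_lit 344) (nat_lit 5) (nat_lit 359) (nat_lit 5) (nat_lit 418) (nat_lit 413) (nat_lit 369)) (XT.lf (nat_lit 76) (nat_lit 3150463993) (nat_lit 0) (nat_lit 3503265416) (nat_lit 1140) (nat_lit 2808168963) (nat_lit 346) (nat_lit 5) (nat_lit 345) (nat_lit 5) (nat_lit 360) (nat_lit 5) (nat_lit 419) (nat_lit 413) (nat_lit 368))))))))
noncomputable def xc70 : XT := (XT.nd (nat_lit 2028) (nat_lit 6308) (nat_lit 0) (XT.nd (nat_lit 1014) (nat_lit 5396) (nat_lit 0) (XT.nd (nat_lit 468) (nat_lit 4332) (nat_lit 0) (XT.nd (nat_lit 234) (nat_lit 2280) (nat_lit 0) (XT.nd (nat_lit 78) (nat_lit 1140) (nat_lit 0) (XT.lf (nat_lit 76) (nat_lit 2142570232) (nat_lit 0) (nat_lit 6785753509) (nat_lit 1140) (nat_lit 741837817) (nat_lit 347) (nat_lit 5) (nat_lit 346) (nat_lit 5) (nat_lit 361) (nat_lit 5) (nat_lit 420) (nat_lit 413) (nat_lit 367)) (XT.nd (nat_lit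 78) (nat_lit 0) (nat_lit 76) (XT.lf (nat_lit 76) (nat_lit 1171244022) (nat_lit 0) (nat_lit 253850915) (nat_lit 1216) (nat_lit 8462585123) (nat_lit 332) (nat_lit 5) (nat_lit 331) (nat_lit 5) (nat_lit 347) (nat_lit 5) (nat_lit 421) (nat_lit 413) (nat_lit 366)) (XT.lf (nat_lit 76) (nat_lit 214046113) (nat_lit 0) (nat_lit 3531560518) (nat_lit 1216) (nat_lit 6368438183) (nat_lit 333) (nat_lit 5) (nat_lit 332) (nat_lit 5) (nat_lit 348) (nat_lit 5) (nat_lit 422) (nat_lit 413) (nat_lit 365)))) (XT.nd (nat_lit 78) (nat_lit 2432) (nat_lit 0) (XT.lf (nat_lit 0) (nat_lit 6228134622) (nat_lit 1140) (nat_lit 679576876) (nat_lit 76) (nat_lit 3442644125) (nat_lit 333) (nat_lit 5) (nat_lit 348) (nat_lit 5) (nat_lit 334) (nat_lit 5) (nat_lit 423) (nat_lit 413) (nat_lit 364)) (XT.nd (nat_lit 78) (nat_lit 1292) (nat_lit 0) (XT.lf (nat_lit 0) (nat_lit 8883526328) (nat_lit 1216) (nat_lit 1519973801) (nat_lit 76) (nat_lit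 193526902) (nat_lit 318) (nat_lit 5) (nat_lit 334) (nat_lit 5) (nat_lit 319) (nat_lit 5) (nat_lit 424) (nat_lit 413) (nat_lit 363)) (XT.lf (nat_lit 0) (nat_lit 886227962) (nat_lit 1292) (nat_lit 2350799397) (nat_lit 76) (nat_lit 7616181409) (nat_lit 301) (nat_lit 5) (nat_lit 318) (nat_lit 5) (nat_lit 302) (nat_lit 5) (nat_lit 425) (nat_lit 413) (nat_lit 362))))) (XT.nd (nat_lit 234) (nat_lit 2280) (nat_lit 0) (XT.nd (nat_lit 78) (nat_lit 1216) (nat_lit 0) (XT.lf (nat_lit 0) (nat_lit 3645218985) (nat_lit 912) (nat_lit 3152976745) (nat_lit 76) (nat_lit 4321559812) (nat_lit 290) (nat_lit 5) (nat_lit 302) (nat_lit 5) (nat_lit 291) (nat_lit 5) (nat_lit 426) (nat_lit 413) (nat_lit 361)) (XT.nd (nat_lit 78) (nat_lit 608) (nat_lit 0) (XT.lf (nat_lit 0) (nat_lit 6612004926) (nat_lit 684) (nat_lit 3907169859) (nat_lit 76) (nat_lit 878365527) (nat_lit 282) (nat_lit 5) (nat_lit 291) (nat_lit 5) (nat_lit 283)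 (nat_lit 5) (nat_lit 427) (nat_lit 413) (nat_lit 360)) (XT.lf (nat_lit 0) (nat_lit 7047334578) (nat_lit 608) (nat_lit 2783626007) (nat_lit 684) (nat_lit 1855144558) (nat_lit 274) (nat_lit 5) (nat_lit 282) (nat_lit 5) (nat_lit 283) (nat_lit 5) (nat_lit 428) (nat_lit 413) (nat_lit 359)))) (XT.nd (nat_lit 156) (nat_lit 1064) (nat_lit 0) (XT.nd (nat_lit 78) (nat_lit 608) (nat_lit 0) (XT.lf (nat_lit 0) (nat_lit 1291964204) (nat_lit 608) (nat_lit 5342287334) (nat_lit 76) (nat_lit 5351678466) (nat_lit 266) (nat_lit 5) (nat_lit 274) (nat_lit 5) (nat_lit 267) (nat_lit 5) (nat_lit 429) (nat_lit 413) (nat_lit 358)) (XT.lf (nat_lit 0) (nat_lit 4650274508) (nat_lit 684) (nat_lit 6014663542) (nat_lit 76) (nat_lit 1632495673) (nat_lit 258) (nat_lit 5) (nat_lit 267) (nat_lit 5) (nat_lit 259) (nat_lit 5) (nat_lit 430) (nat_lit 413) (nat_lit 357))) (XT.nd (nat_lit 78) (nat_lit 532) (nat_lit 0) (XT.lf (nat_lit 0)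 (nat_lit 5962638211) (nat_lit 532) (nat_lit 2334929056) (nat_lit 608) (nat_lit 4323318163) (nat_lit 251) (nat_lit 5) (nat_lit 258) (nat_lit 5) (nat_lit 259) (nat_lit 5) (nat_lit 431) (nat_lit 413) (nat_lit 356)) (XT.lf (nat_lit 0) (nat_lit 5690769235) (nat_lit 532) (nat_lit 6558714800) (nat_lit 608) (nat_lit 707362485) (nat_lit 244) (nat_lit 5) (nat_lit 251) (nat_lit 5) (nat_lit 252) (nat_lit 5) (nat_lit 432) (nat_lit 413) (nat_lit 355)))))) (XT.nd (nat_lit 468) (nat_lit 2584) (nat_lit 0) (XT.nd (nat_lit 234) (nat_lit 1368) (nat_lit 0) (XT.nd (nat_lit 78) (nat_lit 912) (nat_lit 0) (XT.lf (nat_lit 0) (nat_lit 3142184452) (nat_lit 532) (nat_lit 7850037763) (nat_lit 76) (nat_lit 2313104412) (nat_lit 237) (nat_lit 5) (nat_lit 244) (nat_lit 5) (nat_lit 238) (nat_lit 5) (nat_lit 433) (nat_lit 413) (nat_lit 354)) (XT.nd (nat_lit 78) (nat_lit 456) (nat_lit 0) (XT.lf (nat_lit 0) (nat_lit 5261316359) (nat_lit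 456) (nat_lit 2047613646) (nat_lit 532) (nat_lit 6357914142) (nat_lit 231) (nat_lit 5) (nat_lit 237) (nat_lit 5) (nat_lit 238) (nat_lit 5) (nat_lit 434) (nat_lit 413) (nat_lit 353)) (XT.lf (nat_lit 0) (nat_lit 5114176250) (nat_lit 456) (nat_lit 6719952730) (nat_lit 532) (nat_lit 2207808920) (nat_lit 225) (nat_lit 5) (nat_lit 231) (nat_lit 5) (nat_lit 232) (nat_lit 5) (nat_lit 435) (nat_lit 413) (nat_lit 352)))) (XT.nd (nat_lit 78) (nat_lit 836) (nat_lit 0) (XT.lf (nat_lit 0) (nat_lit 2241756771) (nat_lit 532) (nat_lit 9412271007) (nat_lit 76) (nat_lit 2777124991) (nat_lit 218) (nat_lit 5) (nat_lit 225) (nat_lit 5) (nat_lit 219) (nat_lit 5) (nat_lit 436) (nat_lit 413) (nat_lit 351)) (XT.nd (nat_lit 78) (nat_lit 456) (nat_lit 0) (XT.lf (nat_lit 0) (nat_lit 4956796055) (nat_lit 380) (nat_lit 2071854662) (nat_lit 456) (nat_lit 7805709936) (nat_lit 213) (nat_lit 5) (nat_lit 218) (nat_lit 5) (nat_lit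 219) (nat_lit 5) (nat_lit 437) (nat_lit 413) (nat_lit 350)) (XT.lf (nat_lit 0) (nat_lit 4944126912) (nat_lit 456) (nat_lit 7286335274) (nat_lit 532) (nat_lit 3022002782) (nat_lit 207) (nat_lit 5) (nat_lit 213) (nat_lit 5) (nat_lit 214) (nat_lit 5) (nat_lit 438) (nat_lit 413) (nat_lit 349))))) (XT.nd (nat_lit 234) (nat_lit 1444) (nat_lit 0) (XT.nd (nat_lit 78) (nat_lit 684) (nat_lit 0) (XT.lf (nat_lit 0) (nat_lit 2116516235) (nat_lit 456) (nat_lit 10693512339) (nat_lit 76) (nat_lit 2876231759) (nat_lit 201) (nat_lit 5) (nat_lit 207) (nat_lit 5) (nat_lit 202) (nat_lit 5) (nat_lit 439) (nat_lit 413) (nat_lit 348)) (XT.nd (nat_lit 78) (nat_lit 304) (nat_lit 0) (XT.lf (nat_lit 0) (nat_lit 5070183009) (nat_lit 380) (nat_lit 2565370306) (nat_lit 456) (nat_lit 8499714609) (nat_lit 196) (nat_lit 5) (nat_lit 201) (nat_lit 5) (nat_lit 202) (nat_lit 5) (nat_lit 440) (nat_lit 413) (nat_lit 347)) (XT.lf (nat_lit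 0) (nat_lit 5205014855) (nat_lit 304) (nat_lit 8422928197) (nat_lit 380) (nat_lit 2972863521) (nat_lit 192) (nat_lit 5) (nat_lit 196) (nat_lit 5) (nat_lit 197) (nat_lit 5) (nat_lit 441) (nat_lit 413) (nat_lit 346)))) (XT.nd (nat_lit 156) (nat_lit 684) (nat_lit 0) (XT.nd (nat_lit 78) (nat_lit 304) (nat_lit 0) (XT.lf (nat_lit 0) (nat_lit 2950757355) (nat_lit 456) (nat_lit 11680941741) (nat_lit 76) (nat_lit 2451839635) (nat_lit 186) (nat_lit 5) (nat_lit 192) (nat_lit 5) (nat_lit 187) (nat_lit 5) (nat_lit 442) (nat_lit 413) (nat_lit 345)) (XT.lf (nat_lit 0) (nat_lit 5628452789) (nat_lit 304) (nat_lit 3698584604) (nat_lit 380) (nat_lit 8255950610) (nat_lit 182) (nat_lit 5) (nat_lit 186) (nat_lit 5) (nat_lit 187) (nat_lit 5) (nat_lit 443) (nat_lit 413) (nat_lit 344))) (XT.nd (nat_lit 78) (nat_lit 380) (nat_lit 0) (XT.lf (nat_lit 0) (nat_lit 5926559779) (nat_lit 304) (nat_lit 10309790944) (nat_lit 380)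 (nat_lit 1864634703) (nat_lit 178) (nat_lit 5) (nat_lit 182) (nat_lit 5) (nat_lit 183) (nat_lit 5) (nat_lit 444) (nat_lit 413) (nat_lit 343)) (XT.lf (nat_lit 0) (nat_lit 4948780526) (nat_lit 380) (nat_lit 12358868612) (nat_lit 76) (nat_lit 1329925086) (nat_lit 173) (nat_lit 5) (nat_lit 178) (nat_lit 5) (nat_lit 174) (nat_lit 5) (nat_lit 445) (nat_lit 413) (nat_lit 342))))))) (XT.nd (nat_lit 1014) (nat_lit 2736) (nat_lit 0) (XT.nd (nat_lit 468) (nat_lit 1748) (nat_lit 0) (XT.nd (nat_lit 234) (nat_lit 836) (nat_lit 0) (XT.nd (nat_lit 78) (nat_lit 684) (nat_lit 0) (XT.lf (nat_lit 0) (nat_lit 6662375889) (nat_lit 304) (nat_lit 5660043198) (nat_lit 380) (nat_lit 6870278037) (nat_lit 169) (nat_lit 5) (nat_lit 173) (nat_lit 5) (nat_lit 174) (nat_lit 5) (nat_lit 446) (nat_lit 413) (nat_lit 341)) (XT.nd (nat_lit 78) (nat_lit 304) (nat_lit 0) (XT.lf (nat_lit 0) (nat_lit 510188285) (nat_lit 380) (nat_lit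 12632213319) (nat_lit 76) (nat_lit 6626292996) (nat_lit 164) (nat_lit 5) (nat_lit 169) (nat_lit 5) (nat_lit 165) (nat_lit 5) (nat_lit 447) (nat_lit 413) (nat_lit 340)) (XT.lf (nat_lit 0) (nat_lit 7646679184) (nat_lit 304) (nat_lit 698142952) (nat_lit 380) (nat_lit 12019813932) (nat_lit 160) (nat_lit 5) (nat_lit 164) (nat_lit 5) (nat_lit 165) (nat_lit 5) (nat_lit 448) (nat_lit 413) (nat_lit 339)))) (XT.nd (nat_lit 78) (nat_lit 608) (nat_lit 0) (XT.lf (nat_lit 0) (nat_lit 8203990800) (nat_lit 228) (nat_lit 8662277991) (nat_lit 304) (nat_lit 4115255058) (nat_lit 157) (nat_lit 5) (nat_lit 160) (nat_lit 5) (nat_lit 161) (nat_lit 5) (nat_lit 449) (nat_lit 413) (nat_lit 338)) (XT.nd (nat_lit 78) (nat_lit 228) (nat_lit 0) (XT.lf (nat_lit 0) (nat_lit 4338479585) (nat_lit 380) (nat_lit 12781229012) (nat_lit 76) (nat_lit 4501274148) (nat_lit 152) (nat_lit 5) (nat_lit 157) (nat_lit 5) (nat_lit 153) (nat_lit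 5) (nat_lit 450) (nat_lit 413) (nat_lit 337)) (XT.lf (nat_lit 0) (nat_lit 9520584035) (nat_lit 228) (nat_lit 3889499168) (nat_lit 304) (nat_lit 8872701741) (nat_lit 149) (nat_lit 5) (nat_lit 152) (nat_lit 5) (nat_lit 153) (nat_lit 5) (nat_lit 451) (nat_lit 413) (nat_lit 336))))) (XT.nd (nat_lit 234) (nat_lit 988) (nat_lit 0) (XT.nd (nat_lit 78) (nat_lit 456) (nat_lit 0) (XT.lf (nat_lit 0) (nat_lit 257818233) (nat_lit 304) (nat_lit 12687911364) (nat_lit 76) (nat_lit 10022979223) (nat_lit 145) (nat_lit 5) (nat_lit 149) (nat_lit 5) (nat_lit 146) (nat_lit 5) (nat_lit 452) (nat_lit 413) (nat_lit 335)) (XT.nd (nat_lit 78) (nat_lit 228) (nat_lit 0) (XT.lf (nat_lit 0) (nat_lit 9922336530) (nat_lit 304) (nat_lit 12595977655) (nat_lit 76) (nat_lit 1160151344) (nat_lit 142) (nat_lit 5) (nat_lit 146) (nat_lit 5) (nat_lit 143) (nat_lit 5) (nat_lit 453) (nat_lit 413) (nat_lit 334)) (XT.lf (nat_lit 0) (nat_lit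 11938657486) (nat_lit 228) (nat_lit 8478884825) (nat_lit 304) (nat_lit 3995745152) (nat_lit 139) (nat_lit 5) (nat_lit 142) (nat_lit 5) (nat_lit 143) (nat_lit 5) (nat_lit 454) (nat_lit 413) (nat_lit 333)))) (XT.nd (nat_lit 156) (nat_lit 456) (nat_lit 0) (XT.nd (nat_lit 78) (nat_lit 228) (nat_lit 0) (XT.lf (nat_lit 0) (nat_lit 6419780900) (nat_lit 304) (nat_lit 12314582562) (nat_lit 76) (nat_lit 6440010996) (nat_lit 135) (nat_lit 5) (nat_lit 139) (nat_lit 5) (nat_lit 136) (nat_lit 5) (nat_lit 455) (nat_lit 413) (nat_lit 332)) (XT.lf (nat_lit 0) (nat_lit 13847420244) (nat_lit 228) (nat_lit 3746737132) (nat_lit 304) (nat_lit 8368551291) (nat_lit 132) (nat_lit 5) (nat_lit 135) (nat_lit 5) (nat_lit 136) (nat_lit 5) (nat_lit 456) (nat_lit 413) (nat_lit 331))) (XT.nd (nat_lit 78) (nat_lit 228) (nat_lit 0) (XT.lf (nat_lit 0) (nat_lit 2849803878) (nat_lit 228) (nat_lit 11891725947) (nat_lit 76) (nat_lit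 12037323830) (nat_lit 129) (nat_lit 5) (nat_lit 132) (nat_lit 5) (nat_lit 130) (nat_lit 5) (nat_lit 457) (nat_lit 413) (nat_lit 330)) (XT.lf (nat_lit 0) (nat_lit 14760195082) (nat_lit 304) (nat_lit 11633129356) (nat_lit 76) (nat_lit 1230870923) (nat_lit 126) (nat_lit 5) (nat_lit 130) (nat_lit 5) (nat_lit 127) (nat_lit 5) (nat_lit 458) (nat_lit 413) (nat_lit 329)))))) (XT.nd (nat_lit 546) (nat_lit 1292) (nat_lit 0) (XT.nd (nat_lit 234) (nat_lit 836) (nat_lit 0) (XT.nd (nat_lit 78) (nat_lit 456) (nat_lit 0) (XT.lf (nat_lit 0) (nat_lit 17147641158) (nat_lit 152) (nat_lit 10529310432) (nat_lit 228) (nat_lit 822528101) (nat_lit 124) (nat_lit 5) (nat_lit 126) (nat_lit 5) (nat_lit 127) (nat_lit 5) (nat_lit 459) (nat_lit 413) (nat_lit 328)) (XT.nd (nat_lit 78) (nat_lit 152) (nat_lit 0) (XT.lf (nat_lit 0) (nat_lit 11925085267) (nat_lit 304) (nat_lit 11074559892) (nat_lit 76) (nat_lit 6405432852) (nat_lit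 120) (nat_lit 5) (nat_lit 124) (nat_lit 5) (nat_lit 121) (nat_lit 5) (nat_lit 460) (nat_lit 413) (nat_lit 327)) (XT.lf (nat_lit 0) (nat_lit 19604736410) (nat_lit 152) (nat_lit 6076045289) (nat_lit 228) (nat_lit 4663299630) (nat_lit 118) (nat_lit 5) (nat_lit 120) (nat_lit 5) (nat_lit 121) (nat_lit 5) (nat_lit 461) (nat_lit 413) (nat_lit 326)))) (XT.nd (nat_lit 156) (nat_lit 380) (nat_lit 0) (XT.nd (nat_lit 78) (nat_lit 152) (nat_lit 0) (XT.lf (nat_lit 0) (nat_lit 9031222383) (nat_lit 304) (nat_lit 10431012124) (nat_lit 76) (nat_lit 11853006944) (nat_lit 114) (nat_lit 5) (nat_lit 118) (nat_lit 5) (nat_lit 115) (nat_lit 5) (nat_lit 462) (nat_lit 413) (nat_lit 325)) (XT.lf (nat_lit 0) (nat_lit 22264334105) (nat_lit 152) (nat_lit 1413540167) (nat_lit 228) (nat_lit 8644785438) (nat_lit 112) (nat_lit 5) (nat_lit 114) (nat_lit 5) (nat_lit 115) (nat_lit 5) (nat_lit 463) (nat_lit 413) (nat_lit 324))) (XT.nd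 (nat_lit 78) (nat_lit 152) (nat_lit 0) (XT.lf (nat_lit 0) (nat_lit 6051651221) (nat_lit 228) (nat_lit 9739295789) (nat_lit 76) (nat_lit 17573285317) (nat_lit 109) (nat_lit 5) (nat_lit 112) (nat_lit 5) (nat_lit 110) (nat_lit 5) (nat_lit 464) (nat_lit 413) (nat_lit 323)) (XT.lf (nat_lit 0) (nat_lit 21676048692) (nat_lit 228) (nat_lit 9384395151) (nat_lit 76) (nat_lit 3383714803) (nat_lit 107) (nat_lit 5) (nat_lit 110) (nat_lit 5) (nat_lit 108) (nat_lit 5) (nat_lit 465) (nat_lit 413) (nat_lit 322))))) (XT.nd (nat_lit 234) (nat_lit 760) (nat_lit 0) (XT.nd (nat_lit 78) (nat_lit 304) (nat_lit 0) (XT.lf (nat_lit 0) (nat_lit 2952990207) (nat_lit 228) (nat_lit 9047695028) (nat_lit 76) (nat_lit 23561726862) (nat_lit 104) (nat_lit 5) (nat_lit 107) (nat_lit 5) (nat_lit 105) (nat_lit 5) (nat_lit 466) (nat_lit 413) (nat_lit 321)) (XT.nd (nat_lit 78) (nat_lit 152) (nat_lit 0) (XT.lf (nat_lit 0) (nat_lit 19625537370)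 (nat_lit 228) (nat_lit 8754966925) (nat_lit 76) (nat_lit 8339398284) (nat_lit 102) (nat_lit 5) (nat_lit 105) (nat_lit 5) (nat_lit 103) (nat_lit 5) (nat_lit 467) (nat_lit 413) (nat_lit 320)) (XT.lf (nat_lit 0) (nat_lit 29499472948) (nat_lit 152) (nat_lit 8109558759) (nat_lit 228) (nat_lit 311916806) (nat_lit 100) (nat_lit 5) (nat_lit 102) (nat_lit 5) (nat_lit 103) (nat_lit 5) (nat_lit 468) (nat_lit 413) (nat_lit 319)))) (XT.nd (nat_lit 156) (nat_lit 380) (nat_lit 0) (XT.nd (nat_lit 78) (nat_lit 152) (nat_lit 0) (XT.lf (nat_lit 0) (nat_lit 17472574783) (nat_lit 228) (nat_lit 8226927404) (nat_lit 76) (nat_lit 13462532475) (nat_lit 97) (nat_lit 5) (nat_lit 100) (nat_lit 5) (nat_lit 98) (nat_lit 5) (nat_lit 469) (nat_lit 413) (nat_lit 318)) (XT.lf (nat_lit 0) (nat_lit 32483366971) (nat_lit 152) (nat_lit 4117683655) (nat_lit 228) (nat_lit 3850195988) (nat_lit 95) (nat_lit 5) (nat_lit 97) (nat_lit 5)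 (nat_lit 98) (nat_lit 5) (nat_lit 470) (nat_lit 413) (nat_lit 317))) (XT.nd (nat_lit 78) (nat_lit 152) (nat_lit 0) (XT.lf (nat_lit 0) (nat_lit 15167324067) (nat_lit 228) (nat_lit 7889409336) (nat_lit 76) (nat_lit 18726594555) (nat_lit 92) (nat_lit 5) (nat_lit 95) (nat_lit 5) (nat_lit 93) (nat_lit 5) (nat_lit 471) (nat_lit 413) (nat_lit 316)) (XT.lf (nat_lit 0) (nat_lit 35409223657) (nat_lit 152) (nat_lit 92760088) (nat_lit 228) (nat_lit 7665509660) (nat_lit 90) (nat_lit 5) (nat_lit 92) (nat_lit 5) (nat_lit 93) (nat_lit 5) (nat_lit 472) (nat_lit 413) (nat_lit 315))))))))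
noncomputable def xc71 : XT := (XT.nd (nat_lit 57876) (nat_lit 0) (nat_lit 11704) (XT.nd (nat_lit 1014) (nat_lit 1368) (nat_lit 0) (XT.nd (nat_lit 468) (nat_lit 988) (nat_lit 0) (XT.nd (nat_lit 234) (nat_lit 456) (nat_lit 0) (XT.nd (nat_lit 78) (nat_lit 304) (nat_lit 0) (XT.lf (nat_lit 0) (nat_lit 12648385187) (nat_lit 152) (nat_lit 7854042544) (nat_lit 76) (nat_lit 24095274889) (nat_lit 88) (nat_lit 5) (nat_lit 90) (nat_lit 5) (nat_lit 89) (nat_lit 5) (nat_lit 473) (nat_lit 413) (nat_lit 314)) (XT.nd (nat_lit 78) (nat_lit 152) (nat_lit 0) (XT.lf (nat_lit 0) (nat_lit 34288243539) (nat_lit 228) (nat_lit 7955391011) (nat_lit 76) (nat_lit 3839447121) (nat_lit 86) (nat_lit 5) (nat_lit 89) (nat_lit 5) (nat_lit 87) (nat_lit 4) (nat_lit 474) (nat_lit 413) (nat_lit 313)) (XT.lf (nat_lit 0) (nat_lit 9840540617) (nat_lit 152) (nat_lit 8259496404) (nat_lit 76) (nat_lit 29520312643) (nat_lit 84) (nat_lit 5)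 (nat_lit 86) (nat_lit 5) (nat_lit 85) (nat_lit 5) (nat_lit 475) (nat_lit 413) (nat_lit 312)))) (XT.nd (nat_lit 78) (nat_lit 304) (nat_lit 0) (XT.lf (nat_lit 0) (nat_lit 32846571838) (nat_lit 228) (nat_lit 8676585732) (nat_lit 76) (nat_lit 7691835818) (nat_lit 82) (nat_lit 5) (nat_lit 85) (nat_lit 5) (nat_lit 83) (nat_lit 4) (nat_lit 476) (nat_lit 413) (nat_lit 311)) (XT.nd (nat_lit 78) (nat_lit 152) (nat_lit 0) (XT.lf (nat_lit 0) (nat_lit 6652089601) (nat_lit 152) (nat_lit 9276850397) (nat_lit 76) (nat_lit 34938931039) (nat_lit 80) (nat_lit 5) (nat_lit 82) (nat_lit 5) (nat_lit 81) (nat_lit 5) (nat_lit 477) (nat_lit 413) (nat_lit 310)) (XT.lf (nat_lit 0) (nat_lit 31082211194) (nat_lit 228) (nat_lit 10110669239) (nat_lit 76) (nat_lit 11387737235) (nat_lit 78) (nat_lit 5) (nat_lit 81) (nat_lit 5) (nat_lit 79) (nat_lit 4) (nat_lit 478) (nat_lit 413) (nat_lit 309))))) (XT.nd (nat_lit 234) (nat_lit 608)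 (nat_lit 0) (XT.nd (nat_lit 78) (nat_lit 228) (nat_lit 0) (XT.lf (nat_lit 0) (nat_lit 2971699274) (nat_lit 152) (nat_lit 11115938371) (nat_lit 76) (nat_lit 40270800757) (nat_lit 76) (nat_lit 5) (nat_lit 78) (nat_lit 5) (nat_lit 77) (nat_lit 5) (nat_lit 479) (nat_lit 413) (nat_lit 308)) (XT.nd (nat_lit 78) (nat_lit 76) (nat_lit 0) (XT.lf (nat_lit 0) (nat_lit 28880393860) (nat_lit 228) (nat_lit 12489700331) (nat_lit 76) (nat_lit 14828879452) (nat_lit 74) (nat_lit 5) (nat_lit 77) (nat_lit 5) (nat_lit 75) (nat_lit 4) (nat_lit 480) (nat_lit 413) (nat_lit 307)) (XT.lf (nat_lit 0) (nat_lit 44065652282) (nat_lit 76) (nat_lit 12684041766) (nat_lit 152) (nat_lit 1361886703) (nat_lit 73) (nat_lit 5) (nat_lit 74) (nat_lit 5) (nat_lit 75) (nat_lit 4) (nat_lit 481) (nat_lit 413) (nat_lit 306)))) (XT.nd (nat_lit 156) (nat_lit 304) (nat_lit 0) (XT.nd (nat_lit 78) (nat_lit 76) (nat_lit 0) (XT.lf (nat_lit 0) (nat_lit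 26101450323) (nat_lit 228) (nat_lit 16096223887) (nat_lit 76) (nat_lit 17893255304) (nat_lit 70) (nat_lit 5) (nat_lit 73) (nat_lit 5) (nat_lit 71) (nat_lit 4) (nat_lit 482) (nat_lit 413) (nat_lit 305)) (XT.lf (nat_lit 0) (nat_lit 43746709486) (nat_lit 76) (nat_lit 11842402287) (nat_lit 152) (nat_lit 6559349922) (nat_lit 69) (nat_lit 5) (nat_lit 70) (nat_lit 5) (nat_lit 71) (nat_lit 4) (nat_lit 483) (nat_lit 413) (nat_lit 304))) (XT.nd (nat_lit 78) (nat_lit 76) (nat_lit 0) (XT.lf (nat_lit 0) (nat_lit 22576090855) (nat_lit 228) (nat_lit 21272862103) (nat_lit 76) (nat_lit 20430468556) (nat_lit 66) (nat_lit 5) (nat_lit 69) (nat_lit 5) (nat_lit 67) (nat_lit 4) (nat_lit 484) (nat_lit 413) (nat_lit 303)) (XT.lf (nat_lit 0) (nat_lit 41961133097) (nat_lit 76) (nat_lit 11772092067) (nat_lit 152) (nat_lit 12760738652) (nat_lit 65) (nat_lit 5) (nat_lit 66) (nat_lit 5) (nat_lit 67) (nat_lit 4) (nat_lit 485)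 (nat_lit 413) (nat_lit 302)))))) (XT.nd (nat_lit 468) (nat_lit 684) (nat_lit 0) (XT.nd (nat_lit 234) (nat_lit 304) (nat_lit 0) (XT.nd (nat_lit 78) (nat_lit 228) (nat_lit 0) (XT.lf (nat_lit 0) (nat_lit 18099843554) (nat_lit 152) (nat_lit 28433616364) (nat_lit 76) (nat_lit 22256243696) (nat_lit 63) (nat_lit 5) (nat_lit 65) (nat_lit 5) (nat_lit 64) (nat_lit 4) (nat_lit 486) (nat_lit 413) (nat_lit 301)) (XT.nd (nat_lit 78) (nat_lit 152) (nat_lit 0) (XT.lf (nat_lit 0) (nat_lit 38278685729) (nat_lit 76) (nat_lit 12690862360) (nat_lit 152) (nat_lit 20204992009) (nat_lit 62) (nat_lit 5) (nat_lit 63) (nat_lit 5) (nat_lit 64) (nat_lit 4) (nat_lit 487) (nat_lit 413) (nat_lit 300)) (XT.lf (nat_lit 0) (nat_lit 12426502615) (nat_lit 152) (nat_lit 38077176898) (nat_lit 76) (nat_lit 23145953266) (nat_lit 60) (nat_lit 5) (nat_lit 62) (nat_lit 5) (nat_lit 61) (nat_lit 4) (nat_lit 488) (nat_lit 413) (nat_lit 299))))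 (XT.nd (nat_lit 78) (nat_lit 228) (nat_lit 0) (XT.lf (nat_lit 0) (nat_lit 32179232356) (nat_lit 76) (nat_lit 14862064179) (nat_lit 152) (nat_lit 29178094370) (nat_lit 59) (nat_lit 5) (nat_lit 60) (nat_lit 5) (nat_lit 61) (nat_lit 4) (nat_lit 489) (nat_lit 413) (nat_lit 298)) (XT.nd (nat_lit 78) (nat_lit 76) (nat_lit 0) (XT.lf (nat_lit 0) (nat_lit 5260415426) (nat_lit 152) (nat_lit 50802588303) (nat_lit 76) (nat_lit 22826991552) (nat_lit 57) (nat_lit 5) (nat_lit 59) (nat_lit 5) (nat_lit 58) (nat_lit 4) (nat_lit 490) (nat_lit 413) (nat_lit 297)) (XT.lf (nat_lit 0) (nat_lit 23036013022) (nat_lit 76) (nat_lit 18603139421) (nat_lit 152) (nat_lit 40021658310) (nat_lit 56) (nat_lit 5) (nat_lit 57) (nat_lit 5) (nat_lit 58) (nat_lit 4) (nat_lit 491) (nat_lit 413) (nat_lit 296))))) (XT.nd (nat_lit 234) (nat_lit 380) (nat_lit 0) (XT.nd (nat_lit 78) (nat_lit 228) (nat_lit 0) (XT.lf (nat_lit 0) (nat_lit 17179308147)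 (nat_lit 76) (nat_lit 63537192566) (nat_lit 76) (nat_lit 3827276172) (nat_lit 55) (nat_lit 4) (nat_lit 56) (nat_lit 5) (nat_lit 56) (nat_lit 4) (nat_lit 492) (nat_lit 413) (nat_lit 295)) (XT.nd (nat_lit 78) (nat_lit 76) (nat_lit 0) (XT.lf (nat_lit 0) (nat_lit 10095959005) (nat_lit 76) (nat_lit 24295611583) (nat_lit 152) (nat_lit 53143015232) (nat_lit 53) (nat_lit 5) (nat_lit 54) (nat_lit 5) (nat_lit 55) (nat_lit 4) (nat_lit 493) (nat_lit 413) (nat_lit 294)) (XT.lf (nat_lit 0) (nat_lit 1989547921) (nat_lit 76) (nat_lit 73323008376) (nat_lit 76) (nat_lit 15335131677) (nat_lit 52) (nat_lit 4) (nat_lit 53) (nat_lit 5) (nat_lit 53) (nat_lit 4) (nat_lit 494) (nat_lit 413) (nat_lit 293)))) (XT.nd (nat_lit 156) (nat_lit 228) (nat_lit 0) (XT.nd (nat_lit 78) (nat_lit 76) (nat_lit 0) (XT.lf (nat_lit 0) (nat_lit 24925889124) (nat_lit 152) (nat_lit 7396258631) (nat_lit 76) (nat_lit 61556127097) (nat_lit 51)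 (nat_lit 5) (nat_lit 53) (nat_lit 5) (nat_lit 52) (nat_lit 4) (nat_lit 495) (nat_lit 413) (nat_lit 292)) (XT.lf (nat_lit 0) (nat_lit 67748583213) (nat_lit 152) (nat_lit 18056650311) (nat_lit 0) (nat_lit 11434629363) (nat_lit 50) (nat_lit 5) (nat_lit 52) (nat_lit 4) (nat_lit 50) (nat_lit 4) (nat_lit 496) (nat_lit 413) (nat_lit 291))) (XT.nd (nat_lit 78) (nat_lit 76) (nat_lit 0) (XT.lf (nat_lit 0) (nat_lit 12789983015) (nat_lit 152) (nat_lit 30357277613) (nat_lit 76) (nat_lit 57586421212) (nat_lit 48) (nat_lit 5) (nat_lit 50) (nat_lit 5) (nat_lit 49) (nat_lit 4) (nat_lit 497) (nat_lit 413) (nat_lit 290)) (XT.lf (nat_lit 0) (nat_lit 57361260338) (nat_lit 152) (nat_lit 44334324967) (nat_lit 0) (nat_lit 2674270439) (nat_lit 47) (nat_lit 5) (nat_lit 49) (nat_lit 4) (nat_lit 47) (nat_lit 4) (nat_lit 498) (nat_lit 413) (nat_lit 289))))))) (XT.nd (nat_lit 1014) (nat_lit 7600) (nat_lit 0) (XT.nd (nat_lit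 468) (nat_lit 3116) (nat_lit 0) (XT.nd (nat_lit 234) (nat_lit 0) (nat_lit 76) (XT.nd (nat_lit 78) (nat_lit 1064) (nat_lit 0) (XT.lf (nat_lit 0) (nat_lit 1801208847) (nat_lit 0) (nat_lit 1801208847) (nat_lit 988) (nat_lit 754980791) (nat_lit 356) (nat_lit 5) (nat_lit 356) (nat_lit 3) (nat_lit 369) (nat_lit 3) (nat_lit 414) (nat_lit 414) (nat_lit 372)) (XT.nd (nat_lit 78) (nat_lit 0) (nat_lit 0) (XT.lf (nat_lit 0) (nat_lit 130467953) (nat_lit 1064) (nat_lit 6761641709) (nat_lit 1140) (nat_lit 1991401709) (nat_lit 342) (nat_lit 5) (nat_lit 356) (nat_lit 5) (nat_lit 357) (nat_lit 5) (nat_lit 415) (nat_lit 414) (nat_lit 371)) (XT.lf (nat_lit 76) (nat_lit 668858269) (nat_lit 0) (nat_lit 1146092292) (nat_lit 1140) (nat_lit 7245475033) (nat_lit 343) (nat_lit 5) (nat_lit 342) (nat_lit 5) (nat_lit 357) (nat_lit 5) (nat_lit 416) (nat_lit 414) (nat_lit 370)))) (XT.nd (nat_lit 78) (nat_lit 0) (nat_lit 76) (XT.lf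 (nat_lit 0) (nat_lit 3602736635) (nat_lit 1064) (nat_lit 738962844) (nat_lit 1140) (nat_lit 4903923578) (nat_lit 343) (nat_lit 5) (nat_lit 357) (nat_lit 5) (nat_lit 358) (nat_lit 5) (nat_lit 417) (nat_lit 414) (nat_lit 369)) (XT.nd (nat_lit 78) (nat_lit 0) (nat_lit 0) (XT.lf (nat_lit 0) (nat_lit 5487120519) (nat_lit 1064) (nat_lit 2086709875) (nat_lit 1140) (nat_lit 1866043182) (nat_lit 344) (nat_lit 5) (nat_lit 358) (nat_lit 5) (nat_lit 359) (nat_lit 5) (nat_lit 418) (nat_lit 414) (nat_lit 368)) (XT.lf (nat_lit 76) (nat_lit 6241670300) (nat_lit 0) (nat_lit 1246296512) (nat_lit 1140) (nat_lit 2155211500) (nat_lit 345) (nat_lit 5) (nat_lit 344) (nat_lit 5) (nat_lit 359) (nat_lit 5) (nat_lit 419) (nat_lit 414) (nat_lit 367))))) (XT.nd (nat_lit 234) (nat_lit 2280) (nat_lit 0) (XT.nd (nat_lit 78) (nat_lit 1064) (nat_lit 0) (XT.lf (nat_lit 76) (nat_lit 5163578720) (nat_lit 0) (nat_lit 4463221678) (nat_lit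 1140) (nat_lit 228718097) (nat_lit 346) (nat_lit 5) (nat_lit 345) (nat_lit 5) (nat_lit 360) (nat_lit 5) (nat_lit 420) (nat_lit 414) (nat_lit 366)) (XT.nd (nat_lit 78) (nat_lit 0) (nat_lit 0) (XT.lf (nat_lit 0) (nat_lit 1787127372) (nat_lit 1140) (nat_lit 5958547158) (nat_lit 1216) (nat_lit 2331450589) (nat_lit 331) (nat_lit 5) (nat_lit 346) (nat_lit 5) (nat_lit 347) (nat_lit 5) (nat_lit 421) (nat_lit 414) (nat_lit 365)) (XT.lf (nat_lit 76) (nat_lit 3112191857) (nat_lit 0) (nat_lit 831640428) (nat_lit 1216) (nat_lit 6364575469) (nat_lit 332) (nat_lit 5) (nat_lit 331) (nat_lit 5) (nat_lit 347) (nat_lit 5) (nat_lit 422) (nat_lit 414) (nat_lit 364)))) (XT.nd (nat_lit 156) (nat_lit 1292) (nat_lit 0) (XT.nd (nat_lit 78) (nat_lit 1064) (nat_lit 0) (XT.lf (nat_lit 76) (nat_lit 2129997161) (nat_lit 0) (nat_lit 4146966641) (nat_lit 1216) (nat_lit 4272240158) (nat_lit 333) (nat_lit 5) (nat_lit 332) (nat_lit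 5) (nat_lit 348) (nat_lit 5) (nat_lit 423) (nat_lit 414) (nat_lit 363)) (XT.lf (nat_lit 0) (nat_lit 1195496650) (nat_lit 1140) (nat_lit 7583973266) (nat_lit 1216) (nat_lit 2020995354) (nat_lit 318) (nat_lit 5) (nat_lit 333) (nat_lit 5) (nat_lit 334) (nat_lit 5) (nat_lit 424) (nat_lit 414) (nat_lit 362))) (XT.nd (nat_lit 78) (nat_lit 0) (nat_lit 0) (XT.lf (nat_lit 0) (nat_lit 304148019) (nat_lit 1216) (nat_lit 94007960) (nat_lit 1292) (nat_lit 10664180116) (nat_lit 301) (nat_lit 5) (nat_lit 317) (nat_lit 5) (nat_lit 318) (nat_lit 5) (nat_lit 425) (nat_lit 414) (nat_lit 361)) (XT.lf (nat_lit 0) (nat_lit 3003988281) (nat_lit 1292) (nat_lit 582292558) (nat_lit 76) (nat_lit 7747199729) (nat_lit 301) (nat_lit 5) (nat_lit 318) (nat_lit 5) (nat_lit 302) (nat_lit 5) (nat_lit 426) (nat_lit 414) (nat_lit 360)))))) (XT.nd (nat_lit 546) (nat_lit 3192) (nat_lit 0) (XT.nd (nat_lit 234) (nat_lit 2356) (nat_lit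 0) (XT.nd (nat_lit 78) (nat_lit 1216) (nat_lit 0) (XT.lf (nat_lit 0) (nat_lit 5818262056) (nat_lit 912) (nat_lit 1417154585) (nat_lit 76) (nat_lit 4380426860) (nat_lit 290) (nat_lit 5) (nat_lit 302) (nat_lit 5) (nat_lit 291) (nat_lit 5) (nat_lit 427) (nat_lit 414) (nat_lit 359)) (XT.nd (nat_lit 78) (nat_lit 608) (nat_lit 0) (XT.lf (nat_lit 0) (nat_lit 8855551787) (nat_lit 684) (nat_lit 2205039666) (nat_lit 76) (nat_lit 849269521) (nat_lit 282) (nat_lit 5) (nat_lit 291) (nat_lit 5) (nat_lit 283) (nat_lit 5) (nat_lit 428) (nat_lit 414) (nat_lit 358)) (XT.lf (nat_lit 0) (nat_lit 9242798862) (nat_lit 608) (nat_lit 2919280652) (nat_lit 684) (nat_lit 52983801) (nat_lit 274) (nat_lit 5) (nat_lit 282) (nat_lit 5) (nat_lit 283) (nat_lit 5) (nat_lit 429) (nat_lit 414) (nat_lit 357)))) (XT.nd (nat_lit 156) (nat_lit 1140) (nat_lit 0) (XT.nd (nat_lit 78) (nat_lit 608) (nat_lit 0) (XT.lf (nat_lit 0) (nat_lit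 3143964026) (nat_lit 608) (nat_lit 3729687822) (nat_lit 76) (nat_lit 5657804703) (nat_lit 266) (nat_lit 5) (nat_lit 274) (nat_lit 5) (nat_lit 267) (nat_lit 5) (nat_lit 430) (nat_lit 414) (nat_lit 356)) (XT.lf (nat_lit 0) (nat_lit 6603645379) (nat_lit 684) (nat_lit 4438847332) (nat_lit 76) (nat_lit 1818046123) (nat_lit 258) (nat_lit 5) (nat_lit 267) (nat_lit 5) (nat_lit 259) (nat_lit 5) (nat_lit 431) (nat_lit 414) (nat_lit 355))) (XT.nd (nat_lit 78) (nat_lit 608) (nat_lit 0) (XT.lf (nat_lit 0) (nat_lit 8083528597) (nat_lit 532) (nat_lit 2285350069) (nat_lit 608) (nat_lit 2833223890) (nat_lit 251) (nat_lit 5) (nat_lit 258) (nat_lit 5) (nat_lit 259) (nat_lit 5) (nat_lit 432) (nat_lit 414) (nat_lit 354)) (XT.lf (nat_lit 0) (nat_lit 884242903) (nat_lit 608) (nat_lit 5772670669) (nat_lit 76) (nat_lit 6899491012) (nat_lit 243) (nat_lit 5) (nat_lit 251) (nat_lit 5) (nat_lit 244) (nat_lit 5) (nat_lit 433)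 (nat_lit 414) (nat_lit 353))))) (XT.nd (nat_lit 234) (nat_lit 1824) (nat_lit 0) (XT.nd (nat_lit 78) (nat_lit 912) (nat_lit 0) (XT.lf (nat_lit 0) (nat_lit 4854600159) (nat_lit 532) (nat_lit 6401620765) (nat_lit 76) (nat_lit 2667594703) (nat_lit 237) (nat_lit 5) (nat_lit 244) (nat_lit 5) (nat_lit 238) (nat_lit 5) (nat_lit 434) (nat_lit 414) (nat_lit 352)) (XT.nd (nat_lit 78) (nat_lit 456) (nat_lit 0) (XT.lf (nat_lit 0) (nat_lit 7312531494) (nat_lit 456) (nat_lit 1860278069) (nat_lit 532) (nat_lit 5132311289) (nat_lit 231) (nat_lit 5) (nat_lit 237) (nat_lit 5) (nat_lit 238) (nat_lit 5) (nat_lit 435) (nat_lit 414) (nat_lit 351)) (XT.lf (nat_lit 0) (nat_lit 7147846047) (nat_lit 456) (nat_lit 6724811646) (nat_lit 532) (nat_lit 827865280) (nat_lit 225) (nat_lit 5) (nat_lit 231) (nat_lit 5) (nat_lit 232) (nat_lit 5) (nat_lit 436) (nat_lit 414) (nat_lit 350)))) (XT.nd (nat_lit 156) (nat_lit 912) (nat_lit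 0) (XT.nd (nat_lit 78) (nat_lit 380) (nat_lit 0) (XT.lf (nat_lit 0) (nat_lit 3765720602) (nat_lit 532) (nat_lit 8088517589) (nat_lit 76) (nat_lit 3256016858) (nat_lit 218) (nat_lit 5) (nat_lit 225) (nat_lit 5) (nat_lit 219) (nat_lit 5) (nat_lit 437) (nat_lit 414) (nat_lit 349)) (XT.lf (nat_lit 0) (nat_lit 6947567658) (nat_lit 380) (nat_lit 1793913524) (nat_lit 456) (nat_lit 6793661205) (nat_lit 213) (nat_lit 5) (nat_lit 218) (nat_lit 5) (nat_lit 219) (nat_lit 5) (nat_lit 438) (nat_lit 414) (nat_lit 348))) (XT.nd (nat_lit 78) (nat_lit 456) (nat_lit 0) (XT.lf (nat_lit 0) (nat_lit 6920504728) (nat_lit 456) (nat_lit 7238164770) (nat_lit 532) (nat_lit 1816828325) (nat_lit 207) (nat_lit 5) (nat_lit 213) (nat_lit 5) (nat_lit 214) (nat_lit 5) (nat_lit 439) (nat_lit 414) (nat_lit 347)) (XT.lf (nat_lit 0) (nat_lit 3509281444) (nat_lit 456) (nat_lit 9488283004) (nat_lit 76) (nat_lit 3434317623) (nat_lit 201)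 (nat_lit 5) (nat_lit 207) (nat_lit 5) (nat_lit 202) (nat_lit 5) (nat_lit 440) (nat_lit 414) (nat_lit 346))))))))
noncomputable def xc72 : XT := (XT.nd (nat_lit 2028) (nat_lit 3876) (nat_lit 0) (XT.nd (nat_lit 1014) (nat_lit 2888) (nat_lit 0) (XT.nd (nat_lit 468) (nat_lit 2128) (nat_lit 0) (XT.nd (nat_lit 234) (nat_lit 988) (nat_lit 0) (XT.nd (nat_lit 78) (nat_lit 760) (nat_lit 0) (XT.lf (nat_lit 0) (nat_lit 7013723084) (nat_lit 380) (nat_lit 2245510076) (nat_lit 456) (nat_lit 7645461956) (nat_lit 196) (nat_lit 5) (nat_lit 201) (nat_lit 5) (nat_lit 202) (nat_lit 5) (nat_lit 441) (nat_lit 414) (nat_lit 345)) (XT.nd (nat_lit 78) (nat_lit 456) (nat_lit 0) (XT.lf (nat_lit 0) (nat_lit 7138933886) (nat_lit 304) (nat_lit 8373361183) (nat_lit 380) (nat_lit 1882387816) (nat_lit 192) (nat_lit 5) (nat_lit 196) (nat_lit 5) (nat_lit 197) (nat_lit 5) (nat_lit 442) (nat_lit 414) (nat_lit 344)) (XT.lf (nat_lit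 0) (nat_lit 4275812390) (nat_lit 456) (nat_lit 10585059016) (nat_lit 76) (nat_lit 3041449056) (nat_lit 186) (nat_lit 5) (nat_lit 192) (nat_lit 5) (nat_lit 187) (nat_lit 5) (nat_lit 443) (nat_lit 414) (nat_lit 343)))) (XT.nd (nat_lit 78) (nat_lit 684) (nat_lit 0) (XT.lf (nat_lit 0) (nat_lit 7541650390) (nat_lit 304) (nat_lit 3388869413) (nat_lit 380) (nat_lit 7497437313) (nat_lit 182) (nat_lit 5) (nat_lit 186) (nat_lit 5) (nat_lit 187) (nat_lit 5) (nat_lit 444) (nat_lit 414) (nat_lit 342)) (XT.nd (nat_lit 78) (nat_lit 380) (nat_lit 0) (XT.lf (nat_lit 0) (nat_lit 7836470216) (nat_lit 304) (nat_lit 10314718657) (nat_lit 380) (nat_lit 821691995) (nat_lit 178) (nat_lit 5) (nat_lit 182) (nat_lit 5) (nat_lit 183) (nat_lit 5) (nat_lit 445) (nat_lit 414) (nat_lit 341)) (XT.lf (nat_lit 0) (nat_lit 6277377399) (nat_lit 380) (nat_lit 11360470673) (nat_lit 76) (nat_lit 1899111681) (nat_lit 173) (nat_lit 5)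 (nat_lit 178) (nat_lit 5) (nat_lit 174) (nat_lit 5) (nat_lit 446) (nat_lit 414) (nat_lit 340))))) (XT.nd (nat_lit 234) (nat_lit 1140) (nat_lit 0) (XT.nd (nat_lit 78) (nat_lit 684) (nat_lit 0) (XT.lf (nat_lit 0) (nat_lit 8565503952) (nat_lit 304) (nat_lit 5417802119) (nat_lit 380) (nat_lit 6137627264) (nat_lit 169) (nat_lit 5) (nat_lit 173) (nat_lit 5) (nat_lit 174) (nat_lit 5) (nat_lit 447) (nat_lit 414) (nat_lit 339)) (XT.nd (nat_lit 78) (nat_lit 304) (nat_lit 0) (XT.lf (nat_lit 0) (nat_lit 1560525613) (nat_lit 380) (nat_lit 11692776784) (nat_lit 76) (nat_lit 7473030627) (nat_lit 164) (nat_lit 5) (nat_lit 169) (nat_lit 5) (nat_lit 165) (nat_lit 5) (nat_lit 448) (nat_lit 414) (nat_lit 338)) (XT.lf (nat_lit 0) (nat_lit 9555026591) (nat_lit 304) (nat_lit 197732210) (nat_lit 380) (nat_lit 11600339185) (nat_lit 160) (nat_lit 5) (nat_lit 164) (nat_lit 5) (nat_lit 165) (nat_lit 5) (nat_lit 449) (nat_lit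 414) (nat_lit 337)))) (XT.nd (nat_lit 156) (nat_lit 532) (nat_lit 0) (XT.nd (nat_lit 78) (nat_lit 380) (nat_lit 0) (XT.lf (nat_lit 0) (nat_lit 10120379157) (nat_lit 228) (nat_lit 8552101827) (nat_lit 304) (nat_lit 3329185411) (nat_lit 157) (nat_lit 5) (nat_lit 160) (nat_lit 5) (nat_lit 161) (nat_lit 5) (nat_lit 450) (nat_lit 414) (nat_lit 336)) (XT.lf (nat_lit 0) (nat_lit 5501022465) (nat_lit 380) (nat_lit 11915381876) (nat_lit 76) (nat_lit 5257215807) (nat_lit 152) (nat_lit 5) (nat_lit 157) (nat_lit 5) (nat_lit 153) (nat_lit 5) (nat_lit 451) (nat_lit 414) (nat_lit 335))) (XT.nd (nat_lit 78) (nat_lit 304) (nat_lit 0) (XT.lf (nat_lit 0) (nat_lit 11458383921) (nat_lit 228) (nat_lit 3536844306) (nat_lit 304) (nat_lit 8374215628) (nat_lit 149) (nat_lit 5) (nat_lit 152) (nat_lit 5) (nat_lit 153) (nat_lit 5) (nat_lit 452) (nat_lit 414) (nat_lit 334)) (XT.lf (nat_lit 0) (nat_lit 1169510505) (nat_lit 304)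 (nat_lit 11862927658) (nat_lit 76) (nat_lit 11057704044) (nat_lit 145) (nat_lit 5) (nat_lit 149) (nat_lit 5) (nat_lit 146) (nat_lit 5) (nat_lit 453) (nat_lit 414) (nat_lit 333)))))) (XT.nd (nat_lit 468) (nat_lit 1444) (nat_lit 0) (XT.nd (nat_lit 234) (nat_lit 684) (nat_lit 0) (XT.nd (nat_lit 78) (nat_lit 532) (nat_lit 0) (XT.lf (nat_lit 0) (nat_lit 11293347907) (nat_lit 304) (nat_lit 11787371979) (nat_lit 76) (nat_lit 1755385881) (nat_lit 142) (nat_lit 5) (nat_lit 146) (nat_lit 5) (nat_lit 143) (nat_lit 5) (nat_lit 454) (nat_lit 414) (nat_lit 332)) (XT.nd (nat_lit 78) (nat_lit 304) (nat_lit 0) (XT.lf (nat_lit 0) (nat_lit 13932763342) (nat_lit 228) (nat_lit 8352319471) (nat_lit 304) (nat_lit 3323434643) (nat_lit 139) (nat_lit 5) (nat_lit 142) (nat_lit 5) (nat_lit 143) (nat_lit 5) (nat_lit 455) (nat_lit 414) (nat_lit 331)) (XT.lf (nat_lit 0) (nat_lit 7573586187) (nat_lit 304) (nat_lit 11537016671)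 (nat_lit 76) (nat_lit 7297473954) (nat_lit 135) (nat_lit 5) (nat_lit 139) (nat_lit 5) (nat_lit 136) (nat_lit 5) (nat_lit 456) (nat_lit 414) (nat_lit 330)))) (XT.nd (nat_lit 78) (nat_lit 456) (nat_lit 0) (XT.lf (nat_lit 0) (nat_lit 15893147753) (nat_lit 228) (nat_lit 3386885109) (nat_lit 304) (nat_lit 7956595848) (nat_lit 132) (nat_lit 5) (nat_lit 135) (nat_lit 5) (nat_lit 136) (nat_lit 5) (nat_lit 457) (nat_lit 414) (nat_lit 329)) (XT.nd (nat_lit 78) (nat_lit 228) (nat_lit 0) (XT.lf (nat_lit 0) (nat_lit 3785702152) (nat_lit 228) (nat_lit 11137518868) (nat_lit 76) (nat_lit 13170745002) (nat_lit 129) (nat_lit 5) (nat_lit 132) (nat_lit 5) (nat_lit 130) (nat_lit 5) (nat_lit 458) (nat_lit 414) (nat_lit 328)) (XT.lf (nat_lit 0) (nat_lit 16271634525) (nat_lit 304) (nat_lit 10886791155) (nat_lit 76) (nat_lit 1823749821) (nat_lit 126) (nat_lit 5) (nat_lit 130) (nat_lit 5) (nat_lit 127) (nat_lit 5) (nat_lit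 459) (nat_lit 414) (nat_lit 327))))) (XT.nd (nat_lit 234) (nat_lit 836) (nat_lit 0) (XT.nd (nat_lit 78) (nat_lit 456) (nat_lit 0) (XT.lf (nat_lit 0) (nat_lit 19294951184) (nat_lit 152) (nat_lit 10514847267) (nat_lit 228) (nat_lit 92159783) (nat_lit 124) (nat_lit 5) (nat_lit 126) (nat_lit 5) (nat_lit 127) (nat_lit 5) (nat_lit 460) (nat_lit 414) (nat_lit 326)) (XT.nd (nat_lit 78) (nat_lit 152) (nat_lit 0) (XT.lf (nat_lit 0) (nat_lit 13259086303) (nat_lit 304) (nat_lit 10343829365) (nat_lit 76) (nat_lit 7250260295) (nat_lit 120) (nat_lit 5) (nat_lit 124) (nat_lit 5) (nat_lit 121) (nat_lit 5) (nat_lit 461) (nat_lit 414) (nat_lit 325)) (XT.lf (nat_lit 0) (nat_lit 21832613006) (nat_lit 152) (nat_lit 5846816829) (nat_lit 228) (nat_lit 4160394865) (nat_lit 118) (nat_lit 5) (nat_lit 120) (nat_lit 5) (nat_lit 121) (nat_lit 5) (nat_lit 462) (nat_lit 414) (nat_lit 324)))) (XT.nd (nat_lit 156) (nat_lit 380)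 (nat_lit 0) (XT.nd (nat_lit 78) (nat_lit 152) (nat_lit 0) (XT.lf (nat_lit 0) (nat_lit 10186969733) (nat_lit 304) (nat_lit 9710782292) (nat_lit 76) (nat_lit 12962105177) (nat_lit 114) (nat_lit 5) (nat_lit 118) (nat_lit 5) (nat_lit 115) (nat_lit 5) (nat_lit 463) (nat_lit 414) (nat_lit 323)) (XT.lf (nat_lit 0) (nat_lit 24583735861) (nat_lit 152) (nat_lit 960280267) (nat_lit 228) (nat_lit 8374289377) (nat_lit 112) (nat_lit 5) (nat_lit 114) (nat_lit 5) (nat_lit 115) (nat_lit 5) (nat_lit 464) (nat_lit 414) (nat_lit 322))) (XT.nd (nat_lit 78) (nat_lit 152) (nat_lit 0) (XT.lf (nat_lit 0) (nat_lit 7026809122) (nat_lit 228) (nat_lit 9026238858) (nat_lit 76) (nat_lit 18959200444) (nat_lit 109) (nat_lit 5) (nat_lit 112) (nat_lit 5) (nat_lit 110) (nat_lit 5) (nat_lit 465) (nat_lit 414) (nat_lit 321)) (XT.lf (nat_lit 0) (nat_lit 23416543395) (nat_lit 228) (nat_lit 8673361241) (nat_lit 76) (nat_lit 4056743786)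 (nat_lit 107) (nat_lit 5) (nat_lit 110) (nat_lit 5) (nat_lit 108) (nat_lit 5) (nat_lit 466) (nat_lit 414) (nat_lit 320))))))) (XT.nd (nat_lit 1014) (nat_lit 1672) (nat_lit 0) (XT.nd (nat_lit 468) (nat_lit 1064) (nat_lit 0) (XT.nd (nat_lit 234) (nat_lit 532) (nat_lit 0) (XT.nd (nat_lit 78) (nat_lit 380) (nat_lit 0) (XT.lf (nat_lit 0) (nat_lit 3743398671) (nat_lit 228) (nat_lit 8340849604) (nat_lit 76) (nat_lit 25236985579) (nat_lit 104) (nat_lit 5) (nat_lit 107) (nat_lit 5) (nat_lit 105) (nat_lit 5) (nat_lit 467) (nat_lit 414) (nat_lit 319)) (XT.nd (nat_lit 78) (nat_lit 228) (nat_lit 0) (XT.lf (nat_lit 0) (nat_lit 21234624826) (nat_lit 228) (nat_lit 8052845019) (nat_lit 76) (nat_lit 9249578231) (nat_lit 102) (nat_lit 5) (nat_lit 105) (nat_lit 5) (nat_lit 103) (nat_lit 5) (nat_lit 468) (nat_lit 414) (nat_lit 318)) (XT.lf (nat_lit 0) (nat_lit 293475821) (nat_lit 228) (nat_lit 7719959137) (nat_lit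 76) (nat_lit 31785203343) (nat_lit 99) (nat_lit 5) (nat_lit 102) (nat_lit 5) (nat_lit 100) (nat_lit 5) (nat_lit 469) (nat_lit 414) (nat_lit 317)))) (XT.nd (nat_lit 78) (nat_lit 380) (nat_lit 0) (XT.lf (nat_lit 0) (nat_lit 18946712069) (nat_lit 228) (nat_lit 7537758688) (nat_lit 76) (nat_lit 14617636897) (nat_lit 97) (nat_lit 5) (nat_lit 100) (nat_lit 5) (nat_lit 98) (nat_lit 5) (nat_lit 470) (nat_lit 414) (nat_lit 316)) (XT.nd (nat_lit 78) (nat_lit 228) (nat_lit 0) (XT.lf (nat_lit 0) (nat_lit 35176504363) (nat_lit 152) (nat_lit 3836787281) (nat_lit 228) (nat_lit 3443038804) (nat_lit 95) (nat_lit 5) (nat_lit 97) (nat_lit 5) (nat_lit 98) (nat_lit 5) (nat_lit 471) (nat_lit 414) (nat_lit 315)) (XT.lf (nat_lit 0) (nat_lit 16500358327) (nat_lit 228) (nat_lit 7221671271) (nat_lit 76) (nat_lit 20133212841) (nat_lit 92) (nat_lit 5) (nat_lit 95) (nat_lit 5) (nat_lit 93) (nat_lit 5) (nat_lit 472) (nat_lit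 414) (nat_lit 314))))) (XT.nd (nat_lit 234) (nat_lit 608) (nat_lit 0) (XT.nd (nat_lit 78) (nat_lit 304) (nat_lit 0) (XT.lf (nat_lit 0) (nat_lit 37837929073) (nat_lit 228) (nat_lit 7101320079) (nat_lit 76) (nat_lit 369782229) (nat_lit 90) (nat_lit 5) (nat_lit 93) (nat_lit 5) (nat_lit 91) (nat_lit 4) (nat_lit 473) (nat_lit 414) (nat_lit 313)) (XT.nd (nat_lit 78) (nat_lit 152) (nat_lit 0) (XT.lf (nat_lit 0) (nat_lit 13830986914) (nat_lit 152) (nat_lit 7221781553) (nat_lit 76) (nat_lit 25758303352) (nat_lit 88) (nat_lit 5) (nat_lit 90) (nat_lit 5) (nat_lit 89) (nat_lit 5) (nat_lit 474) (nat_lit 414) (nat_lit 312)) (XT.lf (nat_lit 0) (nat_lit 36540650478) (nat_lit 228) (nat_lit 7346002551) (nat_lit 76) (nat_lit 4484432924) (nat_lit 86) (nat_lit 5) (nat_lit 89) (nat_lit 5) (nat_lit 87) (nat_lit 4) (nat_lit 475) (nat_lit 414) (nat_lit 311)))) (XT.nd (nat_lit 156) (nat_lit 304) (nat_lit 0) (XT.nd (nat_lit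 78) (nat_lit 152) (nat_lit 0) (XT.lf (nat_lit 0) (nat_lit 10859522952) (nat_lit 152) (nat_lit 7683686543) (nat_lit 76) (nat_lit 31442339785) (nat_lit 84) (nat_lit 5) (nat_lit 86) (nat_lit 5) (nat_lit 85) (nat_lit 5) (nat_lit 476) (nat_lit 414) (nat_lit 310)) (XT.lf (nat_lit 0) (nat_lit 35004314371) (nat_lit 228) (nat_lit 8138951442) (nat_lit 76) (nat_lit 8517006057) (nat_lit 82) (nat_lit 5) (nat_lit 85) (nat_lit 5) (nat_lit 83) (nat_lit 4) (nat_lit 477) (nat_lit 414) (nat_lit 309))) (XT.nd (nat_lit 78) (nat_lit 152) (nat_lit 0) (XT.lf (nat_lit 0) (nat_lit 7489593223) (nat_lit 152) (nat_lit 8787019556) (nat_lit 76) (nat_lit 37119496726) (nat_lit 80) (nat_lit 5) (nat_lit 82) (nat_lit 5) (nat_lit 81) (nat_lit 5) (nat_lit 478) (nat_lit 414) (nat_lit 308)) (XT.lf (nat_lit 0) (nat_lit 33130279226) (nat_lit 228) (nat_lit 9679362279) (nat_lit 76) (nat_lit 12385180600) (nat_lit 78) (nat_lit 5) (nat_lit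 81) (nat_lit 5) (nat_lit 79) (nat_lit 4) (nat_lit 479) (nat_lit 414) (nat_lit 307)))))) (XT.nd (nat_lit 468) (nat_lit 760) (nat_lit 0) (XT.nd (nat_lit 234) (nat_lit 532) (nat_lit 0) (XT.nd (nat_lit 78) (nat_lit 228) (nat_lit 0) (XT.lf (nat_lit 0) (nat_lit 3604218866) (nat_lit 152) (nat_lit 10752110821) (nat_lit 76) (nat_lit 42705505454) (nat_lit 76) (nat_lit 5) (nat_lit 78) (nat_lit 5) (nat_lit 77) (nat_lit 5) (nat_lit 480) (nat_lit 414) (nat_lit 306)) (XT.nd (nat_lit 78) (nat_lit 76) (nat_lit 0) (XT.lf (nat_lit 0) (nat_lit 30797963970) (nat_lit 228) (nat_lit 12210904327) (nat_lit 76) (nat_lit 15985840714) (nat_lit 74) (nat_lit 5) (nat_lit 77) (nat_lit 5) (nat_lit 75) (nat_lit 4) (nat_lit 481) (nat_lit 414) (nat_lit 305)) (XT.lf (nat_lit 0) (nat_lit 47146323548) (nat_lit 76) (nat_lit 12900289597) (nat_lit 152) (nat_lit 956757135) (nat_lit 73) (nat_lit 5) (nat_lit 74) (nat_lit 5) (nat_lit 75) (nat_lit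 4) (nat_lit 482) (nat_lit 414) (nat_lit 304)))) (XT.nd (nat_lit 78) (nat_lit 304) (nat_lit 0) (XT.lf (nat_lit 0) (nat_lit 27860647390) (nat_lit 228) (nat_lit 16030260873) (nat_lit 76) (nat_lit 19190938001) (nat_lit 70) (nat_lit 5) (nat_lit 73) (nat_lit 5) (nat_lit 71) (nat_lit 4) (nat_lit 483) (nat_lit 414) (nat_lit 303)) (XT.nd (nat_lit 78) (nat_lit 228) (nat_lit 0) (XT.lf (nat_lit 0) (nat_lit 46779858601) (nat_lit 76) (nat_lit 12029338811) (nat_lit 152) (nat_lit 6433462762) (nat_lit 69) (nat_lit 5) (nat_lit 70) (nat_lit 5) (nat_lit 71) (nat_lit 4) (nat_lit 484) (nat_lit 414) (nat_lit 302)) (XT.lf (nat_lit 0) (nat_lit 24140513034) (nat_lit 228) (nat_lit 21497199429) (nat_lit 76) (nat_lit 21842606323) (nat_lit 66) (nat_lit 5) (nat_lit 69) (nat_lit 5) (nat_lit 67) (nat_lit 4) (nat_lit 485) (nat_lit 414) (nat_lit 301))))) (XT.nd (nat_lit 234) (nat_lit 456) (nat_lit 0) (XT.nd (nat_lit 78) (nat_lit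 228) (nat_lit 0) (XT.lf (nat_lit 0) (nat_lit 44874437000) (nat_lit 76) (nat_lit 11968160017) (nat_lit 152) (nat_lit 12963378649) (nat_lit 65) (nat_lit 5) (nat_lit 66) (nat_lit 5) (nat_lit 67) (nat_lit 4) (nat_lit 486) (nat_lit 414) (nat_lit 300)) (XT.nd (nat_lit 78) (nat_lit 76) (nat_lit 0) (XT.lf (nat_lit 0) (nat_lit 19422808530) (nat_lit 152) (nat_lit 29046438163) (nat_lit 76) (nat_lit 23747398275) (nat_lit 63) (nat_lit 5) (nat_lit 65) (nat_lit 5) (nat_lit 64) (nat_lit 4) (nat_lit 487) (nat_lit 414) (nat_lit 299)) (XT.lf (nat_lit 0) (nat_lit 40978293255) (nat_lit 76) (nat_lit 12945353943) (nat_lit 152) (nat_lit 20797446832) (nat_lit 62) (nat_lit 5) (nat_lit 63) (nat_lit 5) (nat_lit 64) (nat_lit 4) (nat_lit 488) (nat_lit 414) (nat_lit 298)))) (XT.nd (nat_lit 156) (nat_lit 228) (nat_lit 0) (XT.nd (nat_lit 78) (nat_lit 76) (nat_lit 0) (XT.lf (nat_lit 0) (nat_lit 13448965701) (nat_lit 152) (nat_lit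 39201620580) (nat_lit 76) (nat_lit 24669489908) (nat_lit 60) (nat_lit 5) (nat_lit 62) (nat_lit 5) (nat_lit 61) (nat_lit 4) (nat_lit 489) (nat_lit 414) (nat_lit 297)) (XT.lf (nat_lit 0) (nat_lit 34545267358) (nat_lit 76) (nat_lit 15237407604) (nat_lit 152) (nat_lit 30236002185) (nat_lit 59) (nat_lit 5) (nat_lit 60) (nat_lit 5) (nat_lit 61) (nat_lit 4) (nat_lit 490) (nat_lit 414) (nat_lit 296))) (XT.nd (nat_lit 78) (nat_lit 76) (nat_lit 0) (XT.lf (nat_lit 0) (nat_lit 5908501526) (nat_lit 152) (nat_lit 52591763928) (nat_lit 76) (nat_lit 24322674030) (nat_lit 57) (nat_lit 5) (nat_lit 59) (nat_lit 5) (nat_lit 58) (nat_lit 4) (nat_lit 491) (nat_lit 414) (nat_lit 295)) (XT.lf (nat_lit 0) (nat_lit 24917241524) (nat_lit 76) (nat_lit 19177609132) (nat_lit 152) (nat_lit 41637784988) (nat_lit 56) (nat_lit 5) (nat_lit 57) (nat_lit 5) (nat_lit 58) (nat_lit 4) (nat_lit 492) (nat_lit 414) (nat_lit 294))))))))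
noncomputable def xc73 : XT := (XT.nd (nat_lit 58032) (nat_lit 0) (nat_lit 5472) (XT.nd (nat_lit 57018) (nat_lit 0) (nat_lit 14364) (XT.nd (nat_lit 56472) (nat_lit 0) (nat_lit 21356) (XT.nd (nat_lit 312) (nat_lit 304) (nat_lit 0) (XT.nd (nat_lit 78) (nat_lit 228) (nat_lit 0) (XT.lf (nat_lit 0) (nat_lit 18754365579) (nat_lit 76) (nat_lit 66364043374) (nat_lit 76) (nat_lit 3641571013) (nat_lit 55) (nat_lit 4) (nat_lit 56) (nat_lit 5) (nat_lit 56) (nat_lit 4) (nat_lit 493) (nat_lit 414) (nat_lit 293)) (XT.nd (nat_lit 78) (nat_lit 76) (nat_lit 0) (XT.lf (nat_lit 0) (nat_lit 11303472486) (nat_lit 76) (nat_lit 25166537271) (nat_lit 152) (nat_lit 55430536514) (nat_lit 53) (nat_lit 5) (nat_lit 54) (nat_lit 5) (nat_lit 55) (nat_lit 4) (nat_lit 494) (nat_lit 414) (nat_lit 292)) (XT.lf (nat_lit 0) (nat_lit 2778847205) (nat_lit 76) (nat_lit 76650887881) (nat_lit 76) (nat_lit 15739787881) (nat_lit 52) (nat_lit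 4) (nat_lit 53) (nat_lit 5) (nat_lit 53) (nat_lit 4) (nat_lit 495) (nat_lit 414) (nat_lit 291)))) (XT.nd (nat_lit 78) (nat_lit 152) (nat_lit 0) (XT.lf (nat_lit 0) (nat_lit 71467278164) (nat_lit 152) (nat_lit 18307995234) (nat_lit 0) (nat_lit 12316642127) (nat_lit 50) (nat_lit 5) (nat_lit 52) (nat_lit 4) (nat_lit 50) (nat_lit 4) (nat_lit 497) (nat_lit 414) (nat_lit 289)) (XT.nd (nat_lit 56004) (nat_lit 0) (nat_lit 22268) (XT.lf (nat_lit 0) (nat_lit 13754242647) (nat_lit 152) (nat_lit 31235862949) (nat_lit 76) (nat_lit 60770515180) (nat_lit 48) (nat_lit 5) (nat_lit 50) (nat_lit 5) (nat_lit 49) (nat_lit 4) (nat_lit 498) (nat_lit 414) (nat_lit 288)) (XT.lf (nat_lit 0) (nat_lit 805499534) (nat_lit 1140) (nat_lit 1861177336) (nat_lit 1140) (nat_lit 1861177336) (nat_lit 341) (nat_lit 3) (nat_lit 356) (nat_lit 3) (nat_lit 356) (nat_lit 5) (nat_lit 415) (nat_lit 415) (nat_lit 370))))) (XT.nd (nat_lit 234)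 (nat_lit 988) (nat_lit 0) (XT.nd (nat_lit 78) (nat_lit 0) (nat_lit 0) (XT.lf (nat_lit 0) (nat_lit 3153093083) (nat_lit 1064) (nat_lit 5410947838) (nat_lit 1140) (nat_lit 672858209) (nat_lit 342) (nat_lit 5) (nat_lit 356) (nat_lit 5) (nat_lit 357) (nat_lit 5) (nat_lit 416) (nat_lit 415) (nat_lit 369)) (XT.nd (nat_lit 78) (nat_lit 0) (nat_lit 76) (XT.lf (nat_lit 76) (nat_lit 2342668715) (nat_lit 0) (nat_lit 2451275431) (nat_lit 1140) (nat_lit 4632565101) (nat_lit 343) (nat_lit 5) (nat_lit 342) (nat_lit 5) (nat_lit 357) (nat_lit 5) (nat_lit 417) (nat_lit 415) (nat_lit 368)) (XT.lf (nat_lit 76) (nat_lit 898090693) (nat_lit 0) (nat_lit 5632702138) (nat_lit 1140) (nat_lit 3094397375) (nat_lit 344) (nat_lit 5) (nat_lit 343) (nat_lit 5) (nat_lit 358) (nat_lit 5) (nat_lit 418) (nat_lit 415) (nat_lit 367)))) (XT.nd (nat_lit 156) (nat_lit 0) (nat_lit 76) (XT.nd (nat_lit 78) (nat_lit 1140) (nat_lit 0) (XT.lf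 (nat_lit 0) (nat_lit 8376027495) (nat_lit 1064) (nat_lit 493298815) (nat_lit 1140) (nat_lit 963841156) (nat_lit 344) (nat_lit 5) (nat_lit 358) (nat_lit 5) (nat_lit 359) (nat_lit 5) (nat_lit 419) (nat_lit 415) (nat_lit 366)) (XT.lf (nat_lit 0) (nat_lit 312143887) (nat_lit 1140) (nat_lit 1850134919) (nat_lit 1216) (nat_lit 7887538876) (nat_lit 329) (nat_lit 5) (nat_lit 344) (nat_lit 5) (nat_lit 345) (nat_lit 5) (nat_lit 420) (nat_lit 415) (nat_lit 365))) (XT.nd (nat_lit 78) (nat_lit 0) (nat_lit 76) (XT.lf (nat_lit 0) (nat_lit 2183384931) (nat_lit 1140) (nat_lit 3192780302) (nat_lit 1216) (nat_lit 4899401032) (nat_lit 330) (nat_lit 5) (nat_lit 345) (nat_lit 5) (nat_lit 346) (nat_lit 5) (nat_lit 421) (nat_lit 415) (nat_lit 364)) (XT.lf (nat_lit 0) (nat_lit 4190186559) (nat_lit 1140) (nat_lit 4498709268) (nat_lit 1216) (nat_lit 1822453673) (nat_lit 331) (nat_lit 5) (nat_lit 346) (nat_lit 5) (nat_lit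 347) (nat_lit 5) (nat_lit 422) (nat_lit 415) (nat_lit 363)))))) (XT.nd (nat_lit 468) (nat_lit 3420) (nat_lit 0) (XT.nd (nat_lit 234) (nat_lit 2736) (nat_lit 0) (XT.nd (nat_lit 78) (nat_lit 988) (nat_lit 0) (XT.lf (nat_lit 76) (nat_lit 4975180710) (nat_lit 0) (nat_lit 1385782056) (nat_lit 1216) (nat_lit 4396056933) (nat_lit 332) (nat_lit 5) (nat_lit 331) (nat_lit 5) (nat_lit 347) (nat_lit 5) (nat_lit 423) (nat_lit 415) (nat_lit 362)) (XT.nd (nat_lit 78) (nat_lit 1064) (nat_lit 0) (XT.lf (nat_lit 76) (nat_lit 3964613792) (nat_lit 0) (nat_lit 4752344993) (nat_lit 1216) (nat_lit 2295720706) (nat_lit 333) (nat_lit 5) (nat_lit 332) (nat_lit 5) (nat_lit 348) (nat_lit 5) (nat_lit 424) (nat_lit 415) (nat_lit 361)) (XT.lf (nat_lit 0) (nat_lit 2999719129) (nat_lit 1140) (nat_lit 8256750776) (nat_lit 1216) (nat_lit 22687107) (nat_lit 318) (nat_lit 5) (nat_lit 333) (nat_lit 5) (nat_lit 334) (nat_lit 5) (nat_lit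 425) (nat_lit 415) (nat_lit 360)))) (XT.nd (nat_lit 78) (nat_lit 1444) (nat_lit 0) (XT.lf (nat_lit 0) (nat_lit 2053770442) (nat_lit 1216) (nat_lit 341338908) (nat_lit 1292) (nat_lit 9160855830) (nat_lit 301) (nat_lit 5) (nat_lit 317) (nat_lit 5) (nat_lit 318) (nat_lit 5) (nat_lit 426) (nat_lit 415) (nat_lit 359)) (XT.nd (nat_lit 78) (nat_lit 608) (nat_lit 0) (XT.lf (nat_lit 0) (nat_lit 1121170950) (nat_lit 836) (nat_lit 3924473418) (nat_lit 912) (nat_lit 6797598571) (nat_lit 290) (nat_lit 5) (nat_lit 301) (nat_lit 5) (nat_lit 302) (nat_lit 5) (nat_lit 427) (nat_lit 415) (nat_lit 358)) (XT.lf (nat_lit 0) (nat_lit 233987636) (nat_lit 608) (nat_lit 7683134823) (nat_lit 684) (nat_lit 4225114838) (nat_lit 282) (nat_lit 5) (nat_lit 290) (nat_lit 5) (nat_lit 291) (nat_lit 5) (nat_lit 428) (nat_lit 415) (nat_lit 357))))) (XT.nd (nat_lit 234) (nat_lit 2204) (nat_lit 0) (XT.nd (nat_lit 78) (nat_lit 1216)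 (nat_lit 0) (XT.lf (nat_lit 0) (nat_lit 11033428346) (nat_lit 684) (nat_lit 594213475) (nat_lit 76) (nat_lit 825506890) (nat_lit 282) (nat_lit 5) (nat_lit 291) (nat_lit 5) (nat_lit 283) (nat_lit 5) (nat_lit 429) (nat_lit 415) (nat_lit 356)) (XT.nd (nat_lit 78) (nat_lit 532) (nat_lit 0) (XT.lf (nat_lit 0) (nat_lit 1630660146) (nat_lit 684) (nat_lit 1414919289) (nat_lit 76) (nat_lit 9729556002) (nat_lit 273) (nat_lit 5) (nat_lit 282) (nat_lit 5) (nat_lit 274) (nat_lit 5) (nat_lit 430) (nat_lit 415) (nat_lit 355)) (XT.lf (nat_lit 0) (nat_lit 4922388179) (nat_lit 608) (nat_lit 2211216315) (nat_lit 76) (nat_lit 5975653953) (nat_lit 266) (nat_lit 5) (nat_lit 274) (nat_lit 5) (nat_lit 267) (nat_lit 5) (nat_lit 431) (nat_lit 415) (nat_lit 354)))) (XT.nd (nat_lit 156) (nat_lit 1064) (nat_lit 0) (XT.nd (nat_lit 78) (nat_lit 532) (nat_lit 0) (XT.lf (nat_lit 0) (nat_lit 8494695806) (nat_lit 684) (nat_lit 2958704086)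 (nat_lit 76) (nat_lit 2003212073) (nat_lit 258) (nat_lit 5) (nat_lit 267) (nat_lit 5) (nat_lit 259) (nat_lit 5) (nat_lit 432) (nat_lit 415) (nat_lit 353)) (XT.lf (nat_lit 0) (nat_lit 10141000697) (nat_lit 532) (nat_lit 2248755495) (nat_lit 608) (nat_lit 1427256802) (nat_lit 251) (nat_lit 5) (nat_lit 258) (nat_lit 5) (nat_lit 259) (nat_lit 5) (nat_lit 433) (nat_lit 415) (nat_lit 352))) (XT.nd (nat_lit 78) (nat_lit 456) (nat_lit 0) (XT.lf (nat_lit 0) (nat_lit 2391022091) (nat_lit 608) (nat_lit 4383688875) (nat_lit 76) (nat_lit 7415524325) (nat_lit 243) (nat_lit 5) (nat_lit 251) (nat_lit 5) (nat_lit 244) (nat_lit 5) (nat_lit 434) (nat_lit 415) (nat_lit 351)) (XT.lf (nat_lit 0) (nat_lit 6508038996) (nat_lit 532) (nat_lit 5051934106) (nat_lit 76) (nat_lit 3017604888) (nat_lit 237) (nat_lit 5) (nat_lit 244) (nat_lit 5) (nat_lit 238) (nat_lit 5) (nat_lit 435) (nat_lit 415) (nat_lit 350))))))) (XT.nd (nat_lit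 1014) (nat_lit 3724) (nat_lit 0) (XT.nd (nat_lit 468) (nat_lit 2432) (nat_lit 0) (XT.nd (nat_lit 234) (nat_lit 1292) (nat_lit 0) (XT.nd (nat_lit 78) (nat_lit 988) (nat_lit 0) (XT.lf (nat_lit 0) (nat_lit 9300062210) (nat_lit 456) (nat_lit 1690510784) (nat_lit 532) (nat_lit 3988928160) (nat_lit 231) (nat_lit 5) (nat_lit 237) (nat_lit 5) (nat_lit 238) (nat_lit 5) (nat_lit 436) (nat_lit 415) (nat_lit 349)) (XT.nd (nat_lit 78) (nat_lit 456) (nat_lit 0) (XT.lf (nat_lit 0) (nat_lit 473102731) (nat_lit 532) (nat_lit 6282819505) (nat_lit 76) (nat_lit 8640021233) (nat_lit 224) (nat_lit 5) (nat_lit 231) (nat_lit 5) (nat_lit 225) (nat_lit 5) (nat_lit 437) (nat_lit 415) (nat_lit 348)) (XT.lf (nat_lit 0) (nat_lit 5234619777) (nat_lit 532) (nat_lit 6865399732) (nat_lit 76) (nat_lit 3727240030) (nat_lit 218) (nat_lit 5) (nat_lit 225) (nat_lit 5) (nat_lit 219) (nat_lit 5) (nat_lit 438) (nat_lit 415) (nat_lit 347))))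 (XT.nd (nat_lit 78) (nat_lit 912) (nat_lit 0) (XT.lf (nat_lit 0) (nat_lit 8875836563) (nat_lit 380) (nat_lit 1537546732) (nat_lit 456) (nat_lit 5861385782) (nat_lit 213) (nat_lit 5) (nat_lit 218) (nat_lit 5) (nat_lit 219) (nat_lit 5) (nat_lit 439) (nat_lit 415) (nat_lit 346)) (XT.nd (nat_lit 78) (nat_lit 456) (nat_lit 0) (XT.lf (nat_lit 0) (nat_lit 8834939461) (nat_lit 456) (nat_lit 7225934897) (nat_lit 532) (nat_lit 677488701) (nat_lit 207) (nat_lit 5) (nat_lit 213) (nat_lit 5) (nat_lit 214) (nat_lit 5) (nat_lit 440) (nat_lit 415) (nat_lit 345)) (XT.lf (nat_lit 0) (nat_lit 4852037487) (nat_lit 456) (nat_lit 8384552074) (nat_lit 76) (nat_lit 3981792485) (nat_lit 201) (nat_lit 5) (nat_lit 207) (nat_lit 5) (nat_lit 202) (nat_lit 5) (nat_lit 441) (nat_lit 415) (nat_lit 344))))) (XT.nd (nat_lit 234) (nat_lit 1292) (nat_lit 0) (XT.nd (nat_lit 78) (nat_lit 760) (nat_lit 0) (XT.lf (nat_lit 0) (nat_lit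 8897317107) (nat_lit 380) (nat_lit 1951319598) (nat_lit 456) (nat_lit 6867428129) (nat_lit 196) (nat_lit 5) (nat_lit 201) (nat_lit 5) (nat_lit 202) (nat_lit 5) (nat_lit 442) (nat_lit 415) (nat_lit 343)) (XT.nd (nat_lit 78) (nat_lit 456) (nat_lit 0) (XT.lf (nat_lit 0) (nat_lit 9013947055) (nat_lit 304) (nat_lit 8365078291) (nat_lit 380) (nat_lit 852589856) (nat_lit 192) (nat_lit 5) (nat_lit 196) (nat_lit 5) (nat_lit 197) (nat_lit 5) (nat_lit 443) (nat_lit 415) (nat_lit 342)) (XT.lf (nat_lit 0) (nat_lit 5557645792) (nat_lit 456) (nat_lit 9590566106) (nat_lit 76) (nat_lit 3617120093) (nat_lit 186) (nat_lit 5) (nat_lit 192) (nat_lit 5) (nat_lit 187) (nat_lit 5) (nat_lit 444) (nat_lit 415) (nat_lit 341)))) (XT.nd (nat_lit 156) (nat_lit 608) (nat_lit 0) (XT.nd (nat_lit 78) (nat_lit 380) (nat_lit 0) (XT.lf (nat_lit 0) (nat_lit 9398800901) (nat_lit 304) (nat_lit 3109655813) (nat_lit 380) (nat_lit 6809895729)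 (nat_lit 182) (nat_lit 5) (nat_lit 186) (nat_lit 5) (nat_lit 187) (nat_lit 5) (nat_lit 445) (nat_lit 415) (nat_lit 340)) (XT.lf (nat_lit 0) (nat_lit 164493375) (nat_lit 380) (nat_lit 10201205519) (nat_lit 76) (nat_lit 9525706136) (nat_lit 177) (nat_lit 5) (nat_lit 182) (nat_lit 5) (nat_lit 178) (nat_lit 5) (nat_lit 446) (nat_lit 415) (nat_lit 339))) (XT.nd (nat_lit 78) (nat_lit 304) (nat_lit 0) (XT.lf (nat_lit 0) (nat_lit 7571888307) (nat_lit 380) (nat_lit 10462424937) (nat_lit 76) (nat_lit 2450022222) (nat_lit 173) (nat_lit 5) (nat_lit 178) (nat_lit 5) (nat_lit 174) (nat_lit 5) (nat_lit 447) (nat_lit 415) (nat_lit 338)) (XT.lf (nat_lit 0) (nat_lit 10417823839) (nat_lit 304) (nat_lit 5212281123) (nat_lit 380) (nat_lit 5468395544) (nat_lit 169) (nat_lit 5) (nat_lit 173) (nat_lit 5) (nat_lit 174) (nat_lit 5) (nat_lit 448) (nat_lit 415) (nat_lit 337)))))) (XT.nd (nat_lit 546) (nat_lit 1672) (nat_lit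 0) (XT.nd (nat_lit 234) (nat_lit 1140) (nat_lit 0) (XT.nd (nat_lit 78) (nat_lit 532) (nat_lit 0) (XT.lf (nat_lit 0) (nat_lit 2568101021) (nat_lit 380) (nat_lit 10852429500) (nat_lit 76) (nat_lit 8314185995) (nat_lit 164) (nat_lit 5) (nat_lit 169) (nat_lit 5) (nat_lit 165) (nat_lit 5) (nat_lit 449) (nat_lit 415) (nat_lit 336)) (XT.nd (nat_lit 78) (nat_lit 228) (nat_lit 0) (XT.lf (nat_lit 0) (nat_lit 11141658454) (nat_lit 380) (nat_lit 10979505255) (nat_lit 76) (nat_lit 272506863) (nat_lit 160) (nat_lit 5) (nat_lit 165) (nat_lit 5) (nat_lit 161) (nat_lit 5) (nat_lit 450) (nat_lit 415) (nat_lit 335)) (XT.lf (nat_lit 0) (nat_lit 11992555772) (nat_lit 228) (nat_lit 8486926815) (nat_lit 304) (nat_lit 2596023457) (nat_lit 157) (nat_lit 5) (nat_lit 160) (nat_lit 5) (nat_lit 161) (nat_lit 5) (nat_lit 451) (nat_lit 415) (nat_lit 334)))) (XT.nd (nat_lit 156) (nat_lit 532) (nat_lit 0) (XT.nd (nat_lit 78) (nat_lit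 228) (nat_lit 0) (XT.lf (nat_lit 0) (nat_lit 6633777807) (nat_lit 380) (nat_lit 11146154519) (nat_lit 76) (nat_lit 6001598550) (nat_lit 152) (nat_lit 5) (nat_lit 157) (nat_lit 5) (nat_lit 153) (nat_lit 5) (nat_lit 452) (nat_lit 415) (nat_lit 333)) (XT.lf (nat_lit 0) (nat_lit 13357172218) (nat_lit 228) (nat_lit 3217423646) (nat_lit 304) (nat_lit 7938394708) (nat_lit 149) (nat_lit 5) (nat_lit 152) (nat_lit 5) (nat_lit 153) (nat_lit 5) (nat_lit 453) (nat_lit 415) (nat_lit 332))) (XT.nd (nat_lit 78) (nat_lit 228) (nat_lit 0) (XT.lf (nat_lit 0) (nat_lit 2043225360) (nat_lit 304) (nat_lit 11132374020) (nat_lit 76) (nat_lit 12094558279) (nat_lit 145) (nat_lit 5) (nat_lit 149) (nat_lit 5) (nat_lit 146) (nat_lit 5) (nat_lit 454) (nat_lit 415) (nat_lit 331)) (XT.lf (nat_lit 0) (nat_lit 12651570451) (nat_lit 304) (nat_lit 11072065240) (nat_lit 76) (nat_lit 2330435873) (nat_lit 142) (nat_lit 5) (nat_lit 146)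 (nat_lit 5) (nat_lit 143) (nat_lit 5) (nat_lit 455) (nat_lit 415) (nat_lit 330))))) (XT.nd (nat_lit 234) (nat_lit 912) (nat_lit 0) (XT.nd (nat_lit 78) (nat_lit 532) (nat_lit 0) (XT.lf (nat_lit 0) (nat_lit 15896678590) (nat_lit 228) (nat_lit 8270607014) (nat_lit 304) (nat_lit 2698587992) (nat_lit 139) (nat_lit 5) (nat_lit 142) (nat_lit 5) (nat_lit 143) (nat_lit 5) (nat_lit 456) (nat_lit 415) (nat_lit 329)) (XT.nd (nat_lit 78) (nat_lit 228) (nat_lit 0) (XT.lf (nat_lit 0) (nat_lit 8707654379) (nat_lit 304) (nat_lit 10850107851) (nat_lit 76) (nat_lit 8148027841) (nat_lit 135) (nat_lit 5) (nat_lit 139) (nat_lit 5) (nat_lit 136) (nat_lit 5) (nat_lit 457) (nat_lit 415) (nat_lit 328)) (XT.lf (nat_lit 0) (nat_lit 17915339378) (nat_lit 228) (nat_lit 3059912921) (nat_lit 304) (nat_lit 7601243774) (nat_lit 132) (nat_lit 5) (nat_lit 135) (nat_lit 5) (nat_lit 136) (nat_lit 5) (nat_lit 458) (nat_lit 415) (nat_lit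 327)))) (XT.nd (nat_lit 156) (nat_lit 456) (nat_lit 0) (XT.nd (nat_lit 78) (nat_lit 228) (nat_lit 0) (XT.lf (nat_lit 0) (nat_lit 4694631777) (nat_lit 228) (nat_lit 10470999458) (nat_lit 76) (nat_lit 14311418288) (nat_lit 129) (nat_lit 5) (nat_lit 132) (nat_lit 5) (nat_lit 130) (nat_lit 5) (nat_lit 459) (nat_lit 415) (nat_lit 326)) (XT.lf (nat_lit 0) (nat_lit 17786739779) (nat_lit 304) (nat_lit 10226600402) (nat_lit 76) (nat_lit 2396874138) (nat_lit 126) (nat_lit 5) (nat_lit 130) (nat_lit 5) (nat_lit 127) (nat_lit 5) (nat_lit 460) (nat_lit 415) (nat_lit 325))) (XT.nd (nat_lit 78) (nat_lit 228) (nat_lit 0) (XT.lf (nat_lit 0) (nat_lit 591233968) (nat_lit 228) (nat_lit 9952747093) (nat_lit 76) (nat_lit 20832497163) (nat_lit 123) (nat_lit 5) (nat_lit 126) (nat_lit 5) (nat_lit 124) (nat_lit 5) (nat_lit 461) (nat_lit 415) (nat_lit 324)) (XT.lf (nat_lit 0) (nat_lit 14591198688) (nat_lit 304) (nat_lit 9695979091)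 (nat_lit 76) (nat_lit 8088560884) (nat_lit 120) (nat_lit 5) (nat_lit 124) (nat_lit 5) (nat_lit 121) (nat_lit 5) (nat_lit 462) (nat_lit 415) (nat_lit 323))))))))
noncomputable def xc74 : XT := (XT.nd (nat_lit 2028) (nat_lit 988) (nat_lit 0) (XT.nd (nat_lit 1014) (nat_lit 1900) (nat_lit 0) (XT.nd (nat_lit 468) (nat_lit 1216) (nat_lit 0) (XT.nd (nat_lit 234) (nat_lit 608) (nat_lit 0) (XT.nd (nat_lit 78) (nat_lit 456) (nat_lit 0) (XT.lf (nat_lit 0) (nat_lit 24055889711) (nat_lit 152) (nat_lit 5655683089) (nat_lit 228) (nat_lit 3700777650) (nat_lit 118) (nat_lit 5) (nat_lit 120) (nat_lit 5) (nat_lit 121) (nat_lit 5) (nat_lit 463) (nat_lit 415) (nat_lit 322)) (XT.nd (nat_lit 78) (nat_lit 152) (nat_lit 0) (XT.lf (nat_lit 0) (nat_lit 11335035890) (nat_lit 304) (nat_lit 9069989944) (nat_lit 76) (nat_lit 14078643892) (nat_lit 114) (nat_lit 5) (nat_lit 118) (nat_lit 5) (nat_lit 115) (nat_lit 5) (nat_lit 464)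 (nat_lit 415) (nat_lit 321)) (XT.lf (nat_lit 0) (nat_lit 26906968051) (nat_lit 152) (nat_lit 533068059) (nat_lit 228) (nat_lit 8155602183) (nat_lit 112) (nat_lit 5) (nat_lit 114) (nat_lit 5) (nat_lit 115) (nat_lit 5) (nat_lit 465) (nat_lit 415) (nat_lit 320)))) (XT.nd (nat_lit 78) (nat_lit 380) (nat_lit 0) (XT.lf (nat_lit 0) (nat_lit 7988195239) (nat_lit 228) (nat_lit 8389095725) (nat_lit 76) (nat_lit 20367251950) (nat_lit 109) (nat_lit 5) (nat_lit 112) (nat_lit 5) (nat_lit 110) (nat_lit 5) (nat_lit 466) (nat_lit 415) (nat_lit 319)) (XT.nd (nat_lit 78) (nat_lit 228) (nat_lit 0) (XT.lf (nat_lit 0) (nat_lit 25183009809) (nat_lit 228) (nat_lit 8036504435) (nat_lit 76) (nat_lit 4716581648) (nat_lit 107) (nat_lit 5) (nat_lit 110) (nat_lit 5) (nat_lit 108) (nat_lit 5) (nat_lit 467) (nat_lit 415) (nat_lit 318)) (XT.lf (nat_lit 0) (nat_lit 4513569923) (nat_lit 228) (nat_lit 7706436143) (nat_lit 76) (nat_lit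 26949784858) (nat_lit 104) (nat_lit 5) (nat_lit 107) (nat_lit 5) (nat_lit 105) (nat_lit 5) (nat_lit 468) (nat_lit 415) (nat_lit 317))))) (XT.nd (nat_lit 234) (nat_lit 684) (nat_lit 0) (XT.nd (nat_lit 78) (nat_lit 380) (nat_lit 0) (XT.lf (nat_lit 0) (nat_lit 22865798778) (nat_lit 228) (nat_lit 7421591350) (nat_lit 76) (nat_lit 10159413182) (nat_lit 102) (nat_lit 5) (nat_lit 105) (nat_lit 5) (nat_lit 103) (nat_lit 5) (nat_lit 469) (nat_lit 415) (nat_lit 316)) (XT.nd (nat_lit 78) (nat_lit 152) (nat_lit 0) (XT.lf (nat_lit 0) (nat_lit 865607678) (nat_lit 228) (nat_lit 7090590241) (nat_lit 76) (nat_lit 33815635712) (nat_lit 99) (nat_lit 5) (nat_lit 102) (nat_lit 5) (nat_lit 100) (nat_lit 5) (nat_lit 470) (nat_lit 415) (nat_lit 315)) (XT.lf (nat_lit 0) (nat_lit 20438726627) (nat_lit 228) (nat_lit 6916446998) (nat_lit 76) (nat_lit 15785686813) (nat_lit 97) (nat_lit 5) (nat_lit 100) (nat_lit 5) (nat_lit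 98) (nat_lit 5) (nat_lit 471) (nat_lit 415) (nat_lit 314)))) (XT.nd (nat_lit 156) (nat_lit 304) (nat_lit 0) (XT.nd (nat_lit 78) (nat_lit 228) (nat_lit 0) (XT.lf (nat_lit 0) (nat_lit 37904916014) (nat_lit 152) (nat_lit 3587102331) (nat_lit 228) (nat_lit 3071275113) (nat_lit 95) (nat_lit 5) (nat_lit 97) (nat_lit 5) (nat_lit 98) (nat_lit 5) (nat_lit 472) (nat_lit 415) (nat_lit 313)) (XT.lf (nat_lit 0) (nat_lit 17846617112) (nat_lit 228) (nat_lit 6619300383) (nat_lit 76) (nat_lit 21566439069) (nat_lit 92) (nat_lit 5) (nat_lit 95) (nat_lit 5) (nat_lit 93) (nat_lit 5) (nat_lit 473) (nat_lit 415) (nat_lit 312))) (XT.nd (nat_lit 78) (nat_lit 152) (nat_lit 0) (XT.lf (nat_lit 0) (nat_lit 40239378715) (nat_lit 228) (nat_lit 6509513606) (nat_lit 76) (nat_lit 810293775) (nat_lit 90) (nat_lit 5) (nat_lit 93) (nat_lit 5) (nat_lit 91) (nat_lit 4) (nat_lit 474) (nat_lit 415) (nat_lit 311)) (XT.lf (nat_lit 0) (nat_lit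 15021567977) (nat_lit 152) (nat_lit 6653198868) (nat_lit 76) (nat_lit 27461878129) (nat_lit 88) (nat_lit 5) (nat_lit 90) (nat_lit 5) (nat_lit 89) (nat_lit 5) (nat_lit 475) (nat_lit 415) (nat_lit 310)))))) (XT.nd (nat_lit 468) (nat_lit 988) (nat_lit 0) (XT.nd (nat_lit 234) (nat_lit 456) (nat_lit 0) (XT.nd (nat_lit 78) (nat_lit 304) (nat_lit 0) (XT.lf (nat_lit 0) (nat_lit 38855660110) (nat_lit 228) (nat_lit 6799780673) (nat_lit 76) (nat_lit 5119551121) (nat_lit 86) (nat_lit 5) (nat_lit 89) (nat_lit 5) (nat_lit 87) (nat_lit 4) (nat_lit 476) (nat_lit 415) (nat_lit 309)) (XT.nd (nat_lit 78) (nat_lit 152) (nat_lit 0) (XT.lf (nat_lit 0) (nat_lit 11880463094) (nat_lit 152) (nat_lit 7171014016) (nat_lit 76) (nat_lit 33419002361) (nat_lit 84) (nat_lit 5) (nat_lit 86) (nat_lit 5) (nat_lit 85) (nat_lit 5) (nat_lit 477) (nat_lit 415) (nat_lit 308)) (XT.lf (nat_lit 0) (nat_lit 37222025727) (nat_lit 228) (nat_lit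 7664752913) (nat_lit 76) (nat_lit 9342474000) (nat_lit 82) (nat_lit 5) (nat_lit 85) (nat_lit 5) (nat_lit 83) (nat_lit 4) (nat_lit 478) (nat_lit 415) (nat_lit 307)))) (XT.nd (nat_lit 78) (nat_lit 304) (nat_lit 0) (XT.lf (nat_lit 0) (nat_lit 8322031290) (nat_lit 152) (nat_lit 8361360683) (nat_lit 76) (nat_lit 39368776900) (nat_lit 80) (nat_lit 5) (nat_lit 82) (nat_lit 5) (nat_lit 81) (nat_lit 5) (nat_lit 479) (nat_lit 415) (nat_lit 306)) (XT.nd (nat_lit 78) (nat_lit 152) (nat_lit 0) (XT.lf (nat_lit 0) (nat_lit 35234827175) (nat_lit 228) (nat_lit 9313588515) (nat_lit 76) (nat_lit 13392699496) (nat_lit 78) (nat_lit 5) (nat_lit 81) (nat_lit 5) (nat_lit 79) (nat_lit 4) (nat_lit 480) (nat_lit 415) (nat_lit 305)) (XT.lf (nat_lit 0) (nat_lit 4223372783) (nat_lit 152) (nat_lit 10455589861) (nat_lit 76) (nat_lit 45222789488) (nat_lit 76) (nat_lit 5) (nat_lit 78) (nat_lit 5) (nat_lit 77) (nat_lit 5) (nat_lit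 481) (nat_lit 415) (nat_lit 304))))) (XT.nd (nat_lit 234) (nat_lit 532) (nat_lit 0) (XT.nd (nat_lit 78) (nat_lit 304) (nat_lit 0) (XT.lf (nat_lit 0) (nat_lit 32767386357) (nat_lit 228) (nat_lit 12002147030) (nat_lit 76) (nat_lit 17162019181) (nat_lit 74) (nat_lit 5) (nat_lit 77) (nat_lit 5) (nat_lit 75) (nat_lit 4) (nat_lit 482) (nat_lit 415) (nat_lit 303)) (XT.nd (nat_lit 78) (nat_lit 228) (nat_lit 0) (XT.lf (nat_lit 0) (nat_lit 50299457097) (nat_lit 76) (nat_lit 13166207244) (nat_lit 152) (nat_lit 575366962) (nat_lit 73) (nat_lit 5) (nat_lit 74) (nat_lit 5) (nat_lit 75) (nat_lit 4) (nat_lit 483) (nat_lit 415) (nat_lit 302)) (XT.lf (nat_lit 0) (nat_lit 29665584114) (nat_lit 228) (nat_lit 16041956040) (nat_lit 76) (nat_lit 20516035860) (nat_lit 70) (nat_lit 5) (nat_lit 73) (nat_lit 5) (nat_lit 71) (nat_lit 4) (nat_lit 484) (nat_lit 415) (nat_lit 301)))) (XT.nd (nat_lit 156) (nat_lit 228) (nat_lit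 0) (XT.nd (nat_lit 78) (nat_lit 228) (nat_lit 0) (XT.lf (nat_lit 0) (nat_lit 49886029436) (nat_lit 76) (nat_lit 12263292291) (nat_lit 152) (nat_lit 6343476348) (nat_lit 69) (nat_lit 5) (nat_lit 70) (nat_lit 5) (nat_lit 71) (nat_lit 4) (nat_lit 485) (nat_lit 415) (nat_lit 300)) (XT.lf (nat_lit 0) (nat_lit 25742656724) (nat_lit 228) (nat_lit 21810784317) (nat_lit 76) (nat_lit 23289035360) (nat_lit 66) (nat_lit 5) (nat_lit 69) (nat_lit 5) (nat_lit 67) (nat_lit 4) (nat_lit 486) (nat_lit 415) (nat_lit 299))) (XT.nd (nat_lit 78) (nat_lit 152) (nat_lit 0) (XT.lf (nat_lit 0) (nat_lit 47857612136) (nat_lit 76) (nat_lit 12210525702) (nat_lit 152) (nat_lit 13216629726) (nat_lit 65) (nat_lit 5) (nat_lit 66) (nat_lit 5) (nat_lit 67) (nat_lit 4) (nat_lit 487) (nat_lit 415) (nat_lit 298)) (XT.lf (nat_lit 0) (nat_lit 20773062606) (nat_lit 152) (nat_lit 29765101096) (nat_lit 76) (nat_lit 25277935892) (nat_lit 63)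 (nat_lit 5) (nat_lit 65) (nat_lit 5) (nat_lit 64) (nat_lit 4) (nat_lit 488) (nat_lit 415) (nat_lit 297))))))) (XT.nd (nat_lit 57096) (nat_lit 0) (nat_lit 15808) (XT.nd (nat_lit 468) (nat_lit 380) (nat_lit 0) (XT.nd (nat_lit 234) (nat_lit 304) (nat_lit 0) (XT.nd (nat_lit 78) (nat_lit 228) (nat_lit 0) (XT.lf (nat_lit 0) (nat_lit 43739836705) (nat_lit 76) (nat_lit 13247903694) (nat_lit 152) (nat_lit 21458366994) (nat_lit 62) (nat_lit 5) (nat_lit 63) (nat_lit 5) (nat_lit 64) (nat_lit 4) (nat_lit 489) (nat_lit 415) (nat_lit 296)) (XT.nd (nat_lit 78) (nat_lit 76) (nat_lit 0) (XT.lf (nat_lit 0) (nat_lit 14485257936) (nat_lit 152) (nat_lit 40454749080) (nat_lit 76) (nat_lit 26235153954) (nat_lit 60) (nat_lit 5) (nat_lit 62) (nat_lit 5) (nat_lit 61) (nat_lit 4) (nat_lit 490) (nat_lit 415) (nat_lit 295)) (XT.lf (nat_lit 0) (nat_lit 36959218603) (nat_lit 76) (nat_lit 15665709020) (nat_lit 152) (nat_lit 31384086282)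 (nat_lit 59) (nat_lit 5) (nat_lit 60) (nat_lit 5) (nat_lit 61) (nat_lit 4) (nat_lit 491) (nat_lit 415) (nat_lit 294)))) (XT.nd (nat_lit 78) (nat_lit 152) (nat_lit 0) (XT.lf (nat_lit 0) (nat_lit 6553192205) (nat_lit 152) (nat_lit 54540214900) (nat_lit 76) (nat_lit 25860198118) (nat_lit 57) (nat_lit 5) (nat_lit 59) (nat_lit 5) (nat_lit 58) (nat_lit 4) (nat_lit 492) (nat_lit 415) (nat_lit 293)) (XT.nd (nat_lit 78) (nat_lit 76) (nat_lit 0) (XT.lf (nat_lit 0) (nat_lit 26824716162) (nat_lit 76) (nat_lit 19813870759) (nat_lit 152) (nat_lit 43370507581) (nat_lit 56) (nat_lit 5) (nat_lit 57) (nat_lit 5) (nat_lit 58) (nat_lit 4) (nat_lit 493) (nat_lit 415) (nat_lit 292)) (XT.lf (nat_lit 0) (nat_lit 20341600434) (nat_lit 76) (nat_lit 69364777224) (nat_lit 76) (nat_lit 3481636896) (nat_lit 55) (nat_lit 4) (nat_lit 56) (nat_lit 5) (nat_lit 56) (nat_lit 4) (nat_lit 494) (nat_lit 415) (nat_lit 291))))) (XT.nd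 (nat_lit 56316) (nat_lit 0) (nat_lit 22116) (XT.nd (nat_lit 156) (nat_lit 228) (nat_lit 0) (XT.lf (nat_lit 0) (nat_lit 12506029811) (nat_lit 76) (nat_lit 26112977613) (nat_lit 152) (nat_lit 57866798506) (nat_lit 53) (nat_lit 5) (nat_lit 54) (nat_lit 5) (nat_lit 55) (nat_lit 4) (nat_lit 495) (nat_lit 415) (nat_lit 290)) (XT.nd (nat_lit 78) (nat_lit 76) (nat_lit 0) (XT.lf (nat_lit 0) (nat_lit 28142519404) (nat_lit 152) (nat_lit 6855484308) (nat_lit 76) (nat_lit 68482937308) (nat_lit 51) (nat_lit 5) (nat_lit 53) (nat_lit 5) (nat_lit 52) (nat_lit 4) (nat_lit 497) (nat_lit 415) (nat_lit 288)) (XT.lf (nat_lit 0) (nat_lit 75341109909) (nat_lit 152) (nat_lit 18632476544) (nat_lit 0) (nat_lit 13213908516) (nat_lit 50) (nat_lit 5) (nat_lit 52) (nat_lit 4) (nat_lit 50) (nat_lit 4) (nat_lit 498) (nat_lit 415) (nat_lit 287)))) (XT.nd (nat_lit 156) (nat_lit 0) (nat_lit 76) (XT.nd (nat_lit 78) (nat_lit 0) (nat_lit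 0) (XT.lf (nat_lit 0) (nat_lit 2281384807) (nat_lit 1140) (nat_lit 1214824339) (nat_lit 1140) (nat_lit 1214824339) (nat_lit 341) (nat_lit 3) (nat_lit 356) (nat_lit 3) (nat_lit 356) (nat_lit 5) (nat_lit 416) (nat_lit 416) (nat_lit 368)) (XT.lf (nat_lit 76) (nat_lit 5460816675) (nat_lit 0) (nat_lit 591308260) (nat_lit 1140) (nat_lit 3564101411) (nat_lit 342) (nat_lit 5) (nat_lit 341) (nat_lit 3) (nat_lit 356) (nat_lit 5) (nat_lit 417) (nat_lit 416) (nat_lit 367))) (XT.nd (nat_lit 78) (nat_lit 0) (nat_lit 76) (XT.lf (nat_lit 76) (nat_lit 3947663858) (nat_lit 0) (nat_lit 3705701810) (nat_lit 1140) (nat_lit 2165614051) (nat_lit 343) (nat_lit 5) (nat_lit 342) (nat_lit 5) (nat_lit 357) (nat_lit 5) (nat_lit 418) (nat_lit 416) (nat_lit 366)) (XT.lf (nat_lit 76) (nat_lit 2475370584) (nat_lit 0) (nat_lit 6881305503) (nat_lit 1140) (nat_lit 674542597) (nat_lit 344) (nat_lit 5) (nat_lit 343) (nat_lit 5) (nat_lit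 358) (nat_lit 5) (nat_lit 419) (nat_lit 416) (nat_lit 365)))))) (XT.nd (nat_lit 546) (nat_lit 4484) (nat_lit 0) (XT.nd (nat_lit 234) (nat_lit 912) (nat_lit 0) (XT.nd (nat_lit 78) (nat_lit 0) (nat_lit 0) (XT.lf (nat_lit 0) (nat_lit 905165881) (nat_lit 1140) (nat_lit 9219735343) (nat_lit 1216) (nat_lit 127974790) (nat_lit 329) (nat_lit 5) (nat_lit 344) (nat_lit 5) (nat_lit 345) (nat_lit 5) (nat_lit 420) (nat_lit 416) (nat_lit 364)) (XT.nd (nat_lit 78) (nat_lit 0) (nat_lit 76) (XT.lf (nat_lit 0) (nat_lit 2623403895) (nat_lit 1140) (nat_lit 400967812) (nat_lit 1216) (nat_lit 7458846484) (nat_lit 329) (nat_lit 5) (nat_lit 344) (nat_lit 5) (nat_lit 345) (nat_lit 5) (nat_lit 421) (nat_lit 416) (nat_lit 363)) (XT.lf (nat_lit 0) (nat_lit 4486524848) (nat_lit 1140) (nat_lit 1781944980) (nat_lit 1216) (nat_lit 4454845353) (nat_lit 330) (nat_lit 5) (nat_lit 345) (nat_lit 5) (nat_lit 346) (nat_lit 5) (nat_lit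 422) (nat_lit 416) (nat_lit 362)))) (XT.nd (nat_lit 156) (nat_lit 1064) (nat_lit 0) (XT.nd (nat_lit 78) (nat_lit 0) (nat_lit 0) (XT.lf (nat_lit 0) (nat_lit 6498292547) (nat_lit 1140) (nat_lit 3129299835) (nat_lit 1216) (nat_lit 1346166429) (nat_lit 331) (nat_lit 5) (nat_lit 346) (nat_lit 5) (nat_lit 347) (nat_lit 5) (nat_lit 423) (nat_lit 416) (nat_lit 361)) (XT.lf (nat_lit 76) (nat_lit 6772583065) (nat_lit 0) (nat_lit 1919977833) (nat_lit 1216) (nat_lit 2541712559) (nat_lit 332) (nat_lit 5) (nat_lit 331) (nat_lit 5) (nat_lit 347) (nat_lit 5) (nat_lit 424) (nat_lit 416) (nat_lit 360))) (XT.nd (nat_lit 78) (nat_lit 1140) (nat_lit 0) (XT.lf (nat_lit 76) (nat_lit 5730297336) (nat_lit 0) (nat_lit 5350987204) (nat_lit 1216) (nat_lit 423992945) (nat_lit 333) (nat_lit 5) (nat_lit 332) (nat_lit 5) (nat_lit 348) (nat_lit 5) (nat_lit 425) (nat_lit 416) (nat_lit 359)) (XT.lf (nat_lit 0) (nat_lit 1843665581)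 (nat_lit 1216) (nat_lit 7073589994) (nat_lit 76) (nat_lit 2869687534) (nat_lit 317) (nat_lit 5) (nat_lit 333) (nat_lit 5) (nat_lit 318) (nat_lit 5) (nat_lit 426) (nat_lit 416) (nat_lit 358))))) (XT.nd (nat_lit 234) (nat_lit 1824) (nat_lit 0) (XT.nd (nat_lit 78) (nat_lit 1444) (nat_lit 0) (XT.lf (nat_lit 0) (nat_lit 3729624516) (nat_lit 1216) (nat_lit 578478914) (nat_lit 1292) (nat_lit 7771702891) (nat_lit 301) (nat_lit 5) (nat_lit 317) (nat_lit 5) (nat_lit 318) (nat_lit 5) (nat_lit 427) (nat_lit 416) (nat_lit 357)) (XT.nd (nat_lit 78) (nat_lit 608) (nat_lit 0) (XT.lf (nat_lit 0) (nat_lit 2759765860) (nat_lit 836) (nat_lit 4259204593) (nat_lit 912) (nat_lit 5364650976) (nat_lit 290) (nat_lit 5) (nat_lit 301) (nat_lit 5) (nat_lit 302) (nat_lit 5) (nat_lit 428) (nat_lit 416) (nat_lit 356)) (XT.lf (nat_lit 0) (nat_lit 1834452837) (nat_lit 608) (nat_lit 8131619313) (nat_lit 684) (nat_lit 2733539119)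 (nat_lit 282) (nat_lit 5) (nat_lit 290) (nat_lit 5) (nat_lit 291) (nat_lit 5) (nat_lit 429) (nat_lit 416) (nat_lit 355)))) (XT.nd (nat_lit 156) (nat_lit 608) (nat_lit 0) (XT.nd (nat_lit 78) (nat_lit 532) (nat_lit 0) (XT.lf (nat_lit 0) (nat_lit 137164759) (nat_lit 684) (nat_lit 12073728012) (nat_lit 76) (nat_lit 817245647) (nat_lit 273) (nat_lit 5) (nat_lit 282) (nat_lit 5) (nat_lit 274) (nat_lit 5) (nat_lit 430) (nat_lit 416) (nat_lit 354)) (XT.lf (nat_lit 0) (nat_lit 62422317) (nat_lit 532) (nat_lit 3178903791) (nat_lit 608) (nat_lit 10126564346) (nat_lit 266) (nat_lit 5) (nat_lit 273) (nat_lit 5) (nat_lit 274) (nat_lit 5) (nat_lit 431) (nat_lit 416) (nat_lit 353))) (XT.nd (nat_lit 78) (nat_lit 608) (nat_lit 0) (XT.lf (nat_lit 0) (nat_lit 6639007317) (nat_lit 608) (nat_lit 775331871) (nat_lit 76) (nat_lit 6306145508) (nat_lit 266) (nat_lit 5) (nat_lit 274) (nat_lit 5) (nat_lit 267) (nat_lit 5)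 (nat_lit 432) (nat_lit 416) (nat_lit 352)) (XT.lf (nat_lit 0) (nat_lit 10335184028) (nat_lit 684) (nat_lit 1562797465) (nat_lit 76) (nat_lit 2188872580) (nat_lit 258) (nat_lit 5) (nat_lit 267) (nat_lit 5) (nat_lit 259) (nat_lit 5) (nat_lit 433) (nat_lit 416) (nat_lit 351))))))))
noncomputable def xc75 : XT := (XT.nd (nat_lit 2028) (nat_lit 4788) (nat_lit 0) (XT.nd (nat_lit 1014) (nat_lit 3800) (nat_lit 0) (XT.nd (nat_lit 468) (nat_lit 2736) (nat_lit 0) (XT.nd (nat_lit 234) (nat_lit 1444) (nat_lit 0) (XT.nd (nat_lit 78) (nat_lit 1064) (nat_lit 0) (XT.lf (nat_lit 0) (nat_lit 12147638642) (nat_lit 532) (nat_lit 2224356919) (nat_lit 608) (nat_lit 94875169) (nat_lit 251) (nat_lit 5) (nat_lit 258) (nat_lit 5) (nat_lit 259) (nat_lit 5) (nat_lit 434) (nat_lit 416) (nat_lit 350)) (XT.nd (nat_lit 78) (nat_lit 456) (nat_lit 0) (XT.lf (nat_lit 0) (nat_lit 3837164618) (nat_lit 608) (nat_lit 3081226762) (nat_lit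 76) (nat_lit 7941455881) (nat_lit 243) (nat_lit 5) (nat_lit 251) (nat_lit 5) (nat_lit 244) (nat_lit 5) (nat_lit 435) (nat_lit 416) (nat_lit 349)) (XT.lf (nat_lit 0) (nat_lit 8112995440) (nat_lit 532) (nat_lit 3790002287) (nat_lit 76) (nat_lit 3364975335) (nat_lit 237) (nat_lit 5) (nat_lit 244) (nat_lit 5) (nat_lit 238) (nat_lit 5) (nat_lit 436) (nat_lit 416) (nat_lit 348)))) (XT.nd (nat_lit 78) (nat_lit 988) (nat_lit 0) (XT.lf (nat_lit 0) (nat_lit 11236180189) (nat_lit 456) (nat_lit 1536686038) (nat_lit 532) (nat_lit 2918534483) (nat_lit 231) (nat_lit 5) (nat_lit 237) (nat_lit 5) (nat_lit 238) (nat_lit 5) (nat_lit 437) (nat_lit 416) (nat_lit 347)) (XT.nd (nat_lit 78) (nat_lit 456) (nat_lit 0) (XT.lf (nat_lit 0) (nat_lit 1698933751) (nat_lit 532) (nat_lit 5110216333) (nat_lit 76) (nat_lit 9320439694) (nat_lit 224) (nat_lit 5) (nat_lit 231) (nat_lit 5) (nat_lit 225) (nat_lit 5) (nat_lit 438) (nat_lit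 416) (nat_lit 346)) (XT.lf (nat_lit 0) (nat_lit 6657904639) (nat_lit 532) (nat_lit 5732439572) (nat_lit 76) (nat_lit 4193350176) (nat_lit 218) (nat_lit 5) (nat_lit 225) (nat_lit 5) (nat_lit 219) (nat_lit 5) (nat_lit 439) (nat_lit 416) (nat_lit 345))))) (XT.nd (nat_lit 234) (nat_lit 1444) (nat_lit 0) (XT.nd (nat_lit 78) (nat_lit 912) (nat_lit 0) (XT.lf (nat_lit 0) (nat_lit 10753542696) (nat_lit 380) (nat_lit 1300535209) (nat_lit 456) (nat_lit 5000751231) (nat_lit 213) (nat_lit 5) (nat_lit 218) (nat_lit 5) (nat_lit 219) (nat_lit 5) (nat_lit 440) (nat_lit 416) (nat_lit 344)) (XT.nd (nat_lit 78) (nat_lit 380) (nat_lit 0) (XT.lf (nat_lit 0) (nat_lit 396555105) (nat_lit 532) (nat_lit 6847317812) (nat_lit 76) (nat_lit 10298720547) (nat_lit 206) (nat_lit 5) (nat_lit 213) (nat_lit 5) (nat_lit 207) (nat_lit 5) (nat_lit 441) (nat_lit 416) (nat_lit 343)) (XT.lf (nat_lit 0) (nat_lit 6153407588) (nat_lit 456)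 (nat_lit 7372355569) (nat_lit 76) (nat_lit 4521706582) (nat_lit 201) (nat_lit 5) (nat_lit 207) (nat_lit 5) (nat_lit 202) (nat_lit 5) (nat_lit 442) (nat_lit 416) (nat_lit 342)))) (XT.nd (nat_lit 156) (nat_lit 684) (nat_lit 0) (XT.nd (nat_lit 78) (nat_lit 380) (nat_lit 0) (XT.lf (nat_lit 0) (nat_lit 10732575587) (nat_lit 380) (nat_lit 1680208951) (nat_lit 456) (nat_lit 6158366951) (nat_lit 196) (nat_lit 5) (nat_lit 201) (nat_lit 5) (nat_lit 202) (nat_lit 5) (nat_lit 443) (nat_lit 416) (nat_lit 341)) (XT.lf (nat_lit 0) (nat_lit 121783097) (nat_lit 380) (nat_lit 8273062238) (nat_lit 76) (nat_lit 10718562582) (nat_lit 191) (nat_lit 5) (nat_lit 196) (nat_lit 5) (nat_lit 192) (nat_lit 5) (nat_lit 444) (nat_lit 416) (nat_lit 340))) (XT.nd (nat_lit 78) (nat_lit 304) (nat_lit 0) (XT.lf (nat_lit 0) (nat_lit 6804274369) (nat_lit 456) (nat_lit 8688011998) (nat_lit 76) (nat_lit 4182192501) (nat_lit 186) (nat_lit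 5) (nat_lit 192) (nat_lit 5) (nat_lit 187) (nat_lit 5) (nat_lit 445) (nat_lit 416) (nat_lit 339)) (XT.lf (nat_lit 0) (nat_lit 11211206245) (nat_lit 304) (nat_lit 2858193415) (nat_lit 380) (nat_lit 6186750198) (nat_lit 182) (nat_lit 5) (nat_lit 186) (nat_lit 5) (nat_lit 187) (nat_lit 5) (nat_lit 446) (nat_lit 416) (nat_lit 338)))))) (XT.nd (nat_lit 468) (nat_lit 1900) (nat_lit 0) (XT.nd (nat_lit 234) (nat_lit 912) (nat_lit 0) (XT.nd (nat_lit 78) (nat_lit 608) (nat_lit 0) (XT.lf (nat_lit 0) (nat_lit 1089211552) (nat_lit 380) (nat_lit 9365477015) (nat_lit 76) (nat_lit 10403741420) (nat_lit 177) (nat_lit 5) (nat_lit 182) (nat_lit 5) (nat_lit 178) (nat_lit 5) (nat_lit 447) (nat_lit 416) (nat_lit 337)) (XT.nd (nat_lit 78) (nat_lit 304) (nat_lit 0) (XT.lf (nat_lit 0) (nat_lit 8839953959) (nat_lit 380) (nat_lit 9655778138) (nat_lit 76) (nat_lit 2986087920) (nat_lit 173) (nat_lit 5) (nat_lit 178) (nat_lit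 5) (nat_lit 174) (nat_lit 5) (nat_lit 448) (nat_lit 416) (nat_lit 336)) (XT.lf (nat_lit 0) (nat_lit 12230365542) (nat_lit 304) (nat_lit 5040776266) (nat_lit 380) (nat_lit 4856451980) (nat_lit 169) (nat_lit 5) (nat_lit 173) (nat_lit 5) (nat_lit 174) (nat_lit 5) (nat_lit 449) (nat_lit 416) (nat_lit 335)))) (XT.nd (nat_lit 78) (nat_lit 532) (nat_lit 0) (XT.lf (nat_lit 0) (nat_lit 3539634533) (nat_lit 380) (nat_lit 10102546555) (nat_lit 76) (nat_lit 9153935056) (nat_lit 164) (nat_lit 5) (nat_lit 169) (nat_lit 5) (nat_lit 165) (nat_lit 5) (nat_lit 450) (nat_lit 416) (nat_lit 334)) (XT.nd (nat_lit 78) (nat_lit 228) (nat_lit 0) (XT.lf (nat_lit 0) (nat_lit 12518022530) (nat_lit 380) (nat_lit 10252767185) (nat_lit 76) (nat_lit 717945625) (nat_lit 160) (nat_lit 5) (nat_lit 165) (nat_lit 5) (nat_lit 161) (nat_lit 5) (nat_lit 451) (nat_lit 416) (nat_lit 333)) (XT.lf (nat_lit 0) (nat_lit 13831328827) (nat_lit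 228) (nat_lit 8464307076) (nat_lit 304) (nat_lit 1909841660) (nat_lit 157) (nat_lit 5) (nat_lit 160) (nat_lit 5) (nat_lit 161) (nat_lit 5) (nat_lit 452) (nat_lit 416) (nat_lit 332))))) (XT.nd (nat_lit 234) (nat_lit 988) (nat_lit 0) (XT.nd (nat_lit 78) (nat_lit 532) (nat_lit 0) (XT.lf (nat_lit 0) (nat_lit 7743429708) (nat_lit 380) (nat_lit 10465370226) (nat_lit 76) (nat_lit 6738433083) (nat_lit 152) (nat_lit 5) (nat_lit 157) (nat_lit 5) (nat_lit 153) (nat_lit 5) (nat_lit 453) (nat_lit 416) (nat_lit 331)) (XT.nd (nat_lit 78) (nat_lit 304) (nat_lit 0) (XT.lf (nat_lit 0) (nat_lit 15227633189) (nat_lit 228) (nat_lit 2928169771) (nat_lit 304) (nat_lit 7560229000) (nat_lit 149) (nat_lit 5) (nat_lit 152) (nat_lit 5) (nat_lit 153) (nat_lit 5) (nat_lit 454) (nat_lit 416) (nat_lit 330)) (XT.lf (nat_lit 0) (nat_lit 2884832732) (nat_lit 304) (nat_lit 10488357781) (nat_lit 76) (nat_lit 13138260373) (nat_lit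 145) (nat_lit 5) (nat_lit 149) (nat_lit 5) (nat_lit 146) (nat_lit 5) (nat_lit 455) (nat_lit 416) (nat_lit 329)))) (XT.nd (nat_lit 156) (nat_lit 532) (nat_lit 0) (XT.nd (nat_lit 78) (nat_lit 228) (nat_lit 0) (XT.lf (nat_lit 0) (nat_lit 14003926885) (nat_lit 304) (nat_lit 10442289511) (nat_lit 76) (nat_lit 2888935624) (nat_lit 142) (nat_lit 5) (nat_lit 146) (nat_lit 5) (nat_lit 143) (nat_lit 5) (nat_lit 456) (nat_lit 416) (nat_lit 328)) (XT.lf (nat_lit 0) (nat_lit 17840970189) (nat_lit 228) (nat_lit 8231231758) (nat_lit 304) (nat_lit 2116040400) (nat_lit 139) (nat_lit 5) (nat_lit 142) (nat_lit 5) (nat_lit 143) (nat_lit 5) (nat_lit 457) (nat_lit 416) (nat_lit 327))) (XT.nd (nat_lit 78) (nat_lit 228) (nat_lit 0) (XT.lf (nat_lit 0) (nat_lit 9828197082) (nat_lit 304) (nat_lit 10246345983) (nat_lit 76) (nat_lit 8995955481) (nat_lit 135) (nat_lit 5) (nat_lit 139) (nat_lit 5) (nat_lit 136) (nat_lit 5) (nat_lit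 458) (nat_lit 416) (nat_lit 326)) (XT.lf (nat_lit 0) (nat_lit 19924516086) (nat_lit 228) (nat_lit 2762734921) (nat_lit 304) (nat_lit 7298147807) (nat_lit 132) (nat_lit 5) (nat_lit 135) (nat_lit 5) (nat_lit 136) (nat_lit 5) (nat_lit 459) (nat_lit 416) (nat_lit 325))))))) (XT.nd (nat_lit 1014) (nat_lit 2128) (nat_lit 0) (XT.nd (nat_lit 468) (nat_lit 1292) (nat_lit 0) (XT.nd (nat_lit 234) (nat_lit 684) (nat_lit 0) (XT.nd (nat_lit 78) (nat_lit 456) (nat_lit 0) (XT.lf (nat_lit 0) (nat_lit 5582102158) (nat_lit 228) (nat_lit 9884893782) (nat_lit 76) (nat_lit 15464300800) (nat_lit 129) (nat_lit 5) (nat_lit 132) (nat_lit 5) (nat_lit 130) (nat_lit 5) (nat_lit 460) (nat_lit 416) (nat_lit 324)) (XT.nd (nat_lit 78) (nat_lit 228) (nat_lit 0) (XT.lf (nat_lit 0) (nat_lit 19312379287) (nat_lit 304) (nat_lit 9645385922) (nat_lit 76) (nat_lit 2953848754) (nat_lit 126) (nat_lit 5) (nat_lit 130) (nat_lit 5) (nat_lit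 127) (nat_lit 5) (nat_lit 461) (nat_lit 416) (nat_lit 323)) (XT.lf (nat_lit 0) (nat_lit 1243120794) (nat_lit 228) (nat_lit 9376751687) (nat_lit 76) (nat_lit 22306739561) (nat_lit 123) (nat_lit 5) (nat_lit 126) (nat_lit 5) (nat_lit 124) (nat_lit 5) (nat_lit 462) (nat_lit 416) (nat_lit 322)))) (XT.nd (nat_lit 78) (nat_lit 456) (nat_lit 0) (XT.lf (nat_lit 0) (nat_lit 15927704718) (nat_lit 304) (nat_lit 9124050841) (nat_lit 76) (nat_lit 8924542284) (nat_lit 120) (nat_lit 5) (nat_lit 124) (nat_lit 5) (nat_lit 121) (nat_lit 5) (nat_lit 463) (nat_lit 416) (nat_lit 321)) (XT.nd (nat_lit 78) (nat_lit 304) (nat_lit 0) (XT.lf (nat_lit 0) (nat_lit 26285120528) (nat_lit 152) (nat_lit 5499941547) (nat_lit 228) (nat_lit 3280250131) (nat_lit 118) (nat_lit 5) (nat_lit 120) (nat_lit 5) (nat_lit 121) (nat_lit 5) (nat_lit 464) (nat_lit 416) (nat_lit 320)) (XT.lf (nat_lit 0) (nat_lit 12481123440) (nat_lit 304) (nat_lit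 8501873602) (nat_lit 76) (nat_lit 15207459040) (nat_lit 114) (nat_lit 5) (nat_lit 118) (nat_lit 5) (nat_lit 115) (nat_lit 5) (nat_lit 465) (nat_lit 416) (nat_lit 319))))) (XT.nd (nat_lit 234) (nat_lit 760) (nat_lit 0) (XT.nd (nat_lit 78) (nat_lit 380) (nat_lit 0) (XT.lf (nat_lit 0) (nat_lit 29244647880) (nat_lit 152) (nat_lit 128677270) (nat_lit 228) (nat_lit 7985240195) (nat_lit 112) (nat_lit 5) (nat_lit 114) (nat_lit 5) (nat_lit 115) (nat_lit 5) (nat_lit 466) (nat_lit 416) (nat_lit 318)) (XT.nd (nat_lit 78) (nat_lit 152) (nat_lit 0) (XT.lf (nat_lit 0) (nat_lit 8940934398) (nat_lit 228) (nat_lit 7821289672) (nat_lit 76) (nat_lit 21802931086) (nat_lit 109) (nat_lit 5) (nat_lit 112) (nat_lit 5) (nat_lit 110) (nat_lit 5) (nat_lit 467) (nat_lit 416) (nat_lit 317)) (XT.lf (nat_lit 0) (nat_lit 26982422653) (nat_lit 228) (nat_lit 7467332044) (nat_lit 76) (nat_lit 5366923813) (nat_lit 107) (nat_lit 5)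 (nat_lit 110) (nat_lit 5) (nat_lit 108) (nat_lit 5) (nat_lit 468) (nat_lit 416) (nat_lit 316)))) (XT.nd (nat_lit 156) (nat_lit 380) (nat_lit 0) (XT.nd (nat_lit 78) (nat_lit 152) (nat_lit 0) (XT.lf (nat_lit 0) (nat_lit 5268047800) (nat_lit 228) (nat_lit 7138056416) (nat_lit 76) (nat_lit 28706299044) (nat_lit 104) (nat_lit 5) (nat_lit 107) (nat_lit 5) (nat_lit 105) (nat_lit 5) (nat_lit 469) (nat_lit 416) (nat_lit 315)) (XT.lf (nat_lit 0) (nat_lit 24525590041) (nat_lit 228) (nat_lit 6854896841) (nat_lit 76) (nat_lit 11073148956) (nat_lit 102) (nat_lit 5) (nat_lit 105) (nat_lit 5) (nat_lit 103) (nat_lit 5) (nat_lit 470) (nat_lit 416) (nat_lit 314))) (XT.nd (nat_lit 78) (nat_lit 152) (nat_lit 0) (XT.lf (nat_lit 0) (nat_lit 1414518960) (nat_lit 228) (nat_lit 6524152087) (nat_lit 76) (nat_lit 35906573690) (nat_lit 99) (nat_lit 5) (nat_lit 102) (nat_lit 5) (nat_lit 100) (nat_lit 5) (nat_lit 471) (nat_lit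 416) (nat_lit 313)) (XT.lf (nat_lit 0) (nat_lit 21954702826) (nat_lit 228) (nat_lit 6356872862) (nat_lit 76) (nat_lit 16971495481) (nat_lit 97) (nat_lit 5) (nat_lit 100) (nat_lit 5) (nat_lit 98) (nat_lit 5) (nat_lit 472) (nat_lit 416) (nat_lit 312)))))) (XT.nd (nat_lit 546) (nat_lit 988) (nat_lit 0) (XT.nd (nat_lit 234) (nat_lit 608) (nat_lit 0) (XT.nd (nat_lit 78) (nat_lit 380) (nat_lit 0) (XT.lf (nat_lit 0) (nat_lit 40679605291) (nat_lit 152) (nat_lit 3365981879) (nat_lit 228) (nat_lit 2731491357) (nat_lit 95) (nat_lit 5) (nat_lit 97) (nat_lit 5) (nat_lit 98) (nat_lit 5) (nat_lit 473) (nat_lit 416) (nat_lit 311)) (XT.nd (nat_lit 78) (nat_lit 152) (nat_lit 0) (XT.lf (nat_lit 0) (nat_lit 19211728800) (nat_lit 228) (nat_lit 6076383814) (nat_lit 76) (nat_lit 23031668584) (nat_lit 92) (nat_lit 5) (nat_lit 95) (nat_lit 5) (nat_lit 93) (nat_lit 5) (nat_lit 474) (nat_lit 416) (nat_lit 310)) (XT.lf (nat_lit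 0) (nat_lit 42713527414) (nat_lit 228) (nat_lit 5976148037) (nat_lit 76) (nat_lit 1233595252) (nat_lit 90) (nat_lit 5) (nat_lit 93) (nat_lit 5) (nat_lit 91) (nat_lit 4) (nat_lit 475) (nat_lit 416) (nat_lit 309)))) (XT.nd (nat_lit 156) (nat_lit 304) (nat_lit 0) (XT.nd (nat_lit 78) (nat_lit 152) (nat_lit 0) (XT.lf (nat_lit 0) (nat_lit 16225282854) (nat_lit 152) (nat_lit 6142619118) (nat_lit 76) (nat_lit 29211987554) (nat_lit 88) (nat_lit 5) (nat_lit 90) (nat_lit 5) (nat_lit 89) (nat_lit 5) (nat_lit 476) (nat_lit 416) (nat_lit 308)) (XT.lf (nat_lit 0) (nat_lit 41241052737) (nat_lit 228) (nat_lit 6311178319) (nat_lit 76) (nat_lit 5748223961) (nat_lit 86) (nat_lit 5) (nat_lit 89) (nat_lit 5) (nat_lit 87) (nat_lit 4) (nat_lit 477) (nat_lit 416) (nat_lit 307))) (XT.nd (nat_lit 78) (nat_lit 152) (nat_lit 0) (XT.lf (nat_lit 0) (nat_lit 12908013681) (nat_lit 152) (nat_lit 6716089113) (nat_lit 76) (nat_lit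 35456887252) (nat_lit 84) (nat_lit 5) (nat_lit 86) (nat_lit 5) (nat_lit 85) (nat_lit 5) (nat_lit 478) (nat_lit 416) (nat_lit 306)) (XT.lf (nat_lit 0) (nat_lit 39507159338) (nat_lit 228) (nat_lit 7248765069) (nat_lit 76) (nat_lit 10172062679) (nat_lit 82) (nat_lit 5) (nat_lit 85) (nat_lit 5) (nat_lit 83) (nat_lit 4) (nat_lit 479) (nat_lit 416) (nat_lit 305))))) (XT.nd (nat_lit 234) (nat_lit 532) (nat_lit 0) (XT.nd (nat_lit 78) (nat_lit 304) (nat_lit 0) (XT.lf (nat_lit 0) (nat_lit 9153514628) (nat_lit 152) (nat_lit 7994839283) (nat_lit 76) (nat_lit 41693955281) (nat_lit 80) (nat_lit 5) (nat_lit 82) (nat_lit 5) (nat_lit 81) (nat_lit 5) (nat_lit 480) (nat_lit 416) (nat_lit 304)) (XT.nd (nat_lit 78) (nat_lit 152) (nat_lit 0) (XT.lf (nat_lit 0) (nat_lit 37402948568) (nat_lit 228) (nat_lit 9008527007) (nat_lit 76) (nat_lit 14414497615) (nat_lit 78) (nat_lit 5) (nat_lit 81) (nat_lit 5) (nat_lit 79) (nat_lit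 4) (nat_lit 481) (nat_lit 416) (nat_lit 303)) (XT.lf (nat_lit 0) (nat_lit 4832675639) (nat_lit 152) (nat_lit 10221792028) (nat_lit 76) (nat_lit 47830422170) (nat_lit 76) (nat_lit 5) (nat_lit 78) (nat_lit 5) (nat_lit 77) (nat_lit 5) (nat_lit 482) (nat_lit 416) (nat_lit 302)))) (XT.nd (nat_lit 156) (nat_lit 304) (nat_lit 0) (XT.nd (nat_lit 78) (nat_lit 76) (nat_lit 0) (XT.lf (nat_lit 0) (nat_lit 34795346775) (nat_lit 228) (nat_lit 11859122850) (nat_lit 76) (nat_lit 18361967243) (nat_lit 74) (nat_lit 5) (nat_lit 77) (nat_lit 5) (nat_lit 75) (nat_lit 4) (nat_lit 483) (nat_lit 416) (nat_lit 301)) (XT.lf (nat_lit 0) (nat_lit 53536259767) (nat_lit 76) (nat_lit 13480665604) (nat_lit 152) (nat_lit 214812834) (nat_lit 73) (nat_lit 5) (nat_lit 74) (nat_lit 5) (nat_lit 75) (nat_lit 4) (nat_lit 484) (nat_lit 416) (nat_lit 300))) (XT.nd (nat_lit 78) (nat_lit 76) (nat_lit 0) (XT.lf (nat_lit 0) (nat_lit 31522472712)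 (nat_lit 228) (nat_lit 16127665746) (nat_lit 76) (nat_lit 21873403149) (nat_lit 70) (nat_lit 5) (nat_lit 73) (nat_lit 5) (nat_lit 71) (nat_lit 4) (nat_lit 485) (nat_lit 416) (nat_lit 299)) (XT.lf (nat_lit 0) (nat_lit 53076183884) (nat_lit 76) (nat_lit 12543111363) (nat_lit 152) (nat_lit 6287262817) (nat_lit 69) (nat_lit 5) (nat_lit 70) (nat_lit 5) (nat_lit 71) (nat_lit 4) (nat_lit 486) (nat_lit 416) (nat_lit 298))))))))
noncomputable def xc76 : XT := (XT.nd (nat_lit 58266) (nat_lit 0) (nat_lit 6308) (XT.nd (nat_lit 57252) (nat_lit 0) (nat_lit 16264) (XT.nd (nat_lit 468) (nat_lit 532) (nat_lit 0) (XT.nd (nat_lit 234) (nat_lit 304) (nat_lit 0) (XT.nd (nat_lit 78) (nat_lit 228) (nat_lit 0) (XT.lf (nat_lit 0) (nat_lit 27388173268) (nat_lit 228) (nat_lit 22210824590) (nat_lit 76) (nat_lit 24774846513) (nat_lit 66) (nat_lit 5) (nat_lit 69) (nat_lit 5) (nat_lit 67) (nat_lit 4) (nat_lit 487) (nat_lit 416)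 (nat_lit 297)) (XT.nd (nat_lit 78) (nat_lit 152) (nat_lit 0) (XT.lf (nat_lit 0) (nat_lit 50921198671) (nat_lit 76) (nat_lit 12498111111) (nat_lit 152) (nat_lit 13519259075) (nat_lit 65) (nat_lit 5) (nat_lit 66) (nat_lit 5) (nat_lit 67) (nat_lit 4) (nat_lit 488) (nat_lit 416) (nat_lit 296)) (XT.lf (nat_lit 0) (nat_lit 22155582992) (nat_lit 152) (nat_lit 30587905833) (nat_lit 76) (nat_lit 26853095910) (nat_lit 63) (nat_lit 5) (nat_lit 65) (nat_lit 5) (nat_lit 64) (nat_lit 4) (nat_lit 489) (nat_lit 416) (nat_lit 295)))) (XT.nd (nat_lit 78) (nat_lit 228) (nat_lit 0) (XT.lf (nat_lit 0) (nat_lit 46573203858) (nat_lit 76) (nat_lit 13597629540) (nat_lit 152) (nat_lit 22187564546) (nat_lit 62) (nat_lit 5) (nat_lit 63) (nat_lit 5) (nat_lit 64) (nat_lit 4) (nat_lit 490) (nat_lit 416) (nat_lit 294)) (XT.nd (nat_lit 78) (nat_lit 76) (nat_lit 0) (XT.lf (nat_lit 0) (nat_lit 15539538022) (nat_lit 152) (nat_lit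 41836259750) (nat_lit 76) (nat_lit 27848217367) (nat_lit 60) (nat_lit 5) (nat_lit 62) (nat_lit 5) (nat_lit 61) (nat_lit 4) (nat_lit 491) (nat_lit 416) (nat_lit 293)) (XT.lf (nat_lit 0) (nat_lit 39430025680) (nat_lit 76) (nat_lit 16146437587) (nat_lit 152) (nat_lit 32623389451) (nat_lit 59) (nat_lit 5) (nat_lit 60) (nat_lit 5) (nat_lit 61) (nat_lit 4) (nat_lit 492) (nat_lit 416) (nat_lit 292))))) (XT.nd (nat_lit 312) (nat_lit 228) (nat_lit 0) (XT.nd (nat_lit 78) (nat_lit 152) (nat_lit 0) (XT.lf (nat_lit 0) (nat_lit 7197646014) (nat_lit 152) (nat_lit 56649414104) (nat_lit 76) (nat_lit 27444718578) (nat_lit 57) (nat_lit 5) (nat_lit 59) (nat_lit 5) (nat_lit 58) (nat_lit 4) (nat_lit 493) (nat_lit 416) (nat_lit 291)) (XT.nd (nat_lit 78) (nat_lit 76) (nat_lit 0) (XT.lf (nat_lit 0) (nat_lit 28766054068) (nat_lit 76) (nat_lit 20511939508) (nat_lit 152) (nat_lit 45222328510) (nat_lit 56) (nat_lit 5) (nat_lit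 57) (nat_lit 5) (nat_lit 58) (nat_lit 4) (nat_lit 494) (nat_lit 416) (nat_lit 290)) (XT.lf (nat_lit 0) (nat_lit 21947811136) (nat_lit 76) (nat_lit 72545062962) (nat_lit 76) (nat_lit 3345503168) (nat_lit 55) (nat_lit 4) (nat_lit 56) (nat_lit 5) (nat_lit 56) (nat_lit 4) (nat_lit 495) (nat_lit 416) (nat_lit 289)))) (XT.nd (nat_lit 56316) (nat_lit 0) (nat_lit 20900) (XT.nd (nat_lit 56238) (nat_lit 0) (nat_lit 21964) (XT.lf (nat_lit 0) (nat_lit 4288170443) (nat_lit 76) (nat_lit 83907144797) (nat_lit 76) (nat_lit 16710357755) (nat_lit 52) (nat_lit 4) (nat_lit 53) (nat_lit 5) (nat_lit 53) (nat_lit 4) (nat_lit 497) (nat_lit 416) (nat_lit 287)) (XT.lf (nat_lit 0) (nat_lit 3697594906) (nat_lit 1140) (nat_lit 604897199) (nat_lit 1140) (nat_lit 604897199) (nat_lit 341) (nat_lit 3) (nat_lit 356) (nat_lit 3) (nat_lit 356) (nat_lit 5) (nat_lit 417) (nat_lit 417) (nat_lit 366))) (XT.nd (nat_lit 78) (nat_lit 1064)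 (nat_lit 0) (XT.lf (nat_lit 76) (nat_lit 7036745075) (nat_lit 0) (nat_lit 1810778560) (nat_lit 1140) (nat_lit 1174479530) (nat_lit 342) (nat_lit 5) (nat_lit 341) (nat_lit 3) (nat_lit 356) (nat_lit 5) (nat_lit 418) (nat_lit 417) (nat_lit 365)) (XT.lf (nat_lit 0) (nat_lit 170404835) (nat_lit 1140) (nat_lit 4745494061) (nat_lit 1216) (nat_lit 5322455890) (nat_lit 327) (nat_lit 5) (nat_lit 342) (nat_lit 5) (nat_lit 343) (nat_lit 5) (nat_lit 419) (nat_lit 417) (nat_lit 364)))))) (XT.nd (nat_lit 468) (nat_lit 4712) (nat_lit 0) (XT.nd (nat_lit 234) (nat_lit 0) (nat_lit 152) (XT.nd (nat_lit 78) (nat_lit 0) (nat_lit 0) (XT.lf (nat_lit 0) (nat_lit 1595197807) (nat_lit 1140) (nat_lit 6491133315) (nat_lit 1216) (nat_lit 2377742556) (nat_lit 328) (nat_lit 5) (nat_lit 343) (nat_lit 5) (nat_lit 344) (nat_lit 5) (nat_lit 420) (nat_lit 417) (nat_lit 363)) (XT.nd (nat_lit 78) (nat_lit 0) (nat_lit 76) (XT.lf (nat_lit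 76) (nat_lit 2480699463) (nat_lit 0) (nat_lit 662428391) (nat_lit 1216) (nat_lit 7556400573) (nat_lit 329) (nat_lit 5) (nat_lit 328) (nat_lit 5) (nat_lit 344) (nat_lit 5) (nat_lit 421) (nat_lit 417) (nat_lit 362)) (XT.lf (nat_lit 76) (nat_lit 996778160) (nat_lit 0) (nat_lit 3849602345) (nat_lit 1216) (nat_lit 6098044139) (nat_lit 330) (nat_lit 5) (nat_lit 329) (nat_lit 5) (nat_lit 345) (nat_lit 5) (nat_lit 422) (nat_lit 417) (nat_lit 361)))) (XT.nd (nat_lit 78) (nat_lit 0) (nat_lit 76) (XT.lf (nat_lit 0) (nat_lit 6700847163) (nat_lit 1140) (nat_lit 446575711) (nat_lit 1216) (nat_lit 4052167456) (nat_lit 330) (nat_lit 5) (nat_lit 345) (nat_lit 5) (nat_lit 346) (nat_lit 5) (nat_lit 423) (nat_lit 417) (nat_lit 360)) (XT.nd (nat_lit 78) (nat_lit 0) (nat_lit 0) (XT.lf (nat_lit 0) (nat_lit 8726696209) (nat_lit 1140) (nat_lit 1839647008) (nat_lit 1216) (nat_lit 898817220) (nat_lit 331) (nat_lit 5) (nat_lit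 346) (nat_lit 5) (nat_lit 347) (nat_lit 5) (nat_lit 424) (nat_lit 417) (nat_lit 359)) (XT.lf (nat_lit 76) (nat_lit 8515877361) (nat_lit 0) (nat_lit 2437660782) (nat_lit 1216) (nat_lit 787485516) (nat_lit 332) (nat_lit 5) (nat_lit 331) (nat_lit 5) (nat_lit 347) (nat_lit 5) (nat_lit 425) (nat_lit 417) (nat_lit 358))))) (XT.nd (nat_lit 234) (nat_lit 2660) (nat_lit 0) (XT.nd (nat_lit 78) (nat_lit 1140) (nat_lit 0) (XT.lf (nat_lit 0) (nat_lit 1330161164) (nat_lit 1216) (nat_lit 4602403662) (nat_lit 1292) (nat_lit 6094944965) (nat_lit 316) (nat_lit 5) (nat_lit 332) (nat_lit 5) (nat_lit 333) (nat_lit 5) (nat_lit 426) (nat_lit 417) (nat_lit 357)) (XT.nd (nat_lit 78) (nat_lit 1216) (nat_lit 0) (XT.lf (nat_lit 0) (nat_lit 3629293035) (nat_lit 1216) (nat_lit 5958252898) (nat_lit 76) (nat_lit 2737788665) (nat_lit 317) (nat_lit 5) (nat_lit 333) (nat_lit 5) (nat_lit 318) (nat_lit 5) (nat_lit 427) (nat_lit 417)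 (nat_lit 356)) (XT.lf (nat_lit 0) (nat_lit 5343013273) (nat_lit 1216) (nat_lit 807015613) (nat_lit 1292) (nat_lit 6484827056) (nat_lit 301) (nat_lit 5) (nat_lit 317) (nat_lit 5) (nat_lit 318) (nat_lit 5) (nat_lit 428) (nat_lit 417) (nat_lit 355)))) (XT.nd (nat_lit 156) (nat_lit 1216) (nat_lit 0) (XT.nd (nat_lit 78) (nat_lit 608) (nat_lit 0) (XT.lf (nat_lit 0) (nat_lit 4333161284) (nat_lit 836) (nat_lit 4597795211) (nat_lit 912) (nat_lit 4024876700) (nat_lit 290) (nat_lit 5) (nat_lit 301) (nat_lit 5) (nat_lit 302) (nat_lit 5) (nat_lit 429) (nat_lit 417) (nat_lit 354)) (XT.lf (nat_lit 0) (nat_lit 3367232910) (nat_lit 608) (nat_lit 8596547443) (nat_lit 684) (nat_lit 1325697742) (nat_lit 282) (nat_lit 5) (nat_lit 290) (nat_lit 5) (nat_lit 291) (nat_lit 5) (nat_lit 430) (nat_lit 417) (nat_lit 353))) (XT.nd (nat_lit 78) (nat_lit 532) (nat_lit 0) (XT.lf (nat_lit 0) (nat_lit 1599768629) (nat_lit 684) (nat_lit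 11204205377) (nat_lit 76) (nat_lit 831777282) (nat_lit 273) (nat_lit 5) (nat_lit 282) (nat_lit 5) (nat_lit 274) (nat_lit 5) (nat_lit 431) (nat_lit 417) (nat_lit 352)) (XT.lf (nat_lit 0) (nat_lit 1496523226) (nat_lit 532) (nat_lit 3307049052) (nat_lit 608) (nat_lit 9190591416) (nat_lit 266) (nat_lit 5) (nat_lit 273) (nat_lit 5) (nat_lit 274) (nat_lit 5) (nat_lit 432) (nat_lit 417) (nat_lit 351))))))) (XT.nd (nat_lit 1014) (nat_lit 4256) (nat_lit 0) (XT.nd (nat_lit 468) (nat_lit 3040) (nat_lit 0) (XT.nd (nat_lit 234) (nat_lit 1444) (nat_lit 0) (XT.nd (nat_lit 78) (nat_lit 608) (nat_lit 0) (XT.lf (nat_lit 0) (nat_lit 600286728) (nat_lit 608) (nat_lit 7710227880) (nat_lit 684) (nat_lit 6055697246) (nat_lit 258) (nat_lit 5) (nat_lit 266) (nat_lit 5) (nat_lit 267) (nat_lit 5) (nat_lit 433) (nat_lit 417) (nat_lit 350)) (XT.nd (nat_lit 78) (nat_lit 608) (nat_lit 0) (XT.lf (nat_lit 0) (nat_lit 12136073327)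 (nat_lit 684) (nat_lit 240627293) (nat_lit 76) (nat_lit 2375867142) (nat_lit 258) (nat_lit 5) (nat_lit 267) (nat_lit 5) (nat_lit 259) (nat_lit 5) (nat_lit 434) (nat_lit 417) (nat_lit 349)) (XT.lf (nat_lit 0) (nat_lit 1150717161) (nat_lit 608) (nat_lit 1049123012) (nat_lit 76) (nat_lit 12952853864) (nat_lit 250) (nat_lit 5) (nat_lit 258) (nat_lit 5) (nat_lit 251) (nat_lit 5) (nat_lit 435) (nat_lit 417) (nat_lit 348)))) (XT.nd (nat_lit 78) (nat_lit 912) (nat_lit 0) (XT.lf (nat_lit 0) (nat_lit 5232280374) (nat_lit 608) (nat_lit 1855109818) (nat_lit 76) (nat_lit 8479259143) (nat_lit 243) (nat_lit 5) (nat_lit 251) (nat_lit 5) (nat_lit 244) (nat_lit 5) (nat_lit 436) (nat_lit 417) (nat_lit 347)) (XT.nd (nat_lit 78) (nat_lit 456) (nat_lit 0) (XT.lf (nat_lit 0) (nat_lit 9679238857) (nat_lit 532) (nat_lit 2605780384) (nat_lit 76) (nat_lit 3711446509) (nat_lit 237) (nat_lit 5) (nat_lit 244) (nat_lit 5) (nat_lit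 238) (nat_lit 5) (nat_lit 437) (nat_lit 417) (nat_lit 346)) (XT.lf (nat_lit 0) (nat_lit 13132333750) (nat_lit 456) (nat_lit 1397329606) (nat_lit 532) (nat_lit 1912678818) (nat_lit 231) (nat_lit 5) (nat_lit 237) (nat_lit 5) (nat_lit 238) (nat_lit 5) (nat_lit 438) (nat_lit 417) (nat_lit 345))))) (XT.nd (nat_lit 234) (nat_lit 1672) (nat_lit 0) (XT.nd (nat_lit 78) (nat_lit 836) (nat_lit 0) (XT.lf (nat_lit 0) (nat_lit 2874289403) (nat_lit 532) (nat_lit 4017206381) (nat_lit 76) (nat_lit 10011783583) (nat_lit 224) (nat_lit 5) (nat_lit 231) (nat_lit 5) (nat_lit 225) (nat_lit 5) (nat_lit 439) (nat_lit 417) (nat_lit 344)) (XT.nd (nat_lit 78) (nat_lit 380) (nat_lit 0) (XT.lf (nat_lit 0) (nat_lit 8044363475) (nat_lit 532) (nat_lit 4680077292) (nat_lit 76) (nat_lit 4656757498) (nat_lit 218) (nat_lit 5) (nat_lit 225) (nat_lit 5) (nat_lit 219) (nat_lit 5) (nat_lit 440) (nat_lit 417) (nat_lit 343)) (XT.lf (nat_lit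 0) (nat_lit 12591822376) (nat_lit 380) (nat_lit 1080855520) (nat_lit 456) (nat_lit 4204345400) (nat_lit 213) (nat_lit 5) (nat_lit 218) (nat_lit 5) (nat_lit 219) (nat_lit 5) (nat_lit 441) (nat_lit 417) (nat_lit 342)))) (XT.nd (nat_lit 156) (nat_lit 760) (nat_lit 0) (XT.nd (nat_lit 78) (nat_lit 380) (nat_lit 0) (XT.lf (nat_lit 0) (nat_lit 1408706657) (nat_lit 532) (nat_lit 5879535031) (nat_lit 76) (nat_lit 11101646628) (nat_lit 206) (nat_lit 5) (nat_lit 213) (nat_lit 5) (nat_lit 207) (nat_lit 5) (nat_lit 442) (nat_lit 417) (nat_lit 341)) (XT.lf (nat_lit 0) (nat_lit 7421411961) (nat_lit 456) (nat_lit 6442629484) (nat_lit 76) (nat_lit 5056929755) (nat_lit 201) (nat_lit 5) (nat_lit 207) (nat_lit 5) (nat_lit 202) (nat_lit 5) (nat_lit 443) (nat_lit 417) (nat_lit 340))) (XT.nd (nat_lit 78) (nat_lit 380) (nat_lit 0) (XT.lf (nat_lit 0) (nat_lit 12530331463) (nat_lit 380) (nat_lit 1429818830) (nat_lit 456)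 (nat_lit 5511697921) (nat_lit 196) (nat_lit 5) (nat_lit 201) (nat_lit 5) (nat_lit 202) (nat_lit 5) (nat_lit 444) (nat_lit 417) (nat_lit 339)) (XT.lf (nat_lit 0) (nat_lit 1034478595) (nat_lit 380) (nat_lit 7419700457) (nat_lit 76) (nat_lit 11587646468) (nat_lit 191) (nat_lit 5) (nat_lit 196) (nat_lit 5) (nat_lit 192) (nat_lit 5) (nat_lit 445) (nat_lit 417) (nat_lit 338)))))) (XT.nd (nat_lit 546) (nat_lit 1900) (nat_lit 0) (XT.nd (nat_lit 234) (nat_lit 1292) (nat_lit 0) (XT.nd (nat_lit 78) (nat_lit 684) (nat_lit 0) (XT.lf (nat_lit 0) (nat_lit 8023169528) (nat_lit 456) (nat_lit 7868823107) (nat_lit 76) (nat_lit 4739797730) (nat_lit 186) (nat_lit 5) (nat_lit 192) (nat_lit 5) (nat_lit 187) (nat_lit 5) (nat_lit 446) (nat_lit 417) (nat_lit 337)) (XT.nd (nat_lit 78) (nat_lit 380) (nat_lit 0) (XT.lf (nat_lit 0) (nat_lit 12989422157) (nat_lit 304) (nat_lit 2631991803) (nat_lit 380) (nat_lit 5622037533) (nat_lit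 182) (nat_lit 5) (nat_lit 186) (nat_lit 5) (nat_lit 187) (nat_lit 5) (nat_lit 447) (nat_lit 417) (nat_lit 336)) (XT.lf (nat_lit 0) (nat_lit 1974958758) (nat_lit 380) (nat_lit 8613080771) (nat_lit 76) (nat_lit 11288327563) (nat_lit 177) (nat_lit 5) (nat_lit 182) (nat_lit 5) (nat_lit 178) (nat_lit 5) (nat_lit 448) (nat_lit 417) (nat_lit 335)))) (XT.nd (nat_lit 156) (nat_lit 684) (nat_lit 0) (XT.nd (nat_lit 78) (nat_lit 304) (nat_lit 0) (XT.lf (nat_lit 0) (nat_lit 10088728289) (nat_lit 380) (nat_lit 8932428229) (nat_lit 76) (nat_lit 3510507587) (nat_lit 173) (nat_lit 5) (nat_lit 178) (nat_lit 5) (nat_lit 174) (nat_lit 5) (nat_lit 449) (nat_lit 417) (nat_lit 334)) (XT.lf (nat_lit 0) (nat_lit 14013448908) (nat_lit 304) (nat_lit 4900870487) (nat_lit 380) (nat_lit 4296223929) (nat_lit 169) (nat_lit 5) (nat_lit 173) (nat_lit 5) (nat_lit 174) (nat_lit 5) (nat_lit 450) (nat_lit 417) (nat_lit 333))) (XT.nd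 (nat_lit 78) (nat_lit 304) (nat_lit 0) (XT.lf (nat_lit 0) (nat_lit 4481358627) (nat_lit 380) (nat_lit 9435334273) (nat_lit 76) (nat_lit 9996248373) (nat_lit 164) (nat_lit 5) (nat_lit 169) (nat_lit 5) (nat_lit 165) (nat_lit 5) (nat_lit 451) (nat_lit 417) (nat_lit 332)) (XT.lf (nat_lit 0) (nat_lit 13887035813) (nat_lit 380) (nat_lit 9608295944) (nat_lit 76) (nat_lit 1145510406) (nat_lit 160) (nat_lit 5) (nat_lit 165) (nat_lit 5) (nat_lit 161) (nat_lit 5) (nat_lit 452) (nat_lit 417) (nat_lit 331))))) (XT.nd (nat_lit 234) (nat_lit 1064) (nat_lit 0) (XT.nd (nat_lit 78) (nat_lit 608) (nat_lit 0) (XT.lf (nat_lit 0) (nat_lit 15646836554) (nat_lit 228) (nat_lit 8482111019) (nat_lit 304) (nat_lit 1265213135) (nat_lit 157) (nat_lit 5) (nat_lit 160) (nat_lit 5) (nat_lit 161) (nat_lit 5) (nat_lit 453) (nat_lit 417) (nat_lit 330)) (XT.nd (nat_lit 78) (nat_lit 228) (nat_lit 0) (XT.lf (nat_lit 0) (nat_lit 8836236577)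 (nat_lit 380) (nat_lit 9865652779) (nat_lit 76) (nat_lit 7471504039) (nat_lit 152) (nat_lit 5) (nat_lit 157) (nat_lit 5) (nat_lit 153) (nat_lit 5) (nat_lit 454) (nat_lit 417) (nat_lit 329)) (XT.lf (nat_lit 0) (nat_lit 17079810640) (nat_lit 228) (nat_lit 2666301563) (nat_lit 304) (nat_lit 7235215105) (nat_lit 149) (nat_lit 5) (nat_lit 152) (nat_lit 5) (nat_lit 153) (nat_lit 5) (nat_lit 455) (nat_lit 417) (nat_lit 328)))) (XT.nd (nat_lit 156) (nat_lit 532) (nat_lit 0) (XT.nd (nat_lit 78) (nat_lit 228) (nat_lit 0) (XT.lf (nat_lit 0) (nat_lit 3699773782) (nat_lit 304) (nat_lit 9923764387) (nat_lit 76) (nat_lit 14193335913) (nat_lit 145) (nat_lit 5) (nat_lit 149) (nat_lit 5) (nat_lit 146) (nat_lit 5) (nat_lit 456) (nat_lit 417) (nat_lit 327)) (XT.lf (nat_lit 0) (nat_lit 15356983014) (nat_lit 304) (nat_lit 9891044358) (nat_lit 76) (nat_lit 3434269442) (nat_lit 142) (nat_lit 5) (nat_lit 146) (nat_lit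 5) (nat_lit 143) (nat_lit 5) (nat_lit 457) (nat_lit 417) (nat_lit 326))) (XT.nd (nat_lit 78) (nat_lit 304) (nat_lit 0) (XT.lf (nat_lit 0) (nat_lit 19775610689) (nat_lit 228) (nat_lit 8231994611) (nat_lit 304) (nat_lit 1571069639) (nat_lit 139) (nat_lit 5) (nat_lit 142) (nat_lit 5) (nat_lit 143) (nat_lit 5) (nat_lit 458) (nat_lit 417) (nat_lit 325)) (XT.lf (nat_lit 0) (nat_lit 10941067239) (nat_lit 304) (nat_lit 9718965087) (nat_lit 76) (nat_lit 9845323548) (nat_lit 135) (nat_lit 5) (nat_lit 139) (nat_lit 5) (nat_lit 136) (nat_lit 5) (nat_lit 459) (nat_lit 417) (nat_lit 324))))))))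
noncomputable def xc77 : XT := (XT.nd (nat_lit 2028) (nat_lit 1444) (nat_lit 0) (XT.nd (nat_lit 1014) (nat_lit 2052) (nat_lit 0) (XT.nd (nat_lit 468) (nat_lit 1444) (nat_lit 0) (XT.nd (nat_lit 234) (nat_lit 608) (nat_lit 0) (XT.nd (nat_lit 78) (nat_lit 456) (nat_lit 0) (XT.lf (nat_lit 0) (nat_lit 21930637346) (nat_lit 228) (nat_lit 2492550901) (nat_lit 304) (nat_lit 7043410612) (nat_lit 132) (nat_lit 5) (nat_lit 135) (nat_lit 5) (nat_lit 136) (nat_lit 5) (nat_lit 460) (nat_lit 417) (nat_lit 323)) (XT.nd (nat_lit 78) (nat_lit 228) (nat_lit 0) (XT.lf (nat_lit 0) (nat_lit 6453260591) (nat_lit 228) (nat_lit 9372648087) (nat_lit 76) (nat_lit 16634170350) (nat_lit 129) (nat_lit 5) (nat_lit 132) (nat_lit 5) (nat_lit 130) (nat_lit 5) (nat_lit 461) (nat_lit 417) (nat_lit 322)) (XT.lf (nat_lit 0) (nat_lit 20855143394) (nat_lit 304) (nat_lit 9136685150) (nat_lit 76) (nat_lit 3498031811) (nat_lit 126) (nat_lit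 5) (nat_lit 130) (nat_lit 5) (nat_lit 127) (nat_lit 5) (nat_lit 462) (nat_lit 417) (nat_lit 321)))) (XT.nd (nat_lit 78) (nat_lit 380) (nat_lit 0) (XT.lf (nat_lit 0) (nat_lit 1869744070) (nat_lit 228) (nat_lit 8871772708) (nat_lit 76) (nat_lit 23814473401) (nat_lit 123) (nat_lit 5) (nat_lit 126) (nat_lit 5) (nat_lit 124) (nat_lit 5) (nat_lit 463) (nat_lit 417) (nat_lit 320)) (XT.nd (nat_lit 78) (nat_lit 152) (nat_lit 0) (XT.lf (nat_lit 0) (nat_lit 17274607954) (nat_lit 304) (nat_lit 8621770658) (nat_lit 76) (nat_lit 9762201013) (nat_lit 120) (nat_lit 5) (nat_lit 124) (nat_lit 5) (nat_lit 121) (nat_lit 5) (nat_lit 464) (nat_lit 417) (nat_lit 319)) (XT.lf (nat_lit 0) (nat_lit 28530384564) (nat_lit 152) (nat_lit 5377182890) (nat_lit 228) (nat_lit 2894996060) (nat_lit 118) (nat_lit 5) (nat_lit 120) (nat_lit 5) (nat_lit 121) (nat_lit 5) (nat_lit 465) (nat_lit 417) (nat_lit 318))))) (XT.nd (nat_lit 234)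 (nat_lit 760) (nat_lit 0) (XT.nd (nat_lit 78) (nat_lit 380) (nat_lit 0) (XT.lf (nat_lit 0) (nat_lit 13630654219) (nat_lit 304) (nat_lit 8000331600) (nat_lit 76) (nat_lit 16353213356) (nat_lit 114) (nat_lit 5) (nat_lit 118) (nat_lit 5) (nat_lit 115) (nat_lit 5) (nat_lit 466) (nat_lit 417) (nat_lit 317)) (XT.nd (nat_lit 78) (nat_lit 228) (nat_lit 0) (XT.lf (nat_lit 0) (nat_lit 31353554947) (nat_lit 228) (nat_lit 7606711095) (nat_lit 76) (nat_lit 250865929) (nat_lit 112) (nat_lit 5) (nat_lit 115) (nat_lit 5) (nat_lit 113) (nat_lit 5) (nat_lit 467) (nat_lit 417) (nat_lit 316)) (XT.lf (nat_lit 0) (nat_lit 9889867192) (nat_lit 228) (nat_lit 7316879471) (nat_lit 76) (nat_lit 23271596043) (nat_lit 109) (nat_lit 5) (nat_lit 112) (nat_lit 5) (nat_lit 110) (nat_lit 5) (nat_lit 468) (nat_lit 417) (nat_lit 315)))) (XT.nd (nat_lit 156) (nat_lit 380) (nat_lit 0) (XT.nd (nat_lit 78) (nat_lit 228) (nat_lit 0) (XT.lf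 (nat_lit 0) (nat_lit 28821577667) (nat_lit 228) (nat_lit 6959975187) (nat_lit 76) (nat_lit 6011245589) (nat_lit 107) (nat_lit 5) (nat_lit 110) (nat_lit 5) (nat_lit 108) (nat_lit 5) (nat_lit 469) (nat_lit 417) (nat_lit 314)) (XT.lf (nat_lit 0) (nat_lit 6011086818) (nat_lit 228) (nat_lit 6629923832) (nat_lit 76) (nat_lit 30512611677) (nat_lit 104) (nat_lit 5) (nat_lit 107) (nat_lit 5) (nat_lit 105) (nat_lit 5) (nat_lit 470) (nat_lit 417) (nat_lit 313))) (XT.nd (nat_lit 78) (nat_lit 228) (nat_lit 0) (XT.lf (nat_lit 0) (nat_lit 26220351470) (nat_lit 228) (nat_lit 6347052951) (nat_lit 76) (nat_lit 11994847324) (nat_lit 102) (nat_lit 5) (nat_lit 105) (nat_lit 5) (nat_lit 103) (nat_lit 5) (nat_lit 471) (nat_lit 417) (nat_lit 312)) (XT.lf (nat_lit 0) (nat_lit 1943867037) (nat_lit 228) (nat_lit 6015014869) (nat_lit 76) (nat_lit 38064855838) (nat_lit 99) (nat_lit 5) (nat_lit 102) (nat_lit 5) (nat_lit 100)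 (nat_lit 5) (nat_lit 472) (nat_lit 417) (nat_lit 311)))))) (XT.nd (nat_lit 468) (nat_lit 1064) (nat_lit 0) (XT.nd (nat_lit 234) (nat_lit 456) (nat_lit 0) (XT.nd (nat_lit 78) (nat_lit 380) (nat_lit 0) (XT.lf (nat_lit 0) (nat_lit 23500546690) (nat_lit 228) (nat_lit 5853495204) (nat_lit 76) (nat_lit 18179729509) (nat_lit 97) (nat_lit 5) (nat_lit 100) (nat_lit 5) (nat_lit 98) (nat_lit 5) (nat_lit 473) (nat_lit 417) (nat_lit 310)) (XT.nd (nat_lit 78) (nat_lit 228) (nat_lit 0) (XT.lf (nat_lit 0) (nat_lit 43511266714) (nat_lit 152) (nat_lit 3171037827) (nat_lit 228) (nat_lit 2420585189) (nat_lit 95) (nat_lit 5) (nat_lit 97) (nat_lit 5) (nat_lit 98) (nat_lit 5) (nat_lit 474) (nat_lit 417) (nat_lit 309)) (XT.lf (nat_lit 0) (nat_lit 20601141392) (nat_lit 228) (nat_lit 5587566644) (nat_lit 76) (nat_lit 24534188577) (nat_lit 92) (nat_lit 5) (nat_lit 95) (nat_lit 5) (nat_lit 93) (nat_lit 5) (nat_lit 475) (nat_lit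 417) (nat_lit 308)))) (XT.nd (nat_lit 78) (nat_lit 304) (nat_lit 0) (XT.lf (nat_lit 0) (nat_lit 45268414454) (nat_lit 228) (nat_lit 5495961108) (nat_lit 76) (nat_lit 1642473916) (nat_lit 90) (nat_lit 5) (nat_lit 93) (nat_lit 5) (nat_lit 91) (nat_lit 4) (nat_lit 476) (nat_lit 417) (nat_lit 307)) (XT.nd (nat_lit 78) (nat_lit 152) (nat_lit 0) (XT.lf (nat_lit 0) (nat_lit 17447101625) (nat_lit 152) (nat_lit 5684906814) (nat_lit 76) (nat_lit 31014551120) (nat_lit 88) (nat_lit 5) (nat_lit 90) (nat_lit 5) (nat_lit 89) (nat_lit 5) (nat_lit 477) (nat_lit 417) (nat_lit 306)) (XT.lf (nat_lit 0) (nat_lit 43704565348) (nat_lit 228) (nat_lit 5875180420) (nat_lit 76) (nat_lit 6373680768) (nat_lit 86) (nat_lit 5) (nat_lit 89) (nat_lit 5) (nat_lit 87) (nat_lit 4) (nat_lit 478) (nat_lit 417) (nat_lit 305))))) (XT.nd (nat_lit 234) (nat_lit 608) (nat_lit 0) (XT.nd (nat_lit 78) (nat_lit 304) (nat_lit 0) (XT.lf (nat_lit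 0) (nat_lit 13946636527) (nat_lit 152) (nat_lit 6314047216) (nat_lit 76) (nat_lit 37562552270) (nat_lit 84) (nat_lit 5) (nat_lit 86) (nat_lit 5) (nat_lit 85) (nat_lit 5) (nat_lit 479) (nat_lit 417) (nat_lit 304)) (XT.nd (nat_lit 78) (nat_lit 152) (nat_lit 0) (XT.lf (nat_lit 0) (nat_lit 41867127123) (nat_lit 228) (nat_lit 6886282244) (nat_lit 76) (nat_lit 11009432234) (nat_lit 82) (nat_lit 5) (nat_lit 85) (nat_lit 5) (nat_lit 83) (nat_lit 4) (nat_lit 480) (nat_lit 417) (nat_lit 303)) (XT.lf (nat_lit 0) (nat_lit 9987953873) (nat_lit 152) (nat_lit 7682935502) (nat_lit 76) (nat_lit 44102226319) (nat_lit 80) (nat_lit 5) (nat_lit 82) (nat_lit 5) (nat_lit 81) (nat_lit 5) (nat_lit 481) (nat_lit 417) (nat_lit 302)))) (XT.nd (nat_lit 156) (nat_lit 304) (nat_lit 0) (XT.nd (nat_lit 78) (nat_lit 152) (nat_lit 0) (XT.lf (nat_lit 0) (nat_lit 39641694666) (nat_lit 228) (nat_lit 8759868611) (nat_lit 76) (nat_lit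 15454644848) (nat_lit 78) (nat_lit 5) (nat_lit 81) (nat_lit 5) (nat_lit 79) (nat_lit 4) (nat_lit 482) (nat_lit 417) (nat_lit 301)) (XT.lf (nat_lit 0) (nat_lit 5435428891) (nat_lit 152) (nat_lit 10046643693) (nat_lit 76) (nat_lit 50536222832) (nat_lit 76) (nat_lit 5) (nat_lit 78) (nat_lit 5) (nat_lit 77) (nat_lit 5) (nat_lit 483) (nat_lit 417) (nat_lit 300))) (XT.nd (nat_lit 78) (nat_lit 152) (nat_lit 0) (XT.lf (nat_lit 0) (nat_lit 36888484727) (nat_lit 228) (nat_lit 11778036787) (nat_lit 76) (nat_lit 19590131004) (nat_lit 74) (nat_lit 5) (nat_lit 77) (nat_lit 5) (nat_lit 75) (nat_lit 4) (nat_lit 484) (nat_lit 417) (nat_lit 299)) (XT.lf (nat_lit 0) (nat_lit 125084068) (nat_lit 152) (nat_lit 13716467810) (nat_lit 76) (nat_lit 56741446504) (nat_lit 72) (nat_lit 5) (nat_lit 74) (nat_lit 5) (nat_lit 73) (nat_lit 5) (nat_lit 485) (nat_lit 417) (nat_lit 298))))))) (XT.nd (nat_lit 57252) (nat_lit 0) (nat_lit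 16720) (XT.nd (nat_lit 468) (nat_lit 684) (nat_lit 0) (XT.nd (nat_lit 234) (nat_lit 304) (nat_lit 0) (XT.nd (nat_lit 78) (nat_lit 304) (nat_lit 0) (XT.lf (nat_lit 0) (nat_lit 33437471079) (nat_lit 228) (nat_lit 16284263911) (nat_lit 76) (nat_lit 23267812985) (nat_lit 70) (nat_lit 5) (nat_lit 73) (nat_lit 5) (nat_lit 71) (nat_lit 4) (nat_lit 486) (nat_lit 417) (nat_lit 297)) (XT.nd (nat_lit 78) (nat_lit 228) (nat_lit 0) (XT.lf (nat_lit 0) (nat_lit 56361152239) (nat_lit 76) (nat_lit 12867912697) (nat_lit 152) (nat_lit 6262952626) (nat_lit 69) (nat_lit 5) (nat_lit 70) (nat_lit 5) (nat_lit 71) (nat_lit 4) (nat_lit 487) (nat_lit 417) (nat_lit 296)) (XT.lf (nat_lit 0) (nat_lit 29082646519) (nat_lit 228) (nat_lit 22695062924) (nat_lit 76) (nat_lit 26305071273) (nat_lit 66) (nat_lit 5) (nat_lit 69) (nat_lit 5) (nat_lit 67) (nat_lit 4) (nat_lit 488) (nat_lit 417) (nat_lit 295)))) (XT.nd (nat_lit 78) (nat_lit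 228) (nat_lit 0) (XT.lf (nat_lit 0) (nat_lit 54075608654) (nat_lit 76) (nat_lit 12830099773) (nat_lit 152) (nat_lit 13870322132) (nat_lit 65) (nat_lit 5) (nat_lit 66) (nat_lit 5) (nat_lit 67) (nat_lit 4) (nat_lit 489) (nat_lit 417) (nat_lit 294)) (XT.nd (nat_lit 78) (nat_lit 76) (nat_lit 0) (XT.lf (nat_lit 0) (nat_lit 23575259879) (nat_lit 152) (nat_lit 31513718070) (nat_lit 76) (nat_lit 28478075625) (nat_lit 63) (nat_lit 5) (nat_lit 65) (nat_lit 5) (nat_lit 64) (nat_lit 4) (nat_lit 490) (nat_lit 417) (nat_lit 293)) (XT.lf (nat_lit 0) (nat_lit 49488145519) (nat_lit 76) (nat_lit 13993910710) (nat_lit 152) (nat_lit 22985177878) (nat_lit 62) (nat_lit 5) (nat_lit 63) (nat_lit 5) (nat_lit 64) (nat_lit 4) (nat_lit 491) (nat_lit 417) (nat_lit 292))))) (XT.nd (nat_lit 234) (nat_lit 304) (nat_lit 0) (XT.nd (nat_lit 78) (nat_lit 228) (nat_lit 0) (XT.lf (nat_lit 0) (nat_lit 16615850242) (nat_lit 152) (nat_lit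 43346461142) (nat_lit 76) (nat_lit 29513921400) (nat_lit 60) (nat_lit 5) (nat_lit 62) (nat_lit 5) (nat_lit 61) (nat_lit 4) (nat_lit 492) (nat_lit 417) (nat_lit 291)) (XT.nd (nat_lit 78) (nat_lit 152) (nat_lit 0) (XT.lf (nat_lit 0) (nat_lit 41966466780) (nat_lit 76) (nat_lit 16679331453) (nat_lit 152) (nat_lit 33955328860) (nat_lit 59) (nat_lit 5) (nat_lit 60) (nat_lit 5) (nat_lit 61) (nat_lit 4) (nat_lit 493) (nat_lit 417) (nat_lit 290)) (XT.lf (nat_lit 0) (nat_lit 7844869991) (nat_lit 152) (nat_lit 58921511529) (nat_lit 76) (nat_lit 29081363173) (nat_lit 57) (nat_lit 5) (nat_lit 59) (nat_lit 5) (nat_lit 58) (nat_lit 4) (nat_lit 494) (nat_lit 417) (nat_lit 289)))) (XT.nd (nat_lit 156) (nat_lit 152) (nat_lit 0) (XT.nd (nat_lit 78) (nat_lit 76) (nat_lit 0) (XT.lf (nat_lit 0) (nat_lit 30748667064) (nat_lit 76) (nat_lit 21272117174) (nat_lit 152) (nat_lit 47196184664) (nat_lit 56) (nat_lit 5) (nat_lit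 57) (nat_lit 5) (nat_lit 58) (nat_lit 4) (nat_lit 495) (nat_lit 417) (nat_lit 288)) (XT.lf (nat_lit 0) (nat_lit 23579560588) (nat_lit 76) (nat_lit 75911134140) (nat_lit 76) (nat_lit 3231403658) (nat_lit 55) (nat_lit 4) (nat_lit 56) (nat_lit 5) (nat_lit 56) (nat_lit 4) (nat_lit 496) (nat_lit 417) (nat_lit 287))) (XT.nd (nat_lit 56316) (nat_lit 0) (nat_lit 21888) (XT.lf (nat_lit 0) (nat_lit 14919307111) (nat_lit 76) (nat_lit 28235933221) (nat_lit 152) (nat_lit 63203022303) (nat_lit 53) (nat_lit 5) (nat_lit 54) (nat_lit 5) (nat_lit 55) (nat_lit 4) (nat_lit 497) (nat_lit 417) (nat_lit 286)) (XT.lf (nat_lit 0) (nat_lit 5063554795) (nat_lit 1140) (nat_lit 26826089) (nat_lit 1140) (nat_lit 26826089) (nat_lit 341) (nat_lit 3) (nat_lit 356) (nat_lit 3) (nat_lit 356) (nat_lit 5) (nat_lit 418) (nat_lit 418) (nat_lit 364)))))) (XT.nd (nat_lit 546) (nat_lit 4028) (nat_lit 0) (XT.nd (nat_lit 234) (nat_lit 0)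 (nat_lit 152) (XT.nd (nat_lit 78) (nat_lit 0) (nat_lit 76) (XT.lf (nat_lit 0) (nat_lit 1074506448) (nat_lit 1140) (nat_lit 1895239441) (nat_lit 1216) (nat_lit 7484982903) (nat_lit 326) (nat_lit 5) (nat_lit 341) (nat_lit 3) (nat_lit 342) (nat_lit 5) (nat_lit 419) (nat_lit 418) (nat_lit 363)) (XT.nd (nat_lit 78) (nat_lit 0) (nat_lit 76) (XT.lf (nat_lit 0) (nat_lit 2355730258) (nat_lit 1140) (nat_lit 3715168287) (nat_lit 1216) (nat_lit 4613859548) (nat_lit 327) (nat_lit 5) (nat_lit 342) (nat_lit 5) (nat_lit 343) (nat_lit 5) (nat_lit 420) (nat_lit 418) (nat_lit 362)) (XT.lf (nat_lit 0) (nat_lit 3751734697) (nat_lit 1140) (nat_lit 5513468784) (nat_lit 1216) (nat_lit 1659570306) (nat_lit 328) (nat_lit 5) (nat_lit 343) (nat_lit 5) (nat_lit 344) (nat_lit 5) (nat_lit 421) (nat_lit 418) (nat_lit 361)))) (XT.nd (nat_lit 156) (nat_lit 0) (nat_lit 152) (XT.nd (nat_lit 78) (nat_lit 0) (nat_lit 76) (XT.lf (nat_lit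 76) (nat_lit 3869627723) (nat_lit 0) (nat_lit 1420698309) (nat_lit 1216) (nat_lit 5884286837) (nat_lit 329) (nat_lit 5) (nat_lit 328) (nat_lit 5) (nat_lit 344) (nat_lit 5) (nat_lit 422) (nat_lit 418) (nat_lit 360)) (XT.lf (nat_lit 76) (nat_lit 2340198393) (nat_lit 0) (nat_lit 4649575084) (nat_lit 1216) (nat_lit 4444658536) (nat_lit 330) (nat_lit 5) (nat_lit 329) (nat_lit 5) (nat_lit 345) (nat_lit 5) (nat_lit 423) (nat_lit 418) (nat_lit 359))) (XT.nd (nat_lit 78) (nat_lit 0) (nat_lit 76) (XT.lf (nat_lit 76) (nat_lit 839510499) (nat_lit 0) (nat_lit 8009434011) (nat_lit 1216) (nat_lit 2856060692) (nat_lit 331) (nat_lit 5) (nat_lit 330) (nat_lit 5) (nat_lit 346) (nat_lit 5) (nat_lit 424) (nat_lit 418) (nat_lit 358)) (XT.lf (nat_lit 0) (nat_lit 10889551685) (nat_lit 1140) (nat_lit 619957866) (nat_lit 1216) (nat_lit 476948529) (nat_lit 331) (nat_lit 5) (nat_lit 346) (nat_lit 5) (nat_lit 347) (nat_lit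 5) (nat_lit 425) (nat_lit 418) (nat_lit 357))))) (XT.nd (nat_lit 234) (nat_lit 3192) (nat_lit 0) (XT.nd (nat_lit 78) (nat_lit 0) (nat_lit 76) (XT.lf (nat_lit 0) (nat_lit 862383143) (nat_lit 1216) (nat_lit 2070932169) (nat_lit 1292) (nat_lit 9344652399) (nat_lit 315) (nat_lit 5) (nat_lit 331) (nat_lit 5) (nat_lit 332) (nat_lit 5) (nat_lit 426) (nat_lit 418) (nat_lit 356)) (XT.nd (nat_lit 78) (nat_lit 0) (nat_lit 76) (XT.lf (nat_lit 0) (nat_lit 2999087767) (nat_lit 1216) (nat_lit 3510940144) (nat_lit 1292) (nat_lit 6070639725) (nat_lit 316) (nat_lit 5) (nat_lit 332) (nat_lit 5) (nat_lit 333) (nat_lit 5) (nat_lit 427) (nat_lit 418) (nat_lit 355)) (XT.lf (nat_lit 0) (nat_lit 5346761474) (nat_lit 1216) (nat_lit 4923724185) (nat_lit 76) (nat_lit 2624897377) (nat_lit 317) (nat_lit 5) (nat_lit 333) (nat_lit 5) (nat_lit 318) (nat_lit 5) (nat_lit 428) (nat_lit 418) (nat_lit 354)))) (XT.nd (nat_lit 156) (nat_lit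 1292) (nat_lit 0) (XT.nd (nat_lit 78) (nat_lit 836) (nat_lit 0) (XT.lf (nat_lit 0) (nat_lit 6904411130) (nat_lit 1216) (nat_lit 1028421045) (nat_lit 1292) (nat_lit 5289375910) (nat_lit 301) (nat_lit 5) (nat_lit 317) (nat_lit 5) (nat_lit 318) (nat_lit 5) (nat_lit 429) (nat_lit 418) (nat_lit 353)) (XT.lf (nat_lit 0) (nat_lit 5851775930) (nat_lit 836) (nat_lit 4941635438) (nat_lit 912) (nat_lit 2767610944) (nat_lit 290) (nat_lit 5) (nat_lit 301) (nat_lit 5) (nat_lit 302) (nat_lit 5) (nat_lit 430) (nat_lit 418) (nat_lit 352))) (XT.nd (nat_lit 78) (nat_lit 608) (nat_lit 0) (XT.lf (nat_lit 0) (nat_lit 8766555) (nat_lit 684) (nat_lit 9070442333) (nat_lit 76) (nat_lit 4833821045) (nat_lit 281) (nat_lit 5) (nat_lit 290) (nat_lit 5) (nat_lit 282) (nat_lit 5) (nat_lit 431) (nat_lit 418) (nat_lit 351)) (XT.lf (nat_lit 0) (nat_lit 3000161262) (nat_lit 684) (nat_lit 10428171624) (nat_lit 76) (nat_lit 849483472)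 (nat_lit 273) (nat_lit 5) (nat_lit 282) (nat_lit 5) (nat_lit 274) (nat_lit 5) (nat_lit 432) (nat_lit 418) (nat_lit 350))))))))
noncomputable def xc78 : XT := (XT.nd (nat_lit 2028) (nat_lit 5168) (nat_lit 0) (XT.nd (nat_lit 1014) (nat_lit 4104) (nat_lit 0) (XT.nd (nat_lit 468) (nat_lit 3116) (nat_lit 0) (XT.nd (nat_lit 234) (nat_lit 1064) (nat_lit 0) (XT.nd (nat_lit 78) (nat_lit 1140) (nat_lit 0) (XT.lf (nat_lit 0) (nat_lit 2869290244) (nat_lit 532) (nat_lit 3444465061) (nat_lit 608) (nat_lit 8341911329) (nat_lit 266) (nat_lit 5) (nat_lit 273) (nat_lit 5) (nat_lit 274) (nat_lit 5) (nat_lit 433) (nat_lit 418) (nat_lit 349)) (XT.nd (nat_lit 78) (nat_lit 532) (nat_lit 0) (XT.lf (nat_lit 0) (nat_lit 1927885962) (nat_lit 608) (nat_lit 8020411323) (nat_lit 684) (nat_lit 5099457346) (nat_lit 258) (nat_lit 5) (nat_lit 266) (nat_lit 5) (nat_lit 267) (nat_lit 5) (nat_lit 434) (nat_lit 418) (nat_lit 348))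 (XT.lf (nat_lit 0) (nat_lit 1037713357) (nat_lit 532) (nat_lit 12879882623) (nat_lit 608) (nat_lit 1537263259) (nat_lit 251) (nat_lit 5) (nat_lit 258) (nat_lit 5) (nat_lit 259) (nat_lit 5) (nat_lit 435) (nat_lit 418) (nat_lit 347)))) (XT.nd (nat_lit 78) (nat_lit 456) (nat_lit 0) (XT.lf (nat_lit 0) (nat_lit 157839246) (nat_lit 532) (nat_lit 2184259515) (nat_lit 608) (nat_lit 13534126449) (nat_lit 243) (nat_lit 5) (nat_lit 250) (nat_lit 5) (nat_lit 251) (nat_lit 5) (nat_lit 436) (nat_lit 418) (nat_lit 346)) (XT.nd (nat_lit 78) (nat_lit 456) (nat_lit 0) (XT.lf (nat_lit 0) (nat_lit 6585284438) (nat_lit 608) (nat_lit 696002921) (nat_lit 76) (nat_lit 9030868782) (nat_lit 243) (nat_lit 5) (nat_lit 251) (nat_lit 5) (nat_lit 244) (nat_lit 5) (nat_lit 437) (nat_lit 418) (nat_lit 345)) (XT.lf (nat_lit 0) (nat_lit 11215893449) (nat_lit 532) (nat_lit 1490063038) (nat_lit 76) (nat_lit 4058671811) (nat_lit 237)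 (nat_lit 5) (nat_lit 244) (nat_lit 5) (nat_lit 238) (nat_lit 5) (nat_lit 438) (nat_lit 418) (nat_lit 344))))) (XT.nd (nat_lit 234) (nat_lit 1672) (nat_lit 0) (XT.nd (nat_lit 78) (nat_lit 988) (nat_lit 0) (XT.lf (nat_lit 0) (nat_lit 14999240280) (nat_lit 456) (nat_lit 1271104718) (nat_lit 532) (nat_lit 963612178) (nat_lit 231) (nat_lit 5) (nat_lit 237) (nat_lit 5) (nat_lit 238) (nat_lit 5) (nat_lit 439) (nat_lit 418) (nat_lit 343)) (XT.nd (nat_lit 78) (nat_lit 456) (nat_lit 0) (XT.lf (nat_lit 0) (nat_lit 4007036948) (nat_lit 532) (nat_lit 2994918611) (nat_lit 76) (nat_lit 10716746371) (nat_lit 224) (nat_lit 5) (nat_lit 231) (nat_lit 5) (nat_lit 225) (nat_lit 5) (nat_lit 440) (nat_lit 418) (nat_lit 342)) (XT.lf (nat_lit 0) (nat_lit 9402194895) (nat_lit 532) (nat_lit 3699582962) (nat_lit 76) (nat_lit 5119744863) (nat_lit 218) (nat_lit 5) (nat_lit 225) (nat_lit 5) (nat_lit 219) (nat_lit 5) (nat_lit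 441) (nat_lit 418) (nat_lit 341)))) (XT.nd (nat_lit 156) (nat_lit 760) (nat_lit 0) (XT.nd (nat_lit 78) (nat_lit 532) (nat_lit 0) (XT.lf (nat_lit 0) (nat_lit 14401098342) (nat_lit 380) (nat_lit 876661154) (nat_lit 456) (nat_lit 3465407666) (nat_lit 213) (nat_lit 5) (nat_lit 218) (nat_lit 5) (nat_lit 219) (nat_lit 5) (nat_lit 442) (nat_lit 418) (nat_lit 340)) (XT.lf (nat_lit 0) (nat_lit 2379208926) (nat_lit 532) (nat_lit 4985168317) (nat_lit 76) (nat_lit 11917944428) (nat_lit 206) (nat_lit 5) (nat_lit 213) (nat_lit 5) (nat_lit 207) (nat_lit 5) (nat_lit 443) (nat_lit 418) (nat_lit 339))) (XT.nd (nat_lit 78) (nat_lit 380) (nat_lit 0) (XT.lf (nat_lit 0) (nat_lit 8663533800) (nat_lit 456) (nat_lit 5587124801) (nat_lit 76) (nat_lit 5590173379) (nat_lit 201) (nat_lit 5) (nat_lit 207) (nat_lit 5) (nat_lit 202) (nat_lit 5) (nat_lit 444) (nat_lit 418) (nat_lit 338)) (XT.lf (nat_lit 0) (nat_lit 14300727490)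 (nat_lit 380) (nat_lit 1197998597) (nat_lit 456) (nat_lit 4921443925) (nat_lit 196) (nat_lit 5) (nat_lit 201) (nat_lit 5) (nat_lit 202) (nat_lit 5) (nat_lit 445) (nat_lit 418) (nat_lit 337)))))) (XT.nd (nat_lit 468) (nat_lit 2052) (nat_lit 0) (XT.nd (nat_lit 234) (nat_lit 988) (nat_lit 0) (XT.nd (nat_lit 78) (nat_lit 684) (nat_lit 0) (XT.lf (nat_lit 0) (nat_lit 1908521203) (nat_lit 380) (nat_lit 6641465621) (nat_lit 76) (nat_lit 12469210883) (nat_lit 191) (nat_lit 5) (nat_lit 196) (nat_lit 5) (nat_lit 192) (nat_lit 5) (nat_lit 446) (nat_lit 418) (nat_lit 336)) (XT.nd (nat_lit 78) (nat_lit 304) (nat_lit 0) (XT.lf (nat_lit 0) (nat_lit 9221317973) (nat_lit 456) (nat_lit 7125221640) (nat_lit 76) (nat_lit 5292883402) (nat_lit 186) (nat_lit 5) (nat_lit 192) (nat_lit 5) (nat_lit 187) (nat_lit 5) (nat_lit 447) (nat_lit 418) (nat_lit 335)) (XT.lf (nat_lit 0) (nat_lit 14743342788) (nat_lit 304) (nat_lit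 2428796580) (nat_lit 380) (nat_lit 5110350136) (nat_lit 182) (nat_lit 5) (nat_lit 186) (nat_lit 5) (nat_lit 187) (nat_lit 5) (nat_lit 448) (nat_lit 418) (nat_lit 334)))) (XT.nd (nat_lit 78) (nat_lit 608) (nat_lit 0) (XT.lf (nat_lit 0) (nat_lit 2827708174) (nat_lit 380) (nat_lit 7936551050) (nat_lit 76) (nat_lit 12183264642) (nat_lit 177) (nat_lit 5) (nat_lit 182) (nat_lit 5) (nat_lit 178) (nat_lit 5) (nat_lit 449) (nat_lit 418) (nat_lit 333)) (XT.nd (nat_lit 78) (nat_lit 304) (nat_lit 0) (XT.lf (nat_lit 0) (nat_lit 11324934891) (nat_lit 380) (nat_lit 8285046178) (nat_lit 76) (nat_lit 4026273576) (nat_lit 173) (nat_lit 5) (nat_lit 178) (nat_lit 5) (nat_lit 174) (nat_lit 5) (nat_lit 450) (nat_lit 418) (nat_lit 332)) (XT.lf (nat_lit 0) (nat_lit 15776765426) (nat_lit 304) (nat_lit 4790408712) (nat_lit 380) (nat_lit 3782644514) (nat_lit 169) (nat_lit 5) (nat_lit 173) (nat_lit 5) (nat_lit 174) (nat_lit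 5) (nat_lit 451) (nat_lit 418) (nat_lit 331))))) (XT.nd (nat_lit 234) (nat_lit 1140) (nat_lit 0) (XT.nd (nat_lit 78) (nat_lit 532) (nat_lit 0) (XT.lf (nat_lit 0) (nat_lit 5399070430) (nat_lit 380) (nat_lit 8843754402) (nat_lit 76) (nat_lit 10844919352) (nat_lit 164) (nat_lit 5) (nat_lit 169) (nat_lit 5) (nat_lit 165) (nat_lit 5) (nat_lit 452) (nat_lit 418) (nat_lit 330)) (XT.nd (nat_lit 78) (nat_lit 228) (nat_lit 0) (XT.lf (nat_lit 0) (nat_lit 15255412236) (nat_lit 380) (nat_lit 9039178224) (nat_lit 76) (nat_lit 1558039894) (nat_lit 160) (nat_lit 5) (nat_lit 165) (nat_lit 5) (nat_lit 161) (nat_lit 5) (nat_lit 453) (nat_lit 418) (nat_lit 329)) (XT.lf (nat_lit 0) (nat_lit 17448626260) (nat_lit 228) (nat_lit 8538496470) (nat_lit 304) (nat_lit 657162583) (nat_lit 157) (nat_lit 5) (nat_lit 160) (nat_lit 5) (nat_lit 161) (nat_lit 5) (nat_lit 454) (nat_lit 418) (nat_lit 328)))) (XT.nd (nat_lit 156) (nat_lit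 532) (nat_lit 0) (XT.nd (nat_lit 78) (nat_lit 228) (nat_lit 0) (XT.lf (nat_lit 0) (nat_lit 9918080499) (nat_lit 380) (nat_lit 9340354050) (nat_lit 76) (nat_lit 8204398335) (nat_lit 152) (nat_lit 5) (nat_lit 157) (nat_lit 5) (nat_lit 153) (nat_lit 5) (nat_lit 455) (nat_lit 418) (nat_lit 327)) (XT.lf (nat_lit 0) (nat_lit 18923185109) (nat_lit 228) (nat_lit 2429297642) (nat_lit 304) (nat_lit 6959311148) (nat_lit 149) (nat_lit 5) (nat_lit 152) (nat_lit 5) (nat_lit 153) (nat_lit 5) (nat_lit 456) (nat_lit 418) (nat_lit 326))) (XT.nd (nat_lit 78) (nat_lit 228) (nat_lit 0) (XT.lf (nat_lit 0) (nat_lit 4493106611) (nat_lit 304) (nat_lit 9432187270) (nat_lit 76) (nat_lit 15264147853) (nat_lit 145) (nat_lit 5) (nat_lit 149) (nat_lit 5) (nat_lit 146) (nat_lit 5) (nat_lit 457) (nat_lit 418) (nat_lit 325)) (XT.lf (nat_lit 0) (nat_lit 16716995234) (nat_lit 304) (nat_lit 9412027751) (nat_lit 76) (nat_lit 3969599273)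 (nat_lit 142) (nat_lit 5) (nat_lit 146) (nat_lit 5) (nat_lit 143) (nat_lit 5) (nat_lit 458) (nat_lit 418) (nat_lit 324))))))) (XT.nd (nat_lit 1014) (nat_lit 2280) (nat_lit 0) (XT.nd (nat_lit 468) (nat_lit 1444) (nat_lit 0) (XT.nd (nat_lit 234) (nat_lit 684) (nat_lit 0) (XT.nd (nat_lit 78) (nat_lit 532) (nat_lit 0) (XT.lf (nat_lit 0) (nat_lit 21710052893) (nat_lit 228) (nat_lit 8270987778) (nat_lit 304) (nat_lit 1059353025) (nat_lit 139) (nat_lit 5) (nat_lit 142) (nat_lit 5) (nat_lit 143) (nat_lit 5) (nat_lit 459) (nat_lit 418) (nat_lit 323)) (XT.nd (nat_lit 78) (nat_lit 228) (nat_lit 0) (XT.lf (nat_lit 0) (nat_lit 12051803416) (nat_lit 304) (nat_lit 9261876430) (nat_lit 76) (nat_lit 10700011760) (nat_lit 135) (nat_lit 5) (nat_lit 139) (nat_lit 5) (nat_lit 136) (nat_lit 5) (nat_lit 460) (nat_lit 418) (nat_lit 322)) (XT.lf (nat_lit 0) (nat_lit 23943174161) (nat_lit 228) (nat_lit 2246819473) (nat_lit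 304) (nat_lit 6833545237) (nat_lit 132) (nat_lit 5) (nat_lit 135) (nat_lit 5) (nat_lit 136) (nat_lit 5) (nat_lit 461) (nat_lit 418) (nat_lit 321)))) (XT.nd (nat_lit 78) (nat_lit 456) (nat_lit 0) (XT.lf (nat_lit 0) (nat_lit 7312933439) (nat_lit 228) (nat_lit 8928364042) (nat_lit 76) (nat_lit 17825656201) (nat_lit 129) (nat_lit 5) (nat_lit 132) (nat_lit 5) (nat_lit 130) (nat_lit 5) (nat_lit 462) (nat_lit 418) (nat_lit 320)) (XT.nd (nat_lit 78) (nat_lit 228) (nat_lit 0) (XT.lf (nat_lit 0) (nat_lit 22421388220) (nat_lit 304) (nat_lit 8694680343) (nat_lit 76) (nat_lit 4032562082) (nat_lit 126) (nat_lit 5) (nat_lit 130) (nat_lit 5) (nat_lit 127) (nat_lit 5) (nat_lit 463) (nat_lit 418) (nat_lit 319)) (XT.lf (nat_lit 0) (nat_lit 2475219696) (nat_lit 228) (nat_lit 8432081014) (nat_lit 76) (nat_lit 25361112592) (nat_lit 123) (nat_lit 5) (nat_lit 126) (nat_lit 5) (nat_lit 124) (nat_lit 5) (nat_lit 464) (nat_lit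 418) (nat_lit 318))))) (XT.nd (nat_lit 234) (nat_lit 760) (nat_lit 0) (XT.nd (nat_lit 78) (nat_lit 456) (nat_lit 0) (XT.lf (nat_lit 0) (nat_lit 18637674407) (nat_lit 304) (nat_lit 8183487105) (nat_lit 76) (nat_lit 10605351077) (nat_lit 120) (nat_lit 5) (nat_lit 124) (nat_lit 5) (nat_lit 121) (nat_lit 5) (nat_lit 465) (nat_lit 418) (nat_lit 317)) (XT.nd (nat_lit 78) (nat_lit 304) (nat_lit 0) (XT.lf (nat_lit 0) (nat_lit 30801355503) (nat_lit 152) (nat_lit 5285265859) (nat_lit 228) (nat_lit 2541544886) (nat_lit 118) (nat_lit 5) (nat_lit 120) (nat_lit 5) (nat_lit 121) (nat_lit 5) (nat_lit 466) (nat_lit 418) (nat_lit 316)) (XT.lf (nat_lit 0) (nat_lit 14788807890) (nat_lit 304) (nat_lit 7559862301) (nat_lit 76) (nat_lit 17520426281) (nat_lit 114) (nat_lit 5) (nat_lit 118) (nat_lit 5) (nat_lit 115) (nat_lit 5) (nat_lit 467) (nat_lit 418) (nat_lit 315)))) (XT.nd (nat_lit 156) (nat_lit 380) (nat_lit 0)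 (XT.nd (nat_lit 78) (nat_lit 228) (nat_lit 0) (XT.lf (nat_lit 0) (nat_lit 33386413926) (nat_lit 228) (nat_lit 7160195427) (nat_lit 76) (nat_lit 611110414) (nat_lit 112) (nat_lit 5) (nat_lit 115) (nat_lit 5) (nat_lit 113) (nat_lit 5) (nat_lit 468) (nat_lit 418) (nat_lit 314)) (XT.lf (nat_lit 0) (nat_lit 10839586016) (nat_lit 228) (nat_lit 6870501509) (nat_lit 76) (nat_lit 24778503195) (nat_lit 109) (nat_lit 5) (nat_lit 112) (nat_lit 5) (nat_lit 110) (nat_lit 5) (nat_lit 469) (nat_lit 418) (nat_lit 313))) (XT.nd (nat_lit 78) (nat_lit 228) (nat_lit 0) (XT.lf (nat_lit 0) (nat_lit 30707131726) (nat_lit 228) (nat_lit 6509131808) (nat_lit 76) (nat_lit 6652828807) (nat_lit 107) (nat_lit 5) (nat_lit 110) (nat_lit 5) (nat_lit 108) (nat_lit 5) (nat_lit 470) (nat_lit 418) (nat_lit 312)) (XT.lf (nat_lit 0) (nat_lit 6746685719) (nat_lit 228) (nat_lit 6176807411) (nat_lit 76) (nat_lit 32374748093) (nat_lit 104)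 (nat_lit 5) (nat_lit 107) (nat_lit 5) (nat_lit 105) (nat_lit 5) (nat_lit 471) (nat_lit 418) (nat_lit 311)))))) (XT.nd (nat_lit 546) (nat_lit 1064) (nat_lit 0) (XT.nd (nat_lit 234) (nat_lit 684) (nat_lit 0) (XT.nd (nat_lit 78) (nat_lit 380) (nat_lit 0) (XT.lf (nat_lit 0) (nat_lit 27956295961) (nat_lit 228) (nat_lit 5892896544) (nat_lit 76) (nat_lit 12928413654) (nat_lit 102) (nat_lit 5) (nat_lit 105) (nat_lit 5) (nat_lit 103) (nat_lit 5) (nat_lit 472) (nat_lit 418) (nat_lit 310)) (XT.nd (nat_lit 78) (nat_lit 152) (nat_lit 0) (XT.lf (nat_lit 0) (nat_lit 2457044181) (nat_lit 228) (nat_lit 5558083234) (nat_lit 76) (nat_lit 40297308120) (nat_lit 99) (nat_lit 5) (nat_lit 102) (nat_lit 5) (nat_lit 100) (nat_lit 5) (nat_lit 473) (nat_lit 418) (nat_lit 309)) (XT.lf (nat_lit 0) (nat_lit 25082021847) (nat_lit 228) (nat_lit 5401298035) (nat_lit 76) (nat_lit 19414937530) (nat_lit 97) (nat_lit 5) (nat_lit 100)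 (nat_lit 5) (nat_lit 98) (nat_lit 5) (nat_lit 474) (nat_lit 418) (nat_lit 308)))) (XT.nd (nat_lit 156) (nat_lit 304) (nat_lit 0) (XT.nd (nat_lit 78) (nat_lit 228) (nat_lit 0) (XT.lf (nat_lit 0) (nat_lit 46410350374) (nat_lit 152) (nat_lit 3000117477) (nat_lit 228) (nat_lit 2135736230) (nat_lit 95) (nat_lit 5) (nat_lit 97) (nat_lit 5) (nat_lit 98) (nat_lit 5) (nat_lit 475) (nat_lit 418) (nat_lit 307)) (XT.lf (nat_lit 0) (nat_lit 22020156422) (nat_lit 228) (nat_lit 5148000431) (nat_lit 76) (nat_lit 26079207813) (nat_lit 92) (nat_lit 5) (nat_lit 95) (nat_lit 5) (nat_lit 93) (nat_lit 5) (nat_lit 476) (nat_lit 418) (nat_lit 306))) (XT.nd (nat_lit 78) (nat_lit 152) (nat_lit 0) (XT.lf (nat_lit 0) (nat_lit 47912071612) (nat_lit 228) (nat_lit 5064188343) (nat_lit 76) (nat_lit 2039517251) (nat_lit 90) (nat_lit 5) (nat_lit 93) (nat_lit 5) (nat_lit 91) (nat_lit 4) (nat_lit 477) (nat_lit 418) (nat_lit 305))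 (XT.lf (nat_lit 0) (nat_lit 18691841857) (nat_lit 152) (nat_lit 5275416772) (nat_lit 76) (nat_lit 32875450276) (nat_lit 88) (nat_lit 5) (nat_lit 90) (nat_lit 5) (nat_lit 89) (nat_lit 5) (nat_lit 478) (nat_lit 418) (nat_lit 304))))) (XT.nd (nat_lit 234) (nat_lit 608) (nat_lit 0) (XT.nd (nat_lit 78) (nat_lit 304) (nat_lit 0) (XT.lf (nat_lit 0) (nat_lit 46253929647) (nat_lit 228) (nat_lit 5487255256) (nat_lit 76) (nat_lit 6998982139) (nat_lit 86) (nat_lit 5) (nat_lit 89) (nat_lit 5) (nat_lit 87) (nat_lit 4) (nat_lit 479) (nat_lit 418) (nat_lit 303)) (XT.nd (nat_lit 78) (nat_lit 152) (nat_lit 0) (XT.lf (nat_lit 0) (nat_lit 15000632445) (nat_lit 152) (nat_lit 5960501184) (nat_lit 76) (nat_lit 39742558029) (nat_lit 84) (nat_lit 5) (nat_lit 86) (nat_lit 5) (nat_lit 85) (nat_lit 5) (nat_lit 480) (nat_lit 418) (nat_lit 302)) (XT.lf (nat_lit 0) (nat_lit 44309335922) (nat_lit 228) (nat_lit 6573071569) (nat_lit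 76) (nat_lit 11858104681) (nat_lit 82) (nat_lit 5) (nat_lit 85) (nat_lit 5) (nat_lit 83) (nat_lit 4) (nat_lit 481) (nat_lit 418) (nat_lit 301)))) (XT.nd (nat_lit 156) (nat_lit 304) (nat_lit 0) (XT.nd (nat_lit 78) (nat_lit 152) (nat_lit 0) (XT.lf (nat_lit 0) (nat_lit 10829087180) (nat_lit 152) (nat_lit 7421598608) (nat_lit 76) (nat_lit 46600828134) (nat_lit 80) (nat_lit 5) (nat_lit 82) (nat_lit 5) (nat_lit 81) (nat_lit 5) (nat_lit 482) (nat_lit 418) (nat_lit 300)) (XT.lf (nat_lit 0) (nat_lit 41958109260) (nat_lit 228) (nat_lit 8563771568) (nat_lit 76) (nat_lit 16517102581) (nat_lit 78) (nat_lit 5) (nat_lit 81) (nat_lit 5) (nat_lit 79) (nat_lit 4) (nat_lit 483) (nat_lit 418) (nat_lit 299))) (XT.nd (nat_lit 78) (nat_lit 152) (nat_lit 0) (XT.lf (nat_lit 0) (nat_lit 6034746341) (nat_lit 152) (nat_lit 9926537839) (nat_lit 76) (nat_lit 53348094794) (nat_lit 76) (nat_lit 5) (nat_lit 78) (nat_lit 5) (nat_lit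 77) (nat_lit 5) (nat_lit 484) (nat_lit 418) (nat_lit 298)) (XT.lf (nat_lit 0) (nat_lit 39053426525) (nat_lit 228) (nat_lit 11755562476) (nat_lit 76) (nat_lit 20850876011) (nat_lit 74) (nat_lit 5) (nat_lit 77) (nat_lit 5) (nat_lit 75) (nat_lit 4) (nat_lit 485) (nat_lit 418) (nat_lit 297))))))))
noncomputable def xc79 : XT := (XT.nd (nat_lit 58344) (nat_lit 0) (nat_lit 6612) (XT.nd (nat_lit 57330) (nat_lit 0) (nat_lit 17176) (XT.nd (nat_lit 468) (nat_lit 608) (nat_lit 0) (XT.nd (nat_lit 234) (nat_lit 456) (nat_lit 0) (XT.nd (nat_lit 78) (nat_lit 228) (nat_lit 0) (XT.lf (nat_lit 0) (nat_lit 445384696) (nat_lit 152) (nat_lit 13802185629) (nat_lit 76) (nat_lit 59855152326) (nat_lit 72) (nat_lit 5) (nat_lit 74) (nat_lit 5) (nat_lit 73) (nat_lit 5) (nat_lit 486) (nat_lit 418) (nat_lit 296)) (XT.nd (nat_lit 78) (nat_lit 76) (nat_lit 0) (XT.lf (nat_lit 0) (nat_lit 35416714005) (nat_lit 228) (nat_lit 16509102847)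 (nat_lit 76) (nat_lit 24703983387) (nat_lit 70) (nat_lit 5) (nat_lit 73) (nat_lit 5) (nat_lit 71) (nat_lit 4) (nat_lit 487) (nat_lit 418) (nat_lit 295)) (XT.lf (nat_lit 0) (nat_lit 59751689816) (nat_lit 76) (nat_lit 13237064129) (nat_lit 152) (nat_lit 6268913561) (nat_lit 69) (nat_lit 5) (nat_lit 70) (nat_lit 5) (nat_lit 71) (nat_lit 4) (nat_lit 488) (nat_lit 418) (nat_lit 294)))) (XT.nd (nat_lit 78) (nat_lit 228) (nat_lit 0) (XT.lf (nat_lit 0) (nat_lit 30831622008) (nat_lit 228) (nat_lit 23261740882) (nat_lit 76) (nat_lit 27884707997) (nat_lit 66) (nat_lit 5) (nat_lit 69) (nat_lit 5) (nat_lit 67) (nat_lit 4) (nat_lit 489) (nat_lit 418) (nat_lit 293)) (XT.nd (nat_lit 78) (nat_lit 152) (nat_lit 0) (XT.lf (nat_lit 0) (nat_lit 57331180514) (nat_lit 76) (nat_lit 13205920503) (nat_lit 152) (nat_lit 14269144454) (nat_lit 65) (nat_lit 5) (nat_lit 66) (nat_lit 5) (nat_lit 67) (nat_lit 4) (nat_lit 490)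 (nat_lit 418) (nat_lit 292)) (XT.lf (nat_lit 0) (nat_lit 25036923315) (nat_lit 152) (nat_lit 32541936350) (nat_lit 76) (nat_lit 30158056430) (nat_lit 63) (nat_lit 5) (nat_lit 65) (nat_lit 5) (nat_lit 64) (nat_lit 4) (nat_lit 491) (nat_lit 418) (nat_lit 291))))) (XT.nd (nat_lit 234) (nat_lit 304) (nat_lit 0) (XT.nd (nat_lit 78) (nat_lit 228) (nat_lit 0) (XT.lf (nat_lit 0) (nat_lit 52494327368) (nat_lit 76) (nat_lit 14436372407) (nat_lit 152) (nat_lit 23851656821) (nat_lit 62) (nat_lit 5) (nat_lit 63) (nat_lit 5) (nat_lit 64) (nat_lit 4) (nat_lit 492) (nat_lit 418) (nat_lit 290)) (XT.nd (nat_lit 78) (nat_lit 76) (nat_lit 0) (XT.lf (nat_lit 0) (nat_lit 17718148712) (nat_lit 152) (nat_lit 44986245337) (nat_lit 76) (nat_lit 31237502427) (nat_lit 60) (nat_lit 5) (nat_lit 62) (nat_lit 5) (nat_lit 61) (nat_lit 4) (nat_lit 493) (nat_lit 418) (nat_lit 289)) (XT.lf (nat_lit 0) (nat_lit 44577207185) (nat_lit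 76) (nat_lit 17264383729) (nat_lit 152) (nat_lit 35381684814) (nat_lit 59) (nat_lit 5) (nat_lit 60) (nat_lit 5) (nat_lit 61) (nat_lit 4) (nat_lit 494) (nat_lit 418) (nat_lit 288)))) (XT.nd (nat_lit 156) (nat_lit 76) (nat_lit 0) (XT.nd (nat_lit 78) (nat_lit 76) (nat_lit 0) (XT.lf (nat_lit 0) (nat_lit 8497740861) (nat_lit 152) (nat_lit 61359312022) (nat_lit 76) (nat_lit 30775257786) (nat_lit 57) (nat_lit 5) (nat_lit 59) (nat_lit 5) (nat_lit 58) (nat_lit 4) (nat_lit 495) (nat_lit 418) (nat_lit 287)) (XT.lf (nat_lit 0) (nat_lit 32779805898) (nat_lit 76) (nat_lit 22094979895) (nat_lit 152) (nat_lit 49295440362) (nat_lit 56) (nat_lit 5) (nat_lit 57) (nat_lit 5) (nat_lit 58) (nat_lit 4) (nat_lit 496) (nat_lit 418) (nat_lit 286))) (XT.nd (nat_lit 56394) (nat_lit 0) (nat_lit 20596) (XT.lf (nat_lit 0) (nat_lit 25243217886) (nat_lit 76) (nat_lit 79469791100) (nat_lit 76) (nat_lit 3137758722) (nat_lit 55)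 (nat_lit 4) (nat_lit 56) (nat_lit 5) (nat_lit 56) (nat_lit 4) (nat_lit 497) (nat_lit 418) (nat_lit 285)) (XT.lf (nat_lit 0) (nat_lit 518459857) (nat_lit 0) (nat_lit 518459857) (nat_lit 1140) (nat_lit 4303294058) (nat_lit 326) (nat_lit 5) (nat_lit 326) (nat_lit 3) (nat_lit 341) (nat_lit 3) (nat_lit 419) (nat_lit 419) (nat_lit 362)))))) (XT.nd (nat_lit 468) (nat_lit 3420) (nat_lit 0) (XT.nd (nat_lit 234) (nat_lit 0) (nat_lit 152) (XT.nd (nat_lit 78) (nat_lit 0) (nat_lit 76) (XT.lf (nat_lit 0) (nat_lit 3199565750) (nat_lit 1140) (nat_lit 876688716) (nat_lit 1216) (nat_lit 6838870481) (nat_lit 326) (nat_lit 5) (nat_lit 341) (nat_lit 3) (nat_lit 342) (nat_lit 5) (nat_lit 420) (nat_lit 419) (nat_lit 361)) (XT.nd (nat_lit 78) (nat_lit 0) (nat_lit 76) (XT.lf (nat_lit 0) (nat_lit 4447943239) (nat_lit 1140) (nat_lit 2751175702) (nat_lit 1216) (nat_lit 3960453535) (nat_lit 327) (nat_lit 5) (nat_lit 342) (nat_lit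 5) (nat_lit 343) (nat_lit 5) (nat_lit 421) (nat_lit 419) (nat_lit 360)) (XT.lf (nat_lit 0) (nat_lit 5823019390) (nat_lit 1140) (nat_lit 4607989211) (nat_lit 1216) (nat_lit 983311292) (nat_lit 328) (nat_lit 5) (nat_lit 343) (nat_lit 5) (nat_lit 344) (nat_lit 5) (nat_lit 422) (nat_lit 419) (nat_lit 359)))) (XT.nd (nat_lit 78) (nat_lit 0) (nat_lit 76) (XT.lf (nat_lit 76) (nat_lit 5210404607) (nat_lit 0) (nat_lit 2149464288) (nat_lit 1216) (nat_lit 4319150824) (nat_lit 329) (nat_lit 5) (nat_lit 328) (nat_lit 5) (nat_lit 344) (nat_lit 5) (nat_lit 423) (nat_lit 419) (nat_lit 358)) (XT.nd (nat_lit 78) (nat_lit 0) (nat_lit 76) (XT.lf (nat_lit 76) (nat_lit 3630524707) (nat_lit 0) (nat_lit 5433067553) (nat_lit 1216) (nat_lit 2890666692) (nat_lit 330) (nat_lit 5) (nat_lit 329) (nat_lit 5) (nat_lit 345) (nat_lit 5) (nat_lit 424) (nat_lit 419) (nat_lit 357)) (XT.lf (nat_lit 76) (nat_lit 2076721503) (nat_lit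 0) (nat_lit 8863334261) (nat_lit 1216) (nat_lit 1300582865) (nat_lit 331) (nat_lit 5) (nat_lit 330) (nat_lit 5) (nat_lit 346) (nat_lit 5) (nat_lit 425) (nat_lit 419) (nat_lit 356))))) (XT.nd (nat_lit 234) (nat_lit 2584) (nat_lit 0) (XT.nd (nat_lit 78) (nat_lit 0) (nat_lit 0) (XT.lf (nat_lit 0) (nat_lit 457714118) (nat_lit 1216) (nat_lit 11993488816) (nat_lit 1292) (nat_lit 87155373) (nat_lit 315) (nat_lit 5) (nat_lit 331) (nat_lit 5) (nat_lit 332) (nat_lit 5) (nat_lit 426) (nat_lit 419) (nat_lit 355)) (XT.nd (nat_lit 78) (nat_lit 0) (nat_lit 76) (XT.lf (nat_lit 0) (nat_lit 2423060507) (nat_lit 1216) (nat_lit 988516726) (nat_lit 1292) (nat_lit 9434623939) (nat_lit 315) (nat_lit 5) (nat_lit 331) (nat_lit 5) (nat_lit 332) (nat_lit 5) (nat_lit 427) (nat_lit 419) (nat_lit 354)) (XT.lf (nat_lit 0) (nat_lit 4602483013) (nat_lit 1216) (nat_lit 2487771776) (nat_lit 1292) (nat_lit 6075711406) (nat_lit 316)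 (nat_lit 5) (nat_lit 332) (nat_lit 5) (nat_lit 333) (nat_lit 5) (nat_lit 428) (nat_lit 419) (nat_lit 353)))) (XT.nd (nat_lit 156) (nat_lit 1520) (nat_lit 0) (XT.nd (nat_lit 78) (nat_lit 1216) (nat_lit 0) (XT.lf (nat_lit 0) (nat_lit 7007300261) (nat_lit 1216) (nat_lit 3961346805) (nat_lit 76) (nat_lit 2529583769) (nat_lit 317) (nat_lit 5) (nat_lit 333) (nat_lit 5) (nat_lit 318) (nat_lit 5) (nat_lit 429) (nat_lit 419) (nat_lit 352)) (XT.lf (nat_lit 0) (nat_lit 8423552043) (nat_lit 1216) (nat_lit 1244064004) (nat_lit 1292) (nat_lit 4175438811) (nat_lit 301) (nat_lit 5) (nat_lit 317) (nat_lit 5) (nat_lit 318) (nat_lit 5) (nat_lit 430) (nat_lit 419) (nat_lit 351))) (XT.nd (nat_lit 78) (nat_lit 684) (nat_lit 0) (XT.lf (nat_lit 0) (nat_lit 7325277725) (nat_lit 836) (nat_lit 5292073642) (nat_lit 912) (nat_lit 1583080298) (nat_lit 290) (nat_lit 5) (nat_lit 301) (nat_lit 5) (nat_lit 302) (nat_lit 5) (nat_lit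 431) (nat_lit 419) (nat_lit 350)) (XT.lf (nat_lit 0) (nat_lit 1255088412) (nat_lit 684) (nat_lit 8313502296) (nat_lit 76) (nat_lit 5002609103) (nat_lit 281) (nat_lit 5) (nat_lit 290) (nat_lit 5) (nat_lit 282) (nat_lit 5) (nat_lit 432) (nat_lit 419) (nat_lit 349))))))) (XT.nd (nat_lit 1014) (nat_lit 4484) (nat_lit 0) (XT.nd (nat_lit 468) (nat_lit 2736) (nat_lit 0) (XT.nd (nat_lit 234) (nat_lit 1596) (nat_lit 0) (XT.nd (nat_lit 78) (nat_lit 1140) (nat_lit 0) (XT.lf (nat_lit 0) (nat_lit 4347814860) (nat_lit 684) (nat_lit 9737567486) (nat_lit 76) (nat_lit 870295357) (nat_lit 273) (nat_lit 5) (nat_lit 282) (nat_lit 5) (nat_lit 274) (nat_lit 5) (nat_lit 433) (nat_lit 419) (nat_lit 348)) (XT.nd (nat_lit 78) (nat_lit 608) (nat_lit 0) (XT.lf (nat_lit 0) (nat_lit 4190025374) (nat_lit 532) (nat_lit 3591349136) (nat_lit 608) (nat_lit 7572422171) (nat_lit 266) (nat_lit 5) (nat_lit 273) (nat_lit 5) (nat_lit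 274) (nat_lit 5) (nat_lit 434) (nat_lit 419) (nat_lit 347)) (XT.lf (nat_lit 0) (nat_lit 3201228013) (nat_lit 608) (nat_lit 8353107217) (nat_lit 684) (nat_lit 4212457640) (nat_lit 258) (nat_lit 5) (nat_lit 266) (nat_lit 5) (nat_lit 267) (nat_lit 5) (nat_lit 435) (nat_lit 419) (nat_lit 346)))) (XT.nd (nat_lit 78) (nat_lit 1064) (nat_lit 0) (XT.lf (nat_lit 0) (nat_lit 2264565391) (nat_lit 532) (nat_lit 13416661892) (nat_lit 608) (nat_lit 514255896) (nat_lit 251) (nat_lit 5) (nat_lit 258) (nat_lit 5) (nat_lit 259) (nat_lit 5) (nat_lit 436) (nat_lit 419) (nat_lit 345)) (XT.nd (nat_lit 78) (nat_lit 456) (nat_lit 0) (XT.lf (nat_lit 0) (nat_lit 1327946170) (nat_lit 532) (nat_lit 2169484775) (nat_lit 608) (nat_lit 13141378749) (nat_lit 243) (nat_lit 5) (nat_lit 250) (nat_lit 5) (nat_lit 251) (nat_lit 5) (nat_lit 437) (nat_lit 419) (nat_lit 344)) (XT.lf (nat_lit 0) (nat_lit 412726806) (nat_lit 456) (nat_lit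 7495712180) (nat_lit 532) (nat_lit 9189432101) (nat_lit 237) (nat_lit 5) (nat_lit 243) (nat_lit 5) (nat_lit 244) (nat_lit 5) (nat_lit 438) (nat_lit 419) (nat_lit 343))))) (XT.nd (nat_lit 234) (nat_lit 1748) (nat_lit 0) (XT.nd (nat_lit 78) (nat_lit 988) (nat_lit 0) (XT.lf (nat_lit 0) (nat_lit 12731511386) (nat_lit 532) (nat_lit 434401687) (nat_lit 76) (nat_lit 4408229417) (nat_lit 237) (nat_lit 5) (nat_lit 244) (nat_lit 5) (nat_lit 238) (nat_lit 5) (nat_lit 439) (nat_lit 419) (nat_lit 342)) (XT.nd (nat_lit 78) (nat_lit 532) (nat_lit 0) (XT.lf (nat_lit 0) (nat_lit 16846970858) (nat_lit 456) (nat_lit 1156799302) (nat_lit 532) (nat_lit 64218565) (nat_lit 231) (nat_lit 5) (nat_lit 237) (nat_lit 5) (nat_lit 238) (nat_lit 5) (nat_lit 440) (nat_lit 419) (nat_lit 341)) (XT.lf (nat_lit 0) (nat_lit 5104470949) (nat_lit 532) (nat_lit 2035233167) (nat_lit 76) (nat_lit 11437956578) (nat_lit 224) (nat_lit 5)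 (nat_lit 231) (nat_lit 5) (nat_lit 225) (nat_lit 5) (nat_lit 441) (nat_lit 419) (nat_lit 340)))) (XT.nd (nat_lit 156) (nat_lit 912) (nat_lit 0) (XT.nd (nat_lit 78) (nat_lit 380) (nat_lit 0) (XT.lf (nat_lit 0) (nat_lit 10739074023) (nat_lit 532) (nat_lit 2782976446) (nat_lit 76) (nat_lit 5584484479) (nat_lit 218) (nat_lit 5) (nat_lit 225) (nat_lit 5) (nat_lit 219) (nat_lit 5) (nat_lit 442) (nat_lit 419) (nat_lit 339)) (XT.lf (nat_lit 0) (nat_lit 16191162191) (nat_lit 380) (nat_lit 686265512) (nat_lit 456) (nat_lit 2777766481) (nat_lit 213) (nat_lit 5) (nat_lit 218) (nat_lit 5) (nat_lit 219) (nat_lit 5) (nat_lit 443) (nat_lit 419) (nat_lit 338))) (XT.nd (nat_lit 78) (nat_lit 380) (nat_lit 0) (XT.lf (nat_lit 0) (nat_lit 3314556615) (nat_lit 532) (nat_lit 4156564178) (nat_lit 76) (nat_lit 12750771779) (nat_lit 206) (nat_lit 5) (nat_lit 213) (nat_lit 5) (nat_lit 207) (nat_lit 5) (nat_lit 444) (nat_lit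 419) (nat_lit 337)) (XT.lf (nat_lit 0) (nat_lit 9886779642) (nat_lit 456) (nat_lit 4798330331) (nat_lit 76) (nat_lit 6124010517) (nat_lit 201) (nat_lit 5) (nat_lit 207) (nat_lit 5) (nat_lit 202) (nat_lit 5) (nat_lit 445) (nat_lit 419) (nat_lit 336)))))) (XT.nd (nat_lit 546) (nat_lit 2052) (nat_lit 0) (XT.nd (nat_lit 234) (nat_lit 1292) (nat_lit 0) (XT.nd (nat_lit 78) (nat_lit 760) (nat_lit 0) (XT.lf (nat_lit 0) (nat_lit 16053296248) (nat_lit 380) (nat_lit 982786351) (nat_lit 456) (nat_lit 4382174723) (nat_lit 196) (nat_lit 5) (nat_lit 201) (nat_lit 5) (nat_lit 202) (nat_lit 5) (nat_lit 446) (nat_lit 419) (nat_lit 335)) (XT.nd (nat_lit 78) (nat_lit 380) (nat_lit 0) (XT.lf (nat_lit 0) (nat_lit 2749814545) (nat_lit 380) (nat_lit 5931162614) (nat_lit 76) (nat_lit 13366759493) (nat_lit 191) (nat_lit 5) (nat_lit 196) (nat_lit 5) (nat_lit 192) (nat_lit 5) (nat_lit 447) (nat_lit 419) (nat_lit 334)) (XT.lf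 (nat_lit 0) (nat_lit 10405277267) (nat_lit 456) (nat_lit 6450151546) (nat_lit 76) (nat_lit 5844235768) (nat_lit 186) (nat_lit 5) (nat_lit 192) (nat_lit 5) (nat_lit 187) (nat_lit 5) (nat_lit 448) (nat_lit 419) (nat_lit 333)))) (XT.nd (nat_lit 156) (nat_lit 608) (nat_lit 0) (XT.nd (nat_lit 78) (nat_lit 380) (nat_lit 0) (XT.lf (nat_lit 0) (nat_lit 16482278203) (nat_lit 304) (nat_lit 2246567643) (nat_lit 380) (nat_lit 4646784402) (nat_lit 182) (nat_lit 5) (nat_lit 186) (nat_lit 5) (nat_lit 187) (nat_lit 5) (nat_lit 449) (nat_lit 419) (nat_lit 332)) (XT.lf (nat_lit 0) (nat_lit 3652995149) (nat_lit 380) (nat_lit 7329130294) (nat_lit 76) (nat_lit 13092219893) (nat_lit 177) (nat_lit 5) (nat_lit 182) (nat_lit 5) (nat_lit 178) (nat_lit 5) (nat_lit 450) (nat_lit 419) (nat_lit 331))) (XT.nd (nat_lit 78) (nat_lit 304) (nat_lit 0) (XT.lf (nat_lit 0) (nat_lit 12554918766) (nat_lit 380) (nat_lit 7707005098) (nat_lit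 76) (nat_lit 4536195517) (nat_lit 173) (nat_lit 5) (nat_lit 178) (nat_lit 5) (nat_lit 174) (nat_lit 5) (nat_lit 451) (nat_lit 419) (nat_lit 330)) (XT.lf (nat_lit 0) (nat_lit 17529453196) (nat_lit 304) (nat_lit 4707475361) (nat_lit 380) (nat_lit 3311104982) (nat_lit 169) (nat_lit 5) (nat_lit 173) (nat_lit 5) (nat_lit 174) (nat_lit 5) (nat_lit 452) (nat_lit 419) (nat_lit 329))))) (XT.nd (nat_lit 234) (nat_lit 1140) (nat_lit 0) (XT.nd (nat_lit 78) (nat_lit 532) (nat_lit 0) (XT.lf (nat_lit 0) (nat_lit 6298179390) (nat_lit 380) (nat_lit 8321455424) (nat_lit 76) (nat_lit 11703590319) (nat_lit 164) (nat_lit 5) (nat_lit 169) (nat_lit 5) (nat_lit 165) (nat_lit 5) (nat_lit 453) (nat_lit 419) (nat_lit 328)) (XT.nd (nat_lit 78) (nat_lit 228) (nat_lit 0) (XT.lf (nat_lit 0) (nat_lit 16629543058) (nat_lit 380) (nat_lit 8539180204) (nat_lit 76) (nat_lit 1958167710) (nat_lit 160) (nat_lit 5) (nat_lit 165) (nat_lit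 5) (nat_lit 161) (nat_lit 5) (nat_lit 454) (nat_lit 419) (nat_lit 327)) (XT.lf (nat_lit 0) (nat_lit 19245726850) (nat_lit 228) (nat_lit 8631888322) (nat_lit 304) (nat_lit 81121656) (nat_lit 157) (nat_lit 5) (nat_lit 160) (nat_lit 5) (nat_lit 161) (nat_lit 5) (nat_lit 455) (nat_lit 419) (nat_lit 326)))) (XT.nd (nat_lit 156) (nat_lit 532) (nat_lit 0) (XT.nd (nat_lit 78) (nat_lit 228) (nat_lit 0) (XT.lf (nat_lit 0) (nat_lit 10994512501) (nat_lit 380) (nat_lit 8883488426) (nat_lit 76) (nat_lit 8940531263) (nat_lit 152) (nat_lit 5) (nat_lit 157) (nat_lit 5) (nat_lit 153) (nat_lit 5) (nat_lit 456) (nat_lit 419) (nat_lit 325)) (XT.lf (nat_lit 0) (nat_lit 20766744761) (nat_lit 228) (nat_lit 2214872276) (nat_lit 304) (nat_lit 6728896014) (nat_lit 149) (nat_lit 5) (nat_lit 152) (nat_lit 5) (nat_lit 153) (nat_lit 5) (nat_lit 457) (nat_lit 419) (nat_lit 324))) (XT.nd (nat_lit 78) (nat_lit 228) (nat_lit 0)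 (XT.lf (nat_lit 0) (nat_lit 5269548009) (nat_lit 304) (nat_lit 9007864356) (nat_lit 76) (nat_lit 16354924537) (nat_lit 145) (nat_lit 5) (nat_lit 149) (nat_lit 5) (nat_lit 146) (nat_lit 5) (nat_lit 458) (nat_lit 419) (nat_lit 323)) (XT.lf (nat_lit 0) (nat_lit 18089954356) (nat_lit 304) (nat_lit 8999573515) (nat_lit 76) (nat_lit 4497889994) (nat_lit 142) (nat_lit 5) (nat_lit 146) (nat_lit 5) (nat_lit 143) (nat_lit 5) (nat_lit 459) (nat_lit 419) (nat_lit 322))))))))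
noncomputable def xc80 : XT := (XT.nd (nat_lit 2028) (nat_lit 1520) (nat_lit 0) (XT.nd (nat_lit 1014) (nat_lit 2128) (nat_lit 0) (XT.nd (nat_lit 468) (nat_lit 1444) (nat_lit 0) (XT.nd (nat_lit 234) (nat_lit 684) (nat_lit 0) (XT.nd (nat_lit 78) (nat_lit 532) (nat_lit 0) (XT.lf (nat_lit 0) (nat_lit 23653298549) (nat_lit 228) (nat_lit 8346572031) (nat_lit 304) (nat_lit 576928298) (nat_lit 139) (nat_lit 5) (nat_lit 142) (nat_lit 5) (nat_lit 143) (nat_lit 5) (nat_lit 460) (nat_lit 419) (nat_lit 321)) (XT.nd (nat_lit 78) (nat_lit 228) (nat_lit 0) (XT.lf (nat_lit 0) (nat_lit 13165670516) (nat_lit 304) (nat_lit 8869607974) (nat_lit 76) (nat_lit 11563739818) (nat_lit 135) (nat_lit 5) (nat_lit 139) (nat_lit 5) (nat_lit 136) (nat_lit 5) (nat_lit 461) (nat_lit 419) (nat_lit 320)) (XT.lf (nat_lit 0) (nat_lit 25971176359) (nat_lit 228) (nat_lit 2023233942) (nat_lit 304) (nat_lit 6665439365) (nat_lit 132) (nat_lit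 5) (nat_lit 135) (nat_lit 5) (nat_lit 136) (nat_lit 5) (nat_lit 462) (nat_lit 419) (nat_lit 319)))) (XT.nd (nat_lit 78) (nat_lit 456) (nat_lit 0) (XT.lf (nat_lit 0) (nat_lit 8165663847) (nat_lit 228) (nat_lit 8546740114) (nat_lit 76) (nat_lit 19043267658) (nat_lit 129) (nat_lit 5) (nat_lit 132) (nat_lit 5) (nat_lit 130) (nat_lit 5) (nat_lit 463) (nat_lit 419) (nat_lit 318)) (XT.nd (nat_lit 78) (nat_lit 228) (nat_lit 0) (XT.lf (nat_lit 0) (nat_lit 24017276368) (nat_lit 304) (nat_lit 8314140833) (nat_lit 76) (nat_lit 4560384000) (nat_lit 126) (nat_lit 5) (nat_lit 130) (nat_lit 5) (nat_lit 127) (nat_lit 5) (nat_lit 464) (nat_lit 419) (nat_lit 317)) (XT.lf (nat_lit 0) (nat_lit 3063369273) (nat_lit 228) (nat_lit 8052523768) (nat_lit 76) (nat_lit 26951994090) (nat_lit 123) (nat_lit 5) (nat_lit 126) (nat_lit 5) (nat_lit 124) (nat_lit 5) (nat_lit 465) (nat_lit 419) (nat_lit 316))))) (XT.nd (nat_lit 234)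 (nat_lit 760) (nat_lit 0) (XT.nd (nat_lit 78) (nat_lit 456) (nat_lit 0) (XT.lf (nat_lit 0) (nat_lit 20022470648) (nat_lit 304) (nat_lit 7804115350) (nat_lit 76) (nat_lit 11457650389) (nat_lit 120) (nat_lit 5) (nat_lit 124) (nat_lit 5) (nat_lit 121) (nat_lit 5) (nat_lit 466) (nat_lit 419) (nat_lit 315)) (XT.nd (nat_lit 78) (nat_lit 304) (nat_lit 0) (XT.lf (nat_lit 0) (nat_lit 33107365872) (nat_lit 152) (nat_lit 5222294525) (nat_lit 228) (nat_lit 2216739158) (nat_lit 118) (nat_lit 5) (nat_lit 120) (nat_lit 5) (nat_lit 121) (nat_lit 5) (nat_lit 467) (nat_lit 419) (nat_lit 314)) (XT.lf (nat_lit 0) (nat_lit 15960557545) (nat_lit 304) (nat_lit 7175509947) (nat_lit 76) (nat_lit 18713501797) (nat_lit 114) (nat_lit 5) (nat_lit 118) (nat_lit 5) (nat_lit 115) (nat_lit 5) (nat_lit 468) (nat_lit 419) (nat_lit 313)))) (XT.nd (nat_lit 156) (nat_lit 380) (nat_lit 0) (XT.nd (nat_lit 78) (nat_lit 228) (nat_lit 0)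 (XT.lf (nat_lit 0) (nat_lit 35477667713) (nat_lit 228) (nat_lit 6768226766) (nat_lit 76) (nat_lit 957041161) (nat_lit 112) (nat_lit 5) (nat_lit 115) (nat_lit 5) (nat_lit 113) (nat_lit 5) (nat_lit 469) (nat_lit 419) (nat_lit 312)) (XT.lf (nat_lit 0) (nat_lit 11794468233) (nat_lit 228) (nat_lit 6477317346) (nat_lit 76) (nat_lit 26328836381) (nat_lit 109) (nat_lit 5) (nat_lit 112) (nat_lit 5) (nat_lit 110) (nat_lit 5) (nat_lit 470) (nat_lit 419) (nat_lit 311))) (XT.nd (nat_lit 78) (nat_lit 228) (nat_lit 0) (XT.lf (nat_lit 0) (nat_lit 32645640399) (nat_lit 228) (nat_lit 6110015029) (nat_lit 76) (nat_lit 7294786292) (nat_lit 107) (nat_lit 5) (nat_lit 110) (nat_lit 5) (nat_lit 108) (nat_lit 5) (nat_lit 471) (nat_lit 419) (nat_lit 310)) (XT.lf (nat_lit 0) (nat_lit 7478618245) (nat_lit 228) (nat_lit 5773981013) (nat_lit 76) (nat_lit 34298706208) (nat_lit 104) (nat_lit 5) (nat_lit 107) (nat_lit 5) (nat_lit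 105) (nat_lit 5) (nat_lit 472) (nat_lit 419) (nat_lit 309)))))) (XT.nd (nat_lit 468) (nat_lit 1064) (nat_lit 0) (XT.nd (nat_lit 234) (nat_lit 532) (nat_lit 0) (XT.nd (nat_lit 78) (nat_lit 380) (nat_lit 0) (XT.lf (nat_lit 0) (nat_lit 29739532000) (nat_lit 228) (nat_lit 5487759917) (nat_lit 76) (nat_lit 13877622513) (nat_lit 102) (nat_lit 5) (nat_lit 105) (nat_lit 5) (nat_lit 103) (nat_lit 5) (nat_lit 473) (nat_lit 419) (nat_lit 308)) (XT.nd (nat_lit 78) (nat_lit 152) (nat_lit 0) (XT.lf (nat_lit 0) (nat_lit 2957205951) (nat_lit 228) (nat_lit 5148747143) (nat_lit 76) (nat_lit 42610776238) (nat_lit 99) (nat_lit 5) (nat_lit 102) (nat_lit 5) (nat_lit 100) (nat_lit 5) (nat_lit 474) (nat_lit 419) (nat_lit 307)) (XT.lf (nat_lit 0) (nat_lit 26704783095) (nat_lit 228) (nat_lit 4995742139) (nat_lit 76) (nat_lit 20681576965) (nat_lit 97) (nat_lit 5) (nat_lit 100) (nat_lit 5) (nat_lit 98) (nat_lit 5) (nat_lit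 475) (nat_lit 419) (nat_lit 306)))) (XT.nd (nat_lit 78) (nat_lit 380) (nat_lit 0) (XT.lf (nat_lit 0) (nat_lit 49387122156) (nat_lit 152) (nat_lit 2851282316) (nat_lit 228) (nat_lit 1874379533) (nat_lit 95) (nat_lit 5) (nat_lit 97) (nat_lit 5) (nat_lit 98) (nat_lit 5) (nat_lit 476) (nat_lit 419) (nat_lit 305)) (XT.nd (nat_lit 78) (nat_lit 152) (nat_lit 0) (XT.lf (nat_lit 0) (nat_lit 23473960580) (nat_lit 228) (nat_lit 4753296556) (nat_lit 76) (nat_lit 27671884583) (nat_lit 92) (nat_lit 5) (nat_lit 95) (nat_lit 5) (nat_lit 93) (nat_lit 5) (nat_lit 477) (nat_lit 419) (nat_lit 304)) (XT.lf (nat_lit 0) (nat_lit 50652560848) (nat_lit 228) (nat_lit 4676517196) (nat_lit 76) (nat_lit 2427134509) (nat_lit 90) (nat_lit 5) (nat_lit 93) (nat_lit 5) (nat_lit 91) (nat_lit 4) (nat_lit 478) (nat_lit 419) (nat_lit 303))))) (XT.nd (nat_lit 234) (nat_lit 608) (nat_lit 0) (XT.nd (nat_lit 78) (nat_lit 304) (nat_lit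 0) (XT.lf (nat_lit 0) (nat_lit 19964198259) (nat_lit 152) (nat_lit 4909949167) (nat_lit 76) (nat_lit 34800557575) (nat_lit 88) (nat_lit 5) (nat_lit 90) (nat_lit 5) (nat_lit 89) (nat_lit 5) (nat_lit 479) (nat_lit 419) (nat_lit 302)) (XT.nd (nat_lit 78) (nat_lit 152) (nat_lit 0) (XT.lf (nat_lit 0) (nat_lit 48896908244) (nat_lit 228) (nat_lit 5143310368) (nat_lit 76) (nat_lit 7627042205) (nat_lit 86) (nat_lit 5) (nat_lit 89) (nat_lit 5) (nat_lit 87) (nat_lit 4) (nat_lit 480) (nat_lit 419) (nat_lit 301)) (XT.lf (nat_lit 0) (nat_lit 16074168912) (nat_lit 152) (nat_lit 5651498222) (nat_lit 76) (nat_lit 42003498308) (nat_lit 84) (nat_lit 5) (nat_lit 86) (nat_lit 5) (nat_lit 85) (nat_lit 5) (nat_lit 481) (nat_lit 419) (nat_lit 300)))) (XT.nd (nat_lit 156) (nat_lit 304) (nat_lit 0) (XT.nd (nat_lit 78) (nat_lit 152) (nat_lit 0) (XT.lf (nat_lit 0) (nat_lit 46841222167) (nat_lit 228) (nat_lit 6305330782) (nat_lit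 76) (nat_lit 12721486864) (nat_lit 82) (nat_lit 5) (nat_lit 85) (nat_lit 5) (nat_lit 83) (nat_lit 4) (nat_lit 482) (nat_lit 419) (nat_lit 299)) (XT.lf (nat_lit 0) (nat_lit 11680505814) (nat_lit 152) (nat_lit 7207205823) (nat_lit 76) (nat_lit 49197074075) (nat_lit 80) (nat_lit 5) (nat_lit 82) (nat_lit 5) (nat_lit 81) (nat_lit 5) (nat_lit 483) (nat_lit 419) (nat_lit 298))) (XT.nd (nat_lit 78) (nat_lit 152) (nat_lit 0) (XT.lf (nat_lit 0) (nat_lit 44359261761) (nat_lit 228) (nat_lit 8416821396) (nat_lit 76) (nat_lit 17605747270) (nat_lit 78) (nat_lit 5) (nat_lit 81) (nat_lit 5) (nat_lit 79) (nat_lit 4) (nat_lit 484) (nat_lit 419) (nat_lit 297)) (XT.lf (nat_lit 0) (nat_lit 6633577540) (nat_lit 152) (nat_lit 9858295082) (nat_lit 76) (nat_lit 56274058100) (nat_lit 76) (nat_lit 5) (nat_lit 78) (nat_lit 5) (nat_lit 77) (nat_lit 5) (nat_lit 485) (nat_lit 419) (nat_lit 296))))))) (XT.nd (nat_lit 57408) (nat_lit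 0) (nat_lit 17100) (XT.nd (nat_lit 468) (nat_lit 684) (nat_lit 0) (XT.nd (nat_lit 234) (nat_lit 380) (nat_lit 0) (XT.nd (nat_lit 78) (nat_lit 304) (nat_lit 0) (XT.lf (nat_lit 0) (nat_lit 41296816729) (nat_lit 228) (nat_lit 11788804410) (nat_lit 76) (nat_lit 22148511383) (nat_lit 74) (nat_lit 5) (nat_lit 77) (nat_lit 5) (nat_lit 75) (nat_lit 4) (nat_lit 486) (nat_lit 419) (nat_lit 295)) (XT.nd (nat_lit 78) (nat_lit 152) (nat_lit 0) (XT.lf (nat_lit 0) (nat_lit 752503296) (nat_lit 152) (nat_lit 13947981467) (nat_lit 76) (nat_lit 63098824679) (nat_lit 72) (nat_lit 5) (nat_lit 74) (nat_lit 5) (nat_lit 73) (nat_lit 5) (nat_lit 487) (nat_lit 419) (nat_lit 294)) (XT.lf (nat_lit 0) (nat_lit 37466342786) (nat_lit 228) (nat_lit 16799978162) (nat_lit 76) (nat_lit 26186601835) (nat_lit 70) (nat_lit 5) (nat_lit 73) (nat_lit 5) (nat_lit 71) (nat_lit 4) (nat_lit 488) (nat_lit 419) (nat_lit 293)))) (XT.nd (nat_lit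 78) (nat_lit 304) (nat_lit 0) (XT.lf (nat_lit 0) (nat_lit 63258530511) (nat_lit 76) (nat_lit 13650169760) (nat_lit 152) (nat_lit 6303731851) (nat_lit 69) (nat_lit 5) (nat_lit 70) (nat_lit 5) (nat_lit 71) (nat_lit 4) (nat_lit 489) (nat_lit 419) (nat_lit 292)) (XT.nd (nat_lit 78) (nat_lit 76) (nat_lit 0) (XT.lf (nat_lit 0) (nat_lit 32640634550) (nat_lit 228) (nat_lit 23909566984) (nat_lit 76) (nat_lit 29518746717) (nat_lit 66) (nat_lit 5) (nat_lit 69) (nat_lit 5) (nat_lit 67) (nat_lit 4) (nat_lit 490) (nat_lit 419) (nat_lit 291)) (XT.lf (nat_lit 0) (nat_lit 60698230630) (nat_lit 76) (nat_lit 13625233075) (nat_lit 152) (nat_lit 14715305727) (nat_lit 65) (nat_lit 5) (nat_lit 66) (nat_lit 5) (nat_lit 67) (nat_lit 4) (nat_lit 491) (nat_lit 419) (nat_lit 290))))) (XT.nd (nat_lit 234) (nat_lit 304) (nat_lit 0) (XT.nd (nat_lit 78) (nat_lit 228) (nat_lit 0) (XT.lf (nat_lit 0) (nat_lit 26545368521) (nat_lit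 152) (nat_lit 33672463895) (nat_lit 76) (nat_lit 31898228662) (nat_lit 63) (nat_lit 5) (nat_lit 65) (nat_lit 5) (nat_lit 64) (nat_lit 4) (nat_lit 492) (nat_lit 419) (nat_lit 289)) (XT.nd (nat_lit 78) (nat_lit 152) (nat_lit 0) (XT.lf (nat_lit 0) (nat_lit 55601378951) (nat_lit 76) (nat_lit 14924872353) (nat_lit 152) (nat_lit 24787749910) (nat_lit 62) (nat_lit 5) (nat_lit 63) (nat_lit 5) (nat_lit 64) (nat_lit 4) (nat_lit 493) (nat_lit 419) (nat_lit 288)) (XT.lf (nat_lit 0) (nat_lit 18850320054) (nat_lit 152) (nat_lit 46757064306) (nat_lit 76) (nat_lit 33024216512) (nat_lit 60) (nat_lit 5) (nat_lit 62) (nat_lit 5) (nat_lit 61) (nat_lit 4) (nat_lit 494) (nat_lit 419) (nat_lit 287)))) (XT.nd (nat_lit 156) (nat_lit 76) (nat_lit 0) (XT.nd (nat_lit 78) (nat_lit 152) (nat_lit 0) (XT.lf (nat_lit 0) (nat_lit 47270844929) (nat_lit 76) (nat_lit 17901830310) (nat_lit 152) (nat_lit 36904591741) (nat_lit 59) (nat_lit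 5) (nat_lit 60) (nat_lit 5) (nat_lit 61) (nat_lit 4) (nat_lit 495) (nat_lit 419) (nat_lit 286)) (XT.lf (nat_lit 0) (nat_lit 9159024613) (nat_lit 152) (nat_lit 63966257138) (nat_lit 76) (nat_lit 32531550339) (nat_lit 57) (nat_lit 5) (nat_lit 59) (nat_lit 5) (nat_lit 58) (nat_lit 4) (nat_lit 496) (nat_lit 419) (nat_lit 285))) (XT.nd (nat_lit 56472) (nat_lit 0) (nat_lit 20520) (XT.lf (nat_lit 0) (nat_lit 34866601618) (nat_lit 76) (nat_lit 22981367766) (nat_lit 152) (nat_lit 51523882644) (nat_lit 56) (nat_lit 5) (nat_lit 57) (nat_lit 5) (nat_lit 58) (nat_lit 4) (nat_lit 497) (nat_lit 419) (nat_lit 284)) (XT.lf (nat_lit 0) (nat_lit 1039939403) (nat_lit 0) (nat_lit 1039939403) (nat_lit 1140) (nat_lit 3497516897) (nat_lit 326) (nat_lit 5) (nat_lit 326) (nat_lit 3) (nat_lit 341) (nat_lit 3) (nat_lit 420) (nat_lit 420) (nat_lit 360)))))) (XT.nd (nat_lit 468) (nat_lit 2508) (nat_lit 0) (XT.nd (nat_lit 234)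 (nat_lit 912) (nat_lit 0) (XT.nd (nat_lit 78) (nat_lit 0) (nat_lit 76) (XT.lf (nat_lit 76) (nat_lit 91061214) (nat_lit 0) (nat_lit 5148119139) (nat_lit 1216) (nat_lit 6165130107) (nat_lit 327) (nat_lit 5) (nat_lit 326) (nat_lit 5) (nat_lit 342) (nat_lit 5) (nat_lit 421) (nat_lit 420) (nat_lit 359)) (XT.nd (nat_lit 78) (nat_lit 0) (nat_lit 76) (XT.lf (nat_lit 0) (nat_lit 6461203411) (nat_lit 1140) (nat_lit 1845876438) (nat_lit 1216) (nat_lit 3356572366) (nat_lit 327) (nat_lit 5) (nat_lit 342) (nat_lit 5) (nat_lit 343) (nat_lit 5) (nat_lit 422) (nat_lit 420) (nat_lit 358)) (XT.lf (nat_lit 0) (nat_lit 7822739937) (nat_lit 1140) (nat_lit 3767048071) (nat_lit 1216) (nat_lit 343826035) (nat_lit 328) (nat_lit 5) (nat_lit 343) (nat_lit 5) (nat_lit 344) (nat_lit 5) (nat_lit 423) (nat_lit 420) (nat_lit 357)))) (XT.nd (nat_lit 78) (nat_lit 1064) (nat_lit 0) (XT.lf (nat_lit 76) (nat_lit 6511555675) (nat_lit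 0) (nat_lit 2853518966) (nat_lit 1216) (nat_lit 2848622783) (nat_lit 329) (nat_lit 5) (nat_lit 328) (nat_lit 5) (nat_lit 344) (nat_lit 5) (nat_lit 424) (nat_lit 420) (nat_lit 356)) (XT.nd (nat_lit 78) (nat_lit 1140) (nat_lit 0) (XT.lf (nat_lit 76) (nat_lit 4876283500) (nat_lit 0) (nat_lit 6204506614) (nat_lit 1216) (nat_lit 1424111800) (nat_lit 330) (nat_lit 5) (nat_lit 329) (nat_lit 5) (nat_lit 345) (nat_lit 5) (nat_lit 425) (nat_lit 420) (nat_lit 355)) (XT.lf (nat_lit 0) (nat_lit 171368231) (nat_lit 1216) (nat_lit 9544675321) (nat_lit 1292) (nat_lit 3091572677) (nat_lit 314) (nat_lit 5) (nat_lit 330) (nat_lit 5) (nat_lit 331) (nat_lit 5) (nat_lit 426) (nat_lit 420) (nat_lit 354))))) (XT.nd (nat_lit 234) (nat_lit 2508) (nat_lit 0) (XT.nd (nat_lit 78) (nat_lit 0) (nat_lit 76) (XT.lf (nat_lit 76) (nat_lit 1655406145) (nat_lit 0) (nat_lit 273112533) (nat_lit 1292) (nat_lit 11193188380) (nat_lit 315)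 (nat_lit 5) (nat_lit 314) (nat_lit 5) (nat_lit 331) (nat_lit 5) (nat_lit 427) (nat_lit 420) (nat_lit 353)) (XT.nd (nat_lit 78) (nat_lit 0) (nat_lit 76) (XT.lf (nat_lit 76) (nat_lit 38511475) (nat_lit 0) (nat_lit 3882542281) (nat_lit 1292) (nat_lit 9526026936) (nat_lit 316) (nat_lit 5) (nat_lit 315) (nat_lit 5) (nat_lit 332) (nat_lit 5) (nat_lit 428) (nat_lit 420) (nat_lit 352)) (XT.lf (nat_lit 0) (nat_lit 6150920866) (nat_lit 1216) (nat_lit 1524890183) (nat_lit 1292) (nat_lit 6108784680) (nat_lit 316) (nat_lit 5) (nat_lit 332) (nat_lit 5) (nat_lit 333) (nat_lit 5) (nat_lit 429) (nat_lit 420) (nat_lit 351)))) (XT.nd (nat_lit 156) (nat_lit 1520) (nat_lit 0) (XT.nd (nat_lit 78) (nat_lit 1216) (nat_lit 0) (XT.lf (nat_lit 0) (nat_lit 8621339390) (nat_lit 1216) (nat_lit 3063211343) (nat_lit 76) (nat_lit 2450567740) (nat_lit 317) (nat_lit 5) (nat_lit 333) (nat_lit 5) (nat_lit 318) (nat_lit 5) (nat_lit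 430) (nat_lit 420) (nat_lit 350)) (XT.lf (nat_lit 0) (nat_lit 9909510014) (nat_lit 1216) (nat_lit 1455221314) (nat_lit 1292) (nat_lit 3133955972) (nat_lit 301) (nat_lit 5) (nat_lit 317) (nat_lit 5) (nat_lit 318) (nat_lit 5) (nat_lit 431) (nat_lit 420) (nat_lit 349))) (XT.nd (nat_lit 78) (nat_lit 684) (nat_lit 0) (XT.lf (nat_lit 0) (nat_lit 8762664513) (nat_lit 836) (nat_lit 5650424655) (nat_lit 912) (nat_lit 462314863) (nat_lit 290) (nat_lit 5) (nat_lit 301) (nat_lit 5) (nat_lit 302) (nat_lit 5) (nat_lit 432) (nat_lit 420) (nat_lit 348)) (XT.lf (nat_lit 0) (nat_lit 2447895921) (nat_lit 684) (nat_lit 7631252555) (nat_lit 76) (nat_lit 5186614393) (nat_lit 281) (nat_lit 5) (nat_lit 290) (nat_lit 5) (nat_lit 282) (nat_lit 5) (nat_lit 433) (nat_lit 420) (nat_lit 347))))))))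
noncomputable def xc81 : XT := (XT.nd (nat_lit 2028) (nat_lit 5244) (nat_lit 0) (XT.nd (nat_lit 1014) (nat_lit 4256) (nat_lit 0) (XT.nd (nat_lit 468) (nat_lit 2736) (nat_lit 0) (XT.nd (nat_lit 234) (nat_lit 1596) (nat_lit 0) (XT.nd (nat_lit 78) (nat_lit 1140) (nat_lit 0) (XT.lf (nat_lit 0) (nat_lit 5651505407) (nat_lit 684) (nat_lit 9125114596) (nat_lit 76) (nat_lit 894161790) (nat_lit 273) (nat_lit 5) (nat_lit 282) (nat_lit 5) (nat_lit 274) (nat_lit 5) (nat_lit 434) (nat_lit 420) (nat_lit 346)) (XT.nd (nat_lit 78) (nat_lit 608) (nat_lit 0) (XT.lf (nat_lit 0) (nat_lit 5467345797) (nat_lit 532) (nat_lit 3747933212) (nat_lit 608) (nat_lit 6874775957) (nat_lit 266) (nat_lit 5) (nat_lit 273) (nat_lit 5) (nat_lit 274) (nat_lit 5) (nat_lit 435) (nat_lit 420) (nat_lit 345)) (XT.lf (nat_lit 0) (nat_lit 4428815719) (nat_lit 608) (nat_lit 8708790087) (nat_lit 684) (nat_lit 3387277734) (nat_lit 258) (nat_lit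 5) (nat_lit 266) (nat_lit 5) (nat_lit 267) (nat_lit 5) (nat_lit 436) (nat_lit 420) (nat_lit 344)))) (XT.nd (nat_lit 78) (nat_lit 988) (nat_lit 0) (XT.lf (nat_lit 0) (nat_lit 448715970) (nat_lit 608) (nat_lit 13537000825) (nat_lit 76) (nat_lit 2990275669) (nat_lit 250) (nat_lit 5) (nat_lit 258) (nat_lit 5) (nat_lit 251) (nat_lit 5) (nat_lit 437) (nat_lit 420) (nat_lit 343)) (XT.nd (nat_lit 78) (nat_lit 456) (nat_lit 0) (XT.lf (nat_lit 0) (nat_lit 2448506709) (nat_lit 532) (nat_lit 2165498500) (nat_lit 608) (nat_lit 12828421362) (nat_lit 243) (nat_lit 5) (nat_lit 250) (nat_lit 5) (nat_lit 251) (nat_lit 5) (nat_lit 438) (nat_lit 420) (nat_lit 342)) (XT.lf (nat_lit 0) (nat_lit 1483770665) (nat_lit 456) (nat_lit 7728076722) (nat_lit 532) (nat_lit 8713608589) (nat_lit 237) (nat_lit 5) (nat_lit 243) (nat_lit 5) (nat_lit 244) (nat_lit 5) (nat_lit 439) (nat_lit 420) (nat_lit 341))))) (XT.nd (nat_lit 234)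 (nat_lit 1748) (nat_lit 0) (XT.nd (nat_lit 78) (nat_lit 532) (nat_lit 0) (XT.lf (nat_lit 0) (nat_lit 580294381) (nat_lit 456) (nat_lit 13659423566) (nat_lit 532) (nat_lit 4186916955) (nat_lit 231) (nat_lit 5) (nat_lit 237) (nat_lit 5) (nat_lit 238) (nat_lit 5) (nat_lit 440) (nat_lit 420) (nat_lit 340)) (XT.nd (nat_lit 78) (nat_lit 456) (nat_lit 0) (XT.lf (nat_lit 0) (nat_lit 776592544) (nat_lit 532) (nat_lit 268879806) (nat_lit 76) (nat_lit 17900593243) (nat_lit 230) (nat_lit 5) (nat_lit 237) (nat_lit 5) (nat_lit 231) (nat_lit 5) (nat_lit 441) (nat_lit 420) (nat_lit 339)) (XT.lf (nat_lit 0) (nat_lit 6173374454) (nat_lit 532) (nat_lit 1130707865) (nat_lit 76) (nat_lit 12177993081) (nat_lit 224) (nat_lit 5) (nat_lit 231) (nat_lit 5) (nat_lit 225) (nat_lit 5) (nat_lit 442) (nat_lit 420) (nat_lit 338)))) (XT.nd (nat_lit 156) (nat_lit 912) (nat_lit 0) (XT.nd (nat_lit 78) (nat_lit 380) (nat_lit 0) (XT.lf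 (nat_lit 0) (nat_lit 12062213107) (nat_lit 532) (nat_lit 1922954598) (nat_lit 76) (nat_lit 6053053258) (nat_lit 218) (nat_lit 5) (nat_lit 225) (nat_lit 5) (nat_lit 219) (nat_lit 5) (nat_lit 443) (nat_lit 420) (nat_lit 337)) (XT.lf (nat_lit 0) (nat_lit 17971249944) (nat_lit 380) (nat_lit 508126452) (nat_lit 456) (nat_lit 2135782634) (nat_lit 213) (nat_lit 5) (nat_lit 218) (nat_lit 5) (nat_lit 219) (nat_lit 5) (nat_lit 444) (nat_lit 420) (nat_lit 336))) (XT.nd (nat_lit 78) (nat_lit 380) (nat_lit 0) (XT.lf (nat_lit 0) (nat_lit 4220771741) (nat_lit 532) (nat_lit 3386739277) (nat_lit 76) (nat_lit 13603212980) (nat_lit 206) (nat_lit 5) (nat_lit 213) (nat_lit 5) (nat_lit 207) (nat_lit 5) (nat_lit 445) (nat_lit 420) (nat_lit 335)) (XT.lf (nat_lit 0) (nat_lit 11097734636) (nat_lit 456) (nat_lit 4069402667) (nat_lit 76) (nat_lit 6660894462) (nat_lit 201) (nat_lit 5) (nat_lit 207) (nat_lit 5) (nat_lit 202)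 (nat_lit 5) (nat_lit 446) (nat_lit 420) (nat_lit 334)))))) (XT.nd (nat_lit 468) (nat_lit 2128) (nat_lit 0) (XT.nd (nat_lit 234) (nat_lit 988) (nat_lit 0) (XT.nd (nat_lit 78) (nat_lit 760) (nat_lit 0) (XT.lf (nat_lit 0) (nat_lit 17797033517) (nat_lit 380) (nat_lit 782390816) (nat_lit 456) (nat_lit 3888955660) (nat_lit 196) (nat_lit 5) (nat_lit 201) (nat_lit 5) (nat_lit 202) (nat_lit 5) (nat_lit 447) (nat_lit 420) (nat_lit 333)) (XT.nd (nat_lit 78) (nat_lit 380) (nat_lit 0) (XT.lf (nat_lit 0) (nat_lit 3563828884) (nat_lit 380) (nat_lit 5282254723) (nat_lit 76) (nat_lit 14283703422) (nat_lit 191) (nat_lit 5) (nat_lit 196) (nat_lit 5) (nat_lit 192) (nat_lit 5) (nat_lit 448) (nat_lit 420) (nat_lit 332)) (XT.lf (nat_lit 0) (nat_lit 11581226749) (nat_lit 456) (nat_lit 5837211344) (nat_lit 76) (nat_lit 6396500341) (nat_lit 186) (nat_lit 5) (nat_lit 192) (nat_lit 5) (nat_lit 187) (nat_lit 5) (nat_lit 449)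 (nat_lit 420) (nat_lit 331)))) (XT.nd (nat_lit 78) (nat_lit 684) (nat_lit 0) (XT.lf (nat_lit 0) (nat_lit 18215025470) (nat_lit 304) (nat_lit 2083459503) (nat_lit 380) (nat_lit 4226893924) (nat_lit 182) (nat_lit 5) (nat_lit 186) (nat_lit 5) (nat_lit 187) (nat_lit 5) (nat_lit 450) (nat_lit 420) (nat_lit 330)) (XT.nd (nat_lit 78) (nat_lit 304) (nat_lit 0) (XT.lf (nat_lit 0) (nat_lit 4455963788) (nat_lit 380) (nat_lit 6784703990) (nat_lit 76) (nat_lit 14018751086) (nat_lit 177) (nat_lit 5) (nat_lit 182) (nat_lit 5) (nat_lit 178) (nat_lit 5) (nat_lit 451) (nat_lit 420) (nat_lit 329)) (XT.lf (nat_lit 0) (nat_lit 13784693849) (nat_lit 380) (nat_lit 7192315998) (nat_lit 76) (nat_lit 5042922084) (nat_lit 173) (nat_lit 5) (nat_lit 178) (nat_lit 5) (nat_lit 174) (nat_lit 5) (nat_lit 452) (nat_lit 420) (nat_lit 328))))) (XT.nd (nat_lit 234) (nat_lit 1140) (nat_lit 0) (XT.nd (nat_lit 78) (nat_lit 684) (nat_lit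 0) (XT.lf (nat_lit 0) (nat_lit 19280165764) (nat_lit 304) (nat_lit 4650374040) (nat_lit 380) (nat_lit 2877411473) (nat_lit 169) (nat_lit 5) (nat_lit 173) (nat_lit 5) (nat_lit 174) (nat_lit 5) (nat_lit 453) (nat_lit 420) (nat_lit 327)) (XT.nd (nat_lit 78) (nat_lit 304) (nat_lit 0) (XT.lf (nat_lit 0) (nat_lit 7183750889) (nat_lit 380) (nat_lit 7862710328) (nat_lit 76) (nat_lit 12575776636) (nat_lit 164) (nat_lit 5) (nat_lit 169) (nat_lit 5) (nat_lit 165) (nat_lit 5) (nat_lit 454) (nat_lit 420) (nat_lit 326)) (XT.lf (nat_lit 0) (nat_lit 18015541944) (nat_lit 380) (nat_lit 8102686216) (nat_lit 76) (nat_lit 2348344414) (nat_lit 160) (nat_lit 5) (nat_lit 165) (nat_lit 5) (nat_lit 161) (nat_lit 5) (nat_lit 455) (nat_lit 420) (nat_lit 325)))) (XT.nd (nat_lit 156) (nat_lit 532) (nat_lit 0) (XT.nd (nat_lit 78) (nat_lit 304) (nat_lit 0) (XT.lf (nat_lit 0) (nat_lit 457996622) (nat_lit 304) (nat_lit 8298337012)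 (nat_lit 76) (nat_lit 20584093994) (nat_lit 156) (nat_lit 5) (nat_lit 160) (nat_lit 5) (nat_lit 157) (nat_lit 5) (nat_lit 456) (nat_lit 420) (nat_lit 324)) (XT.lf (nat_lit 0) (nat_lit 12070794113) (nat_lit 380) (nat_lit 8489673435) (nat_lit 76) (nat_lit 9683170534) (nat_lit 152) (nat_lit 5) (nat_lit 157) (nat_lit 5) (nat_lit 153) (nat_lit 5) (nat_lit 457) (nat_lit 420) (nat_lit 323))) (XT.nd (nat_lit 78) (nat_lit 304) (nat_lit 0) (XT.lf (nat_lit 0) (nat_lit 22619050613) (nat_lit 228) (nat_lit 2020953533) (nat_lit 304) (nat_lit 6540732478) (nat_lit 149) (nat_lit 5) (nat_lit 152) (nat_lit 5) (nat_lit 153) (nat_lit 5) (nat_lit 458) (nat_lit 420) (nat_lit 322)) (XT.lf (nat_lit 0) (nat_lit 6033511639) (nat_lit 304) (nat_lit 8645620587) (nat_lit 76) (nat_lit 17469785768) (nat_lit 145) (nat_lit 5) (nat_lit 149) (nat_lit 5) (nat_lit 146) (nat_lit 5) (nat_lit 459) (nat_lit 420) (nat_lit 321))))))) (XT.nd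 (nat_lit 1014) (nat_lit 2356) (nat_lit 0) (XT.nd (nat_lit 468) (nat_lit 1444) (nat_lit 0) (XT.nd (nat_lit 234) (nat_lit 684) (nat_lit 0) (XT.nd (nat_lit 78) (nat_lit 532) (nat_lit 0) (XT.lf (nat_lit 0) (nat_lit 19481626097) (nat_lit 304) (nat_lit 8648594710) (nat_lit 76) (nat_lit 5021932573) (nat_lit 142) (nat_lit 5) (nat_lit 146) (nat_lit 5) (nat_lit 143) (nat_lit 5) (nat_lit 460) (nat_lit 420) (nat_lit 320)) (XT.nd (nat_lit 78) (nat_lit 304) (nat_lit 0) (XT.lf (nat_lit 0) (nat_lit 25613961672) (nat_lit 228) (nat_lit 8457356291) (nat_lit 304) (nat_lit 120158044) (nat_lit 139) (nat_lit 5) (nat_lit 142) (nat_lit 5) (nat_lit 143) (nat_lit 5) (nat_lit 461) (nat_lit 420) (nat_lit 319)) (XT.lf (nat_lit 0) (nat_lit 14287697288) (nat_lit 304) (nat_lit 8537249572) (nat_lit 76) (nat_lit 12440092313) (nat_lit 135) (nat_lit 5) (nat_lit 139) (nat_lit 5) (nat_lit 136) (nat_lit 5) (nat_lit 462) (nat_lit 420)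 (nat_lit 318)))) (XT.nd (nat_lit 78) (nat_lit 456) (nat_lit 0) (XT.lf (nat_lit 0) (nat_lit 28023334714) (nat_lit 228) (nat_lit 1819700396) (nat_lit 304) (nat_lit 6536323003) (nat_lit 132) (nat_lit 5) (nat_lit 135) (nat_lit 5) (nat_lit 136) (nat_lit 5) (nat_lit 463) (nat_lit 420) (nat_lit 317)) (XT.nd (nat_lit 78) (nat_lit 228) (nat_lit 0) (XT.lf (nat_lit 0) (nat_lit 9015746347) (nat_lit 228) (nat_lit 8223018498) (nat_lit 76) (nat_lit 20291420743) (nat_lit 129) (nat_lit 5) (nat_lit 132) (nat_lit 5) (nat_lit 130) (nat_lit 5) (nat_lit 464) (nat_lit 420) (nat_lit 316)) (XT.lf (nat_lit 0) (nat_lit 25648814778) (nat_lit 304) (nat_lit 7990370752) (nat_lit 76) (nat_lit 5084270605) (nat_lit 126) (nat_lit 5) (nat_lit 130) (nat_lit 5) (nat_lit 127) (nat_lit 5) (nat_lit 465) (nat_lit 420) (nat_lit 315))))) (XT.nd (nat_lit 234) (nat_lit 836) (nat_lit 0) (XT.nd (nat_lit 78) (nat_lit 380) (nat_lit 0) (XT.lf (nat_lit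 0) (nat_lit 3637751879) (nat_lit 228) (nat_lit 7728473043) (nat_lit 76) (nat_lit 28592406375) (nat_lit 123) (nat_lit 5) (nat_lit 126) (nat_lit 5) (nat_lit 124) (nat_lit 5) (nat_lit 466) (nat_lit 420) (nat_lit 314)) (XT.nd (nat_lit 78) (nat_lit 152) (nat_lit 0) (XT.lf (nat_lit 0) (nat_lit 21434399189) (nat_lit 304) (nat_lit 7479086551) (nat_lit 76) (nat_lit 12322625206) (nat_lit 120) (nat_lit 5) (nat_lit 124) (nat_lit 5) (nat_lit 121) (nat_lit 5) (nat_lit 467) (nat_lit 420) (nat_lit 313)) (XT.lf (nat_lit 0) (nat_lit 35457466677) (nat_lit 152) (nat_lit 5186597798) (nat_lit 228) (nat_lit 1917704939) (nat_lit 118) (nat_lit 5) (nat_lit 120) (nat_lit 5) (nat_lit 121) (nat_lit 5) (nat_lit 468) (nat_lit 420) (nat_lit 312)))) (XT.nd (nat_lit 156) (nat_lit 380) (nat_lit 0) (XT.nd (nat_lit 78) (nat_lit 152) (nat_lit 0) (XT.lf (nat_lit 0) (nat_lit 17150702665) (nat_lit 304) (nat_lit 6842815632) (nat_lit 76)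 (nat_lit 19936754394) (nat_lit 114) (nat_lit 5) (nat_lit 118) (nat_lit 5) (nat_lit 115) (nat_lit 5) (nat_lit 469) (nat_lit 420) (nat_lit 311)) (XT.lf (nat_lit 0) (nat_lit 37634256850) (nat_lit 228) (nat_lit 6426385557) (nat_lit 76) (nat_lit 1290947847) (nat_lit 112) (nat_lit 5) (nat_lit 115) (nat_lit 5) (nat_lit 113) (nat_lit 5) (nat_lit 470) (nat_lit 420) (nat_lit 310))) (XT.nd (nat_lit 78) (nat_lit 152) (nat_lit 0) (XT.lf (nat_lit 0) (nat_lit 12758706760) (nat_lit 228) (nat_lit 6132966216) (nat_lit 76) (nat_lit 27927734460) (nat_lit 109) (nat_lit 5) (nat_lit 112) (nat_lit 5) (nat_lit 110) (nat_lit 5) (nat_lit 471) (nat_lit 420) (nat_lit 309)) (XT.lf (nat_lit 0) (nat_lit 34643593245) (nat_lit 228) (nat_lit 5758306375) (nat_lit 76) (nat_lit 7940084377) (nat_lit 107) (nat_lit 5) (nat_lit 110) (nat_lit 5) (nat_lit 108) (nat_lit 5) (nat_lit 472) (nat_lit 420) (nat_lit 308)))))) (XT.nd (nat_lit 546)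 (nat_lit 1064) (nat_lit 0) (XT.nd (nat_lit 234) (nat_lit 684) (nat_lit 0) (XT.nd (nat_lit 78) (nat_lit 380) (nat_lit 0) (XT.lf (nat_lit 0) (nat_lit 8210461393) (nat_lit 228) (nat_lit 5417177326) (nat_lit 76) (nat_lit 36290485700) (nat_lit 104) (nat_lit 5) (nat_lit 107) (nat_lit 5) (nat_lit 105) (nat_lit 5) (nat_lit 473) (nat_lit 420) (nat_lit 307)) (XT.nd (nat_lit 78) (nat_lit 228) (nat_lit 0) (XT.lf (nat_lit 0) (nat_lit 31576097027) (nat_lit 228) (nat_lit 5127425504) (nat_lit 76) (nat_lit 14846141440) (nat_lit 102) (nat_lit 5) (nat_lit 105) (nat_lit 5) (nat_lit 103) (nat_lit 5) (nat_lit 474) (nat_lit 420) (nat_lit 306)) (XT.lf (nat_lit 0) (nat_lit 3447297143) (nat_lit 228) (nat_lit 4782837332) (nat_lit 76) (nat_lit 45012156512) (nat_lit 99) (nat_lit 5) (nat_lit 102) (nat_lit 5) (nat_lit 100) (nat_lit 5) (nat_lit 475) (nat_lit 420) (nat_lit 305)))) (XT.nd (nat_lit 156) (nat_lit 380) (nat_lit 0)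 (XT.nd (nat_lit 78) (nat_lit 152) (nat_lit 0) (XT.lf (nat_lit 0) (nat_lit 28374407878) (nat_lit 228) (nat_lit 4632721267) (nat_lit 76) (nat_lit 21984039086) (nat_lit 97) (nat_lit 5) (nat_lit 100) (nat_lit 5) (nat_lit 98) (nat_lit 5) (nat_lit 476) (nat_lit 420) (nat_lit 304)) (XT.lf (nat_lit 0) (nat_lit 52451720225) (nat_lit 152) (nat_lit 2722788804) (nat_lit 228) (nat_lit 1634181495) (nat_lit 95) (nat_lit 5) (nat_lit 97) (nat_lit 5) (nat_lit 98) (nat_lit 5) (nat_lit 477) (nat_lit 420) (nat_lit 303))) (XT.nd (nat_lit 78) (nat_lit 152) (nat_lit 0) (XT.lf (nat_lit 0) (nat_lit 24967655286) (nat_lit 228) (nat_lit 4399483927) (nat_lit 76) (nat_lit 29317353079) (nat_lit 92) (nat_lit 5) (nat_lit 95) (nat_lit 5) (nat_lit 93) (nat_lit 5) (nat_lit 478) (nat_lit 420) (nat_lit 302)) (XT.lf (nat_lit 0) (nat_lit 53498010346) (nat_lit 228) (nat_lit 4329045493) (nat_lit 76) (nat_lit 2807576400) (nat_lit 90) (nat_lit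 5) (nat_lit 93) (nat_lit 5) (nat_lit 91) (nat_lit 4) (nat_lit 479) (nat_lit 420) (nat_lit 301))))) (XT.nd (nat_lit 234) (nat_lit 608) (nat_lit 0) (XT.nd (nat_lit 78) (nat_lit 304) (nat_lit 0) (XT.lf (nat_lit 0) (nat_lit 21268770357) (nat_lit 152) (nat_lit 4584708809) (nat_lit 76) (nat_lit 36795764396) (nat_lit 88) (nat_lit 5) (nat_lit 90) (nat_lit 5) (nat_lit 89) (nat_lit 5) (nat_lit 480) (nat_lit 420) (nat_lit 300)) (XT.nd (nat_lit 78) (nat_lit 152) (nat_lit 0) (XT.lf (nat_lit 0) (nat_lit 51641329270) (nat_lit 228) (nat_lit 4839652620) (nat_lit 76) (nat_lit 8260649154) (nat_lit 86) (nat_lit 5) (nat_lit 89) (nat_lit 5) (nat_lit 87) (nat_lit 4) (nat_lit 481) (nat_lit 420) (nat_lit 299)) (XT.lf (nat_lit 0) (nat_lit 17171305788) (nat_lit 152) (nat_lit 5383480824) (nat_lit 76) (nat_lit 44352029120) (nat_lit 84) (nat_lit 5) (nat_lit 86) (nat_lit 5) (nat_lit 85) (nat_lit 5) (nat_lit 482) (nat_lit 420)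 (nat_lit 298)))) (XT.nd (nat_lit 156) (nat_lit 304) (nat_lit 0) (XT.nd (nat_lit 78) (nat_lit 152) (nat_lit 0) (XT.lf (nat_lit 0) (nat_lit 49470285044) (nat_lit 228) (nat_lit 6079650052) (nat_lit 76) (nat_lit 13602891772) (nat_lit 82) (nat_lit 5) (nat_lit 85) (nat_lit 5) (nat_lit 83) (nat_lit 4) (nat_lit 483) (nat_lit 420) (nat_lit 297)) (XT.lf (nat_lit 0) (nat_lit 12545677840) (nat_lit 152) (nat_lit 7036525102) (nat_lit 76) (nat_lit 51898383138) (nat_lit 80) (nat_lit 5) (nat_lit 82) (nat_lit 5) (nat_lit 81) (nat_lit 5) (nat_lit 484) (nat_lit 420) (nat_lit 296))) (XT.nd (nat_lit 78) (nat_lit 152) (nat_lit 0) (XT.lf (nat_lit 0) (nat_lit 46852278852) (nat_lit 228) (nat_lit 8315994664) (nat_lit 76) (nat_lit 18724392511) (nat_lit 78) (nat_lit 5) (nat_lit 81) (nat_lit 5) (nat_lit 79) (nat_lit 4) (nat_lit 485) (nat_lit 420) (nat_lit 295)) (XT.lf (nat_lit 0) (nat_lit 7234729326) (nat_lit 152) (nat_lit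 9839128522) (nat_lit 76) (nat_lit 59322281246) (nat_lit 76) (nat_lit 5) (nat_lit 78) (nat_lit 5) (nat_lit 77) (nat_lit 5) (nat_lit 486) (nat_lit 420) (nat_lit 294))))))))
noncomputable def xc82 : XT := (XT.nd (nat_lit 58500) (nat_lit 0) (nat_lit 6156) (XT.nd (nat_lit 57486) (nat_lit 0) (nat_lit 16416) (XT.nd (nat_lit 468) (nat_lit 608) (nat_lit 0) (XT.nd (nat_lit 234) (nat_lit 380) (nat_lit 0) (XT.nd (nat_lit 78) (nat_lit 304) (nat_lit 0) (XT.lf (nat_lit 0) (nat_lit 43625348157) (nat_lit 228) (nat_lit 11875263959) (nat_lit 76) (nat_lit 23487312527) (nat_lit 74) (nat_lit 5) (nat_lit 77) (nat_lit 5) (nat_lit 75) (nat_lit 4) (nat_lit 487) (nat_lit 420) (nat_lit 293)) (XT.nd (nat_lit 78) (nat_lit 152) (nat_lit 0) (XT.lf (nat_lit 0) (nat_lit 1048495232) (nat_lit 152) (nat_lit 14151672202) (nat_lit 76) (nat_lit 66481352976) (nat_lit 72) (nat_lit 5) (nat_lit 74) (nat_lit 5) (nat_lit 73) (nat_lit 5) (nat_lit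 488) (nat_lit 420) (nat_lit 292)) (XT.lf (nat_lit 0) (nat_lit 39592533467) (nat_lit 228) (nat_lit 17155097408) (nat_lit 76) (nat_lit 27720348505) (nat_lit 70) (nat_lit 5) (nat_lit 73) (nat_lit 5) (nat_lit 71) (nat_lit 4) (nat_lit 489) (nat_lit 420) (nat_lit 291)))) (XT.nd (nat_lit 78) (nat_lit 304) (nat_lit 0) (XT.lf (nat_lit 0) (nat_lit 66892437721) (nat_lit 76) (nat_lit 14107056863) (nat_lit 152) (nat_lit 6366195189) (nat_lit 69) (nat_lit 5) (nat_lit 70) (nat_lit 5) (nat_lit 71) (nat_lit 4) (nat_lit 490) (nat_lit 420) (nat_lit 290)) (XT.nd (nat_lit 78) (nat_lit 76) (nat_lit 0) (XT.lf (nat_lit 0) (nat_lit 34515234477) (nat_lit 228) (nat_lit 24637688470) (nat_lit 76) (nat_lit 31212192733) (nat_lit 66) (nat_lit 5) (nat_lit 69) (nat_lit 5) (nat_lit 67) (nat_lit 4) (nat_lit 491) (nat_lit 420) (nat_lit 289)) (XT.lf (nat_lit 0) (nat_lit 64187102334) (nat_lit 76) (nat_lit 14087915632) (nat_lit 152) (nat_lit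 15208625708) (nat_lit 65) (nat_lit 5) (nat_lit 66) (nat_lit 5) (nat_lit 67) (nat_lit 4) (nat_lit 492) (nat_lit 420) (nat_lit 288))))) (XT.nd (nat_lit 234) (nat_lit 228) (nat_lit 0) (XT.nd (nat_lit 78) (nat_lit 228) (nat_lit 0) (XT.lf (nat_lit 0) (nat_lit 28105379841) (nat_lit 152) (nat_lit 34905684122) (nat_lit 76) (nat_lit 33703815296) (nat_lit 63) (nat_lit 5) (nat_lit 65) (nat_lit 5) (nat_lit 64) (nat_lit 4) (nat_lit 493) (nat_lit 420) (nat_lit 287)) (XT.nd (nat_lit 78) (nat_lit 152) (nat_lit 0) (XT.lf (nat_lit 0) (nat_lit 58818940156) (nat_lit 76) (nat_lit 15459489055) (nat_lit 152) (nat_lit 25794493640) (nat_lit 62) (nat_lit 5) (nat_lit 63) (nat_lit 5) (nat_lit 64) (nat_lit 4) (nat_lit 494) (nat_lit 420) (nat_lit 286)) (XT.lf (nat_lit 0) (nat_lit 20016204681) (nat_lit 152) (nat_lit 48660909994) (nat_lit 76) (nat_lit 34879362905) (nat_lit 60) (nat_lit 5) (nat_lit 62) (nat_lit 5) (nat_lit 61)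 (nat_lit 4) (nat_lit 495) (nat_lit 420) (nat_lit 285)))) (XT.nd (nat_lit 56628) (nat_lit 0) (nat_lit 20444) (XT.nd (nat_lit 78) (nat_lit 152) (nat_lit 0) (XT.lf (nat_lit 0) (nat_lit 50055953964) (nat_lit 76) (nat_lit 18592139417) (nat_lit 152) (nat_lit 38526531248) (nat_lit 59) (nat_lit 5) (nat_lit 60) (nat_lit 5) (nat_lit 61) (nat_lit 4) (nat_lit 496) (nat_lit 420) (nat_lit 284)) (XT.lf (nat_lit 0) (nat_lit 9831394626) (nat_lit 152) (nat_lit 66746410826) (nat_lit 76) (nat_lit 34355433673) (nat_lit 57) (nat_lit 5) (nat_lit 59) (nat_lit 5) (nat_lit 58) (nat_lit 4) (nat_lit 497) (nat_lit 420) (nat_lit 283))) (XT.nd (nat_lit 78) (nat_lit 0) (nat_lit 0) (XT.lf (nat_lit 0) (nat_lit 1541420776) (nat_lit 0) (nat_lit 1541420776) (nat_lit 1140) (nat_lit 2746368375) (nat_lit 326) (nat_lit 5) (nat_lit 326) (nat_lit 3) (nat_lit 341) (nat_lit 3) (nat_lit 421) (nat_lit 421) (nat_lit 358)) (XT.lf (nat_lit 76)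 (nat_lit 1029768092) (nat_lit 0) (nat_lit 6184442529) (nat_lit 1216) (nat_lit 4708758468) (nat_lit 327) (nat_lit 5) (nat_lit 326) (nat_lit 5) (nat_lit 342) (nat_lit 5) (nat_lit 422) (nat_lit 421) (nat_lit 357)))))) (XT.nd (nat_lit 468) (nat_lit 3116) (nat_lit 0) (XT.nd (nat_lit 234) (nat_lit 988) (nat_lit 0) (XT.nd (nat_lit 78) (nat_lit 0) (nat_lit 0) (XT.lf (nat_lit 0) (nat_lit 8408629123) (nat_lit 1140) (nat_lit 992267267) (nat_lit 1216) (nat_lit 2797050557) (nat_lit 327) (nat_lit 5) (nat_lit 342) (nat_lit 5) (nat_lit 343) (nat_lit 5) (nat_lit 423) (nat_lit 421) (nat_lit 356)) (XT.nd (nat_lit 78) (nat_lit 0) (nat_lit 76) (XT.lf (nat_lit 76) (nat_lit 9497328712) (nat_lit 0) (nat_lit 268855598) (nat_lit 1216) (nat_lit 2717391774) (nat_lit 328) (nat_lit 5) (nat_lit 327) (nat_lit 5) (nat_lit 343) (nat_lit 5) (nat_lit 424) (nat_lit 421) (nat_lit 355)) (XT.lf (nat_lit 76) (nat_lit 7781016305) (nat_lit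 0) (nat_lit 3537311888) (nat_lit 1216) (nat_lit 1461361785) (nat_lit 329) (nat_lit 5) (nat_lit 328) (nat_lit 5) (nat_lit 344) (nat_lit 5) (nat_lit 425) (nat_lit 421) (nat_lit 354)))) (XT.nd (nat_lit 78) (nat_lit 1140) (nat_lit 0) (XT.lf (nat_lit 76) (nat_lit 6085387976) (nat_lit 0) (nat_lit 6968052291) (nat_lit 1216) (nat_lit 34012875) (nat_lit 330) (nat_lit 5) (nat_lit 329) (nat_lit 5) (nat_lit 345) (nat_lit 5) (nat_lit 426) (nat_lit 421) (nat_lit 353)) (XT.nd (nat_lit 78) (nat_lit 0) (nat_lit 0) (XT.lf (nat_lit 0) (nat_lit 1549852498) (nat_lit 1216) (nat_lit 9011196557) (nat_lit 1292) (nat_lit 2845725177) (nat_lit 314) (nat_lit 5) (nat_lit 330) (nat_lit 5) (nat_lit 331) (nat_lit 5) (nat_lit 427) (nat_lit 421) (nat_lit 352)) (XT.lf (nat_lit 76) (nat_lit 2719917111) (nat_lit 0) (nat_lit 619146361) (nat_lit 1292) (nat_lit 10399186010) (nat_lit 315) (nat_lit 5) (nat_lit 314) (nat_lit 5) (nat_lit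 331) (nat_lit 5) (nat_lit 428) (nat_lit 421) (nat_lit 351))))) (XT.nd (nat_lit 234) (nat_lit 3192) (nat_lit 0) (XT.nd (nat_lit 78) (nat_lit 0) (nat_lit 76) (XT.lf (nat_lit 76) (nat_lit 1035549185) (nat_lit 0) (nat_lit 4339621777) (nat_lit 1292) (nat_lit 8706408149) (nat_lit 316) (nat_lit 5) (nat_lit 315) (nat_lit 5) (nat_lit 332) (nat_lit 5) (nat_lit 429) (nat_lit 421) (nat_lit 350)) (XT.nd (nat_lit 78) (nat_lit 0) (nat_lit 76) (XT.lf (nat_lit 0) (nat_lit 7654216299) (nat_lit 1216) (nat_lit 614948587) (nat_lit 1292) (nat_lit 6168679882) (nat_lit 316) (nat_lit 5) (nat_lit 332) (nat_lit 5) (nat_lit 333) (nat_lit 5) (nat_lit 430) (nat_lit 421) (nat_lit 349)) (XT.lf (nat_lit 0) (nat_lit 10198596035) (nat_lit 1216) (nat_lit 2222083655) (nat_lit 76) (nat_lit 2386705907) (nat_lit 317) (nat_lit 5) (nat_lit 333) (nat_lit 5) (nat_lit 318) (nat_lit 5) (nat_lit 431) (nat_lit 421) (nat_lit 348)))) (XT.nd (nat_lit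 156) (nat_lit 1216) (nat_lit 0) (XT.nd (nat_lit 78) (nat_lit 912) (nat_lit 0) (XT.lf (nat_lit 0) (nat_lit 11370772697) (nat_lit 1216) (nat_lit 1663088148) (nat_lit 1292) (nat_lit 2156635830) (nat_lit 301) (nat_lit 5) (nat_lit 317) (nat_lit 5) (nat_lit 318) (nat_lit 5) (nat_lit 432) (nat_lit 421) (nat_lit 347)) (XT.lf (nat_lit 0) (nat_lit 591166337) (nat_lit 912) (nat_lit 5420841522) (nat_lit 76) (nat_lit 9575201828) (nat_lit 289) (nat_lit 5) (nat_lit 301) (nat_lit 5) (nat_lit 290) (nat_lit 5) (nat_lit 433) (nat_lit 421) (nat_lit 346))) (XT.nd (nat_lit 78) (nat_lit 608) (nat_lit 0) (XT.lf (nat_lit 0) (nat_lit 3595282180) (nat_lit 684) (nat_lit 7016964973) (nat_lit 76) (nat_lit 5385967639) (nat_lit 281) (nat_lit 5) (nat_lit 290) (nat_lit 5) (nat_lit 282) (nat_lit 5) (nat_lit 434) (nat_lit 421) (nat_lit 345)) (XT.lf (nat_lit 0) (nat_lit 6919386623) (nat_lit 684) (nat_lit 8584244462) (nat_lit 76) (nat_lit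 921048261) (nat_lit 273) (nat_lit 5) (nat_lit 282) (nat_lit 5) (nat_lit 274) (nat_lit 5) (nat_lit 435) (nat_lit 421) (nat_lit 344))))))) (XT.nd (nat_lit 1014) (nat_lit 4408) (nat_lit 0) (XT.nd (nat_lit 468) (nat_lit 2660) (nat_lit 0) (XT.nd (nat_lit 234) (nat_lit 1444) (nat_lit 0) (XT.nd (nat_lit 78) (nat_lit 1216) (nat_lit 0) (XT.lf (nat_lit 0) (nat_lit 6709256538) (nat_lit 532) (nat_lit 3914483268) (nat_lit 608) (nat_lit 6242308566) (nat_lit 266) (nat_lit 5) (nat_lit 273) (nat_lit 5) (nat_lit 274) (nat_lit 5) (nat_lit 436) (nat_lit 421) (nat_lit 343)) (XT.nd (nat_lit 78) (nat_lit 608) (nat_lit 0) (XT.lf (nat_lit 0) (nat_lit 5618534334) (nat_lit 608) (nat_lit 9088018714) (nat_lit 684) (nat_lit 2617137958) (nat_lit 258) (nat_lit 5) (nat_lit 266) (nat_lit 5) (nat_lit 267) (nat_lit 5) (nat_lit 437) (nat_lit 421) (nat_lit 342)) (XT.lf (nat_lit 0) (nat_lit 1358360774) (nat_lit 608) (nat_lit 13229476858)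 (nat_lit 76) (nat_lit 3210269113) (nat_lit 250) (nat_lit 5) (nat_lit 258) (nat_lit 5) (nat_lit 251) (nat_lit 5) (nat_lit 438) (nat_lit 421) (nat_lit 341)))) (XT.nd (nat_lit 78) (nat_lit 912) (nat_lit 0) (XT.lf (nat_lit 0) (nat_lit 3527089169) (nat_lit 532) (nat_lit 2171768425) (nat_lit 608) (nat_lit 12589999959) (nat_lit 243) (nat_lit 5) (nat_lit 250) (nat_lit 5) (nat_lit 251) (nat_lit 5) (nat_lit 439) (nat_lit 421) (nat_lit 340)) (XT.nd (nat_lit 78) (nat_lit 456) (nat_lit 0) (XT.lf (nat_lit 0) (nat_lit 2510709782) (nat_lit 456) (nat_lit 7985300452) (nat_lit 532) (nat_lit 8300948776) (nat_lit 237) (nat_lit 5) (nat_lit 243) (nat_lit 5) (nat_lit 244) (nat_lit 5) (nat_lit 440) (nat_lit 421) (nat_lit 339)) (XT.lf (nat_lit 0) (nat_lit 1557602861) (nat_lit 456) (nat_lit 14188752025) (nat_lit 532) (nat_lit 3577712561) (nat_lit 231) (nat_lit 5) (nat_lit 237) (nat_lit 5) (nat_lit 238) (nat_lit 5) (nat_lit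 441) (nat_lit 421) (nat_lit 338))))) (XT.nd (nat_lit 234) (nat_lit 1672) (nat_lit 0) (XT.nd (nat_lit 78) (nat_lit 456) (nat_lit 0) (XT.lf (nat_lit 0) (nat_lit 648739790) (nat_lit 456) (nat_lit 937277872) (nat_lit 532) (nat_lit 18284178176) (nat_lit 224) (nat_lit 5) (nat_lit 230) (nat_lit 5) (nat_lit 231) (nat_lit 5) (nat_lit 442) (nat_lit 421) (nat_lit 337)) (XT.nd (nat_lit 78) (nat_lit 456) (nat_lit 0) (XT.lf (nat_lit 0) (nat_lit 7220074885) (nat_lit 532) (nat_lit 274511322) (nat_lit 76) (nat_lit 12939399469) (nat_lit 224) (nat_lit 5) (nat_lit 231) (nat_lit 5) (nat_lit 225) (nat_lit 5) (nat_lit 443) (nat_lit 421) (nat_lit 336)) (XT.lf (nat_lit 0) (nat_lit 13378417080) (nat_lit 532) (nat_lit 1112825076) (nat_lit 76) (nat_lit 6527447014) (nat_lit 218) (nat_lit 5) (nat_lit 225) (nat_lit 5) (nat_lit 219) (nat_lit 5) (nat_lit 444) (nat_lit 421) (nat_lit 335)))) (XT.nd (nat_lit 156) (nat_lit 760) (nat_lit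 0) (XT.nd (nat_lit 78) (nat_lit 532) (nat_lit 0) (XT.lf (nat_lit 0) (nat_lit 19750111438) (nat_lit 380) (nat_lit 340832243) (nat_lit 456) (nat_lit 1534297688) (nat_lit 213) (nat_lit 5) (nat_lit 218) (nat_lit 5) (nat_lit 219) (nat_lit 5) (nat_lit 445) (nat_lit 421) (nat_lit 334)) (XT.lf (nat_lit 0) (nat_lit 5103454134) (nat_lit 532) (nat_lit 2669316050) (nat_lit 76) (nat_lit 14478296633) (nat_lit 206) (nat_lit 5) (nat_lit 213) (nat_lit 5) (nat_lit 207) (nat_lit 5) (nat_lit 446) (nat_lit 421) (nat_lit 333))) (XT.nd (nat_lit 78) (nat_lit 380) (nat_lit 0) (XT.lf (nat_lit 0) (nat_lit 12302613215) (nat_lit 456) (nat_lit 3394102568) (nat_lit 76) (nat_lit 7203175845) (nat_lit 201) (nat_lit 5) (nat_lit 207) (nat_lit 5) (nat_lit 202) (nat_lit 5) (nat_lit 447) (nat_lit 421) (nat_lit 332)) (XT.lf (nat_lit 0) (nat_lit 19540465653) (nat_lit 380) (nat_lit 595174889) (nat_lit 456) (nat_lit 3437301131) (nat_lit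 196) (nat_lit 5) (nat_lit 201) (nat_lit 5) (nat_lit 202) (nat_lit 5) (nat_lit 448) (nat_lit 421) (nat_lit 331)))))) (XT.nd (nat_lit 546) (nat_lit 1976) (nat_lit 0) (XT.nd (nat_lit 234) (nat_lit 1368) (nat_lit 0) (XT.nd (nat_lit 78) (nat_lit 684) (nat_lit 0) (XT.lf (nat_lit 0) (nat_lit 4355647187) (nat_lit 380) (nat_lit 4688801907) (nat_lit 76) (nat_lit 15223381523) (nat_lit 191) (nat_lit 5) (nat_lit 196) (nat_lit 5) (nat_lit 192) (nat_lit 5) (nat_lit 449) (nat_lit 421) (nat_lit 330)) (XT.nd (nat_lit 78) (nat_lit 304) (nat_lit 0) (XT.lf (nat_lit 0) (nat_lit 12755014272) (nat_lit 456) (nat_lit 5280593200) (nat_lit 76) (nat_lit 6952200900) (nat_lit 186) (nat_lit 5) (nat_lit 192) (nat_lit 5) (nat_lit 187) (nat_lit 5) (nat_lit 450) (nat_lit 421) (nat_lit 329)) (XT.lf (nat_lit 0) (nat_lit 19949933983) (nat_lit 304) (nat_lit 1937803434) (nat_lit 380) (nat_lit 3846647058) (nat_lit 182) (nat_lit 5) (nat_lit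 186) (nat_lit 5) (nat_lit 187) (nat_lit 5) (nat_lit 451) (nat_lit 421) (nat_lit 328)))) (XT.nd (nat_lit 156) (nat_lit 684) (nat_lit 0) (XT.nd (nat_lit 78) (nat_lit 304) (nat_lit 0) (XT.lf (nat_lit 0) (nat_lit 5241409488) (nat_lit 380) (nat_lit 6297741621) (nat_lit 76) (nat_lit 14966328276) (nat_lit 177) (nat_lit 5) (nat_lit 182) (nat_lit 5) (nat_lit 178) (nat_lit 5) (nat_lit 452) (nat_lit 421) (nat_lit 327)) (XT.lf (nat_lit 0) (nat_lit 15019986722) (nat_lit 380) (nat_lit 6735569570) (nat_lit 76) (nat_lit 5548960969) (nat_lit 173) (nat_lit 5) (nat_lit 178) (nat_lit 5) (nat_lit 174) (nat_lit 5) (nat_lit 453) (nat_lit 421) (nat_lit 326))) (XT.nd (nat_lit 78) (nat_lit 380) (nat_lit 0) (XT.lf (nat_lit 0) (nat_lit 21037135420) (nat_lit 304) (nat_lit 4617609214) (nat_lit 380) (nat_lit 2477745757) (nat_lit 169) (nat_lit 5) (nat_lit 173) (nat_lit 5) (nat_lit 174) (nat_lit 5) (nat_lit 454) (nat_lit 421)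 (nat_lit 325)) (XT.lf (nat_lit 0) (nat_lit 8060546169) (nat_lit 380) (nat_lit 7462360251) (nat_lit 76) (nat_lit 13464889098) (nat_lit 164) (nat_lit 5) (nat_lit 169) (nat_lit 5) (nat_lit 165) (nat_lit 5) (nat_lit 455) (nat_lit 421) (nat_lit 324))))) (XT.nd (nat_lit 234) (nat_lit 1064) (nat_lit 0) (XT.nd (nat_lit 78) (nat_lit 608) (nat_lit 0) (XT.lf (nat_lit 0) (nat_lit 19419286599) (nat_lit 380) (nat_lit 7724643203) (nat_lit 76) (nat_lit 2730857615) (nat_lit 160) (nat_lit 5) (nat_lit 165) (nat_lit 5) (nat_lit 161) (nat_lit 5) (nat_lit 456) (nat_lit 421) (nat_lit 323)) (XT.nd (nat_lit 78) (nat_lit 304) (nat_lit 0) (XT.lf (nat_lit 0) (nat_lit 972064016) (nat_lit 304) (nat_lit 7942728070) (nat_lit 76) (nat_lit 21877899004) (nat_lit 156) (nat_lit 5) (nat_lit 160) (nat_lit 5) (nat_lit 157) (nat_lit 5) (nat_lit 457) (nat_lit 421) (nat_lit 322)) (XT.lf (nat_lit 0) (nat_lit 13151935622) (nat_lit 380) (nat_lit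 8154076007) (nat_lit 76) (nat_lit 10435458502) (nat_lit 152) (nat_lit 5) (nat_lit 157) (nat_lit 5) (nat_lit 153) (nat_lit 5) (nat_lit 458) (nat_lit 421) (nat_lit 321)))) (XT.nd (nat_lit 156) (nat_lit 532) (nat_lit 0) (XT.nd (nat_lit 78) (nat_lit 304) (nat_lit 0) (XT.lf (nat_lit 0) (nat_lit 24488296671) (nat_lit 228) (nat_lit 1845663472) (nat_lit 304) (nat_lit 6391933876) (nat_lit 149) (nat_lit 5) (nat_lit 152) (nat_lit 5) (nat_lit 153) (nat_lit 5) (nat_lit 459) (nat_lit 421) (nat_lit 320)) (XT.lf (nat_lit 0) (nat_lit 6789142984) (nat_lit 304) (nat_lit 8340815914) (nat_lit 76) (nat_lit 18612767123) (nat_lit 145) (nat_lit 5) (nat_lit 149) (nat_lit 5) (nat_lit 146) (nat_lit 5) (nat_lit 460) (nat_lit 421) (nat_lit 319))) (XT.nd (nat_lit 78) (nat_lit 304) (nat_lit 0) (XT.lf (nat_lit 0) (nat_lit 20897588601) (nat_lit 304) (nat_lit 8354532399) (nat_lit 76) (nat_lit 5544365327) (nat_lit 142) (nat_lit 5)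 (nat_lit 146) (nat_lit 5) (nat_lit 143) (nat_lit 5) (nat_lit 461) (nat_lit 421) (nat_lit 318)) (XT.lf (nat_lit 0) (nat_lit 308169509) (nat_lit 304) (nat_lit 8290897934) (nat_lit 76) (nat_lit 27289045636) (nat_lit 138) (nat_lit 5) (nat_lit 142) (nat_lit 5) (nat_lit 139) (nat_lit 5) (nat_lit 462) (nat_lit 421) (nat_lit 317))))))))
noncomputable def xc83 : XT := (XT.nd (nat_lit 2028) (nat_lit 1140) (nat_lit 0) (XT.nd (nat_lit 1014) (nat_lit 2128) (nat_lit 0) (XT.nd (nat_lit 468) (nat_lit 1368) (nat_lit 0) (XT.nd (nat_lit 234) (nat_lit 684) (nat_lit 0) (XT.nd (nat_lit 78) (nat_lit 456) (nat_lit 0) (XT.lf (nat_lit 0) (nat_lit 15422710948) (nat_lit 304) (nat_lit 8260403387) (nat_lit 76) (nat_lit 13332541831) (nat_lit 135) (nat_lit 5) (nat_lit 139) (nat_lit 5) (nat_lit 136) (nat_lit 5) (nat_lit 463) (nat_lit 421) (nat_lit 316)) (XT.nd (nat_lit 78) (nat_lit 228) (nat_lit 0) (XT.lf (nat_lit 0) (nat_lit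 30108038445) (nat_lit 228) (nat_lit 1634317848) (nat_lit 304) (nat_lit 6443739307) (nat_lit 132) (nat_lit 5) (nat_lit 135) (nat_lit 5) (nat_lit 136) (nat_lit 5) (nat_lit 464) (nat_lit 421) (nat_lit 315)) (XT.lf (nat_lit 0) (nat_lit 9867258659) (nat_lit 228) (nat_lit 7952937113) (nat_lit 76) (nat_lit 21574463166) (nat_lit 129) (nat_lit 5) (nat_lit 132) (nat_lit 5) (nat_lit 130) (nat_lit 5) (nat_lit 465) (nat_lit 421) (nat_lit 314)))) (XT.nd (nat_lit 78) (nat_lit 456) (nat_lit 0) (XT.lf (nat_lit 0) (nat_lit 27321890067) (nat_lit 304) (nat_lit 7719161741) (nat_lit 76) (nat_lit 5606844594) (nat_lit 126) (nat_lit 5) (nat_lit 130) (nat_lit 5) (nat_lit 127) (nat_lit 5) (nat_lit 466) (nat_lit 421) (nat_lit 313)) (XT.nd (nat_lit 78) (nat_lit 228) (nat_lit 0) (XT.lf (nat_lit 0) (nat_lit 4201693117) (nat_lit 228) (nat_lit 7455779314) (nat_lit 76) (nat_lit 30287616335) (nat_lit 123) (nat_lit 5) (nat_lit 126)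 (nat_lit 5) (nat_lit 124) (nat_lit 5) (nat_lit 467) (nat_lit 421) (nat_lit 312)) (XT.lf (nat_lit 0) (nat_lit 22878731400) (nat_lit 304) (nat_lit 7204302042) (nat_lit 76) (nat_lit 13203692791) (nat_lit 120) (nat_lit 5) (nat_lit 124) (nat_lit 5) (nat_lit 121) (nat_lit 5) (nat_lit 468) (nat_lit 421) (nat_lit 311))))) (XT.nd (nat_lit 234) (nat_lit 760) (nat_lit 0) (XT.nd (nat_lit 78) (nat_lit 456) (nat_lit 0) (XT.lf (nat_lit 0) (nat_lit 37860482878) (nat_lit 152) (nat_lit 5176710951) (nat_lit 228) (nat_lit 1641824946) (nat_lit 118) (nat_lit 5) (nat_lit 120) (nat_lit 5) (nat_lit 121) (nat_lit 5) (nat_lit 469) (nat_lit 421) (nat_lit 310)) (XT.nd (nat_lit 78) (nat_lit 152) (nat_lit 0) (XT.lf (nat_lit 0) (nat_lit 18363899696) (nat_lit 304) (nat_lit 6557772910) (nat_lit 76) (nat_lit 21194433390) (nat_lit 114) (nat_lit 5) (nat_lit 118) (nat_lit 5) (nat_lit 115) (nat_lit 5) (nat_lit 470) (nat_lit 421) (nat_lit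 309)) (XT.lf (nat_lit 0) (nat_lit 39863095090) (nat_lit 228) (nat_lit 6130695722) (nat_lit 76) (nat_lit 1614955219) (nat_lit 112) (nat_lit 5) (nat_lit 115) (nat_lit 5) (nat_lit 113) (nat_lit 5) (nat_lit 471) (nat_lit 421) (nat_lit 308)))) (XT.nd (nat_lit 156) (nat_lit 380) (nat_lit 0) (XT.nd (nat_lit 78) (nat_lit 152) (nat_lit 0) (XT.lf (nat_lit 0) (nat_lit 13736338349) (nat_lit 228) (nat_lit 5833522013) (nat_lit 76) (nat_lit 29580317337) (nat_lit 109) (nat_lit 5) (nat_lit 112) (nat_lit 5) (nat_lit 110) (nat_lit 5) (nat_lit 472) (nat_lit 421) (nat_lit 307)) (XT.lf (nat_lit 0) (nat_lit 36707447127) (nat_lit 228) (nat_lit 5450113390) (nat_lit 76) (nat_lit 8591563671) (nat_lit 107) (nat_lit 5) (nat_lit 110) (nat_lit 5) (nat_lit 108) (nat_lit 5) (nat_lit 473) (nat_lit 421) (nat_lit 306))) (XT.nd (nat_lit 78) (nat_lit 152) (nat_lit 0) (XT.lf (nat_lit 0) (nat_lit 8945621412) (nat_lit 228) (nat_lit 5102546181)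 (nat_lit 76) (nat_lit 38356115818) (nat_lit 104) (nat_lit 5) (nat_lit 107) (nat_lit 5) (nat_lit 105) (nat_lit 5) (nat_lit 474) (nat_lit 421) (nat_lit 305)) (XT.lf (nat_lit 0) (nat_lit 33471988887) (nat_lit 228) (nat_lit 4808084845) (nat_lit 76) (nat_lit 15837553094) (nat_lit 102) (nat_lit 5) (nat_lit 105) (nat_lit 5) (nat_lit 103) (nat_lit 5) (nat_lit 475) (nat_lit 421) (nat_lit 304)))))) (XT.nd (nat_lit 468) (nat_lit 1064) (nat_lit 0) (XT.nd (nat_lit 234) (nat_lit 532) (nat_lit 0) (XT.nd (nat_lit 78) (nat_lit 304) (nat_lit 0) (XT.lf (nat_lit 0) (nat_lit 3930075510) (nat_lit 228) (nat_lit 4456584942) (nat_lit 76) (nat_lit 47508425527) (nat_lit 99) (nat_lit 5) (nat_lit 102) (nat_lit 5) (nat_lit 100) (nat_lit 5) (nat_lit 476) (nat_lit 421) (nat_lit 303)) (XT.nd (nat_lit 78) (nat_lit 152) (nat_lit 0) (XT.lf (nat_lit 0) (nat_lit 30096425895) (nat_lit 228) (nat_lit 4308522428) (nat_lit 76) (nat_lit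 23326672580) (nat_lit 97) (nat_lit 5) (nat_lit 100) (nat_lit 5) (nat_lit 98) (nat_lit 5) (nat_lit 477) (nat_lit 421) (nat_lit 302)) (XT.lf (nat_lit 0) (nat_lit 55614208243) (nat_lit 152) (nat_lit 2613070985) (nat_lit 228) (nat_lit 1413017994) (nat_lit 95) (nat_lit 5) (nat_lit 97) (nat_lit 5) (nat_lit 98) (nat_lit 5) (nat_lit 478) (nat_lit 421) (nat_lit 301)))) (XT.nd (nat_lit 78) (nat_lit 304) (nat_lit 0) (XT.lf (nat_lit 0) (nat_lit 26506284469) (nat_lit 228) (nat_lit 4082970635) (nat_lit 76) (nat_lit 31020748413) (nat_lit 92) (nat_lit 5) (nat_lit 95) (nat_lit 5) (nat_lit 93) (nat_lit 5) (nat_lit 479) (nat_lit 421) (nat_lit 300)) (XT.nd (nat_lit 78) (nat_lit 152) (nat_lit 0) (XT.lf (nat_lit 0) (nat_lit 56456649146) (nat_lit 228) (nat_lit 4018243742) (nat_lit 76) (nat_lit 3182953103) (nat_lit 90) (nat_lit 5) (nat_lit 93) (nat_lit 5) (nat_lit 91) (nat_lit 4) (nat_lit 480) (nat_lit 421) (nat_lit 299))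 (XT.lf (nat_lit 0) (nat_lit 22610088408) (nat_lit 152) (nat_lit 4296268226) (nat_lit 76) (nat_lit 38867007439) (nat_lit 88) (nat_lit 5) (nat_lit 90) (nat_lit 5) (nat_lit 89) (nat_lit 5) (nat_lit 481) (nat_lit 421) (nat_lit 298))))) (XT.nd (nat_lit 234) (nat_lit 608) (nat_lit 0) (XT.nd (nat_lit 78) (nat_lit 304) (nat_lit 0) (XT.lf (nat_lit 0) (nat_lit 54495119647) (nat_lit 228) (nat_lit 4572952016) (nat_lit 76) (nat_lit 8902484186) (nat_lit 86) (nat_lit 5) (nat_lit 89) (nat_lit 5) (nat_lit 87) (nat_lit 4) (nat_lit 482) (nat_lit 421) (nat_lit 297)) (XT.nd (nat_lit 78) (nat_lit 152) (nat_lit 0) (XT.lf (nat_lit 0) (nat_lit 18296019314) (nat_lit 152) (nat_lit 5153251411) (nat_lit 76) (nat_lit 46794896696) (nat_lit 84) (nat_lit 5) (nat_lit 86) (nat_lit 5) (nat_lit 85) (nat_lit 5) (nat_lit 483) (nat_lit 421) (nat_lit 296)) (XT.lf (nat_lit 0) (nat_lit 52204118360) (nat_lit 228) (nat_lit 5892977434) (nat_lit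 76) (nat_lit 14505558416) (nat_lit 82) (nat_lit 5) (nat_lit 85) (nat_lit 5) (nat_lit 83) (nat_lit 4) (nat_lit 484) (nat_lit 421) (nat_lit 295)))) (XT.nd (nat_lit 156) (nat_lit 304) (nat_lit 0) (XT.nd (nat_lit 78) (nat_lit 152) (nat_lit 0) (XT.lf (nat_lit 0) (nat_lit 13427970108) (nat_lit 152) (nat_lit 6906681505) (nat_lit 76) (nat_lit 54712309424) (nat_lit 80) (nat_lit 5) (nat_lit 82) (nat_lit 5) (nat_lit 81) (nat_lit 5) (nat_lit 485) (nat_lit 421) (nat_lit 294)) (XT.lf (nat_lit 0) (nat_lit 49444374884) (nat_lit 228) (nat_lit 8258626323) (nat_lit 76) (nat_lit 19876809758) (nat_lit 78) (nat_lit 5) (nat_lit 81) (nat_lit 5) (nat_lit 79) (nat_lit 4) (nat_lit 486) (nat_lit 421) (nat_lit 293))) (XT.nd (nat_lit 78) (nat_lit 152) (nat_lit 0) (XT.lf (nat_lit 0) (nat_lit 7840885665) (nat_lit 152) (nat_lit 9866612100) (nat_lit 76) (nat_lit 62501112081) (nat_lit 76) (nat_lit 5) (nat_lit 78) (nat_lit 5) (nat_lit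 77) (nat_lit 5) (nat_lit 487) (nat_lit 421) (nat_lit 292)) (XT.lf (nat_lit 0) (nat_lit 46045790705) (nat_lit 228) (nat_lit 12012808860) (nat_lit 76) (nat_lit 24871542621) (nat_lit 74) (nat_lit 5) (nat_lit 77) (nat_lit 5) (nat_lit 75) (nat_lit 4) (nat_lit 488) (nat_lit 421) (nat_lit 291))))))) (XT.nd (nat_lit 57564) (nat_lit 0) (nat_lit 14516) (XT.nd (nat_lit 468) (nat_lit 304) (nat_lit 0) (XT.nd (nat_lit 234) (nat_lit 456) (nat_lit 0) (XT.nd (nat_lit 78) (nat_lit 228) (nat_lit 0) (XT.lf (nat_lit 0) (nat_lit 1335266272) (nat_lit 152) (nat_lit 14411447795) (nat_lit 76) (nat_lit 70011848799) (nat_lit 72) (nat_lit 5) (nat_lit 74) (nat_lit 5) (nat_lit 73) (nat_lit 5) (nat_lit 489) (nat_lit 421) (nat_lit 290)) (XT.nd (nat_lit 78) (nat_lit 76) (nat_lit 0) (XT.lf (nat_lit 0) (nat_lit 41801523898) (nat_lit 228) (nat_lit 17573052131) (nat_lit 76) (nat_lit 29309918382) (nat_lit 70) (nat_lit 5) (nat_lit 73)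 (nat_lit 5) (nat_lit 71) (nat_lit 4) (nat_lit 490) (nat_lit 421) (nat_lit 289)) (XT.lf (nat_lit 0) (nat_lit 70664252971) (nat_lit 76) (nat_lit 14607764460) (nat_lit 152) (nat_lit 6455277506) (nat_lit 69) (nat_lit 5) (nat_lit 70) (nat_lit 5) (nat_lit 71) (nat_lit 4) (nat_lit 491) (nat_lit 421) (nat_lit 288)))) (XT.nd (nat_lit 78) (nat_lit 228) (nat_lit 0) (XT.lf (nat_lit 0) (nat_lit 36461012709) (nat_lit 228) (nat_lit 25445666441) (nat_lit 76) (nat_lit 32970089155) (nat_lit 66) (nat_lit 5) (nat_lit 69) (nat_lit 5) (nat_lit 67) (nat_lit 4) (nat_lit 492) (nat_lit 421) (nat_lit 287)) (XT.nd (nat_lit 78) (nat_lit 152) (nat_lit 0) (XT.lf (nat_lit 0) (nat_lit 67808212710) (nat_lit 76) (nat_lit 14594053730) (nat_lit 152) (nat_lit 15749151954) (nat_lit 65) (nat_lit 5) (nat_lit 66) (nat_lit 5) (nat_lit 67) (nat_lit 4) (nat_lit 493) (nat_lit 421) (nat_lit 286)) (XT.lf (nat_lit 0) (nat_lit 29721753499) (nat_lit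 152) (nat_lit 36242439558) (nat_lit 76) (nat_lit 35580094679) (nat_lit 63) (nat_lit 5) (nat_lit 65) (nat_lit 5) (nat_lit 64) (nat_lit 4) (nat_lit 494) (nat_lit 421) (nat_lit 285))))) (XT.nd (nat_lit 56784) (nat_lit 0) (nat_lit 20292) (XT.nd (nat_lit 78) (nat_lit 228) (nat_lit 0) (XT.lf (nat_lit 0) (nat_lit 62156705539) (nat_lit 76) (nat_lit 16040511657) (nat_lit 152) (nat_lit 26873203569) (nat_lit 62) (nat_lit 5) (nat_lit 63) (nat_lit 5) (nat_lit 64) (nat_lit 4) (nat_lit 495) (nat_lit 421) (nat_lit 284)) (XT.nd (nat_lit 78) (nat_lit 76) (nat_lit 0) (XT.lf (nat_lit 0) (nat_lit 21219616841) (nat_lit 152) (nat_lit 50700297872) (nat_lit 76) (nat_lit 36808306622) (nat_lit 60) (nat_lit 5) (nat_lit 62) (nat_lit 5) (nat_lit 61) (nat_lit 4) (nat_lit 496) (nat_lit 421) (nat_lit 283)) (XT.lf (nat_lit 0) (nat_lit 52941125167) (nat_lit 76) (nat_lit 19336002707) (nat_lit 152) (nat_lit 40250327125) (nat_lit 59)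 (nat_lit 5) (nat_lit 60) (nat_lit 5) (nat_lit 61) (nat_lit 4) (nat_lit 497) (nat_lit 421) (nat_lit 282)))) (XT.nd (nat_lit 156) (nat_lit 0) (nat_lit 76) (XT.nd (nat_lit 78) (nat_lit 0) (nat_lit 0) (XT.lf (nat_lit 0) (nat_lit 2026187418) (nat_lit 0) (nat_lit 2026187418) (nat_lit 1140) (nat_lit 2043755396) (nat_lit 326) (nat_lit 5) (nat_lit 326) (nat_lit 3) (nat_lit 341) (nat_lit 3) (nat_lit 422) (nat_lit 422) (nat_lit 356)) (XT.lf (nat_lit 76) (nat_lit 1928561545) (nat_lit 0) (nat_lit 7200165729) (nat_lit 1216) (nat_lit 3343626645) (nat_lit 327) (nat_lit 5) (nat_lit 326) (nat_lit 5) (nat_lit 342) (nat_lit 5) (nat_lit 423) (nat_lit 422) (nat_lit 355))) (XT.nd (nat_lit 78) (nat_lit 0) (nat_lit 0) (XT.lf (nat_lit 0) (nat_lit 10302408009) (nat_lit 1140) (nat_lit 183918732) (nat_lit 1216) (nat_lit 2277174806) (nat_lit 327) (nat_lit 5) (nat_lit 342) (nat_lit 5) (nat_lit 343) (nat_lit 5) (nat_lit 424)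 (nat_lit 422) (nat_lit 354)) (XT.lf (nat_lit 76) (nat_lit 10805563740) (nat_lit 0) (nat_lit 860128663) (nat_lit 1216) (nat_lit 1399590973) (nat_lit 328) (nat_lit 5) (nat_lit 327) (nat_lit 5) (nat_lit 343) (nat_lit 5) (nat_lit 425) (nat_lit 422) (nat_lit 353)))))) (XT.nd (nat_lit 546) (nat_lit 4788) (nat_lit 0) (XT.nd (nat_lit 234) (nat_lit 0) (nat_lit 76) (XT.nd (nat_lit 78) (nat_lit 1140) (nat_lit 0) (XT.lf (nat_lit 76) (nat_lit 9026196685) (nat_lit 0) (nat_lit 4204986529) (nat_lit 1216) (nat_lit 146954012) (nat_lit 329) (nat_lit 5) (nat_lit 328) (nat_lit 5) (nat_lit 344) (nat_lit 5) (nat_lit 426) (nat_lit 422) (nat_lit 352)) (XT.nd (nat_lit 78) (nat_lit 0) (nat_lit 76) (XT.lf (nat_lit 0) (nat_lit 1264565420) (nat_lit 1216) (nat_lit 6450294772) (nat_lit 1292) (nat_lit 5987869082) (nat_lit 313) (nat_lit 5) (nat_lit 329) (nat_lit 5) (nat_lit 330) (nat_lit 5) (nat_lit 427) (nat_lit 422) (nat_lit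 351)) (XT.lf (nat_lit 0) (nat_lit 2869899188) (nat_lit 1216) (nat_lit 8545010326) (nat_lit 1292) (nat_lit 2624813129) (nat_lit 314) (nat_lit 5) (nat_lit 330) (nat_lit 5) (nat_lit 331) (nat_lit 5) (nat_lit 428) (nat_lit 422) (nat_lit 350)))) (XT.nd (nat_lit 156) (nat_lit 0) (nat_lit 152) (XT.nd (nat_lit 78) (nat_lit 0) (nat_lit 76) (XT.lf (nat_lit 76) (nat_lit 3746380684) (nat_lit 0) (nat_lit 951580506) (nat_lit 1292) (nat_lit 9691334164) (nat_lit 315) (nat_lit 5) (nat_lit 314) (nat_lit 5) (nat_lit 331) (nat_lit 5) (nat_lit 429) (nat_lit 422) (nat_lit 349)) (XT.lf (nat_lit 76) (nat_lit 1989922687) (nat_lit 0) (nat_lit 4795108428) (nat_lit 1292) (nat_lit 7966290793) (nat_lit 316) (nat_lit 5) (nat_lit 315) (nat_lit 5) (nat_lit 332) (nat_lit 5) (nat_lit 430) (nat_lit 422) (nat_lit 348))) (XT.nd (nat_lit 78) (nat_lit 0) (nat_lit 76) (XT.lf (nat_lit 76) (nat_lit 253755536) (nat_lit 0) (nat_lit 8870190777)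 (nat_lit 1292) (nat_lit 6003081916) (nat_lit 317) (nat_lit 5) (nat_lit 316) (nat_lit 5) (nat_lit 333) (nat_lit 5) (nat_lit 431) (nat_lit 422) (nat_lit 347)) (XT.lf (nat_lit 0) (nat_lit 11748153659) (nat_lit 1216) (nat_lit 1431339079) (nat_lit 76) (nat_lit 2336979778) (nat_lit 317) (nat_lit 5) (nat_lit 333) (nat_lit 5) (nat_lit 318) (nat_lit 5) (nat_lit 432) (nat_lit 422) (nat_lit 346))))) (XT.nd (nat_lit 234) (nat_lit 2356) (nat_lit 0) (XT.nd (nat_lit 78) (nat_lit 1520) (nat_lit 0) (XT.lf (nat_lit 0) (nat_lit 12815308777) (nat_lit 1216) (nat_lit 1868787471) (nat_lit 1292) (nat_lit 1235879920) (nat_lit 301) (nat_lit 5) (nat_lit 317) (nat_lit 5) (nat_lit 318) (nat_lit 5) (nat_lit 433) (nat_lit 422) (nat_lit 345)) (XT.nd (nat_lit 78) (nat_lit 608) (nat_lit 0) (XT.lf (nat_lit 0) (nat_lit 1588637981) (nat_lit 912) (nat_lit 4791322404) (nat_lit 76) (nat_lit 9957490027) (nat_lit 289) (nat_lit 5) (nat_lit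 301) (nat_lit 5) (nat_lit 290) (nat_lit 5) (nat_lit 434) (nat_lit 422) (nat_lit 344)) (XT.lf (nat_lit 0) (nat_lit 4704743761) (nat_lit 684) (nat_lit 6464547726) (nat_lit 76) (nat_lit 5600864683) (nat_lit 281) (nat_lit 5) (nat_lit 290) (nat_lit 5) (nat_lit 282) (nat_lit 5) (nat_lit 435) (nat_lit 422) (nat_lit 343)))) (XT.nd (nat_lit 156) (nat_lit 1216) (nat_lit 0) (XT.nd (nat_lit 78) (nat_lit 532) (nat_lit 0) (XT.lf (nat_lit 0) (nat_lit 8159057491) (nat_lit 684) (nat_lit 8109034133) (nat_lit 76) (nat_lit 950935940) (nat_lit 273) (nat_lit 5) (nat_lit 282) (nat_lit 5) (nat_lit 274) (nat_lit 5) (nat_lit 436) (nat_lit 422) (nat_lit 342)) (XT.lf (nat_lit 0) (nat_lit 7923216826) (nat_lit 532) (nat_lit 4091298947) (nat_lit 608) (nat_lit 5668976204) (nat_lit 266) (nat_lit 5) (nat_lit 273) (nat_lit 5) (nat_lit 274) (nat_lit 5) (nat_lit 437) (nat_lit 422) (nat_lit 341))) (XT.nd (nat_lit 78) (nat_lit 608)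 (nat_lit 0) (XT.lf (nat_lit 0) (nat_lit 6777717585) (nat_lit 608) (nat_lit 9491434728) (nat_lit 684) (nat_lit 1895837339) (nat_lit 258) (nat_lit 5) (nat_lit 266) (nat_lit 5) (nat_lit 267) (nat_lit 5) (nat_lit 438) (nat_lit 422) (nat_lit 340)) (XT.lf (nat_lit 0) (nat_lit 2231003533) (nat_lit 608) (nat_lit 12998094458) (nat_lit 76) (nat_lit 3434709699) (nat_lit 250) (nat_lit 5) (nat_lit 258) (nat_lit 5) (nat_lit 251) (nat_lit 5) (nat_lit 439) (nat_lit 422) (nat_lit 339))))))))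
noncomputable def xc84 : XT := (XT.nd (nat_lit 2028) (nat_lit 4788) (nat_lit 0) (XT.nd (nat_lit 1014) (nat_lit 3800) (nat_lit 0) (XT.nd (nat_lit 468) (nat_lit 2736) (nat_lit 0) (XT.nd (nat_lit 234) (nat_lit 988) (nat_lit 0) (XT.nd (nat_lit 78) (nat_lit 912) (nat_lit 0) (XT.lf (nat_lit 0) (nat_lit 4570706326) (nat_lit 532) (nat_lit 2187835303) (nat_lit 608) (nat_lit 12421456899) (nat_lit 243) (nat_lit 5) (nat_lit 250) (nat_lit 5) (nat_lit 251) (nat_lit 5) (nat_lit 440) (nat_lit 422) (nat_lit 338)) (XT.nd (nat_lit 78) (nat_lit 456) (nat_lit 0) (XT.lf (nat_lit 0) (nat_lit 3500418136) (nat_lit 456) (nat_lit 8267395310) (nat_lit 532) (nat_lit 7946526607) (nat_lit 237) (nat_lit 5) (nat_lit 243) (nat_lit 5) (nat_lit 244) (nat_lit 5) (nat_lit 441) (nat_lit 422) (nat_lit 337)) (XT.lf (nat_lit 0) (nat_lit 2495613399) (nat_lit 456) (nat_lit 14758831152) (nat_lit 532) (nat_lit 3014148992) (nat_lit 231) (nat_lit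 5) (nat_lit 237) (nat_lit 5) (nat_lit 238) (nat_lit 5) (nat_lit 442) (nat_lit 422) (nat_lit 336)))) (XT.nd (nat_lit 78) (nat_lit 456) (nat_lit 0) (XT.lf (nat_lit 0) (nat_lit 1530775313) (nat_lit 456) (nat_lit 836006607) (nat_lit 532) (nat_lit 18475829766) (nat_lit 224) (nat_lit 5) (nat_lit 230) (nat_lit 5) (nat_lit 231) (nat_lit 5) (nat_lit 443) (nat_lit 422) (nat_lit 335)) (XT.nd (nat_lit 78) (nat_lit 0) (nat_lit 0) (XT.lf (nat_lit 0) (nat_lit 550377736) (nat_lit 456) (nat_lit 7705407976) (nat_lit 532) (nat_lit 13179610377) (nat_lit 218) (nat_lit 5) (nat_lit 224) (nat_lit 5) (nat_lit 225) (nat_lit 5) (nat_lit 444) (nat_lit 422) (nat_lit 334)) (XT.lf (nat_lit 0) (nat_lit 14694134594) (nat_lit 532) (nat_lit 346446146) (nat_lit 76) (nat_lit 7009593600) (nat_lit 218) (nat_lit 5) (nat_lit 225) (nat_lit 5) (nat_lit 219) (nat_lit 5) (nat_lit 445) (nat_lit 422) (nat_lit 333))))) (XT.nd (nat_lit 234) (nat_lit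 1444) (nat_lit 0) (XT.nd (nat_lit 78) (nat_lit 912) (nat_lit 0) (XT.lf (nat_lit 0) (nat_lit 21536074150) (nat_lit 380) (nat_lit 183088793) (nat_lit 456) (nat_lit 968587105) (nat_lit 213) (nat_lit 5) (nat_lit 218) (nat_lit 5) (nat_lit 219) (nat_lit 5) (nat_lit 446) (nat_lit 422) (nat_lit 332)) (XT.nd (nat_lit 78) (nat_lit 380) (nat_lit 0) (XT.lf (nat_lit 0) (nat_lit 5967827571) (nat_lit 532) (nat_lit 1998464219) (nat_lit 76) (nat_lit 15379012375) (nat_lit 206) (nat_lit 5) (nat_lit 213) (nat_lit 5) (nat_lit 207) (nat_lit 5) (nat_lit 447) (nat_lit 422) (nat_lit 331)) (XT.lf (nat_lit 0) (nat_lit 13507305642) (nat_lit 456) (nat_lit 2766737192) (nat_lit 76) (nat_lit 7753118457) (nat_lit 201) (nat_lit 5) (nat_lit 207) (nat_lit 5) (nat_lit 202) (nat_lit 5) (nat_lit 448) (nat_lit 422) (nat_lit 330)))) (XT.nd (nat_lit 156) (nat_lit 684) (nat_lit 0) (XT.nd (nat_lit 78) (nat_lit 380) (nat_lit 0) (XT.lf (nat_lit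 0) (nat_lit 21291711575) (nat_lit 380) (nat_lit 419640692) (nat_lit 456) (nat_lit 3023132344) (nat_lit 196) (nat_lit 5) (nat_lit 201) (nat_lit 5) (nat_lit 202) (nat_lit 5) (nat_lit 449) (nat_lit 422) (nat_lit 329)) (XT.lf (nat_lit 0) (nat_lit 5130007196) (nat_lit 380) (nat_lit 4145404767) (nat_lit 76) (nat_lit 16189079334) (nat_lit 191) (nat_lit 5) (nat_lit 196) (nat_lit 5) (nat_lit 192) (nat_lit 5) (nat_lit 450) (nat_lit 422) (nat_lit 328))) (XT.nd (nat_lit 78) (nat_lit 304) (nat_lit 0) (XT.lf (nat_lit 0) (nat_lit 13932199168) (nat_lit 456) (nat_lit 4775027657) (nat_lit 76) (nat_lit 7513757015) (nat_lit 186) (nat_lit 5) (nat_lit 192) (nat_lit 5) (nat_lit 187) (nat_lit 5) (nat_lit 451) (nat_lit 422) (nat_lit 327)) (XT.lf (nat_lit 0) (nat_lit 21694965593) (nat_lit 304) (nat_lit 1808091297) (nat_lit 380) (nat_lit 3502388425) (nat_lit 182) (nat_lit 5) (nat_lit 186) (nat_lit 5) (nat_lit 187) (nat_lit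 5) (nat_lit 452) (nat_lit 422) (nat_lit 326)))))) (XT.nd (nat_lit 468) (nat_lit 1824) (nat_lit 0) (XT.nd (nat_lit 234) (nat_lit 988) (nat_lit 0) (XT.nd (nat_lit 78) (nat_lit 608) (nat_lit 0) (XT.lf (nat_lit 0) (nat_lit 6013817842) (nat_lit 380) (nat_lit 5863243153) (nat_lit 76) (nat_lit 15938354110) (nat_lit 177) (nat_lit 5) (nat_lit 182) (nat_lit 5) (nat_lit 178) (nat_lit 5) (nat_lit 453) (nat_lit 422) (nat_lit 325)) (XT.nd (nat_lit 78) (nat_lit 304) (nat_lit 0) (XT.lf (nat_lit 0) (nat_lit 16266276925) (nat_lit 380) (nat_lit 6331883444) (nat_lit 76) (nat_lit 6056697254) (nat_lit 173) (nat_lit 5) (nat_lit 178) (nat_lit 5) (nat_lit 174) (nat_lit 5) (nat_lit 454) (nat_lit 422) (nat_lit 324)) (XT.lf (nat_lit 0) (nat_lit 22808231526) (nat_lit 304) (nat_lit 4607869695) (nat_lit 380) (nat_lit 2108629608) (nat_lit 169) (nat_lit 5) (nat_lit 173) (nat_lit 5) (nat_lit 174) (nat_lit 5) (nat_lit 455) (nat_lit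 422) (nat_lit 323)))) (XT.nd (nat_lit 78) (nat_lit 608) (nat_lit 0) (XT.lf (nat_lit 0) (nat_lit 8933058953) (nat_lit 380) (nat_lit 7115763439) (nat_lit 76) (nat_lit 14374254759) (nat_lit 164) (nat_lit 5) (nat_lit 169) (nat_lit 5) (nat_lit 165) (nat_lit 5) (nat_lit 456) (nat_lit 422) (nat_lit 322)) (XT.nd (nat_lit 78) (nat_lit 304) (nat_lit 0) (XT.lf (nat_lit 0) (nat_lit 20846457331) (nat_lit 380) (nat_lit 7400510444) (nat_lit 76) (nat_lit 3107850365) (nat_lit 160) (nat_lit 5) (nat_lit 165) (nat_lit 5) (nat_lit 161) (nat_lit 5) (nat_lit 457) (nat_lit 422) (nat_lit 321)) (XT.lf (nat_lit 0) (nat_lit 1466170675) (nat_lit 304) (nat_lit 7640974866) (nat_lit 76) (nat_lit 23211794236) (nat_lit 156) (nat_lit 5) (nat_lit 160) (nat_lit 5) (nat_lit 157) (nat_lit 5) (nat_lit 458) (nat_lit 422) (nat_lit 320))))) (XT.nd (nat_lit 234) (nat_lit 988) (nat_lit 0) (XT.nd (nat_lit 78) (nat_lit 532) (nat_lit 0) (XT.lf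 (nat_lit 0) (nat_lit 14242731317) (nat_lit 380) (nat_lit 7872363844) (nat_lit 76) (nat_lit 11200432734) (nat_lit 152) (nat_lit 5) (nat_lit 157) (nat_lit 5) (nat_lit 153) (nat_lit 5) (nat_lit 459) (nat_lit 422) (nat_lit 319)) (XT.nd (nat_lit 78) (nat_lit 304) (nat_lit 0) (XT.lf (nat_lit 0) (nat_lit 26382365498) (nat_lit 228) (nat_lit 1687300170) (nat_lit 304) (nat_lit 6279933992) (nat_lit 149) (nat_lit 5) (nat_lit 152) (nat_lit 5) (nat_lit 153) (nat_lit 5) (nat_lit 460) (nat_lit 422) (nat_lit 318)) (XT.lf (nat_lit 0) (nat_lit 7540351393) (nat_lit 304) (nat_lit 8089298249) (nat_lit 76) (nat_lit 19787842728) (nat_lit 145) (nat_lit 5) (nat_lit 149) (nat_lit 5) (nat_lit 146) (nat_lit 5) (nat_lit 461) (nat_lit 422) (nat_lit 317)))) (XT.nd (nat_lit 156) (nat_lit 456) (nat_lit 0) (XT.nd (nat_lit 78) (nat_lit 304) (nat_lit 0) (XT.lf (nat_lit 0) (nat_lit 22343267305) (nat_lit 304) (nat_lit 8113309317) (nat_lit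 76) (nat_lit 6067693458) (nat_lit 142) (nat_lit 5) (nat_lit 146) (nat_lit 5) (nat_lit 143) (nat_lit 5) (nat_lit 462) (nat_lit 422) (nat_lit 316)) (XT.lf (nat_lit 0) (nat_lit 715299984) (nat_lit 304) (nat_lit 8057570418) (nat_lit 76) (nat_lit 28897881336) (nat_lit 138) (nat_lit 5) (nat_lit 142) (nat_lit 5) (nat_lit 139) (nat_lit 5) (nat_lit 463) (nat_lit 422) (nat_lit 315))) (XT.nd (nat_lit 78) (nat_lit 228) (nat_lit 0) (XT.lf (nat_lit 0) (nat_lit 16575369211) (nat_lit 304) (nat_lit 8035139055) (nat_lit 76) (nat_lit 14244470422) (nat_lit 135) (nat_lit 5) (nat_lit 139) (nat_lit 5) (nat_lit 136) (nat_lit 5) (nat_lit 464) (nat_lit 422) (nat_lit 314)) (XT.lf (nat_lit 0) (nat_lit 32233428572) (nat_lit 228) (nat_lit 1465360210) (nat_lit 304) (nat_lit 6385518249) (nat_lit 132) (nat_lit 5) (nat_lit 135) (nat_lit 5) (nat_lit 136) (nat_lit 5) (nat_lit 465) (nat_lit 422) (nat_lit 313))))))) (XT.nd (nat_lit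 1014) (nat_lit 2128) (nat_lit 0) (XT.nd (nat_lit 468) (nat_lit 1292) (nat_lit 0) (XT.nd (nat_lit 234) (nat_lit 684) (nat_lit 0) (XT.nd (nat_lit 78) (nat_lit 456) (nat_lit 0) (XT.lf (nat_lit 0) (nat_lit 10724090975) (nat_lit 228) (nat_lit 7732686182) (nat_lit 76) (nat_lit 22896697785) (nat_lit 129) (nat_lit 5) (nat_lit 132) (nat_lit 5) (nat_lit 130) (nat_lit 5) (nat_lit 466) (nat_lit 422) (nat_lit 312)) (XT.nd (nat_lit 78) (nat_lit 228) (nat_lit 0) (XT.lf (nat_lit 0) (nat_lit 29042301622) (nat_lit 304) (nat_lit 7496750169) (nat_lit 76) (nat_lit 6130597670) (nat_lit 126) (nat_lit 5) (nat_lit 130) (nat_lit 5) (nat_lit 127) (nat_lit 5) (nat_lit 467) (nat_lit 422) (nat_lit 311)) (XT.lf (nat_lit 0) (nat_lit 4758311691) (nat_lit 228) (nat_lit 7230729385) (nat_lit 76) (nat_lit 32042894786) (nat_lit 123) (nat_lit 5) (nat_lit 126) (nat_lit 5) (nat_lit 124) (nat_lit 5) (nat_lit 468) (nat_lit 422) (nat_lit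 310)))) (XT.nd (nat_lit 78) (nat_lit 456) (nat_lit 0) (XT.lf (nat_lit 0) (nat_lit 24360638267) (nat_lit 304) (nat_lit 6976091896) (nat_lit 76) (nat_lit 14104182487) (nat_lit 120) (nat_lit 5) (nat_lit 124) (nat_lit 5) (nat_lit 121) (nat_lit 5) (nat_lit 469) (nat_lit 422) (nat_lit 309)) (XT.nd (nat_lit 78) (nat_lit 304) (nat_lit 0) (XT.lf (nat_lit 0) (nat_lit 40325065179) (nat_lit 152) (nat_lit 5191358982) (nat_lit 228) (nat_lit 1386714162) (nat_lit 118) (nat_lit 5) (nat_lit 120) (nat_lit 5) (nat_lit 121) (nat_lit 5) (nat_lit 470) (nat_lit 422) (nat_lit 308)) (XT.lf (nat_lit 0) (nat_lit 19604690507) (nat_lit 304) (nat_lit 6316787629) (nat_lit 76) (nat_lit 22490745786) (nat_lit 114) (nat_lit 5) (nat_lit 118) (nat_lit 5) (nat_lit 115) (nat_lit 5) (nat_lit 471) (nat_lit 422) (nat_lit 307))))) (XT.nd (nat_lit 234) (nat_lit 760) (nat_lit 0) (XT.nd (nat_lit 78) (nat_lit 380) (nat_lit 0) (XT.lf (nat_lit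 0) (nat_lit 42171102814) (nat_lit 228) (nat_lit 5877585054) (nat_lit 76) (nat_lit 1931040830) (nat_lit 112) (nat_lit 5) (nat_lit 115) (nat_lit 5) (nat_lit 113) (nat_lit 5) (nat_lit 472) (nat_lit 422) (nat_lit 306)) (XT.nd (nat_lit 78) (nat_lit 152) (nat_lit 0) (XT.lf (nat_lit 0) (nat_lit 14731269779) (nat_lit 228) (nat_lit 5575454337) (nat_lit 76) (nat_lit 31291710668) (nat_lit 109) (nat_lit 5) (nat_lit 112) (nat_lit 5) (nat_lit 110) (nat_lit 5) (nat_lit 473) (nat_lit 422) (nat_lit 305)) (XT.lf (nat_lit 0) (nat_lit 38843657778) (nat_lit 228) (nat_lit 5181931256) (nat_lit 76) (nat_lit 9251958249) (nat_lit 107) (nat_lit 5) (nat_lit 110) (nat_lit 5) (nat_lit 108) (nat_lit 5) (nat_lit 474) (nat_lit 422) (nat_lit 304)))) (XT.nd (nat_lit 156) (nat_lit 380) (nat_lit 0) (XT.nd (nat_lit 78) (nat_lit 152) (nat_lit 0) (XT.lf (nat_lit 0) (nat_lit 9687357765) (nat_lit 228) (nat_lit 4826616790) (nat_lit 76)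 (nat_lit 40501682002) (nat_lit 104) (nat_lit 5) (nat_lit 107) (nat_lit 5) (nat_lit 105) (nat_lit 5) (nat_lit 475) (nat_lit 422) (nat_lit 303)) (XT.lf (nat_lit 0) (nat_lit 35433195595) (nat_lit 228) (nat_lit 4526301391) (nat_lit 76) (nat_lit 16855375947) (nat_lit 102) (nat_lit 5) (nat_lit 105) (nat_lit 5) (nat_lit 103) (nat_lit 5) (nat_lit 476) (nat_lit 422) (nat_lit 302))) (XT.nd (nat_lit 78) (nat_lit 152) (nat_lit 0) (XT.lf (nat_lit 0) (nat_lit 4408133489) (nat_lit 228) (nat_lit 4166584932) (nat_lit 76) (nat_lit 50106668745) (nat_lit 99) (nat_lit 5) (nat_lit 102) (nat_lit 5) (nat_lit 100) (nat_lit 5) (nat_lit 477) (nat_lit 422) (nat_lit 301)) (XT.lf (nat_lit 0) (nat_lit 31876347074) (nat_lit 228) (nat_lit 4019789908) (nat_lit 76) (nat_lit 24713805792) (nat_lit 97) (nat_lit 5) (nat_lit 100) (nat_lit 5) (nat_lit 98) (nat_lit 5) (nat_lit 478) (nat_lit 422) (nat_lit 300)))))) (XT.nd (nat_lit 546)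 (nat_lit 988) (nat_lit 0) (XT.nd (nat_lit 234) (nat_lit 608) (nat_lit 0) (XT.nd (nat_lit 78) (nat_lit 380) (nat_lit 0) (XT.lf (nat_lit 0) (nat_lit 58884625690) (nat_lit 152) (nat_lit 2520724752) (nat_lit 228) (nat_lit 1208954539) (nat_lit 95) (nat_lit 5) (nat_lit 97) (nat_lit 5) (nat_lit 98) (nat_lit 5) (nat_lit 479) (nat_lit 422) (nat_lit 299)) (XT.nd (nat_lit 78) (nat_lit 152) (nat_lit 0) (XT.lf (nat_lit 0) (nat_lit 28094860751) (nat_lit 228) (nat_lit 3800509199) (nat_lit 76) (nat_lit 32787230441) (nat_lit 92) (nat_lit 5) (nat_lit 95) (nat_lit 5) (nat_lit 93) (nat_lit 5) (nat_lit 480) (nat_lit 422) (nat_lit 298)) (XT.lf (nat_lit 0) (nat_lit 59536840589) (nat_lit 228) (nat_lit 3740920985) (nat_lit 76) (nat_lit 3555250765) (nat_lit 90) (nat_lit 5) (nat_lit 93) (nat_lit 5) (nat_lit 91) (nat_lit 4) (nat_lit 481) (nat_lit 422) (nat_lit 297)))) (XT.nd (nat_lit 156) (nat_lit 304) (nat_lit 0) (XT.nd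 (nat_lit 78) (nat_lit 152) (nat_lit 0) (XT.lf (nat_lit 0) (nat_lit 23992637756) (nat_lit 152) (nat_lit 4041534223) (nat_lit 76) (nat_lit 41020294159) (nat_lit 88) (nat_lit 5) (nat_lit 90) (nat_lit 5) (nat_lit 89) (nat_lit 5) (nat_lit 482) (nat_lit 422) (nat_lit 296)) (XT.lf (nat_lit 0) (nat_lit 57466337228) (nat_lit 228) (nat_lit 4340208927) (nat_lit 76) (nat_lit 9555139075) (nat_lit 86) (nat_lit 5) (nat_lit 89) (nat_lit 5) (nat_lit 87) (nat_lit 4) (nat_lit 483) (nat_lit 422) (nat_lit 295))) (XT.nd (nat_lit 78) (nat_lit 152) (nat_lit 0) (XT.lf (nat_lit 0) (nat_lit 19452224576) (nat_lit 152) (nat_lit 4957940326) (nat_lit 76) (nat_lit 49338964543) (nat_lit 84) (nat_lit 5) (nat_lit 86) (nat_lit 5) (nat_lit 85) (nat_lit 5) (nat_lit 484) (nat_lit 422) (nat_lit 294)) (XT.lf (nat_lit 0) (nat_lit 55050441342) (nat_lit 228) (nat_lit 5742587648) (nat_lit 76) (nat_lit 15432670400) (nat_lit 82) (nat_lit 5)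 (nat_lit 85) (nat_lit 5) (nat_lit 83) (nat_lit 4) (nat_lit 485) (nat_lit 422) (nat_lit 293))))) (XT.nd (nat_lit 234) (nat_lit 532) (nat_lit 0) (XT.nd (nat_lit 78) (nat_lit 304) (nat_lit 0) (XT.lf (nat_lit 0) (nat_lit 14330668728) (nat_lit 152) (nat_lit 6815126825) (nat_lit 76) (nat_lit 57646570817) (nat_lit 80) (nat_lit 5) (nat_lit 82) (nat_lit 5) (nat_lit 81) (nat_lit 5) (nat_lit 486) (nat_lit 422) (nat_lit 292)) (XT.nd (nat_lit 78) (nat_lit 152) (nat_lit 0) (XT.lf (nat_lit 0) (nat_lit 52142881237) (nat_lit 228) (nat_lit 8242380248) (nat_lit 76) (nat_lit 21066747862) (nat_lit 78) (nat_lit 5) (nat_lit 81) (nat_lit 5) (nat_lit 79) (nat_lit 4) (nat_lit 487) (nat_lit 422) (nat_lit 291)) (XT.lf (nat_lit 0) (nat_lit 8454625977) (nat_lit 152) (nat_lit 9938652141) (nat_lit 76) (nat_lit 65819108068) (nat_lit 76) (nat_lit 5) (nat_lit 78) (nat_lit 5) (nat_lit 77) (nat_lit 5) (nat_lit 488) (nat_lit 422) (nat_lit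 290)))) (XT.nd (nat_lit 156) (nat_lit 228) (nat_lit 0) (XT.nd (nat_lit 78) (nat_lit 152) (nat_lit 0) (XT.lf (nat_lit 0) (nat_lit 48565019143) (nat_lit 228) (nat_lit 12199645860) (nat_lit 76) (nat_lit 26305473010) (nat_lit 74) (nat_lit 5) (nat_lit 77) (nat_lit 5) (nat_lit 75) (nat_lit 4) (nat_lit 489) (nat_lit 422) (nat_lit 289)) (XT.lf (nat_lit 0) (nat_lit 1614588567) (nat_lit 152) (nat_lit 14725845113) (nat_lit 76) (nat_lit 73699677679) (nat_lit 72) (nat_lit 5) (nat_lit 74) (nat_lit 5) (nat_lit 73) (nat_lit 5) (nat_lit 490) (nat_lit 422) (nat_lit 288))) (XT.nd (nat_lit 78) (nat_lit 76) (nat_lit 0) (XT.lf (nat_lit 0) (nat_lit 44099639782) (nat_lit 228) (nat_lit 18052793040) (nat_lit 76) (nat_lit 30960042376) (nat_lit 70) (nat_lit 5) (nat_lit 73) (nat_lit 5) (nat_lit 71) (nat_lit 4) (nat_lit 491) (nat_lit 422) (nat_lit 287)) (XT.lf (nat_lit 0) (nat_lit 74584942594) (nat_lit 76) (nat_lit 15152533412)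 (nat_lit 152) (nat_lit 6570125334) (nat_lit 69) (nat_lit 5) (nat_lit 70) (nat_lit 5) (nat_lit 71) (nat_lit 4) (nat_lit 492) (nat_lit 422) (nat_lit 286))))))))
noncomputable def xc85 : XT := (XT.nd (nat_lit 58656) (nat_lit 0) (nat_lit 4560) (XT.nd (nat_lit 57642) (nat_lit 0) (nat_lit 12996) (XT.nd (nat_lit 57096) (nat_lit 0) (nat_lit 19152) (XT.nd (nat_lit 234) (nat_lit 228) (nat_lit 0) (XT.nd (nat_lit 78) (nat_lit 228) (nat_lit 0) (XT.lf (nat_lit 0) (nat_lit 38483624803) (nat_lit 228) (nat_lit 26333454115) (nat_lit 76) (nat_lit 34797538543) (nat_lit 66) (nat_lit 5) (nat_lit 69) (nat_lit 5) (nat_lit 67) (nat_lit 4) (nat_lit 493) (nat_lit 422) (nat_lit 285)) (XT.nd (nat_lit 78) (nat_lit 152) (nat_lit 0) (XT.lf (nat_lit 0) (nat_lit 71572097503) (nat_lit 76) (nat_lit 15143930853) (nat_lit 152) (nat_lit 16337149199) (nat_lit 65) (nat_lit 5) (nat_lit 66) (nat_lit 5) (nat_lit 67) (nat_lit 4) (nat_lit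 494) (nat_lit 422) (nat_lit 284)) (XT.lf (nat_lit 0) (nat_lit 31399319329) (nat_lit 152) (nat_lit 37684013899) (nat_lit 76) (nat_lit 37532422423) (nat_lit 63) (nat_lit 5) (nat_lit 65) (nat_lit 5) (nat_lit 64) (nat_lit 4) (nat_lit 495) (nat_lit 422) (nat_lit 283)))) (XT.nd (nat_lit 78) (nat_lit 152) (nat_lit 0) (XT.lf (nat_lit 0) (nat_lit 65624466779) (nat_lit 76) (nat_lit 16668431253) (nat_lit 152) (nat_lit 28025467146) (nat_lit 62) (nat_lit 5) (nat_lit 63) (nat_lit 5) (nat_lit 64) (nat_lit 4) (nat_lit 496) (nat_lit 422) (nat_lit 282)) (XT.nd (nat_lit 56706) (nat_lit 0) (nat_lit 20216) (XT.lf (nat_lit 0) (nat_lit 22464363602) (nat_lit 152) (nat_lit 52878253699) (nat_lit 76) (nat_lit 38816500250) (nat_lit 60) (nat_lit 5) (nat_lit 62) (nat_lit 5) (nat_lit 61) (nat_lit 4) (nat_lit 497) (nat_lit 422) (nat_lit 281)) (XT.lf (nat_lit 0) (nat_lit 2497288719) (nat_lit 0) (nat_lit 2497288719) (nat_lit 1140)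 (nat_lit 1384100627) (nat_lit 326) (nat_lit 5) (nat_lit 326) (nat_lit 3) (nat_lit 341) (nat_lit 3) (nat_lit 423) (nat_lit 423) (nat_lit 354))))) (XT.nd (nat_lit 234) (nat_lit 1064) (nat_lit 0) (XT.nd (nat_lit 78) (nat_lit 0) (nat_lit 76) (XT.lf (nat_lit 76) (nat_lit 2793520279) (nat_lit 0) (nat_lit 8200991315) (nat_lit 1216) (nat_lit 2059044036) (nat_lit 327) (nat_lit 5) (nat_lit 326) (nat_lit 5) (nat_lit 342) (nat_lit 5) (nat_lit 424) (nat_lit 423) (nat_lit 353)) (XT.nd (nat_lit 78) (nat_lit 0) (nat_lit 0) (XT.lf (nat_lit 76) (nat_lit 596726344) (nat_lit 0) (nat_lit 11562907716) (nat_lit 1216) (nat_lit 1201650305) (nat_lit 328) (nat_lit 5) (nat_lit 327) (nat_lit 5) (nat_lit 343) (nat_lit 5) (nat_lit 425) (nat_lit 423) (nat_lit 352)) (XT.lf (nat_lit 76) (nat_lit 12101731807) (nat_lit 0) (nat_lit 1427244198) (nat_lit 1216) (nat_lit 151048626) (nat_lit 328) (nat_lit 5) (nat_lit 327) (nat_lit 5) (nat_lit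 343) (nat_lit 5) (nat_lit 426) (nat_lit 423) (nat_lit 351)))) (XT.nd (nat_lit 156) (nat_lit 0) (nat_lit 152) (XT.nd (nat_lit 78) (nat_lit 0) (nat_lit 76) (XT.lf (nat_lit 0) (nat_lit 1082633269) (nat_lit 1216) (nat_lit 3766848386) (nat_lit 1292) (nat_lit 9160475530) (nat_lit 312) (nat_lit 5) (nat_lit 328) (nat_lit 5) (nat_lit 329) (nat_lit 5) (nat_lit 427) (nat_lit 423) (nat_lit 350)) (XT.lf (nat_lit 0) (nat_lit 2506552912) (nat_lit 1216) (nat_lit 5955094904) (nat_lit 1292) (nat_lit 5890746878) (nat_lit 313) (nat_lit 5) (nat_lit 329) (nat_lit 5) (nat_lit 330) (nat_lit 5) (nat_lit 428) (nat_lit 423) (nat_lit 349))) (XT.nd (nat_lit 78) (nat_lit 0) (nat_lit 0) (XT.lf (nat_lit 0) (nat_lit 4140427312) (nat_lit 1216) (nat_lit 8140745142) (nat_lit 1292) (nat_lit 2426622215) (nat_lit 314) (nat_lit 5) (nat_lit 330) (nat_lit 5) (nat_lit 331) (nat_lit 5) (nat_lit 429) (nat_lit 423) (nat_lit 348)) (XT.lf (nat_lit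 76) (nat_lit 4741380187) (nat_lit 0) (nat_lit 1272607900) (nat_lit 1292) (nat_lit 9062239969) (nat_lit 315) (nat_lit 5) (nat_lit 314) (nat_lit 5) (nat_lit 331) (nat_lit 5) (nat_lit 430) (nat_lit 423) (nat_lit 347)))))) (XT.nd (nat_lit 468) (nat_lit 3800) (nat_lit 0) (XT.nd (nat_lit 234) (nat_lit 2584) (nat_lit 0) (XT.nd (nat_lit 78) (nat_lit 0) (nat_lit 76) (XT.lf (nat_lit 76) (nat_lit 2908100039) (nat_lit 0) (nat_lit 5251195425) (nat_lit 1292) (nat_lit 7298448631) (nat_lit 316) (nat_lit 5) (nat_lit 315) (nat_lit 5) (nat_lit 332) (nat_lit 5) (nat_lit 431) (nat_lit 423) (nat_lit 346)) (XT.nd (nat_lit 78) (nat_lit 0) (nat_lit 76) (XT.lf (nat_lit 76) (nat_lit 1093928275) (nat_lit 0) (nat_lit 9477915628) (nat_lit 1292) (nat_lit 5281695659) (nat_lit 317) (nat_lit 5) (nat_lit 316) (nat_lit 5) (nat_lit 333) (nat_lit 5) (nat_lit 432) (nat_lit 423) (nat_lit 345)) (XT.lf (nat_lit 0) (nat_lit 13278534424)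 (nat_lit 1216) (nat_lit 684902625) (nat_lit 76) (nat_lit 2300485071) (nat_lit 317) (nat_lit 5) (nat_lit 333) (nat_lit 5) (nat_lit 318) (nat_lit 5) (nat_lit 433) (nat_lit 423) (nat_lit 344)))) (XT.nd (nat_lit 78) (nat_lit 1520) (nat_lit 0) (XT.lf (nat_lit 0) (nat_lit 14250629721) (nat_lit 1216) (nat_lit 2073378695) (nat_lit 1292) (nat_lit 364714550) (nat_lit 301) (nat_lit 5) (nat_lit 317) (nat_lit 5) (nat_lit 318) (nat_lit 5) (nat_lit 434) (nat_lit 423) (nat_lit 343)) (XT.nd (nat_lit 78) (nat_lit 608) (nat_lit 0) (XT.lf (nat_lit 0) (nat_lit 2545995802) (nat_lit 912) (nat_lit 4214052975) (nat_lit 76) (nat_lit 10367861677) (nat_lit 289) (nat_lit 5) (nat_lit 301) (nat_lit 5) (nat_lit 290) (nat_lit 5) (nat_lit 435) (nat_lit 423) (nat_lit 342)) (XT.lf (nat_lit 0) (nat_lit 5783243962) (nat_lit 684) (nat_lit 5968486681) (nat_lit 76) (nat_lit 5831564301) (nat_lit 281) (nat_lit 5) (nat_lit 290) (nat_lit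 5) (nat_lit 282) (nat_lit 5) (nat_lit 436) (nat_lit 423) (nat_lit 341))))) (XT.nd (nat_lit 234) (nat_lit 2052) (nat_lit 0) (XT.nd (nat_lit 78) (nat_lit 1140) (nat_lit 0) (XT.lf (nat_lit 0) (nat_lit 9377624005) (nat_lit 684) (nat_lit 7694147924) (nat_lit 76) (nat_lit 983820848) (nat_lit 273) (nat_lit 5) (nat_lit 282) (nat_lit 5) (nat_lit 274) (nat_lit 5) (nat_lit 437) (nat_lit 423) (nat_lit 340)) (XT.nd (nat_lit 78) (nat_lit 608) (nat_lit 0) (XT.lf (nat_lit 0) (nat_lit 9116200761) (nat_lit 532) (nat_lit 4278713342) (nat_lit 608) (nat_lit 5149297767) (nat_lit 266) (nat_lit 5) (nat_lit 273) (nat_lit 5) (nat_lit 274) (nat_lit 5) (nat_lit 438) (nat_lit 423) (nat_lit 339)) (XT.lf (nat_lit 0) (nat_lit 7913208030) (nat_lit 608) (nat_lit 9919761637) (nat_lit 684) (nat_lit 1217697218) (nat_lit 258) (nat_lit 5) (nat_lit 266) (nat_lit 5) (nat_lit 267) (nat_lit 5) (nat_lit 439) (nat_lit 423) (nat_lit 338))))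 (XT.nd (nat_lit 156) (nat_lit 912) (nat_lit 0) (XT.nd (nat_lit 78) (nat_lit 532) (nat_lit 0) (XT.lf (nat_lit 0) (nat_lit 3072462754) (nat_lit 608) (nat_lit 12838152248) (nat_lit 76) (nat_lit 3664428975) (nat_lit 250) (nat_lit 5) (nat_lit 258) (nat_lit 5) (nat_lit 251) (nat_lit 5) (nat_lit 440) (nat_lit 423) (nat_lit 337)) (XT.lf (nat_lit 0) (nat_lit 5585874475) (nat_lit 532) (nat_lit 2213307302) (nat_lit 608) (nat_lit 12318681166) (nat_lit 243) (nat_lit 5) (nat_lit 250) (nat_lit 5) (nat_lit 251) (nat_lit 5) (nat_lit 441) (nat_lit 423) (nat_lit 336))) (XT.nd (nat_lit 78) (nat_lit 456) (nat_lit 0) (XT.lf (nat_lit 0) (nat_lit 4459269306) (nat_lit 456) (nat_lit 8574488282) (nat_lit 532) (nat_lit 7645921320) (nat_lit 237) (nat_lit 5) (nat_lit 243) (nat_lit 5) (nat_lit 244) (nat_lit 5) (nat_lit 442) (nat_lit 423) (nat_lit 335)) (XT.lf (nat_lit 0) (nat_lit 3400557693) (nat_lit 456) (nat_lit 15370370465)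 (nat_lit 532) (nat_lit 2491433132) (nat_lit 231) (nat_lit 5) (nat_lit 237) (nat_lit 5) (nat_lit 238) (nat_lit 5) (nat_lit 443) (nat_lit 423) (nat_lit 334))))))) (XT.nd (nat_lit 1014) (nat_lit 3724) (nat_lit 0) (XT.nd (nat_lit 468) (nat_lit 2432) (nat_lit 0) (XT.nd (nat_lit 234) (nat_lit 912) (nat_lit 0) (XT.nd (nat_lit 78) (nat_lit 836) (nat_lit 0) (XT.lf (nat_lit 0) (nat_lit 2377924994) (nat_lit 456) (nat_lit 743443981) (nat_lit 532) (nat_lit 18744240467) (nat_lit 224) (nat_lit 5) (nat_lit 230) (nat_lit 5) (nat_lit 231) (nat_lit 5) (nat_lit 444) (nat_lit 423) (nat_lit 333)) (XT.nd (nat_lit 78) (nat_lit 380) (nat_lit 0) (XT.lf (nat_lit 0) (nat_lit 1343747964) (nat_lit 456) (nat_lit 7939369378) (nat_lit 532) (nat_lit 13205569054) (nat_lit 218) (nat_lit 5) (nat_lit 224) (nat_lit 5) (nat_lit 225) (nat_lit 5) (nat_lit 445) (nat_lit 423) (nat_lit 332)) (XT.lf (nat_lit 0) (nat_lit 389427211) (nat_lit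 380) (nat_lit 15629821162) (nat_lit 456) (nat_lit 7115681303) (nat_lit 213) (nat_lit 5) (nat_lit 218) (nat_lit 5) (nat_lit 219) (nat_lit 5) (nat_lit 446) (nat_lit 423) (nat_lit 331)))) (XT.nd (nat_lit 78) (nat_lit 912) (nat_lit 0) (XT.lf (nat_lit 0) (nat_lit 23337102020) (nat_lit 380) (nat_lit 33708029) (nat_lit 456) (nat_lit 434317624) (nat_lit 213) (nat_lit 5) (nat_lit 218) (nat_lit 5) (nat_lit 219) (nat_lit 5) (nat_lit 447) (nat_lit 423) (nat_lit 330)) (XT.nd (nat_lit 78) (nat_lit 380) (nat_lit 0) (XT.lf (nat_lit 0) (nat_lit 6818781970) (nat_lit 532) (nat_lit 1368847627) (nat_lit 76) (nat_lit 16308326631) (nat_lit 206) (nat_lit 5) (nat_lit 213) (nat_lit 5) (nat_lit 207) (nat_lit 5) (nat_lit 448) (nat_lit 423) (nat_lit 329)) (XT.lf (nat_lit 0) (nat_lit 14717420825) (nat_lit 456) (nat_lit 2182107606) (nat_lit 76) (nat_lit 8312913898) (nat_lit 201) (nat_lit 5) (nat_lit 207) (nat_lit 5) (nat_lit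 202) (nat_lit 5) (nat_lit 449) (nat_lit 423) (nat_lit 328))))) (XT.nd (nat_lit 234) (nat_lit 1292) (nat_lit 0) (XT.nd (nat_lit 78) (nat_lit 760) (nat_lit 0) (XT.lf (nat_lit 0) (nat_lit 23058539911) (nat_lit 380) (nat_lit 254415977) (nat_lit 456) (nat_lit 2642738991) (nat_lit 196) (nat_lit 5) (nat_lit 201) (nat_lit 5) (nat_lit 202) (nat_lit 5) (nat_lit 450) (nat_lit 423) (nat_lit 327)) (XT.nd (nat_lit 78) (nat_lit 380) (nat_lit 0) (XT.lf (nat_lit 0) (nat_lit 5891339891) (nat_lit 380) (nat_lit 3647153703) (nat_lit 76) (nat_lit 17184046892) (nat_lit 191) (nat_lit 5) (nat_lit 196) (nat_lit 5) (nat_lit 192) (nat_lit 5) (nat_lit 451) (nat_lit 423) (nat_lit 326)) (XT.lf (nat_lit 0) (nat_lit 15118091831) (nat_lit 456) (nat_lit 4315733504) (nat_lit 76) (nat_lit 8083500258) (nat_lit 186) (nat_lit 5) (nat_lit 192) (nat_lit 5) (nat_lit 187) (nat_lit 5) (nat_lit 452) (nat_lit 423) (nat_lit 325)))) (XT.nd (nat_lit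 156) (nat_lit 608) (nat_lit 0) (XT.nd (nat_lit 78) (nat_lit 380) (nat_lit 0) (XT.lf (nat_lit 0) (nat_lit 23457750073) (nat_lit 304) (nat_lit 1692960888) (nat_lit 380) (nat_lit 3190804003) (nat_lit 182) (nat_lit 5) (nat_lit 186) (nat_lit 5) (nat_lit 187) (nat_lit 5) (nat_lit 453) (nat_lit 423) (nat_lit 324)) (XT.lf (nat_lit 0) (nat_lit 6777400234) (nat_lit 380) (nat_lit 5476690526) (nat_lit 76) (nat_lit 16938182854) (nat_lit 177) (nat_lit 5) (nat_lit 182) (nat_lit 5) (nat_lit 178) (nat_lit 5) (nat_lit 454) (nat_lit 423) (nat_lit 323))) (XT.nd (nat_lit 78) (nat_lit 304) (nat_lit 0) (XT.lf (nat_lit 0) (nat_lit 17528834188) (nat_lit 380) (nat_lit 5976854392) (nat_lit 76) (nat_lit 6568410336) (nat_lit 173) (nat_lit 5) (nat_lit 178) (nat_lit 5) (nat_lit 174) (nat_lit 5) (nat_lit 455) (nat_lit 423) (nat_lit 322)) (XT.lf (nat_lit 0) (nat_lit 24601014382) (nat_lit 304) (nat_lit 4620013765) (nat_lit 380)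 (nat_lit 1766892438) (nat_lit 169) (nat_lit 5) (nat_lit 173) (nat_lit 5) (nat_lit 174) (nat_lit 5) (nat_lit 456) (nat_lit 423) (nat_lit 321)))))) (XT.nd (nat_lit 546) (nat_lit 1672) (nat_lit 0) (XT.nd (nat_lit 234) (nat_lit 1064) (nat_lit 0) (XT.nd (nat_lit 78) (nat_lit 608) (nat_lit 0) (XT.lf (nat_lit 0) (nat_lit 9805549066) (nat_lit 380) (nat_lit 6818749049) (nat_lit 76) (nat_lit 15307136391) (nat_lit 164) (nat_lit 5) (nat_lit 169) (nat_lit 5) (nat_lit 165) (nat_lit 5) (nat_lit 457) (nat_lit 423) (nat_lit 320)) (XT.nd (nat_lit 78) (nat_lit 304) (nat_lit 0) (XT.lf (nat_lit 0) (nat_lit 22302572853) (nat_lit 380) (nat_lit 7126214044) (nat_lit 76) (nat_lit 3481338003) (nat_lit 160) (nat_lit 5) (nat_lit 165) (nat_lit 5) (nat_lit 161) (nat_lit 5) (nat_lit 458) (nat_lit 423) (nat_lit 319)) (XT.lf (nat_lit 0) (nat_lit 1943563977) (nat_lit 304) (nat_lit 7389110133) (nat_lit 76) (nat_lit 24590071279) (nat_lit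 156) (nat_lit 5) (nat_lit 160) (nat_lit 5) (nat_lit 157) (nat_lit 5) (nat_lit 459) (nat_lit 423) (nat_lit 318)))) (XT.nd (nat_lit 156) (nat_lit 532) (nat_lit 0) (XT.nd (nat_lit 78) (nat_lit 228) (nat_lit 0) (XT.lf (nat_lit 0) (nat_lit 15347792068) (nat_lit 380) (nat_lit 7640661435) (nat_lit 76) (nat_lit 11981045125) (nat_lit 152) (nat_lit 5) (nat_lit 157) (nat_lit 5) (nat_lit 153) (nat_lit 5) (nat_lit 460) (nat_lit 423) (nat_lit 317)) (XT.lf (nat_lit 0) (nat_lit 28308879685) (nat_lit 228) (nat_lit 1544321437) (nat_lit 304) (nat_lit 6202459874) (nat_lit 149) (nat_lit 5) (nat_lit 152) (nat_lit 5) (nat_lit 153) (nat_lit 5) (nat_lit 461) (nat_lit 423) (nat_lit 316))) (XT.nd (nat_lit 78) (nat_lit 228) (nat_lit 0) (XT.lf (nat_lit 0) (nat_lit 8290839492) (nat_lit 304) (nat_lit 7887360931) (nat_lit 76) (nat_lit 20998946655) (nat_lit 145) (nat_lit 5) (nat_lit 149) (nat_lit 5) (nat_lit 146) (nat_lit 5) (nat_lit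 462) (nat_lit 423) (nat_lit 315)) (XT.lf (nat_lit 0) (nat_lit 23823967427) (nat_lit 304) (nat_lit 7921287978) (nat_lit 76) (nat_lit 6594307033) (nat_lit 142) (nat_lit 5) (nat_lit 146) (nat_lit 5) (nat_lit 143) (nat_lit 5) (nat_lit 463) (nat_lit 423) (nat_lit 314))))) (XT.nd (nat_lit 234) (nat_lit 912) (nat_lit 0) (XT.nd (nat_lit 78) (nat_lit 456) (nat_lit 0) (XT.lf (nat_lit 0) (nat_lit 1106368385) (nat_lit 304) (nat_lit 7872809563) (nat_lit 76) (nat_lit 30564438366) (nat_lit 138) (nat_lit 5) (nat_lit 142) (nat_lit 5) (nat_lit 139) (nat_lit 5) (nat_lit 464) (nat_lit 423) (nat_lit 313)) (XT.nd (nat_lit 78) (nat_lit 228) (nat_lit 0) (XT.lf (nat_lit 0) (nat_lit 17750190023) (nat_lit 304) (nat_lit 7857953149) (nat_lit 76) (nat_lit 15179189633) (nat_lit 135) (nat_lit 5) (nat_lit 139) (nat_lit 5) (nat_lit 136) (nat_lit 5) (nat_lit 465) (nat_lit 423) (nat_lit 312)) (XT.lf (nat_lit 0) (nat_lit 34407447579)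 (nat_lit 228) (nat_lit 1311259939) (nat_lit 304) (nat_lit 6359752870) (nat_lit 132) (nat_lit 5) (nat_lit 135) (nat_lit 5) (nat_lit 136) (nat_lit 5) (nat_lit 466) (nat_lit 423) (nat_lit 311)))) (XT.nd (nat_lit 156) (nat_lit 456) (nat_lit 0) (XT.nd (nat_lit 78) (nat_lit 228) (nat_lit 0) (XT.lf (nat_lit 0) (nat_lit 11589972969) (nat_lit 228) (nat_lit 7558868984) (nat_lit 76) (nat_lit 24262404747) (nat_lit 129) (nat_lit 5) (nat_lit 132) (nat_lit 5) (nat_lit 130) (nat_lit 5) (nat_lit 467) (nat_lit 423) (nat_lit 310)) (XT.lf (nat_lit 0) (nat_lit 30815792714) (nat_lit 304) (nat_lit 7319778463) (nat_lit 76) (nat_lit 6657908367) (nat_lit 126) (nat_lit 5) (nat_lit 130) (nat_lit 5) (nat_lit 127) (nat_lit 5) (nat_lit 468) (nat_lit 423) (nat_lit 309))) (XT.nd (nat_lit 78) (nat_lit 228) (nat_lit 0) (XT.lf (nat_lit 0) (nat_lit 5310543754) (nat_lit 228) (nat_lit 7050008354) (nat_lit 76) (nat_lit 33863540781) (nat_lit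 123) (nat_lit 5) (nat_lit 126) (nat_lit 5) (nat_lit 124) (nat_lit 5) (nat_lit 469) (nat_lit 423) (nat_lit 308)) (XT.lf (nat_lit 0) (nat_lit 25885219202) (nat_lit 304) (nat_lit 6791177445) (nat_lit 76) (nat_lit 15027355381) (nat_lit 120) (nat_lit 5) (nat_lit 124) (nat_lit 5) (nat_lit 121) (nat_lit 5) (nat_lit 470) (nat_lit 423) (nat_lit 307))))))))
noncomputable def xc86 : XT := (XT.nd (nat_lit 2028) (nat_lit 76) (nat_lit 0) (XT.nd (nat_lit 1014) (nat_lit 1900) (nat_lit 0) (XT.nd (nat_lit 468) (nat_lit 1216) (nat_lit 0) (XT.nd (nat_lit 234) (nat_lit 608) (nat_lit 0) (XT.nd (nat_lit 78) (nat_lit 456) (nat_lit 0) (XT.lf (nat_lit 0) (nat_lit 42859738534) (nat_lit 152) (nat_lit 5229441655) (nat_lit 228) (nat_lit 1150197687) (nat_lit 118) (nat_lit 5) (nat_lit 120) (nat_lit 5) (nat_lit 121) (nat_lit 5) (nat_lit 471) (nat_lit 423) (nat_lit 306)) (XT.nd (nat_lit 78) (nat_lit 152) (nat_lit 0) (XT.lf (nat_lit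 0) (nat_lit 20877528956) (nat_lit 304) (nat_lit 6116641590) (nat_lit 76) (nat_lit 23829877839) (nat_lit 114) (nat_lit 5) (nat_lit 118) (nat_lit 5) (nat_lit 115) (nat_lit 5) (nat_lit 472) (nat_lit 423) (nat_lit 305)) (XT.lf (nat_lit 0) (nat_lit 44565238878) (nat_lit 228) (nat_lit 5663849383) (nat_lit 76) (nat_lit 2241051239) (nat_lit 112) (nat_lit 5) (nat_lit 115) (nat_lit 5) (nat_lit 113) (nat_lit 5) (nat_lit 473) (nat_lit 423) (nat_lit 304)))) (XT.nd (nat_lit 78) (nat_lit 380) (nat_lit 0) (XT.lf (nat_lit 0) (nat_lit 15747302214) (nat_lit 228) (nat_lit 5355593243) (nat_lit 76) (nat_lit 33067069411) (nat_lit 109) (nat_lit 5) (nat_lit 112) (nat_lit 5) (nat_lit 110) (nat_lit 5) (nat_lit 474) (nat_lit 423) (nat_lit 303)) (XT.nd (nat_lit 78) (nat_lit 228) (nat_lit 0) (XT.lf (nat_lit 0) (nat_lit 41058709867) (nat_lit 228) (nat_lit 4950608042) (nat_lit 76) (nat_lit 9923913436) (nat_lit 107) (nat_lit 5)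 (nat_lit 110) (nat_lit 5) (nat_lit 108) (nat_lit 5) (nat_lit 475) (nat_lit 423) (nat_lit 302)) (XT.lf (nat_lit 0) (nat_lit 10438805274) (nat_lit 228) (nat_lit 4586263547) (nat_lit 76) (nat_lit 42733351493) (nat_lit 104) (nat_lit 5) (nat_lit 107) (nat_lit 5) (nat_lit 105) (nat_lit 5) (nat_lit 476) (nat_lit 423) (nat_lit 301))))) (XT.nd (nat_lit 234) (nat_lit 684) (nat_lit 0) (XT.nd (nat_lit 78) (nat_lit 380) (nat_lit 0) (XT.lf (nat_lit 0) (nat_lit 37465723641) (nat_lit 228) (nat_lit 4278976827) (nat_lit 76) (nat_lit 17903083701) (nat_lit 102) (nat_lit 5) (nat_lit 105) (nat_lit 5) (nat_lit 103) (nat_lit 5) (nat_lit 477) (nat_lit 423) (nat_lit 300)) (XT.nd (nat_lit 78) (nat_lit 152) (nat_lit 0) (XT.lf (nat_lit 0) (nat_lit 4883918126) (nat_lit 228) (nat_lit 3909762924) (nat_lit 76) (nat_lit 52814108251) (nat_lit 99) (nat_lit 5) (nat_lit 102) (nat_lit 5) (nat_lit 100) (nat_lit 5) (nat_lit 478) (nat_lit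 423) (nat_lit 299)) (XT.lf (nat_lit 0) (nat_lit 33719688132) (nat_lit 228) (nat_lit 3763492654) (nat_lit 76) (nat_lit 26149767812) (nat_lit 97) (nat_lit 5) (nat_lit 100) (nat_lit 5) (nat_lit 98) (nat_lit 5) (nat_lit 479) (nat_lit 423) (nat_lit 298)))) (XT.nd (nat_lit 156) (nat_lit 304) (nat_lit 0) (XT.nd (nat_lit 78) (nat_lit 228) (nat_lit 0) (XT.lf (nat_lit 0) (nat_lit 62273035691) (nat_lit 152) (nat_lit 2444493614) (nat_lit 228) (nat_lit 1020228248) (nat_lit 95) (nat_lit 5) (nat_lit 97) (nat_lit 5) (nat_lit 98) (nat_lit 5) (nat_lit 480) (nat_lit 423) (nat_lit 297)) (XT.lf (nat_lit 0) (nat_lit 29738390236) (nat_lit 228) (nat_lit 3549165074) (nat_lit 76) (nat_lit 34622006573) (nat_lit 92) (nat_lit 5) (nat_lit 95) (nat_lit 5) (nat_lit 93) (nat_lit 5) (nat_lit 481) (nat_lit 423) (nat_lit 296))) (XT.nd (nat_lit 78) (nat_lit 152) (nat_lit 0) (XT.lf (nat_lit 0) (nat_lit 62747114806) (nat_lit 228) (nat_lit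 3494193843) (nat_lit 76) (nat_lit 3926346644) (nat_lit 90) (nat_lit 5) (nat_lit 93) (nat_lit 5) (nat_lit 91) (nat_lit 4) (nat_lit 482) (nat_lit 423) (nat_lit 295)) (XT.lf (nat_lit 0) (nat_lit 25420881823) (nat_lit 152) (nat_lit 3817717588) (nat_lit 76) (nat_lit 43261727323) (nat_lit 88) (nat_lit 5) (nat_lit 90) (nat_lit 5) (nat_lit 89) (nat_lit 5) (nat_lit 483) (nat_lit 423) (nat_lit 294)))))) (XT.nd (nat_lit 468) (nat_lit 988) (nat_lit 0) (XT.nd (nat_lit 234) (nat_lit 456) (nat_lit 0) (XT.nd (nat_lit 78) (nat_lit 304) (nat_lit 0) (XT.lf (nat_lit 0) (nat_lit 60563202026) (nat_lit 228) (nat_lit 4138724417) (nat_lit 76) (nat_lit 10221132472) (nat_lit 86) (nat_lit 5) (nat_lit 89) (nat_lit 5) (nat_lit 87) (nat_lit 4) (nat_lit 484) (nat_lit 423) (nat_lit 293)) (XT.nd (nat_lit 78) (nat_lit 152) (nat_lit 0) (XT.lf (nat_lit 0) (nat_lit 20643796618) (nat_lit 152) (nat_lit 4794976884) (nat_lit 76) (nat_lit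 51991239764) (nat_lit 84) (nat_lit 5) (nat_lit 86) (nat_lit 5) (nat_lit 85) (nat_lit 5) (nat_lit 485) (nat_lit 423) (nat_lit 292)) (XT.lf (nat_lit 0) (nat_lit 58017128548) (nat_lit 228) (nat_lit 5626053849) (nat_lit 76) (nat_lit 16387373365) (nat_lit 82) (nat_lit 5) (nat_lit 85) (nat_lit 5) (nat_lit 83) (nat_lit 4) (nat_lit 486) (nat_lit 423) (nat_lit 291)))) (XT.nd (nat_lit 78) (nat_lit 304) (nat_lit 0) (XT.lf (nat_lit 0) (nat_lit 15256998187) (nat_lit 152) (nat_lit 6759612187) (nat_lit 76) (nat_lit 60709077065) (nat_lit 80) (nat_lit 5) (nat_lit 82) (nat_lit 5) (nat_lit 81) (nat_lit 5) (nat_lit 487) (nat_lit 423) (nat_lit 290)) (XT.nd (nat_lit 78) (nat_lit 152) (nat_lit 0) (XT.lf (nat_lit 0) (nat_lit 54955274831) (nat_lit 228) (nat_lit 8265222715) (nat_lit 76) (nat_lit 22297951574) (nat_lit 78) (nat_lit 5) (nat_lit 81) (nat_lit 5) (nat_lit 79) (nat_lit 4) (nat_lit 488) (nat_lit 423) (nat_lit 289))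 (XT.lf (nat_lit 0) (nat_lit 9078442110) (nat_lit 152) (nat_lit 10053461786) (nat_lit 76) (nat_lit 69285066087) (nat_lit 76) (nat_lit 5) (nat_lit 78) (nat_lit 5) (nat_lit 77) (nat_lit 5) (nat_lit 489) (nat_lit 423) (nat_lit 288))))) (XT.nd (nat_lit 234) (nat_lit 532) (nat_lit 0) (XT.nd (nat_lit 78) (nat_lit 304) (nat_lit 0) (XT.lf (nat_lit 0) (nat_lit 51190040080) (nat_lit 228) (nat_lit 12434296232) (nat_lit 76) (nat_lit 27793402677) (nat_lit 74) (nat_lit 5) (nat_lit 77) (nat_lit 5) (nat_lit 75) (nat_lit 4) (nat_lit 490) (nat_lit 423) (nat_lit 287)) (XT.nd (nat_lit 78) (nat_lit 152) (nat_lit 0) (XT.lf (nat_lit 0) (nat_lit 1888115258) (nat_lit 152) (nat_lit 15093724605) (nat_lit 76) (nat_lit 77554490533) (nat_lit 72) (nat_lit 5) (nat_lit 74) (nat_lit 5) (nat_lit 73) (nat_lit 5) (nat_lit 491) (nat_lit 423) (nat_lit 286)) (XT.lf (nat_lit 0) (nat_lit 46493319902) (nat_lit 228) (nat_lit 18593608022)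 (nat_lit 76) (nat_lit 32675507601) (nat_lit 70) (nat_lit 5) (nat_lit 73) (nat_lit 5) (nat_lit 71) (nat_lit 4) (nat_lit 492) (nat_lit 423) (nat_lit 285)))) (XT.nd (nat_lit 156) (nat_lit 228) (nat_lit 0) (XT.nd (nat_lit 78) (nat_lit 228) (nat_lit 0) (XT.lf (nat_lit 0) (nat_lit 78665642761) (nat_lit 76) (nat_lit 15741797932) (nat_lit 152) (nat_lit 6710045617) (nat_lit 69) (nat_lit 5) (nat_lit 70) (nat_lit 5) (nat_lit 71) (nat_lit 4) (nat_lit 493) (nat_lit 423) (nat_lit 284)) (XT.lf (nat_lit 0) (nat_lit 40588814169) (nat_lit 228) (nat_lit 27301377933) (nat_lit 76) (nat_lit 36699723796) (nat_lit 66) (nat_lit 5) (nat_lit 69) (nat_lit 5) (nat_lit 67) (nat_lit 4) (nat_lit 494) (nat_lit 423) (nat_lit 283))) (XT.nd (nat_lit 78) (nat_lit 152) (nat_lit 0) (XT.lf (nat_lit 0) (nat_lit 75489454449) (nat_lit 76) (nat_lit 15738020308) (nat_lit 152) (nat_lit 16973090239) (nat_lit 65) (nat_lit 5) (nat_lit 66) (nat_lit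 5) (nat_lit 67) (nat_lit 4) (nat_lit 495) (nat_lit 423) (nat_lit 282)) (XT.lf (nat_lit 0) (nat_lit 33142961626) (nat_lit 152) (nat_lit 39232116965) (nat_lit 76) (nat_lit 39566252623) (nat_lit 63) (nat_lit 5) (nat_lit 65) (nat_lit 5) (nat_lit 64) (nat_lit 4) (nat_lit 496) (nat_lit 423) (nat_lit 281))))))) (XT.nd (nat_lit 57720) (nat_lit 0) (nat_lit 10944) (XT.nd (nat_lit 57174) (nat_lit 0) (nat_lit 18088) (XT.nd (nat_lit 56940) (nat_lit 0) (nat_lit 18924) (XT.nd (nat_lit 56784) (nat_lit 0) (nat_lit 20064) (XT.lf (nat_lit 0) (nat_lit 69232153576) (nat_lit 76) (nat_lit 17343933552) (nat_lit 152) (nat_lit 29253138144) (nat_lit 62) (nat_lit 5) (nat_lit 63) (nat_lit 5) (nat_lit 64) (nat_lit 4) (nat_lit 497) (nat_lit 423) (nat_lit 280)) (XT.nd (nat_lit 78) (nat_lit 0) (nat_lit 0) (XT.lf (nat_lit 0) (nat_lit 2957565337) (nat_lit 0) (nat_lit 2957565337) (nat_lit 1140) (nat_lit 762292019) (nat_lit 326) (nat_lit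 5) (nat_lit 326) (nat_lit 3) (nat_lit 341) (nat_lit 3) (nat_lit 424) (nat_lit 424) (nat_lit 352)) (XT.lf (nat_lit 76) (nat_lit 3630276254) (nat_lit 0) (nat_lit 9192281063) (nat_lit 1216) (nat_lit 845203547) (nat_lit 327) (nat_lit 5) (nat_lit 326) (nat_lit 5) (nat_lit 342) (nat_lit 5) (nat_lit 425) (nat_lit 424) (nat_lit 351)))) (XT.nd (nat_lit 78) (nat_lit 1216) (nat_lit 0) (XT.lf (nat_lit 76) (nat_lit 1346457785) (nat_lit 0) (nat_lit 12640204627) (nat_lit 1216) (nat_lit 5997681) (nat_lit 328) (nat_lit 5) (nat_lit 327) (nat_lit 5) (nat_lit 343) (nat_lit 5) (nat_lit 426) (nat_lit 424) (nat_lit 350)) (XT.nd (nat_lit 78) (nat_lit 0) (nat_lit 76) (XT.lf (nat_lit 0) (nat_lit 1017094985) (nat_lit 1216) (nat_lit 946623162) (nat_lit 1292) (nat_lit 12365067150) (nat_lit 311) (nat_lit 5) (nat_lit 327) (nat_lit 5) (nat_lit 328) (nat_lit 5) (nat_lit 427) (nat_lit 424) (nat_lit 349)) (XT.lf (nat_lit 0) (nat_lit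 2255970375) (nat_lit 1216) (nat_lit 3228473399) (nat_lit 1292) (nat_lit 9192331996) (nat_lit 312) (nat_lit 5) (nat_lit 328) (nat_lit 5) (nat_lit 329) (nat_lit 5) (nat_lit 428) (nat_lit 424) (nat_lit 348))))) (XT.nd (nat_lit 234) (nat_lit 988) (nat_lit 0) (XT.nd (nat_lit 78) (nat_lit 0) (nat_lit 76) (XT.lf (nat_lit 0) (nat_lit 3701049919) (nat_lit 1216) (nat_lit 5511158397) (nat_lit 1292) (nat_lit 5825632832) (nat_lit 313) (nat_lit 5) (nat_lit 329) (nat_lit 5) (nat_lit 330) (nat_lit 5) (nat_lit 429) (nat_lit 424) (nat_lit 347)) (XT.nd (nat_lit 78) (nat_lit 0) (nat_lit 0) (XT.lf (nat_lit 0) (nat_lit 5369700982) (nat_lit 1216) (nat_lit 7793573148) (nat_lit 1292) (nat_lit 2249149179) (nat_lit 314) (nat_lit 5) (nat_lit 330) (nat_lit 5) (nat_lit 331) (nat_lit 5) (nat_lit 430) (nat_lit 424) (nat_lit 346)) (XT.lf (nat_lit 76) (nat_lit 5711039191) (nat_lit 0) (nat_lit 1584264026) (nat_lit 1292) (nat_lit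 8505228698) (nat_lit 315) (nat_lit 5) (nat_lit 314) (nat_lit 5) (nat_lit 331) (nat_lit 5) (nat_lit 431) (nat_lit 424) (nat_lit 345)))) (XT.nd (nat_lit 156) (nat_lit 1140) (nat_lit 0) (XT.nd (nat_lit 78) (nat_lit 0) (nat_lit 76) (XT.lf (nat_lit 76) (nat_lit 3796073038) (nat_lit 0) (nat_lit 5709974313) (nat_lit 1292) (nat_lit 6696335505) (nat_lit 316) (nat_lit 5) (nat_lit 315) (nat_lit 5) (nat_lit 332) (nat_lit 5) (nat_lit 432) (nat_lit 424) (nat_lit 344)) (XT.lf (nat_lit 76) (nat_lit 1899177942) (nat_lit 0) (nat_lit 10100759538) (nat_lit 1292) (nat_lit 4619213228) (nat_lit 317) (nat_lit 5) (nat_lit 316) (nat_lit 5) (nat_lit 333) (nat_lit 5) (nat_lit 433) (nat_lit 424) (nat_lit 343))) (XT.nd (nat_lit 78) (nat_lit 76) (nat_lit 0) (XT.lf (nat_lit 0) (nat_lit 23259322) (nat_lit 1216) (nat_lit 14774729789) (nat_lit 1292) (nat_lit 2253386334) (nat_lit 301) (nat_lit 5) (nat_lit 317) (nat_lit 5) (nat_lit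 318) (nat_lit 5) (nat_lit 434) (nat_lit 424) (nat_lit 342)) (XT.lf (nat_lit 0) (nat_lit 454231276) (nat_lit 1292) (nat_lit 1819047513) (nat_lit 76) (nat_lit 15225028351) (nat_lit 300) (nat_lit 5) (nat_lit 317) (nat_lit 5) (nat_lit 301) (nat_lit 5) (nat_lit 435) (nat_lit 424) (nat_lit 341)))))) (XT.nd (nat_lit 546) (nat_lit 2812) (nat_lit 0) (XT.nd (nat_lit 234) (nat_lit 2280) (nat_lit 0) (XT.nd (nat_lit 78) (nat_lit 1216) (nat_lit 0) (XT.lf (nat_lit 0) (nat_lit 3469600282) (nat_lit 912) (nat_lit 3683861700) (nat_lit 76) (nat_lit 10806887096) (nat_lit 289) (nat_lit 5) (nat_lit 301) (nat_lit 5) (nat_lit 290) (nat_lit 5) (nat_lit 436) (nat_lit 424) (nat_lit 340)) (XT.nd (nat_lit 78) (nat_lit 608) (nat_lit 0) (XT.lf (nat_lit 0) (nat_lit 6837270571) (nat_lit 684) (nat_lit 5523792256) (nat_lit 76) (nat_lit 6078386402) (nat_lit 281) (nat_lit 5) (nat_lit 290) (nat_lit 5) (nat_lit 282) (nat_lit 5) (nat_lit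 437) (nat_lit 424) (nat_lit 339)) (XT.lf (nat_lit 0) (nat_lit 10581755672) (nat_lit 684) (nat_lit 7334784649) (nat_lit 76) (nat_lit 1019713124) (nat_lit 273) (nat_lit 5) (nat_lit 282) (nat_lit 5) (nat_lit 274) (nat_lit 5) (nat_lit 438) (nat_lit 424) (nat_lit 338)))) (XT.nd (nat_lit 156) (nat_lit 1140) (nat_lit 0) (XT.nd (nat_lit 78) (nat_lit 608) (nat_lit 0) (XT.lf (nat_lit 0) (nat_lit 10294752834) (nat_lit 532) (nat_lit 4477092952) (nat_lit 608) (nat_lit 4678302567) (nat_lit 266) (nat_lit 5) (nat_lit 273) (nat_lit 5) (nat_lit 274) (nat_lit 5) (nat_lit 439) (nat_lit 424) (nat_lit 337)) (XT.lf (nat_lit 0) (nat_lit 9031412256) (nat_lit 608) (nat_lit 10373804297) (nat_lit 684) (nat_lit 577509981) (nat_lit 258) (nat_lit 5) (nat_lit 266) (nat_lit 5) (nat_lit 267) (nat_lit 5) (nat_lit 440) (nat_lit 424) (nat_lit 336))) (XT.nd (nat_lit 78) (nat_lit 532) (nat_lit 0) (XT.lf (nat_lit 0) (nat_lit 3888134911)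 (nat_lit 608) (nat_lit 12745504819) (nat_lit 76) (nat_lit 3900243432) (nat_lit 250) (nat_lit 5) (nat_lit 258) (nat_lit 5) (nat_lit 251) (nat_lit 5) (nat_lit 441) (nat_lit 424) (nat_lit 335)) (XT.lf (nat_lit 0) (nat_lit 6578667367) (nat_lit 532) (nat_lit 2247854965) (nat_lit 608) (nat_lit 12278063225) (nat_lit 243) (nat_lit 5) (nat_lit 250) (nat_lit 5) (nat_lit 251) (nat_lit 5) (nat_lit 442) (nat_lit 424) (nat_lit 334))))) (XT.nd (nat_lit 234) (nat_lit 1368) (nat_lit 0) (XT.nd (nat_lit 78) (nat_lit 988) (nat_lit 0) (XT.lf (nat_lit 0) (nat_lit 5393189926) (nat_lit 456) (nat_lit 8906816512) (nat_lit 532) (nat_lit 7395172836) (nat_lit 237) (nat_lit 5) (nat_lit 243) (nat_lit 5) (nat_lit 244) (nat_lit 5) (nat_lit 443) (nat_lit 424) (nat_lit 333)) (XT.nd (nat_lit 78) (nat_lit 532) (nat_lit 0) (XT.lf (nat_lit 0) (nat_lit 4278216982) (nat_lit 456) (nat_lit 16024238426) (nat_lit 532) (nat_lit 2005189996)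 (nat_lit 231) (nat_lit 5) (nat_lit 237) (nat_lit 5) (nat_lit 238) (nat_lit 5) (nat_lit 444) (nat_lit 424) (nat_lit 332)) (XT.lf (nat_lit 0) (nat_lit 3195788060) (nat_lit 456) (nat_lit 658745018) (nat_lit 532) (nat_lit 19087002797) (nat_lit 224) (nat_lit 5) (nat_lit 230) (nat_lit 5) (nat_lit 231) (nat_lit 5) (nat_lit 445) (nat_lit 424) (nat_lit 331)))) (XT.nd (nat_lit 156) (nat_lit 532) (nat_lit 0) (XT.nd (nat_lit 78) (nat_lit 380) (nat_lit 0) (XT.lf (nat_lit 0) (nat_lit 2105585105) (nat_lit 456) (nat_lit 8199096126) (nat_lit 532) (nat_lit 13291678035) (nat_lit 218) (nat_lit 5) (nat_lit 224) (nat_lit 5) (nat_lit 225) (nat_lit 5) (nat_lit 446) (nat_lit 424) (nat_lit 330)) (XT.lf (nat_lit 0) (nat_lit 1098635869) (nat_lit 380) (nat_lit 16260326311) (nat_lit 456) (nat_lit 6916514096) (nat_lit 213) (nat_lit 5) (nat_lit 218) (nat_lit 5) (nat_lit 219) (nat_lit 5) (nat_lit 447) (nat_lit 424) (nat_lit 329)))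 (XT.nd (nat_lit 78) (nat_lit 0) (nat_lit 0) (XT.lf (nat_lit 0) (nat_lit 73910010) (nat_lit 532) (nat_lit 24797164480) (nat_lit 76) (nat_lit 108775210) (nat_lit 206) (nat_lit 5) (nat_lit 213) (nat_lit 5) (nat_lit 207) (nat_lit 5) (nat_lit 448) (nat_lit 424) (nat_lit 328)) (XT.lf (nat_lit 0) (nat_lit 7660912017) (nat_lit 532) (nat_lit 775575901) (nat_lit 76) (nat_lit 17269197510) (nat_lit 206) (nat_lit 5) (nat_lit 213) (nat_lit 5) (nat_lit 207) (nat_lit 5) (nat_lit 449) (nat_lit 424) (nat_lit 327))))))))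
noncomputable def xc87 : XT := (XT.nd (nat_lit 2028) (nat_lit 3496) (nat_lit 0) (XT.nd (nat_lit 1014) (nat_lit 3040) (nat_lit 0) (XT.nd (nat_lit 468) (nat_lit 2128) (nat_lit 0) (XT.nd (nat_lit 234) (nat_lit 1064) (nat_lit 0) (XT.nd (nat_lit 78) (nat_lit 760) (nat_lit 0) (XT.lf (nat_lit 0) (nat_lit 15938325791) (nat_lit 456) (nat_lit 1635461109) (nat_lit 76) (nat_lit 8884695211) (nat_lit 201) (nat_lit 5) (nat_lit 207) (nat_lit 5) (nat_lit 202) (nat_lit 5) (nat_lit 450) (nat_lit 424) (nat_lit 326)) (XT.nd (nat_lit 78) (nat_lit 380) (nat_lit 0) (XT.lf (nat_lit 0) (nat_lit 24848421788) (nat_lit 380) (nat_lit 98241765) (nat_lit 456) (nat_lit 2292744447) (nat_lit 196) (nat_lit 5) (nat_lit 201) (nat_lit 5) (nat_lit 202) (nat_lit 5) (nat_lit 451) (nat_lit 424) (nat_lit 325)) (XT.lf (nat_lit 0) (nat_lit 6643804695) (nat_lit 380) (nat_lit 3189582770) (nat_lit 76) (nat_lit 18211515532) (nat_lit 191) (nat_lit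 5) (nat_lit 196) (nat_lit 5) (nat_lit 192) (nat_lit 5) (nat_lit 452) (nat_lit 424) (nat_lit 324)))) (XT.nd (nat_lit 78) (nat_lit 684) (nat_lit 0) (XT.lf (nat_lit 0) (nat_lit 16317790259) (nat_lit 456) (nat_lit 3898372302) (nat_lit 76) (nat_lit 8663689232) (nat_lit 186) (nat_lit 5) (nat_lit 192) (nat_lit 5) (nat_lit 187) (nat_lit 5) (nat_lit 453) (nat_lit 424) (nat_lit 323)) (XT.nd (nat_lit 78) (nat_lit 380) (nat_lit 0) (XT.lf (nat_lit 0) (nat_lit 25245636398) (nat_lit 304) (nat_lit 1591182653) (nat_lit 380) (nat_lit 2908889471) (nat_lit 182) (nat_lit 5) (nat_lit 186) (nat_lit 5) (nat_lit 187) (nat_lit 5) (nat_lit 454) (nat_lit 424) (nat_lit 322)) (XT.lf (nat_lit 0) (nat_lit 7536126481) (nat_lit 380) (nat_lit 5134003706) (nat_lit 76) (nat_lit 17969138291) (nat_lit 177) (nat_lit 5) (nat_lit 182) (nat_lit 5) (nat_lit 178) (nat_lit 5) (nat_lit 455) (nat_lit 424) (nat_lit 321))))) (XT.nd (nat_lit 234)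 (nat_lit 1140) (nat_lit 0) (XT.nd (nat_lit 78) (nat_lit 684) (nat_lit 0) (XT.lf (nat_lit 0) (nat_lit 18812752919) (nat_lit 380) (nat_lit 5666515048) (nat_lit 76) (nat_lit 7086289555) (nat_lit 173) (nat_lit 5) (nat_lit 178) (nat_lit 5) (nat_lit 174) (nat_lit 5) (nat_lit 456) (nat_lit 424) (nat_lit 320)) (XT.nd (nat_lit 78) (nat_lit 380) (nat_lit 0) (XT.lf (nat_lit 0) (nat_lit 26422785083) (nat_lit 304) (nat_lit 4653055800) (nat_lit 380) (nat_lit 1449641912) (nat_lit 169) (nat_lit 5) (nat_lit 173) (nat_lit 5) (nat_lit 174) (nat_lit 5) (nat_lit 457) (nat_lit 424) (nat_lit 319)) (XT.lf (nat_lit 0) (nat_lit 10682073382) (nat_lit 380) (nat_lit 6567575335) (nat_lit 76) (nat_lit 16266750711) (nat_lit 164) (nat_lit 5) (nat_lit 169) (nat_lit 5) (nat_lit 165) (nat_lit 5) (nat_lit 458) (nat_lit 424) (nat_lit 318)))) (XT.nd (nat_lit 156) (nat_lit 532) (nat_lit 0) (XT.nd (nat_lit 78) (nat_lit 304) (nat_lit 0)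 (XT.lf (nat_lit 0) (nat_lit 23793023631) (nat_lit 380) (nat_lit 6898105770) (nat_lit 76) (nat_lit 3853223605) (nat_lit 160) (nat_lit 5) (nat_lit 165) (nat_lit 5) (nat_lit 161) (nat_lit 5) (nat_lit 459) (nat_lit 424) (nat_lit 317)) (XT.lf (nat_lit 0) (nat_lit 2407258974) (nat_lit 304) (nat_lit 7183587430) (nat_lit 76) (nat_lit 26017023669) (nat_lit 156) (nat_lit 5) (nat_lit 160) (nat_lit 5) (nat_lit 157) (nat_lit 5) (nat_lit 460) (nat_lit 424) (nat_lit 316))) (XT.nd (nat_lit 78) (nat_lit 228) (nat_lit 0) (XT.lf (nat_lit 0) (nat_lit 16471575490) (nat_lit 380) (nat_lit 7455510288) (nat_lit 76) (nat_lit 12780179698) (nat_lit 152) (nat_lit 5) (nat_lit 157) (nat_lit 5) (nat_lit 153) (nat_lit 5) (nat_lit 461) (nat_lit 424) (nat_lit 315)) (XT.lf (nat_lit 0) (nat_lit 30275249666) (nat_lit 228) (nat_lit 1415330034) (nat_lit 304) (nat_lit 6157507295) (nat_lit 149) (nat_lit 5) (nat_lit 152) (nat_lit 5) (nat_lit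 153) (nat_lit 5) (nat_lit 462) (nat_lit 424) (nat_lit 314)))))) (XT.nd (nat_lit 468) (nat_lit 1520) (nat_lit 0) (XT.nd (nat_lit 234) (nat_lit 684) (nat_lit 0) (XT.nd (nat_lit 78) (nat_lit 532) (nat_lit 0) (XT.lf (nat_lit 0) (nat_lit 9044130247) (nat_lit 304) (nat_lit 7731704277) (nat_lit 76) (nat_lit 22249993118) (nat_lit 145) (nat_lit 5) (nat_lit 149) (nat_lit 5) (nat_lit 146) (nat_lit 5) (nat_lit 463) (nat_lit 424) (nat_lit 313)) (XT.nd (nat_lit 78) (nat_lit 304) (nat_lit 0) (XT.lf (nat_lit 0) (nat_lit 25344904354) (nat_lit 304) (nat_lit 7775232826) (nat_lit 76) (nat_lit 7126497580) (nat_lit 142) (nat_lit 5) (nat_lit 146) (nat_lit 5) (nat_lit 143) (nat_lit 5) (nat_lit 464) (nat_lit 424) (nat_lit 312)) (XT.lf (nat_lit 0) (nat_lit 1483957462) (nat_lit 304) (nat_lit 7733443805) (nat_lit 76) (nat_lit 32293715127) (nat_lit 138) (nat_lit 5) (nat_lit 142) (nat_lit 5) (nat_lit 139) (nat_lit 5) (nat_lit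 465) (nat_lit 424) (nat_lit 311)))) (XT.nd (nat_lit 78) (nat_lit 456) (nat_lit 0) (XT.lf (nat_lit 0) (nat_lit 18951579207) (nat_lit 304) (nat_lit 7725732568) (nat_lit 76) (nat_lit 16139959265) (nat_lit 135) (nat_lit 5) (nat_lit 139) (nat_lit 5) (nat_lit 136) (nat_lit 5) (nat_lit 466) (nat_lit 424) (nat_lit 310)) (XT.nd (nat_lit 78) (nat_lit 228) (nat_lit 0) (XT.lf (nat_lit 0) (nat_lit 36637885788) (nat_lit 228) (nat_lit 1170593202) (nat_lit 304) (nat_lit 6364777891) (nat_lit 132) (nat_lit 5) (nat_lit 135) (nat_lit 5) (nat_lit 136) (nat_lit 5) (nat_lit 467) (nat_lit 424) (nat_lit 309)) (XT.lf (nat_lit 0) (nat_lit 12468498779) (nat_lit 228) (nat_lit 7428466395) (nat_lit 76) (nat_lit 25675862466) (nat_lit 129) (nat_lit 5) (nat_lit 132) (nat_lit 5) (nat_lit 130) (nat_lit 5) (nat_lit 468) (nat_lit 424) (nat_lit 308))))) (XT.nd (nat_lit 234) (nat_lit 836) (nat_lit 0) (XT.nd (nat_lit 78) (nat_lit 456)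 (nat_lit 0) (XT.lf (nat_lit 0) (nat_lit 32648079865) (nat_lit 304) (nat_lit 7185260163) (nat_lit 76) (nat_lit 7191058491) (nat_lit 126) (nat_lit 5) (nat_lit 130) (nat_lit 5) (nat_lit 127) (nat_lit 5) (nat_lit 469) (nat_lit 424) (nat_lit 307)) (XT.nd (nat_lit 78) (nat_lit 228) (nat_lit 0) (XT.lf (nat_lit 0) (nat_lit 5861165253) (nat_lit 228) (nat_lit 6910665233) (nat_lit 76) (nat_lit 35754904899) (nat_lit 123) (nat_lit 5) (nat_lit 126) (nat_lit 5) (nat_lit 124) (nat_lit 5) (nat_lit 470) (nat_lit 424) (nat_lit 306)) (XT.lf (nat_lit 0) (nat_lit 27457529162) (nat_lit 304) (nat_lit 6646637410) (nat_lit 76) (nat_lit 15976422714) (nat_lit 120) (nat_lit 5) (nat_lit 124) (nat_lit 5) (nat_lit 121) (nat_lit 5) (nat_lit 471) (nat_lit 424) (nat_lit 305)))) (XT.nd (nat_lit 156) (nat_lit 380) (nat_lit 0) (XT.nd (nat_lit 78) (nat_lit 304) (nat_lit 0) (XT.lf (nat_lit 0) (nat_lit 45472947771) (nat_lit 152) (nat_lit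 5290020063) (nat_lit 228) (nat_lit 930290625) (nat_lit 118) (nat_lit 5) (nat_lit 120) (nat_lit 5) (nat_lit 121) (nat_lit 5) (nat_lit 472) (nat_lit 424) (nat_lit 304)) (XT.lf (nat_lit 0) (nat_lit 22186805789) (nat_lit 304) (nat_lit 5954459682) (nat_lit 76) (nat_lit 25216015508) (nat_lit 114) (nat_lit 5) (nat_lit 118) (nat_lit 5) (nat_lit 115) (nat_lit 5) (nat_lit 473) (nat_lit 424) (nat_lit 303))) (XT.nd (nat_lit 78) (nat_lit 228) (nat_lit 0) (XT.lf (nat_lit 0) (nat_lit 47052531138) (nat_lit 228) (nat_lit 5486620152) (nat_lit 76) (nat_lit 2546716833) (nat_lit 112) (nat_lit 5) (nat_lit 115) (nat_lit 5) (nat_lit 113) (nat_lit 5) (nat_lit 474) (nat_lit 424) (nat_lit 302)) (XT.lf (nat_lit 0) (nat_lit 16788153897) (nat_lit 228) (nat_lit 5171097339) (nat_lit 76) (nat_lit 34911600397) (nat_lit 109) (nat_lit 5) (nat_lit 112) (nat_lit 5) (nat_lit 110) (nat_lit 5) (nat_lit 475) (nat_lit 424) (nat_lit 301)))))))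 (XT.nd (nat_lit 1014) (nat_lit 1292) (nat_lit 0) (XT.nd (nat_lit 468) (nat_lit 1140) (nat_lit 0) (XT.nd (nat_lit 234) (nat_lit 532) (nat_lit 0) (XT.nd (nat_lit 78) (nat_lit 380) (nat_lit 0) (XT.lf (nat_lit 0) (nat_lit 43359145770) (nat_lit 228) (nat_lit 4753313250) (nat_lit 76) (nat_lit 10610002327) (nat_lit 107) (nat_lit 5) (nat_lit 110) (nat_lit 5) (nat_lit 108) (nat_lit 5) (nat_lit 476) (nat_lit 424) (nat_lit 300)) (XT.nd (nat_lit 78) (nat_lit 152) (nat_lit 0) (XT.lf (nat_lit 0) (nat_lit 11202994628) (nat_lit 228) (nat_lit 4378675064) (nat_lit 76) (nat_lit 45057398107) (nat_lit 104) (nat_lit 5) (nat_lit 107) (nat_lit 5) (nat_lit 105) (nat_lit 5) (nat_lit 477) (nat_lit 424) (nat_lit 299)) (XT.lf (nat_lit 0) (nat_lit 39575625031) (nat_lit 228) (nat_lit 4063320559) (nat_lit 76) (nat_lit 18984123560) (nat_lit 102) (nat_lit 5) (nat_lit 105) (nat_lit 5) (nat_lit 103) (nat_lit 5) (nat_lit 478) (nat_lit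 424) (nat_lit 298)))) (XT.nd (nat_lit 78) (nat_lit 304) (nat_lit 0) (XT.lf (nat_lit 0) (nat_lit 5359749373) (nat_lit 228) (nat_lit 3683345171) (nat_lit 76) (nat_lit 55638129826) (nat_lit 99) (nat_lit 5) (nat_lit 102) (nat_lit 5) (nat_lit 100) (nat_lit 5) (nat_lit 479) (nat_lit 424) (nat_lit 297)) (XT.nd (nat_lit 78) (nat_lit 152) (nat_lit 0) (XT.lf (nat_lit 0) (nat_lit 35631997895) (nat_lit 228) (nat_lit 3536894725) (nat_lit 76) (nat_lit 27638908566) (nat_lit 97) (nat_lit 5) (nat_lit 100) (nat_lit 5) (nat_lit 98) (nat_lit 5) (nat_lit 480) (nat_lit 424) (nat_lit 296)) (XT.lf (nat_lit 0) (nat_lit 65789570665) (nat_lit 152) (nat_lit 2383255823) (nat_lit 228) (nat_lit 845231481) (nat_lit 95) (nat_lit 5) (nat_lit 97) (nat_lit 5) (nat_lit 98) (nat_lit 5) (nat_lit 481) (nat_lit 424) (nat_lit 295))))) (XT.nd (nat_lit 234) (nat_lit 608) (nat_lit 0) (XT.nd (nat_lit 78) (nat_lit 304) (nat_lit 0) (XT.lf (nat_lit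 0) (nat_lit 31441896094) (nat_lit 228) (nat_lit 3326288103) (nat_lit 76) (nat_lit 36530353713) (nat_lit 92) (nat_lit 5) (nat_lit 95) (nat_lit 5) (nat_lit 93) (nat_lit 5) (nat_lit 482) (nat_lit 424) (nat_lit 294)) (XT.nd (nat_lit 78) (nat_lit 152) (nat_lit 0) (XT.lf (nat_lit 0) (nat_lit 66096200421) (nat_lit 228) (nat_lit 3275458463) (nat_lit 76) (nat_lit 4298023014) (nat_lit 90) (nat_lit 5) (nat_lit 93) (nat_lit 5) (nat_lit 91) (nat_lit 4) (nat_lit 483) (nat_lit 424) (nat_lit 293)) (XT.lf (nat_lit 0) (nat_lit 26899283900) (nat_lit 152) (nat_lit 3622305648) (nat_lit 76) (nat_lit 45597528842) (nat_lit 88) (nat_lit 5) (nat_lit 90) (nat_lit 5) (nat_lit 89) (nat_lit 5) (nat_lit 484) (nat_lit 424) (nat_lit 292)))) (XT.nd (nat_lit 156) (nat_lit 304) (nat_lit 0) (XT.nd (nat_lit 78) (nat_lit 152) (nat_lit 0) (XT.lf (nat_lit 0) (nat_lit 63794126694) (nat_lit 228) (nat_lit 3966073376) (nat_lit 76) (nat_lit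 10902925100) (nat_lit 86) (nat_lit 5) (nat_lit 89) (nat_lit 5) (nat_lit 87) (nat_lit 4) (nat_lit 485) (nat_lit 424) (nat_lit 291)) (XT.lf (nat_lit 0) (nat_lit 21874590361) (nat_lit 152) (nat_lit 4662063181) (nat_lit 76) (nat_lit 54758898800) (nat_lit 84) (nat_lit 5) (nat_lit 86) (nat_lit 5) (nat_lit 85) (nat_lit 5) (nat_lit 486) (nat_lit 424) (nat_lit 290))) (XT.nd (nat_lit 78) (nat_lit 152) (nat_lit 0) (XT.lf (nat_lit 0) (nat_lit 61112239069) (nat_lit 228) (nat_lit 5541222136) (nat_lit 76) (nat_lit 17372791417) (nat_lit 82) (nat_lit 5) (nat_lit 85) (nat_lit 5) (nat_lit 83) (nat_lit 4) (nat_lit 487) (nat_lit 424) (nat_lit 289)) (XT.lf (nat_lit 0) (nat_lit 16210139273) (nat_lit 152) (nat_lit 6738163337) (nat_lit 76) (nat_lit 63907957409) (nat_lit 80) (nat_lit 5) (nat_lit 82) (nat_lit 5) (nat_lit 81) (nat_lit 5) (nat_lit 488) (nat_lit 424) (nat_lit 288)))))) (XT.nd (nat_lit 546) (nat_lit 228) (nat_lit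 0) (XT.nd (nat_lit 234) (nat_lit 608) (nat_lit 0) (XT.nd (nat_lit 78) (nat_lit 304) (nat_lit 0) (XT.lf (nat_lit 0) (nat_lit 57889205949) (nat_lit 228) (nat_lit 8325398549) (nat_lit 76) (nat_lit 23574179146) (nat_lit 78) (nat_lit 5) (nat_lit 81) (nat_lit 5) (nat_lit 79) (nat_lit 4) (nat_lit 489) (nat_lit 424) (nat_lit 287)) (XT.nd (nat_lit 78) (nat_lit 152) (nat_lit 0) (XT.lf (nat_lit 0) (nat_lit 9714754087) (nat_lit 152) (nat_lit 10209538086) (nat_lit 76) (nat_lit 72908051922) (nat_lit 76) (nat_lit 5) (nat_lit 78) (nat_lit 5) (nat_lit 77) (nat_lit 5) (nat_lit 490) (nat_lit 424) (nat_lit 286)) (XT.lf (nat_lit 0) (nat_lit 53928018256) (nat_lit 228) (nat_lit 12715573926) (nat_lit 76) (nat_lit 29339676907) (nat_lit 74) (nat_lit 5) (nat_lit 77) (nat_lit 5) (nat_lit 75) (nat_lit 4) (nat_lit 491) (nat_lit 424) (nat_lit 285)))) (XT.nd (nat_lit 156) (nat_lit 304) (nat_lit 0) (XT.nd (nat_lit 78) (nat_lit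 152) (nat_lit 0) (XT.lf (nat_lit 0) (nat_lit 2157393822) (nat_lit 152) (nat_lit 15514249598) (nat_lit 76) (nat_lit 81586254942) (nat_lit 72) (nat_lit 5) (nat_lit 74) (nat_lit 5) (nat_lit 73) (nat_lit 5) (nat_lit 492) (nat_lit 424) (nat_lit 284)) (XT.lf (nat_lit 0) (nat_lit 48989140665) (nat_lit 228) (nat_lit 19195102782) (nat_lit 76) (nat_lit 34461176954) (nat_lit 70) (nat_lit 5) (nat_lit 73) (nat_lit 5) (nat_lit 71) (nat_lit 4) (nat_lit 493) (nat_lit 424) (nat_lit 283))) (XT.nd (nat_lit 78) (nat_lit 228) (nat_lit 0) (XT.lf (nat_lit 0) (nat_lit 82917703165) (nat_lit 76) (nat_lit 16376178394) (nat_lit 152) (nat_lit 6874494852) (nat_lit 69) (nat_lit 5) (nat_lit 70) (nat_lit 5) (nat_lit 71) (nat_lit 4) (nat_lit 494) (nat_lit 424) (nat_lit 282)) (XT.lf (nat_lit 0) (nat_lit 42782434584) (nat_lit 228) (nat_lit 28350121309) (nat_lit 76) (nat_lit 38681928422) (nat_lit 66) (nat_lit 5) (nat_lit 69) (nat_lit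 5) (nat_lit 67) (nat_lit 4) (nat_lit 495) (nat_lit 424) (nat_lit 281))))) (XT.nd (nat_lit 57018) (nat_lit 0) (nat_lit 18772) (XT.nd (nat_lit 78) (nat_lit 152) (nat_lit 0) (XT.lf (nat_lit 0) (nat_lit 79571185285) (nat_lit 76) (nat_lit 16376978387) (nat_lit 152) (nat_lit 17657648225) (nat_lit 65) (nat_lit 5) (nat_lit 66) (nat_lit 5) (nat_lit 67) (nat_lit 4) (nat_lit 496) (nat_lit 424) (nat_lit 280)) (XT.nd (nat_lit 56862) (nat_lit 0) (nat_lit 19988) (XT.lf (nat_lit 0) (nat_lit 34957639259) (nat_lit 152) (nat_lit 40888872355) (nat_lit 76) (nat_lit 41687158523) (nat_lit 63) (nat_lit 5) (nat_lit 65) (nat_lit 5) (nat_lit 64) (nat_lit 4) (nat_lit 497) (nat_lit 424) (nat_lit 279)) (XT.lf (nat_lit 0) (nat_lit 3409672340) (nat_lit 0) (nat_lit 3409672340) (nat_lit 1140) (nat_lit 173636878) (nat_lit 326) (nat_lit 5) (nat_lit 326) (nat_lit 3) (nat_lit 341) (nat_lit 3) (nat_lit 425) (nat_lit 425) (nat_lit 350))))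 (XT.nd (nat_lit 156) (nat_lit 0) (nat_lit 76) (XT.nd (nat_lit 78) (nat_lit 0) (nat_lit 76) (XT.lf (nat_lit 0) (nat_lit 300917220) (nat_lit 1216) (nat_lit 9875141200) (nat_lit 1292) (nat_lit 4140106246) (nat_lit 310) (nat_lit 5) (nat_lit 326) (nat_lit 5) (nat_lit 327) (nat_lit 5) (nat_lit 426) (nat_lit 425) (nat_lit 349)) (XT.lf (nat_lit 0) (nat_lit 1110588337) (nat_lit 1216) (nat_lit 12603156904) (nat_lit 1292) (nat_lit 944943671) (nat_lit 311) (nat_lit 5) (nat_lit 327) (nat_lit 5) (nat_lit 328) (nat_lit 5) (nat_lit 427) (nat_lit 425) (nat_lit 348))) (XT.nd (nat_lit 78) (nat_lit 0) (nat_lit 76) (XT.lf (nat_lit 0) (nat_lit 2131533558) (nat_lit 1216) (nat_lit 350816241) (nat_lit 1292) (nat_lit 12530869048) (nat_lit 311) (nat_lit 5) (nat_lit 327) (nat_lit 5) (nat_lit 328) (nat_lit 5) (nat_lit 428) (nat_lit 425) (nat_lit 347)) (XT.lf (nat_lit 0) (nat_lit 3383921223) (nat_lit 1216) (nat_lit 2730742960)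 (nat_lit 1292) (nat_lit 9265402282) (nat_lit 312) (nat_lit 5) (nat_lit 328) (nat_lit 5) (nat_lit 329) (nat_lit 5) (nat_lit 429) (nat_lit 425) (nat_lit 346))))))))
noncomputable def xc88 : XT := (XT.nd (nat_lit 2028) (nat_lit 6460) (nat_lit 0) (XT.nd (nat_lit 1014) (nat_lit 5168) (nat_lit 0) (XT.nd (nat_lit 468) (nat_lit 3876) (nat_lit 0) (XT.nd (nat_lit 234) (nat_lit 912) (nat_lit 0) (XT.nd (nat_lit 78) (nat_lit 0) (nat_lit 76) (XT.lf (nat_lit 0) (nat_lit 4855870543) (nat_lit 1216) (nat_lit 5113980487) (nat_lit 1292) (nat_lit 5790700061) (nat_lit 313) (nat_lit 5) (nat_lit 329) (nat_lit 5) (nat_lit 330) (nat_lit 5) (nat_lit 430) (nat_lit 425) (nat_lit 345)) (XT.nd (nat_lit 78) (nat_lit 0) (nat_lit 0) (XT.lf (nat_lit 0) (nat_lit 6565399005) (nat_lit 1216) (nat_lit 7499161781) (nat_lit 1292) (nat_lit 2090582470) (nat_lit 314) (nat_lit 5) (nat_lit 330) (nat_lit 5) (nat_lit 331) (nat_lit 5) (nat_lit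 431) (nat_lit 425) (nat_lit 344)) (XT.lf (nat_lit 76) (nat_lit 6661071872) (nat_lit 0) (nat_lit 1888443877) (nat_lit 1292) (nat_lit 8014278552) (nat_lit 315) (nat_lit 5) (nat_lit 314) (nat_lit 5) (nat_lit 331) (nat_lit 5) (nat_lit 432) (nat_lit 425) (nat_lit 343)))) (XT.nd (nat_lit 78) (nat_lit 1064) (nat_lit 0) (XT.lf (nat_lit 76) (nat_lit 4659407754) (nat_lit 0) (nat_lit 6173449551) (nat_lit 1292) (nat_lit 6154022524) (nat_lit 316) (nat_lit 5) (nat_lit 315) (nat_lit 5) (nat_lit 332) (nat_lit 5) (nat_lit 433) (nat_lit 425) (nat_lit 342)) (XT.nd (nat_lit 78) (nat_lit 1140) (nat_lit 0) (XT.lf (nat_lit 76) (nat_lit 2674910766) (nat_lit 0) (nat_lit 10740897859) (nat_lit 1292) (nat_lit 4009750112) (nat_lit 317) (nat_lit 5) (nat_lit 316) (nat_lit 5) (nat_lit 333) (nat_lit 5) (nat_lit 434) (nat_lit 425) (nat_lit 341)) (XT.lf (nat_lit 0) (nat_lit 710789207) (nat_lit 1216) (nat_lit 15609483426) (nat_lit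 1292) (nat_lit 1560130272) (nat_lit 301) (nat_lit 5) (nat_lit 317) (nat_lit 5) (nat_lit 318) (nat_lit 5) (nat_lit 435) (nat_lit 425) (nat_lit 340))))) (XT.nd (nat_lit 234) (nat_lit 2356) (nat_lit 0) (XT.nd (nat_lit 78) (nat_lit 1444) (nat_lit 0) (XT.lf (nat_lit 0) (nat_lit 1229513194) (nat_lit 1292) (nat_lit 1241274952) (nat_lit 76) (nat_lit 15879792710) (nat_lit 300) (nat_lit 5) (nat_lit 317) (nat_lit 5) (nat_lit 301) (nat_lit 5) (nat_lit 436) (nat_lit 425) (nat_lit 339)) (XT.nd (nat_lit 78) (nat_lit 608) (nat_lit 0) (XT.lf (nat_lit 0) (nat_lit 4365352124) (nat_lit 912) (nat_lit 3196042157) (nat_lit 76) (nat_lit 11275242639) (nat_lit 289) (nat_lit 5) (nat_lit 301) (nat_lit 5) (nat_lit 290) (nat_lit 5) (nat_lit 437) (nat_lit 425) (nat_lit 338)) (XT.lf (nat_lit 0) (nat_lit 7872888667) (nat_lit 684) (nat_lit 5125951248) (nat_lit 76) (nat_lit 6341710606) (nat_lit 281) (nat_lit 5) (nat_lit 290) (nat_lit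 5) (nat_lit 282) (nat_lit 5) (nat_lit 438) (nat_lit 425) (nat_lit 337)))) (XT.nd (nat_lit 156) (nat_lit 1216) (nat_lit 0) (XT.nd (nat_lit 78) (nat_lit 532) (nat_lit 0) (XT.lf (nat_lit 0) (nat_lit 11777737303) (nat_lit 684) (nat_lit 7026629848) (nat_lit 76) (nat_lit 1058636407) (nat_lit 273) (nat_lit 5) (nat_lit 282) (nat_lit 5) (nat_lit 274) (nat_lit 5) (nat_lit 439) (nat_lit 425) (nat_lit 336)) (XT.lf (nat_lit 0) (nat_lit 11465038807) (nat_lit 532) (nat_lit 4686837797) (nat_lit 608) (nat_lit 4251482921) (nat_lit 266) (nat_lit 5) (nat_lit 273) (nat_lit 5) (nat_lit 274) (nat_lit 5) (nat_lit 440) (nat_lit 425) (nat_lit 335))) (XT.nd (nat_lit 78) (nat_lit 532) (nat_lit 0) (XT.lf (nat_lit 0) (nat_lit 28931779) (nat_lit 684) (nat_lit 10825224844) (nat_lit 76) (nat_lit 10109127482) (nat_lit 257) (nat_lit 5) (nat_lit 266) (nat_lit 5) (nat_lit 258) (nat_lit 5) (nat_lit 441) (nat_lit 425) (nat_lit 334))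 (XT.lf (nat_lit 0) (nat_lit 4683039633) (nat_lit 608) (nat_lit 12716516984) (nat_lit 76) (nat_lit 4142959012) (nat_lit 250) (nat_lit 5) (nat_lit 258) (nat_lit 5) (nat_lit 251) (nat_lit 5) (nat_lit 442) (nat_lit 425) (nat_lit 333)))))) (XT.nd (nat_lit 468) (nat_lit 2356) (nat_lit 0) (XT.nd (nat_lit 234) (nat_lit 1368) (nat_lit 0) (XT.nd (nat_lit 78) (nat_lit 912) (nat_lit 0) (XT.lf (nat_lit 0) (nat_lit 7554765514) (nat_lit 532) (nat_lit 2291206714) (nat_lit 608) (nat_lit 12296454370) (nat_lit 243) (nat_lit 5) (nat_lit 250) (nat_lit 5) (nat_lit 251) (nat_lit 5) (nat_lit 443) (nat_lit 425) (nat_lit 332)) (XT.nd (nat_lit 78) (nat_lit 456) (nat_lit 0) (XT.lf (nat_lit 0) (nat_lit 6307708519) (nat_lit 456) (nat_lit 9264723157) (nat_lit 532) (nat_lit 7190741409) (nat_lit 237) (nat_lit 5) (nat_lit 243) (nat_lit 5) (nat_lit 244) (nat_lit 5) (nat_lit 444) (nat_lit 425) (nat_lit 331)) (XT.lf (nat_lit 0) (nat_lit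 5133970375) (nat_lit 456) (nat_lit 16721458908) (nat_lit 532) (nat_lit 1551422473) (nat_lit 231) (nat_lit 5) (nat_lit 237) (nat_lit 5) (nat_lit 238) (nat_lit 5) (nat_lit 445) (nat_lit 425) (nat_lit 330)))) (XT.nd (nat_lit 78) (nat_lit 836) (nat_lit 0) (XT.lf (nat_lit 0) (nat_lit 3989560971) (nat_lit 456) (nat_lit 581141533) (nat_lit 532) (nat_lit 19502169541) (nat_lit 224) (nat_lit 5) (nat_lit 230) (nat_lit 5) (nat_lit 231) (nat_lit 5) (nat_lit 446) (nat_lit 425) (nat_lit 329)) (XT.nd (nat_lit 78) (nat_lit 380) (nat_lit 0) (XT.lf (nat_lit 0) (nat_lit 2840932154) (nat_lit 456) (nat_lit 8484568645) (nat_lit 532) (nat_lit 13435473300) (nat_lit 218) (nat_lit 5) (nat_lit 224) (nat_lit 5) (nat_lit 225) (nat_lit 5) (nat_lit 447) (nat_lit 425) (nat_lit 328)) (XT.lf (nat_lit 0) (nat_lit 1779179725) (nat_lit 380) (nat_lit 16936393957) (nat_lit 456) (nat_lit 6758982637) (nat_lit 213) (nat_lit 5) (nat_lit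 218) (nat_lit 5) (nat_lit 219) (nat_lit 5) (nat_lit 448) (nat_lit 425) (nat_lit 327))))) (XT.nd (nat_lit 234) (nat_lit 1444) (nat_lit 0) (XT.nd (nat_lit 78) (nat_lit 380) (nat_lit 0) (XT.lf (nat_lit 0) (nat_lit 554930223) (nat_lit 532) (nat_lit 25406818792) (nat_lit 76) (nat_lit 252742110) (nat_lit 206) (nat_lit 5) (nat_lit 213) (nat_lit 5) (nat_lit 207) (nat_lit 5) (nat_lit 449) (nat_lit 425) (nat_lit 326)) (XT.nd (nat_lit 78) (nat_lit 380) (nat_lit 0) (XT.lf (nat_lit 0) (nat_lit 8498552583) (nat_lit 532) (nat_lit 214160494) (nat_lit 76) (nat_lit 18264588947) (nat_lit 206) (nat_lit 5) (nat_lit 213) (nat_lit 5) (nat_lit 207) (nat_lit 5) (nat_lit 450) (nat_lit 425) (nat_lit 325)) (XT.lf (nat_lit 0) (nat_lit 17175182147) (nat_lit 456) (nat_lit 1122447882) (nat_lit 76) (nat_lit 9470549580) (nat_lit 201) (nat_lit 5) (nat_lit 207) (nat_lit 5) (nat_lit 202) (nat_lit 5) (nat_lit 451) (nat_lit 425) (nat_lit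 324)))) (XT.nd (nat_lit 156) (nat_lit 684) (nat_lit 0) (XT.nd (nat_lit 78) (nat_lit 380) (nat_lit 0) (XT.lf (nat_lit 0) (nat_lit 26619021835) (nat_lit 456) (nat_lit 1920516297) (nat_lit 76) (nat_lit 49062460) (nat_lit 196) (nat_lit 5) (nat_lit 202) (nat_lit 5) (nat_lit 197) (nat_lit 5) (nat_lit 452) (nat_lit 425) (nat_lit 323)) (XT.lf (nat_lit 0) (nat_lit 7391321741) (nat_lit 380) (nat_lit 2768627787) (nat_lit 76) (nat_lit 19274713799) (nat_lit 191) (nat_lit 5) (nat_lit 196) (nat_lit 5) (nat_lit 192) (nat_lit 5) (nat_lit 453) (nat_lit 425) (nat_lit 322))) (XT.nd (nat_lit 78) (nat_lit 304) (nat_lit 0) (XT.lf (nat_lit 0) (nat_lit 17536213863) (nat_lit 456) (nat_lit 3519007127) (nat_lit 76) (nat_lit 9256523545) (nat_lit 186) (nat_lit 5) (nat_lit 192) (nat_lit 5) (nat_lit 187) (nat_lit 5) (nat_lit 454) (nat_lit 425) (nat_lit 321)) (XT.lf (nat_lit 0) (nat_lit 27065740278) (nat_lit 304) (nat_lit 1501647654)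 (nat_lit 380) (nat_lit 2653921489) (nat_lit 182) (nat_lit 5) (nat_lit 186) (nat_lit 5) (nat_lit 187) (nat_lit 5) (nat_lit 455) (nat_lit 425) (nat_lit 320))))))) (XT.nd (nat_lit 1014) (nat_lit 2660) (nat_lit 0) (XT.nd (nat_lit 468) (nat_lit 1824) (nat_lit 0) (XT.nd (nat_lit 234) (nat_lit 988) (nat_lit 0) (XT.nd (nat_lit 78) (nat_lit 608) (nat_lit 0) (XT.lf (nat_lit 0) (nat_lit 8293754788) (nat_lit 380) (nat_lit 4831500856) (nat_lit 76) (nat_lit 19034530619) (nat_lit 177) (nat_lit 5) (nat_lit 182) (nat_lit 5) (nat_lit 178) (nat_lit 5) (nat_lit 456) (nat_lit 425) (nat_lit 319)) (XT.nd (nat_lit 78) (nat_lit 304) (nat_lit 0) (XT.lf (nat_lit 0) (nat_lit 20122984236) (nat_lit 380) (nat_lit 5397294711) (nat_lit 76) (nat_lit 7612448661) (nat_lit 173) (nat_lit 5) (nat_lit 178) (nat_lit 5) (nat_lit 174) (nat_lit 5) (nat_lit 457) (nat_lit 425) (nat_lit 318)) (XT.lf (nat_lit 0) (nat_lit 28280631803) (nat_lit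 304) (nat_lit 4706154257) (nat_lit 380) (nat_lit 1154237252) (nat_lit 169) (nat_lit 5) (nat_lit 173) (nat_lit 5) (nat_lit 174) (nat_lit 5) (nat_lit 458) (nat_lit 425) (nat_lit 317)))) (XT.nd (nat_lit 78) (nat_lit 608) (nat_lit 0) (XT.lf (nat_lit 0) (nat_lit 11566514341) (nat_lit 380) (nat_lit 6358891819) (nat_lit 76) (nat_lit 17256285526) (nat_lit 164) (nat_lit 5) (nat_lit 169) (nat_lit 5) (nat_lit 165) (nat_lit 5) (nat_lit 459) (nat_lit 425) (nat_lit 316)) (XT.nd (nat_lit 78) (nat_lit 304) (nat_lit 0) (XT.lf (nat_lit 0) (nat_lit 25323103054) (nat_lit 380) (nat_lit 6712925818) (nat_lit 76) (nat_lit 4225312180) (nat_lit 160) (nat_lit 5) (nat_lit 165) (nat_lit 5) (nat_lit 161) (nat_lit 5) (nat_lit 460) (nat_lit 425) (nat_lit 315)) (XT.lf (nat_lit 0) (nat_lit 2860063462) (nat_lit 304) (nat_lit 7021244616) (nat_lit 76) (nat_lit 27496966758) (nat_lit 156) (nat_lit 5) (nat_lit 160) (nat_lit 5) (nat_lit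 157) (nat_lit 5) (nat_lit 461) (nat_lit 425) (nat_lit 314))))) (XT.nd (nat_lit 234) (nat_lit 988) (nat_lit 0) (XT.nd (nat_lit 78) (nat_lit 532) (nat_lit 0) (XT.lf (nat_lit 0) (nat_lit 17618413964) (nat_lit 380) (nat_lit 7313832996) (nat_lit 76) (nat_lit 13600669242) (nat_lit 152) (nat_lit 5) (nat_lit 157) (nat_lit 5) (nat_lit 153) (nat_lit 5) (nat_lit 462) (nat_lit 425) (nat_lit 313)) (XT.nd (nat_lit 78) (nat_lit 304) (nat_lit 0) (XT.lf (nat_lit 0) (nat_lit 32288718270) (nat_lit 228) (nat_lit 1299060277) (nat_lit 304) (nat_lit 6143318649) (nat_lit 149) (nat_lit 5) (nat_lit 152) (nat_lit 5) (nat_lit 153) (nat_lit 5) (nat_lit 463) (nat_lit 425) (nat_lit 312)) (XT.lf (nat_lit 0) (nat_lit 9803591889) (nat_lit 304) (nat_lit 7619400875) (nat_lit 76) (nat_lit 23544895612) (nat_lit 145) (nat_lit 5) (nat_lit 149) (nat_lit 5) (nat_lit 146) (nat_lit 5) (nat_lit 464) (nat_lit 425) (nat_lit 311)))) (XT.nd (nat_lit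 156) (nat_lit 456) (nat_lit 0) (XT.nd (nat_lit 78) (nat_lit 304) (nat_lit 0) (XT.lf (nat_lit 0) (nat_lit 26911232161) (nat_lit 304) (nat_lit 7672276054) (nat_lit 76) (nat_lit 7666473429) (nat_lit 142) (nat_lit 5) (nat_lit 146) (nat_lit 5) (nat_lit 143) (nat_lit 5) (nat_lit 465) (nat_lit 425) (nat_lit 310)) (XT.lf (nat_lit 0) (nat_lit 1850464323) (nat_lit 304) (nat_lit 7636663626) (nat_lit 76) (nat_lit 34090763552) (nat_lit 138) (nat_lit 5) (nat_lit 142) (nat_lit 5) (nat_lit 139) (nat_lit 5) (nat_lit 466) (nat_lit 425) (nat_lit 309))) (XT.nd (nat_lit 78) (nat_lit 228) (nat_lit 0) (XT.lf (nat_lit 0) (nat_lit 20183856293) (nat_lit 304) (nat_lit 7635721473) (nat_lit 76) (nat_lit 17130004983) (nat_lit 135) (nat_lit 5) (nat_lit 139) (nat_lit 5) (nat_lit 136) (nat_lit 5) (nat_lit 467) (nat_lit 425) (nat_lit 308)) (XT.lf (nat_lit 0) (nat_lit 38932424821) (nat_lit 228) (nat_lit 1042066415) (nat_lit 304)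 (nat_lit 6399150461) (nat_lit 132) (nat_lit 5) (nat_lit 135) (nat_lit 5) (nat_lit 136) (nat_lit 5) (nat_lit 468) (nat_lit 425) (nat_lit 307)))))) (XT.nd (nat_lit 468) (nat_lit 1292) (nat_lit 0) (XT.nd (nat_lit 234) (nat_lit 684) (nat_lit 0) (XT.nd (nat_lit 78) (nat_lit 456) (nat_lit 0) (XT.lf (nat_lit 0) (nat_lit 13363150168) (nat_lit 228) (nat_lit 7338804873) (nat_lit 76) (nat_lit 27141367591) (nat_lit 129) (nat_lit 5) (nat_lit 132) (nat_lit 5) (nat_lit 130) (nat_lit 5) (nat_lit 469) (nat_lit 425) (nat_lit 306)) (XT.nd (nat_lit 78) (nat_lit 228) (nat_lit 0) (XT.lf (nat_lit 0) (nat_lit 34544880698) (nat_lit 304) (nat_lit 7090548365) (nat_lit 76) (nat_lit 7732248337) (nat_lit 126) (nat_lit 5) (nat_lit 130) (nat_lit 5) (nat_lit 127) (nat_lit 5) (nat_lit 470) (nat_lit 425) (nat_lit 305)) (XT.lf (nat_lit 0) (nat_lit 6412812460) (nat_lit 228) (nat_lit 6810081907) (nat_lit 76) (nat_lit 37722411668) (nat_lit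 123) (nat_lit 5) (nat_lit 126) (nat_lit 5) (nat_lit 124) (nat_lit 5) (nat_lit 471) (nat_lit 425) (nat_lit 304)))) (XT.nd (nat_lit 78) (nat_lit 456) (nat_lit 0) (XT.lf (nat_lit 0) (nat_lit 29082604259) (nat_lit 304) (nat_lit 6539877300) (nat_lit 76) (nat_lit 16954563183) (nat_lit 120) (nat_lit 5) (nat_lit 124) (nat_lit 5) (nat_lit 121) (nat_lit 5) (nat_lit 472) (nat_lit 425) (nat_lit 303)) (XT.nd (nat_lit 78) (nat_lit 304) (nat_lit 0) (XT.lf (nat_lit 0) (nat_lit 48173100656) (nat_lit 152) (nat_lit 5372304582) (nat_lit 228) (nat_lit 725179809) (nat_lit 118) (nat_lit 5) (nat_lit 120) (nat_lit 5) (nat_lit 121) (nat_lit 5) (nat_lit 473) (nat_lit 425) (nat_lit 302)) (XT.lf (nat_lit 0) (nat_lit 23536872050) (nat_lit 304) (nat_lit 5827680184) (nat_lit 76) (nat_lit 26653363926) (nat_lit 114) (nat_lit 5) (nat_lit 118) (nat_lit 5) (nat_lit 115) (nat_lit 5) (nat_lit 474) (nat_lit 425) (nat_lit 301))))) (XT.nd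 (nat_lit 234) (nat_lit 760) (nat_lit 0) (XT.nd (nat_lit 78) (nat_lit 380) (nat_lit 0) (XT.lf (nat_lit 0) (nat_lit 49640105828) (nat_lit 228) (nat_lit 5343335105) (nat_lit 76) (nat_lit 2849665401) (nat_lit 112) (nat_lit 5) (nat_lit 115) (nat_lit 5) (nat_lit 113) (nat_lit 5) (nat_lit 475) (nat_lit 425) (nat_lit 300)) (XT.nd (nat_lit 78) (nat_lit 152) (nat_lit 0) (XT.lf (nat_lit 0) (nat_lit 17857481385) (nat_lit 228) (nat_lit 5019424936) (nat_lit 76) (nat_lit 36830584058) (nat_lit 109) (nat_lit 5) (nat_lit 112) (nat_lit 5) (nat_lit 110) (nat_lit 5) (nat_lit 476) (nat_lit 425) (nat_lit 299)) (XT.lf (nat_lit 0) (nat_lit 45751593226) (nat_lit 228) (nat_lit 4587509348) (nat_lit 76) (nat_lit 11312741191) (nat_lit 107) (nat_lit 5) (nat_lit 110) (nat_lit 5) (nat_lit 108) (nat_lit 5) (nat_lit 477) (nat_lit 425) (nat_lit 298)))) (XT.nd (nat_lit 156) (nat_lit 380) (nat_lit 0) (XT.nd (nat_lit 78) (nat_lit 152)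 (nat_lit 0) (XT.lf (nat_lit 0) (nat_lit 11982871424) (nat_lit 228) (nat_lit 4201326131) (nat_lit 76) (nat_lit 47480226325) (nat_lit 104) (nat_lit 5) (nat_lit 107) (nat_lit 5) (nat_lit 105) (nat_lit 5) (nat_lit 478) (nat_lit 425) (nat_lit 297)) (XT.lf (nat_lit 0) (nat_lit 41769023251) (nat_lit 228) (nat_lit 3876822089) (nat_lit 76) (nat_lit 20101933524) (nat_lit 102) (nat_lit 5) (nat_lit 105) (nat_lit 5) (nat_lit 103) (nat_lit 5) (nat_lit 479) (nat_lit 425) (nat_lit 296))) (XT.nd (nat_lit 78) (nat_lit 152) (nat_lit 0) (XT.lf (nat_lit 0) (nat_lit 5837836924) (nat_lit 228) (nat_lit 3484831342) (nat_lit 76) (nat_lit 58586309481) (nat_lit 99) (nat_lit 5) (nat_lit 102) (nat_lit 5) (nat_lit 100) (nat_lit 5) (nat_lit 480) (nat_lit 425) (nat_lit 295)) (XT.lf (nat_lit 0) (nat_lit 37618881559) (nat_lit 228) (nat_lit 3337528521) (nat_lit 76) (nat_lit 29185618042) (nat_lit 97) (nat_lit 5) (nat_lit 100) (nat_lit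 5) (nat_lit 98) (nat_lit 5) (nat_lit 481) (nat_lit 425) (nat_lit 294))))))))
noncomputable def xc89 : XT := (XT.nd (nat_lit 58968) (nat_lit 0) (nat_lit 6612) (XT.nd (nat_lit 1092) (nat_lit 380) (nat_lit 0) (XT.nd (nat_lit 468) (nat_lit 1064) (nat_lit 0) (XT.nd (nat_lit 234) (nat_lit 456) (nat_lit 0) (XT.nd (nat_lit 78) (nat_lit 380) (nat_lit 0) (XT.lf (nat_lit 0) (nat_lit 69444476128) (nat_lit 152) (nat_lit 2336012744) (nat_lit 228) (nat_lit 682496974) (nat_lit 95) (nat_lit 5) (nat_lit 97) (nat_lit 5) (nat_lit 98) (nat_lit 5) (nat_lit 482) (nat_lit 425) (nat_lit 293)) (XT.nd (nat_lit 78) (nat_lit 152) (nat_lit 0) (XT.lf (nat_lit 0) (nat_lit 33210441100) (nat_lit 228) (nat_lit 3129486659) (nat_lit 76) (nat_lit 38517639482) (nat_lit 92) (nat_lit 5) (nat_lit 95) (nat_lit 5) (nat_lit 93) (nat_lit 5) (nat_lit 483) (nat_lit 425) (nat_lit 292)) (XT.lf (nat_lit 0) (nat_lit 69593055680) (nat_lit 228) (nat_lit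 3082365108) (nat_lit 76) (nat_lit 4671979982) (nat_lit 90) (nat_lit 5) (nat_lit 93) (nat_lit 5) (nat_lit 91) (nat_lit 4) (nat_lit 484) (nat_lit 425) (nat_lit 291)))) (XT.nd (nat_lit 78) (nat_lit 304) (nat_lit 0) (XT.lf (nat_lit 0) (nat_lit 28432327901) (nat_lit 152) (nat_lit 3453037421) (nat_lit 76) (nat_lit 48034063020) (nat_lit 88) (nat_lit 5) (nat_lit 90) (nat_lit 5) (nat_lit 89) (nat_lit 5) (nat_lit 485) (nat_lit 425) (nat_lit 290)) (XT.nd (nat_lit 78) (nat_lit 152) (nat_lit 0) (XT.lf (nat_lit 0) (nat_lit 67167746469) (nat_lit 228) (nat_lit 3820080209) (nat_lit 76) (nat_lit 11602933943) (nat_lit 86) (nat_lit 5) (nat_lit 89) (nat_lit 5) (nat_lit 87) (nat_lit 4) (nat_lit 486) (nat_lit 425) (nat_lit 289)) (XT.lf (nat_lit 0) (nat_lit 23148459482) (nat_lit 152) (nat_lit 4557150424) (nat_lit 76) (nat_lit 57649312717) (nat_lit 84) (nat_lit 5) (nat_lit 86) (nat_lit 5) (nat_lit 85) (nat_lit 5) (nat_lit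 487) (nat_lit 425) (nat_lit 288))))) (XT.nd (nat_lit 234) (nat_lit 608) (nat_lit 0) (XT.nd (nat_lit 78) (nat_lit 304) (nat_lit 0) (XT.lf (nat_lit 0) (nat_lit 64344045211) (nat_lit 228) (nat_lit 5486188544) (nat_lit 76) (nat_lit 18392042673) (nat_lit 82) (nat_lit 5) (nat_lit 85) (nat_lit 5) (nat_lit 83) (nat_lit 4) (nat_lit 488) (nat_lit 425) (nat_lit 287)) (XT.nd (nat_lit 78) (nat_lit 152) (nat_lit 0) (XT.lf (nat_lit 0) (nat_lit 17193245943) (nat_lit 152) (nat_lit 6749058388) (nat_lit 76) (nat_lit 67251587925) (nat_lit 80) (nat_lit 5) (nat_lit 82) (nat_lit 5) (nat_lit 81) (nat_lit 5) (nat_lit 489) (nat_lit 425) (nat_lit 286)) (XT.lf (nat_lit 0) (nat_lit 60952525544) (nat_lit 228) (nat_lit 8421409699) (nat_lit 76) (nat_lit 24899219164) (nat_lit 78) (nat_lit 5) (nat_lit 81) (nat_lit 5) (nat_lit 79) (nat_lit 4) (nat_lit 490) (nat_lit 425) (nat_lit 285)))) (XT.nd (nat_lit 156) (nat_lit 304) (nat_lit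 0) (XT.nd (nat_lit 78) (nat_lit 152) (nat_lit 0) (XT.lf (nat_lit 0) (nat_lit 10365924782) (nat_lit 152) (nat_lit 10405641484) (nat_lit 76) (nat_lit 76697429603) (nat_lit 76) (nat_lit 5) (nat_lit 78) (nat_lit 5) (nat_lit 77) (nat_lit 5) (nat_lit 491) (nat_lit 425) (nat_lit 284)) (XT.lf (nat_lit 0) (nat_lit 56786302318) (nat_lit 228) (nat_lit 13042566122) (nat_lit 76) (nat_lit 30948705285) (nat_lit 74) (nat_lit 5) (nat_lit 77) (nat_lit 5) (nat_lit 75) (nat_lit 4) (nat_lit 492) (nat_lit 425) (nat_lit 283))) (XT.nd (nat_lit 78) (nat_lit 152) (nat_lit 0) (XT.lf (nat_lit 0) (nat_lit 2423878298) (nat_lit 152) (nat_lit 15986867985) (nat_lit 76) (nat_lit 85805286404) (nat_lit 72) (nat_lit 5) (nat_lit 74) (nat_lit 5) (nat_lit 73) (nat_lit 5) (nat_lit 493) (nat_lit 425) (nat_lit 282)) (XT.lf (nat_lit 0) (nat_lit 51593840117) (nat_lit 228) (nat_lit 19857183871) (nat_lit 76) (nat_lit 36322008114) (nat_lit 70)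 (nat_lit 5) (nat_lit 73) (nat_lit 5) (nat_lit 71) (nat_lit 4) (nat_lit 494) (nat_lit 425) (nat_lit 281)))))) (XT.nd (nat_lit 57330) (nat_lit 0) (nat_lit 17936) (XT.nd (nat_lit 57096) (nat_lit 0) (nat_lit 18620) (XT.nd (nat_lit 78) (nat_lit 76) (nat_lit 0) (XT.lf (nat_lit 0) (nat_lit 45070472146) (nat_lit 228) (nat_lit 29480710802) (nat_lit 76) (nat_lit 40749556305) (nat_lit 66) (nat_lit 5) (nat_lit 69) (nat_lit 5) (nat_lit 67) (nat_lit 4) (nat_lit 496) (nat_lit 425) (nat_lit 279)) (XT.nd (nat_lit 56940) (nat_lit 0) (nat_lit 18544) (XT.lf (nat_lit 0) (nat_lit 83828436716) (nat_lit 76) (nat_lit 17061638703) (nat_lit 152) (nat_lit 18391690250) (nat_lit 65) (nat_lit 5) (nat_lit 66) (nat_lit 5) (nat_lit 67) (nat_lit 4) (nat_lit 497) (nat_lit 425) (nat_lit 278)) (XT.lf (nat_lit 0) (nat_lit 378644147) (nat_lit 1292) (nat_lit 3473632677) (nat_lit 1292) (nat_lit 3473632677) (nat_lit 309) (nat_lit 3) (nat_lit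 326) (nat_lit 3) (nat_lit 326) (nat_lit 5) (nat_lit 426) (nat_lit 426) (nat_lit 348)))) (XT.nd (nat_lit 78) (nat_lit 0) (nat_lit 76) (XT.lf (nat_lit 0) (nat_lit 1378152043) (nat_lit 1216) (nat_lit 9774171007) (nat_lit 1292) (nat_lit 3847685979) (nat_lit 310) (nat_lit 5) (nat_lit 326) (nat_lit 5) (nat_lit 327) (nat_lit 5) (nat_lit 427) (nat_lit 426) (nat_lit 347)) (XT.nd (nat_lit 78) (nat_lit 0) (nat_lit 0) (XT.lf (nat_lit 0) (nat_lit 2179054728) (nat_lit 1216) (nat_lit 12620802293) (nat_lit 1292) (nat_lit 561284703) (nat_lit 311) (nat_lit 5) (nat_lit 327) (nat_lit 5) (nat_lit 328) (nat_lit 5) (nat_lit 428) (nat_lit 426) (nat_lit 346)) (XT.lf (nat_lit 76) (nat_lit 219266828) (nat_lit 0) (nat_lit 2985653015) (nat_lit 1292) (nat_lit 12529866588) (nat_lit 312) (nat_lit 5) (nat_lit 311) (nat_lit 5) (nat_lit 328) (nat_lit 5) (nat_lit 429) (nat_lit 426) (nat_lit 345))))) (XT.nd (nat_lit 234) (nat_lit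 836) (nat_lit 0) (XT.nd (nat_lit 78) (nat_lit 0) (nat_lit 76) (XT.lf (nat_lit 0) (nat_lit 4473890371) (nat_lit 1216) (nat_lit 2269407900) (nat_lit 1292) (nat_lit 9378063495) (nat_lit 312) (nat_lit 5) (nat_lit 328) (nat_lit 5) (nat_lit 329) (nat_lit 5) (nat_lit 430) (nat_lit 426) (nat_lit 344)) (XT.nd (nat_lit 78) (nat_lit 0) (nat_lit 76) (XT.lf (nat_lit 0) (nat_lit 5978272350) (nat_lit 1216) (nat_lit 4759488282) (nat_lit 1292) (nat_lit 5784348975) (nat_lit 313) (nat_lit 5) (nat_lit 329) (nat_lit 5) (nat_lit 330) (nat_lit 5) (nat_lit 431) (nat_lit 426) (nat_lit 343)) (XT.lf (nat_lit 0) (nat_lit 7734678455) (nat_lit 1216) (nat_lit 7253630053) (nat_lit 1292) (nat_lit 1949284683) (nat_lit 314) (nat_lit 5) (nat_lit 330) (nat_lit 5) (nat_lit 331) (nat_lit 5) (nat_lit 432) (nat_lit 426) (nat_lit 342)))) (XT.nd (nat_lit 156) (nat_lit 988) (nat_lit 0) (XT.nd (nat_lit 78) (nat_lit 0) (nat_lit 76) (XT.lf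 (nat_lit 76) (nat_lit 7596829067) (nat_lit 0) (nat_lit 2186917453) (nat_lit 1292) (nat_lit 7583961566) (nat_lit 315) (nat_lit 5) (nat_lit 314) (nat_lit 5) (nat_lit 331) (nat_lit 5) (nat_lit 433) (nat_lit 426) (nat_lit 341)) (XT.lf (nat_lit 76) (nat_lit 5503290671) (nat_lit 0) (nat_lit 6643551981) (nat_lit 1292) (nat_lit 5666141104) (nat_lit 316) (nat_lit 5) (nat_lit 315) (nat_lit 5) (nat_lit 332) (nat_lit 5) (nat_lit 434) (nat_lit 426) (nat_lit 340))) (XT.nd (nat_lit 78) (nat_lit 1140) (nat_lit 0) (XT.lf (nat_lit 76) (nat_lit 3426138323) (nat_lit 0) (nat_lit 11400482746) (nat_lit 1292) (nat_lit 3447948478) (nat_lit 317) (nat_lit 5) (nat_lit 316) (nat_lit 5) (nat_lit 333) (nat_lit 5) (nat_lit 435) (nat_lit 426) (nat_lit 339)) (XT.lf (nat_lit 0) (nat_lit 1368883697) (nat_lit 1216) (nat_lit 16477047981) (nat_lit 1292) (nat_lit 907138710) (nat_lit 301) (nat_lit 5) (nat_lit 317) (nat_lit 5) (nat_lit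 318) (nat_lit 5) (nat_lit 436) (nat_lit 426) (nat_lit 338))))))) (XT.nd (nat_lit 1014) (nat_lit 4636) (nat_lit 0) (XT.nd (nat_lit 468) (nat_lit 3344) (nat_lit 0) (XT.nd (nat_lit 234) (nat_lit 1824) (nat_lit 0) (XT.nd (nat_lit 78) (nat_lit 1444) (nat_lit 0) (XT.lf (nat_lit 0) (nat_lit 1973592349) (nat_lit 1292) (nat_lit 696785469) (nat_lit 76) (nat_lit 16577195445) (nat_lit 300) (nat_lit 5) (nat_lit 317) (nat_lit 5) (nat_lit 301) (nat_lit 5) (nat_lit 437) (nat_lit 426) (nat_lit 337)) (XT.nd (nat_lit 78) (nat_lit 608) (nat_lit 0) (XT.lf (nat_lit 0) (nat_lit 5238741570) (nat_lit 912) (nat_lit 2746309001) (nat_lit 76) (nat_lit 11773708797) (nat_lit 289) (nat_lit 5) (nat_lit 301) (nat_lit 5) (nat_lit 290) (nat_lit 5) (nat_lit 438) (nat_lit 426) (nat_lit 336)) (XT.lf (nat_lit 0) (nat_lit 8895788944) (nat_lit 684) (nat_lit 4770883169) (nat_lit 76) (nat_lit 6621975171) (nat_lit 281) (nat_lit 5) (nat_lit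 290) (nat_lit 5) (nat_lit 282) (nat_lit 5) (nat_lit 439) (nat_lit 426) (nat_lit 335)))) (XT.nd (nat_lit 78) (nat_lit 1216) (nat_lit 0) (XT.lf (nat_lit 0) (nat_lit 12971516547) (nat_lit 684) (nat_lit 6765812557) (nat_lit 76) (nat_lit 1100627299) (nat_lit 273) (nat_lit 5) (nat_lit 282) (nat_lit 5) (nat_lit 274) (nat_lit 5) (nat_lit 440) (nat_lit 426) (nat_lit 334)) (XT.nd (nat_lit 78) (nat_lit 684) (nat_lit 0) (XT.lf (nat_lit 0) (nat_lit 12632892409) (nat_lit 532) (nat_lit 4908381680) (nat_lit 608) (nat_lit 3864751149) (nat_lit 266) (nat_lit 5) (nat_lit 273) (nat_lit 5) (nat_lit 274) (nat_lit 5) (nat_lit 441) (nat_lit 426) (nat_lit 333)) (XT.lf (nat_lit 0) (nat_lit 595897185) (nat_lit 684) (nat_lit 10760748036) (nat_lit 76) (nat_lit 10637793001) (nat_lit 257) (nat_lit 5) (nat_lit 266) (nat_lit 5) (nat_lit 258) (nat_lit 5) (nat_lit 442) (nat_lit 426) (nat_lit 332))))) (XT.nd (nat_lit 234) (nat_lit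 1824) (nat_lit 0) (XT.nd (nat_lit 78) (nat_lit 988) (nat_lit 0) (XT.lf (nat_lit 0) (nat_lit 5461860982) (nat_lit 608) (nat_lit 12748022584) (nat_lit 76) (nat_lit 4393375360) (nat_lit 250) (nat_lit 5) (nat_lit 258) (nat_lit 5) (nat_lit 251) (nat_lit 5) (nat_lit 443) (nat_lit 426) (nat_lit 331)) (XT.nd (nat_lit 78) (nat_lit 456) (nat_lit 0) (XT.lf (nat_lit 0) (nat_lit 8519501321) (nat_lit 532) (nat_lit 2343144828) (nat_lit 608) (nat_lit 12371130134) (nat_lit 243) (nat_lit 5) (nat_lit 250) (nat_lit 5) (nat_lit 251) (nat_lit 5) (nat_lit 444) (nat_lit 426) (nat_lit 330)) (XT.lf (nat_lit 0) (nat_lit 7208000156) (nat_lit 456) (nat_lit 9648653936) (nat_lit 532) (nat_lit 7029471161) (nat_lit 237) (nat_lit 5) (nat_lit 243) (nat_lit 5) (nat_lit 244) (nat_lit 5) (nat_lit 445) (nat_lit 426) (nat_lit 329)))) (XT.nd (nat_lit 156) (nat_lit 836) (nat_lit 0) (XT.nd (nat_lit 78) (nat_lit 532) (nat_lit 0) (XT.lf (nat_lit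 0) (nat_lit 5972839002) (nat_lit 456) (nat_lit 17463208552) (nat_lit 532) (nat_lit 1126474756) (nat_lit 231) (nat_lit 5) (nat_lit 237) (nat_lit 5) (nat_lit 238) (nat_lit 5) (nat_lit 446) (nat_lit 426) (nat_lit 328)) (XT.lf (nat_lit 0) (nat_lit 4764080749) (nat_lit 456) (nat_lit 509934903) (nat_lit 532) (nat_lit 19988222784) (nat_lit 224) (nat_lit 5) (nat_lit 230) (nat_lit 5) (nat_lit 231) (nat_lit 5) (nat_lit 447) (nat_lit 426) (nat_lit 327))) (XT.nd (nat_lit 78) (nat_lit 380) (nat_lit 0) (XT.lf (nat_lit 0) (nat_lit 3554468824) (nat_lit 456) (nat_lit 8795887974) (nat_lit 532) (nat_lit 13634876320) (nat_lit 218) (nat_lit 5) (nat_lit 224) (nat_lit 5) (nat_lit 225) (nat_lit 5) (nat_lit 448) (nat_lit 426) (nat_lit 326)) (XT.lf (nat_lit 0) (nat_lit 2435587293) (nat_lit 380) (nat_lit 17658997174) (nat_lit 456) (nat_lit 6640371983) (nat_lit 213) (nat_lit 5) (nat_lit 218) (nat_lit 5) (nat_lit 219) (nat_lit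 5) (nat_lit 449) (nat_lit 426) (nat_lit 325)))))) (XT.nd (nat_lit 546) (nat_lit 2280) (nat_lit 0) (XT.nd (nat_lit 234) (nat_lit 1444) (nat_lit 0) (XT.nd (nat_lit 78) (nat_lit 380) (nat_lit 0) (XT.lf (nat_lit 0) (nat_lit 1015624320) (nat_lit 532) (nat_lit 26105546206) (nat_lit 76) (nat_lit 391028322) (nat_lit 206) (nat_lit 5) (nat_lit 213) (nat_lit 5) (nat_lit 207) (nat_lit 5) (nat_lit 450) (nat_lit 426) (nat_lit 324)) (XT.nd (nat_lit 78) (nat_lit 0) (nat_lit 0) (XT.lf (nat_lit 0) (nat_lit 325884494) (nat_lit 380) (nat_lit 9013059352) (nat_lit 456) (nat_lit 18974732316) (nat_lit 201) (nat_lit 5) (nat_lit 206) (nat_lit 5) (nat_lit 207) (nat_lit 5) (nat_lit 451) (nat_lit 426) (nat_lit 323)) (XT.lf (nat_lit 0) (nat_lit 18432979864) (nat_lit 456) (nat_lit 639081583) (nat_lit 76) (nat_lit 10072530218) (nat_lit 201) (nat_lit 5) (nat_lit 207) (nat_lit 5) (nat_lit 202) (nat_lit 5) (nat_lit 452) (nat_lit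 426) (nat_lit 322)))) (XT.nd (nat_lit 156) (nat_lit 684) (nat_lit 0) (XT.nd (nat_lit 78) (nat_lit 380) (nat_lit 0) (XT.lf (nat_lit 0) (nat_lit 28336382617) (nat_lit 456) (nat_lit 1482276672) (nat_lit 76) (nat_lit 187754505) (nat_lit 196) (nat_lit 5) (nat_lit 202) (nat_lit 5) (nat_lit 197) (nat_lit 5) (nat_lit 453) (nat_lit 426) (nat_lit 321)) (XT.lf (nat_lit 0) (nat_lit 8137601490) (nat_lit 380) (nat_lit 2380588318) (nat_lit 76) (nat_lit 20376882587) (nat_lit 191) (nat_lit 5) (nat_lit 196) (nat_lit 5) (nat_lit 192) (nat_lit 5) (nat_lit 454) (nat_lit 426) (nat_lit 320))) (XT.nd (nat_lit 78) (nat_lit 304) (nat_lit 0) (XT.lf (nat_lit 0) (nat_lit 18778134844) (nat_lit 456) (nat_lit 3174065157) (nat_lit 76) (nat_lit 9864156844) (nat_lit 186) (nat_lit 5) (nat_lit 192) (nat_lit 5) (nat_lit 187) (nat_lit 5) (nat_lit 455) (nat_lit 426) (nat_lit 319)) (XT.lf (nat_lit 0) (nat_lit 28924988344) (nat_lit 304)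 (nat_lit 1423356675) (nat_lit 380) (nat_lit 2423431663) (nat_lit 182) (nat_lit 5) (nat_lit 186) (nat_lit 5) (nat_lit 187) (nat_lit 5) (nat_lit 456) (nat_lit 426) (nat_lit 318))))) (XT.nd (nat_lit 234) (nat_lit 1292) (nat_lit 0) (XT.nd (nat_lit 78) (nat_lit 608) (nat_lit 0) (XT.lf (nat_lit 0) (nat_lit 9053859292) (nat_lit 380) (nat_lit 4565862262) (nat_lit 76) (nat_lit 20137672491) (nat_lit 177) (nat_lit 5) (nat_lit 182) (nat_lit 5) (nat_lit 178) (nat_lit 5) (nat_lit 457) (nat_lit 426) (nat_lit 317)) (XT.nd (nat_lit 78) (nat_lit 304) (nat_lit 0) (XT.lf (nat_lit 0) (nat_lit 21464365802) (nat_lit 380) (nat_lit 5165983856) (nat_lit 76) (nat_lit 8148939237) (nat_lit 173) (nat_lit 5) (nat_lit 178) (nat_lit 5) (nat_lit 174) (nat_lit 5) (nat_lit 458) (nat_lit 426) (nat_lit 316)) (XT.lf (nat_lit 0) (nat_lit 30181472887) (nat_lit 304) (nat_lit 4778600896) (nat_lit 380) (nat_lit 878264983) (nat_lit 169) (nat_lit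 5) (nat_lit 173) (nat_lit 5) (nat_lit 174) (nat_lit 5) (nat_lit 459) (nat_lit 426) (nat_lit 315)))) (XT.nd (nat_lit 156) (nat_lit 608) (nat_lit 0) (XT.nd (nat_lit 78) (nat_lit 304) (nat_lit 0) (XT.lf (nat_lit 0) (nat_lit 12462606308) (nat_lit 380) (nat_lit 6189705087) (nat_lit 76) (nat_lit 18278915929) (nat_lit 164) (nat_lit 5) (nat_lit 169) (nat_lit 5) (nat_lit 165) (nat_lit 5) (nat_lit 460) (nat_lit 426) (nat_lit 314)) (XT.lf (nat_lit 0) (nat_lit 26898036657) (nat_lit 380) (nat_lit 6567769171) (nat_lit 76) (nat_lit 4599323725) (nat_lit 160) (nat_lit 5) (nat_lit 165) (nat_lit 5) (nat_lit 161) (nat_lit 5) (nat_lit 461) (nat_lit 426) (nat_lit 313))) (XT.nd (nat_lit 78) (nat_lit 304) (nat_lit 0) (XT.lf (nat_lit 0) (nat_lit 3304600912) (nat_lit 304) (nat_lit 6899270851) (nat_lit 76) (nat_lit 29034256733) (nat_lit 156) (nat_lit 5) (nat_lit 160) (nat_lit 5) (nat_lit 157) (nat_lit 5) (nat_lit 462) (nat_lit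 426) (nat_lit 312)) (XT.lf (nat_lit 0) (nat_lit 18792540739) (nat_lit 380) (nat_lit 7212900785) (nat_lit 76) (nat_lit 14445310922) (nat_lit 152) (nat_lit 5) (nat_lit 157) (nat_lit 5) (nat_lit 153) (nat_lit 5) (nat_lit 463) (nat_lit 426) (nat_lit 311))))))))
noncomputable def xc90 : XT := (XT.nd (nat_lit 2028) (nat_lit 988) (nat_lit 0) (XT.nd (nat_lit 1014) (nat_lit 2280) (nat_lit 0) (XT.nd (nat_lit 468) (nat_lit 1520) (nat_lit 0) (XT.nd (nat_lit 234) (nat_lit 760) (nat_lit 0) (XT.nd (nat_lit 78) (nat_lit 532) (nat_lit 0) (XT.lf (nat_lit 0) (nat_lit 34356402365) (nat_lit 228) (nat_lit 1194365891) (nat_lit 304) (nat_lit 6158363030) (nat_lit 149) (nat_lit 5) (nat_lit 152) (nat_lit 5) (nat_lit 153) (nat_lit 5) (nat_lit 464) (nat_lit 426) (nat_lit 310)) (XT.nd (nat_lit 78) (nat_lit 228) (nat_lit 0) (XT.lf (nat_lit 0) (nat_lit 10572460943) (nat_lit 304) (nat_lit 7547864237) (nat_lit 76) (nat_lit 24887585144)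 (nat_lit 145) (nat_lit 5) (nat_lit 149) (nat_lit 5) (nat_lit 146) (nat_lit 5) (nat_lit 465) (nat_lit 426) (nat_lit 309)) (XT.lf (nat_lit 0) (nat_lit 28528070494) (nat_lit 304) (nat_lit 7609886761) (nat_lit 76) (nat_lit 8216373945) (nat_lit 142) (nat_lit 5) (nat_lit 146) (nat_lit 5) (nat_lit 143) (nat_lit 5) (nat_lit 466) (nat_lit 426) (nat_lit 308)))) (XT.nd (nat_lit 78) (nat_lit 456) (nat_lit 0) (XT.lf (nat_lit 0) (nat_lit 2208120407) (nat_lit 304) (nat_lit 7579991257) (nat_lit 76) (nat_lit 35960710046) (nat_lit 138) (nat_lit 5) (nat_lit 142) (nat_lit 5) (nat_lit 139) (nat_lit 5) (nat_lit 467) (nat_lit 426) (nat_lit 307)) (XT.nd (nat_lit 78) (nat_lit 228) (nat_lit 0) (XT.lf (nat_lit 0) (nat_lit 21451278699) (nat_lit 304) (nat_lit 7585491472) (nat_lit 76) (nat_lit 18152534943) (nat_lit 135) (nat_lit 5) (nat_lit 139) (nat_lit 5) (nat_lit 136) (nat_lit 5) (nat_lit 468) (nat_lit 426) (nat_lit 306))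 (XT.lf (nat_lit 0) (nat_lit 41298678483) (nat_lit 228) (nat_lit 924504023) (nat_lit 304) (nat_lit 6461632860) (nat_lit 132) (nat_lit 5) (nat_lit 135) (nat_lit 5) (nat_lit 136) (nat_lit 5) (nat_lit 469) (nat_lit 426) (nat_lit 305))))) (XT.nd (nat_lit 234) (nat_lit 836) (nat_lit 0) (XT.nd (nat_lit 78) (nat_lit 456) (nat_lit 0) (XT.lf (nat_lit 0) (nat_lit 14277318062) (nat_lit 228) (nat_lit 7287527573) (nat_lit 76) (nat_lit 28663254112) (nat_lit 129) (nat_lit 5) (nat_lit 132) (nat_lit 5) (nat_lit 130) (nat_lit 5) (nat_lit 470) (nat_lit 426) (nat_lit 304)) (XT.nd (nat_lit 78) (nat_lit 228) (nat_lit 0) (XT.lf (nat_lit 0) (nat_lit 36511940460) (nat_lit 304) (nat_lit 7033307251) (nat_lit 76) (nat_lit 8283610796) (nat_lit 126) (nat_lit 5) (nat_lit 130) (nat_lit 5) (nat_lit 127) (nat_lit 5) (nat_lit 471) (nat_lit 426) (nat_lit 303)) (XT.lf (nat_lit 0) (nat_lit 6968000879) (nat_lit 228) (nat_lit 6745945106)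 (nat_lit 76) (nat_lit 39771581252) (nat_lit 123) (nat_lit 5) (nat_lit 126) (nat_lit 5) (nat_lit 124) (nat_lit 5) (nat_lit 472) (nat_lit 426) (nat_lit 302)))) (XT.nd (nat_lit 156) (nat_lit 456) (nat_lit 0) (XT.nd (nat_lit 78) (nat_lit 152) (nat_lit 0) (XT.lf (nat_lit 0) (nat_lit 30765486072) (nat_lit 304) (nat_lit 6468601796) (nat_lit 76) (nat_lit 17964939263) (nat_lit 120) (nat_lit 5) (nat_lit 124) (nat_lit 5) (nat_lit 121) (nat_lit 5) (nat_lit 473) (nat_lit 426) (nat_lit 301)) (XT.lf (nat_lit 0) (nat_lit 50968608747) (nat_lit 152) (nat_lit 5475644088) (nat_lit 228) (nat_lit 533207191) (nat_lit 118) (nat_lit 5) (nat_lit 120) (nat_lit 5) (nat_lit 121) (nat_lit 5) (nat_lit 474) (nat_lit 426) (nat_lit 300))) (XT.nd (nat_lit 78) (nat_lit 152) (nat_lit 0) (XT.lf (nat_lit 0) (nat_lit 24932061206) (nat_lit 304) (nat_lit 5734027927) (nat_lit 76) (nat_lit 28146166039) (nat_lit 114) (nat_lit 5) (nat_lit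 118) (nat_lit 5) (nat_lit 115) (nat_lit 5) (nat_lit 475) (nat_lit 426) (nat_lit 299)) (XT.lf (nat_lit 0) (nat_lit 52335216002) (nat_lit 228) (nat_lit 5231711788) (nat_lit 76) (nat_lit 3151434592) (nat_lit 112) (nat_lit 5) (nat_lit 115) (nat_lit 5) (nat_lit 113) (nat_lit 5) (nat_lit 476) (nat_lit 426) (nat_lit 298)))))) (XT.nd (nat_lit 468) (nat_lit 1140) (nat_lit 0) (XT.nd (nat_lit 234) (nat_lit 532) (nat_lit 0) (XT.nd (nat_lit 78) (nat_lit 380) (nat_lit 0) (XT.lf (nat_lit 0) (nat_lit 18958899485) (nat_lit 228) (nat_lit 4898307955) (nat_lit 76) (nat_lit 38829395475) (nat_lit 109) (nat_lit 5) (nat_lit 112) (nat_lit 5) (nat_lit 110) (nat_lit 5) (nat_lit 477) (nat_lit 426) (nat_lit 297)) (XT.nd (nat_lit 78) (nat_lit 228) (nat_lit 0) (XT.lf (nat_lit 0) (nat_lit 48242792086) (nat_lit 228) (nat_lit 4450926027) (nat_lit 76) (nat_lit 12034603872) (nat_lit 107) (nat_lit 5) (nat_lit 110) (nat_lit 5) (nat_lit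 108) (nat_lit 5) (nat_lit 478) (nat_lit 426) (nat_lit 296)) (XT.lf (nat_lit 0) (nat_lit 12781313921) (nat_lit 228) (nat_lit 4051952359) (nat_lit 76) (nat_lit 50008394840) (nat_lit 104) (nat_lit 5) (nat_lit 107) (nat_lit 5) (nat_lit 105) (nat_lit 5) (nat_lit 479) (nat_lit 426) (nat_lit 295)))) (XT.nd (nat_lit 78) (nat_lit 380) (nat_lit 0) (XT.lf (nat_lit 0) (nat_lit 44052138331) (nat_lit 228) (nat_lit 3717226006) (nat_lit 76) (nat_lit 21259958805) (nat_lit 102) (nat_lit 5) (nat_lit 105) (nat_lit 5) (nat_lit 103) (nat_lit 5) (nat_lit 480) (nat_lit 426) (nat_lit 294)) (XT.nd (nat_lit 78) (nat_lit 152) (nat_lit 0) (XT.lf (nat_lit 0) (nat_lit 6320295738) (nat_lit 228) (nat_lit 3311969881) (nat_lit 76) (nat_lit 61666439615) (nat_lit 99) (nat_lit 5) (nat_lit 102) (nat_lit 5) (nat_lit 100) (nat_lit 5) (nat_lit 481) (nat_lit 426) (nat_lit 293)) (XT.lf (nat_lit 0) (nat_lit 39686024067) (nat_lit 228) (nat_lit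 3163170534) (nat_lit 76) (nat_lit 30794344793) (nat_lit 97) (nat_lit 5) (nat_lit 100) (nat_lit 5) (nat_lit 98) (nat_lit 5) (nat_lit 482) (nat_lit 426) (nat_lit 292))))) (XT.nd (nat_lit 234) (nat_lit 608) (nat_lit 0) (XT.nd (nat_lit 78) (nat_lit 380) (nat_lit 0) (XT.lf (nat_lit 0) (nat_lit 73248152932) (nat_lit 152) (nat_lit 2301878351) (nat_lit 228) (nat_lit 530684334) (nat_lit 95) (nat_lit 5) (nat_lit 97) (nat_lit 5) (nat_lit 98) (nat_lit 5) (nat_lit 483) (nat_lit 426) (nat_lit 291)) (XT.nd (nat_lit 78) (nat_lit 152) (nat_lit 0) (XT.lf (nat_lit 0) (nat_lit 35049149279) (nat_lit 228) (nat_lit 2956604212) (nat_lit 76) (nat_lit 40589342847) (nat_lit 92) (nat_lit 5) (nat_lit 95) (nat_lit 5) (nat_lit 93) (nat_lit 5) (nat_lit 484) (nat_lit 426) (nat_lit 290)) (XT.lf (nat_lit 0) (nat_lit 73246899155) (nat_lit 228) (nat_lit 2912795129) (nat_lit 76) (nat_lit 5049847296) (nat_lit 90) (nat_lit 5) (nat_lit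 93) (nat_lit 5) (nat_lit 91) (nat_lit 4) (nat_lit 485) (nat_lit 426) (nat_lit 289)))) (XT.nd (nat_lit 156) (nat_lit 304) (nat_lit 0) (XT.nd (nat_lit 78) (nat_lit 152) (nat_lit 0) (XT.lf (nat_lit 0) (nat_lit 30024538224) (nat_lit 152) (nat_lit 3307881120) (nat_lit 76) (nat_lit 50577859354) (nat_lit 88) (nat_lit 5) (nat_lit 90) (nat_lit 5) (nat_lit 89) (nat_lit 5) (nat_lit 486) (nat_lit 426) (nat_lit 288)) (XT.lf (nat_lit 0) (nat_lit 70692948704) (nat_lit 228) (nat_lit 3698796840) (nat_lit 76) (nat_lit 12323545573) (nat_lit 86) (nat_lit 5) (nat_lit 89) (nat_lit 5) (nat_lit 87) (nat_lit 4) (nat_lit 487) (nat_lit 426) (nat_lit 287))) (XT.nd (nat_lit 78) (nat_lit 152) (nat_lit 0) (XT.lf (nat_lit 0) (nat_lit 24469274386) (nat_lit 152) (nat_lit 4478417546) (nat_lit 76) (nat_lit 60670072209) (nat_lit 84) (nat_lit 5) (nat_lit 86) (nat_lit 5) (nat_lit 85) (nat_lit 5) (nat_lit 488) (nat_lit 426) (nat_lit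 286)) (XT.lf (nat_lit 0) (nat_lit 67721060795) (nat_lit 228) (nat_lit 5459278290) (nat_lit 76) (nat_lit 19448254045) (nat_lit 82) (nat_lit 5) (nat_lit 85) (nat_lit 5) (nat_lit 83) (nat_lit 4) (nat_lit 489) (nat_lit 426) (nat_lit 285))))))) (XT.nd (nat_lit 58110) (nat_lit 0) (nat_lit 12312) (XT.nd (nat_lit 57564) (nat_lit 0) (nat_lit 18240) (XT.nd (nat_lit 234) (nat_lit 532) (nat_lit 0) (XT.nd (nat_lit 78) (nat_lit 304) (nat_lit 0) (XT.lf (nat_lit 0) (nat_lit 18209461262) (nat_lit 152) (nat_lit 6790807802) (nat_lit 76) (nat_lit 70748618701) (nat_lit 80) (nat_lit 5) (nat_lit 82) (nat_lit 5) (nat_lit 81) (nat_lit 5) (nat_lit 490) (nat_lit 426) (nat_lit 284)) (XT.nd (nat_lit 78) (nat_lit 152) (nat_lit 0) (XT.lf (nat_lit 0) (nat_lit 64153312182) (nat_lit 228) (nat_lit 8551996033) (nat_lit 76) (nat_lit 26276906707) (nat_lit 78) (nat_lit 5) (nat_lit 81) (nat_lit 5) (nat_lit 79) (nat_lit 4) (nat_lit 491)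 (nat_lit 426) (nat_lit 283)) (XT.lf (nat_lit 0) (nat_lit 11034273620) (nat_lit 152) (nat_lit 10640777521) (nat_lit 76) (nat_lit 80662890729) (nat_lit 76) (nat_lit 5) (nat_lit 78) (nat_lit 5) (nat_lit 77) (nat_lit 5) (nat_lit 492) (nat_lit 426) (nat_lit 282)))) (XT.nd (nat_lit 78) (nat_lit 380) (nat_lit 0) (XT.lf (nat_lit 0) (nat_lit 59772450222) (nat_lit 228) (nat_lit 13414615970) (nat_lit 76) (nat_lit 32624979127) (nat_lit 74) (nat_lit 5) (nat_lit 77) (nat_lit 5) (nat_lit 75) (nat_lit 4) (nat_lit 493) (nat_lit 426) (nat_lit 281)) (XT.nd (nat_lit 156) (nat_lit 228) (nat_lit 0) (XT.lf (nat_lit 0) (nat_lit 2688940499) (nat_lit 152) (nat_lit 16511296108) (nat_lit 76) (nat_lit 90222279716) (nat_lit 72) (nat_lit 5) (nat_lit 74) (nat_lit 5) (nat_lit 73) (nat_lit 5) (nat_lit 494) (nat_lit 426) (nat_lit 280)) (XT.lf (nat_lit 0) (nat_lit 91982625756) (nat_lit 76) (nat_lit 17783664695) (nat_lit 152) (nat_lit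 7275497146) (nat_lit 69) (nat_lit 5) (nat_lit 70) (nat_lit 5) (nat_lit 71) (nat_lit 4) (nat_lit 496) (nat_lit 426) (nat_lit 278))))) (XT.nd (nat_lit 234) (nat_lit 0) (nat_lit 152) (XT.nd (nat_lit 78) (nat_lit 0) (nat_lit 76) (XT.lf (nat_lit 0) (nat_lit 903159281) (nat_lit 1292) (nat_lit 3386915723) (nat_lit 1292) (nat_lit 3386915723) (nat_lit 309) (nat_lit 3) (nat_lit 326) (nat_lit 3) (nat_lit 326) (nat_lit 5) (nat_lit 427) (nat_lit 427) (nat_lit 346)) (XT.nd (nat_lit 78) (nat_lit 0) (nat_lit 76) (XT.lf (nat_lit 0) (nat_lit 2410496346) (nat_lit 1216) (nat_lit 9723444408) (nat_lit 1292) (nat_lit 3587076555) (nat_lit 310) (nat_lit 5) (nat_lit 326) (nat_lit 5) (nat_lit 327) (nat_lit 5) (nat_lit 428) (nat_lit 427) (nat_lit 345)) (XT.lf (nat_lit 0) (nat_lit 3206771160) (nat_lit 1216) (nat_lit 12696275554) (nat_lit 1292) (nat_lit 198504356) (nat_lit 311) (nat_lit 5) (nat_lit 327) (nat_lit 5) (nat_lit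 328) (nat_lit 5) (nat_lit 429) (nat_lit 427) (nat_lit 344)))) (XT.nd (nat_lit 156) (nat_lit 0) (nat_lit 152) (XT.nd (nat_lit 78) (nat_lit 0) (nat_lit 76) (XT.lf (nat_lit 76) (nat_lit 769871811) (nat_lit 0) (nat_lit 3475494433) (nat_lit 1292) (nat_lit 12249672706) (nat_lit 312) (nat_lit 5) (nat_lit 311) (nat_lit 5) (nat_lit 328) (nat_lit 5) (nat_lit 430) (nat_lit 427) (nat_lit 343)) (XT.lf (nat_lit 0) (nat_lit 5532753223) (nat_lit 1216) (nat_lit 1840590577) (nat_lit 1292) (nat_lit 9528954061) (nat_lit 312) (nat_lit 5) (nat_lit 328) (nat_lit 5) (nat_lit 329) (nat_lit 5) (nat_lit 431) (nat_lit 427) (nat_lit 342))) (XT.nd (nat_lit 78) (nat_lit 0) (nat_lit 76) (XT.lf (nat_lit 0) (nat_lit 7075016606) (nat_lit 1216) (nat_lit 4444001264) (nat_lit 1292) (nat_lit 5805189019) (nat_lit 313) (nat_lit 5) (nat_lit 329) (nat_lit 5) (nat_lit 330) (nat_lit 5) (nat_lit 432) (nat_lit 427) (nat_lit 341)) (XT.lf (nat_lit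 0) (nat_lit 8884232786) (nat_lit 1216) (nat_lit 7053509000) (nat_lit 1292) (nat_lit 1823776663) (nat_lit 314) (nat_lit 5) (nat_lit 330) (nat_lit 5) (nat_lit 331) (nat_lit 5) (nat_lit 433) (nat_lit 427) (nat_lit 340)))))) (XT.nd (nat_lit 546) (nat_lit 3800) (nat_lit 0) (XT.nd (nat_lit 234) (nat_lit 2508) (nat_lit 0) (XT.nd (nat_lit 78) (nat_lit 0) (nat_lit 76) (XT.lf (nat_lit 76) (nat_lit 8523340454) (nat_lit 0) (nat_lit 2481343945) (nat_lit 1292) (nat_lit 7209390109) (nat_lit 315) (nat_lit 5) (nat_lit 314) (nat_lit 5) (nat_lit 331) (nat_lit 5) (nat_lit 434) (nat_lit 427) (nat_lit 339)) (XT.nd (nat_lit 78) (nat_lit 0) (nat_lit 76) (XT.lf (nat_lit 76) (nat_lit 6332570878) (nat_lit 0) (nat_lit 7122151306) (nat_lit 1292) (nat_lit 5227831338) (nat_lit 316) (nat_lit 5) (nat_lit 315) (nat_lit 5) (nat_lit 332) (nat_lit 5) (nat_lit 435) (nat_lit 427) (nat_lit 338)) (XT.lf (nat_lit 76) (nat_lit 4157519633)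 (nat_lit 0) (nat_lit 12081654271) (nat_lit 1292) (nat_lit 2928927181) (nat_lit 317) (nat_lit 5) (nat_lit 316) (nat_lit 5) (nat_lit 333) (nat_lit 5) (nat_lit 436) (nat_lit 427) (nat_lit 337)))) (XT.nd (nat_lit 156) (nat_lit 1444) (nat_lit 0) (XT.nd (nat_lit 78) (nat_lit 76) (nat_lit 0) (XT.lf (nat_lit 0) (nat_lit 2002003645) (nat_lit 1216) (nat_lit 17379893924) (nat_lit 1292) (nat_lit 289458842) (nat_lit 301) (nat_lit 5) (nat_lit 317) (nat_lit 5) (nat_lit 318) (nat_lit 5) (nat_lit 437) (nat_lit 427) (nat_lit 336)) (XT.lf (nat_lit 0) (nat_lit 2691413459) (nat_lit 1292) (nat_lit 181463082) (nat_lit 76) (nat_lit 17318448051) (nat_lit 300) (nat_lit 5) (nat_lit 317) (nat_lit 5) (nat_lit 301) (nat_lit 5) (nat_lit 438) (nat_lit 427) (nat_lit 335))) (XT.nd (nat_lit 78) (nat_lit 608) (nat_lit 0) (XT.lf (nat_lit 0) (nat_lit 6094893469) (nat_lit 912) (nat_lit 2330757998) (nat_lit 76) (nat_lit 12303168863)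 (nat_lit 289) (nat_lit 5) (nat_lit 301) (nat_lit 5) (nat_lit 290) (nat_lit 5) (nat_lit 439) (nat_lit 427) (nat_lit 334)) (XT.lf (nat_lit 0) (nat_lit 9911331991) (nat_lit 684) (nat_lit 4454900668) (nat_lit 76) (nat_lit 6919676227) (nat_lit 281) (nat_lit 5) (nat_lit 290) (nat_lit 5) (nat_lit 282) (nat_lit 5) (nat_lit 440) (nat_lit 427) (nat_lit 333))))) (XT.nd (nat_lit 234) (nat_lit 1976) (nat_lit 0) (XT.nd (nat_lit 78) (nat_lit 1216) (nat_lit 0) (XT.lf (nat_lit 0) (nat_lit 14168747593) (nat_lit 684) (nat_lit 6548866194) (nat_lit 76) (nat_lit 1145734920) (nat_lit 273) (nat_lit 5) (nat_lit 282) (nat_lit 5) (nat_lit 274) (nat_lit 5) (nat_lit 441) (nat_lit 427) (nat_lit 332)) (XT.nd (nat_lit 78) (nat_lit 684) (nat_lit 0) (XT.lf (nat_lit 0) (nat_lit 13803858264) (nat_lit 532) (nat_lit 5142192595) (nat_lit 608) (nat_lit 3514400573) (nat_lit 266) (nat_lit 5) (nat_lit 273) (nat_lit 5) (nat_lit 274) (nat_lit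 5) (nat_lit 442) (nat_lit 427) (nat_lit 331)) (XT.lf (nat_lit 0) (nat_lit 1138634282) (nat_lit 684) (nat_lit 10749363170) (nat_lit 76) (nat_lit 11190734029) (nat_lit 257) (nat_lit 5) (nat_lit 266) (nat_lit 5) (nat_lit 258) (nat_lit 5) (nat_lit 443) (nat_lit 427) (nat_lit 330)))) (XT.nd (nat_lit 156) (nat_lit 912) (nat_lit 0) (XT.nd (nat_lit 78) (nat_lit 532) (nat_lit 0) (XT.lf (nat_lit 0) (nat_lit 6228985203) (nat_lit 608) (nat_lit 12837287431) (nat_lit 76) (nat_lit 4652289841) (nat_lit 250) (nat_lit 5) (nat_lit 258) (nat_lit 5) (nat_lit 251) (nat_lit 5) (nat_lit 444) (nat_lit 427) (nat_lit 329)) (XT.lf (nat_lit 0) (nat_lit 9477900452) (nat_lit 532) (nat_lit 2403501868) (nat_lit 608) (nat_lit 12499757431) (nat_lit 243) (nat_lit 5) (nat_lit 250) (nat_lit 5) (nat_lit 251) (nat_lit 5) (nat_lit 445) (nat_lit 427) (nat_lit 328))) (XT.nd (nat_lit 78) (nat_lit 456) (nat_lit 0) (XT.lf (nat_lit 0) (nat_lit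 8098927339) (nat_lit 456) (nat_lit 10059154316) (nat_lit 532) (nat_lit 6908557129) (nat_lit 237) (nat_lit 5) (nat_lit 243) (nat_lit 5) (nat_lit 244) (nat_lit 5) (nat_lit 446) (nat_lit 427) (nat_lit 327)) (XT.lf (nat_lit 0) (nat_lit 6799526401) (nat_lit 456) (nat_lit 18250814965) (nat_lit 532) (nat_lit 726999091) (nat_lit 231) (nat_lit 5) (nat_lit 237) (nat_lit 5) (nat_lit 238) (nat_lit 5) (nat_lit 447) (nat_lit 427) (nat_lit 326))))))))
noncomputable def xc91 : XT := (XT.nd (nat_lit 2028) (nat_lit 4028) (nat_lit 0) (XT.nd (nat_lit 1014) (nat_lit 3496) (nat_lit 0) (XT.nd (nat_lit 468) (nat_lit 2432) (nat_lit 0) (XT.nd (nat_lit 234) (nat_lit 912) (nat_lit 0) (XT.nd (nat_lit 78) (nat_lit 836) (nat_lit 0) (XT.lf (nat_lit 0) (nat_lit 5523864587) (nat_lit 456) (nat_lit 444489511) (nat_lit 532) (nat_lit 20544046409) (nat_lit 224) (nat_lit 5) (nat_lit 230) (nat_lit 5) (nat_lit 231) (nat_lit 5) (nat_lit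 448) (nat_lit 427) (nat_lit 325)) (XT.nd (nat_lit 78) (nat_lit 380) (nat_lit 0) (XT.lf (nat_lit 0) (nat_lit 4250550599) (nat_lit 456) (nat_lit 9133270488) (nat_lit 532) (nat_lit 13888166036) (nat_lit 218) (nat_lit 5) (nat_lit 224) (nat_lit 5) (nat_lit 225) (nat_lit 5) (nat_lit 449) (nat_lit 427) (nat_lit 324)) (XT.lf (nat_lit 0) (nat_lit 3072059249) (nat_lit 380) (nat_lit 18429279023) (nat_lit 456) (nat_lit 6558277397) (nat_lit 213) (nat_lit 5) (nat_lit 218) (nat_lit 5) (nat_lit 219) (nat_lit 5) (nat_lit 450) (nat_lit 427) (nat_lit 323)))) (XT.nd (nat_lit 78) (nat_lit 380) (nat_lit 0) (XT.lf (nat_lit 0) (nat_lit 1459101759) (nat_lit 532) (nat_lit 26892353198) (nat_lit 76) (nat_lit 524547181) (nat_lit 206) (nat_lit 5) (nat_lit 213) (nat_lit 5) (nat_lit 207) (nat_lit 5) (nat_lit 451) (nat_lit 427) (nat_lit 322)) (XT.nd (nat_lit 78) (nat_lit 0) (nat_lit 0) (XT.lf (nat_lit 0) (nat_lit 845787189) (nat_lit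 380) (nat_lit 9338941245) (nat_lit 456) (nat_lit 19533241877) (nat_lit 201) (nat_lit 5) (nat_lit 206) (nat_lit 5) (nat_lit 207) (nat_lit 5) (nat_lit 452) (nat_lit 427) (nat_lit 321)) (XT.lf (nat_lit 0) (nat_lit 19716568640) (nat_lit 456) (nat_lit 181703515) (nat_lit 76) (nat_lit 10692667531) (nat_lit 201) (nat_lit 5) (nat_lit 207) (nat_lit 5) (nat_lit 202) (nat_lit 5) (nat_lit 453) (nat_lit 427) (nat_lit 320))))) (XT.nd (nat_lit 234) (nat_lit 1292) (nat_lit 0) (XT.nd (nat_lit 78) (nat_lit 760) (nat_lit 0) (XT.lf (nat_lit 0) (nat_lit 30103686727) (nat_lit 456) (nat_lit 1071796002) (nat_lit 76) (nat_lit 320714949) (nat_lit 196) (nat_lit 5) (nat_lit 202) (nat_lit 5) (nat_lit 197) (nat_lit 5) (nat_lit 454) (nat_lit 427) (nat_lit 319)) (XT.nd (nat_lit 78) (nat_lit 380) (nat_lit 0) (XT.lf (nat_lit 0) (nat_lit 8886171960) (nat_lit 380) (nat_lit 2022093146) (nat_lit 76) (nat_lit 21521289618) (nat_lit 191)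 (nat_lit 5) (nat_lit 196) (nat_lit 5) (nat_lit 192) (nat_lit 5) (nat_lit 455) (nat_lit 427) (nat_lit 318)) (XT.lf (nat_lit 0) (nat_lit 20048207380) (nat_lit 456) (nat_lit 2860303720) (nat_lit 76) (nat_lit 10488709014) (nat_lit 186) (nat_lit 5) (nat_lit 192) (nat_lit 5) (nat_lit 187) (nat_lit 5) (nat_lit 456) (nat_lit 427) (nat_lit 317)))) (XT.nd (nat_lit 156) (nat_lit 608) (nat_lit 0) (XT.nd (nat_lit 78) (nat_lit 380) (nat_lit 0) (XT.lf (nat_lit 0) (nat_lit 30830159350) (nat_lit 304) (nat_lit 1355410349) (nat_lit 380) (nat_lit 2215182928) (nat_lit 182) (nat_lit 5) (nat_lit 186) (nat_lit 5) (nat_lit 187) (nat_lit 5) (nat_lit 457) (nat_lit 427) (nat_lit 316)) (XT.lf (nat_lit 0) (nat_lit 9819855444) (nat_lit 380) (nat_lit 4334097654) (nat_lit 76) (nat_lit 21281894294) (nat_lit 177) (nat_lit 5) (nat_lit 182) (nat_lit 5) (nat_lit 178) (nat_lit 5) (nat_lit 458) (nat_lit 427) (nat_lit 315))) (XT.nd (nat_lit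 78) (nat_lit 304) (nat_lit 0) (XT.lf (nat_lit 0) (nat_lit 22841649719) (nat_lit 380) (nat_lit 4969702014) (nat_lit 76) (nat_lit 8697763200) (nat_lit 173) (nat_lit 5) (nat_lit 178) (nat_lit 5) (nat_lit 174) (nat_lit 5) (nat_lit 459) (nat_lit 427) (nat_lit 314)) (XT.lf (nat_lit 0) (nat_lit 32132097092) (nat_lit 304) (nat_lit 4869811146) (nat_lit 380) (nat_lit 619516888) (nat_lit 169) (nat_lit 5) (nat_lit 173) (nat_lit 5) (nat_lit 174) (nat_lit 5) (nat_lit 460) (nat_lit 427) (nat_lit 313)))))) (XT.nd (nat_lit 468) (nat_lit 1672) (nat_lit 0) (XT.nd (nat_lit 234) (nat_lit 836) (nat_lit 0) (XT.nd (nat_lit 78) (nat_lit 608) (nat_lit 0) (XT.lf (nat_lit 0) (nat_lit 13373959979) (nat_lit 380) (nat_lit 6057347872) (nat_lit 76) (nat_lit 19337819663) (nat_lit 164) (nat_lit 5) (nat_lit 169) (nat_lit 5) (nat_lit 165) (nat_lit 5) (nat_lit 461) (nat_lit 427) (nat_lit 312)) (XT.nd (nat_lit 78) (nat_lit 304) (nat_lit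 0) (XT.lf (nat_lit 0) (nat_lit 28523009646) (nat_lit 380) (nat_lit 6460055190) (nat_lit 76) (nat_lit 4976905273) (nat_lit 160) (nat_lit 5) (nat_lit 165) (nat_lit 5) (nat_lit 161) (nat_lit 5) (nat_lit 462) (nat_lit 427) (nat_lit 311)) (XT.lf (nat_lit 0) (nat_lit 3743331435) (nat_lit 304) (nat_lit 6815176801) (nat_lit 76) (nat_lit 30633308924) (nat_lit 156) (nat_lit 5) (nat_lit 160) (nat_lit 5) (nat_lit 157) (nat_lit 5) (nat_lit 463) (nat_lit 427) (nat_lit 310)))) (XT.nd (nat_lit 78) (nat_lit 532) (nat_lit 0) (XT.lf (nat_lit 0) (nat_lit 19998114330) (nat_lit 380) (nat_lit 7150304227) (nat_lit 76) (nat_lit 15316880973) (nat_lit 152) (nat_lit 5) (nat_lit 157) (nat_lit 5) (nat_lit 153) (nat_lit 5) (nat_lit 464) (nat_lit 427) (nat_lit 309)) (XT.nd (nat_lit 78) (nat_lit 304) (nat_lit 0) (XT.lf (nat_lit 0) (nat_lit 36485331945) (nat_lit 228) (nat_lit 1100208993) (nat_lit 304) (nat_lit 6201318323) (nat_lit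 149) (nat_lit 5) (nat_lit 152) (nat_lit 5) (nat_lit 153) (nat_lit 5) (nat_lit 465) (nat_lit 427) (nat_lit 308)) (XT.lf (nat_lit 0) (nat_lit 11353863545) (nat_lit 304) (nat_lit 7514820549) (nat_lit 76) (nat_lit 26282027668) (nat_lit 145) (nat_lit 5) (nat_lit 149) (nat_lit 5) (nat_lit 146) (nat_lit 5) (nat_lit 466) (nat_lit 427) (nat_lit 307))))) (XT.nd (nat_lit 234) (nat_lit 912) (nat_lit 0) (XT.nd (nat_lit 78) (nat_lit 532) (nat_lit 0) (XT.lf (nat_lit 0) (nat_lit 30200530005) (nat_lit 304) (nat_lit 7585843144) (nat_lit 76) (nat_lit 8778282750) (nat_lit 142) (nat_lit 5) (nat_lit 146) (nat_lit 5) (nat_lit 143) (nat_lit 5) (nat_lit 467) (nat_lit 427) (nat_lit 306)) (XT.nd (nat_lit 78) (nat_lit 228) (nat_lit 0) (XT.lf (nat_lit 0) (nat_lit 2559009755) (nat_lit 304) (nat_lit 7561253360) (nat_lit 76) (nat_lit 37908775767) (nat_lit 138) (nat_lit 5) (nat_lit 142) (nat_lit 5) (nat_lit 139) (nat_lit 5) (nat_lit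 468) (nat_lit 427) (nat_lit 305)) (XT.lf (nat_lit 0) (nat_lit 22758064486) (nat_lit 304) (nat_lit 7572914731) (nat_lit 76) (nat_lit 19210755531) (nat_lit 135) (nat_lit 5) (nat_lit 139) (nat_lit 5) (nat_lit 136) (nat_lit 5) (nat_lit 469) (nat_lit 427) (nat_lit 304)))) (XT.nd (nat_lit 156) (nat_lit 456) (nat_lit 0) (XT.nd (nat_lit 78) (nat_lit 228) (nat_lit 0) (XT.lf (nat_lit 0) (nat_lit 43744231383) (nat_lit 228) (nat_lit 816837422) (nat_lit 304) (nat_lit 6551176976) (nat_lit 132) (nat_lit 5) (nat_lit 135) (nat_lit 5) (nat_lit 136) (nat_lit 5) (nat_lit 470) (nat_lit 427) (nat_lit 303)) (XT.lf (nat_lit 0) (nat_lit 15214322637) (nat_lit 228) (nat_lit 7272568311) (nat_lit 76) (nat_lit 30245911731) (nat_lit 129) (nat_lit 5) (nat_lit 132) (nat_lit 5) (nat_lit 130) (nat_lit 5) (nat_lit 471) (nat_lit 427) (nat_lit 302))) (XT.nd (nat_lit 78) (nat_lit 228) (nat_lit 0) (XT.lf (nat_lit 0) (nat_lit 38555057418)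 (nat_lit 304) (nat_lit 7011486417) (nat_lit 76) (nat_lit 8847224480) (nat_lit 126) (nat_lit 5) (nat_lit 130) (nat_lit 5) (nat_lit 127) (nat_lit 5) (nat_lit 472) (nat_lit 427) (nat_lit 301)) (XT.lf (nat_lit 0) (nat_lit 7529142687) (nat_lit 228) (nat_lit 6716221141) (nat_lit 76) (nat_lit 41908050565) (nat_lit 123) (nat_lit 5) (nat_lit 126) (nat_lit 5) (nat_lit 124) (nat_lit 5) (nat_lit 473) (nat_lit 427) (nat_lit 300))))))) (XT.nd (nat_lit 1014) (nat_lit 1520) (nat_lit 0) (XT.nd (nat_lit 468) (nat_lit 1292) (nat_lit 0) (XT.nd (nat_lit 234) (nat_lit 532) (nat_lit 0) (XT.nd (nat_lit 78) (nat_lit 456) (nat_lit 0) (XT.lf (nat_lit 0) (nat_lit 32511244820) (nat_lit 304) (nat_lit 6430789827) (nat_lit 76) (nat_lit 19010712685) (nat_lit 120) (nat_lit 5) (nat_lit 124) (nat_lit 5) (nat_lit 121) (nat_lit 5) (nat_lit 474) (nat_lit 427) (nat_lit 299)) (XT.nd (nat_lit 78) (nat_lit 304) (nat_lit 0) (XT.lf (nat_lit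 0) (nat_lit 53867926312) (nat_lit 152) (nat_lit 5599516339) (nat_lit 228) (nat_lit 352854754) (nat_lit 118) (nat_lit 5) (nat_lit 120) (nat_lit 5) (nat_lit 121) (nat_lit 5) (nat_lit 475) (nat_lit 427) (nat_lit 298)) (XT.lf (nat_lit 0) (nat_lit 26376710120) (nat_lit 304) (nat_lit 5671490081) (nat_lit 76) (nat_lit 29698720524) (nat_lit 114) (nat_lit 5) (nat_lit 118) (nat_lit 5) (nat_lit 115) (nat_lit 5) (nat_lit 476) (nat_lit 427) (nat_lit 297)))) (XT.nd (nat_lit 78) (nat_lit 380) (nat_lit 0) (XT.lf (nat_lit 0) (nat_lit 55145269212) (nat_lit 228) (nat_lit 5149723616) (nat_lit 76) (nat_lit 3453483347) (nat_lit 112) (nat_lit 5) (nat_lit 115) (nat_lit 5) (nat_lit 113) (nat_lit 5) (nat_lit 477) (nat_lit 427) (nat_lit 296)) (XT.nd (nat_lit 78) (nat_lit 152) (nat_lit 0) (XT.lf (nat_lit 0) (nat_lit 20096000042) (nat_lit 228) (nat_lit 4805728362) (nat_lit 76) (nat_lit 40913524854) (nat_lit 109) (nat_lit 5)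 (nat_lit 112) (nat_lit 5) (nat_lit 110) (nat_lit 5) (nat_lit 478) (nat_lit 427) (nat_lit 295)) (XT.lf (nat_lit 0) (nat_lit 50839620306) (nat_lit 228) (nat_lit 4341536920) (nat_lit 76) (nat_lit 12778035309) (nat_lit 107) (nat_lit 5) (nat_lit 110) (nat_lit 5) (nat_lit 108) (nat_lit 5) (nat_lit 479) (nat_lit 427) (nat_lit 294))))) (XT.nd (nat_lit 234) (nat_lit 684) (nat_lit 0) (XT.nd (nat_lit 78) (nat_lit 380) (nat_lit 0) (XT.lf (nat_lit 0) (nat_lit 13601149618) (nat_lit 228) (nat_lit 3928527231) (nat_lit 76) (nat_lit 52648639706) (nat_lit 104) (nat_lit 5) (nat_lit 107) (nat_lit 5) (nat_lit 105) (nat_lit 5) (nat_lit 480) (nat_lit 427) (nat_lit 293)) (XT.nd (nat_lit 78) (nat_lit 228) (nat_lit 0) (XT.lf (nat_lit 0) (nat_lit 46431311158) (nat_lit 228) (nat_lit 3582509359) (nat_lit 76) (nat_lit 22461667497) (nat_lit 102) (nat_lit 5) (nat_lit 105) (nat_lit 5) (nat_lit 103) (nat_lit 5) (nat_lit 481) (nat_lit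 427) (nat_lit 292)) (XT.lf (nat_lit 0) (nat_lit 6809160382) (nat_lit 228) (nat_lit 3162735697) (nat_lit 76) (nat_lit 64886554939) (nat_lit 99) (nat_lit 5) (nat_lit 102) (nat_lit 5) (nat_lit 100) (nat_lit 5) (nat_lit 482) (nat_lit 427) (nat_lit 291)))) (XT.nd (nat_lit 156) (nat_lit 380) (nat_lit 0) (XT.nd (nat_lit 78) (nat_lit 152) (nat_lit 0) (XT.lf (nat_lit 0) (nat_lit 41839212735) (nat_lit 228) (nat_lit 3011819389) (nat_lit 76) (nat_lit 32469613823) (nat_lit 97) (nat_lit 5) (nat_lit 100) (nat_lit 5) (nat_lit 98) (nat_lit 5) (nat_lit 483) (nat_lit 427) (nat_lit 290)) (XT.lf (nat_lit 0) (nat_lit 77211198217) (nat_lit 152) (nat_lit 2280069747) (nat_lit 228) (nat_lit 388567768) (nat_lit 95) (nat_lit 5) (nat_lit 97) (nat_lit 5) (nat_lit 98) (nat_lit 5) (nat_lit 484) (nat_lit 427) (nat_lit 289))) (XT.nd (nat_lit 78) (nat_lit 152) (nat_lit 0) (XT.lf (nat_lit 0) (nat_lit 36963226809) (nat_lit 228) (nat_lit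 2805698114) (nat_lit 76) (nat_lit 42751074289) (nat_lit 92) (nat_lit 5) (nat_lit 95) (nat_lit 5) (nat_lit 93) (nat_lit 5) (nat_lit 485) (nat_lit 427) (nat_lit 288)) (XT.lf (nat_lit 0) (nat_lit 77067240206) (nat_lit 228) (nat_lit 2764840116) (nat_lit 76) (nat_lit 5433195275) (nat_lit 90) (nat_lit 5) (nat_lit 93) (nat_lit 5) (nat_lit 91) (nat_lit 4) (nat_lit 486) (nat_lit 427) (nat_lit 287)))))) (XT.nd (nat_lit 546) (nat_lit 456) (nat_lit 0) (XT.nd (nat_lit 234) (nat_lit 608) (nat_lit 0) (XT.nd (nat_lit 78) (nat_lit 304) (nat_lit 0) (XT.lf (nat_lit 0) (nat_lit 31680498857) (nat_lit 152) (nat_lit 3185013795) (nat_lit 76) (nat_lit 53235635028) (nat_lit 88) (nat_lit 5) (nat_lit 90) (nat_lit 5) (nat_lit 89) (nat_lit 5) (nat_lit 487) (nat_lit 427) (nat_lit 286)) (XT.nd (nat_lit 78) (nat_lit 152) (nat_lit 0) (XT.lf (nat_lit 0) (nat_lit 74378902181) (nat_lit 228) (nat_lit 3600482823) (nat_lit 76) (nat_lit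 13067128687) (nat_lit 86) (nat_lit 5) (nat_lit 89) (nat_lit 5) (nat_lit 87) (nat_lit 4) (nat_lit 488) (nat_lit 427) (nat_lit 285)) (XT.lf (nat_lit 0) (nat_lit 25840939402) (nat_lit 152) (nat_lit 4424251893) (nat_lit 76) (nat_lit 63829012425) (nat_lit 84) (nat_lit 5) (nat_lit 86) (nat_lit 5) (nat_lit 85) (nat_lit 5) (nat_lit 489) (nat_lit 427) (nat_lit 284)))) (XT.nd (nat_lit 156) (nat_lit 304) (nat_lit 0) (XT.nd (nat_lit 78) (nat_lit 152) (nat_lit 0) (XT.lf (nat_lit 0) (nat_lit 71252069231) (nat_lit 228) (nat_lit 5459027075) (nat_lit 76) (nat_lit 20544575354) (nat_lit 82) (nat_lit 5) (nat_lit 85) (nat_lit 5) (nat_lit 83) (nat_lit 4) (nat_lit 490) (nat_lit 427) (nat_lit 283)) (XT.lf (nat_lit 0) (nat_lit 19261932531) (nat_lit 152) (nat_lit 6862136395) (nat_lit 76) (nat_lit 74408001000) (nat_lit 80) (nat_lit 5) (nat_lit 82) (nat_lit 5) (nat_lit 81) (nat_lit 5) (nat_lit 491) (nat_lit 427) (nat_lit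 282))) (XT.nd (nat_lit 78) (nat_lit 152) (nat_lit 0) (XT.lf (nat_lit 0) (nat_lit 67499898754) (nat_lit 228) (nat_lit 8716118146) (nat_lit 76) (nat_lit 27711138968) (nat_lit 78) (nat_lit 5) (nat_lit 81) (nat_lit 5) (nat_lit 79) (nat_lit 4) (nat_lit 492) (nat_lit 427) (nat_lit 281)) (XT.lf (nat_lit 0) (nat_lit 11722089431) (nat_lit 152) (nat_lit 10914180536) (nat_lit 76) (nat_lit 84814483924) (nat_lit 76) (nat_lit 5) (nat_lit 78) (nat_lit 5) (nat_lit 77) (nat_lit 5) (nat_lit 493) (nat_lit 427) (nat_lit 280))))) (XT.nd (nat_lit 57408) (nat_lit 0) (nat_lit 18240) (XT.nd (nat_lit 156) (nat_lit 304) (nat_lit 0) (XT.lf (nat_lit 0) (nat_lit 62894254401) (nat_lit 228) (nat_lit 13831307350) (nat_lit 76) (nat_lit 34373088471) (nat_lit 74) (nat_lit 5) (nat_lit 77) (nat_lit 5) (nat_lit 75) (nat_lit 4) (nat_lit 494) (nat_lit 427) (nat_lit 279)) (XT.nd (nat_lit 57174) (nat_lit 0) (nat_lit 18164) (XT.lf (nat_lit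 0) (nat_lit 57157776975) (nat_lit 228) (nat_lit 21364148943) (nat_lit 76) (nat_lit 40289571293) (nat_lit 70) (nat_lit 5) (nat_lit 73) (nat_lit 5) (nat_lit 71) (nat_lit 4) (nat_lit 496) (nat_lit 427) (nat_lit 277)) (XT.lf (nat_lit 0) (nat_lit 1406895862) (nat_lit 1292) (nat_lit 3320072314) (nat_lit 1292) (nat_lit 3320072314) (nat_lit 309) (nat_lit 3) (nat_lit 326) (nat_lit 3) (nat_lit 326) (nat_lit 5) (nat_lit 428) (nat_lit 428) (nat_lit 344)))) (XT.nd (nat_lit 156) (nat_lit 0) (nat_lit 76) (XT.nd (nat_lit 78) (nat_lit 0) (nat_lit 0) (XT.lf (nat_lit 0) (nat_lit 3404886652) (nat_lit 1216) (nat_lit 9720333046) (nat_lit 1292) (nat_lit 3355551722) (nat_lit 310) (nat_lit 5) (nat_lit 326) (nat_lit 5) (nat_lit 327) (nat_lit 5) (nat_lit 429) (nat_lit 428) (nat_lit 343)) (XT.lf (nat_lit 76) (nat_lit 4052902389) (nat_lit 0) (nat_lit 148985222) (nat_lit 1292) (nat_lit 12679620733) (nat_lit 311) (nat_lit 5)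 (nat_lit 310) (nat_lit 5) (nat_lit 327) (nat_lit 5) (nat_lit 430) (nat_lit 428) (nat_lit 342))) (XT.nd (nat_lit 78) (nat_lit 0) (nat_lit 76) (XT.lf (nat_lit 76) (nat_lit 1297836278) (nat_lit 0) (nat_lit 3958165996) (nat_lit 1292) (nat_lit 12039764313) (nat_lit 312) (nat_lit 5) (nat_lit 311) (nat_lit 5) (nat_lit 328) (nat_lit 5) (nat_lit 431) (nat_lit 428) (nat_lit 341)) (XT.lf (nat_lit 0) (nat_lit 6566913182) (nat_lit 1216) (nat_lit 1440749161) (nat_lit 1292) (nat_lit 9716954953) (nat_lit 312) (nat_lit 5) (nat_lit 328) (nat_lit 5) (nat_lit 329) (nat_lit 5) (nat_lit 432) (nat_lit 428) (nat_lit 340))))))))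
noncomputable def xc92 : XT := (XT.nd (nat_lit 2028) (nat_lit 6612) (nat_lit 0) (XT.nd (nat_lit 1014) (nat_lit 5168) (nat_lit 0) (XT.nd (nat_lit 468) (nat_lit 3800) (nat_lit 0) (XT.nd (nat_lit 234) (nat_lit 988) (nat_lit 0) (XT.nd (nat_lit 78) (nat_lit 0) (nat_lit 76) (XT.lf (nat_lit 0) (nat_lit 8152423345) (nat_lit 1216) (nat_lit 4164195493) (nat_lit 1292) (nat_lit 5852022253) (nat_lit 313) (nat_lit 5) (nat_lit 329) (nat_lit 5) (nat_lit 330) (nat_lit 5) (nat_lit 433) (nat_lit 428) (nat_lit 339)) (XT.nd (nat_lit 78) (nat_lit 0) (nat_lit 0) (XT.lf (nat_lit 0) (nat_lit 10020345023) (nat_lit 1216) (nat_lit 6895705941) (nat_lit 1292) (nat_lit 1712723088) (nat_lit 314) (nat_lit 5) (nat_lit 330) (nat_lit 5) (nat_lit 331) (nat_lit 5) (nat_lit 434) (nat_lit 428) (nat_lit 338)) (XT.lf (nat_lit 76) (nat_lit 9445353221) (nat_lit 0) (nat_lit 2773284720) (nat_lit 1292) (nat_lit 6886168426) (nat_lit 315) (nat_lit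 5) (nat_lit 314) (nat_lit 5) (nat_lit 331) (nat_lit 5) (nat_lit 435) (nat_lit 428) (nat_lit 337)))) (XT.nd (nat_lit 78) (nat_lit 1140) (nat_lit 0) (XT.lf (nat_lit 76) (nat_lit 7151798672) (nat_lit 0) (nat_lit 7611067693) (nat_lit 1292) (nat_lit 4834695175) (nat_lit 316) (nat_lit 5) (nat_lit 315) (nat_lit 5) (nat_lit 332) (nat_lit 5) (nat_lit 436) (nat_lit 428) (nat_lit 336)) (XT.nd (nat_lit 78) (nat_lit 1216) (nat_lit 0) (XT.lf (nat_lit 76) (nat_lit 4873399600) (nat_lit 0) (nat_lit 12786550941) (nat_lit 1292) (nat_lit 2448236378) (nat_lit 317) (nat_lit 5) (nat_lit 316) (nat_lit 5) (nat_lit 333) (nat_lit 5) (nat_lit 437) (nat_lit 428) (nat_lit 335)) (XT.lf (nat_lit 0) (nat_lit 291657583) (nat_lit 1292) (nat_lit 18025935341) (nat_lit 76) (nat_lit 2319678637) (nat_lit 300) (nat_lit 5) (nat_lit 317) (nat_lit 5) (nat_lit 301) (nat_lit 5) (nat_lit 438) (nat_lit 428) (nat_lit 334))))) (XT.nd (nat_lit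 234) (nat_lit 2356) (nat_lit 0) (XT.nd (nat_lit 78) (nat_lit 608) (nat_lit 0) (XT.lf (nat_lit 0) (nat_lit 314615896) (nat_lit 836) (nat_lit 3075972101) (nat_lit 912) (nat_lit 17793316555) (nat_lit 289) (nat_lit 5) (nat_lit 300) (nat_lit 5) (nat_lit 301) (nat_lit 5) (nat_lit 439) (nat_lit 428) (nat_lit 333)) (XT.nd (nat_lit 78) (nat_lit 608) (nat_lit 0) (XT.lf (nat_lit 0) (nat_lit 6938608501) (nat_lit 912) (nat_lit 1945829728) (nat_lit 76) (nat_lit 12864608147) (nat_lit 289) (nat_lit 5) (nat_lit 301) (nat_lit 5) (nat_lit 290) (nat_lit 5) (nat_lit 440) (nat_lit 428) (nat_lit 332)) (XT.lf (nat_lit 0) (nat_lit 10924588931) (nat_lit 684) (nat_lit 4174673675) (nat_lit 76) (nat_lit 7235367339) (nat_lit 281) (nat_lit 5) (nat_lit 290) (nat_lit 5) (nat_lit 282) (nat_lit 5) (nat_lit 441) (nat_lit 428) (nat_lit 331)))) (XT.nd (nat_lit 156) (nat_lit 1216) (nat_lit 0) (XT.nd (nat_lit 78) (nat_lit 532) (nat_lit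 0) (XT.lf (nat_lit 0) (nat_lit 15374831429) (nat_lit 684) (nat_lit 6372693185) (nat_lit 76) (nat_lit 1194020538) (nat_lit 273) (nat_lit 5) (nat_lit 282) (nat_lit 5) (nat_lit 274) (nat_lit 5) (nat_lit 442) (nat_lit 428) (nat_lit 330)) (XT.lf (nat_lit 0) (nat_lit 14983231435) (nat_lit 532) (nat_lit 5388773273) (nat_lit 608) (nat_lit 3197070140) (nat_lit 266) (nat_lit 5) (nat_lit 273) (nat_lit 5) (nat_lit 274) (nat_lit 5) (nat_lit 443) (nat_lit 428) (nat_lit 329))) (XT.nd (nat_lit 78) (nat_lit 532) (nat_lit 0) (XT.lf (nat_lit 0) (nat_lit 1660819726) (nat_lit 684) (nat_lit 10788489135) (nat_lit 76) (nat_lit 11769364951) (nat_lit 257) (nat_lit 5) (nat_lit 266) (nat_lit 5) (nat_lit 258) (nat_lit 5) (nat_lit 444) (nat_lit 428) (nat_lit 328)) (XT.lf (nat_lit 0) (nat_lit 6988535299) (nat_lit 608) (nat_lit 12981976038) (nat_lit 76) (nat_lit 4920501351) (nat_lit 250) (nat_lit 5) (nat_lit 258) (nat_lit 5)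 (nat_lit 251) (nat_lit 5) (nat_lit 445) (nat_lit 428) (nat_lit 327)))))) (XT.nd (nat_lit 468) (nat_lit 2356) (nat_lit 0) (XT.nd (nat_lit 234) (nat_lit 1368) (nat_lit 0) (XT.nd (nat_lit 78) (nat_lit 912) (nat_lit 0) (XT.lf (nat_lit 0) (nat_lit 10434719797) (nat_lit 532) (nat_lit 2472157504) (nat_lit 608) (nat_lit 12680365067) (nat_lit 243) (nat_lit 5) (nat_lit 250) (nat_lit 5) (nat_lit 251) (nat_lit 5) (nat_lit 446) (nat_lit 428) (nat_lit 326)) (XT.nd (nat_lit 78) (nat_lit 456) (nat_lit 0) (XT.lf (nat_lit 0) (nat_lit 8985077493) (nat_lit 456) (nat_lit 10496867300) (nat_lit 532) (nat_lit 6825515516) (nat_lit 237) (nat_lit 5) (nat_lit 243) (nat_lit 5) (nat_lit 244) (nat_lit 5) (nat_lit 447) (nat_lit 428) (nat_lit 325)) (XT.lf (nat_lit 0) (nat_lit 7618455510) (nat_lit 456) (nat_lit 19085755700) (nat_lit 532) (nat_lit 349925551) (nat_lit 231) (nat_lit 5) (nat_lit 237) (nat_lit 5) (nat_lit 238) (nat_lit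 5) (nat_lit 448) (nat_lit 428) (nat_lit 324)))) (XT.nd (nat_lit 78) (nat_lit 836) (nat_lit 0) (XT.lf (nat_lit 0) (nat_lit 6273146070) (nat_lit 456) (nat_lit 384226787) (nat_lit 532) (nat_lit 21168901778) (nat_lit 224) (nat_lit 5) (nat_lit 230) (nat_lit 5) (nat_lit 231) (nat_lit 5) (nat_lit 449) (nat_lit 428) (nat_lit 323)) (XT.nd (nat_lit 78) (nat_lit 380) (nat_lit 0) (XT.lf (nat_lit 0) (nat_lit 4933244417) (nat_lit 456) (nat_lit 9497043414) (nat_lit 532) (nat_lit 14193953839) (nat_lit 218) (nat_lit 5) (nat_lit 224) (nat_lit 5) (nat_lit 225) (nat_lit 5) (nat_lit 450) (nat_lit 428) (nat_lit 322)) (XT.lf (nat_lit 0) (nat_lit 3692503564) (nat_lit 380) (nat_lit 19248549769) (nat_lit 456) (nat_lit 6510578402) (nat_lit 213) (nat_lit 5) (nat_lit 218) (nat_lit 5) (nat_lit 219) (nat_lit 5) (nat_lit 451) (nat_lit 428) (nat_lit 321))))) (XT.nd (nat_lit 234) (nat_lit 1064) (nat_lit 0) (XT.nd (nat_lit 78) (nat_lit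 760) (nat_lit 0) (XT.lf (nat_lit 0) (nat_lit 1888243897) (nat_lit 532) (nat_lit 27766702996) (nat_lit 76) (nat_lit 654146371) (nat_lit 206) (nat_lit 5) (nat_lit 213) (nat_lit 5) (nat_lit 207) (nat_lit 5) (nat_lit 452) (nat_lit 428) (nat_lit 320)) (XT.nd (nat_lit 78) (nat_lit 380) (nat_lit 0) (XT.lf (nat_lit 0) (nat_lit 1344864277) (nat_lit 380) (nat_lit 9692717264) (nat_lit 456) (nat_lit 20155956528) (nat_lit 201) (nat_lit 5) (nat_lit 206) (nat_lit 5) (nat_lit 207) (nat_lit 5) (nat_lit 453) (nat_lit 428) (nat_lit 319)) (XT.lf (nat_lit 0) (nat_lit 258086181) (nat_lit 380) (nat_lit 20775081824) (nat_lit 456) (nat_lit 11077374340) (nat_lit 196) (nat_lit 5) (nat_lit 201) (nat_lit 5) (nat_lit 202) (nat_lit 5) (nat_lit 454) (nat_lit 428) (nat_lit 318)))) (XT.nd (nat_lit 156) (nat_lit 684) (nat_lit 0) (XT.nd (nat_lit 78) (nat_lit 380) (nat_lit 0) (XT.lf (nat_lit 0) (nat_lit 31926771271) (nat_lit 456)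 (nat_lit 685844302) (nat_lit 76) (nat_lit 448834794) (nat_lit 196) (nat_lit 5) (nat_lit 202) (nat_lit 5) (nat_lit 197) (nat_lit 5) (nat_lit 455) (nat_lit 428) (nat_lit 317)) (XT.lf (nat_lit 0) (nat_lit 9640403819) (nat_lit 380) (nat_lit 1690068925) (nat_lit 76) (nat_lit 22711243351) (nat_lit 191) (nat_lit 5) (nat_lit 196) (nat_lit 5) (nat_lit 192) (nat_lit 5) (nat_lit 456) (nat_lit 428) (nat_lit 316))) (XT.nd (nat_lit 78) (nat_lit 304) (nat_lit 0) (XT.lf (nat_lit 0) (nat_lit 21350994886) (nat_lit 456) (nat_lit 2574779501) (nat_lit 76) (nat_lit 11132277641) (nat_lit 186) (nat_lit 5) (nat_lit 192) (nat_lit 5) (nat_lit 187) (nat_lit 5) (nat_lit 457) (nat_lit 428) (nat_lit 315)) (XT.lf (nat_lit 0) (nat_lit 32787922727) (nat_lit 304) (nat_lit 1297000222) (nat_lit 380) (nat_lit 2027148135) (nat_lit 182) (nat_lit 5) (nat_lit 186) (nat_lit 5) (nat_lit 187) (nat_lit 5) (nat_lit 458) (nat_lit 428) (nat_lit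 314))))))) (XT.nd (nat_lit 1014) (nat_lit 2812) (nat_lit 0) (XT.nd (nat_lit 468) (nat_lit 1824) (nat_lit 0) (XT.nd (nat_lit 234) (nat_lit 988) (nat_lit 0) (XT.nd (nat_lit 78) (nat_lit 608) (nat_lit 0) (XT.lf (nat_lit 0) (nat_lit 10595023443) (nat_lit 380) (nat_lit 4133516622) (nat_lit 76) (nat_lit 22470558784) (nat_lit 177) (nat_lit 5) (nat_lit 182) (nat_lit 5) (nat_lit 178) (nat_lit 5) (nat_lit 459) (nat_lit 428) (nat_lit 313)) (XT.nd (nat_lit 78) (nat_lit 304) (nat_lit 0) (XT.lf (nat_lit 0) (nat_lit 24259528693) (nat_lit 380) (nat_lit 4805868716) (nat_lit 76) (nat_lit 9260884467) (nat_lit 173) (nat_lit 5) (nat_lit 178) (nat_lit 5) (nat_lit 174) (nat_lit 5) (nat_lit 460) (nat_lit 428) (nat_lit 312)) (XT.lf (nat_lit 0) (nat_lit 34139201321) (nat_lit 304) (nat_lit 4979315495) (nat_lit 380) (nat_lit 375969971) (nat_lit 169) (nat_lit 5) (nat_lit 173) (nat_lit 5) (nat_lit 174) (nat_lit 5) (nat_lit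 461) (nat_lit 428) (nat_lit 311)))) (XT.nd (nat_lit 78) (nat_lit 608) (nat_lit 0) (XT.lf (nat_lit 0) (nat_lit 14304085058) (nat_lit 380) (nat_lit 5959451121) (nat_lit 76) (nat_lit 20436191769) (nat_lit 164) (nat_lit 5) (nat_lit 169) (nat_lit 5) (nat_lit 165) (nat_lit 5) (nat_lit 462) (nat_lit 428) (nat_lit 310)) (XT.nd (nat_lit 78) (nat_lit 304) (nat_lit 0) (XT.lf (nat_lit 0) (nat_lit 30203192924) (nat_lit 380) (nat_lit 6387500182) (nat_lit 76) (nat_lit 5359642021) (nat_lit 160) (nat_lit 5) (nat_lit 165) (nat_lit 5) (nat_lit 161) (nat_lit 5) (nat_lit 463) (nat_lit 428) (nat_lit 309)) (XT.lf (nat_lit 0) (nat_lit 4178571002) (nat_lit 304) (nat_lit 6766767757) (nat_lit 76) (nat_lit 32298615507) (nat_lit 156) (nat_lit 5) (nat_lit 160) (nat_lit 5) (nat_lit 157) (nat_lit 5) (nat_lit 464) (nat_lit 428) (nat_lit 308))))) (XT.nd (nat_lit 234) (nat_lit 988) (nat_lit 0) (XT.nd (nat_lit 78) (nat_lit 532) (nat_lit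 0) (XT.lf (nat_lit 0) (nat_lit 21239241412) (nat_lit 380) (nat_lit 7123926833) (nat_lit 76) (nat_lit 16218148610) (nat_lit 152) (nat_lit 5) (nat_lit 157) (nat_lit 5) (nat_lit 153) (nat_lit 5) (nat_lit 465) (nat_lit 428) (nat_lit 307)) (XT.nd (nat_lit 78) (nat_lit 304) (nat_lit 0) (XT.lf (nat_lit 0) (nat_lit 38682486942) (nat_lit 228) (nat_lit 1015650106) (nat_lit 304) (nat_lit 6271055115) (nat_lit 149) (nat_lit 5) (nat_lit 152) (nat_lit 5) (nat_lit 153) (nat_lit 5) (nat_lit 466) (nat_lit 428) (nat_lit 306)) (XT.lf (nat_lit 0) (nat_lit 12150835231) (nat_lit 304) (nat_lit 7518283210) (nat_lit 76) (nat_lit 27732240858) (nat_lit 145) (nat_lit 5) (nat_lit 149) (nat_lit 5) (nat_lit 146) (nat_lit 5) (nat_lit 467) (nat_lit 428) (nat_lit 305)))) (XT.nd (nat_lit 156) (nat_lit 456) (nat_lit 0) (XT.nd (nat_lit 78) (nat_lit 304) (nat_lit 0) (XT.lf (nat_lit 0) (nat_lit 31933736538) (nat_lit 304) (nat_lit 7598207450)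 (nat_lit 76) (nat_lit 9354240069) (nat_lit 142) (nat_lit 5) (nat_lit 146) (nat_lit 5) (nat_lit 143) (nat_lit 5) (nat_lit 468) (nat_lit 428) (nat_lit 304)) (XT.lf (nat_lit 0) (nat_lit 2905085709) (nat_lit 304) (nat_lit 7578556426) (nat_lit 76) (nat_lit 39940296387) (nat_lit 138) (nat_lit 5) (nat_lit 142) (nat_lit 5) (nat_lit 139) (nat_lit 5) (nat_lit 469) (nat_lit 428) (nat_lit 303))) (XT.nd (nat_lit 78) (nat_lit 228) (nat_lit 0) (XT.lf (nat_lit 0) (nat_lit 24108413835) (nat_lit 304) (nat_lit 7596139774) (nat_lit 76) (nat_lit 20307886361) (nat_lit 135) (nat_lit 5) (nat_lit 139) (nat_lit 5) (nat_lit 136) (nat_lit 5) (nat_lit 470) (nat_lit 428) (nat_lit 302)) (XT.lf (nat_lit 0) (nat_lit 46276675583) (nat_lit 228) (nat_lit 718094891) (nat_lit 304) (nat_lit 6666910403) (nat_lit 132) (nat_lit 5) (nat_lit 135) (nat_lit 5) (nat_lit 136) (nat_lit 5) (nat_lit 471) (nat_lit 428) (nat_lit 301)))))) (XT.nd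 (nat_lit 546) (nat_lit 1292) (nat_lit 0) (XT.nd (nat_lit 234) (nat_lit 836) (nat_lit 0) (XT.nd (nat_lit 78) (nat_lit 456) (nat_lit 0) (XT.lf (nat_lit 0) (nat_lit 16177432121) (nat_lit 228) (nat_lit 7292128118) (nat_lit 76) (nat_lit 31893803611) (nat_lit 129) (nat_lit 5) (nat_lit 132) (nat_lit 5) (nat_lit 130) (nat_lit 5) (nat_lit 472) (nat_lit 428) (nat_lit 300)) (XT.nd (nat_lit 78) (nat_lit 228) (nat_lit 0) (XT.lf (nat_lit 0) (nat_lit 40680107281) (nat_lit 304) (nat_lit 7023297748) (nat_lit 76) (nat_lit 9425125971) (nat_lit 126) (nat_lit 5) (nat_lit 130) (nat_lit 5) (nat_lit 127) (nat_lit 5) (nat_lit 473) (nat_lit 428) (nat_lit 299)) (XT.lf (nat_lit 0) (nat_lit 8098562873) (nat_lit 228) (nat_lit 6719133131) (nat_lit 76) (nat_lit 44137593910) (nat_lit 123) (nat_lit 5) (nat_lit 126) (nat_lit 5) (nat_lit 124) (nat_lit 5) (nat_lit 474) (nat_lit 428) (nat_lit 298)))) (XT.nd (nat_lit 156) (nat_lit 456)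 (nat_lit 0) (XT.nd (nat_lit 78) (nat_lit 152) (nat_lit 0) (XT.lf (nat_lit 0) (nat_lit 34325001569) (nat_lit 304) (nat_lit 6424672122) (nat_lit 76) (nat_lit 20095059166) (nat_lit 120) (nat_lit 5) (nat_lit 124) (nat_lit 5) (nat_lit 121) (nat_lit 5) (nat_lit 475) (nat_lit 428) (nat_lit 297)) (XT.lf (nat_lit 0) (nat_lit 56879587596) (nat_lit 152) (nat_lit 5743519410) (nat_lit 228) (nat_lit 182730784) (nat_lit 118) (nat_lit 5) (nat_lit 120) (nat_lit 5) (nat_lit 121) (nat_lit 5) (nat_lit 476) (nat_lit 428) (nat_lit 296))) (XT.nd (nat_lit 78) (nat_lit 152) (nat_lit 0) (XT.lf (nat_lit 0) (nat_lit 27875179053) (nat_lit 304) (nat_lit 5638294296) (nat_lit 76) (nat_lit 31315399120) (nat_lit 114) (nat_lit 5) (nat_lit 118) (nat_lit 5) (nat_lit 115) (nat_lit 5) (nat_lit 477) (nat_lit 428) (nat_lit 295)) (XT.lf (nat_lit 0) (nat_lit 58077854587) (nat_lit 228) (nat_lit 5095578267) (nat_lit 76) (nat_lit 3757202435)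 (nat_lit 112) (nat_lit 5) (nat_lit 115) (nat_lit 5) (nat_lit 113) (nat_lit 5) (nat_lit 478) (nat_lit 428) (nat_lit 294))))) (XT.nd (nat_lit 234) (nat_lit 684) (nat_lit 0) (XT.nd (nat_lit 78) (nat_lit 380) (nat_lit 0) (XT.lf (nat_lit 0) (nat_lit 21272369734) (nat_lit 228) (nat_lit 4739896875) (nat_lit 76) (nat_lit 43088597564) (nat_lit 109) (nat_lit 5) (nat_lit 112) (nat_lit 5) (nat_lit 110) (nat_lit 5) (nat_lit 479) (nat_lit 428) (nat_lit 293)) (XT.nd (nat_lit 78) (nat_lit 228) (nat_lit 0) (XT.lf (nat_lit 0) (nat_lit 53549119341) (nat_lit 228) (nat_lit 4257538565) (nat_lit 76) (nat_lit 13545464280) (nat_lit 107) (nat_lit 5) (nat_lit 110) (nat_lit 5) (nat_lit 108) (nat_lit 5) (nat_lit 480) (nat_lit 428) (nat_lit 292)) (XT.lf (nat_lit 0) (nat_lit 14445170818) (nat_lit 228) (nat_lit 3829241351) (nat_lit 76) (nat_lit 55407897201) (nat_lit 104) (nat_lit 5) (nat_lit 107) (nat_lit 5) (nat_lit 105) (nat_lit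 5) (nat_lit 481) (nat_lit 428) (nat_lit 291)))) (XT.nd (nat_lit 156) (nat_lit 304) (nat_lit 0) (XT.nd (nat_lit 78) (nat_lit 228) (nat_lit 0) (XT.lf (nat_lit 0) (nat_lit 48913027203) (nat_lit 228) (nat_lit 3470861179) (nat_lit 76) (nat_lit 23710565613) (nat_lit 102) (nat_lit 5) (nat_lit 105) (nat_lit 5) (nat_lit 103) (nat_lit 5) (nat_lit 482) (nat_lit 428) (nat_lit 290)) (XT.lf (nat_lit 0) (nat_lit 7306398317) (nat_lit 228) (nat_lit 3035309962) (nat_lit 76) (nat_lit 68254958280) (nat_lit 99) (nat_lit 5) (nat_lit 102) (nat_lit 5) (nat_lit 100) (nat_lit 5) (nat_lit 483) (nat_lit 428) (nat_lit 289))) (XT.nd (nat_lit 78) (nat_lit 152) (nat_lit 0) (XT.lf (nat_lit 0) (nat_lit 44084359281) (nat_lit 228) (nat_lit 2881675962) (nat_lit 76) (nat_lit 34216043984) (nat_lit 97) (nat_lit 5) (nat_lit 100) (nat_lit 5) (nat_lit 98) (nat_lit 5) (nat_lit 484) (nat_lit 428) (nat_lit 288)) (XT.lf (nat_lit 0) (nat_lit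 81344445329) (nat_lit 152) (nat_lit 2269898612) (nat_lit 228) (nat_lit 255024925) (nat_lit 95) (nat_lit 5) (nat_lit 97) (nat_lit 5) (nat_lit 98) (nat_lit 5) (nat_lit 485) (nat_lit 428) (nat_lit 287))))))))
noncomputable def xc93 : XT := (XT.nd (nat_lit 59280) (nat_lit 0) (nat_lit 4788) (XT.nd (nat_lit 58266) (nat_lit 0) (nat_lit 14744) (XT.nd (nat_lit 468) (nat_lit 760) (nat_lit 0) (XT.nd (nat_lit 234) (nat_lit 456) (nat_lit 0) (XT.nd (nat_lit 78) (nat_lit 304) (nat_lit 0) (XT.lf (nat_lit 0) (nat_lit 38957982315) (nat_lit 228) (nat_lit 2675020382) (nat_lit 76) (nat_lit 45008595623) (nat_lit 92) (nat_lit 5) (nat_lit 95) (nat_lit 5) (nat_lit 93) (nat_lit 5) (nat_lit 486) (nat_lit 428) (nat_lit 286)) (XT.nd (nat_lit 78) (nat_lit 152) (nat_lit 0) (XT.lf (nat_lit 0) (nat_lit 81063909329) (nat_lit 228) (nat_lit 2636783010) (nat_lit 76) (nat_lit 5823544939) (nat_lit 90) (nat_lit 5) (nat_lit 93) (nat_lit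 5) (nat_lit 91) (nat_lit 4) (nat_lit 487) (nat_lit 428) (nat_lit 285)) (XT.lf (nat_lit 0) (nat_lit 33404871847) (nat_lit 152) (nat_lit 3082802915) (nat_lit 76) (nat_lit 56014317194) (nat_lit 88) (nat_lit 5) (nat_lit 90) (nat_lit 5) (nat_lit 89) (nat_lit 5) (nat_lit 488) (nat_lit 428) (nat_lit 284)))) (XT.nd (nat_lit 78) (nat_lit 304) (nat_lit 0) (XT.lf (nat_lit 0) (nat_lit 78235086331) (nat_lit 228) (nat_lit 3523587364) (nat_lit 76) (nat_lit 13836045969) (nat_lit 86) (nat_lit 5) (nat_lit 89) (nat_lit 5) (nat_lit 87) (nat_lit 4) (nat_lit 489) (nat_lit 428) (nat_lit 283)) (XT.nd (nat_lit 78) (nat_lit 152) (nat_lit 0) (XT.lf (nat_lit 0) (nat_lit 27267409317) (nat_lit 152) (nat_lit 4393231807) (nat_lit 76) (nat_lit 67134237744) (nat_lit 84) (nat_lit 5) (nat_lit 86) (nat_lit 5) (nat_lit 85) (nat_lit 5) (nat_lit 490) (nat_lit 428) (nat_lit 282)) (XT.lf (nat_lit 0) (nat_lit 74946151509) (nat_lit 228)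 (nat_lit 5484164251) (nat_lit 76) (nat_lit 21684192880) (nat_lit 82) (nat_lit 5) (nat_lit 85) (nat_lit 5) (nat_lit 83) (nat_lit 4) (nat_lit 491) (nat_lit 428) (nat_lit 281))))) (XT.nd (nat_lit 312) (nat_lit 304) (nat_lit 0) (XT.nd (nat_lit 78) (nat_lit 304) (nat_lit 0) (XT.lf (nat_lit 0) (nat_lit 20353825716) (nat_lit 152) (nat_lit 6961967208) (nat_lit 76) (nat_lit 78239014532) (nat_lit 80) (nat_lit 5) (nat_lit 82) (nat_lit 5) (nat_lit 81) (nat_lit 5) (nat_lit 492) (nat_lit 428) (nat_lit 280)) (XT.nd (nat_lit 78) (nat_lit 152) (nat_lit 0) (XT.lf (nat_lit 0) (nat_lit 71000899099) (nat_lit 228) (nat_lit 8912942022) (nat_lit 76) (nat_lit 29205890406) (nat_lit 78) (nat_lit 5) (nat_lit 81) (nat_lit 5) (nat_lit 79) (nat_lit 4) (nat_lit 493) (nat_lit 428) (nat_lit 279)) (XT.lf (nat_lit 0) (nat_lit 12431642547) (nat_lit 152) (nat_lit 11225299213) (nat_lit 76) (nat_lit 89162644545) (nat_lit 76) (nat_lit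 5) (nat_lit 78) (nat_lit 5) (nat_lit 77) (nat_lit 5) (nat_lit 494) (nat_lit 428) (nat_lit 278)))) (XT.nd (nat_lit 57330) (nat_lit 0) (nat_lit 18088) (XT.nd (nat_lit 57252) (nat_lit 0) (nat_lit 18012) (XT.lf (nat_lit 0) (nat_lit 3219935110) (nat_lit 152) (nat_lit 17715706408) (nat_lit 76) (nat_lit 99695017922) (nat_lit 72) (nat_lit 5) (nat_lit 74) (nat_lit 5) (nat_lit 73) (nat_lit 5) (nat_lit 496) (nat_lit 428) (nat_lit 276)) (XT.lf (nat_lit 0) (nat_lit 1893184980) (nat_lit 1292) (nat_lit 3271845367) (nat_lit 1292) (nat_lit 3271845367) (nat_lit 309) (nat_lit 3) (nat_lit 326) (nat_lit 3) (nat_lit 326) (nat_lit 5) (nat_lit 429) (nat_lit 429) (nat_lit 342))) (XT.nd (nat_lit 78) (nat_lit 0) (nat_lit 0) (XT.lf (nat_lit 0) (nat_lit 4367752742) (nat_lit 1216) (nat_lit 9762555065) (nat_lit 1292) (nat_lit 3150650252) (nat_lit 310) (nat_lit 5) (nat_lit 326) (nat_lit 5) (nat_lit 327) (nat_lit 5) (nat_lit 430)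 (nat_lit 429) (nat_lit 341)) (XT.lf (nat_lit 76) (nat_lit 4686620857) (nat_lit 0) (nat_lit 484382739) (nat_lit 1292) (nat_lit 12531739727) (nat_lit 311) (nat_lit 5) (nat_lit 310) (nat_lit 5) (nat_lit 327) (nat_lit 5) (nat_lit 431) (nat_lit 429) (nat_lit 340)))))) (XT.nd (nat_lit 468) (nat_lit 3420) (nat_lit 0) (XT.nd (nat_lit 234) (nat_lit 0) (nat_lit 228) (XT.nd (nat_lit 78) (nat_lit 0) (nat_lit 76) (XT.lf (nat_lit 76) (nat_lit 1806692606) (nat_lit 0) (nat_lit 4436252837) (nat_lit 1292) (nat_lit 11895818716) (nat_lit 312) (nat_lit 5) (nat_lit 311) (nat_lit 5) (nat_lit 328) (nat_lit 5) (nat_lit 432) (nat_lit 429) (nat_lit 339)) (XT.nd (nat_lit 78) (nat_lit 0) (nat_lit 76) (XT.lf (nat_lit 0) (nat_lit 7582353896) (nat_lit 1216) (nat_lit 1066645172) (nat_lit 1292) (nat_lit 9941172940) (nat_lit 312) (nat_lit 5) (nat_lit 328) (nat_lit 5) (nat_lit 329) (nat_lit 5) (nat_lit 433) (nat_lit 429) (nat_lit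 338)) (XT.lf (nat_lit 0) (nat_lit 9216421753) (nat_lit 1216) (nat_lit 3917071177) (nat_lit 1292) (nat_lit 5923828610) (nat_lit 313) (nat_lit 5) (nat_lit 329) (nat_lit 5) (nat_lit 330) (nat_lit 5) (nat_lit 434) (nat_lit 429) (nat_lit 337)))) (XT.nd (nat_lit 78) (nat_lit 0) (nat_lit 0) (XT.lf (nat_lit 0) (nat_lit 11148936512) (nat_lit 1216) (nat_lit 6777472182) (nat_lit 1292) (nat_lit 1614919417) (nat_lit 314) (nat_lit 5) (nat_lit 330) (nat_lit 5) (nat_lit 331) (nat_lit 5) (nat_lit 435) (nat_lit 429) (nat_lit 336)) (XT.nd (nat_lit 78) (nat_lit 0) (nat_lit 76) (XT.lf (nat_lit 76) (nat_lit 10367367590) (nat_lit 0) (nat_lit 3064215240) (nat_lit 1292) (nat_lit 6610348785) (nat_lit 315) (nat_lit 5) (nat_lit 314) (nat_lit 5) (nat_lit 331) (nat_lit 5) (nat_lit 436) (nat_lit 429) (nat_lit 335)) (XT.lf (nat_lit 76) (nat_lit 7965260941) (nat_lit 0) (nat_lit 8112082593) (nat_lit 1292) (nat_lit 4482753989) (nat_lit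 316) (nat_lit 5) (nat_lit 315) (nat_lit 5) (nat_lit 332) (nat_lit 5) (nat_lit 437) (nat_lit 429) (nat_lit 334))))) (XT.nd (nat_lit 234) (nat_lit 1748) (nat_lit 0) (XT.nd (nat_lit 78) (nat_lit 2052) (nat_lit 0) (XT.lf (nat_lit 76) (nat_lit 5577844170) (nat_lit 0) (nat_lit 13517319719) (nat_lit 1292) (nat_lit 2001816304) (nat_lit 317) (nat_lit 5) (nat_lit 316) (nat_lit 5) (nat_lit 333) (nat_lit 5) (nat_lit 438) (nat_lit 429) (nat_lit 333)) (XT.nd (nat_lit 78) (nat_lit 836) (nat_lit 0) (XT.lf (nat_lit 0) (nat_lit 841078162) (nat_lit 1292) (nat_lit 18451981781) (nat_lit 76) (nat_lit 2359984205) (nat_lit 300) (nat_lit 5) (nat_lit 317) (nat_lit 5) (nat_lit 301) (nat_lit 5) (nat_lit 439) (nat_lit 429) (nat_lit 332)) (XT.lf (nat_lit 0) (nat_lit 791974062) (nat_lit 836) (nat_lit 3281950017) (nat_lit 912) (nat_lit 18153717823) (nat_lit 289) (nat_lit 5) (nat_lit 300) (nat_lit 5) (nat_lit 301) (nat_lit 5)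 (nat_lit 440) (nat_lit 429) (nat_lit 331)))) (XT.nd (nat_lit 156) (nat_lit 1140) (nat_lit 0) (XT.nd (nat_lit 78) (nat_lit 608) (nat_lit 0) (XT.lf (nat_lit 0) (nat_lit 7774400929) (nat_lit 912) (nat_lit 1588276616) (nat_lit 76) (nat_lit 13459113693) (nat_lit 289) (nat_lit 5) (nat_lit 301) (nat_lit 5) (nat_lit 290) (nat_lit 5) (nat_lit 441) (nat_lit 429) (nat_lit 330)) (XT.lf (nat_lit 0) (nat_lit 11940378777) (nat_lit 684) (nat_lit 3927196903) (nat_lit 76) (nat_lit 7569659334) (nat_lit 281) (nat_lit 5) (nat_lit 290) (nat_lit 5) (nat_lit 282) (nat_lit 5) (nat_lit 442) (nat_lit 429) (nat_lit 329))) (XT.nd (nat_lit 78) (nat_lit 532) (nat_lit 0) (XT.lf (nat_lit 0) (nat_lit 16594953007) (nat_lit 684) (nat_lit 6234532997) (nat_lit 76) (nat_lit 1245557276) (nat_lit 273) (nat_lit 5) (nat_lit 282) (nat_lit 5) (nat_lit 274) (nat_lit 5) (nat_lit 443) (nat_lit 429) (nat_lit 328)) (XT.lf (nat_lit 0) (nat_lit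 16176093921) (nat_lit 532) (nat_lit 5648661867) (nat_lit 608) (nat_lit 2909712344) (nat_lit 266) (nat_lit 5) (nat_lit 273) (nat_lit 5) (nat_lit 274) (nat_lit 5) (nat_lit 444) (nat_lit 429) (nat_lit 327))))))) (XT.nd (nat_lit 1014) (nat_lit 4256) (nat_lit 0) (XT.nd (nat_lit 468) (nat_lit 2508) (nat_lit 0) (XT.nd (nat_lit 234) (nat_lit 1444) (nat_lit 0) (XT.nd (nat_lit 78) (nat_lit 1064) (nat_lit 0) (XT.lf (nat_lit 0) (nat_lit 2165859560) (nat_lit 684) (nat_lit 10875902533) (nat_lit 76) (nat_lit 12375152219) (nat_lit 257) (nat_lit 5) (nat_lit 266) (nat_lit 5) (nat_lit 258) (nat_lit 5) (nat_lit 445) (nat_lit 429) (nat_lit 326)) (XT.nd (nat_lit 78) (nat_lit 532) (nat_lit 0) (XT.lf (nat_lit 0) (nat_lit 7744402731) (nat_lit 608) (nat_lit 13180121765) (nat_lit 76) (nat_lit 5198813963) (nat_lit 250) (nat_lit 5) (nat_lit 258) (nat_lit 5) (nat_lit 251) (nat_lit 5) (nat_lit 446) (nat_lit 429) (nat_lit 325))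 (XT.lf (nat_lit 0) (nat_lit 11394482382) (nat_lit 532) (nat_lit 2549035714) (nat_lit 608) (nat_lit 12911317346) (nat_lit 243) (nat_lit 5) (nat_lit 250) (nat_lit 5) (nat_lit 251) (nat_lit 5) (nat_lit 447) (nat_lit 429) (nat_lit 324)))) (XT.nd (nat_lit 78) (nat_lit 988) (nat_lit 0) (XT.lf (nat_lit 0) (nat_lit 9870797387) (nat_lit 456) (nat_lit 10962531770) (nat_lit 532) (nat_lit 6778156852) (nat_lit 237) (nat_lit 5) (nat_lit 243) (nat_lit 5) (nat_lit 244) (nat_lit 5) (nat_lit 448) (nat_lit 429) (nat_lit 323)) (XT.nd (nat_lit 78) (nat_lit 456) (nat_lit 0) (XT.lf (nat_lit 0) (nat_lit 7417838) (nat_lit 532) (nat_lit 19962165241) (nat_lit 76) (nat_lit 8426309839) (nat_lit 230) (nat_lit 5) (nat_lit 237) (nat_lit 5) (nat_lit 231) (nat_lit 5) (nat_lit 449) (nat_lit 429) (nat_lit 322)) (XT.lf (nat_lit 0) (nat_lit 7015908366) (nat_lit 456) (nat_lit 328619805) (nat_lit 532) (nat_lit 21862406322) (nat_lit 224)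 (nat_lit 5) (nat_lit 230) (nat_lit 5) (nat_lit 231) (nat_lit 5) (nat_lit 450) (nat_lit 429) (nat_lit 321))))) (XT.nd (nat_lit 234) (nat_lit 1140) (nat_lit 0) (XT.nd (nat_lit 78) (nat_lit 912) (nat_lit 0) (XT.lf (nat_lit 0) (nat_lit 5606361322) (nat_lit 456) (nat_lit 9887641073) (nat_lit 532) (nat_lit 14551161283) (nat_lit 218) (nat_lit 5) (nat_lit 224) (nat_lit 5) (nat_lit 225) (nat_lit 5) (nat_lit 451) (nat_lit 429) (nat_lit 320)) (XT.nd (nat_lit 78) (nat_lit 532) (nat_lit 0) (XT.lf (nat_lit 0) (nat_lit 4300567611) (nat_lit 380) (nat_lit 20118285007) (nat_lit 456) (nat_lit 6495415380) (nat_lit 213) (nat_lit 5) (nat_lit 218) (nat_lit 5) (nat_lit 219) (nat_lit 5) (nat_lit 452) (nat_lit 429) (nat_lit 319)) (XT.lf (nat_lit 0) (nat_lit 2305728246) (nat_lit 532) (nat_lit 28728491333) (nat_lit 76) (nat_lit 780614987) (nat_lit 206) (nat_lit 5) (nat_lit 213) (nat_lit 5) (nat_lit 207) (nat_lit 5) (nat_lit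 453) (nat_lit 429) (nat_lit 318)))) (XT.nd (nat_lit 156) (nat_lit 380) (nat_lit 0) (XT.nd (nat_lit 78) (nat_lit 380) (nat_lit 0) (XT.lf (nat_lit 0) (nat_lit 1826427426) (nat_lit 380) (nat_lit 10074703655) (nat_lit 456) (nat_lit 20842713590) (nat_lit 201) (nat_lit 5) (nat_lit 206) (nat_lit 5) (nat_lit 207) (nat_lit 5) (nat_lit 454) (nat_lit 429) (nat_lit 317)) (XT.lf (nat_lit 0) (nat_lit 681577286) (nat_lit 380) (nat_lit 21704964685) (nat_lit 456) (nat_lit 11320456798) (nat_lit 196) (nat_lit 5) (nat_lit 201) (nat_lit 5) (nat_lit 202) (nat_lit 5) (nat_lit 455) (nat_lit 429) (nat_lit 316))) (XT.nd (nat_lit 78) (nat_lit 380) (nat_lit 0) (XT.lf (nat_lit 0) (nat_lit 33811454694) (nat_lit 456) (nat_lit 321459420) (nat_lit 76) (nat_lit 572940115) (nat_lit 196) (nat_lit 5) (nat_lit 202) (nat_lit 5) (nat_lit 197) (nat_lit 5) (nat_lit 456) (nat_lit 429) (nat_lit 315)) (XT.lf (nat_lit 0) (nat_lit 10403533545)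 (nat_lit 380) (nat_lit 1381711711) (nat_lit 76) (nat_lit 23950106428) (nat_lit 191) (nat_lit 5) (nat_lit 196) (nat_lit 5) (nat_lit 192) (nat_lit 5) (nat_lit 457) (nat_lit 429) (nat_lit 314)))))) (XT.nd (nat_lit 546) (nat_lit 1900) (nat_lit 0) (XT.nd (nat_lit 234) (nat_lit 1292) (nat_lit 0) (XT.nd (nat_lit 78) (nat_lit 684) (nat_lit 0) (XT.lf (nat_lit 0) (nat_lit 22690995548) (nat_lit 456) (nat_lit 2314820602) (nat_lit 76) (nat_lit 11796948827) (nat_lit 186) (nat_lit 5) (nat_lit 192) (nat_lit 5) (nat_lit 187) (nat_lit 5) (nat_lit 458) (nat_lit 429) (nat_lit 313)) (XT.nd (nat_lit 78) (nat_lit 380) (nat_lit 0) (XT.lf (nat_lit 0) (nat_lit 34804874791) (nat_lit 304) (nat_lit 1247400669) (nat_lit 380) (nat_lit 1857490630) (nat_lit 182) (nat_lit 5) (nat_lit 186) (nat_lit 5) (nat_lit 187) (nat_lit 5) (nat_lit 459) (nat_lit 429) (nat_lit 312)) (XT.lf (nat_lit 0) (nat_lit 11382529923) (nat_lit 380) (nat_lit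 3961701828) (nat_lit 76) (nat_lit 23707075182) (nat_lit 177) (nat_lit 5) (nat_lit 182) (nat_lit 5) (nat_lit 178) (nat_lit 5) (nat_lit 460) (nat_lit 429) (nat_lit 311)))) (XT.nd (nat_lit 156) (nat_lit 684) (nat_lit 0) (XT.nd (nat_lit 78) (nat_lit 304) (nat_lit 0) (XT.lf (nat_lit 0) (nat_lit 25722660672) (nat_lit 380) (nat_lit 4672177209) (nat_lit 76) (nat_lit 9840239899) (nat_lit 173) (nat_lit 5) (nat_lit 178) (nat_lit 5) (nat_lit 174) (nat_lit 5) (nat_lit 461) (nat_lit 429) (nat_lit 310)) (XT.lf (nat_lit 0) (nat_lit 36209426127) (nat_lit 304) (nat_lit 5106751829) (nat_lit 380) (nat_lit 145768233) (nat_lit 169) (nat_lit 5) (nat_lit 173) (nat_lit 5) (nat_lit 174) (nat_lit 5) (nat_lit 462) (nat_lit 429) (nat_lit 309))) (XT.nd (nat_lit 78) (nat_lit 304) (nat_lit 0) (XT.lf (nat_lit 0) (nat_lit 15256411378) (nat_lit 380) (nat_lit 5893918784) (nat_lit 76) (nat_lit 21577258612) (nat_lit 164) (nat_lit 5)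 (nat_lit 169) (nat_lit 5) (nat_lit 165) (nat_lit 5) (nat_lit 463) (nat_lit 429) (nat_lit 308)) (XT.lf (nat_lit 0) (nat_lit 31943767804) (nat_lit 380) (nat_lit 6348092636) (nat_lit 76) (nat_lit 5749067645) (nat_lit 160) (nat_lit 5) (nat_lit 165) (nat_lit 5) (nat_lit 161) (nat_lit 5) (nat_lit 464) (nat_lit 429) (nat_lit 307))))) (XT.nd (nat_lit 234) (nat_lit 1064) (nat_lit 0) (XT.nd (nat_lit 78) (nat_lit 532) (nat_lit 0) (XT.lf (nat_lit 0) (nat_lit 4612509071) (nat_lit 304) (nat_lit 6752119401) (nat_lit 76) (nat_lit 34034762734) (nat_lit 156) (nat_lit 5) (nat_lit 160) (nat_lit 5) (nat_lit 157) (nat_lit 5) (nat_lit 465) (nat_lit 429) (nat_lit 306)) (XT.nd (nat_lit 78) (nat_lit 228) (nat_lit 0) (XT.lf (nat_lit 0) (nat_lit 22519998371) (nat_lit 380) (nat_lit 7131921266) (nat_lit 76) (nat_lit 17151889227) (nat_lit 152) (nat_lit 5) (nat_lit 157) (nat_lit 5) (nat_lit 153) (nat_lit 5) (nat_lit 466) (nat_lit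 429) (nat_lit 305)) (XT.lf (nat_lit 0) (nat_lit 40954832061) (nat_lit 228) (nat_lit 939839110) (nat_lit 304) (nat_lit 6366622271) (nat_lit 149) (nat_lit 5) (nat_lit 152) (nat_lit 5) (nat_lit 153) (nat_lit 5) (nat_lit 467) (nat_lit 429) (nat_lit 304)))) (XT.nd (nat_lit 156) (nat_lit 532) (nat_lit 0) (XT.nd (nat_lit 78) (nat_lit 228) (nat_lit 0) (XT.lf (nat_lit 0) (nat_lit 12966339358) (nat_lit 304) (nat_lit 7556529918) (nat_lit 76) (nat_lit 29242310322) (nat_lit 145) (nat_lit 5) (nat_lit 149) (nat_lit 5) (nat_lit 146) (nat_lit 5) (nat_lit 468) (nat_lit 429) (nat_lit 303)) (XT.lf (nat_lit 0) (nat_lit 33732854234) (nat_lit 304) (nat_lit 7645303445) (nat_lit 76) (nat_lit 9946254278) (nat_lit 142) (nat_lit 5) (nat_lit 146) (nat_lit 5) (nat_lit 143) (nat_lit 5) (nat_lit 469) (nat_lit 429) (nat_lit 302))) (XT.nd (nat_lit 78) (nat_lit 228) (nat_lit 0) (XT.lf (nat_lit 0) (nat_lit 3248186223) (nat_lit 304)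 (nat_lit 7630264655) (nat_lit 76) (nat_lit 42060741439) (nat_lit 138) (nat_lit 5) (nat_lit 142) (nat_lit 5) (nat_lit 139) (nat_lit 5) (nat_lit 470) (nat_lit 429) (nat_lit 301)) (XT.lf (nat_lit 0) (nat_lit 25506529425) (nat_lit 304) (nat_lit 7653569716) (nat_lit 76) (nat_lit 21447174605) (nat_lit 135) (nat_lit 5) (nat_lit 139) (nat_lit 5) (nat_lit 136) (nat_lit 5) (nat_lit 471) (nat_lit 429) (nat_lit 300))))))))
noncomputable def xc94 : XT := (XT.nd (nat_lit 59358) (nat_lit 0) (nat_lit 8892) (XT.nd (nat_lit 1014) (nat_lit 1900) (nat_lit 0) (XT.nd (nat_lit 468) (nat_lit 1444) (nat_lit 0) (XT.nd (nat_lit 234) (nat_lit 608) (nat_lit 0) (XT.nd (nat_lit 78) (nat_lit 456) (nat_lit 0) (XT.lf (nat_lit 0) (nat_lit 48903645536) (nat_lit 228) (nat_lit 627392469) (nat_lit 304) (nat_lit 6808124021) (nat_lit 132) (nat_lit 5) (nat_lit 135) (nat_lit 5) (nat_lit 136) (nat_lit 5) (nat_lit 472) (nat_lit 429) (nat_lit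 299)) (XT.nd (nat_lit 78) (nat_lit 228) (nat_lit 0) (XT.lf (nat_lit 0) (nat_lit 17169880465) (nat_lit 228) (nat_lit 7344654154) (nat_lit 76) (nat_lit 33611483626) (nat_lit 129) (nat_lit 5) (nat_lit 132) (nat_lit 5) (nat_lit 130) (nat_lit 5) (nat_lit 473) (nat_lit 429) (nat_lit 298)) (XT.lf (nat_lit 0) (nat_lit 42893066833) (nat_lit 304) (nat_lit 7067194617) (nat_lit 76) (nat_lit 10019321288) (nat_lit 126) (nat_lit 5) (nat_lit 130) (nat_lit 5) (nat_lit 127) (nat_lit 5) (nat_lit 474) (nat_lit 429) (nat_lit 297)))) (XT.nd (nat_lit 78) (nat_lit 380) (nat_lit 0) (XT.lf (nat_lit 0) (nat_lit 8678514193) (nat_lit 228) (nat_lit 6753140521) (nat_lit 76) (nat_lit 46466143281) (nat_lit 123) (nat_lit 5) (nat_lit 126) (nat_lit 5) (nat_lit 124) (nat_lit 5) (nat_lit 475) (nat_lit 429) (nat_lit 296)) (XT.nd (nat_lit 78) (nat_lit 152) (nat_lit 0) (XT.lf (nat_lit 0) (nat_lit 36211949613) (nat_lit 304) (nat_lit 6448710993)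 (nat_lit 76) (nat_lit 21221182508) (nat_lit 120) (nat_lit 5) (nat_lit 124) (nat_lit 5) (nat_lit 121) (nat_lit 5) (nat_lit 476) (nat_lit 429) (nat_lit 295)) (XT.lf (nat_lit 0) (nat_lit 60012242683) (nat_lit 152) (nat_lit 5907364091) (nat_lit 228) (nat_lit 21557383) (nat_lit 118) (nat_lit 5) (nat_lit 120) (nat_lit 5) (nat_lit 121) (nat_lit 5) (nat_lit 477) (nat_lit 429) (nat_lit 294))))) (XT.nd (nat_lit 234) (nat_lit 760) (nat_lit 0) (XT.nd (nat_lit 78) (nat_lit 380) (nat_lit 0) (XT.lf (nat_lit 0) (nat_lit 29431870819) (nat_lit 304) (nat_lit 5632889022) (nat_lit 76) (nat_lit 33000663470) (nat_lit 114) (nat_lit 5) (nat_lit 118) (nat_lit 5) (nat_lit 115) (nat_lit 5) (nat_lit 478) (nat_lit 429) (nat_lit 293)) (XT.nd (nat_lit 78) (nat_lit 228) (nat_lit 0) (XT.lf (nat_lit 0) (nat_lit 61140769461) (nat_lit 228) (nat_lit 5067698197) (nat_lit 76) (nat_lit 4063924163) (nat_lit 112) (nat_lit 5) (nat_lit 115)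 (nat_lit 5) (nat_lit 113) (nat_lit 5) (nat_lit 479) (nat_lit 429) (nat_lit 292)) (XT.lf (nat_lit 0) (nat_lit 22491606988) (nat_lit 228) (nat_lit 4699233755) (nat_lit 76) (nat_lit 45360393852) (nat_lit 109) (nat_lit 5) (nat_lit 112) (nat_lit 5) (nat_lit 110) (nat_lit 5) (nat_lit 480) (nat_lit 429) (nat_lit 291)))) (XT.nd (nat_lit 156) (nat_lit 380) (nat_lit 0) (XT.nd (nat_lit 78) (nat_lit 228) (nat_lit 0) (XT.lf (nat_lit 0) (nat_lit 56378519089) (nat_lit 228) (nat_lit 4197331411) (nat_lit 76) (nat_lit 14339315458) (nat_lit 107) (nat_lit 5) (nat_lit 110) (nat_lit 5) (nat_lit 108) (nat_lit 5) (nat_lit 481) (nat_lit 429) (nat_lit 290)) (XT.lf (nat_lit 0) (nat_lit 15316149285) (nat_lit 228) (nat_lit 3752483698) (nat_lit 76) (nat_lit 58293326536) (nat_lit 104) (nat_lit 5) (nat_lit 107) (nat_lit 5) (nat_lit 105) (nat_lit 5) (nat_lit 482) (nat_lit 429) (nat_lit 289))) (XT.nd (nat_lit 78) (nat_lit 228)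 (nat_lit 0) (XT.lf (nat_lit 0) (nat_lit 51503939775) (nat_lit 228) (nat_lit 3380663967) (nat_lit 76) (nat_lit 25010211573) (nat_lit 102) (nat_lit 5) (nat_lit 105) (nat_lit 5) (nat_lit 103) (nat_lit 5) (nat_lit 483) (nat_lit 429) (nat_lit 288)) (XT.lf (nat_lit 0) (nat_lit 7813922238) (nat_lit 228) (nat_lit 2928061837) (nat_lit 76) (nat_lit 71780246416) (nat_lit 99) (nat_lit 5) (nat_lit 102) (nat_lit 5) (nat_lit 100) (nat_lit 5) (nat_lit 484) (nat_lit 429) (nat_lit 287)))))) (XT.nd (nat_lit 468) (nat_lit 912) (nat_lit 0) (XT.nd (nat_lit 234) (nat_lit 456) (nat_lit 0) (XT.nd (nat_lit 78) (nat_lit 380) (nat_lit 0) (XT.lf (nat_lit 0) (nat_lit 46427521381) (nat_lit 228) (nat_lit 2771125388) (nat_lit 76) (nat_lit 36038364976) (nat_lit 97) (nat_lit 5) (nat_lit 100) (nat_lit 5) (nat_lit 98) (nat_lit 5) (nat_lit 485) (nat_lit 429) (nat_lit 286)) (XT.nd (nat_lit 78) (nat_lit 228) (nat_lit 0) (XT.lf (nat_lit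 0) (nat_lit 85659002926) (nat_lit 152) (nat_lit 2270763499) (nat_lit 228) (nat_lit 129026754) (nat_lit 95) (nat_lit 5) (nat_lit 97) (nat_lit 5) (nat_lit 98) (nat_lit 5) (nat_lit 486) (nat_lit 429) (nat_lit 285)) (XT.lf (nat_lit 0) (nat_lit 41038846659) (nat_lit 228) (nat_lit 2563000301) (nat_lit 76) (nat_lit 47367839571) (nat_lit 92) (nat_lit 5) (nat_lit 95) (nat_lit 5) (nat_lit 93) (nat_lit 5) (nat_lit 487) (nat_lit 429) (nat_lit 284)))) (XT.nd (nat_lit 78) (nat_lit 304) (nat_lit 0) (XT.lf (nat_lit 0) (nat_lit 85247088572) (nat_lit 228) (nat_lit 2527081016) (nat_lit 76) (nat_lit 6222377423) (nat_lit 90) (nat_lit 5) (nat_lit 93) (nat_lit 5) (nat_lit 91) (nat_lit 4) (nat_lit 488) (nat_lit 429) (nat_lit 283)) (XT.nd (nat_lit 78) (nat_lit 152) (nat_lit 0) (XT.lf (nat_lit 0) (nat_lit 35202415255) (nat_lit 152) (nat_lit 2999789709) (nat_lit 76) (nat_lit 58921065175) (nat_lit 88) (nat_lit 5) (nat_lit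 90) (nat_lit 5) (nat_lit 89) (nat_lit 5) (nat_lit 489) (nat_lit 429) (nat_lit 282)) (XT.lf (nat_lit 0) (nat_lit 82271320503) (nat_lit 228) (nat_lit 3466733081) (nat_lit 76) (nat_lit 14632665363) (nat_lit 86) (nat_lit 5) (nat_lit 89) (nat_lit 5) (nat_lit 87) (nat_lit 4) (nat_lit 490) (nat_lit 429) (nat_lit 281))))) (XT.nd (nat_lit 234) (nat_lit 456) (nat_lit 0) (XT.nd (nat_lit 78) (nat_lit 304) (nat_lit 0) (XT.lf (nat_lit 0) (nat_lit 28752705357) (nat_lit 152) (nat_lit 4384110920) (nat_lit 76) (nat_lit 70594146636) (nat_lit 84) (nat_lit 5) (nat_lit 86) (nat_lit 5) (nat_lit 85) (nat_lit 5) (nat_lit 491) (nat_lit 429) (nat_lit 280)) (XT.nd (nat_lit 78) (nat_lit 152) (nat_lit 0) (XT.lf (nat_lit 0) (nat_lit 78812714247) (nat_lit 228) (nat_lit 5533597700) (nat_lit 76) (nat_lit 22870342442) (nat_lit 82) (nat_lit 5) (nat_lit 85) (nat_lit 5) (nat_lit 83) (nat_lit 4) (nat_lit 492) (nat_lit 429) (nat_lit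 279)) (XT.lf (nat_lit 0) (nat_lit 21488339278) (nat_lit 152) (nat_lit 7089407060) (nat_lit 76) (nat_lit 82251294948) (nat_lit 80) (nat_lit 5) (nat_lit 82) (nat_lit 5) (nat_lit 81) (nat_lit 5) (nat_lit 493) (nat_lit 429) (nat_lit 278)))) (XT.nd (nat_lit 57486) (nat_lit 0) (nat_lit 17860) (XT.nd (nat_lit 156) (nat_lit 304) (nat_lit 0) (XT.lf (nat_lit 0) (nat_lit 74665234674) (nat_lit 228) (nat_lit 9141825377) (nat_lit 76) (nat_lit 30765227548) (nat_lit 78) (nat_lit 5) (nat_lit 81) (nat_lit 5) (nat_lit 79) (nat_lit 4) (nat_lit 494) (nat_lit 429) (nat_lit 277)) (XT.lf (nat_lit 0) (nat_lit 69577324048) (nat_lit 228) (nat_lit 14798075192) (nat_lit 76) (nat_lit 38103766977) (nat_lit 74) (nat_lit 5) (nat_lit 77) (nat_lit 5) (nat_lit 75) (nat_lit 4) (nat_lit 496) (nat_lit 429) (nat_lit 275))) (XT.nd (nat_lit 78) (nat_lit 0) (nat_lit 76) (XT.lf (nat_lit 0) (nat_lit 2365117992) (nat_lit 1292) (nat_lit 3241124199)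 (nat_lit 1292) (nat_lit 3241124199) (nat_lit 309) (nat_lit 3) (nat_lit 326) (nat_lit 3) (nat_lit 326) (nat_lit 5) (nat_lit 430) (nat_lit 430) (nat_lit 340)) (XT.lf (nat_lit 0) (nat_lit 5305071679) (nat_lit 1216) (nat_lit 9848148004) (nat_lit 1292) (nat_lit 2970151874) (nat_lit 310) (nat_lit 5) (nat_lit 326) (nat_lit 5) (nat_lit 327) (nat_lit 5) (nat_lit 431) (nat_lit 430) (nat_lit 339))))))) (XT.nd (nat_lit 1014) (nat_lit 6232) (nat_lit 0) (XT.nd (nat_lit 468) (nat_lit 2812) (nat_lit 0) (XT.nd (nat_lit 234) (nat_lit 0) (nat_lit 228) (XT.nd (nat_lit 78) (nat_lit 0) (nat_lit 76) (XT.lf (nat_lit 76) (nat_lit 5311948135) (nat_lit 0) (nat_lit 806060613) (nat_lit 1292) (nat_lit 12449154792) (nat_lit 311) (nat_lit 5) (nat_lit 310) (nat_lit 5) (nat_lit 327) (nat_lit 5) (nat_lit 432) (nat_lit 430) (nat_lit 338)) (XT.nd (nat_lit 78) (nat_lit 0) (nat_lit 76) (XT.lf (nat_lit 76) (nat_lit 2299716138) (nat_lit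 0) (nat_lit 4912195674) (nat_lit 1292) (nat_lit 11814025694) (nat_lit 312) (nat_lit 5) (nat_lit 311) (nat_lit 5) (nat_lit 328) (nat_lit 5) (nat_lit 433) (nat_lit 430) (nat_lit 337)) (XT.lf (nat_lit 0) (nat_lit 8584687060) (nat_lit 1216) (nat_lit 715313987) (nat_lit 1292) (nat_lit 10200925682) (nat_lit 312) (nat_lit 5) (nat_lit 328) (nat_lit 5) (nat_lit 329) (nat_lit 5) (nat_lit 434) (nat_lit 430) (nat_lit 336)))) (XT.nd (nat_lit 78) (nat_lit 0) (nat_lit 76) (XT.lf (nat_lit 0) (nat_lit 10272596348) (nat_lit 1216) (nat_lit 3699923294) (nat_lit 1292) (nat_lit 6019752689) (nat_lit 313) (nat_lit 5) (nat_lit 329) (nat_lit 5) (nat_lit 330) (nat_lit 5) (nat_lit 435) (nat_lit 430) (nat_lit 335)) (XT.nd (nat_lit 78) (nat_lit 0) (nat_lit 0) (XT.lf (nat_lit 0) (nat_lit 12275611671) (nat_lit 1216) (nat_lit 6696373859) (nat_lit 1292) (nat_lit 1529280059) (nat_lit 314) (nat_lit 5) (nat_lit 330) (nat_lit 5) (nat_lit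 331) (nat_lit 5) (nat_lit 436) (nat_lit 430) (nat_lit 334)) (XT.lf (nat_lit 76) (nat_lit 11293669490) (nat_lit 0) (nat_lit 3355536010) (nat_lit 1292) (nat_lit 6378391791) (nat_lit 315) (nat_lit 5) (nat_lit 314) (nat_lit 5) (nat_lit 331) (nat_lit 5) (nat_lit 437) (nat_lit 430) (nat_lit 333))))) (XT.nd (nat_lit 234) (nat_lit 2052) (nat_lit 0) (XT.nd (nat_lit 78) (nat_lit 1140) (nat_lit 0) (XT.lf (nat_lit 76) (nat_lit 8777013635) (nat_lit 0) (nat_lit 8626948869) (nat_lit 1292) (nat_lit 4168410106) (nat_lit 316) (nat_lit 5) (nat_lit 315) (nat_lit 5) (nat_lit 332) (nat_lit 5) (nat_lit 438) (nat_lit 430) (nat_lit 332)) (XT.nd (nat_lit 78) (nat_lit 1216) (nat_lit 0) (XT.lf (nat_lit 76) (nat_lit 6274672514) (nat_lit 0) (nat_lit 14276125596) (nat_lit 1292) (nat_lit 1585959824) (nat_lit 317) (nat_lit 5) (nat_lit 316) (nat_lit 5) (nat_lit 333) (nat_lit 5) (nat_lit 439) (nat_lit 430) (nat_lit 331)) (XT.lf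 (nat_lit 0) (nat_lit 1368245630) (nat_lit 1292) (nat_lit 18943514814) (nat_lit 76) (nat_lit 2409340908) (nat_lit 300) (nat_lit 5) (nat_lit 317) (nat_lit 5) (nat_lit 301) (nat_lit 5) (nat_lit 440) (nat_lit 430) (nat_lit 330)))) (XT.nd (nat_lit 156) (nat_lit 1216) (nat_lit 0) (XT.nd (nat_lit 78) (nat_lit 0) (nat_lit 0) (XT.lf (nat_lit 0) (nat_lit 1250282400) (nat_lit 836) (nat_lit 3493375691) (nat_lit 912) (nat_lit 18581345156) (nat_lit 289) (nat_lit 5) (nat_lit 300) (nat_lit 5) (nat_lit 301) (nat_lit 5) (nat_lit 441) (nat_lit 430) (nat_lit 329)) (XT.lf (nat_lit 0) (nat_lit 8606533223) (nat_lit 912) (nat_lit 1255132988) (nat_lit 76) (nat_lit 14087874492) (nat_lit 289) (nat_lit 5) (nat_lit 301) (nat_lit 5) (nat_lit 290) (nat_lit 5) (nat_lit 442) (nat_lit 430) (nat_lit 328))) (XT.nd (nat_lit 78) (nat_lit 608) (nat_lit 0) (XT.lf (nat_lit 0) (nat_lit 12963302839) (nat_lit 684) (nat_lit 3709760418) (nat_lit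 76) (nat_lit 7923220421) (nat_lit 281) (nat_lit 5) (nat_lit 290) (nat_lit 5) (nat_lit 282) (nat_lit 5) (nat_lit 443) (nat_lit 430) (nat_lit 327)) (XT.lf (nat_lit 0) (nat_lit 17834115629) (nat_lit 684) (nat_lit 6131933255) (nat_lit 76) (nat_lit 1300429889) (nat_lit 273) (nat_lit 5) (nat_lit 282) (nat_lit 5) (nat_lit 274) (nat_lit 5) (nat_lit 444) (nat_lit 430) (nat_lit 326)))))) (XT.nd (nat_lit 546) (nat_lit 2508) (nat_lit 0) (XT.nd (nat_lit 234) (nat_lit 1976) (nat_lit 0) (XT.nd (nat_lit 78) (nat_lit 1216) (nat_lit 0) (XT.lf (nat_lit 0) (nat_lit 17387348426) (nat_lit 532) (nat_lit 5922432766) (nat_lit 608) (nat_lit 2649564127) (nat_lit 266) (nat_lit 5) (nat_lit 273) (nat_lit 5) (nat_lit 274) (nat_lit 5) (nat_lit 445) (nat_lit 430) (nat_lit 325)) (XT.nd (nat_lit 78) (nat_lit 532) (nat_lit 0) (XT.lf (nat_lit 0) (nat_lit 2656917934) (nat_lit 684) (nat_lit 11009710304) (nat_lit 76) (nat_lit 13009618692)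 (nat_lit 257) (nat_lit 5) (nat_lit 266) (nat_lit 5) (nat_lit 258) (nat_lit 5) (nat_lit 446) (nat_lit 430) (nat_lit 324)) (XT.lf (nat_lit 0) (nat_lit 8500276535) (nat_lit 608) (nat_lit 13430100120) (nat_lit 76) (nat_lit 5488040416) (nat_lit 250) (nat_lit 5) (nat_lit 258) (nat_lit 5) (nat_lit 251) (nat_lit 5) (nat_lit 447) (nat_lit 430) (nat_lit 323)))) (XT.nd (nat_lit 156) (nat_lit 988) (nat_lit 0) (XT.nd (nat_lit 78) (nat_lit 456) (nat_lit 0) (XT.lf (nat_lit 0) (nat_lit 12361509536) (nat_lit 532) (nat_lit 2634102315) (nat_lit 608) (nat_lit 13191290494) (nat_lit 243) (nat_lit 5) (nat_lit 250) (nat_lit 5) (nat_lit 251) (nat_lit 5) (nat_lit 448) (nat_lit 430) (nat_lit 322)) (XT.lf (nat_lit 0) (nat_lit 10760224803) (nat_lit 456) (nat_lit 11456981356) (nat_lit 532) (nat_lit 6764561802) (nat_lit 237) (nat_lit 5) (nat_lit 243) (nat_lit 5) (nat_lit 244) (nat_lit 5) (nat_lit 449) (nat_lit 430) (nat_lit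 321))) (XT.nd (nat_lit 78) (nat_lit 456) (nat_lit 0) (XT.lf (nat_lit 0) (nat_lit 341276207) (nat_lit 532) (nat_lit 20559576733) (nat_lit 76) (nat_lit 8904805928) (nat_lit 230) (nat_lit 5) (nat_lit 237) (nat_lit 5) (nat_lit 231) (nat_lit 5) (nat_lit 450) (nat_lit 430) (nat_lit 320)) (XT.lf (nat_lit 0) (nat_lit 7755914662) (nat_lit 456) (nat_lit 277188372) (nat_lit 532) (nat_lit 22624514805) (nat_lit 224) (nat_lit 5) (nat_lit 230) (nat_lit 5) (nat_lit 231) (nat_lit 5) (nat_lit 451) (nat_lit 430) (nat_lit 319))))) (XT.nd (nat_lit 234) (nat_lit 1140) (nat_lit 0) (XT.nd (nat_lit 78) (nat_lit 912) (nat_lit 0) (XT.lf (nat_lit 0) (nat_lit 6273486357) (nat_lit 456) (nat_lit 10305601801) (nat_lit 532) (nat_lit 14959000301) (nat_lit 218) (nat_lit 5) (nat_lit 224) (nat_lit 5) (nat_lit 225) (nat_lit 5) (nat_lit 452) (nat_lit 430) (nat_lit 318)) (XT.nd (nat_lit 78) (nat_lit 532) (nat_lit 0) (XT.lf (nat_lit 0)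 (nat_lit 4899667528) (nat_lit 380) (nat_lit 21040124654) (nat_lit 456) (nat_lit 6511168515) (nat_lit 213) (nat_lit 5) (nat_lit 218) (nat_lit 5) (nat_lit 219) (nat_lit 5) (nat_lit 453) (nat_lit 430) (nat_lit 317)) (XT.lf (nat_lit 0) (nat_lit 2714050625) (nat_lit 532) (nat_lit 29778025365) (nat_lit 76) (nat_lit 904689998) (nat_lit 206) (nat_lit 5) (nat_lit 213) (nat_lit 5) (nat_lit 207) (nat_lit 5) (nat_lit 454) (nat_lit 430) (nat_lit 316)))) (XT.nd (nat_lit 156) (nat_lit 380) (nat_lit 0) (XT.nd (nat_lit 78) (nat_lit 380) (nat_lit 0) (XT.lf (nat_lit 0) (nat_lit 2293549192) (nat_lit 380) (nat_lit 10485332740) (nat_lit 456) (nat_lit 21593655833) (nat_lit 201) (nat_lit 5) (nat_lit 206) (nat_lit 5) (nat_lit 207) (nat_lit 5) (nat_lit 455) (nat_lit 430) (nat_lit 315)) (XT.lf (nat_lit 0) (nat_lit 1088070478) (nat_lit 380) (nat_lit 22691463505) (nat_lit 456) (nat_lit 11604587339) (nat_lit 196) (nat_lit 5)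 (nat_lit 201) (nat_lit 5) (nat_lit 202) (nat_lit 5) (nat_lit 456) (nat_lit 430) (nat_lit 314))) (XT.nd (nat_lit 78) (nat_lit 76) (nat_lit 0) (XT.lf (nat_lit 0) (nat_lit 24558717) (nat_lit 304) (nat_lit 35739242073) (nat_lit 380) (nat_lit 669476342) (nat_lit 192) (nat_lit 5) (nat_lit 196) (nat_lit 5) (nat_lit 197) (nat_lit 5) (nat_lit 457) (nat_lit 430) (nat_lit 313)) (XT.lf (nat_lit 0) (nat_lit 11178684856) (nat_lit 380) (nat_lit 1094461097) (nat_lit 76) (nat_lit 25241308719) (nat_lit 191) (nat_lit 5) (nat_lit 196) (nat_lit 5) (nat_lit 192) (nat_lit 5) (nat_lit 458) (nat_lit 430) (nat_lit 312))))))))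
noncomputable def xc95 : XT := (XT.nd (nat_lit 2028) (nat_lit 1976) (nat_lit 0) (XT.nd (nat_lit 1014) (nat_lit 2736) (nat_lit 0) (XT.nd (nat_lit 468) (nat_lit 1976) (nat_lit 0) (XT.nd (nat_lit 234) (nat_lit 988) (nat_lit 0) (XT.nd (nat_lit 78) (nat_lit 684) (nat_lit 0) (XT.lf (nat_lit 0) (nat_lit 24072666340) (nat_lit 456) (nat_lit 2078001202) (nat_lit 76) (nat_lit 12484807428) (nat_lit 186) (nat_lit 5) (nat_lit 192) (nat_lit 5) (nat_lit 187) (nat_lit 5) (nat_lit 459) (nat_lit 430) (nat_lit 311)) (XT.nd (nat_lit 78) (nat_lit 380) (nat_lit 0) (XT.lf (nat_lit 0) (nat_lit 36887572886) (nat_lit 304) (nat_lit 1205961574) (nat_lit 380) (nat_lit 1704546648) (nat_lit 182) (nat_lit 5) (nat_lit 186) (nat_lit 5) (nat_lit 187) (nat_lit 5) (nat_lit 460) (nat_lit 430) (nat_lit 310)) (XT.lf (nat_lit 0) (nat_lit 12185448081) (nat_lit 380) (nat_lit 3816484765) (nat_lit 76) (nat_lit 24994912805) (nat_lit 177) (nat_lit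 5) (nat_lit 182) (nat_lit 5) (nat_lit 178) (nat_lit 5) (nat_lit 461) (nat_lit 430) (nat_lit 309)))) (XT.nd (nat_lit 78) (nat_lit 684) (nat_lit 0) (XT.lf (nat_lit 0) (nat_lit 27235692158) (nat_lit 380) (nat_lit 4566570703) (nat_lit 76) (nat_lit 10437749589) (nat_lit 173) (nat_lit 5) (nat_lit 178) (nat_lit 5) (nat_lit 174) (nat_lit 5) (nat_lit 462) (nat_lit 430) (nat_lit 308)) (XT.nd (nat_lit 78) (nat_lit 304) (nat_lit 0) (XT.lf (nat_lit 0) (nat_lit 71373438) (nat_lit 380) (nat_lit 5179764465) (nat_lit 76) (nat_lit 38277295090) (nat_lit 168) (nat_lit 5) (nat_lit 173) (nat_lit 5) (nat_lit 169) (nat_lit 5) (nat_lit 463) (nat_lit 430) (nat_lit 307)) (XT.lf (nat_lit 0) (nat_lit 16234308653) (nat_lit 380) (nat_lit 5858905070) (nat_lit 76) (nat_lit 22764291387) (nat_lit 164) (nat_lit 5) (nat_lit 169) (nat_lit 5) (nat_lit 165) (nat_lit 5) (nat_lit 464) (nat_lit 430) (nat_lit 306))))) (XT.nd (nat_lit 234)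 (nat_lit 1064) (nat_lit 0) (XT.nd (nat_lit 78) (nat_lit 608) (nat_lit 0) (XT.lf (nat_lit 0) (nat_lit 33749949603) (nat_lit 380) (nat_lit 6340070914) (nat_lit 76) (nat_lit 6146673882) (nat_lit 160) (nat_lit 5) (nat_lit 165) (nat_lit 5) (nat_lit 161) (nat_lit 5) (nat_lit 465) (nat_lit 430) (nat_lit 305)) (XT.nd (nat_lit 78) (nat_lit 304) (nat_lit 0) (XT.lf (nat_lit 0) (nat_lit 5047224792) (nat_lit 304) (nat_lit 6769555989) (nat_lit 76) (nat_lit 35846447765) (nat_lit 156) (nat_lit 5) (nat_lit 160) (nat_lit 5) (nat_lit 157) (nat_lit 5) (nat_lit 466) (nat_lit 430) (nat_lit 304)) (XT.lf (nat_lit 0) (nat_lit 23844451704) (nat_lit 380) (nat_lit 7172687933) (nat_lit 76) (nat_lit 18120897009) (nat_lit 152) (nat_lit 5) (nat_lit 157) (nat_lit 5) (nat_lit 153) (nat_lit 5) (nat_lit 467) (nat_lit 430) (nat_lit 303)))) (XT.nd (nat_lit 156) (nat_lit 532) (nat_lit 0) (XT.nd (nat_lit 78) (nat_lit 304) (nat_lit 0)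 (XT.lf (nat_lit 0) (nat_lit 43309349874) (nat_lit 228) (nat_lit 872007027) (nat_lit 304) (nat_lit 6487234020) (nat_lit 149) (nat_lit 5) (nat_lit 152) (nat_lit 5) (nat_lit 153) (nat_lit 5) (nat_lit 468) (nat_lit 430) (nat_lit 302)) (XT.lf (nat_lit 0) (nat_lit 13803284322) (nat_lit 304) (nat_lit 7628082080) (nat_lit 76) (nat_lit 30816405359) (nat_lit 145) (nat_lit 5) (nat_lit 149) (nat_lit 5) (nat_lit 146) (nat_lit 5) (nat_lit 469) (nat_lit 430) (nat_lit 301))) (XT.nd (nat_lit 78) (nat_lit 304) (nat_lit 0) (XT.lf (nat_lit 0) (nat_lit 35603107711) (nat_lit 304) (nat_lit 7725696167) (nat_lit 76) (nat_lit 10556312757) (nat_lit 142) (nat_lit 5) (nat_lit 146) (nat_lit 5) (nat_lit 143) (nat_lit 5) (nat_lit 470) (nat_lit 430) (nat_lit 300)) (XT.lf (nat_lit 0) (nat_lit 3590047896) (nat_lit 304) (nat_lit 7714980071) (nat_lit 76) (nat_lit 44275733370) (nat_lit 138) (nat_lit 5) (nat_lit 142) (nat_lit 5) (nat_lit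 139) (nat_lit 5) (nat_lit 471) (nat_lit 430) (nat_lit 299)))))) (XT.nd (nat_lit 468) (nat_lit 1368) (nat_lit 0) (XT.nd (nat_lit 234) (nat_lit 684) (nat_lit 0) (XT.nd (nat_lit 78) (nat_lit 456) (nat_lit 0) (XT.lf (nat_lit 0) (nat_lit 26956635848) (nat_lit 304) (nat_lit 7743842717) (nat_lit 76) (nat_lit 22631908778) (nat_lit 135) (nat_lit 5) (nat_lit 139) (nat_lit 5) (nat_lit 136) (nat_lit 5) (nat_lit 472) (nat_lit 430) (nat_lit 298)) (XT.nd (nat_lit 78) (nat_lit 228) (nat_lit 0) (XT.lf (nat_lit 0) (nat_lit 51632851552) (nat_lit 228) (nat_lit 543925660) (nat_lit 304) (nat_lit 6974260924) (nat_lit 132) (nat_lit 5) (nat_lit 135) (nat_lit 5) (nat_lit 136) (nat_lit 5) (nat_lit 473) (nat_lit 430) (nat_lit 297)) (XT.lf (nat_lit 0) (nat_lit 18194884001) (nat_lit 228) (nat_lit 7428820766) (nat_lit 76) (nat_lit 35403613214) (nat_lit 129) (nat_lit 5) (nat_lit 132) (nat_lit 5) (nat_lit 130) (nat_lit 5) (nat_lit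 474) (nat_lit 430) (nat_lit 296)))) (XT.nd (nat_lit 78) (nat_lit 456) (nat_lit 0) (XT.lf (nat_lit 0) (nat_lit 45200036899) (nat_lit 304) (nat_lit 7141853198) (nat_lit 76) (nat_lit 10631796666) (nat_lit 126) (nat_lit 5) (nat_lit 130) (nat_lit 5) (nat_lit 127) (nat_lit 5) (nat_lit 475) (nat_lit 430) (nat_lit 295)) (XT.nd (nat_lit 78) (nat_lit 228) (nat_lit 0) (XT.lf (nat_lit 0) (nat_lit 9271191084) (nat_lit 228) (nat_lit 6816920661) (nat_lit 76) (nat_lit 48899808426) (nat_lit 123) (nat_lit 5) (nat_lit 126) (nat_lit 5) (nat_lit 124) (nat_lit 5) (nat_lit 476) (nat_lit 430) (nat_lit 294)) (XT.lf (nat_lit 0) (nat_lit 38177375181) (nat_lit 304) (nat_lit 6501582156) (nat_lit 76) (nat_lit 22392328148) (nat_lit 120) (nat_lit 5) (nat_lit 124) (nat_lit 5) (nat_lit 121) (nat_lit 5) (nat_lit 477) (nat_lit 430) (nat_lit 293))))) (XT.nd (nat_lit 234) (nat_lit 760) (nat_lit 0) (XT.nd (nat_lit 78) (nat_lit 380)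 (nat_lit 0) (XT.lf (nat_lit 0) (nat_lit 129268192) (nat_lit 228) (nat_lit 5960293633) (nat_lit 76) (nat_lit 63144118646) (nat_lit 117) (nat_lit 5) (nat_lit 120) (nat_lit 5) (nat_lit 118) (nat_lit 5) (nat_lit 478) (nat_lit 430) (nat_lit 292)) (XT.nd (nat_lit 78) (nat_lit 152) (nat_lit 0) (XT.lf (nat_lit 0) (nat_lit 31051249225) (nat_lit 304) (nat_lit 5653925773) (nat_lit 76) (nat_lit 34759081582) (nat_lit 114) (nat_lit 5) (nat_lit 118) (nat_lit 5) (nat_lit 115) (nat_lit 5) (nat_lit 479) (nat_lit 430) (nat_lit 291)) (XT.lf (nat_lit 0) (nat_lit 64342045707) (nat_lit 228) (nat_lit 5064703076) (nat_lit 76) (nat_lit 4374931352) (nat_lit 112) (nat_lit 5) (nat_lit 115) (nat_lit 5) (nat_lit 113) (nat_lit 5) (nat_lit 480) (nat_lit 430) (nat_lit 290)))) (XT.nd (nat_lit 156) (nat_lit 380) (nat_lit 0) (XT.nd (nat_lit 78) (nat_lit 152) (nat_lit 0) (XT.lf (nat_lit 0) (nat_lit 23757338145) (nat_lit 228) (nat_lit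 4682351484) (nat_lit 76) (nat_lit 47734868339) (nat_lit 109) (nat_lit 5) (nat_lit 112) (nat_lit 5) (nat_lit 110) (nat_lit 5) (nat_lit 481) (nat_lit 430) (nat_lit 289)) (XT.lf (nat_lit 0) (nat_lit 59335262532) (nat_lit 228) (nat_lit 4159502669) (nat_lit 76) (nat_lit 15162020881) (nat_lit 107) (nat_lit 5) (nat_lit 110) (nat_lit 5) (nat_lit 108) (nat_lit 5) (nat_lit 482) (nat_lit 430) (nat_lit 288))) (XT.nd (nat_lit 78) (nat_lit 152) (nat_lit 0) (XT.lf (nat_lit 0) (nat_lit 16216850107) (nat_lit 228) (nat_lit 3696824690) (nat_lit 76) (nat_lit 61312332524) (nat_lit 104) (nat_lit 5) (nat_lit 107) (nat_lit 5) (nat_lit 105) (nat_lit 5) (nat_lit 483) (nat_lit 430) (nat_lit 287)) (XT.lf (nat_lit 0) (nat_lit 54210892965) (nat_lit 228) (nat_lit 3310476965) (nat_lit 76) (nat_lit 26364230251) (nat_lit 102) (nat_lit 5) (nat_lit 105) (nat_lit 5) (nat_lit 103) (nat_lit 5) (nat_lit 484) (nat_lit 430) (nat_lit 286)))))))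 (XT.nd (nat_lit 58422) (nat_lit 0) (nat_lit 14440) (XT.nd (nat_lit 468) (nat_lit 912) (nat_lit 0) (XT.nd (nat_lit 234) (nat_lit 532) (nat_lit 0) (XT.nd (nat_lit 78) (nat_lit 304) (nat_lit 0) (XT.lf (nat_lit 0) (nat_lit 8333601575) (nat_lit 228) (nat_lit 2839531937) (nat_lit 76) (nat_lit 75471336035) (nat_lit 99) (nat_lit 5) (nat_lit 102) (nat_lit 5) (nat_lit 100) (nat_lit 5) (nat_lit 485) (nat_lit 430) (nat_lit 285)) (XT.nd (nat_lit 78) (nat_lit 152) (nat_lit 0) (XT.lf (nat_lit 0) (nat_lit 48874923877) (nat_lit 228) (nat_lit 2678720775) (nat_lit 76) (nat_lit 37941434058) (nat_lit 97) (nat_lit 5) (nat_lit 100) (nat_lit 5) (nat_lit 98) (nat_lit 5) (nat_lit 486) (nat_lit 430) (nat_lit 284)) (XT.lf (nat_lit 0) (nat_lit 90166293507) (nat_lit 152) (nat_lit 2282142905) (nat_lit 228) (nat_lit 9628281) (nat_lit 95) (nat_lit 5) (nat_lit 97) (nat_lit 5) (nat_lit 98) (nat_lit 5) (nat_lit 487) (nat_lit 430)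 (nat_lit 283)))) (XT.nd (nat_lit 78) (nat_lit 304) (nat_lit 0) (XT.lf (nat_lit 0) (nat_lit 43211392374) (nat_lit 228) (nat_lit 2468228683) (nat_lit 76) (nat_lit 49834929206) (nat_lit 92) (nat_lit 5) (nat_lit 95) (nat_lit 5) (nat_lit 93) (nat_lit 5) (nat_lit 488) (nat_lit 430) (nat_lit 282)) (XT.nd (nat_lit 78) (nat_lit 152) (nat_lit 0) (XT.lf (nat_lit 0) (nat_lit 89627342118) (nat_lit 228) (nat_lit 2434350129) (nat_lit 76) (nat_lit 6631142769) (nat_lit 90) (nat_lit 5) (nat_lit 93) (nat_lit 5) (nat_lit 91) (nat_lit 4) (nat_lit 489) (nat_lit 430) (nat_lit 281)) (XT.lf (nat_lit 0) (nat_lit 37078000704) (nat_lit 152) (nat_lit 2934674114) (nat_lit 76) (nat_lit 61963292694) (nat_lit 88) (nat_lit 5) (nat_lit 90) (nat_lit 5) (nat_lit 89) (nat_lit 5) (nat_lit 490) (nat_lit 430) (nat_lit 280))))) (XT.nd (nat_lit 234) (nat_lit 456) (nat_lit 0) (XT.nd (nat_lit 78) (nat_lit 304) (nat_lit 0) (XT.lf (nat_lit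 0) (nat_lit 86497793426) (nat_lit 228) (nat_lit 3428701344) (nat_lit 76) (nat_lit 15459370827) (nat_lit 86) (nat_lit 5) (nat_lit 89) (nat_lit 5) (nat_lit 87) (nat_lit 4) (nat_lit 491) (nat_lit 430) (nat_lit 279)) (XT.nd (nat_lit 78) (nat_lit 152) (nat_lit 0) (XT.lf (nat_lit 0) (nat_lit 30300930714) (nat_lit 152) (nat_lit 4395804016) (nat_lit 76) (nat_lit 74217456694) (nat_lit 84) (nat_lit 5) (nat_lit 86) (nat_lit 5) (nat_lit 85) (nat_lit 5) (nat_lit 492) (nat_lit 430) (nat_lit 278)) (XT.lf (nat_lit 0) (nat_lit 82861517907) (nat_lit 228) (nat_lit 5606400248) (nat_lit 76) (nat_lit 24106322074) (nat_lit 82) (nat_lit 5) (nat_lit 85) (nat_lit 5) (nat_lit 83) (nat_lit 4) (nat_lit 493) (nat_lit 430) (nat_lit 277)))) (XT.nd (nat_lit 57564) (nat_lit 0) (nat_lit 17708) (XT.nd (nat_lit 156) (nat_lit 304) (nat_lit 0) (XT.lf (nat_lit 0) (nat_lit 22668717489) (nat_lit 152) (nat_lit 7243733640) (nat_lit 76) (nat_lit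 86454861681) (nat_lit 80) (nat_lit 5) (nat_lit 82) (nat_lit 5) (nat_lit 81) (nat_lit 5) (nat_lit 494) (nat_lit 430) (nat_lit 276)) (XT.lf (nat_lit 0) (nat_lit 13925017552) (nat_lit 152) (nat_lit 11959474939) (nat_lit 76) (nat_lit 98492524228) (nat_lit 76) (nat_lit 5) (nat_lit 78) (nat_lit 5) (nat_lit 77) (nat_lit 5) (nat_lit 496) (nat_lit 430) (nat_lit 274))) (XT.nd (nat_lit 78) (nat_lit 0) (nat_lit 76) (XT.lf (nat_lit 0) (nat_lit 2825572317) (nat_lit 1292) (nat_lit 3226932395) (nat_lit 1292) (nat_lit 3226932395) (nat_lit 309) (nat_lit 3) (nat_lit 326) (nat_lit 3) (nat_lit 326) (nat_lit 5) (nat_lit 431) (nat_lit 431) (nat_lit 338)) (XT.lf (nat_lit 0) (nat_lit 6222417145) (nat_lit 1216) (nat_lit 9975444462) (nat_lit 1292) (nat_lit 2812055485) (nat_lit 310) (nat_lit 5) (nat_lit 326) (nat_lit 5) (nat_lit 327) (nat_lit 5) (nat_lit 432) (nat_lit 431) (nat_lit 337)))))) (XT.nd (nat_lit 546) (nat_lit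 3344) (nat_lit 0) (XT.nd (nat_lit 234) (nat_lit 0) (nat_lit 228) (XT.nd (nat_lit 78) (nat_lit 0) (nat_lit 76) (XT.lf (nat_lit 76) (nat_lit 5932190652) (nat_lit 0) (nat_lit 1116167486) (nat_lit 1292) (nat_lit 12428372694) (nat_lit 311) (nat_lit 5) (nat_lit 310) (nat_lit 5) (nat_lit 327) (nat_lit 5) (nat_lit 433) (nat_lit 431) (nat_lit 336)) (XT.nd (nat_lit 78) (nat_lit 0) (nat_lit 76) (XT.lf (nat_lit 76) (nat_lit 2779952649) (nat_lit 0) (nat_lit 5388309037) (nat_lit 1292) (nat_lit 11791045385) (nat_lit 312) (nat_lit 5) (nat_lit 311) (nat_lit 5) (nat_lit 328) (nat_lit 5) (nat_lit 434) (nat_lit 431) (nat_lit 335)) (XT.lf (nat_lit 0) (nat_lit 9579196214) (nat_lit 1216) (nat_lit 384038014) (nat_lit 1292) (nat_lit 10495728515) (nat_lit 312) (nat_lit 5) (nat_lit 328) (nat_lit 5) (nat_lit 329) (nat_lit 5) (nat_lit 435) (nat_lit 431) (nat_lit 334)))) (XT.nd (nat_lit 156) (nat_lit 0) (nat_lit 76) (XT.nd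 (nat_lit 78) (nat_lit 0) (nat_lit 76) (XT.lf (nat_lit 0) (nat_lit 11326229346) (nat_lit 1216) (nat_lit 3510314976) (nat_lit 1292) (nat_lit 6139091932) (nat_lit 313) (nat_lit 5) (nat_lit 329) (nat_lit 5) (nat_lit 330) (nat_lit 5) (nat_lit 436) (nat_lit 431) (nat_lit 333)) (XT.lf (nat_lit 0) (nat_lit 13405699133) (nat_lit 1216) (nat_lit 6650265629) (nat_lit 1292) (nat_lit 1454827663) (nat_lit 314) (nat_lit 5) (nat_lit 330) (nat_lit 5) (nat_lit 331) (nat_lit 5) (nat_lit 437) (nat_lit 431) (nat_lit 332))) (XT.nd (nat_lit 78) (nat_lit 0) (nat_lit 76) (XT.lf (nat_lit 76) (nat_lit 12228360694) (nat_lit 0) (nat_lit 3648582659) (nat_lit 1292) (nat_lit 6187130489) (nat_lit 315) (nat_lit 5) (nat_lit 314) (nat_lit 5) (nat_lit 331) (nat_lit 5) (nat_lit 438) (nat_lit 431) (nat_lit 331)) (XT.lf (nat_lit 76) (nat_lit 9590911615) (nat_lit 0) (nat_lit 9157400300) (nat_lit 1292) (nat_lit 3888411942) (nat_lit 316)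 (nat_lit 5) (nat_lit 315) (nat_lit 5) (nat_lit 332) (nat_lit 5) (nat_lit 439) (nat_lit 431) (nat_lit 330))))) (XT.nd (nat_lit 234) (nat_lit 1748) (nat_lit 0) (XT.nd (nat_lit 78) (nat_lit 2052) (nat_lit 0) (XT.lf (nat_lit 76) (nat_lit 6967486535) (nat_lit 0) (nat_lit 15065160803) (nat_lit 1292) (nat_lit 1197278409) (nat_lit 317) (nat_lit 5) (nat_lit 316) (nat_lit 5) (nat_lit 333) (nat_lit 5) (nat_lit 440) (nat_lit 431) (nat_lit 329)) (XT.nd (nat_lit 78) (nat_lit 836) (nat_lit 0) (XT.lf (nat_lit 0) (nat_lit 1876670211) (nat_lit 1292) (nat_lit 19499700934) (nat_lit 76) (nat_lit 2467547176) (nat_lit 300) (nat_lit 5) (nat_lit 317) (nat_lit 5) (nat_lit 301) (nat_lit 5) (nat_lit 441) (nat_lit 431) (nat_lit 328)) (XT.lf (nat_lit 0) (nat_lit 1692578502) (nat_lit 836) (nat_lit 3710972524) (nat_lit 912) (nat_lit 19074985151) (nat_lit 289) (nat_lit 5) (nat_lit 300) (nat_lit 5) (nat_lit 301) (nat_lit 5) (nat_lit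 442) (nat_lit 431) (nat_lit 327)))) (XT.nd (nat_lit 156) (nat_lit 1140) (nat_lit 0) (XT.nd (nat_lit 78) (nat_lit 608) (nat_lit 0) (XT.lf (nat_lit 0) (nat_lit 9439047864) (nat_lit 912) (nat_lit 943687860) (nat_lit 76) (nat_lit 14752182153) (nat_lit 289) (nat_lit 5) (nat_lit 301) (nat_lit 5) (nat_lit 290) (nat_lit 5) (nat_lit 443) (nat_lit 431) (nat_lit 326)) (XT.lf (nat_lit 0) (nat_lit 13997776484) (nat_lit 684) (nat_lit 3519922968) (nat_lit 76) (nat_lit 8296776563) (nat_lit 281) (nat_lit 5) (nat_lit 290) (nat_lit 5) (nat_lit 282) (nat_lit 5) (nat_lit 444) (nat_lit 431) (nat_lit 325))) (XT.nd (nat_lit 78) (nat_lit 532) (nat_lit 0) (XT.lf (nat_lit 0) (nat_lit 19097172858) (nat_lit 684) (nat_lit 6062723667) (nat_lit 76) (nat_lit 1358734603) (nat_lit 273) (nat_lit 5) (nat_lit 282) (nat_lit 5) (nat_lit 274) (nat_lit 5) (nat_lit 445) (nat_lit 431) (nat_lit 324)) (XT.lf (nat_lit 0) (nat_lit 18621749688)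 (nat_lit 532) (nat_lit 6210697538) (nat_lit 608) (nat_lit 2414120488) (nat_lit 266) (nat_lit 5) (nat_lit 273) (nat_lit 5) (nat_lit 274) (nat_lit 5) (nat_lit 446) (nat_lit 431) (nat_lit 323))))))))
noncomputable def xc96 : XT := (XT.nd (nat_lit 2028) (nat_lit 4560) (nat_lit 0) (XT.nd (nat_lit 1014) (nat_lit 4028) (nat_lit 0) (XT.nd (nat_lit 468) (nat_lit 2508) (nat_lit 0) (XT.nd (nat_lit 234) (nat_lit 1444) (nat_lit 0) (XT.nd (nat_lit 78) (nat_lit 1064) (nat_lit 0) (XT.lf (nat_lit 0) (nat_lit 3136943327) (nat_lit 684) (nat_lit 11188325202) (nat_lit 76) (nat_lit 13674348028) (nat_lit 257) (nat_lit 5) (nat_lit 266) (nat_lit 5) (nat_lit 258) (nat_lit 5) (nat_lit 447) (nat_lit 431) (nat_lit 322)) (XT.nd (nat_lit 78) (nat_lit 532) (nat_lit 0) (XT.lf (nat_lit 0) (nat_lit 9259670104) (nat_lit 608) (nat_lit 13730604915) (nat_lit 76) (nat_lit 5789005480) (nat_lit 250) (nat_lit 5) (nat_lit 258) (nat_lit 5)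 (nat_lit 251) (nat_lit 5) (nat_lit 448) (nat_lit 431) (nat_lit 321)) (XT.lf (nat_lit 0) (nat_lit 13339950577) (nat_lit 532) (nat_lit 2727362818) (nat_lit 608) (nat_lit 13519251645) (nat_lit 243) (nat_lit 5) (nat_lit 250) (nat_lit 5) (nat_lit 251) (nat_lit 5) (nat_lit 449) (nat_lit 431) (nat_lit 320)))) (XT.nd (nat_lit 78) (nat_lit 988) (nat_lit 0) (XT.lf (nat_lit 0) (nat_lit 11657317718) (nat_lit 456) (nat_lit 11981143800) (nat_lit 532) (nat_lit 6783059377) (nat_lit 237) (nat_lit 5) (nat_lit 243) (nat_lit 5) (nat_lit 244) (nat_lit 5) (nat_lit 450) (nat_lit 431) (nat_lit 319)) (XT.nd (nat_lit 78) (nat_lit 456) (nat_lit 0) (XT.lf (nat_lit 0) (nat_lit 660822990) (nat_lit 532) (nat_lit 21224111788) (nat_lit 76) (nat_lit 9401910712) (nat_lit 230) (nat_lit 5) (nat_lit 237) (nat_lit 5) (nat_lit 231) (nat_lit 5) (nat_lit 451) (nat_lit 431) (nat_lit 318)) (XT.lf (nat_lit 0) (nat_lit 8496736135) (nat_lit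 456) (nat_lit 229494572) (nat_lit 532) (nat_lit 23455503056) (nat_lit 224) (nat_lit 5) (nat_lit 230) (nat_lit 5) (nat_lit 231) (nat_lit 5) (nat_lit 452) (nat_lit 431) (nat_lit 317))))) (XT.nd (nat_lit 234) (nat_lit 1140) (nat_lit 0) (XT.nd (nat_lit 78) (nat_lit 912) (nat_lit 0) (XT.lf (nat_lit 0) (nat_lit 6938005999) (nat_lit 456) (nat_lit 10751565496) (nat_lit 532) (nat_lit 15416955716) (nat_lit 218) (nat_lit 5) (nat_lit 224) (nat_lit 5) (nat_lit 225) (nat_lit 5) (nat_lit 453) (nat_lit 431) (nat_lit 316)) (XT.nd (nat_lit 78) (nat_lit 532) (nat_lit 0) (XT.lf (nat_lit 0) (nat_lit 5493015110) (nat_lit 380) (nat_lit 22015872743) (nat_lit 456) (nat_lit 6556438837) (nat_lit 213) (nat_lit 5) (nat_lit 218) (nat_lit 5) (nat_lit 219) (nat_lit 5) (nat_lit 454) (nat_lit 431) (nat_lit 315)) (XT.lf (nat_lit 0) (nat_lit 3115545418) (nat_lit 532) (nat_lit 30916005514) (nat_lit 76) (nat_lit 1027062149) (nat_lit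 206) (nat_lit 5) (nat_lit 213) (nat_lit 5) (nat_lit 207) (nat_lit 5) (nat_lit 455) (nat_lit 431) (nat_lit 314)))) (XT.nd (nat_lit 156) (nat_lit 380) (nat_lit 0) (XT.nd (nat_lit 78) (nat_lit 380) (nat_lit 0) (XT.lf (nat_lit 0) (nat_lit 2749088687) (nat_lit 380) (nat_lit 10925149402) (nat_lit 456) (nat_lit 22409217593) (nat_lit 201) (nat_lit 5) (nat_lit 206) (nat_lit 5) (nat_lit 207) (nat_lit 5) (nat_lit 456) (nat_lit 431) (nat_lit 313)) (XT.lf (nat_lit 0) (nat_lit 1480264774) (nat_lit 380) (nat_lit 23736468050) (nat_lit 456) (nat_lit 11929132081) (nat_lit 196) (nat_lit 5) (nat_lit 201) (nat_lit 5) (nat_lit 202) (nat_lit 5) (nat_lit 457) (nat_lit 431) (nat_lit 312))) (XT.nd (nat_lit 78) (nat_lit 76) (nat_lit 0) (XT.lf (nat_lit 0) (nat_lit 360306984) (nat_lit 304) (nat_lit 37432121489) (nat_lit 380) (nat_lit 455284321) (nat_lit 192) (nat_lit 5) (nat_lit 196) (nat_lit 5) (nat_lit 197) (nat_lit 5) (nat_lit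 458) (nat_lit 431) (nat_lit 311)) (XT.lf (nat_lit 0) (nat_lit 11968888608) (nat_lit 380) (nat_lit 825976714) (nat_lit 76) (nat_lit 26588360068) (nat_lit 191) (nat_lit 5) (nat_lit 196) (nat_lit 5) (nat_lit 192) (nat_lit 5) (nat_lit 459) (nat_lit 431) (nat_lit 310)))))) (XT.nd (nat_lit 468) (nat_lit 1976) (nat_lit 0) (XT.nd (nat_lit 234) (nat_lit 988) (nat_lit 0) (XT.nd (nat_lit 78) (nat_lit 684) (nat_lit 0) (XT.lf (nat_lit 0) (nat_lit 25500445701) (nat_lit 456) (nat_lit 1862118560) (nat_lit 76) (nat_lit 13197946811) (nat_lit 186) (nat_lit 5) (nat_lit 192) (nat_lit 5) (nat_lit 187) (nat_lit 5) (nat_lit 460) (nat_lit 431) (nat_lit 309)) (XT.nd (nat_lit 78) (nat_lit 380) (nat_lit 0) (XT.lf (nat_lit 0) (nat_lit 39042567727) (nat_lit 304) (nat_lit 1172101713) (nat_lit 380) (nat_lit 1566809343) (nat_lit 182) (nat_lit 5) (nat_lit 186) (nat_lit 5) (nat_lit 187) (nat_lit 5) (nat_lit 461) (nat_lit 431) (nat_lit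 308)) (XT.lf (nat_lit 0) (nat_lit 13006776415) (nat_lit 380) (nat_lit 3695923829) (nat_lit 76) (nat_lit 26337614330) (nat_lit 177) (nat_lit 5) (nat_lit 182) (nat_lit 5) (nat_lit 178) (nat_lit 5) (nat_lit 462) (nat_lit 431) (nat_lit 307)))) (XT.nd (nat_lit 78) (nat_lit 684) (nat_lit 0) (XT.lf (nat_lit 0) (nat_lit 28803280351) (nat_lit 380) (nat_lit 4487220900) (nat_lit 76) (nat_lit 11055326587) (nat_lit 173) (nat_lit 5) (nat_lit 178) (nat_lit 5) (nat_lit 174) (nat_lit 5) (nat_lit 463) (nat_lit 431) (nat_lit 306)) (XT.nd (nat_lit 78) (nat_lit 304) (nat_lit 0) (XT.lf (nat_lit 0) (nat_lit 275797798) (nat_lit 380) (nat_lit 5135886179) (nat_lit 76) (nat_lit 40287134707) (nat_lit 168) (nat_lit 5) (nat_lit 173) (nat_lit 5) (nat_lit 169) (nat_lit 5) (nat_lit 464) (nat_lit 431) (nat_lit 305)) (XT.lf (nat_lit 0) (nat_lit 17241104998) (nat_lit 380) (nat_lit 5852793949) (nat_lit 76) (nat_lit 24000619195) (nat_lit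 164) (nat_lit 5) (nat_lit 169) (nat_lit 5) (nat_lit 165) (nat_lit 5) (nat_lit 465) (nat_lit 431) (nat_lit 304))))) (XT.nd (nat_lit 234) (nat_lit 1064) (nat_lit 0) (XT.nd (nat_lit 78) (nat_lit 608) (nat_lit 0) (XT.lf (nat_lit 0) (nat_lit 35627010266) (nat_lit 380) (nat_lit 6361903163) (nat_lit 76) (nat_lit 6553919464) (nat_lit 160) (nat_lit 5) (nat_lit 165) (nat_lit 5) (nat_lit 161) (nat_lit 5) (nat_lit 466) (nat_lit 431) (nat_lit 303)) (XT.nd (nat_lit 78) (nat_lit 304) (nat_lit 0) (XT.lf (nat_lit 0) (nat_lit 5484701920) (nat_lit 304) (nat_lit 6817630722) (nat_lit 76) (nat_lit 37738495228) (nat_lit 156) (nat_lit 5) (nat_lit 160) (nat_lit 5) (nat_lit 157) (nat_lit 5) (nat_lit 467) (nat_lit 431) (nat_lit 302)) (XT.lf (nat_lit 0) (nat_lit 25216677385) (nat_lit 380) (nat_lit 7244855757) (nat_lit 76) (nat_lit 19127997025) (nat_lit 152) (nat_lit 5) (nat_lit 157) (nat_lit 5) (nat_lit 153) (nat_lit 5) (nat_lit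 468) (nat_lit 431) (nat_lit 301)))) (XT.nd (nat_lit 156) (nat_lit 532) (nat_lit 0) (XT.nd (nat_lit 78) (nat_lit 304) (nat_lit 0) (XT.lf (nat_lit 0) (nat_lit 45753072433) (nat_lit 228) (nat_lit 811458591) (nat_lit 304) (nat_lit 6632258428) (nat_lit 149) (nat_lit 5) (nat_lit 152) (nat_lit 5) (nat_lit 153) (nat_lit 5) (nat_lit 469) (nat_lit 431) (nat_lit 300)) (XT.lf (nat_lit 0) (nat_lit 14664539691) (nat_lit 304) (nat_lit 7731686335) (nat_lit 76) (nat_lit 32458794352) (nat_lit 145) (nat_lit 5) (nat_lit 149) (nat_lit 5) (nat_lit 146) (nat_lit 5) (nat_lit 470) (nat_lit 431) (nat_lit 299))) (XT.nd (nat_lit 78) (nat_lit 304) (nat_lit 0) (XT.lf (nat_lit 0) (nat_lit 37549803474) (nat_lit 304) (nat_lit 7838173764) (nat_lit 76) (nat_lit 11186392127) (nat_lit 142) (nat_lit 5) (nat_lit 146) (nat_lit 5) (nat_lit 143) (nat_lit 5) (nat_lit 471) (nat_lit 431) (nat_lit 298)) (XT.lf (nat_lit 0) (nat_lit 3932318873)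 (nat_lit 304) (nat_lit 7831524705) (nat_lit 76) (nat_lit 46591066396) (nat_lit 138) (nat_lit 5) (nat_lit 142) (nat_lit 5) (nat_lit 139) (nat_lit 5) (nat_lit 472) (nat_lit 431) (nat_lit 297))))))) (XT.nd (nat_lit 1014) (nat_lit 1824) (nat_lit 0) (XT.nd (nat_lit 468) (nat_lit 1368) (nat_lit 0) (XT.nd (nat_lit 234) (nat_lit 684) (nat_lit 0) (XT.nd (nat_lit 78) (nat_lit 456) (nat_lit 0) (XT.lf (nat_lit 0) (nat_lit 28462998210) (nat_lit 304) (nat_lit 7865814459) (nat_lit 76) (nat_lit 23865432056) (nat_lit 135) (nat_lit 5) (nat_lit 139) (nat_lit 5) (nat_lit 136) (nat_lit 5) (nat_lit 473) (nat_lit 431) (nat_lit 296)) (XT.nd (nat_lit 78) (nat_lit 228) (nat_lit 0) (XT.lf (nat_lit 0) (nat_lit 54472112035) (nat_lit 228) (nat_lit 466961913) (nat_lit 304) (nat_lit 7164906579) (nat_lit 132) (nat_lit 5) (nat_lit 135) (nat_lit 5) (nat_lit 136) (nat_lit 5) (nat_lit 474) (nat_lit 431) (nat_lit 295)) (XT.lf (nat_lit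 0) (nat_lit 19255657237) (nat_lit 228) (nat_lit 7543512511) (nat_lit 76) (nat_lit 37274977916) (nat_lit 129) (nat_lit 5) (nat_lit 132) (nat_lit 5) (nat_lit 130) (nat_lit 5) (nat_lit 475) (nat_lit 431) (nat_lit 294)))) (XT.nd (nat_lit 78) (nat_lit 456) (nat_lit 0) (XT.lf (nat_lit 0) (nat_lit 47607264797) (nat_lit 304) (nat_lit 7246155699) (nat_lit 76) (nat_lit 11264528733) (nat_lit 126) (nat_lit 5) (nat_lit 130) (nat_lit 5) (nat_lit 127) (nat_lit 5) (nat_lit 476) (nat_lit 431) (nat_lit 293)) (XT.nd (nat_lit 78) (nat_lit 228) (nat_lit 0) (XT.lf (nat_lit 0) (nat_lit 9878742638) (nat_lit 228) (nat_lit 6909352285) (nat_lit 76) (nat_lit 51444896790) (nat_lit 123) (nat_lit 5) (nat_lit 126) (nat_lit 5) (nat_lit 124) (nat_lit 5) (nat_lit 477) (nat_lit 431) (nat_lit 292)) (XT.lf (nat_lit 0) (nat_lit 40226677579) (nat_lit 304) (nat_lit 6582158420) (nat_lit 76) (nat_lit 23611796270) (nat_lit 120) (nat_lit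 5) (nat_lit 124) (nat_lit 5) (nat_lit 121) (nat_lit 5) (nat_lit 478) (nat_lit 431) (nat_lit 291))))) (XT.nd (nat_lit 234) (nat_lit 760) (nat_lit 0) (XT.nd (nat_lit 78) (nat_lit 380) (nat_lit 0) (XT.lf (nat_lit 0) (nat_lit 273111874) (nat_lit 228) (nat_lit 6018075814) (nat_lit 76) (nat_lit 66400051255) (nat_lit 117) (nat_lit 5) (nat_lit 120) (nat_lit 5) (nat_lit 118) (nat_lit 5) (nat_lit 479) (nat_lit 431) (nat_lit 290)) (XT.nd (nat_lit 78) (nat_lit 152) (nat_lit 0) (XT.lf (nat_lit 0) (nat_lit 32737856915) (nat_lit 304) (nat_lit 5700243195) (nat_lit 76) (nat_lit 36595343994) (nat_lit 114) (nat_lit 5) (nat_lit 118) (nat_lit 5) (nat_lit 115) (nat_lit 5) (nat_lit 480) (nat_lit 431) (nat_lit 289)) (XT.lf (nat_lit 0) (nat_lit 67689975904) (nat_lit 228) (nat_lit 5085393984) (nat_lit 76) (nat_lit 4691465657) (nat_lit 112) (nat_lit 5) (nat_lit 115) (nat_lit 5) (nat_lit 113) (nat_lit 5) (nat_lit 481) (nat_lit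 431) (nat_lit 288)))) (XT.nd (nat_lit 156) (nat_lit 380) (nat_lit 0) (XT.nd (nat_lit 78) (nat_lit 152) (nat_lit 0) (XT.lf (nat_lit 0) (nat_lit 25073232997) (nat_lit 228) (nat_lit 4688039164) (nat_lit 76) (nat_lit 50218169392) (nat_lit 109) (nat_lit 5) (nat_lit 112) (nat_lit 5) (nat_lit 110) (nat_lit 5) (nat_lit 482) (nat_lit 431) (nat_lit 287)) (XT.lf (nat_lit 0) (nat_lit 62427030184) (nat_lit 228) (nat_lit 4142810852) (nat_lit 76) (nat_lit 16016030904) (nat_lit 107) (nat_lit 5) (nat_lit 110) (nat_lit 5) (nat_lit 108) (nat_lit 5) (nat_lit 483) (nat_lit 431) (nat_lit 286))) (XT.nd (nat_lit 78) (nat_lit 152) (nat_lit 0) (XT.lf (nat_lit 0) (nat_lit 17150044865) (nat_lit 228) (nat_lit 3661000896) (nat_lit 76) (nat_lit 64472588297) (nat_lit 104) (nat_lit 5) (nat_lit 107) (nat_lit 5) (nat_lit 105) (nat_lit 5) (nat_lit 484) (nat_lit 431) (nat_lit 285)) (XT.lf (nat_lit 0) (nat_lit 57040944372) (nat_lit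 228) (nat_lit 3259021040) (nat_lit 76) (nat_lit 27776326660) (nat_lit 102) (nat_lit 5) (nat_lit 105) (nat_lit 5) (nat_lit 103) (nat_lit 5) (nat_lit 485) (nat_lit 431) (nat_lit 284)))))) (XT.nd (nat_lit 468) (nat_lit 760) (nat_lit 0) (XT.nd (nat_lit 234) (nat_lit 456) (nat_lit 0) (XT.nd (nat_lit 78) (nat_lit 380) (nat_lit 0) (XT.lf (nat_lit 0) (nat_lit 8867273241) (nat_lit 228) (nat_lit 2768417385) (nat_lit 76) (nat_lit 79337489956) (nat_lit 99) (nat_lit 5) (nat_lit 102) (nat_lit 5) (nat_lit 100) (nat_lit 5) (nat_lit 486) (nat_lit 431) (nat_lit 283)) (XT.nd (nat_lit 78) (nat_lit 228) (nat_lit 0) (XT.lf (nat_lit 0) (nat_lit 51432979755) (nat_lit 228) (nat_lit 2603168484) (nat_lit 76) (nat_lit 39930252548) (nat_lit 97) (nat_lit 5) (nat_lit 100) (nat_lit 5) (nat_lit 98) (nat_lit 5) (nat_lit 487) (nat_lit 431) (nat_lit 282)) (XT.lf (nat_lit 0) (nat_lit 102009602) (nat_lit 228) (nat_lit 2200549336) (nat_lit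 76) (nat_lit 94775051871) (nat_lit 94) (nat_lit 5) (nat_lit 97) (nat_lit 5) (nat_lit 95) (nat_lit 5) (nat_lit 488) (nat_lit 431) (nat_lit 281)))) (XT.nd (nat_lit 78) (nat_lit 304) (nat_lit 0) (XT.lf (nat_lit 0) (nat_lit 45481352816) (nat_lit 228) (nat_lit 2389443625) (nat_lit 76) (nat_lit 52416197351) (nat_lit 92) (nat_lit 5) (nat_lit 95) (nat_lit 5) (nat_lit 93) (nat_lit 5) (nat_lit 489) (nat_lit 431) (nat_lit 280)) (XT.nd (nat_lit 78) (nat_lit 152) (nat_lit 0) (XT.lf (nat_lit 0) (nat_lit 94215647198) (nat_lit 228) (nat_lit 2357351139) (nat_lit 76) (nat_lit 7051268138) (nat_lit 90) (nat_lit 5) (nat_lit 93) (nat_lit 5) (nat_lit 91) (nat_lit 4) (nat_lit 490) (nat_lit 431) (nat_lit 279)) (XT.lf (nat_lit 0) (nat_lit 39036630612) (nat_lit 152) (nat_lit 2886301171) (nat_lit 76) (nat_lit 65148690217) (nat_lit 88) (nat_lit 5) (nat_lit 90) (nat_lit 5) (nat_lit 89) (nat_lit 5) (nat_lit 491) (nat_lit 431)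 (nat_lit 278))))) (XT.nd (nat_lit 312) (nat_lit 304) (nat_lit 0) (XT.nd (nat_lit 78) (nat_lit 304) (nat_lit 0) (XT.lf (nat_lit 0) (nat_lit 90925092983) (nat_lit 228) (nat_lit 3408419050) (nat_lit 76) (nat_lit 16318572652) (nat_lit 86) (nat_lit 5) (nat_lit 89) (nat_lit 5) (nat_lit 87) (nat_lit 4) (nat_lit 492) (nat_lit 431) (nat_lit 277)) (XT.nd (nat_lit 78) (nat_lit 152) (nat_lit 0) (XT.lf (nat_lit 0) (nat_lit 31916285721) (nat_lit 152) (nat_lit 4427374307) (nat_lit 76) (nat_lit 78013229960) (nat_lit 84) (nat_lit 5) (nat_lit 86) (nat_lit 5) (nat_lit 85) (nat_lit 5) (nat_lit 493) (nat_lit 431) (nat_lit 276)) (XT.lf (nat_lit 0) (nat_lit 87102705320) (nat_lit 228) (nat_lit 5701797506) (nat_lit 76) (nat_lit 25395504400) (nat_lit 82) (nat_lit 5) (nat_lit 85) (nat_lit 5) (nat_lit 83) (nat_lit 4) (nat_lit 494) (nat_lit 431) (nat_lit 275)))) (XT.nd (nat_lit 57564) (nat_lit 0) (nat_lit 17632) (XT.nd (nat_lit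 57486) (nat_lit 0) (nat_lit 17556) (XT.lf (nat_lit 0) (nat_lit 82521296613) (nat_lit 228) (nat_lit 9694088744) (nat_lit 76) (nat_lit 34094472288) (nat_lit 78) (nat_lit 5) (nat_lit 81) (nat_lit 5) (nat_lit 79) (nat_lit 4) (nat_lit 496) (nat_lit 431) (nat_lit 273)) (XT.lf (nat_lit 0) (nat_lit 3277234992) (nat_lit 1292) (nat_lit 3228416871) (nat_lit 1292) (nat_lit 3228416871) (nat_lit 309) (nat_lit 3) (nat_lit 326) (nat_lit 3) (nat_lit 326) (nat_lit 5) (nat_lit 432) (nat_lit 432) (nat_lit 336))) (XT.nd (nat_lit 78) (nat_lit 0) (nat_lit 0) (XT.lf (nat_lit 0) (nat_lit 7125004562) (nat_lit 1216) (nat_lit 10143050297) (nat_lit 1292) (nat_lit 2674559409) (nat_lit 310) (nat_lit 5) (nat_lit 326) (nat_lit 5) (nat_lit 327) (nat_lit 5) (nat_lit 433) (nat_lit 432) (nat_lit 335)) (XT.lf (nat_lit 76) (nat_lit 6550473755) (nat_lit 0) (nat_lit 1416695899) (nat_lit 1292) (nat_lit 12466353834) (nat_lit 311) (nat_lit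 5) (nat_lit 310) (nat_lit 5) (nat_lit 327) (nat_lit 5) (nat_lit 434) (nat_lit 432) (nat_lit 334))))))))
noncomputable def xc97 : XT := (XT.nd (nat_lit 2028) (nat_lit 6992) (nat_lit 0) (XT.nd (nat_lit 1014) (nat_lit 5700) (nat_lit 0) (XT.nd (nat_lit 468) (nat_lit 3420) (nat_lit 0) (XT.nd (nat_lit 234) (nat_lit 0) (nat_lit 228) (XT.nd (nat_lit 78) (nat_lit 0) (nat_lit 76) (XT.lf (nat_lit 76) (nat_lit 3250243438) (nat_lit 0) (nat_lit 5866798030) (nat_lit 1292) (nat_lit 11823970359) (nat_lit 312) (nat_lit 5) (nat_lit 311) (nat_lit 5) (nat_lit 328) (nat_lit 5) (nat_lit 435) (nat_lit 432) (nat_lit 333)) (XT.nd (nat_lit 78) (nat_lit 0) (nat_lit 76) (XT.lf (nat_lit 0) (nat_lit 10570876934) (nat_lit 1216) (nat_lit 70322297) (nat_lit 1292) (nat_lit 10825282785) (nat_lit 312) (nat_lit 5) (nat_lit 328) (nat_lit 5) (nat_lit 329) (nat_lit 5) (nat_lit 436) (nat_lit 432) (nat_lit 332)) (XT.lf (nat_lit 0) (nat_lit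 12382339617) (nat_lit 1216) (nat_lit 3346053416) (nat_lit 1292) (nat_lit 6281286083) (nat_lit 313) (nat_lit 5) (nat_lit 329) (nat_lit 5) (nat_lit 330) (nat_lit 5) (nat_lit 437) (nat_lit 432) (nat_lit 331)))) (XT.nd (nat_lit 78) (nat_lit 0) (nat_lit 0) (XT.lf (nat_lit 0) (nat_lit 14544289649) (nat_lit 1216) (nat_lit 6637266963) (nat_lit 1292) (nat_lit 1390683425) (nat_lit 314) (nat_lit 5) (nat_lit 330) (nat_lit 5) (nat_lit 331) (nat_lit 5) (nat_lit 438) (nat_lit 432) (nat_lit 330)) (XT.nd (nat_lit 78) (nat_lit 0) (nat_lit 76) (XT.lf (nat_lit 76) (nat_lit 13175386646) (nat_lit 0) (nat_lit 3944635237) (nat_lit 1292) (nat_lit 6033737905) (nat_lit 315) (nat_lit 5) (nat_lit 314) (nat_lit 5) (nat_lit 331) (nat_lit 5) (nat_lit 439) (nat_lit 432) (nat_lit 329)) (XT.lf (nat_lit 76) (nat_lit 10410636151) (nat_lit 0) (nat_lit 9705160553) (nat_lit 1292) (nat_lit 3639822408) (nat_lit 316) (nat_lit 5) (nat_lit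 315) (nat_lit 5) (nat_lit 332) (nat_lit 5) (nat_lit 440) (nat_lit 432) (nat_lit 328))))) (XT.nd (nat_lit 234) (nat_lit 1748) (nat_lit 0) (XT.nd (nat_lit 78) (nat_lit 2052) (nat_lit 0) (XT.lf (nat_lit 76) (nat_lit 7659697955) (nat_lit 0) (nat_lit 15886653697) (nat_lit 1292) (nat_lit 832671213) (nat_lit 317) (nat_lit 5) (nat_lit 316) (nat_lit 5) (nat_lit 333) (nat_lit 5) (nat_lit 441) (nat_lit 432) (nat_lit 327)) (XT.nd (nat_lit 78) (nat_lit 836) (nat_lit 0) (XT.lf (nat_lit 0) (nat_lit 2369607848) (nat_lit 1292) (nat_lit 20120046869) (nat_lit 76) (nat_lit 2534452174) (nat_lit 300) (nat_lit 5) (nat_lit 317) (nat_lit 5) (nat_lit 301) (nat_lit 5) (nat_lit 442) (nat_lit 432) (nat_lit 326)) (XT.lf (nat_lit 0) (nat_lit 2121680879) (nat_lit 836) (nat_lit 3935458155) (nat_lit 912) (nat_lit 19633789045) (nat_lit 289) (nat_lit 5) (nat_lit 300) (nat_lit 5) (nat_lit 301) (nat_lit 5) (nat_lit 443) (nat_lit 432)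 (nat_lit 325)))) (XT.nd (nat_lit 156) (nat_lit 1140) (nat_lit 0) (XT.nd (nat_lit 78) (nat_lit 608) (nat_lit 0) (XT.lf (nat_lit 0) (nat_lit 10275796611) (nat_lit 912) (nat_lit 651460210) (nat_lit 76) (nat_lit 15453432018) (nat_lit 289) (nat_lit 5) (nat_lit 301) (nat_lit 5) (nat_lit 290) (nat_lit 5) (nat_lit 444) (nat_lit 432) (nat_lit 324)) (XT.lf (nat_lit 0) (nat_lit 15048058507) (nat_lit 684) (nat_lit 3355487851) (nat_lit 76) (nat_lit 8691112099) (nat_lit 281) (nat_lit 5) (nat_lit 290) (nat_lit 5) (nat_lit 282) (nat_lit 5) (nat_lit 445) (nat_lit 432) (nat_lit 323))) (XT.nd (nat_lit 78) (nat_lit 532) (nat_lit 0) (XT.lf (nat_lit 0) (nat_lit 20388858212) (nat_lit 684) (nat_lit 6024992502) (nat_lit 76) (nat_lit 1420579015) (nat_lit 273) (nat_lit 5) (nat_lit 282) (nat_lit 5) (nat_lit 274) (nat_lit 5) (nat_lit 446) (nat_lit 432) (nat_lit 322)) (XT.lf (nat_lit 0) (nat_lit 19883933626) (nat_lit 532) (nat_lit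 6514106006) (nat_lit 608) (nat_lit 2201110552) (nat_lit 266) (nat_lit 5) (nat_lit 273) (nat_lit 5) (nat_lit 274) (nat_lit 5) (nat_lit 447) (nat_lit 432) (nat_lit 321)))))) (XT.nd (nat_lit 468) (nat_lit 2508) (nat_lit 0) (XT.nd (nat_lit 234) (nat_lit 1444) (nat_lit 0) (XT.nd (nat_lit 78) (nat_lit 1064) (nat_lit 0) (XT.lf (nat_lit 0) (nat_lit 3608692531) (nat_lit 684) (nat_lit 11410443850) (nat_lit 76) (nat_lit 14370989150) (nat_lit 257) (nat_lit 5) (nat_lit 266) (nat_lit 5) (nat_lit 258) (nat_lit 5) (nat_lit 448) (nat_lit 432) (nat_lit 320)) (XT.nd (nat_lit 78) (nat_lit 532) (nat_lit 0) (XT.lf (nat_lit 0) (nat_lit 10025945894) (nat_lit 608) (nat_lit 14080627033) (nat_lit 76) (nat_lit 6102549217) (nat_lit 250) (nat_lit 5) (nat_lit 258) (nat_lit 5) (nat_lit 251) (nat_lit 5) (nat_lit 449) (nat_lit 432) (nat_lit 319)) (XT.lf (nat_lit 0) (nat_lit 14333810296) (nat_lit 532) (nat_lit 2828860563) (nat_lit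 608) (nat_lit 13894440191) (nat_lit 243) (nat_lit 5) (nat_lit 250) (nat_lit 5) (nat_lit 251) (nat_lit 5) (nat_lit 450) (nat_lit 432) (nat_lit 318)))) (XT.nd (nat_lit 78) (nat_lit 988) (nat_lit 0) (XT.lf (nat_lit 0) (nat_lit 12565881268) (nat_lit 456) (nat_lit 12536040788) (nat_lit 532) (nat_lit 6832207343) (nat_lit 237) (nat_lit 5) (nat_lit 243) (nat_lit 5) (nat_lit 244) (nat_lit 5) (nat_lit 451) (nat_lit 432) (nat_lit 317)) (XT.nd (nat_lit 78) (nat_lit 456) (nat_lit 0) (XT.lf (nat_lit 0) (nat_lit 968225113) (nat_lit 532) (nat_lit 21955663153) (nat_lit 76) (nat_lit 9919048867) (nat_lit 230) (nat_lit 5) (nat_lit 237) (nat_lit 5) (nat_lit 231) (nat_lit 5) (nat_lit 452) (nat_lit 432) (nat_lit 316)) (XT.lf (nat_lit 0) (nat_lit 9241777693) (nat_lit 456) (nat_lit 185138717) (nat_lit 532) (nat_lit 24355953954) (nat_lit 224) (nat_lit 5) (nat_lit 230) (nat_lit 5) (nat_lit 231) (nat_lit 5) (nat_lit 453)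 (nat_lit 432) (nat_lit 315))))) (XT.nd (nat_lit 234) (nat_lit 1140) (nat_lit 0) (XT.nd (nat_lit 78) (nat_lit 912) (nat_lit 0) (XT.lf (nat_lit 0) (nat_lit 7603133350) (nat_lit 456) (nat_lit 11226271757) (nat_lit 532) (nat_lit 15924769852) (nat_lit 218) (nat_lit 5) (nat_lit 224) (nat_lit 5) (nat_lit 225) (nat_lit 5) (nat_lit 454) (nat_lit 432) (nat_lit 314)) (XT.nd (nat_lit 78) (nat_lit 532) (nat_lit 0) (XT.lf (nat_lit 0) (nat_lit 6083642469) (nat_lit 380) (nat_lit 23047497995) (nat_lit 456) (nat_lit 6630031207) (nat_lit 213) (nat_lit 5) (nat_lit 218) (nat_lit 5) (nat_lit 219) (nat_lit 5) (nat_lit 455) (nat_lit 432) (nat_lit 313)) (XT.lf (nat_lit 0) (nat_lit 3512404104) (nat_lit 532) (nat_lit 32143509990) (nat_lit 76) (nat_lit 1148381381) (nat_lit 206) (nat_lit 5) (nat_lit 213) (nat_lit 5) (nat_lit 207) (nat_lit 5) (nat_lit 456) (nat_lit 432) (nat_lit 312)))) (XT.nd (nat_lit 156) (nat_lit 380) (nat_lit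 0) (XT.nd (nat_lit 78) (nat_lit 380) (nat_lit 0) (XT.lf (nat_lit 0) (nat_lit 3195715036) (nat_lit 380) (nat_lit 11394808256) (nat_lit 456) (nat_lit 23290112912) (nat_lit 201) (nat_lit 5) (nat_lit 206) (nat_lit 5) (nat_lit 207) (nat_lit 5) (nat_lit 457) (nat_lit 432) (nat_lit 311)) (XT.lf (nat_lit 0) (nat_lit 1860664202) (nat_lit 380) (nat_lit 24842050064) (nat_lit 456) (nat_lit 12293675194) (nat_lit 196) (nat_lit 5) (nat_lit 201) (nat_lit 5) (nat_lit 202) (nat_lit 5) (nat_lit 458) (nat_lit 432) (nat_lit 310))) (XT.nd (nat_lit 78) (nat_lit 76) (nat_lit 0) (XT.lf (nat_lit 0) (nat_lit 681742135) (nat_lit 304) (nat_lit 39218391792) (nat_lit 380) (nat_lit 253408322) (nat_lit 192) (nat_lit 5) (nat_lit 196) (nat_lit 5) (nat_lit 197) (nat_lit 5) (nat_lit 459) (nat_lit 432) (nat_lit 309)) (XT.lf (nat_lit 0) (nat_lit 12777101301) (nat_lit 380) (nat_lit 574116877) (nat_lit 76) (nat_lit 27994862801) (nat_lit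 191) (nat_lit 5) (nat_lit 196) (nat_lit 5) (nat_lit 192) (nat_lit 5) (nat_lit 460) (nat_lit 432) (nat_lit 308))))))) (XT.nd (nat_lit 1014) (nat_lit 2964) (nat_lit 0) (XT.nd (nat_lit 468) (nat_lit 1976) (nat_lit 0) (XT.nd (nat_lit 234) (nat_lit 988) (nat_lit 0) (XT.nd (nat_lit 78) (nat_lit 684) (nat_lit 0) (XT.lf (nat_lit 0) (nat_lit 26978775056) (nat_lit 456) (nat_lit 1665172150) (nat_lit 76) (nat_lit 13938478175) (nat_lit 186) (nat_lit 5) (nat_lit 192) (nat_lit 5) (nat_lit 187) (nat_lit 5) (nat_lit 461) (nat_lit 432) (nat_lit 307)) (XT.nd (nat_lit 78) (nat_lit 380) (nat_lit 0) (XT.lf (nat_lit 0) (nat_lit 41276434159) (nat_lit 304) (nat_lit 1145302772) (nat_lit 380) (nat_lit 1442914311) (nat_lit 182) (nat_lit 5) (nat_lit 186) (nat_lit 5) (nat_lit 187) (nat_lit 5) (nat_lit 462) (nat_lit 432) (nat_lit 306)) (XT.lf (nat_lit 0) (nat_lit 13849456215) (nat_lit 380) (nat_lit 3598284488) (nat_lit 76) (nat_lit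 27738808774) (nat_lit 177) (nat_lit 5) (nat_lit 182) (nat_lit 5) (nat_lit 178) (nat_lit 5) (nat_lit 463) (nat_lit 432) (nat_lit 305)))) (XT.nd (nat_lit 78) (nat_lit 684) (nat_lit 0) (XT.lf (nat_lit 0) (nat_lit 30430114288) (nat_lit 380) (nat_lit 4432508623) (nat_lit 76) (nat_lit 11694886131) (nat_lit 173) (nat_lit 5) (nat_lit 178) (nat_lit 5) (nat_lit 174) (nat_lit 5) (nat_lit 464) (nat_lit 432) (nat_lit 304)) (XT.nd (nat_lit 78) (nat_lit 304) (nat_lit 0) (XT.lf (nat_lit 0) (nat_lit 471769719) (nat_lit 380) (nat_lit 5117971636) (nat_lit 76) (nat_lit 42388543471) (nat_lit 168) (nat_lit 5) (nat_lit 173) (nat_lit 5) (nat_lit 169) (nat_lit 5) (nat_lit 465) (nat_lit 432) (nat_lit 303)) (XT.lf (nat_lit 0) (nat_lit 18280104386) (nat_lit 380) (nat_lit 5874180698) (nat_lit 76) (nat_lit 25289641754) (nat_lit 164) (nat_lit 5) (nat_lit 169) (nat_lit 5) (nat_lit 165) (nat_lit 5) (nat_lit 466) (nat_lit 432)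 (nat_lit 302))))) (XT.nd (nat_lit 234) (nat_lit 1064) (nat_lit 0) (XT.nd (nat_lit 78) (nat_lit 608) (nat_lit 0) (XT.lf (nat_lit 0) (nat_lit 37580300174) (nat_lit 380) (nat_lit 6412269254) (nat_lit 76) (nat_lit 6972238464) (nat_lit 160) (nat_lit 5) (nat_lit 165) (nat_lit 5) (nat_lit 161) (nat_lit 5) (nat_lit 467) (nat_lit 432) (nat_lit 301)) (XT.nd (nat_lit 78) (nat_lit 304) (nat_lit 0) (XT.lf (nat_lit 0) (nat_lit 5926842584) (nat_lit 304) (nat_lit 6895108115) (nat_lit 76) (nat_lit 39715873571) (nat_lit 156) (nat_lit 5) (nat_lit 160) (nat_lit 5) (nat_lit 157) (nat_lit 5) (nat_lit 468) (nat_lit 432) (nat_lit 300)) (XT.lf (nat_lit 0) (nat_lit 26640779369) (nat_lit 380) (nat_lit 7347264919) (nat_lit 76) (nat_lit 20176056891) (nat_lit 152) (nat_lit 5) (nat_lit 157) (nat_lit 5) (nat_lit 153) (nat_lit 5) (nat_lit 469) (nat_lit 432) (nat_lit 299)))) (XT.nd (nat_lit 156) (nat_lit 532) (nat_lit 0) (XT.nd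 (nat_lit 78) (nat_lit 304) (nat_lit 0) (XT.lf (nat_lit 0) (nat_lit 48293111602) (nat_lit 228) (nat_lit 757565501) (nat_lit 304) (nat_lit 6801207139) (nat_lit 149) (nat_lit 5) (nat_lit 152) (nat_lit 5) (nat_lit 153) (nat_lit 5) (nat_lit 470) (nat_lit 432) (nat_lit 298)) (XT.lf (nat_lit 0) (nat_lit 15552951395) (nat_lit 304) (nat_lit 7866297999) (nat_lit 76) (nat_lit 34173859898) (nat_lit 145) (nat_lit 5) (nat_lit 149) (nat_lit 5) (nat_lit 146) (nat_lit 5) (nat_lit 471) (nat_lit 432) (nat_lit 297))) (XT.nd (nat_lit 78) (nat_lit 304) (nat_lit 0) (XT.lf (nat_lit 0) (nat_lit 39578350679) (nat_lit 304) (nat_lit 7981731239) (nat_lit 76) (nat_lit 11838467953) (nat_lit 142) (nat_lit 5) (nat_lit 146) (nat_lit 5) (nat_lit 143) (nat_lit 5) (nat_lit 472) (nat_lit 432) (nat_lit 296)) (XT.lf (nat_lit 0) (nat_lit 4276570718) (nat_lit 304) (nat_lit 7978924642) (nat_lit 76) (nat_lit 49012725256) (nat_lit 138) (nat_lit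 5) (nat_lit 142) (nat_lit 5) (nat_lit 139) (nat_lit 5) (nat_lit 473) (nat_lit 432) (nat_lit 295)))))) (XT.nd (nat_lit 546) (nat_lit 1368) (nat_lit 0) (XT.nd (nat_lit 234) (nat_lit 912) (nat_lit 0) (XT.nd (nat_lit 78) (nat_lit 456) (nat_lit 0) (XT.lf (nat_lit 0) (nat_lit 30029940019) (nat_lit 304) (nat_lit 8018542466) (nat_lit 76) (nat_lit 25151155214) (nat_lit 135) (nat_lit 5) (nat_lit 139) (nat_lit 5) (nat_lit 136) (nat_lit 5) (nat_lit 474) (nat_lit 432) (nat_lit 294)) (XT.nd (nat_lit 78) (nat_lit 228) (nat_lit 0) (XT.lf (nat_lit 0) (nat_lit 57429384670) (nat_lit 228) (nat_lit 395833792) (nat_lit 304) (nat_lit 7379780125) (nat_lit 132) (nat_lit 5) (nat_lit 135) (nat_lit 5) (nat_lit 136) (nat_lit 5) (nat_lit 475) (nat_lit 432) (nat_lit 293)) (XT.lf (nat_lit 0) (nat_lit 20355427887) (nat_lit 228) (nat_lit 7687808960) (nat_lit 76) (nat_lit 39230503720) (nat_lit 129) (nat_lit 5) (nat_lit 132) (nat_lit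 5) (nat_lit 130) (nat_lit 5) (nat_lit 476) (nat_lit 432) (nat_lit 292)))) (XT.nd (nat_lit 156) (nat_lit 456) (nat_lit 0) (XT.nd (nat_lit 78) (nat_lit 228) (nat_lit 0) (XT.lf (nat_lit 0) (nat_lit 50121166408) (nat_lit 304) (nat_lit 7379175358) (nat_lit 76) (nat_lit 11919494158) (nat_lit 126) (nat_lit 5) (nat_lit 130) (nat_lit 5) (nat_lit 127) (nat_lit 5) (nat_lit 477) (nat_lit 432) (nat_lit 291)) (XT.lf (nat_lit 0) (nat_lit 10503284759) (nat_lit 228) (nat_lit 7029500708) (nat_lit 76) (nat_lit 54107933415) (nat_lit 123) (nat_lit 5) (nat_lit 126) (nat_lit 5) (nat_lit 124) (nat_lit 5) (nat_lit 478) (nat_lit 432) (nat_lit 290))) (XT.nd (nat_lit 78) (nat_lit 228) (nat_lit 0) (XT.lf (nat_lit 0) (nat_lit 42365388908) (nat_lit 304) (nat_lit 6689495053) (nat_lit 76) (nat_lit 24882954532) (nat_lit 120) (nat_lit 5) (nat_lit 124) (nat_lit 5) (nat_lit 121) (nat_lit 5) (nat_lit 479) (nat_lit 432) (nat_lit 289))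 (XT.lf (nat_lit 0) (nat_lit 411375425) (nat_lit 228) (nat_lit 6101081645) (nat_lit 76) (nat_lit 69809601823) (nat_lit 117) (nat_lit 5) (nat_lit 120) (nat_lit 5) (nat_lit 118) (nat_lit 5) (nat_lit 480) (nat_lit 432) (nat_lit 288))))) (XT.nd (nat_lit 234) (nat_lit 760) (nat_lit 0) (XT.nd (nat_lit 78) (nat_lit 380) (nat_lit 0) (XT.lf (nat_lit 0) (nat_lit 34496332735) (nat_lit 304) (nat_lit 5770852755) (nat_lit 76) (nat_lit 38514279751) (nat_lit 114) (nat_lit 5) (nat_lit 118) (nat_lit 5) (nat_lit 115) (nat_lit 5) (nat_lit 481) (nat_lit 432) (nat_lit 287)) (XT.nd (nat_lit 78) (nat_lit 228) (nat_lit 0) (XT.lf (nat_lit 0) (nat_lit 71193139471) (nat_lit 228) (nat_lit 5128739198) (nat_lit 76) (nat_lit 5014735300) (nat_lit 112) (nat_lit 5) (nat_lit 115) (nat_lit 5) (nat_lit 113) (nat_lit 5) (nat_lit 482) (nat_lit 432) (nat_lit 286)) (XT.lf (nat_lit 0) (nat_lit 26443019766) (nat_lit 228) (nat_lit 4715248475)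 (nat_lit 76) (nat_lit 52816658484) (nat_lit 109) (nat_lit 5) (nat_lit 112) (nat_lit 5) (nat_lit 110) (nat_lit 5) (nat_lit 483) (nat_lit 432) (nat_lit 285)))) (XT.nd (nat_lit 156) (nat_lit 380) (nat_lit 0) (XT.nd (nat_lit 78) (nat_lit 228) (nat_lit 0) (XT.lf (nat_lit 0) (nat_lit 65661764482) (nat_lit 228) (nat_lit 4146171848) (nat_lit 76) (nat_lit 16903824721) (nat_lit 107) (nat_lit 5) (nat_lit 110) (nat_lit 5) (nat_lit 108) (nat_lit 5) (nat_lit 484) (nat_lit 432) (nat_lit 284)) (XT.lf (nat_lit 0) (nat_lit 18118524207) (nat_lit 228) (nat_lit 3643901256) (nat_lit 76) (nat_lit 67782058209) (nat_lit 104) (nat_lit 5) (nat_lit 107) (nat_lit 5) (nat_lit 105) (nat_lit 5) (nat_lit 485) (nat_lit 432) (nat_lit 283))) (XT.nd (nat_lit 78) (nat_lit 228) (nat_lit 0) (XT.lf (nat_lit 0) (nat_lit 60001387743) (nat_lit 228) (nat_lit 3225165041) (nat_lit 76) (nat_lit 29250299363) (nat_lit 102) (nat_lit 5) (nat_lit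 105) (nat_lit 5) (nat_lit 103) (nat_lit 5) (nat_lit 486) (nat_lit 432) (nat_lit 282)) (XT.lf (nat_lit 0) (nat_lit 9416751721) (nat_lit 228) (nat_lit 2713558301) (nat_lit 76) (nat_lit 83388343700) (nat_lit 99) (nat_lit 5) (nat_lit 102) (nat_lit 5) (nat_lit 100) (nat_lit 5) (nat_lit 487) (nat_lit 432) (nat_lit 281))))))))
noncomputable def xc98 : XT := (XT.nd (nat_lit 59592) (nat_lit 0) (nat_lit 3724) (XT.nd (nat_lit 58578) (nat_lit 0) (nat_lit 12920) (XT.nd (nat_lit 468) (nat_lit 456) (nat_lit 0) (XT.nd (nat_lit 234) (nat_lit 456) (nat_lit 0) (XT.nd (nat_lit 78) (nat_lit 380) (nat_lit 0) (XT.lf (nat_lit 0) (nat_lit 54108310996) (nat_lit 228) (nat_lit 2543314819) (nat_lit 76) (nat_lit 42009982216) (nat_lit 97) (nat_lit 5) (nat_lit 100) (nat_lit 5) (nat_lit 98) (nat_lit 5) (nat_lit 488) (nat_lit 432) (nat_lit 280)) (XT.nd (nat_lit 78) (nat_lit 152) (nat_lit 0) (XT.lf (nat_lit 0) (nat_lit 208626654)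 (nat_lit 228) (nat_lit 2123988840) (nat_lit 76) (nat_lit 99595828205) (nat_lit 94) (nat_lit 5) (nat_lit 97) (nat_lit 5) (nat_lit 95) (nat_lit 5) (nat_lit 489) (nat_lit 432) (nat_lit 279)) (XT.lf (nat_lit 0) (nat_lit 47854641158) (nat_lit 228) (nat_lit 2325517628) (nat_lit 76) (nat_lit 55118206025) (nat_lit 92) (nat_lit 5) (nat_lit 95) (nat_lit 5) (nat_lit 93) (nat_lit 5) (nat_lit 490) (nat_lit 432) (nat_lit 278)))) (XT.nd (nat_lit 78) (nat_lit 304) (nat_lit 0) (XT.lf (nat_lit 0) (nat_lit 99023425453) (nat_lit 228) (nat_lit 2294976975) (nat_lit 76) (nat_lit 7484165541) (nat_lit 90) (nat_lit 5) (nat_lit 93) (nat_lit 5) (nat_lit 91) (nat_lit 4) (nat_lit 491) (nat_lit 432) (nat_lit 277)) (XT.nd (nat_lit 78) (nat_lit 152) (nat_lit 0) (XT.lf (nat_lit 0) (nat_lit 41083455225) (nat_lit 152) (nat_lit 2853648748) (nat_lit 76) (nat_lit 68485247529) (nat_lit 88) (nat_lit 5) (nat_lit 90) (nat_lit 5) (nat_lit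 89) (nat_lit 5) (nat_lit 492) (nat_lit 432) (nat_lit 276)) (XT.lf (nat_lit 0) (nat_lit 95564236417) (nat_lit 228) (nat_lit 3404946704) (nat_lit 76) (nat_lit 17212717415) (nat_lit 86) (nat_lit 5) (nat_lit 89) (nat_lit 5) (nat_lit 87) (nat_lit 4) (nat_lit 493) (nat_lit 432) (nat_lit 275))))) (XT.nd (nat_lit 57798) (nat_lit 0) (nat_lit 17480) (XT.nd (nat_lit 156) (nat_lit 304) (nat_lit 0) (XT.lf (nat_lit 0) (nat_lit 33603082748) (nat_lit 152) (nat_lit 4478022015) (nat_lit 76) (nat_lit 81990898652) (nat_lit 84) (nat_lit 5) (nat_lit 86) (nat_lit 5) (nat_lit 85) (nat_lit 5) (nat_lit 494) (nat_lit 432) (nat_lit 274)) (XT.nd (nat_lit 57564) (nat_lit 0) (nat_lit 17404) (XT.lf (nat_lit 0) (nat_lit 25180351086) (nat_lit 152) (nat_lit 7630944445) (nat_lit 76) (nat_lit 95478021120) (nat_lit 80) (nat_lit 5) (nat_lit 82) (nat_lit 5) (nat_lit 81) (nat_lit 5) (nat_lit 496) (nat_lit 432) (nat_lit 272)) (XT.lf (nat_lit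 0) (nat_lit 3722624233) (nat_lit 1292) (nat_lit 3244838037) (nat_lit 1292) (nat_lit 3244838037) (nat_lit 309) (nat_lit 3) (nat_lit 326) (nat_lit 3) (nat_lit 326) (nat_lit 5) (nat_lit 433) (nat_lit 433) (nat_lit 334)))) (XT.nd (nat_lit 156) (nat_lit 0) (nat_lit 76) (XT.nd (nat_lit 78) (nat_lit 0) (nat_lit 0) (XT.lf (nat_lit 0) (nat_lit 8017732395) (nat_lit 1216) (nat_lit 10349825136) (nat_lit 1292) (nat_lit 2556043524) (nat_lit 310) (nat_lit 5) (nat_lit 326) (nat_lit 5) (nat_lit 327) (nat_lit 5) (nat_lit 434) (nat_lit 433) (nat_lit 333)) (XT.lf (nat_lit 76) (nat_lit 7169764853) (nat_lit 0) (nat_lit 1709498982) (nat_lit 1292) (nat_lit 12560476519) (nat_lit 311) (nat_lit 5) (nat_lit 310) (nat_lit 5) (nat_lit 327) (nat_lit 5) (nat_lit 435) (nat_lit 433) (nat_lit 332))) (XT.nd (nat_lit 78) (nat_lit 0) (nat_lit 76) (XT.lf (nat_lit 76) (nat_lit 3713248268) (nat_lit 0) (nat_lit 6349773796) (nat_lit 1292)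 (nat_lit 11910291511) (nat_lit 312) (nat_lit 5) (nat_lit 311) (nat_lit 5) (nat_lit 328) (nat_lit 5) (nat_lit 436) (nat_lit 433) (nat_lit 331)) (XT.lf (nat_lit 76) (nat_lit 232667867) (nat_lit 0) (nat_lit 11334042437) (nat_lit 1292) (nat_lit 10959034283) (nat_lit 313) (nat_lit 5) (nat_lit 312) (nat_lit 5) (nat_lit 329) (nat_lit 5) (nat_lit 437) (nat_lit 433) (nat_lit 330)))))) (XT.nd (nat_lit 468) (nat_lit 3800) (nat_lit 0) (XT.nd (nat_lit 234) (nat_lit 988) (nat_lit 0) (XT.nd (nat_lit 78) (nat_lit 0) (nat_lit 76) (XT.lf (nat_lit 0) (nat_lit 13445718551) (nat_lit 1216) (nat_lit 3205168052) (nat_lit 1292) (nat_lit 6445907806) (nat_lit 313) (nat_lit 5) (nat_lit 329) (nat_lit 5) (nat_lit 330) (nat_lit 5) (nat_lit 438) (nat_lit 433) (nat_lit 329)) (XT.nd (nat_lit 78) (nat_lit 0) (nat_lit 0) (XT.lf (nat_lit 0) (nat_lit 15696271078) (nat_lit 1216) (nat_lit 6655740789) (nat_lit 1292) (nat_lit 1336058301)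 (nat_lit 314) (nat_lit 5) (nat_lit 330) (nat_lit 5) (nat_lit 331) (nat_lit 5) (nat_lit 439) (nat_lit 433) (nat_lit 328)) (XT.lf (nat_lit 76) (nat_lit 14138562253) (nat_lit 0) (nat_lit 4244926813) (nat_lit 1292) (nat_lit 5915697718) (nat_lit 315) (nat_lit 5) (nat_lit 314) (nat_lit 5) (nat_lit 331) (nat_lit 5) (nat_lit 440) (nat_lit 433) (nat_lit 327)))) (XT.nd (nat_lit 78) (nat_lit 1140) (nat_lit 0) (XT.lf (nat_lit 76) (nat_lit 11239720300) (nat_lit 0) (nat_lit 10271951676) (nat_lit 1292) (nat_lit 3419990281) (nat_lit 316) (nat_lit 5) (nat_lit 315) (nat_lit 5) (nat_lit 332) (nat_lit 5) (nat_lit 441) (nat_lit 433) (nat_lit 326)) (XT.nd (nat_lit 78) (nat_lit 1216) (nat_lit 0) (XT.lf (nat_lit 76) (nat_lit 8354553232) (nat_lit 0) (nat_lit 16742877406) (nat_lit 1292) (nat_lit 489296958) (nat_lit 317) (nat_lit 5) (nat_lit 316) (nat_lit 5) (nat_lit 333) (nat_lit 5) (nat_lit 442) (nat_lit 433) (nat_lit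 325)) (XT.lf (nat_lit 0) (nat_lit 2850087449) (nat_lit 1292) (nat_lit 20804381084) (nat_lit 76) (nat_lit 2609952687) (nat_lit 300) (nat_lit 5) (nat_lit 317) (nat_lit 5) (nat_lit 301) (nat_lit 5) (nat_lit 443) (nat_lit 433) (nat_lit 324))))) (XT.nd (nat_lit 234) (nat_lit 2356) (nat_lit 0) (XT.nd (nat_lit 78) (nat_lit 608) (nat_lit 0) (XT.lf (nat_lit 0) (nat_lit 2540212499) (nat_lit 836) (nat_lit 4167548074) (nat_lit 912) (nat_lit 20257251410) (nat_lit 289) (nat_lit 5) (nat_lit 300) (nat_lit 5) (nat_lit 301) (nat_lit 5) (nat_lit 444) (nat_lit 433) (nat_lit 323)) (XT.nd (nat_lit 78) (nat_lit 608) (nat_lit 0) (XT.lf (nat_lit 0) (nat_lit 11120467488) (nat_lit 912) (nat_lit 376176493) (nat_lit 76) (nat_lit 16193124715) (nat_lit 289) (nat_lit 5) (nat_lit 301) (nat_lit 5) (nat_lit 290) (nat_lit 5) (nat_lit 445) (nat_lit 433) (nat_lit 322)) (XT.lf (nat_lit 0) (nat_lit 16118278394) (nat_lit 684) (nat_lit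 3214481050) (nat_lit 76) (nat_lit 9107070614) (nat_lit 281) (nat_lit 5) (nat_lit 290) (nat_lit 5) (nat_lit 282) (nat_lit 5) (nat_lit 446) (nat_lit 433) (nat_lit 321)))) (XT.nd (nat_lit 156) (nat_lit 1216) (nat_lit 0) (XT.nd (nat_lit 78) (nat_lit 532) (nat_lit 0) (XT.lf (nat_lit 0) (nat_lit 21713812878) (nat_lit 684) (nat_lit 6017065395) (nat_lit 76) (nat_lit 1486082054) (nat_lit 273) (nat_lit 5) (nat_lit 282) (nat_lit 5) (nat_lit 274) (nat_lit 5) (nat_lit 447) (nat_lit 433) (nat_lit 320)) (XT.lf (nat_lit 0) (nat_lit 21178444551) (nat_lit 532) (nat_lit 6833347443) (nat_lit 608) (nat_lit 2008475867) (nat_lit 266) (nat_lit 5) (nat_lit 273) (nat_lit 5) (nat_lit 274) (nat_lit 5) (nat_lit 448) (nat_lit 433) (nat_lit 319))) (XT.nd (nat_lit 78) (nat_lit 532) (nat_lit 0) (XT.lf (nat_lit 0) (nat_lit 4074752589) (nat_lit 684) (nat_lit 11675027165) (nat_lit 76) (nat_lit 15101260802) (nat_lit 257) (nat_lit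 5) (nat_lit 266) (nat_lit 5) (nat_lit 258) (nat_lit 5) (nat_lit 449) (nat_lit 433) (nat_lit 318)) (XT.lf (nat_lit 0) (nat_lit 10802338230) (nat_lit 608) (nat_lit 14479435593) (nat_lit 76) (nat_lit 6429530159) (nat_lit 250) (nat_lit 5) (nat_lit 258) (nat_lit 5) (nat_lit 251) (nat_lit 5) (nat_lit 450) (nat_lit 433) (nat_lit 317))))))) (XT.nd (nat_lit 1014) (nat_lit 4028) (nat_lit 0) (XT.nd (nat_lit 468) (nat_lit 2356) (nat_lit 0) (XT.nd (nat_lit 234) (nat_lit 1292) (nat_lit 0) (XT.nd (nat_lit 78) (nat_lit 988) (nat_lit 0) (XT.lf (nat_lit 0) (nat_lit 15346974452) (nat_lit 532) (nat_lit 2938675114) (nat_lit 608) (nat_lit 14316351285) (nat_lit 243) (nat_lit 5) (nat_lit 250) (nat_lit 5) (nat_lit 251) (nat_lit 5) (nat_lit 451) (nat_lit 433) (nat_lit 316)) (XT.nd (nat_lit 78) (nat_lit 532) (nat_lit 0) (XT.lf (nat_lit 0) (nat_lit 13489592714) (nat_lit 456) (nat_lit 13122788222) (nat_lit 532) (nat_lit 6910774624)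 (nat_lit 237) (nat_lit 5) (nat_lit 243) (nat_lit 5) (nat_lit 244) (nat_lit 5) (nat_lit 452) (nat_lit 433) (nat_lit 315)) (XT.lf (nat_lit 0) (nat_lit 1265489859) (nat_lit 532) (nat_lit 22754440211) (nat_lit 76) (nat_lit 10457670352) (nat_lit 230) (nat_lit 5) (nat_lit 237) (nat_lit 5) (nat_lit 231) (nat_lit 5) (nat_lit 453) (nat_lit 433) (nat_lit 314)))) (XT.nd (nat_lit 78) (nat_lit 836) (nat_lit 0) (XT.lf (nat_lit 0) (nat_lit 9994301728) (nat_lit 456) (nat_lit 143755668) (nat_lit 532) (nat_lit 25326745526) (nat_lit 224) (nat_lit 5) (nat_lit 230) (nat_lit 5) (nat_lit 231) (nat_lit 5) (nat_lit 454) (nat_lit 433) (nat_lit 313)) (XT.nd (nat_lit 78) (nat_lit 380) (nat_lit 0) (XT.lf (nat_lit 0) (nat_lit 8271931333) (nat_lit 456) (nat_lit 11730558576) (nat_lit 532) (nat_lit 16482429069) (nat_lit 218) (nat_lit 5) (nat_lit 224) (nat_lit 5) (nat_lit 225) (nat_lit 5) (nat_lit 455) (nat_lit 433) (nat_lit 312))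 (XT.lf (nat_lit 0) (nat_lit 6674424686) (nat_lit 380) (nat_lit 24137135132) (nat_lit 456) (nat_lit 6730939051) (nat_lit 213) (nat_lit 5) (nat_lit 218) (nat_lit 5) (nat_lit 219) (nat_lit 5) (nat_lit 456) (nat_lit 433) (nat_lit 311))))) (XT.nd (nat_lit 234) (nat_lit 1064) (nat_lit 0) (XT.nd (nat_lit 78) (nat_lit 760) (nat_lit 0) (XT.lf (nat_lit 0) (nat_lit 3906692260) (nat_lit 532) (nat_lit 33461981817) (nat_lit 76) (nat_lit 1269261787) (nat_lit 206) (nat_lit 5) (nat_lit 213) (nat_lit 5) (nat_lit 207) (nat_lit 5) (nat_lit 457) (nat_lit 433) (nat_lit 310)) (XT.nd (nat_lit 78) (nat_lit 380) (nat_lit 0) (XT.lf (nat_lit 0) (nat_lit 3635928828) (nat_lit 380) (nat_lit 11895071465) (nat_lit 456) (nat_lit 24237325531) (nat_lit 201) (nat_lit 5) (nat_lit 206) (nat_lit 5) (nat_lit 207) (nat_lit 5) (nat_lit 458) (nat_lit 433) (nat_lit 309)) (XT.lf (nat_lit 0) (nat_lit 2231598717) (nat_lit 380) (nat_lit 26010464234)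 (nat_lit 456) (nat_lit 12698006580) (nat_lit 196) (nat_lit 5) (nat_lit 201) (nat_lit 5) (nat_lit 202) (nat_lit 5) (nat_lit 459) (nat_lit 433) (nat_lit 308)))) (XT.nd (nat_lit 156) (nat_lit 684) (nat_lit 0) (XT.nd (nat_lit 78) (nat_lit 76) (nat_lit 0) (XT.lf (nat_lit 0) (nat_lit 991039946) (nat_lit 304) (nat_lit 41101909322) (nat_lit 380) (nat_lit 62323441) (nat_lit 192) (nat_lit 5) (nat_lit 196) (nat_lit 5) (nat_lit 197) (nat_lit 5) (nat_lit 460) (nat_lit 433) (nat_lit 307)) (XT.lf (nat_lit 0) (nat_lit 13606222364) (nat_lit 380) (nat_lit 336919162) (nat_lit 76) (nat_lit 29464524062) (nat_lit 191) (nat_lit 5) (nat_lit 196) (nat_lit 5) (nat_lit 192) (nat_lit 5) (nat_lit 461) (nat_lit 433) (nat_lit 306))) (XT.nd (nat_lit 78) (nat_lit 304) (nat_lit 0) (XT.lf (nat_lit 0) (nat_lit 28512119314) (nat_lit 456) (nat_lit 1485344736) (nat_lit 76) (nat_lit 14708539520) (nat_lit 186) (nat_lit 5) (nat_lit 192)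 (nat_lit 5) (nat_lit 187) (nat_lit 5) (nat_lit 462) (nat_lit 433) (nat_lit 305)) (XT.lf (nat_lit 0) (nat_lit 43595800580) (nat_lit 304) (nat_lit 1125103941) (nat_lit 380) (nat_lit 1331626467) (nat_lit 182) (nat_lit 5) (nat_lit 186) (nat_lit 5) (nat_lit 187) (nat_lit 5) (nat_lit 463) (nat_lit 433) (nat_lit 304)))))) (XT.nd (nat_lit 546) (nat_lit 1748) (nat_lit 0) (XT.nd (nat_lit 234) (nat_lit 1216) (nat_lit 0) (XT.nd (nat_lit 78) (nat_lit 684) (nat_lit 0) (XT.lf (nat_lit 0) (nat_lit 14716387964) (nat_lit 380) (nat_lit 3522021359) (nat_lit 76) (nat_lit 29202224249) (nat_lit 177) (nat_lit 5) (nat_lit 182) (nat_lit 5) (nat_lit 178) (nat_lit 5) (nat_lit 464) (nat_lit 433) (nat_lit 303)) (XT.nd (nat_lit 78) (nat_lit 380) (nat_lit 0) (XT.lf (nat_lit 0) (nat_lit 32120935121) (nat_lit 380) (nat_lit 4401006325) (nat_lit 76) (nat_lit 12358354442) (nat_lit 173) (nat_lit 5) (nat_lit 178) (nat_lit 5) (nat_lit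 174) (nat_lit 5) (nat_lit 465) (nat_lit 433) (nat_lit 302)) (XT.lf (nat_lit 0) (nat_lit 660602678) (nat_lit 380) (nat_lit 5124701191) (nat_lit 76) (nat_lit 44586929402) (nat_lit 168) (nat_lit 5) (nat_lit 173) (nat_lit 5) (nat_lit 169) (nat_lit 5) (nat_lit 466) (nat_lit 433) (nat_lit 301)))) (XT.nd (nat_lit 156) (nat_lit 608) (nat_lit 0) (XT.nd (nat_lit 78) (nat_lit 304) (nat_lit 0) (XT.lf (nat_lit 0) (nat_lit 19354603154) (nat_lit 380) (nat_lit 5921855313) (nat_lit 76) (nat_lit 26634841845) (nat_lit 164) (nat_lit 5) (nat_lit 169) (nat_lit 5) (nat_lit 165) (nat_lit 5) (nat_lit 467) (nat_lit 433) (nat_lit 300)) (XT.lf (nat_lit 0) (nat_lit 39615269283) (nat_lit 380) (nat_lit 6490044561) (nat_lit 76) (nat_lit 7403048144) (nat_lit 160) (nat_lit 5) (nat_lit 165) (nat_lit 5) (nat_lit 161) (nat_lit 5) (nat_lit 468) (nat_lit 433) (nat_lit 299))) (XT.nd (nat_lit 78) (nat_lit 304) (nat_lit 0) (XT.lf (nat_lit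 0) (nat_lit 6375480013) (nat_lit 304) (nat_lit 7000948198) (nat_lit 76) (nat_lit 41783711315) (nat_lit 156) (nat_lit 5) (nat_lit 160) (nat_lit 5) (nat_lit 157) (nat_lit 5) (nat_lit 469) (nat_lit 433) (nat_lit 298)) (XT.lf (nat_lit 0) (nat_lit 28120907331) (nat_lit 380) (nat_lit 7478951407) (nat_lit 76) (nat_lit 21267998071) (nat_lit 152) (nat_lit 5) (nat_lit 157) (nat_lit 5) (nat_lit 153) (nat_lit 5) (nat_lit 470) (nat_lit 433) (nat_lit 297))))) (XT.nd (nat_lit 234) (nat_lit 988) (nat_lit 0) (XT.nd (nat_lit 78) (nat_lit 532) (nat_lit 0) (XT.lf (nat_lit 0) (nat_lit 50936688314) (nat_lit 228) (nat_lit 709760311) (nat_lit 304) (nat_lit 6993726262) (nat_lit 149) (nat_lit 5) (nat_lit 152) (nat_lit 5) (nat_lit 153) (nat_lit 5) (nat_lit 471) (nat_lit 433) (nat_lit 296)) (XT.nd (nat_lit 78) (nat_lit 228) (nat_lit 0) (XT.lf (nat_lit 0) (nat_lit 16471356079) (nat_lit 304) (nat_lit 8031066276) (nat_lit 76)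 (nat_lit 35966113735) (nat_lit 145) (nat_lit 5) (nat_lit 149) (nat_lit 5) (nat_lit 146) (nat_lit 5) (nat_lit 472) (nat_lit 433) (nat_lit 295)) (XT.lf (nat_lit 0) (nat_lit 41694281393) (nat_lit 304) (nat_lit 8155555931) (nat_lit 76) (nat_lit 12514523976) (nat_lit 142) (nat_lit 5) (nat_lit 146) (nat_lit 5) (nat_lit 143) (nat_lit 5) (nat_lit 473) (nat_lit 433) (nat_lit 294)))) (XT.nd (nat_lit 156) (nat_lit 456) (nat_lit 0) (XT.nd (nat_lit 78) (nat_lit 228) (nat_lit 0) (XT.lf (nat_lit 0) (nat_lit 4624309369) (nat_lit 304) (nat_lit 8156395774) (nat_lit 76) (nat_lit 51546903958) (nat_lit 138) (nat_lit 5) (nat_lit 142) (nat_lit 5) (nat_lit 139) (nat_lit 5) (nat_lit 474) (nat_lit 433) (nat_lit 293)) (XT.lf (nat_lit 0) (nat_lit 31661860512) (nat_lit 304) (nat_lit 8201272115) (nat_lit 76) (nat_lit 26492569260) (nat_lit 135) (nat_lit 5) (nat_lit 139) (nat_lit 5) (nat_lit 136) (nat_lit 5) (nat_lit 475) (nat_lit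 433) (nat_lit 292))) (XT.nd (nat_lit 78) (nat_lit 228) (nat_lit 0) (XT.lf (nat_lit 0) (nat_lit 60512796792) (nat_lit 228) (nat_lit 329932767) (nat_lit 304) (nat_lit 7618726697) (nat_lit 132) (nat_lit 5) (nat_lit 135) (nat_lit 5) (nat_lit 136) (nat_lit 5) (nat_lit 476) (nat_lit 433) (nat_lit 291)) (XT.lf (nat_lit 0) (nat_lit 21497451243) (nat_lit 228) (nat_lit 7860971129) (nat_lit 76) (nat_lit 41275273268) (nat_lit 129) (nat_lit 5) (nat_lit 132) (nat_lit 5) (nat_lit 130) (nat_lit 5) (nat_lit 477) (nat_lit 433) (nat_lit 290))))))))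
noncomputable def xc99 : XT := (XT.nd (nat_lit 59748) (nat_lit 0) (nat_lit 5928) (XT.nd (nat_lit 1014) (nat_lit 912) (nat_lit 0) (XT.nd (nat_lit 468) (nat_lit 1368) (nat_lit 0) (XT.nd (nat_lit 234) (nat_lit 608) (nat_lit 0) (XT.nd (nat_lit 78) (nat_lit 456) (nat_lit 0) (XT.lf (nat_lit 0) (nat_lit 52748347967) (nat_lit 304) (nat_lit 7540163036) (nat_lit 76) (nat_lit 12598678832) (nat_lit 126) (nat_lit 5) (nat_lit 130) (nat_lit 5) (nat_lit 127) (nat_lit 5) (nat_lit 478) (nat_lit 433) (nat_lit 289)) (XT.nd (nat_lit 78) (nat_lit 228) (nat_lit 0) (XT.lf (nat_lit 0) (nat_lit 11146911572) (nat_lit 228) (nat_lit 7176604594) (nat_lit 76) (nat_lit 56895680911) (nat_lit 123) (nat_lit 5) (nat_lit 126) (nat_lit 5) (nat_lit 124) (nat_lit 5) (nat_lit 479) (nat_lit 433) (nat_lit 288)) (XT.lf (nat_lit 0) (nat_lit 44599193456) (nat_lit 304) (nat_lit 6822816711) (nat_lit 76) (nat_lit 26209250511) (nat_lit 120) (nat_lit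 5) (nat_lit 124) (nat_lit 5) (nat_lit 121) (nat_lit 5) (nat_lit 480) (nat_lit 433) (nat_lit 287)))) (XT.nd (nat_lit 78) (nat_lit 380) (nat_lit 0) (XT.lf (nat_lit 0) (nat_lit 544967286) (nat_lit 228) (nat_lit 6208495854) (nat_lit 76) (nat_lit 73381304595) (nat_lit 117) (nat_lit 5) (nat_lit 120) (nat_lit 5) (nat_lit 118) (nat_lit 5) (nat_lit 481) (nat_lit 433) (nat_lit 286)) (XT.nd (nat_lit 78) (nat_lit 152) (nat_lit 0) (XT.lf (nat_lit 0) (nat_lit 36331428713) (nat_lit 304) (nat_lit 5864925914) (nat_lit 76) (nat_lit 40520872248) (nat_lit 114) (nat_lit 5) (nat_lit 118) (nat_lit 5) (nat_lit 115) (nat_lit 5) (nat_lit 482) (nat_lit 433) (nat_lit 285)) (XT.lf (nat_lit 0) (nat_lit 74860428892) (nat_lit 228) (nat_lit 5193861432) (nat_lit 76) (nat_lit 5345922279) (nat_lit 112) (nat_lit 5) (nat_lit 115) (nat_lit 5) (nat_lit 113) (nat_lit 5) (nat_lit 483) (nat_lit 433) (nat_lit 284))))) (XT.nd (nat_lit 234)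 (nat_lit 760) (nat_lit 0) (XT.nd (nat_lit 78) (nat_lit 380) (nat_lit 0) (XT.lf (nat_lit 0) (nat_lit 27870499661) (nat_lit 228) (nat_lit 4763081059) (nat_lit 76) (nat_lit 55536929614) (nat_lit 109) (nat_lit 5) (nat_lit 112) (nat_lit 5) (nat_lit 110) (nat_lit 5) (nat_lit 484) (nat_lit 433) (nat_lit 283)) (XT.nd (nat_lit 78) (nat_lit 228) (nat_lit 0) (XT.lf (nat_lit 0) (nat_lit 69047694239) (nat_lit 228) (nat_lit 4168646384) (nat_lit 76) (nat_lit 17827920512) (nat_lit 107) (nat_lit 5) (nat_lit 110) (nat_lit 5) (nat_lit 108) (nat_lit 5) (nat_lit 485) (nat_lit 433) (nat_lit 282)) (XT.lf (nat_lit 0) (nat_lit 19125109918) (nat_lit 228) (nat_lit 3644554655) (nat_lit 76) (nat_lit 71249020981) (nat_lit 104) (nat_lit 5) (nat_lit 107) (nat_lit 5) (nat_lit 105) (nat_lit 5) (nat_lit 486) (nat_lit 433) (nat_lit 281)))) (XT.nd (nat_lit 156) (nat_lit 380) (nat_lit 0) (XT.nd (nat_lit 78) (nat_lit 228) (nat_lit 0)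 (XT.lf (nat_lit 0) (nat_lit 63099775637) (nat_lit 228) (nat_lit 3207913497) (nat_lit 76) (nat_lit 30790053668) (nat_lit 102) (nat_lit 5) (nat_lit 105) (nat_lit 5) (nat_lit 103) (nat_lit 5) (nat_lit 487) (nat_lit 433) (nat_lit 280)) (XT.lf (nat_lit 0) (nat_lit 9983838576) (nat_lit 228) (nat_lit 2673925600) (nat_lit 76) (nat_lit 87633932537) (nat_lit 99) (nat_lit 5) (nat_lit 102) (nat_lit 5) (nat_lit 100) (nat_lit 5) (nat_lit 488) (nat_lit 433) (nat_lit 279))) (XT.nd (nat_lit 78) (nat_lit 228) (nat_lit 0) (XT.lf (nat_lit 0) (nat_lit 56907769405) (nat_lit 228) (nat_lit 2498133994) (nat_lit 76) (nat_lit 44185961636) (nat_lit 97) (nat_lit 5) (nat_lit 100) (nat_lit 5) (nat_lit 98) (nat_lit 5) (nat_lit 489) (nat_lit 433) (nat_lit 278)) (XT.lf (nat_lit 0) (nat_lit 311136510) (nat_lit 228) (nat_lit 2060947499) (nat_lit 76) (nat_lit 104650017566) (nat_lit 94) (nat_lit 5) (nat_lit 97) (nat_lit 5) (nat_lit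 95) (nat_lit 5) (nat_lit 490) (nat_lit 433) (nat_lit 277)))))) (XT.nd (nat_lit 58188) (nat_lit 0) (nat_lit 17328) (XT.nd (nat_lit 390) (nat_lit 456) (nat_lit 0) (XT.nd (nat_lit 78) (nat_lit 304) (nat_lit 0) (XT.lf (nat_lit 0) (nat_lit 50337369316) (nat_lit 228) (nat_lit 2275445954) (nat_lit 76) (nat_lit 57947766038) (nat_lit 92) (nat_lit 5) (nat_lit 95) (nat_lit 5) (nat_lit 93) (nat_lit 5) (nat_lit 491) (nat_lit 433) (nat_lit 276)) (XT.nd (nat_lit 78) (nat_lit 152) (nat_lit 0) (XT.lf (nat_lit 0) (nat_lit 104062574862) (nat_lit 228) (nat_lit 2246241270) (nat_lit 76) (nat_lit 7931239120) (nat_lit 90) (nat_lit 5) (nat_lit 93) (nat_lit 5) (nat_lit 91) (nat_lit 4) (nat_lit 492) (nat_lit 433) (nat_lit 275)) (XT.lf (nat_lit 0) (nat_lit 43223789513) (nat_lit 152) (nat_lit 2835816462) (nat_lit 76) (nat_lit 71981276619) (nat_lit 88) (nat_lit 5) (nat_lit 90) (nat_lit 5) (nat_lit 89) (nat_lit 5) (nat_lit 493)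 (nat_lit 433) (nat_lit 274)))) (XT.nd (nat_lit 57642) (nat_lit 0) (nat_lit 17252) (XT.lf (nat_lit 0) (nat_lit 96204888744) (nat_lit 228) (nat_lit 5957978433) (nat_lit 76) (nat_lit 28147413142) (nat_lit 82) (nat_lit 5) (nat_lit 85) (nat_lit 5) (nat_lit 83) (nat_lit 4) (nat_lit 496) (nat_lit 433) (nat_lit 271)) (XT.nd (nat_lit 78) (nat_lit 0) (nat_lit 76) (XT.lf (nat_lit 0) (nat_lit 4164109178) (nat_lit 1292) (nat_lit 3275560957) (nat_lit 1292) (nat_lit 3275560957) (nat_lit 309) (nat_lit 3) (nat_lit 326) (nat_lit 3) (nat_lit 326) (nat_lit 5) (nat_lit 434) (nat_lit 434) (nat_lit 332)) (XT.lf (nat_lit 0) (nat_lit 8905220017) (nat_lit 1216) (nat_lit 10594864986) (nat_lit 1292) (nat_lit 2455053088) (nat_lit 310) (nat_lit 5) (nat_lit 326) (nat_lit 5) (nat_lit 327) (nat_lit 5) (nat_lit 435) (nat_lit 434) (nat_lit 331))))) (XT.nd (nat_lit 234) (nat_lit 0) (nat_lit 228) (XT.nd (nat_lit 78) (nat_lit 0) (nat_lit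 76) (XT.lf (nat_lit 76) (nat_lit 7792894738) (nat_lit 0) (nat_lit 1996305713) (nat_lit 1292) (nat_lit 12708504874) (nat_lit 311) (nat_lit 5) (nat_lit 310) (nat_lit 5) (nat_lit 327) (nat_lit 5) (nat_lit 436) (nat_lit 434) (nat_lit 330)) (XT.nd (nat_lit 78) (nat_lit 0) (nat_lit 76) (XT.lf (nat_lit 76) (nat_lit 4171466381) (nat_lit 0) (nat_lit 6839267806) (nat_lit 1292) (nat_lit 12047867433) (nat_lit 312) (nat_lit 5) (nat_lit 311) (nat_lit 5) (nat_lit 328) (nat_lit 5) (nat_lit 437) (nat_lit 434) (nat_lit 329)) (XT.lf (nat_lit 76) (nat_lit 523644399) (nat_lit 0) (nat_lit 12045903399) (nat_lit 1292) (nat_lit 11069710098) (nat_lit 313) (nat_lit 5) (nat_lit 312) (nat_lit 5) (nat_lit 329) (nat_lit 5) (nat_lit 438) (nat_lit 434) (nat_lit 328)))) (XT.nd (nat_lit 156) (nat_lit 0) (nat_lit 76) (XT.nd (nat_lit 78) (nat_lit 0) (nat_lit 76) (XT.lf (nat_lit 0) (nat_lit 14520963166) (nat_lit 1216) (nat_lit 3085890822)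 (nat_lit 1292) (nat_lit 6632654370) (nat_lit 313) (nat_lit 5) (nat_lit 329) (nat_lit 5) (nat_lit 330) (nat_lit 5) (nat_lit 439) (nat_lit 434) (nat_lit 327)) (XT.lf (nat_lit 0) (nat_lit 16866360774) (nat_lit 1216) (nat_lit 6704274294) (nat_lit 1292) (nat_lit 1290245076) (nat_lit 314) (nat_lit 5) (nat_lit 330) (nat_lit 5) (nat_lit 331) (nat_lit 5) (nat_lit 440) (nat_lit 434) (nat_lit 326))) (XT.nd (nat_lit 78) (nat_lit 0) (nat_lit 76) (XT.lf (nat_lit 76) (nat_lit 15121595830) (nat_lit 0) (nat_lit 4550651443) (nat_lit 1292) (nat_lit 5830777768) (nat_lit 315) (nat_lit 5) (nat_lit 314) (nat_lit 5) (nat_lit 331) (nat_lit 5) (nat_lit 441) (nat_lit 434) (nat_lit 325)) (XT.lf (nat_lit 76) (nat_lit 12081572383) (nat_lit 0) (nat_lit 10859502181) (nat_lit 1292) (nat_lit 3226524264) (nat_lit 316) (nat_lit 5) (nat_lit 315) (nat_lit 5) (nat_lit 332) (nat_lit 5) (nat_lit 442) (nat_lit 434) (nat_lit 324)))))))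 (XT.nd (nat_lit 1014) (nat_lit 4864) (nat_lit 0) (XT.nd (nat_lit 468) (nat_lit 3724) (nat_lit 0) (XT.nd (nat_lit 234) (nat_lit 1216) (nat_lit 0) (XT.nd (nat_lit 78) (nat_lit 2052) (nat_lit 0) (XT.lf (nat_lit 76) (nat_lit 9055156521) (nat_lit 0) (nat_lit 17636158260) (nat_lit 1292) (nat_lit 164548368) (nat_lit 317) (nat_lit 5) (nat_lit 316) (nat_lit 5) (nat_lit 333) (nat_lit 5) (nat_lit 443) (nat_lit 434) (nat_lit 323)) (XT.nd (nat_lit 78) (nat_lit 836) (nat_lit 0) (XT.lf (nat_lit 0) (nat_lit 3320935774) (nat_lit 1292) (nat_lit 21552837664) (nat_lit 76) (nat_lit 2693990371) (nat_lit 300) (nat_lit 5) (nat_lit 317) (nat_lit 5) (nat_lit 301) (nat_lit 5) (nat_lit 444) (nat_lit 434) (nat_lit 322)) (XT.lf (nat_lit 0) (nat_lit 2950622286) (nat_lit 836) (nat_lit 4407959048) (nat_lit 912) (nat_lit 20945191453) (nat_lit 289) (nat_lit 5) (nat_lit 300) (nat_lit 5) (nat_lit 301) (nat_lit 5) (nat_lit 445) (nat_lit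 434) (nat_lit 321)))) (XT.nd (nat_lit 78) (nat_lit 1216) (nat_lit 0) (XT.lf (nat_lit 0) (nat_lit 11976609726) (nat_lit 912) (nat_lit 115750190) (nat_lit 76) (nat_lit 16972868113) (nat_lit 289) (nat_lit 5) (nat_lit 301) (nat_lit 5) (nat_lit 290) (nat_lit 5) (nat_lit 446) (nat_lit 434) (nat_lit 320)) (XT.nd (nat_lit 78) (nat_lit 608) (nat_lit 0) (XT.lf (nat_lit 0) (nat_lit 17212461666) (nat_lit 684) (nat_lit 3095131458) (nat_lit 76) (nat_lit 9545556036) (nat_lit 281) (nat_lit 5) (nat_lit 290) (nat_lit 5) (nat_lit 282) (nat_lit 5) (nat_lit 447) (nat_lit 434) (nat_lit 319)) (XT.lf (nat_lit 0) (nat_lit 23076611690) (nat_lit 684) (nat_lit 6037486254) (nat_lit 76) (nat_lit 1555373991) (nat_lit 273) (nat_lit 5) (nat_lit 282) (nat_lit 5) (nat_lit 274) (nat_lit 5) (nat_lit 448) (nat_lit 434) (nat_lit 318))))) (XT.nd (nat_lit 234) (nat_lit 1976) (nat_lit 0) (XT.nd (nat_lit 78) (nat_lit 1216) (nat_lit 0) (XT.lf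 (nat_lit 0) (nat_lit 22509760651) (nat_lit 532) (nat_lit 7169151901) (nat_lit 608) (nat_lit 1834350714) (nat_lit 266) (nat_lit 5) (nat_lit 273) (nat_lit 5) (nat_lit 274) (nat_lit 5) (nat_lit 449) (nat_lit 434) (nat_lit 317)) (XT.nd (nat_lit 78) (nat_lit 532) (nat_lit 0) (XT.lf (nat_lit 0) (nat_lit 4537560905) (nat_lit 684) (nat_lit 11981282944) (nat_lit 76) (nat_lit 15866956219) (nat_lit 257) (nat_lit 5) (nat_lit 266) (nat_lit 5) (nat_lit 258) (nat_lit 5) (nat_lit 450) (nat_lit 434) (nat_lit 316)) (XT.lf (nat_lit 0) (nat_lit 11591974454) (nat_lit 608) (nat_lit 14926561303) (nat_lit 76) (nat_lit 6770828419) (nat_lit 250) (nat_lit 5) (nat_lit 258) (nat_lit 5) (nat_lit 251) (nat_lit 5) (nat_lit 451) (nat_lit 434) (nat_lit 315)))) (XT.nd (nat_lit 156) (nat_lit 988) (nat_lit 0) (XT.nd (nat_lit 78) (nat_lit 456) (nat_lit 0) (XT.lf (nat_lit 0) (nat_lit 16383233508) (nat_lit 532) (nat_lit 3056920908) (nat_lit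 608) (nat_lit 14784721306) (nat_lit 243) (nat_lit 5) (nat_lit 250) (nat_lit 5) (nat_lit 251) (nat_lit 5) (nat_lit 452) (nat_lit 434) (nat_lit 314)) (XT.lf (nat_lit 0) (nat_lit 14432024624) (nat_lit 456) (nat_lit 13742596925) (nat_lit 532) (nat_lit 7017725522) (nat_lit 237) (nat_lit 5) (nat_lit 243) (nat_lit 5) (nat_lit 244) (nat_lit 5) (nat_lit 453) (nat_lit 434) (nat_lit 313))) (XT.nd (nat_lit 78) (nat_lit 456) (nat_lit 0) (XT.lf (nat_lit 0) (nat_lit 1554481803) (nat_lit 532) (nat_lit 23620954876) (nat_lit 76) (nat_lit 11019255949) (nat_lit 230) (nat_lit 5) (nat_lit 237) (nat_lit 5) (nat_lit 231) (nat_lit 5) (nat_lit 454) (nat_lit 434) (nat_lit 312)) (XT.lf (nat_lit 0) (nat_lit 10757450056) (nat_lit 456) (nat_lit 105011493) (nat_lit 532) (nat_lit 26369040965) (nat_lit 224) (nat_lit 5) (nat_lit 230) (nat_lit 5) (nat_lit 231) (nat_lit 5) (nat_lit 455) (nat_lit 434) (nat_lit 311)))))) (XT.nd (nat_lit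 546) (nat_lit 2356) (nat_lit 0) (XT.nd (nat_lit 234) (nat_lit 1140) (nat_lit 0) (XT.nd (nat_lit 78) (nat_lit 912) (nat_lit 0) (XT.lf (nat_lit 0) (nat_lit 8947334082) (nat_lit 456) (nat_lit 12265361543) (nat_lit 532) (nat_lit 17090152088) (nat_lit 218) (nat_lit 5) (nat_lit 224) (nat_lit 5) (nat_lit 225) (nat_lit 5) (nat_lit 456) (nat_lit 434) (nat_lit 310)) (XT.nd (nat_lit 78) (nat_lit 532) (nat_lit 0) (XT.lf (nat_lit 0) (nat_lit 7268100654) (nat_lit 380) (nat_lit 25287086887) (nat_lit 456) (nat_lit 6858330705) (nat_lit 213) (nat_lit 5) (nat_lit 218) (nat_lit 5) (nat_lit 219) (nat_lit 5) (nat_lit 457) (nat_lit 434) (nat_lit 309)) (XT.lf (nat_lit 0) (nat_lit 4300365150) (nat_lit 532) (nat_lit 34873218165) (nat_lit 76) (nat_lit 1390286180) (nat_lit 206) (nat_lit 5) (nat_lit 213) (nat_lit 5) (nat_lit 207) (nat_lit 5) (nat_lit 458) (nat_lit 434) (nat_lit 308)))) (XT.nd (nat_lit 156) (nat_lit 380) (nat_lit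 0) (XT.nd (nat_lit 78) (nat_lit 380) (nat_lit 0) (XT.lf (nat_lit 0) (nat_lit 4072081769) (nat_lit 380) (nat_lit 12426807167) (nat_lit 456) (nat_lit 25252100628) (nat_lit 201) (nat_lit 5) (nat_lit 206) (nat_lit 5) (nat_lit 207) (nat_lit 5) (nat_lit 459) (nat_lit 434) (nat_lit 307)) (XT.lf (nat_lit 0) (nat_lit 2595243328) (nat_lit 380) (nat_lit 27244149954) (nat_lit 456) (nat_lit 13142111106) (nat_lit 196) (nat_lit 5) (nat_lit 201) (nat_lit 5) (nat_lit 202) (nat_lit 5) (nat_lit 460) (nat_lit 434) (nat_lit 306))) (XT.nd (nat_lit 78) (nat_lit 0) (nat_lit 0) (XT.lf (nat_lit 0) (nat_lit 117043061) (nat_lit 380) (nat_lit 42968573872) (nat_lit 76) (nat_lit 1171991198) (nat_lit 191) (nat_lit 5) (nat_lit 196) (nat_lit 5) (nat_lit 192) (nat_lit 5) (nat_lit 461) (nat_lit 434) (nat_lit 305)) (XT.lf (nat_lit 0) (nat_lit 14459110351) (nat_lit 380) (nat_lit 112582754) (nat_lit 76) (nat_lit 31001168063) (nat_lit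 191) (nat_lit 5) (nat_lit 196) (nat_lit 5) (nat_lit 192) (nat_lit 5) (nat_lit 462) (nat_lit 434) (nat_lit 304))))) (XT.nd (nat_lit 234) (nat_lit 1292) (nat_lit 0) (XT.nd (nat_lit 78) (nat_lit 684) (nat_lit 0) (XT.lf (nat_lit 0) (nat_lit 30104986509) (nat_lit 456) (nat_lit 1320985197) (nat_lit 76) (nat_lit 15510304307) (nat_lit 186) (nat_lit 5) (nat_lit 192) (nat_lit 5) (nat_lit 187) (nat_lit 5) (nat_lit 463) (nat_lit 434) (nat_lit 303)) (XT.nd (nat_lit 78) (nat_lit 380) (nat_lit 0) (XT.lf (nat_lit 0) (nat_lit 46007377197) (nat_lit 304) (nat_lit 1111097034) (nat_lit 380) (nat_lit 1231828144) (nat_lit 182) (nat_lit 5) (nat_lit 186) (nat_lit 5) (nat_lit 187) (nat_lit 5) (nat_lit 464) (nat_lit 434) (nat_lit 302)) (XT.lf (nat_lit 0) (nat_lit 15610446762) (nat_lit 380) (nat_lit 3465762015) (nat_lit 76) (nat_lit 30731700574) (nat_lit 177) (nat_lit 5) (nat_lit 182) (nat_lit 5) (nat_lit 178) (nat_lit 5)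 (nat_lit 465) (nat_lit 434) (nat_lit 301)))) (XT.nd (nat_lit 156) (nat_lit 608) (nat_lit 0) (XT.nd (nat_lit 78) (nat_lit 380) (nat_lit 0) (XT.lf (nat_lit 0) (nat_lit 33880555681) (nat_lit 380) (nat_lit 4391462328) (nat_lit 76) (nat_lit 13047677156) (nat_lit 173) (nat_lit 5) (nat_lit 178) (nat_lit 5) (nat_lit 174) (nat_lit 5) (nat_lit 466) (nat_lit 434) (nat_lit 300)) (XT.lf (nat_lit 0) (nat_lit 843514419) (nat_lit 380) (nat_lit 5154932599) (nat_lit 76) (nat_lit 46887893792) (nat_lit 168) (nat_lit 5) (nat_lit 173) (nat_lit 5) (nat_lit 169) (nat_lit 5) (nat_lit 467) (nat_lit 434) (nat_lit 299))) (XT.nd (nat_lit 78) (nat_lit 304) (nat_lit 0) (XT.lf (nat_lit 0) (nat_lit 20467905692) (nat_lit 380) (nat_lit 5994787607) (nat_lit 76) (nat_lit 28039797546) (nat_lit 164) (nat_lit 5) (nat_lit 169) (nat_lit 5) (nat_lit 165) (nat_lit 5) (nat_lit 468) (nat_lit 434) (nat_lit 298)) (XT.lf (nat_lit 0) (nat_lit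 41737487713) (nat_lit 380) (nat_lit 6594285423) (nat_lit 76) (nat_lit 7847756339) (nat_lit 160) (nat_lit 5) (nat_lit 165) (nat_lit 5) (nat_lit 161) (nat_lit 5) (nat_lit 469) (nat_lit 434) (nat_lit 297))))))))
noncomputable def xc100 : XT := (XT.nd (nat_lit 59904) (nat_lit 0) (nat_lit 7296) (XT.nd (nat_lit 1014) (nat_lit 2052) (nat_lit 0) (XT.nd (nat_lit 468) (nat_lit 1596) (nat_lit 0) (XT.nd (nat_lit 234) (nat_lit 836) (nat_lit 0) (XT.nd (nat_lit 78) (nat_lit 532) (nat_lit 0) (XT.lf (nat_lit 0) (nat_lit 6832390340) (nat_lit 304) (nat_lit 7134292368) (nat_lit 76) (nat_lit 43947313267) (nat_lit 156) (nat_lit 5) (nat_lit 160) (nat_lit 5) (nat_lit 157) (nat_lit 5) (nat_lit 470) (nat_lit 434) (nat_lit 296)) (XT.nd (nat_lit 78) (nat_lit 228) (nat_lit 0) (XT.lf (nat_lit 0) (nat_lit 29661273779) (nat_lit 380) (nat_lit 7639133210) (nat_lit 76) (nat_lit 22406806896) (nat_lit 152) (nat_lit 5) (nat_lit 157)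 (nat_lit 5) (nat_lit 153) (nat_lit 5) (nat_lit 471) (nat_lit 434) (nat_lit 295)) (XT.lf (nat_lit 0) (nat_lit 53691160944) (nat_lit 228) (nat_lit 667530897) (nat_lit 304) (nat_lit 7209588326) (nat_lit 149) (nat_lit 5) (nat_lit 152) (nat_lit 5) (nat_lit 153) (nat_lit 5) (nat_lit 472) (nat_lit 434) (nat_lit 294)))) (XT.nd (nat_lit 78) (nat_lit 532) (nat_lit 0) (XT.lf (nat_lit 0) (nat_lit 17422594736) (nat_lit 304) (nat_lit 8225321065) (nat_lit 76) (nat_lit 37840211569) (nat_lit 145) (nat_lit 5) (nat_lit 149) (nat_lit 5) (nat_lit 146) (nat_lit 5) (nat_lit 473) (nat_lit 434) (nat_lit 293)) (XT.nd (nat_lit 78) (nat_lit 304) (nat_lit 0) (XT.lf (nat_lit 0) (nat_lit 43903270456) (nat_lit 304) (nat_lit 8359014570) (nat_lit 76) (nat_lit 13216560946) (nat_lit 142) (nat_lit 5) (nat_lit 146) (nat_lit 5) (nat_lit 143) (nat_lit 5) (nat_lit 474) (nat_lit 434) (nat_lit 292)) (XT.lf (nat_lit 0) (nat_lit 4976985259)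 (nat_lit 304) (nat_lit 8363331118) (nat_lit 76) (nat_lit 54200024612) (nat_lit 138) (nat_lit 5) (nat_lit 142) (nat_lit 5) (nat_lit 139) (nat_lit 5) (nat_lit 475) (nat_lit 434) (nat_lit 291))))) (XT.nd (nat_lit 234) (nat_lit 912) (nat_lit 0) (XT.nd (nat_lit 78) (nat_lit 456) (nat_lit 0) (XT.lf (nat_lit 0) (nat_lit 33363251489) (nat_lit 304) (nat_lit 8413424179) (nat_lit 76) (nat_lit 27893257846) (nat_lit 135) (nat_lit 5) (nat_lit 139) (nat_lit 5) (nat_lit 136) (nat_lit 5) (nat_lit 476) (nat_lit 434) (nat_lit 290)) (XT.nd (nat_lit 78) (nat_lit 228) (nat_lit 0) (XT.lf (nat_lit 0) (nat_lit 63730675078) (nat_lit 228) (nat_lit 268703588) (nat_lit 304) (nat_lit 7881710711) (nat_lit 132) (nat_lit 5) (nat_lit 135) (nat_lit 5) (nat_lit 136) (nat_lit 5) (nat_lit 477) (nat_lit 434) (nat_lit 289)) (XT.lf (nat_lit 0) (nat_lit 22685023997) (nat_lit 228) (nat_lit 8062429410) (nat_lit 76) (nat_lit 43414542021)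 (nat_lit 129) (nat_lit 5) (nat_lit 132) (nat_lit 5) (nat_lit 130) (nat_lit 5) (nat_lit 478) (nat_lit 434) (nat_lit 288)))) (XT.nd (nat_lit 156) (nat_lit 456) (nat_lit 0) (XT.nd (nat_lit 78) (nat_lit 228) (nat_lit 0) (XT.lf (nat_lit 0) (nat_lit 55495627713) (nat_lit 304) (nat_lit 7728535279) (nat_lit 76) (nat_lit 13304086666) (nat_lit 126) (nat_lit 5) (nat_lit 130) (nat_lit 5) (nat_lit 127) (nat_lit 5) (nat_lit 479) (nat_lit 434) (nat_lit 287)) (XT.lf (nat_lit 0) (nat_lit 11811706198) (nat_lit 228) (nat_lit 7350064167) (nat_lit 76) (nat_lit 59815159582) (nat_lit 123) (nat_lit 5) (nat_lit 126) (nat_lit 5) (nat_lit 124) (nat_lit 5) (nat_lit 480) (nat_lit 434) (nat_lit 286))) (XT.nd (nat_lit 78) (nat_lit 228) (nat_lit 0) (XT.lf (nat_lit 0) (nat_lit 46933946873) (nat_lit 304) (nat_lit 6981505759) (nat_lit 76) (nat_lit 27594223923) (nat_lit 120) (nat_lit 5) (nat_lit 124) (nat_lit 5) (nat_lit 121) (nat_lit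 5) (nat_lit 481) (nat_lit 434) (nat_lit 285)) (XT.lf (nat_lit 0) (nat_lit 674730925) (nat_lit 228) (nat_lit 6339655457) (nat_lit 76) (nat_lit 77124041190) (nat_lit 117) (nat_lit 5) (nat_lit 120) (nat_lit 5) (nat_lit 118) (nat_lit 5) (nat_lit 482) (nat_lit 434) (nat_lit 284)))))) (XT.nd (nat_lit 468) (nat_lit 912) (nat_lit 0) (XT.nd (nat_lit 234) (nat_lit 532) (nat_lit 0) (XT.nd (nat_lit 78) (nat_lit 380) (nat_lit 0) (XT.lf (nat_lit 0) (nat_lit 38248026762) (nat_lit 304) (nat_lit 5981782660) (nat_lit 76) (nat_lit 42620275053) (nat_lit 114) (nat_lit 5) (nat_lit 118) (nat_lit 5) (nat_lit 115) (nat_lit 5) (nat_lit 483) (nat_lit 434) (nat_lit 283)) (XT.nd (nat_lit 78) (nat_lit 228) (nat_lit 0) (XT.lf (nat_lit 0) (nat_lit 78701076138) (nat_lit 228) (nat_lit 5280026407) (nat_lit 76) (nat_lit 5686189108) (nat_lit 112) (nat_lit 5) (nat_lit 115) (nat_lit 5) (nat_lit 113) (nat_lit 5) (nat_lit 484) (nat_lit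 434) (nat_lit 282)) (XT.lf (nat_lit 0) (nat_lit 29359561067) (nat_lit 228) (nat_lit 4830777208) (nat_lit 76) (nat_lit 58385828889) (nat_lit 109) (nat_lit 5) (nat_lit 112) (nat_lit 5) (nat_lit 110) (nat_lit 5) (nat_lit 485) (nat_lit 434) (nat_lit 281)))) (XT.nd (nat_lit 78) (nat_lit 380) (nat_lit 0) (XT.lf (nat_lit 0) (nat_lit 72593359252) (nat_lit 228) (nat_lit 4209428766) (nat_lit 76) (nat_lit 18790885295) (nat_lit 107) (nat_lit 5) (nat_lit 110) (nat_lit 5) (nat_lit 108) (nat_lit 5) (nat_lit 486) (nat_lit 434) (nat_lit 280)) (XT.nd (nat_lit 78) (nat_lit 152) (nat_lit 0) (XT.lf (nat_lit 0) (nat_lit 20172666548) (nat_lit 228) (nat_lit 3662118746) (nat_lit 76) (nat_lit 74882093219) (nat_lit 104) (nat_lit 5) (nat_lit 107) (nat_lit 5) (nat_lit 105) (nat_lit 5) (nat_lit 487) (nat_lit 434) (nat_lit 279)) (XT.lf (nat_lit 0) (nat_lit 66343942202) (nat_lit 228) (nat_lit 3206395524) (nat_lit 76) (nat_lit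 32399614707) (nat_lit 102) (nat_lit 5) (nat_lit 105) (nat_lit 5) (nat_lit 103) (nat_lit 5) (nat_lit 488) (nat_lit 434) (nat_lit 278))))) (XT.nd (nat_lit 234) (nat_lit 304) (nat_lit 0) (XT.nd (nat_lit 78) (nat_lit 380) (nat_lit 0) (XT.lf (nat_lit 0) (nat_lit 10570331428) (nat_lit 228) (nat_lit 2648609984) (nat_lit 76) (nat_lit 92084719098) (nat_lit 99) (nat_lit 5) (nat_lit 102) (nat_lit 5) (nat_lit 100) (nat_lit 5) (nat_lit 489) (nat_lit 434) (nat_lit 277)) (XT.nd (nat_lit 78) (nat_lit 228) (nat_lit 0) (XT.lf (nat_lit 0) (nat_lit 59838457522) (nat_lit 228) (nat_lit 2466717277) (nat_lit 76) (nat_lit 46463722583) (nat_lit 97) (nat_lit 5) (nat_lit 100) (nat_lit 5) (nat_lit 98) (nat_lit 5) (nat_lit 490) (nat_lit 434) (nat_lit 276)) (XT.lf (nat_lit 0) (nat_lit 410211271) (nat_lit 228) (nat_lit 2010488496) (nat_lit 76) (nat_lit 109949999579) (nat_lit 94) (nat_lit 5) (nat_lit 97) (nat_lit 5) (nat_lit 95)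 (nat_lit 5) (nat_lit 491) (nat_lit 434) (nat_lit 275)))) (XT.nd (nat_lit 58032) (nat_lit 0) (nat_lit 16644) (XT.nd (nat_lit 78) (nat_lit 152) (nat_lit 0) (XT.lf (nat_lit 0) (nat_lit 52935866898) (nat_lit 228) (nat_lit 2238336116) (nat_lit 76) (nat_lit 60911956799) (nat_lit 92) (nat_lit 5) (nat_lit 95) (nat_lit 5) (nat_lit 93) (nat_lit 5) (nat_lit 492) (nat_lit 434) (nat_lit 274)) (XT.lf (nat_lit 0) (nat_lit 109345502368) (nat_lit 228) (nat_lit 2210268024) (nat_lit 76) (nat_lit 8393892054) (nat_lit 90) (nat_lit 5) (nat_lit 93) (nat_lit 5) (nat_lit 91) (nat_lit 4) (nat_lit 493) (nat_lit 434) (nat_lit 273))) (XT.nd (nat_lit 78) (nat_lit 0) (nat_lit 76) (XT.lf (nat_lit 0) (nat_lit 4603928000) (nat_lit 1292) (nat_lit 3320047411) (nat_lit 1292) (nat_lit 3320047411) (nat_lit 309) (nat_lit 3) (nat_lit 326) (nat_lit 3) (nat_lit 326) (nat_lit 5) (nat_lit 435) (nat_lit 435) (nat_lit 330)) (XT.lf (nat_lit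 0) (nat_lit 9791842471) (nat_lit 1216) (nat_lit 10877486778) (nat_lit 1292) (nat_lit 2370284099) (nat_lit 310) (nat_lit 5) (nat_lit 326) (nat_lit 5) (nat_lit 327) (nat_lit 5) (nat_lit 436) (nat_lit 435) (nat_lit 329))))))) (XT.nd (nat_lit 1014) (nat_lit 6612) (nat_lit 0) (XT.nd (nat_lit 468) (nat_lit 2812) (nat_lit 0) (XT.nd (nat_lit 234) (nat_lit 0) (nat_lit 228) (XT.nd (nat_lit 78) (nat_lit 0) (nat_lit 76) (XT.lf (nat_lit 76) (nat_lit 8422577245) (nat_lit 0) (nat_lit 2278734859) (nat_lit 1292) (nat_lit 12908560077) (nat_lit 311) (nat_lit 5) (nat_lit 310) (nat_lit 5) (nat_lit 327) (nat_lit 5) (nat_lit 437) (nat_lit 435) (nat_lit 328)) (XT.nd (nat_lit 78) (nat_lit 0) (nat_lit 76) (XT.lf (nat_lit 76) (nat_lit 4627255753) (nat_lit 0) (nat_lit 7337245091) (nat_lit 1292) (nat_lit 12234896946) (nat_lit 312) (nat_lit 5) (nat_lit 311) (nat_lit 5) (nat_lit 328) (nat_lit 5) (nat_lit 438) (nat_lit 435) (nat_lit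 327)) (XT.lf (nat_lit 76) (nat_lit 803199079) (nat_lit 0) (nat_lit 12779861915) (nat_lit 1292) (nat_lit 11226573473) (nat_lit 313) (nat_lit 5) (nat_lit 312) (nat_lit 5) (nat_lit 329) (nat_lit 5) (nat_lit 439) (nat_lit 435) (nat_lit 326)))) (XT.nd (nat_lit 78) (nat_lit 0) (nat_lit 76) (XT.lf (nat_lit 0) (nat_lit 15612506732) (nat_lit 1216) (nat_lit 2986638304) (nat_lit 1292) (nat_lit 6841340307) (nat_lit 313) (nat_lit 5) (nat_lit 329) (nat_lit 5) (nat_lit 330) (nat_lit 5) (nat_lit 440) (nat_lit 435) (nat_lit 325)) (XT.nd (nat_lit 78) (nat_lit 0) (nat_lit 0) (XT.lf (nat_lit 0) (nat_lit 18059135631) (nat_lit 1216) (nat_lit 6781661673) (nat_lit 1292) (nat_lit 1252611171) (nat_lit 314) (nat_lit 5) (nat_lit 330) (nat_lit 5) (nat_lit 331) (nat_lit 5) (nat_lit 441) (nat_lit 435) (nat_lit 324)) (XT.lf (nat_lit 76) (nat_lit 16128111417) (nat_lit 0) (nat_lit 4862971580) (nat_lit 1292) (nat_lit 5777006147)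 (nat_lit 315) (nat_lit 5) (nat_lit 314) (nat_lit 5) (nat_lit 331) (nat_lit 5) (nat_lit 442) (nat_lit 435) (nat_lit 323))))) (XT.nd (nat_lit 234) (nat_lit 1976) (nat_lit 0) (XT.nd (nat_lit 78) (nat_lit 1216) (nat_lit 0) (XT.lf (nat_lit 76) (nat_lit 12939497777) (nat_lit 0) (nat_lit 11469554770) (nat_lit 1292) (nat_lit 3057269497) (nat_lit 316) (nat_lit 5) (nat_lit 315) (nat_lit 5) (nat_lit 332) (nat_lit 5) (nat_lit 443) (nat_lit 435) (nat_lit 322)) (XT.nd (nat_lit 78) (nat_lit 0) (nat_lit 76) (XT.lf (nat_lit 0) (nat_lit 141161701) (nat_lit 1292) (nat_lit 18426296914) (nat_lit 1368) (nat_lit 9621903723) (nat_lit 299) (nat_lit 5) (nat_lit 316) (nat_lit 5) (nat_lit 317) (nat_lit 5) (nat_lit 444) (nat_lit 435) (nat_lit 321)) (XT.lf (nat_lit 0) (nat_lit 3784800206) (nat_lit 1292) (nat_lit 22365842382) (nat_lit 76) (nat_lit 2786549345) (nat_lit 300) (nat_lit 5) (nat_lit 317) (nat_lit 5) (nat_lit 301)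 (nat_lit 5) (nat_lit 445) (nat_lit 435) (nat_lit 320)))) (XT.nd (nat_lit 156) (nat_lit 608) (nat_lit 0) (XT.nd (nat_lit 78) (nat_lit 608) (nat_lit 0) (XT.lf (nat_lit 0) (nat_lit 3355204795) (nat_lit 836) (nat_lit 4657412393) (nat_lit 912) (nat_lit 21697736714) (nat_lit 289) (nat_lit 5) (nat_lit 300) (nat_lit 5) (nat_lit 301) (nat_lit 5) (nat_lit 446) (nat_lit 435) (nat_lit 319)) (XT.lf (nat_lit 0) (nat_lit 134358612) (nat_lit 608) (nat_lit 12714589792) (nat_lit 684) (nat_lit 17661312617) (nat_lit 281) (nat_lit 5) (nat_lit 289) (nat_lit 5) (nat_lit 290) (nat_lit 5) (nat_lit 447) (nat_lit 435) (nat_lit 318))) (XT.nd (nat_lit 78) (nat_lit 608) (nat_lit 0) (XT.lf (nat_lit 0) (nat_lit 18334553549) (nat_lit 684) (nat_lit 2995852979) (nat_lit 76) (nat_lit 10007533966) (nat_lit 281) (nat_lit 5) (nat_lit 290) (nat_lit 5) (nat_lit 282) (nat_lit 5) (nat_lit 448) (nat_lit 435) (nat_lit 317)) (XT.lf (nat_lit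 0) (nat_lit 24481787551) (nat_lit 684) (nat_lit 6085000103) (nat_lit 76) (nat_lit 1628596509) (nat_lit 273) (nat_lit 5) (nat_lit 282) (nat_lit 5) (nat_lit 274) (nat_lit 5) (nat_lit 449) (nat_lit 435) (nat_lit 316)))))) (XT.nd (nat_lit 546) (nat_lit 2888) (nat_lit 0) (XT.nd (nat_lit 234) (nat_lit 1976) (nat_lit 0) (XT.nd (nat_lit 78) (nat_lit 1216) (nat_lit 0) (XT.lf (nat_lit 0) (nat_lit 23882317955) (nat_lit 532) (nat_lit 7522291660) (nat_lit 608) (nat_lit 1677044263) (nat_lit 266) (nat_lit 5) (nat_lit 273) (nat_lit 5) (nat_lit 274) (nat_lit 5) (nat_lit 450) (nat_lit 435) (nat_lit 315)) (XT.nd (nat_lit 78) (nat_lit 532) (nat_lit 0) (XT.lf (nat_lit 0) (nat_lit 4999423699) (nat_lit 684) (nat_lit 12328650419) (nat_lit 76) (nat_lit 16669947909) (nat_lit 257) (nat_lit 5) (nat_lit 266) (nat_lit 5) (nat_lit 258) (nat_lit 5) (nat_lit 451) (nat_lit 435) (nat_lit 314)) (XT.lf (nat_lit 0) (nat_lit 12397894549)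 (nat_lit 608) (nat_lit 15421781823) (nat_lit 76) (nat_lit 7127348753) (nat_lit 250) (nat_lit 5) (nat_lit 258) (nat_lit 5) (nat_lit 251) (nat_lit 5) (nat_lit 452) (nat_lit 435) (nat_lit 313)))) (XT.nd (nat_lit 156) (nat_lit 988) (nat_lit 0) (XT.nd (nat_lit 78) (nat_lit 456) (nat_lit 0) (XT.lf (nat_lit 0) (nat_lit 17446304782) (nat_lit 532) (nat_lit 3183746127) (nat_lit 608) (nat_lit 15299515155) (nat_lit 243) (nat_lit 5) (nat_lit 250) (nat_lit 5) (nat_lit 251) (nat_lit 5) (nat_lit 453) (nat_lit 435) (nat_lit 312)) (XT.lf (nat_lit 0) (nat_lit 15396666467) (nat_lit 456) (nat_lit 14396773748) (nat_lit 532) (nat_lit 7152205600) (nat_lit 237) (nat_lit 5) (nat_lit 243) (nat_lit 5) (nat_lit 244) (nat_lit 5) (nat_lit 454) (nat_lit 435) (nat_lit 311))) (XT.nd (nat_lit 78) (nat_lit 456) (nat_lit 0) (XT.lf (nat_lit 0) (nat_lit 1836938276) (nat_lit 532) (nat_lit 24556009562) (nat_lit 76) (nat_lit 11605322673)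 (nat_lit 230) (nat_lit 5) (nat_lit 237) (nat_lit 5) (nat_lit 231) (nat_lit 5) (nat_lit 455) (nat_lit 435) (nat_lit 310)) (XT.lf (nat_lit 0) (nat_lit 11534264275) (nat_lit 456) (nat_lit 68600426) (nat_lit 532) (nat_lit 27484280462) (nat_lit 224) (nat_lit 5) (nat_lit 230) (nat_lit 5) (nat_lit 231) (nat_lit 5) (nat_lit 456) (nat_lit 435) (nat_lit 309))))) (XT.nd (nat_lit 234) (nat_lit 1520) (nat_lit 0) (XT.nd (nat_lit 78) (nat_lit 912) (nat_lit 0) (XT.lf (nat_lit 0) (nat_lit 9632166711) (nat_lit 456) (nat_lit 12831713556) (nat_lit 532) (nat_lit 17748379932) (nat_lit 218) (nat_lit 5) (nat_lit 224) (nat_lit 5) (nat_lit 225) (nat_lit 5) (nat_lit 457) (nat_lit 435) (nat_lit 308)) (XT.nd (nat_lit 78) (nat_lit 532) (nat_lit 0) (XT.lf (nat_lit 0) (nat_lit 7867292293) (nat_lit 380) (nat_lit 26499826718) (nat_lit 456) (nat_lit 7011537219) (nat_lit 213) (nat_lit 5) (nat_lit 218) (nat_lit 5) (nat_lit 219) (nat_lit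 5) (nat_lit 458) (nat_lit 435) (nat_lit 307)) (XT.lf (nat_lit 0) (nat_lit 4695282072) (nat_lit 532) (nat_lit 36379361847) (nat_lit 76) (nat_lit 1512010288) (nat_lit 206) (nat_lit 5) (nat_lit 213) (nat_lit 5) (nat_lit 207) (nat_lit 5) (nat_lit 459) (nat_lit 435) (nat_lit 306)))) (XT.nd (nat_lit 156) (nat_lit 760) (nat_lit 0) (XT.nd (nat_lit 78) (nat_lit 380) (nat_lit 0) (XT.lf (nat_lit 0) (nat_lit 4506394700) (nat_lit 380) (nat_lit 12990988458) (nat_lit 456) (nat_lit 26335938149) (nat_lit 201) (nat_lit 5) (nat_lit 206) (nat_lit 5) (nat_lit 207) (nat_lit 5) (nat_lit 460) (nat_lit 435) (nat_lit 305)) (XT.lf (nat_lit 0) (nat_lit 2953635586) (nat_lit 380) (nat_lit 28545733878) (nat_lit 456) (nat_lit 13626159243) (nat_lit 196) (nat_lit 5) (nat_lit 201) (nat_lit 5) (nat_lit 202) (nat_lit 5) (nat_lit 461) (nat_lit 435) (nat_lit 304))) (XT.nd (nat_lit 78) (nat_lit 380) (nat_lit 0) (XT.lf (nat_lit 0) (nat_lit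 287254137) (nat_lit 380) (nat_lit 44887305074) (nat_lit 76) (nat_lit 1290988660) (nat_lit 191) (nat_lit 5) (nat_lit 196) (nat_lit 5) (nat_lit 192) (nat_lit 5) (nat_lit 462) (nat_lit 435) (nat_lit 303)) (XT.lf (nat_lit 0) (nat_lit 102548718) (nat_lit 380) (nat_lit 15237035218) (nat_lit 456) (nat_lit 32507185320) (nat_lit 186) (nat_lit 5) (nat_lit 191) (nat_lit 5) (nat_lit 192) (nat_lit 5) (nat_lit 463) (nat_lit 435) (nat_lit 302))))))))
noncomputable def xc101 : XT := (XT.nd (nat_lit 2028) (nat_lit 760) (nat_lit 0) (XT.nd (nat_lit 1014) (nat_lit 2736) (nat_lit 0) (XT.nd (nat_lit 468) (nat_lit 1976) (nat_lit 0) (XT.nd (nat_lit 234) (nat_lit 988) (nat_lit 0) (XT.nd (nat_lit 78) (nat_lit 684) (nat_lit 0) (XT.lf (nat_lit 0) (nat_lit 31761946701) (nat_lit 456) (nat_lit 1170592936) (nat_lit 76) (nat_lit 16345989872) (nat_lit 186) (nat_lit 5) (nat_lit 192) (nat_lit 5) (nat_lit 187) (nat_lit 5) (nat_lit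 464) (nat_lit 435) (nat_lit 301)) (XT.nd (nat_lit 78) (nat_lit 380) (nat_lit 0) (XT.lf (nat_lit 0) (nat_lit 48517983324) (nat_lit 304) (nat_lit 1102922086) (nat_lit 380) (nat_lit 1142508308) (nat_lit 182) (nat_lit 5) (nat_lit 186) (nat_lit 5) (nat_lit 187) (nat_lit 5) (nat_lit 465) (nat_lit 435) (nat_lit 300)) (XT.lf (nat_lit 0) (nat_lit 16534496900) (nat_lit 380) (nat_lit 3428292373) (nat_lit 76) (nat_lit 32331201804) (nat_lit 177) (nat_lit 5) (nat_lit 182) (nat_lit 5) (nat_lit 178) (nat_lit 5) (nat_lit 466) (nat_lit 435) (nat_lit 299)))) (XT.nd (nat_lit 78) (nat_lit 684) (nat_lit 0) (XT.lf (nat_lit 0) (nat_lit 35713879433) (nat_lit 380) (nat_lit 4402786635) (nat_lit 76) (nat_lit 13764827447) (nat_lit 173) (nat_lit 5) (nat_lit 178) (nat_lit 5) (nat_lit 174) (nat_lit 5) (nat_lit 467) (nat_lit 435) (nat_lit 298)) (XT.nd (nat_lit 78) (nat_lit 304) (nat_lit 0) (XT.lf (nat_lit 0) (nat_lit 1021637176)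 (nat_lit 380) (nat_lit 5207687254) (nat_lit 76) (nat_lit 49297248046) (nat_lit 168) (nat_lit 5) (nat_lit 173) (nat_lit 5) (nat_lit 169) (nat_lit 5) (nat_lit 468) (nat_lit 435) (nat_lit 297)) (XT.lf (nat_lit 0) (nat_lit 21623339417) (nat_lit 380) (nat_lit 6092113862) (nat_lit 76) (nat_lit 29508194325) (nat_lit 164) (nat_lit 5) (nat_lit 169) (nat_lit 5) (nat_lit 165) (nat_lit 5) (nat_lit 469) (nat_lit 435) (nat_lit 296))))) (XT.nd (nat_lit 234) (nat_lit 1064) (nat_lit 0) (XT.nd (nat_lit 78) (nat_lit 608) (nat_lit 0) (XT.lf (nat_lit 0) (nat_lit 43952665922) (nat_lit 380) (nat_lit 6724216142) (nat_lit 76) (nat_lit 8307768454) (nat_lit 160) (nat_lit 5) (nat_lit 165) (nat_lit 5) (nat_lit 161) (nat_lit 5) (nat_lit 470) (nat_lit 435) (nat_lit 295)) (XT.nd (nat_lit 78) (nat_lit 304) (nat_lit 0) (XT.lf (nat_lit 0) (nat_lit 7299303577) (nat_lit 304) (nat_lit 7294450760) (nat_lit 76) (nat_lit 46212176786)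 (nat_lit 156) (nat_lit 5) (nat_lit 160) (nat_lit 5) (nat_lit 157) (nat_lit 5) (nat_lit 471) (nat_lit 435) (nat_lit 294)) (XT.lf (nat_lit 0) (nat_lit 31266170649) (nat_lit 380) (nat_lit 7827198018) (nat_lit 76) (nat_lit 23595545355) (nat_lit 152) (nat_lit 5) (nat_lit 157) (nat_lit 5) (nat_lit 153) (nat_lit 5) (nat_lit 472) (nat_lit 435) (nat_lit 293)))) (XT.nd (nat_lit 156) (nat_lit 532) (nat_lit 0) (XT.nd (nat_lit 78) (nat_lit 304) (nat_lit 0) (XT.lf (nat_lit 0) (nat_lit 56564052972) (nat_lit 228) (nat_lit 630415444) (nat_lit 304) (nat_lit 7448685204) (nat_lit 149) (nat_lit 5) (nat_lit 152) (nat_lit 5) (nat_lit 153) (nat_lit 5) (nat_lit 473) (nat_lit 435) (nat_lit 292)) (XT.lf (nat_lit 0) (nat_lit 18409525699) (nat_lit 304) (nat_lit 8448561246) (nat_lit 76) (nat_lit 39800967859) (nat_lit 145) (nat_lit 5) (nat_lit 149) (nat_lit 5) (nat_lit 146) (nat_lit 5) (nat_lit 474) (nat_lit 435) (nat_lit 291)))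 (XT.nd (nat_lit 78) (nat_lit 304) (nat_lit 0) (XT.lf (nat_lit 0) (nat_lit 46211155061) (nat_lit 304) (nat_lit 8591641800) (nat_lit 76) (nat_lit 13946605113) (nat_lit 142) (nat_lit 5) (nat_lit 146) (nat_lit 5) (nat_lit 143) (nat_lit 5) (nat_lit 475) (nat_lit 435) (nat_lit 290)) (XT.lf (nat_lit 0) (nat_lit 5336002706) (nat_lit 304) (nat_lit 8599289560) (nat_lit 76) (nat_lit 56978756414) (nat_lit 138) (nat_lit 5) (nat_lit 142) (nat_lit 5) (nat_lit 139) (nat_lit 5) (nat_lit 476) (nat_lit 435) (nat_lit 289)))))) (XT.nd (nat_lit 468) (nat_lit 1368) (nat_lit 0) (XT.nd (nat_lit 234) (nat_lit 684) (nat_lit 0) (XT.nd (nat_lit 78) (nat_lit 456) (nat_lit 0) (XT.lf (nat_lit 0) (nat_lit 35138713793) (nat_lit 304) (nat_lit 8654583786) (nat_lit 76) (nat_lit 29356909513) (nat_lit 135) (nat_lit 5) (nat_lit 139) (nat_lit 5) (nat_lit 136) (nat_lit 5) (nat_lit 477) (nat_lit 435) (nat_lit 288)) (XT.nd (nat_lit 78) (nat_lit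 228) (nat_lit 0) (XT.lf (nat_lit 0) (nat_lit 67091574770) (nat_lit 228) (nat_lit 211639159) (nat_lit 304) (nat_lit 8168810014) (nat_lit 132) (nat_lit 5) (nat_lit 135) (nat_lit 5) (nat_lit 136) (nat_lit 5) (nat_lit 478) (nat_lit 435) (nat_lit 287)) (XT.lf (nat_lit 0) (nat_lit 23921497593) (nat_lit 228) (nat_lit 8291772853) (nat_lit 76) (nat_lit 45653754464) (nat_lit 129) (nat_lit 5) (nat_lit 132) (nat_lit 5) (nat_lit 130) (nat_lit 5) (nat_lit 479) (nat_lit 435) (nat_lit 286)))) (XT.nd (nat_lit 78) (nat_lit 456) (nat_lit 0) (XT.lf (nat_lit 0) (nat_lit 58370057487) (nat_lit 304) (nat_lit 7943863714) (nat_lit 76) (nat_lit 14037748045) (nat_lit 126) (nat_lit 5) (nat_lit 130) (nat_lit 5) (nat_lit 127) (nat_lit 5) (nat_lit 480) (nat_lit 435) (nat_lit 285)) (XT.nd (nat_lit 78) (nat_lit 228) (nat_lit 0) (XT.lf (nat_lit 0) (nat_lit 12499750962) (nat_lit 228) (nat_lit 7549430725) (nat_lit 76) (nat_lit 62873667789)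 (nat_lit 123) (nat_lit 5) (nat_lit 126) (nat_lit 5) (nat_lit 124) (nat_lit 5) (nat_lit 481) (nat_lit 435) (nat_lit 284)) (XT.lf (nat_lit 0) (nat_lit 49375695231) (nat_lit 304) (nat_lit 7165091898) (nat_lit 76) (nat_lit 29041518690) (nat_lit 120) (nat_lit 5) (nat_lit 124) (nat_lit 5) (nat_lit 121) (nat_lit 5) (nat_lit 482) (nat_lit 435) (nat_lit 283))))) (XT.nd (nat_lit 234) (nat_lit 760) (nat_lit 0) (XT.nd (nat_lit 78) (nat_lit 380) (nat_lit 0) (XT.lf (nat_lit 0) (nat_lit 801451847) (nat_lit 228) (nat_lit 6494039417) (nat_lit 76) (nat_lit 81047065350) (nat_lit 117) (nat_lit 5) (nat_lit 120) (nat_lit 5) (nat_lit 118) (nat_lit 5) (nat_lit 483) (nat_lit 435) (nat_lit 282)) (XT.nd (nat_lit 78) (nat_lit 152) (nat_lit 0) (XT.lf (nat_lit 0) (nat_lit 40251155188) (nat_lit 304) (nat_lit 6120881272) (nat_lit 76) (nat_lit 44817827755) (nat_lit 114) (nat_lit 5) (nat_lit 118) (nat_lit 5) (nat_lit 115) (nat_lit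 5) (nat_lit 484) (nat_lit 435) (nat_lit 281)) (XT.lf (nat_lit 0) (nat_lit 82724679425) (nat_lit 228) (nat_lit 5386632628) (nat_lit 76) (nat_lit 6036685154) (nat_lit 112) (nat_lit 5) (nat_lit 115) (nat_lit 5) (nat_lit 113) (nat_lit 5) (nat_lit 485) (nat_lit 435) (nat_lit 280)))) (XT.nd (nat_lit 156) (nat_lit 380) (nat_lit 0) (XT.nd (nat_lit 78) (nat_lit 152) (nat_lit 0) (XT.lf (nat_lit 0) (nat_lit 30914193473) (nat_lit 228) (nat_lit 4917705725) (nat_lit 76) (nat_lit 61370474343) (nat_lit 109) (nat_lit 5) (nat_lit 112) (nat_lit 5) (nat_lit 110) (nat_lit 5) (nat_lit 486) (nat_lit 435) (nat_lit 279)) (XT.lf (nat_lit 0) (nat_lit 76307635197) (nat_lit 228) (nat_lit 4267836769) (nat_lit 76) (nat_lit 19795344532) (nat_lit 107) (nat_lit 5) (nat_lit 110) (nat_lit 5) (nat_lit 108) (nat_lit 5) (nat_lit 487) (nat_lit 435) (nat_lit 278))) (XT.nd (nat_lit 78) (nat_lit 152) (nat_lit 0) (XT.lf (nat_lit 0) (nat_lit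 21264112695) (nat_lit 228) (nat_lit 3695869907) (nat_lit 76) (nat_lit 78690253380) (nat_lit 104) (nat_lit 5) (nat_lit 107) (nat_lit 5) (nat_lit 105) (nat_lit 5) (nat_lit 488) (nat_lit 435) (nat_lit 277)) (XT.lf (nat_lit 0) (nat_lit 69742026190) (nat_lit 228) (nat_lit 3219854849) (nat_lit 76) (nat_lit 34083140436) (nat_lit 102) (nat_lit 5) (nat_lit 105) (nat_lit 5) (nat_lit 103) (nat_lit 5) (nat_lit 489) (nat_lit 435) (nat_lit 276))))))) (XT.nd (nat_lit 58968) (nat_lit 0) (nat_lit 9576) (XT.nd (nat_lit 58422) (nat_lit 0) (nat_lit 16568) (XT.nd (nat_lit 234) (nat_lit 152) (nat_lit 0) (XT.nd (nat_lit 78) (nat_lit 380) (nat_lit 0) (XT.lf (nat_lit 0) (nat_lit 11178032511) (nat_lit 228) (nat_lit 2636812006) (nat_lit 76) (nat_lit 96751621659) (nat_lit 99) (nat_lit 5) (nat_lit 102) (nat_lit 5) (nat_lit 100) (nat_lit 5) (nat_lit 490) (nat_lit 435) (nat_lit 275)) (XT.nd (nat_lit 78) (nat_lit 228) (nat_lit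 0) (XT.lf (nat_lit 0) (nat_lit 62907749692) (nat_lit 228) (nat_lit 2448263194) (nat_lit 76) (nat_lit 48849006549) (nat_lit 97) (nat_lit 5) (nat_lit 100) (nat_lit 5) (nat_lit 98) (nat_lit 5) (nat_lit 491) (nat_lit 435) (nat_lit 274)) (XT.lf (nat_lit 0) (nat_lit 506475064) (nat_lit 228) (nat_lit 1971778110) (nat_lit 76) (nat_lit 115508706936) (nat_lit 94) (nat_lit 5) (nat_lit 97) (nat_lit 5) (nat_lit 95) (nat_lit 5) (nat_lit 492) (nat_lit 435) (nat_lit 273)))) (XT.nd (nat_lit 58032) (nat_lit 0) (nat_lit 16492) (XT.lf (nat_lit 0) (nat_lit 55656700258) (nat_lit 228) (nat_lit 2213398377) (nat_lit 76) (nat_lit 64018146439) (nat_lit 92) (nat_lit 5) (nat_lit 95) (nat_lit 5) (nat_lit 93) (nat_lit 5) (nat_lit 493) (nat_lit 435) (nat_lit 272)) (XT.nd (nat_lit 78) (nat_lit 0) (nat_lit 76) (XT.lf (nat_lit 0) (nat_lit 5044204549) (nat_lit 1292) (nat_lit 3377848790) (nat_lit 1292) (nat_lit 3377848790) (nat_lit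 309) (nat_lit 3) (nat_lit 326) (nat_lit 3) (nat_lit 326) (nat_lit 5) (nat_lit 436) (nat_lit 436) (nat_lit 328)) (XT.lf (nat_lit 0) (nat_lit 10681762443) (nat_lit 1216) (nat_lit 11197214670) (nat_lit 1292) (nat_lit 2300570055) (nat_lit 310) (nat_lit 5) (nat_lit 326) (nat_lit 5) (nat_lit 327) (nat_lit 5) (nat_lit 437) (nat_lit 436) (nat_lit 327))))) (XT.nd (nat_lit 234) (nat_lit 0) (nat_lit 228) (XT.nd (nat_lit 78) (nat_lit 0) (nat_lit 76) (XT.lf (nat_lit 76) (nat_lit 9061427441) (nat_lit 0) (nat_lit 2558307757) (nat_lit 1292) (nat_lit 13159094619) (nat_lit 311) (nat_lit 5) (nat_lit 310) (nat_lit 5) (nat_lit 327) (nat_lit 5) (nat_lit 438) (nat_lit 436) (nat_lit 326)) (XT.nd (nat_lit 78) (nat_lit 0) (nat_lit 76) (XT.lf (nat_lit 76) (nat_lit 5082850789) (nat_lit 0) (nat_lit 7845616548) (nat_lit 1292) (nat_lit 12469894529) (nat_lit 312) (nat_lit 5) (nat_lit 311) (nat_lit 5) (nat_lit 328) (nat_lit 5)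 (nat_lit 439) (nat_lit 436) (nat_lit 325)) (XT.lf (nat_lit 76) (nat_lit 1073175324) (nat_lit 0) (nat_lit 13538277548) (nat_lit 1292) (nat_lit 11428154183) (nat_lit 313) (nat_lit 5) (nat_lit 312) (nat_lit 5) (nat_lit 329) (nat_lit 5) (nat_lit 440) (nat_lit 436) (nat_lit 324)))) (XT.nd (nat_lit 156) (nat_lit 0) (nat_lit 76) (XT.nd (nat_lit 78) (nat_lit 0) (nat_lit 76) (XT.lf (nat_lit 0) (nat_lit 16724647179) (nat_lit 1216) (nat_lit 2905995562) (nat_lit 1292) (nat_lit 7071890968) (nat_lit 313) (nat_lit 5) (nat_lit 329) (nat_lit 5) (nat_lit 330) (nat_lit 5) (nat_lit 441) (nat_lit 436) (nat_lit 323)) (XT.lf (nat_lit 0) (nat_lit 19279060048) (nat_lit 1216) (nat_lit 6886888670) (nat_lit 1292) (nat_lit 1222592153) (nat_lit 314) (nat_lit 5) (nat_lit 330) (nat_lit 5) (nat_lit 331) (nat_lit 5) (nat_lit 442) (nat_lit 436) (nat_lit 322))) (XT.nd (nat_lit 78) (nat_lit 0) (nat_lit 76) (XT.lf (nat_lit 76) (nat_lit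 17161669636) (nat_lit 0) (nat_lit 5183024979) (nat_lit 1292) (nat_lit 5752649644) (nat_lit 315) (nat_lit 5) (nat_lit 314) (nat_lit 5) (nat_lit 331) (nat_lit 5) (nat_lit 443) (nat_lit 436) (nat_lit 321)) (XT.lf (nat_lit 76) (nat_lit 13816719173) (nat_lit 0) (nat_lit 12103873760) (nat_lit 1292) (nat_lit 2910286277) (nat_lit 316) (nat_lit 5) (nat_lit 315) (nat_lit 5) (nat_lit 332) (nat_lit 5) (nat_lit 444) (nat_lit 436) (nat_lit 320)))))) (XT.nd (nat_lit 546) (nat_lit 3648) (nat_lit 0) (XT.nd (nat_lit 234) (nat_lit 1748) (nat_lit 0) (XT.nd (nat_lit 78) (nat_lit 760) (nat_lit 0) (XT.lf (nat_lit 0) (nat_lit 429912312) (nat_lit 1292) (nat_lit 19109258726) (nat_lit 1368) (nat_lit 10051184319) (nat_lit 299) (nat_lit 5) (nat_lit 316) (nat_lit 5) (nat_lit 317) (nat_lit 5) (nat_lit 445) (nat_lit 436) (nat_lit 319)) (XT.nd (nat_lit 78) (nat_lit 836) (nat_lit 0) (XT.lf (nat_lit 0) (nat_lit 4244169599) (nat_lit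 1292) (nat_lit 23244100791) (nat_lit 76) (nat_lit 2887654095) (nat_lit 300) (nat_lit 5) (nat_lit 317) (nat_lit 5) (nat_lit 301) (nat_lit 5) (nat_lit 446) (nat_lit 436) (nat_lit 318)) (XT.lf (nat_lit 0) (nat_lit 3756118226) (nat_lit 836) (nat_lit 4916637111) (nat_lit 912) (nat_lit 22515308982) (nat_lit 289) (nat_lit 5) (nat_lit 300) (nat_lit 5) (nat_lit 301) (nat_lit 5) (nat_lit 447) (nat_lit 436) (nat_lit 317)))) (XT.nd (nat_lit 156) (nat_lit 1140) (nat_lit 0) (XT.nd (nat_lit 78) (nat_lit 0) (nat_lit 0) (XT.lf (nat_lit 0) (nat_lit 375375999) (nat_lit 608) (nat_lit 13365180586) (nat_lit 684) (nat_lit 18287721655) (nat_lit 281) (nat_lit 5) (nat_lit 289) (nat_lit 5) (nat_lit 290) (nat_lit 5) (nat_lit 448) (nat_lit 436) (nat_lit 316)) (XT.lf (nat_lit 0) (nat_lit 19488441136) (nat_lit 684) (nat_lit 2915228347) (nat_lit 76) (nat_lit 10494033229) (nat_lit 281) (nat_lit 5) (nat_lit 290) (nat_lit 5) (nat_lit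 282) (nat_lit 5) (nat_lit 449) (nat_lit 436) (nat_lit 315))) (XT.nd (nat_lit 78) (nat_lit 532) (nat_lit 0) (XT.lf (nat_lit 0) (nat_lit 25933854505) (nat_lit 684) (nat_lit 6158537670) (nat_lit 76) (nat_lit 1705902814) (nat_lit 273) (nat_lit 5) (nat_lit 282) (nat_lit 5) (nat_lit 274) (nat_lit 5) (nat_lit 450) (nat_lit 436) (nat_lit 314)) (XT.lf (nat_lit 0) (nat_lit 25300532965) (nat_lit 532) (nat_lit 7893582809) (nat_lit 608) (nat_lit 1535024378) (nat_lit 266) (nat_lit 5) (nat_lit 273) (nat_lit 5) (nat_lit 274) (nat_lit 5) (nat_lit 451) (nat_lit 436) (nat_lit 313))))) (XT.nd (nat_lit 234) (nat_lit 1900) (nat_lit 0) (XT.nd (nat_lit 78) (nat_lit 1064) (nat_lit 0) (XT.lf (nat_lit 0) (nat_lit 5462532978) (nat_lit 684) (nat_lit 12716786640) (nat_lit 76) (nat_lit 17512192586) (nat_lit 257) (nat_lit 5) (nat_lit 266) (nat_lit 5) (nat_lit 258) (nat_lit 5) (nat_lit 452) (nat_lit 436) (nat_lit 312)) (XT.nd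 (nat_lit 78) (nat_lit 532) (nat_lit 0) (XT.lf (nat_lit 0) (nat_lit 13223069433) (nat_lit 608) (nat_lit 15965108967) (nat_lit 76) (nat_lit 7500023594) (nat_lit 250) (nat_lit 5) (nat_lit 258) (nat_lit 5) (nat_lit 251) (nat_lit 5) (nat_lit 453) (nat_lit 436) (nat_lit 311)) (XT.lf (nat_lit 0) (nat_lit 18539853217) (nat_lit 532) (nat_lit 3319331776) (nat_lit 608) (nat_lit 15860915206) (nat_lit 243) (nat_lit 5) (nat_lit 250) (nat_lit 5) (nat_lit 251) (nat_lit 5) (nat_lit 454) (nat_lit 436) (nat_lit 310)))) (XT.nd (nat_lit 156) (nat_lit 912) (nat_lit 0) (XT.nd (nat_lit 78) (nat_lit 532) (nat_lit 0) (XT.lf (nat_lit 0) (nat_lit 16386944790) (nat_lit 456) (nat_lit 15086723072) (nat_lit 532) (nat_lit 7313529079) (nat_lit 237) (nat_lit 5) (nat_lit 243) (nat_lit 5) (nat_lit 244) (nat_lit 5) (nat_lit 455) (nat_lit 436) (nat_lit 309)) (XT.lf (nat_lit 0) (nat_lit 2114483495) (nat_lit 532) (nat_lit 25560687085)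 (nat_lit 76) (nat_lit 12217429103) (nat_lit 230) (nat_lit 5) (nat_lit 237) (nat_lit 5) (nat_lit 231) (nat_lit 5) (nat_lit 456) (nat_lit 436) (nat_lit 308))) (XT.nd (nat_lit 78) (nat_lit 456) (nat_lit 0) (XT.lf (nat_lit 0) (nat_lit 12327704669) (nat_lit 456) (nat_lit 34242111) (nat_lit 532) (nat_lit 28674174711) (nat_lit 224) (nat_lit 5) (nat_lit 230) (nat_lit 5) (nat_lit 231) (nat_lit 5) (nat_lit 457) (nat_lit 436) (nat_lit 307)) (XT.lf (nat_lit 0) (nat_lit 10329163641) (nat_lit 456) (nat_lit 13430744980) (nat_lit 532) (nat_lit 18457767401) (nat_lit 218) (nat_lit 5) (nat_lit 224) (nat_lit 5) (nat_lit 225) (nat_lit 5) (nat_lit 458) (nat_lit 436) (nat_lit 306))))))))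
noncomputable def xc102 : XT := (XT.nd (nat_lit 2028) (nat_lit 1748) (nat_lit 0) (XT.nd (nat_lit 1014) (nat_lit 3268) (nat_lit 0) (XT.nd (nat_lit 468) (nat_lit 1976) (nat_lit 0) (XT.nd (nat_lit 234) (nat_lit 1140) (nat_lit 0) (XT.nd (nat_lit 78) (nat_lit 912) (nat_lit 0) (XT.lf (nat_lit 0) (nat_lit 8474522310) (nat_lit 380) (nat_lit 27778002169) (nat_lit 456) (nat_lit 7190041499) (nat_lit 213) (nat_lit 5) (nat_lit 218) (nat_lit 5) (nat_lit 219) (nat_lit 5) (nat_lit 459) (nat_lit 436) (nat_lit 305)) (XT.nd (nat_lit 78) (nat_lit 380) (nat_lit 0) (XT.lf (nat_lit 0) (nat_lit 5093219567) (nat_lit 532) (nat_lit 37982894813) (nat_lit 76) (nat_lit 1634966629) (nat_lit 206) (nat_lit 5) (nat_lit 213) (nat_lit 5) (nat_lit 207) (nat_lit 5) (nat_lit 460) (nat_lit 436) (nat_lit 304)) (XT.lf (nat_lit 0) (nat_lit 4940974157) (nat_lit 380) (nat_lit 13588692922) (nat_lit 456) (nat_lit 27490587655) (nat_lit 201)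 (nat_lit 5) (nat_lit 206) (nat_lit 5) (nat_lit 207) (nat_lit 5) (nat_lit 461) (nat_lit 436) (nat_lit 303)))) (XT.nd (nat_lit 78) (nat_lit 760) (nat_lit 0) (XT.lf (nat_lit 0) (nat_lit 3308691598) (nat_lit 380) (nat_lit 29918033202) (nat_lit 456) (nat_lit 14150499025) (nat_lit 196) (nat_lit 5) (nat_lit 201) (nat_lit 5) (nat_lit 202) (nat_lit 5) (nat_lit 462) (nat_lit 436) (nat_lit 302)) (XT.nd (nat_lit 78) (nat_lit 380) (nat_lit 0) (XT.lf (nat_lit 0) (nat_lit 450695231) (nat_lit 380) (nat_lit 46923327931) (nat_lit 76) (nat_lit 1410320771) (nat_lit 191) (nat_lit 5) (nat_lit 196) (nat_lit 5) (nat_lit 192) (nat_lit 5) (nat_lit 463) (nat_lit 436) (nat_lit 301)) (XT.lf (nat_lit 0) (nat_lit 310046457) (nat_lit 380) (nat_lit 15940441400) (nat_lit 456) (nat_lit 33984293569) (nat_lit 186) (nat_lit 5) (nat_lit 191) (nat_lit 5) (nat_lit 192) (nat_lit 5) (nat_lit 464) (nat_lit 436) (nat_lit 300))))) (XT.nd (nat_lit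 234) (nat_lit 1292) (nat_lit 0) (XT.nd (nat_lit 78) (nat_lit 684) (nat_lit 0) (XT.lf (nat_lit 0) (nat_lit 33487650263) (nat_lit 456) (nat_lit 1032803743) (nat_lit 76) (nat_lit 17217865647) (nat_lit 186) (nat_lit 5) (nat_lit 192) (nat_lit 5) (nat_lit 187) (nat_lit 5) (nat_lit 465) (nat_lit 436) (nat_lit 299)) (XT.nd (nat_lit 78) (nat_lit 380) (nat_lit 0) (XT.lf (nat_lit 0) (nat_lit 51134573890) (nat_lit 304) (nat_lit 1100263383) (nat_lit 380) (nat_lit 1062752777) (nat_lit 182) (nat_lit 5) (nat_lit 186) (nat_lit 5) (nat_lit 187) (nat_lit 5) (nat_lit 466) (nat_lit 436) (nat_lit 298)) (XT.lf (nat_lit 0) (nat_lit 17491405690) (nat_lit 380) (nat_lit 3408543507) (nat_lit 76) (nat_lit 34004828744) (nat_lit 177) (nat_lit 5) (nat_lit 182) (nat_lit 5) (nat_lit 178) (nat_lit 5) (nat_lit 467) (nat_lit 436) (nat_lit 297)))) (XT.nd (nat_lit 156) (nat_lit 608) (nat_lit 0) (XT.nd (nat_lit 78) (nat_lit 380) (nat_lit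 0) (XT.lf (nat_lit 0) (nat_lit 37625918953) (nat_lit 380) (nat_lit 4434038157) (nat_lit 76) (nat_lit 14511813883) (nat_lit 173) (nat_lit 5) (nat_lit 178) (nat_lit 5) (nat_lit 174) (nat_lit 5) (nat_lit 468) (nat_lit 436) (nat_lit 296)) (XT.lf (nat_lit 0) (nat_lit 1196027005) (nat_lit 380) (nat_lit 5282137852) (nat_lit 76) (nat_lit 51821030688) (nat_lit 168) (nat_lit 5) (nat_lit 173) (nat_lit 5) (nat_lit 169) (nat_lit 5) (nat_lit 469) (nat_lit 436) (nat_lit 295))) (XT.nd (nat_lit 78) (nat_lit 304) (nat_lit 0) (XT.lf (nat_lit 0) (nat_lit 22824269145) (nat_lit 380) (nat_lit 6213124883) (nat_lit 76) (nat_lit 31043837059) (nat_lit 164) (nat_lit 5) (nat_lit 169) (nat_lit 5) (nat_lit 165) (nat_lit 5) (nat_lit 470) (nat_lit 436) (nat_lit 294)) (XT.lf (nat_lit 0) (nat_lit 46266674569) (nat_lit 380) (nat_lit 6879217378) (nat_lit 76) (nat_lit 8784494108) (nat_lit 160) (nat_lit 5) (nat_lit 165) (nat_lit 5)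 (nat_lit 161) (nat_lit 5) (nat_lit 471) (nat_lit 436) (nat_lit 293)))))) (XT.nd (nat_lit 468) (nat_lit 1596) (nat_lit 0) (XT.nd (nat_lit 234) (nat_lit 836) (nat_lit 0) (XT.nd (nat_lit 78) (nat_lit 532) (nat_lit 0) (XT.lf (nat_lit 0) (nat_lit 7777913854) (nat_lit 304) (nat_lit 7480891006) (nat_lit 76) (nat_lit 48584008170) (nat_lit 156) (nat_lit 5) (nat_lit 160) (nat_lit 5) (nat_lit 157) (nat_lit 5) (nat_lit 472) (nat_lit 436) (nat_lit 292)) (XT.nd (nat_lit 78) (nat_lit 228) (nat_lit 0) (XT.lf (nat_lit 0) (nat_lit 32939985468) (nat_lit 380) (nat_lit 8042692294) (nat_lit 76) (nat_lit 24837361729) (nat_lit 152) (nat_lit 5) (nat_lit 157) (nat_lit 5) (nat_lit 153) (nat_lit 5) (nat_lit 473) (nat_lit 436) (nat_lit 291)) (XT.lf (nat_lit 0) (nat_lit 59563080093) (nat_lit 228) (nat_lit 597997895) (nat_lit 304) (nat_lit 7711021924) (nat_lit 149) (nat_lit 5) (nat_lit 152) (nat_lit 5) (nat_lit 153) (nat_lit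 5) (nat_lit 474) (nat_lit 436) (nat_lit 290)))) (XT.nd (nat_lit 78) (nat_lit 532) (nat_lit 0) (XT.lf (nat_lit 0) (nat_lit 19435037111) (nat_lit 304) (nat_lit 8700444299) (nat_lit 76) (nat_lit 41853370639) (nat_lit 145) (nat_lit 5) (nat_lit 149) (nat_lit 5) (nat_lit 146) (nat_lit 5) (nat_lit 475) (nat_lit 436) (nat_lit 289)) (XT.nd (nat_lit 78) (nat_lit 304) (nat_lit 0) (XT.lf (nat_lit 0) (nat_lit 48623954159) (nat_lit 304) (nat_lit 8853130014) (nat_lit 76) (nat_lit 14706716429) (nat_lit 142) (nat_lit 5) (nat_lit 146) (nat_lit 5) (nat_lit 143) (nat_lit 5) (nat_lit 476) (nat_lit 436) (nat_lit 288)) (XT.lf (nat_lit 0) (nat_lit 5702728630) (nat_lit 304) (nat_lit 8863985908) (nat_lit 76) (nat_lit 59890034890) (nat_lit 138) (nat_lit 5) (nat_lit 142) (nat_lit 5) (nat_lit 139) (nat_lit 5) (nat_lit 477) (nat_lit 436) (nat_lit 287))))) (XT.nd (nat_lit 234) (nat_lit 912) (nat_lit 0) (XT.nd (nat_lit 78) (nat_lit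 456) (nat_lit 0) (XT.lf (nat_lit 0) (nat_lit 36992973500) (nat_lit 304) (nat_lit 8924490660) (nat_lit 76) (nat_lit 30887329840) (nat_lit 135) (nat_lit 5) (nat_lit 139) (nat_lit 5) (nat_lit 136) (nat_lit 5) (nat_lit 478) (nat_lit 436) (nat_lit 286)) (XT.nd (nat_lit 78) (nat_lit 228) (nat_lit 0) (XT.lf (nat_lit 0) (nat_lit 70604308555) (nat_lit 228) (nat_lit 158275895) (nat_lit 304) (nat_lit 8480210849) (nat_lit 132) (nat_lit 5) (nat_lit 135) (nat_lit 5) (nat_lit 136) (nat_lit 5) (nat_lit 479) (nat_lit 436) (nat_lit 285)) (XT.lf (nat_lit 0) (nat_lit 25210291200) (nat_lit 228) (nat_lit 8548739702) (nat_lit 76) (nat_lit 47998560412) (nat_lit 129) (nat_lit 5) (nat_lit 132) (nat_lit 5) (nat_lit 130) (nat_lit 5) (nat_lit 480) (nat_lit 436) (nat_lit 284)))) (XT.nd (nat_lit 156) (nat_lit 456) (nat_lit 0) (XT.nd (nat_lit 78) (nat_lit 228) (nat_lit 0) (XT.lf (nat_lit 0) (nat_lit 61378944386) (nat_lit 304)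 (nat_lit 8185865670) (nat_lit 76) (nat_lit 14801728006) (nat_lit 126) (nat_lit 5) (nat_lit 130) (nat_lit 5) (nat_lit 127) (nat_lit 5) (nat_lit 481) (nat_lit 436) (nat_lit 283)) (XT.lf (nat_lit 0) (nat_lit 13213137107) (nat_lit 228) (nat_lit 7774397363) (nat_lit 76) (nat_lit 66078802632) (nat_lit 123) (nat_lit 5) (nat_lit 126) (nat_lit 5) (nat_lit 124) (nat_lit 5) (nat_lit 482) (nat_lit 436) (nat_lit 282))) (XT.nd (nat_lit 78) (nat_lit 228) (nat_lit 0) (XT.lf (nat_lit 0) (nat_lit 51930694065) (nat_lit 304) (nat_lit 7373242956) (nat_lit 76) (nat_lit 30554894915) (nat_lit 120) (nat_lit 5) (nat_lit 124) (nat_lit 5) (nat_lit 121) (nat_lit 5) (nat_lit 483) (nat_lit 436) (nat_lit 281)) (XT.lf (nat_lit 0) (nat_lit 925864009) (nat_lit 228) (nat_lit 6671259472) (nat_lit 76) (nat_lit 85160028232) (nat_lit 117) (nat_lit 5) (nat_lit 120) (nat_lit 5) (nat_lit 118) (nat_lit 5) (nat_lit 484) (nat_lit 436) (nat_lit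 280))))))) (XT.nd (nat_lit 59046) (nat_lit 0) (nat_lit 11856) (XT.nd (nat_lit 468) (nat_lit 608) (nat_lit 0) (XT.nd (nat_lit 234) (nat_lit 532) (nat_lit 0) (XT.nd (nat_lit 78) (nat_lit 380) (nat_lit 0) (XT.lf (nat_lit 0) (nat_lit 42346005090) (nat_lit 304) (nat_lit 6281809217) (nat_lit 76) (nat_lit 47119071932) (nat_lit 114) (nat_lit 5) (nat_lit 118) (nat_lit 5) (nat_lit 115) (nat_lit 5) (nat_lit 485) (nat_lit 436) (nat_lit 279)) (XT.nd (nat_lit 78) (nat_lit 228) (nat_lit 0) (XT.lf (nat_lit 0) (nat_lit 86941230386) (nat_lit 228) (nat_lit 5513202266) (nat_lit 76) (nat_lit 6398552600) (nat_lit 112) (nat_lit 5) (nat_lit 115) (nat_lit 5) (nat_lit 113) (nat_lit 5) (nat_lit 486) (nat_lit 436) (nat_lit 278)) (XT.lf (nat_lit 0) (nat_lit 32538501198) (nat_lit 228) (nat_lit 5023354872) (nat_lit 76) (nat_lit 64498276072) (nat_lit 109) (nat_lit 5) (nat_lit 112) (nat_lit 5) (nat_lit 110) (nat_lit 5) (nat_lit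 487) (nat_lit 436) (nat_lit 277)))) (XT.nd (nat_lit 78) (nat_lit 380) (nat_lit 0) (XT.lf (nat_lit 0) (nat_lit 80199758892) (nat_lit 228) (nat_lit 4343302589) (nat_lit 76) (nat_lit 20843991553) (nat_lit 107) (nat_lit 5) (nat_lit 110) (nat_lit 5) (nat_lit 108) (nat_lit 5) (nat_lit 488) (nat_lit 436) (nat_lit 276)) (XT.nd (nat_lit 78) (nat_lit 152) (nat_lit 0) (XT.lf (nat_lit 0) (nat_lit 22402431999) (nat_lit 228) (nat_lit 3745194217) (nat_lit 76) (nat_lit 82682866276) (nat_lit 104) (nat_lit 5) (nat_lit 107) (nat_lit 5) (nat_lit 105) (nat_lit 5) (nat_lit 489) (nat_lit 436) (nat_lit 275)) (XT.lf (nat_lit 0) (nat_lit 73302494283) (nat_lit 228) (nat_lit 3247640833) (nat_lit 76) (nat_lit 35844934641) (nat_lit 102) (nat_lit 5) (nat_lit 105) (nat_lit 5) (nat_lit 103) (nat_lit 5) (nat_lit 490) (nat_lit 436) (nat_lit 274))))) (XT.nd (nat_lit 58266) (nat_lit 0) (nat_lit 16340) (XT.nd (nat_lit 78) (nat_lit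 380) (nat_lit 0) (XT.lf (nat_lit 0) (nat_lit 11808756822) (nat_lit 228) (nat_lit 2637833126) (nat_lit 76) (nat_lit 101646043201) (nat_lit 99) (nat_lit 5) (nat_lit 102) (nat_lit 5) (nat_lit 100) (nat_lit 5) (nat_lit 491) (nat_lit 436) (nat_lit 273)) (XT.nd (nat_lit 78) (nat_lit 228) (nat_lit 0) (XT.lf (nat_lit 0) (nat_lit 66123313406) (nat_lit 228) (nat_lit 2442068692) (nat_lit 76) (nat_lit 51347781445) (nat_lit 97) (nat_lit 5) (nat_lit 100) (nat_lit 5) (nat_lit 98) (nat_lit 5) (nat_lit 492) (nat_lit 436) (nat_lit 272)) (XT.lf (nat_lit 0) (nat_lit 600509229) (nat_lit 228) (nat_lit 1944076937) (nat_lit 76) (nat_lit 121339659180) (nat_lit 94) (nat_lit 5) (nat_lit 97) (nat_lit 5) (nat_lit 95) (nat_lit 5) (nat_lit 493) (nat_lit 436) (nat_lit 271)))) (XT.nd (nat_lit 156) (nat_lit 0) (nat_lit 76) (XT.nd (nat_lit 78) (nat_lit 0) (nat_lit 76) (XT.lf (nat_lit 0) (nat_lit 5486963664) (nat_lit 1292) (nat_lit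 3448599740) (nat_lit 1292) (nat_lit 3448599740) (nat_lit 309) (nat_lit 3) (nat_lit 326) (nat_lit 3) (nat_lit 326) (nat_lit 5) (nat_lit 437) (nat_lit 437) (nat_lit 326)) (XT.lf (nat_lit 0) (nat_lit 11578959725) (nat_lit 1216) (nat_lit 11553767969) (nat_lit 1292) (nat_lit 2244869988) (nat_lit 310) (nat_lit 5) (nat_lit 326) (nat_lit 5) (nat_lit 327) (nat_lit 5) (nat_lit 438) (nat_lit 437) (nat_lit 325))) (XT.nd (nat_lit 78) (nat_lit 0) (nat_lit 76) (XT.lf (nat_lit 76) (nat_lit 9711978481) (nat_lit 0) (nat_lit 2836460020) (nat_lit 1292) (nat_lit 13458869339) (nat_lit 311) (nat_lit 5) (nat_lit 310) (nat_lit 5) (nat_lit 327) (nat_lit 5) (nat_lit 439) (nat_lit 437) (nat_lit 324)) (XT.lf (nat_lit 76) (nat_lit 5540378588) (nat_lit 0) (nat_lit 8366250393) (nat_lit 1292) (nat_lit 12751668382) (nat_lit 312) (nat_lit 5) (nat_lit 311) (nat_lit 5) (nat_lit 328) (nat_lit 5) (nat_lit 440) (nat_lit 437) (nat_lit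 323)))))) (XT.nd (nat_lit 546) (nat_lit 3724) (nat_lit 0) (XT.nd (nat_lit 234) (nat_lit 988) (nat_lit 0) (XT.nd (nat_lit 78) (nat_lit 0) (nat_lit 76) (XT.lf (nat_lit 76) (nat_lit 1335284241) (nat_lit 0) (nat_lit 14323511186) (nat_lit 1292) (nat_lit 11673259885) (nat_lit 313) (nat_lit 5) (nat_lit 312) (nat_lit 5) (nat_lit 329) (nat_lit 5) (nat_lit 441) (nat_lit 437) (nat_lit 322)) (XT.nd (nat_lit 78) (nat_lit 0) (nat_lit 76) (XT.lf (nat_lit 0) (nat_lit 17861573515) (nat_lit 1216) (nat_lit 2842701547) (nat_lit 1292) (nat_lit 7324336895) (nat_lit 313) (nat_lit 5) (nat_lit 329) (nat_lit 5) (nat_lit 330) (nat_lit 5) (nat_lit 442) (nat_lit 437) (nat_lit 321)) (XT.lf (nat_lit 0) (nat_lit 20530512040) (nat_lit 1216) (nat_lit 7019118739) (nat_lit 1292) (nat_lit 1199685863) (nat_lit 314) (nat_lit 5) (nat_lit 330) (nat_lit 5) (nat_lit 331) (nat_lit 5) (nat_lit 443) (nat_lit 437) (nat_lit 320)))) (XT.nd (nat_lit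 156) (nat_lit 1140) (nat_lit 0) (XT.nd (nat_lit 78) (nat_lit 0) (nat_lit 76) (XT.lf (nat_lit 76) (nat_lit 18225787267) (nat_lit 0) (nat_lit 5511931167) (nat_lit 1292) (nat_lit 5756194315) (nat_lit 315) (nat_lit 5) (nat_lit 314) (nat_lit 5) (nat_lit 331) (nat_lit 5) (nat_lit 444) (nat_lit 437) (nat_lit 319)) (XT.lf (nat_lit 76) (nat_lit 14716395501) (nat_lit 0) (nat_lit 12764252256) (nat_lit 1292) (nat_lit 2783830801) (nat_lit 316) (nat_lit 5) (nat_lit 315) (nat_lit 5) (nat_lit 332) (nat_lit 5) (nat_lit 445) (nat_lit 437) (nat_lit 318))) (XT.nd (nat_lit 78) (nat_lit 0) (nat_lit 76) (XT.lf (nat_lit 0) (nat_lit 706911353) (nat_lit 1292) (nat_lit 19848528435) (nat_lit 1368) (nat_lit 10506746175) (nat_lit 299) (nat_lit 5) (nat_lit 316) (nat_lit 5) (nat_lit 317) (nat_lit 5) (nat_lit 446) (nat_lit 437) (nat_lit 317)) (XT.lf (nat_lit 0) (nat_lit 4701393392) (nat_lit 1292) (nat_lit 24188588180) (nat_lit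 76) (nat_lit 2997367669) (nat_lit 300) (nat_lit 5) (nat_lit 317) (nat_lit 5) (nat_lit 301) (nat_lit 5) (nat_lit 447) (nat_lit 437) (nat_lit 316))))) (XT.nd (nat_lit 234) (nat_lit 2356) (nat_lit 0) (XT.nd (nat_lit 78) (nat_lit 608) (nat_lit 0) (XT.lf (nat_lit 0) (nat_lit 4155400956) (nat_lit 836) (nat_lit 5186372910) (nat_lit 912) (nat_lit 23398612238) (nat_lit 289) (nat_lit 5) (nat_lit 300) (nat_lit 5) (nat_lit 301) (nat_lit 5) (nat_lit 448) (nat_lit 437) (nat_lit 315)) (XT.nd (nat_lit 78) (nat_lit 0) (nat_lit 0) (XT.lf (nat_lit 0) (nat_lit 606661313) (nat_lit 608) (nat_lit 14046919257) (nat_lit 684) (nat_lit 18969312642) (nat_lit 281) (nat_lit 5) (nat_lit 289) (nat_lit 5) (nat_lit 290) (nat_lit 5) (nat_lit 449) (nat_lit 437) (nat_lit 314)) (XT.lf (nat_lit 0) (nat_lit 20677974222) (nat_lit 684) (nat_lit 2851994499) (nat_lit 76) (nat_lit 11006147648) (nat_lit 281) (nat_lit 5) (nat_lit 290) (nat_lit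 5) (nat_lit 282) (nat_lit 5) (nat_lit 450) (nat_lit 437) (nat_lit 313)))) (XT.nd (nat_lit 156) (nat_lit 1216) (nat_lit 0) (XT.nd (nat_lit 78) (nat_lit 532) (nat_lit 0) (XT.lf (nat_lit 0) (nat_lit 27437329612) (nat_lit 684) (nat_lit 6257201571) (nat_lit 76) (nat_lit 1787457800) (nat_lit 273) (nat_lit 5) (nat_lit 282) (nat_lit 5) (nat_lit 274) (nat_lit 5) (nat_lit 451) (nat_lit 437) (nat_lit 312)) (XT.lf (nat_lit 0) (nat_lit 26768824115) (nat_lit 532) (nat_lit 8283886953) (nat_lit 608) (nat_lit 1406902947) (nat_lit 266) (nat_lit 5) (nat_lit 273) (nat_lit 5) (nat_lit 274) (nat_lit 5) (nat_lit 452) (nat_lit 437) (nat_lit 311))) (XT.nd (nat_lit 78) (nat_lit 532) (nat_lit 0) (XT.lf (nat_lit 0) (nat_lit 5928982162) (nat_lit 684) (nat_lit 13145554498) (nat_lit 76) (nat_lit 18395736259) (nat_lit 257) (nat_lit 5) (nat_lit 266) (nat_lit 5) (nat_lit 258) (nat_lit 5) (nat_lit 453) (nat_lit 437) (nat_lit 310))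 (XT.lf (nat_lit 0) (nat_lit 14070418057) (nat_lit 608) (nat_lit 16556777616) (nat_lit 76) (nat_lit 7889816070) (nat_lit 250) (nat_lit 5) (nat_lit 258) (nat_lit 5) (nat_lit 251) (nat_lit 5) (nat_lit 454) (nat_lit 437) (nat_lit 309))))))))
noncomputable def xc103 : XT := (XT.nd (nat_lit 2028) (nat_lit 2660) (nat_lit 0) (XT.nd (nat_lit 1014) (nat_lit 3800) (nat_lit 0) (XT.nd (nat_lit 468) (nat_lit 2356) (nat_lit 0) (XT.nd (nat_lit 234) (nat_lit 1292) (nat_lit 0) (XT.nd (nat_lit 78) (nat_lit 988) (nat_lit 0) (XT.lf (nat_lit 0) (nat_lit 19667510908) (nat_lit 532) (nat_lit 3463890967) (nat_lit 608) (nat_lit 16469311800) (nat_lit 243) (nat_lit 5) (nat_lit 250) (nat_lit 5) (nat_lit 251) (nat_lit 5) (nat_lit 455) (nat_lit 437) (nat_lit 308)) (XT.nd (nat_lit 78) (nat_lit 532) (nat_lit 0) (XT.lf (nat_lit 0) (nat_lit 17406242142) (nat_lit 456) (nat_lit 15813948692) (nat_lit 532) (nat_lit 7501167618) (nat_lit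 237) (nat_lit 5) (nat_lit 243) (nat_lit 5) (nat_lit 244) (nat_lit 5) (nat_lit 456) (nat_lit 437) (nat_lit 307)) (XT.lf (nat_lit 0) (nat_lit 2388641508) (nat_lit 532) (nat_lit 26636342342) (nat_lit 76) (nat_lit 12857180646) (nat_lit 230) (nat_lit 5) (nat_lit 237) (nat_lit 5) (nat_lit 231) (nat_lit 5) (nat_lit 457) (nat_lit 437) (nat_lit 306)))) (XT.nd (nat_lit 78) (nat_lit 836) (nat_lit 0) (XT.lf (nat_lit 0) (nat_lit 13140667844) (nat_lit 456) (nat_lit 1679081) (nat_lit 532) (nat_lit 29940699978) (nat_lit 224) (nat_lit 5) (nat_lit 230) (nat_lit 5) (nat_lit 231) (nat_lit 5) (nat_lit 458) (nat_lit 437) (nat_lit 305)) (XT.nd (nat_lit 78) (nat_lit 380) (nat_lit 0) (XT.lf (nat_lit 0) (nat_lit 11040985627) (nat_lit 456) (nat_lit 14063684267) (nat_lit 532) (nat_lit 19219175927) (nat_lit 218) (nat_lit 5) (nat_lit 224) (nat_lit 5) (nat_lit 225) (nat_lit 5) (nat_lit 459) (nat_lit 437) (nat_lit 304)) (XT.lf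 (nat_lit 0) (nat_lit 9092230650) (nat_lit 380) (nat_lit 29124438890) (nat_lit 456) (nat_lit 7393468670) (nat_lit 213) (nat_lit 5) (nat_lit 218) (nat_lit 5) (nat_lit 219) (nat_lit 5) (nat_lit 460) (nat_lit 437) (nat_lit 303))))) (XT.nd (nat_lit 234) (nat_lit 1064) (nat_lit 0) (XT.nd (nat_lit 78) (nat_lit 760) (nat_lit 0) (XT.lf (nat_lit 0) (nat_lit 5495883622) (nat_lit 532) (nat_lit 39686633544) (nat_lit 76) (nat_lit 1759668091) (nat_lit 206) (nat_lit 5) (nat_lit 213) (nat_lit 5) (nat_lit 207) (nat_lit 5) (nat_lit 461) (nat_lit 437) (nat_lit 302)) (XT.nd (nat_lit 78) (nat_lit 380) (nat_lit 0) (XT.lf (nat_lit 0) (nat_lit 5377827600) (nat_lit 380) (nat_lit 14221102663) (nat_lit 456) (nat_lit 28718044565) (nat_lit 201) (nat_lit 5) (nat_lit 206) (nat_lit 5) (nat_lit 207) (nat_lit 5) (nat_lit 462) (nat_lit 437) (nat_lit 301)) (XT.lf (nat_lit 0) (nat_lit 3662220720) (nat_lit 380) (nat_lit 31364059697)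 (nat_lit 456) (nat_lit 14715649210) (nat_lit 196) (nat_lit 5) (nat_lit 201) (nat_lit 5) (nat_lit 202) (nat_lit 5) (nat_lit 463) (nat_lit 437) (nat_lit 300)))) (XT.nd (nat_lit 156) (nat_lit 304) (nat_lit 0) (XT.nd (nat_lit 78) (nat_lit 380) (nat_lit 0) (XT.lf (nat_lit 0) (nat_lit 608448485) (nat_lit 380) (nat_lit 49080521633) (nat_lit 76) (nat_lit 1530526313) (nat_lit 191) (nat_lit 5) (nat_lit 196) (nat_lit 5) (nat_lit 192) (nat_lit 5) (nat_lit 464) (nat_lit 437) (nat_lit 299)) (XT.lf (nat_lit 0) (nat_lit 509104611) (nat_lit 380) (nat_lit 16684451607) (nat_lit 456) (nat_lit 35549040204) (nat_lit 186) (nat_lit 5) (nat_lit 191) (nat_lit 5) (nat_lit 192) (nat_lit 5) (nat_lit 465) (nat_lit 437) (nat_lit 298))) (XT.nd (nat_lit 78) (nat_lit 304) (nat_lit 0) (XT.lf (nat_lit 0) (nat_lit 35286845681) (nat_lit 456) (nat_lit 906376956) (nat_lit 76) (nat_lit 18128261225) (nat_lit 186) (nat_lit 5) (nat_lit 192)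 (nat_lit 5) (nat_lit 187) (nat_lit 5) (nat_lit 466) (nat_lit 437) (nat_lit 297)) (XT.lf (nat_lit 0) (nat_lit 53864265305) (nat_lit 304) (nat_lit 1102845888) (nat_lit 380) (nat_lit 991735363) (nat_lit 182) (nat_lit 5) (nat_lit 186) (nat_lit 5) (nat_lit 187) (nat_lit 5) (nat_lit 467) (nat_lit 437) (nat_lit 296)))))) (XT.nd (nat_lit 468) (nat_lit 1824) (nat_lit 0) (XT.nd (nat_lit 234) (nat_lit 912) (nat_lit 0) (XT.nd (nat_lit 78) (nat_lit 684) (nat_lit 0) (XT.lf (nat_lit 0) (nat_lit 18484056651) (nat_lit 380) (nat_lit 3405579766) (nat_lit 76) (nat_lit 35756831496) (nat_lit 177) (nat_lit 5) (nat_lit 182) (nat_lit 5) (nat_lit 178) (nat_lit 5) (nat_lit 468) (nat_lit 437) (nat_lit 295)) (XT.nd (nat_lit 78) (nat_lit 380) (nat_lit 0) (XT.lf (nat_lit 0) (nat_lit 39621814038) (nat_lit 380) (nat_lit 4484413254) (nat_lit 76) (nat_lit 15290688082) (nat_lit 173) (nat_lit 5) (nat_lit 178) (nat_lit 5) (nat_lit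 174) (nat_lit 5) (nat_lit 469) (nat_lit 437) (nat_lit 294)) (XT.lf (nat_lit 0) (nat_lit 1367672318) (nat_lit 380) (nat_lit 5377597340) (nat_lit 76) (nat_lit 54465524617) (nat_lit 168) (nat_lit 5) (nat_lit 173) (nat_lit 5) (nat_lit 169) (nat_lit 5) (nat_lit 470) (nat_lit 437) (nat_lit 293)))) (XT.nd (nat_lit 78) (nat_lit 608) (nat_lit 0) (XT.lf (nat_lit 0) (nat_lit 24074110954) (nat_lit 380) (nat_lit 6357255347) (nat_lit 76) (nat_lit 32650662034) (nat_lit 164) (nat_lit 5) (nat_lit 169) (nat_lit 5) (nat_lit 165) (nat_lit 5) (nat_lit 471) (nat_lit 437) (nat_lit 292)) (XT.nd (nat_lit 78) (nat_lit 304) (nat_lit 0) (XT.lf (nat_lit 0) (nat_lit 48685564171) (nat_lit 380) (nat_lit 7058815825) (nat_lit 76) (nat_lit 9279353491) (nat_lit 160) (nat_lit 5) (nat_lit 165) (nat_lit 5) (nat_lit 161) (nat_lit 5) (nat_lit 472) (nat_lit 437) (nat_lit 291)) (XT.lf (nat_lit 0) (nat_lit 8269889000) (nat_lit 304) (nat_lit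 7693228262) (nat_lit 76) (nat_lit 51068739231) (nat_lit 156) (nat_lit 5) (nat_lit 160) (nat_lit 5) (nat_lit 157) (nat_lit 5) (nat_lit 473) (nat_lit 437) (nat_lit 290))))) (XT.nd (nat_lit 234) (nat_lit 988) (nat_lit 0) (XT.nd (nat_lit 78) (nat_lit 532) (nat_lit 0) (XT.lf (nat_lit 0) (nat_lit 34687217201) (nat_lit 380) (nat_lit 8285311602) (nat_lit 76) (nat_lit 26135501113) (nat_lit 152) (nat_lit 5) (nat_lit 157) (nat_lit 5) (nat_lit 153) (nat_lit 5) (nat_lit 474) (nat_lit 437) (nat_lit 289)) (XT.nd (nat_lit 78) (nat_lit 304) (nat_lit 0) (XT.lf (nat_lit 0) (nat_lit 62696176930) (nat_lit 228) (nat_lit 569903848) (nat_lit 304) (nat_lit 7996711305) (nat_lit 149) (nat_lit 5) (nat_lit 152) (nat_lit 5) (nat_lit 153) (nat_lit 5) (nat_lit 475) (nat_lit 437) (nat_lit 288)) (XT.lf (nat_lit 0) (nat_lit 20502058922) (nat_lit 304) (nat_lit 8980777163) (nat_lit 76) (nat_lit 44002596438) (nat_lit 145) (nat_lit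 5) (nat_lit 149) (nat_lit 5) (nat_lit 146) (nat_lit 5) (nat_lit 476) (nat_lit 437) (nat_lit 287)))) (XT.nd (nat_lit 156) (nat_lit 456) (nat_lit 0) (XT.nd (nat_lit 78) (nat_lit 304) (nat_lit 0) (XT.lf (nat_lit 0) (nat_lit 51147887780) (nat_lit 304) (nat_lit 9143320414) (nat_lit 76) (nat_lit 15498996523) (nat_lit 142) (nat_lit 5) (nat_lit 146) (nat_lit 5) (nat_lit 143) (nat_lit 5) (nat_lit 477) (nat_lit 437) (nat_lit 286)) (XT.lf (nat_lit 0) (nat_lit 6078500699) (nat_lit 304) (nat_lit 9157282138) (nat_lit 76) (nat_lit 62941081446) (nat_lit 138) (nat_lit 5) (nat_lit 142) (nat_lit 5) (nat_lit 139) (nat_lit 5) (nat_lit 478) (nat_lit 437) (nat_lit 285))) (XT.nd (nat_lit 78) (nat_lit 228) (nat_lit 0) (XT.lf (nat_lit 0) (nat_lit 38930897927) (nat_lit 304) (nat_lit 9223030553) (nat_lit 76) (nat_lit 32488453567) (nat_lit 135) (nat_lit 5) (nat_lit 139) (nat_lit 5) (nat_lit 136) (nat_lit 5) (nat_lit 479) (nat_lit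 437) (nat_lit 284)) (XT.lf (nat_lit 0) (nat_lit 74277975272) (nat_lit 228) (nat_lit 108189487) (nat_lit 304) (nat_lit 8816203553) (nat_lit 132) (nat_lit 5) (nat_lit 135) (nat_lit 5) (nat_lit 136) (nat_lit 5) (nat_lit 480) (nat_lit 437) (nat_lit 283))))))) (XT.nd (nat_lit 59124) (nat_lit 0) (nat_lit 13984) (XT.nd (nat_lit 468) (nat_lit 1292) (nat_lit 0) (XT.nd (nat_lit 234) (nat_lit 684) (nat_lit 0) (XT.nd (nat_lit 78) (nat_lit 456) (nat_lit 0) (XT.lf (nat_lit 0) (nat_lit 26554904379) (nat_lit 228) (nat_lit 8833209073) (nat_lit 76) (nat_lit 50454831493) (nat_lit 129) (nat_lit 5) (nat_lit 132) (nat_lit 5) (nat_lit 130) (nat_lit 5) (nat_lit 481) (nat_lit 437) (nat_lit 282)) (XT.nd (nat_lit 78) (nat_lit 228) (nat_lit 0) (XT.lf (nat_lit 0) (nat_lit 64529872581) (nat_lit 304) (nat_lit 8454395934) (nat_lit 76) (nat_lit 15598134186) (nat_lit 126) (nat_lit 5) (nat_lit 130) (nat_lit 5) (nat_lit 127) (nat_lit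 5) (nat_lit 482) (nat_lit 437) (nat_lit 281)) (XT.lf (nat_lit 0) (nat_lit 13953974096) (nat_lit 228) (nat_lit 8024790793) (nat_lit 76) (nat_lit 69438481044) (nat_lit 123) (nat_lit 5) (nat_lit 126) (nat_lit 5) (nat_lit 124) (nat_lit 5) (nat_lit 483) (nat_lit 437) (nat_lit 280)))) (XT.nd (nat_lit 78) (nat_lit 456) (nat_lit 0) (XT.lf (nat_lit 0) (nat_lit 54605427473) (nat_lit 304) (nat_lit 7605756772) (nat_lit 76) (nat_lit 32138240831) (nat_lit 120) (nat_lit 5) (nat_lit 124) (nat_lit 5) (nat_lit 121) (nat_lit 5) (nat_lit 484) (nat_lit 437) (nat_lit 279)) (XT.nd (nat_lit 78) (nat_lit 228) (nat_lit 0) (XT.lf (nat_lit 0) (nat_lit 1048655685) (nat_lit 228) (nat_lit 6871052000) (nat_lit 76) (nat_lit 89473004351) (nat_lit 117) (nat_lit 5) (nat_lit 120) (nat_lit 5) (nat_lit 118) (nat_lit 5) (nat_lit 485) (nat_lit 437) (nat_lit 278)) (XT.lf (nat_lit 0) (nat_lit 44537946743) (nat_lit 304) (nat_lit 6464275080)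 (nat_lit 76) (nat_lit 49529767287) (nat_lit 114) (nat_lit 5) (nat_lit 118) (nat_lit 5) (nat_lit 115) (nat_lit 5) (nat_lit 486) (nat_lit 437) (nat_lit 277))))) (XT.nd (nat_lit 234) (nat_lit 760) (nat_lit 0) (XT.nd (nat_lit 78) (nat_lit 380) (nat_lit 0) (XT.lf (nat_lit 0) (nat_lit 91361141782) (nat_lit 228) (nat_lit 5659373042) (nat_lit 76) (nat_lit 6772932101) (nat_lit 112) (nat_lit 5) (nat_lit 115) (nat_lit 5) (nat_lit 113) (nat_lit 5) (nat_lit 487) (nat_lit 437) (nat_lit 276)) (XT.nd (nat_lit 78) (nat_lit 152) (nat_lit 0) (XT.lf (nat_lit 0) (nat_lit 34236717008) (nat_lit 228) (nat_lit 5147324303) (nat_lit 76) (nat_lit 67776956781) (nat_lit 109) (nat_lit 5) (nat_lit 112) (nat_lit 5) (nat_lit 110) (nat_lit 5) (nat_lit 488) (nat_lit 437) (nat_lit 275)) (XT.lf (nat_lit 0) (nat_lit 84279354033) (nat_lit 228) (nat_lit 4435364754) (nat_lit 76) (nat_lit 21939596839) (nat_lit 107) (nat_lit 5) (nat_lit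 110) (nat_lit 5) (nat_lit 108) (nat_lit 5) (nat_lit 489) (nat_lit 437) (nat_lit 274)))) (XT.nd (nat_lit 156) (nat_lit 380) (nat_lit 0) (XT.nd (nat_lit 78) (nat_lit 152) (nat_lit 0) (XT.lf (nat_lit 0) (nat_lit 23590683911) (nat_lit 228) (nat_lit 3809579384) (nat_lit 76) (nat_lit 86869708209) (nat_lit 104) (nat_lit 5) (nat_lit 107) (nat_lit 5) (nat_lit 105) (nat_lit 5) (nat_lit 490) (nat_lit 437) (nat_lit 273)) (XT.lf (nat_lit 0) (nat_lit 77034164832) (nat_lit 228) (nat_lit 3289200418) (nat_lit 76) (nat_lit 37689459996) (nat_lit 102) (nat_lit 5) (nat_lit 105) (nat_lit 5) (nat_lit 103) (nat_lit 5) (nat_lit 491) (nat_lit 437) (nat_lit 272))) (XT.nd (nat_lit 78) (nat_lit 152) (nat_lit 0) (XT.lf (nat_lit 0) (nat_lit 12464339957) (nat_lit 228) (nat_lit 2651067657) (nat_lit 76) (nat_lit 106779901334) (nat_lit 99) (nat_lit 5) (nat_lit 102) (nat_lit 5) (nat_lit 100) (nat_lit 5) (nat_lit 492) (nat_lit 437)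 (nat_lit 271)) (XT.lf (nat_lit 0) (nat_lit 69493130986) (nat_lit 228) (nat_lit 2447521187) (nat_lit 76) (nat_lit 53966258561) (nat_lit 97) (nat_lit 5) (nat_lit 100) (nat_lit 5) (nat_lit 98) (nat_lit 5) (nat_lit 493) (nat_lit 437) (nat_lit 270)))))) (XT.nd (nat_lit 546) (nat_lit 2128) (nat_lit 0) (XT.nd (nat_lit 234) (nat_lit 0) (nat_lit 152) (XT.nd (nat_lit 78) (nat_lit 0) (nat_lit 76) (XT.lf (nat_lit 0) (nat_lit 5934145305) (nat_lit 1292) (nat_lit 3532012504) (nat_lit 1292) (nat_lit 3532012504) (nat_lit 309) (nat_lit 3) (nat_lit 326) (nat_lit 3) (nat_lit 326) (nat_lit 5) (nat_lit 438) (nat_lit 438) (nat_lit 324)) (XT.nd (nat_lit 78) (nat_lit 0) (nat_lit 0) (XT.lf (nat_lit 0) (nat_lit 12487258424) (nat_lit 1216) (nat_lit 11947050531) (nat_lit 1292) (nat_lit 2202257642) (nat_lit 310) (nat_lit 5) (nat_lit 326) (nat_lit 5) (nat_lit 327) (nat_lit 5) (nat_lit 439) (nat_lit 438) (nat_lit 323)) (XT.lf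 (nat_lit 76) (nat_lit 10376697285) (nat_lit 0) (nat_lit 3114552295) (nat_lit 1292) (nat_lit 13806932978) (nat_lit 311) (nat_lit 5) (nat_lit 310) (nat_lit 5) (nat_lit 327) (nat_lit 5) (nat_lit 440) (nat_lit 438) (nat_lit 322)))) (XT.nd (nat_lit 156) (nat_lit 0) (nat_lit 152) (XT.nd (nat_lit 78) (nat_lit 0) (nat_lit 76) (XT.lf (nat_lit 76) (nat_lit 6001873943) (nat_lit 0) (nat_lit 8900982884) (nat_lit 1292) (nat_lit 13079300894) (nat_lit 312) (nat_lit 5) (nat_lit 311) (nat_lit 5) (nat_lit 328) (nat_lit 5) (nat_lit 441) (nat_lit 438) (nat_lit 321)) (XT.lf (nat_lit 76) (nat_lit 1591118885) (nat_lit 0) (nat_lit 15137935962) (nat_lit 1292) (nat_lit 11960957339) (nat_lit 313) (nat_lit 5) (nat_lit 312) (nat_lit 5) (nat_lit 329) (nat_lit 5) (nat_lit 442) (nat_lit 438) (nat_lit 320))) (XT.nd (nat_lit 78) (nat_lit 0) (nat_lit 76) (XT.lf (nat_lit 0) (nat_lit 19027390491) (nat_lit 1216) (nat_lit 2795635905)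 (nat_lit 1292) (nat_lit 7598808958) (nat_lit 313) (nat_lit 5) (nat_lit 329) (nat_lit 5) (nat_lit 330) (nat_lit 5) (nat_lit 443) (nat_lit 438) (nat_lit 319)) (XT.lf (nat_lit 0) (nat_lit 21817807700) (nat_lit 1216) (nat_lit 7177680695) (nat_lit 1292) (nat_lit 1183447120) (nat_lit 314) (nat_lit 5) (nat_lit 330) (nat_lit 5) (nat_lit 331) (nat_lit 5) (nat_lit 444) (nat_lit 438) (nat_lit 318))))) (XT.nd (nat_lit 234) (nat_lit 1368) (nat_lit 0) (XT.nd (nat_lit 78) (nat_lit 1140) (nat_lit 0) (XT.lf (nat_lit 76) (nat_lit 19323955676) (nat_lit 0) (nat_lit 5850797511) (nat_lit 1292) (nat_lit 5786328013) (nat_lit 315) (nat_lit 5) (nat_lit 314) (nat_lit 5) (nat_lit 331) (nat_lit 5) (nat_lit 445) (nat_lit 438) (nat_lit 317)) (XT.nd (nat_lit 78) (nat_lit 1216) (nat_lit 0) (XT.lf (nat_lit 76) (nat_lit 15641639648) (nat_lit 0) (nat_lit 13452519117) (nat_lit 1292) (nat_lit 2676337723) (nat_lit 316) (nat_lit 5) (nat_lit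 315) (nat_lit 5) (nat_lit 332) (nat_lit 5) (nat_lit 446) (nat_lit 438) (nat_lit 316)) (XT.lf (nat_lit 0) (nat_lit 974006059) (nat_lit 1292) (nat_lit 20644861226) (nat_lit 1368) (nat_lit 10989455493) (nat_lit 299) (nat_lit 5) (nat_lit 316) (nat_lit 5) (nat_lit 317) (nat_lit 5) (nat_lit 447) (nat_lit 438) (nat_lit 315)))) (XT.nd (nat_lit 156) (nat_lit 608) (nat_lit 0) (XT.nd (nat_lit 78) (nat_lit 836) (nat_lit 0) (XT.lf (nat_lit 0) (nat_lit 5158699173) (nat_lit 1292) (nat_lit 25200541261) (nat_lit 76) (nat_lit 3115790130) (nat_lit 300) (nat_lit 5) (nat_lit 317) (nat_lit 5) (nat_lit 301) (nat_lit 5) (nat_lit 448) (nat_lit 438) (nat_lit 314)) (XT.lf (nat_lit 0) (nat_lit 4554986711) (nat_lit 836) (nat_lit 5467373137) (nat_lit 912) (nat_lit 24348622493) (nat_lit 289) (nat_lit 5) (nat_lit 300) (nat_lit 5) (nat_lit 301) (nat_lit 5) (nat_lit 449) (nat_lit 438) (nat_lit 313))) (XT.nd (nat_lit 78) (nat_lit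 0) (nat_lit 0) (XT.lf (nat_lit 0) (nat_lit 829753122) (nat_lit 608) (nat_lit 14761491651) (nat_lit 684) (nat_lit 19706626260) (nat_lit 281) (nat_lit 5) (nat_lit 289) (nat_lit 5) (nat_lit 290) (nat_lit 5) (nat_lit 450) (nat_lit 438) (nat_lit 312)) (XT.lf (nat_lit 0) (nat_lit 21906984978) (nat_lit 684) (nat_lit 2805029356) (nat_lit 76) (nat_lit 11545038030) (nat_lit 281) (nat_lit 5) (nat_lit 290) (nat_lit 5) (nat_lit 282) (nat_lit 5) (nat_lit 451) (nat_lit 438) (nat_lit 311))))))))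
noncomputable def xc104 : XT := (XT.nd (nat_lit 2028) (nat_lit 3496) (nat_lit 0) (XT.nd (nat_lit 1014) (nat_lit 3876) (nat_lit 0) (XT.nd (nat_lit 468) (nat_lit 3116) (nat_lit 0) (XT.nd (nat_lit 234) (nat_lit 1520) (nat_lit 0) (XT.nd (nat_lit 78) (nat_lit 1216) (nat_lit 0) (XT.lf (nat_lit 0) (nat_lit 28996753808) (nat_lit 684) (nat_lit 6380253956) (nat_lit 76) (nat_lit 1873438259) (nat_lit 273) (nat_lit 5) (nat_lit 282) (nat_lit 5) (nat_lit 274) (nat_lit 5) (nat_lit 452) (nat_lit 438) (nat_lit 310)) (XT.nd (nat_lit 78) (nat_lit 684) (nat_lit 0) (XT.lf (nat_lit 0) (nat_lit 28291632215) (nat_lit 532) (nat_lit 8694113049) (nat_lit 608) (nat_lit 1291422561) (nat_lit 266) (nat_lit 5) (nat_lit 273) (nat_lit 5) (nat_lit 274) (nat_lit 5) (nat_lit 453) (nat_lit 438) (nat_lit 309)) (XT.lf (nat_lit 0) (nat_lit 6400780508) (nat_lit 684) (nat_lit 13615012291) (nat_lit 76) (nat_lit 19322719482) (nat_lit 257)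 (nat_lit 5) (nat_lit 266) (nat_lit 5) (nat_lit 258) (nat_lit 5) (nat_lit 454) (nat_lit 438) (nat_lit 308)))) (XT.nd (nat_lit 78) (nat_lit 988) (nat_lit 0) (XT.lf (nat_lit 0) (nat_lit 14942823452) (nat_lit 608) (nat_lit 17197236180) (nat_lit 76) (nat_lit 8297723015) (nat_lit 250) (nat_lit 5) (nat_lit 258) (nat_lit 5) (nat_lit 251) (nat_lit 5) (nat_lit 455) (nat_lit 438) (nat_lit 307)) (XT.nd (nat_lit 78) (nat_lit 456) (nat_lit 0) (XT.lf (nat_lit 0) (nat_lit 20832895551) (nat_lit 532) (nat_lit 3617668374) (nat_lit 608) (nat_lit 17125295153) (nat_lit 243) (nat_lit 5) (nat_lit 250) (nat_lit 5) (nat_lit 251) (nat_lit 5) (nat_lit 456) (nat_lit 438) (nat_lit 306)) (XT.lf (nat_lit 0) (nat_lit 18457914896) (nat_lit 456) (nat_lit 16580056073) (nat_lit 532) (nat_lit 7714740363) (nat_lit 237) (nat_lit 5) (nat_lit 243) (nat_lit 5) (nat_lit 244) (nat_lit 5) (nat_lit 457) (nat_lit 438) (nat_lit 305))))) (XT.nd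 (nat_lit 234) (nat_lit 1672) (nat_lit 0) (XT.nd (nat_lit 78) (nat_lit 912) (nat_lit 0) (XT.lf (nat_lit 0) (nat_lit 2660848039) (nat_lit 532) (nat_lit 27784595652) (nat_lit 76) (nat_lit 13526234768) (nat_lit 230) (nat_lit 5) (nat_lit 237) (nat_lit 5) (nat_lit 231) (nat_lit 5) (nat_lit 458) (nat_lit 438) (nat_lit 304)) (XT.nd (nat_lit 78) (nat_lit 456) (nat_lit 0) (XT.lf (nat_lit 0) (nat_lit 13946959596) (nat_lit 532) (nat_lit 31257051015) (nat_lit 76) (nat_lit 28753275) (nat_lit 224) (nat_lit 5) (nat_lit 231) (nat_lit 5) (nat_lit 225) (nat_lit 5) (nat_lit 459) (nat_lit 438) (nat_lit 303)) (XT.lf (nat_lit 0) (nat_lit 11770235638) (nat_lit 456) (nat_lit 14731858990) (nat_lit 532) (nat_lit 20033667744) (nat_lit 218) (nat_lit 5) (nat_lit 224) (nat_lit 5) (nat_lit 225) (nat_lit 5) (nat_lit 460) (nat_lit 438) (nat_lit 302)))) (XT.nd (nat_lit 156) (nat_lit 760) (nat_lit 0) (XT.nd (nat_lit 78) (nat_lit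 532) (nat_lit 0) (XT.lf (nat_lit 0) (nat_lit 9722789779) (nat_lit 380) (nat_lit 30542145290) (nat_lit 456) (nat_lit 7621577565) (nat_lit 213) (nat_lit 5) (nat_lit 218) (nat_lit 5) (nat_lit 219) (nat_lit 5) (nat_lit 461) (nat_lit 438) (nat_lit 301)) (XT.lf (nat_lit 0) (nat_lit 5904920956) (nat_lit 532) (nat_lit 41493726210) (nat_lit 76) (nat_lit 1886611251) (nat_lit 206) (nat_lit 5) (nat_lit 213) (nat_lit 5) (nat_lit 207) (nat_lit 5) (nat_lit 462) (nat_lit 438) (nat_lit 300))) (XT.nd (nat_lit 78) (nat_lit 380) (nat_lit 0) (XT.lf (nat_lit 0) (nat_lit 5818877471) (nat_lit 380) (nat_lit 14889504820) (nat_lit 456) (nat_lit 30020547724) (nat_lit 201) (nat_lit 5) (nat_lit 206) (nat_lit 5) (nat_lit 207) (nat_lit 5) (nat_lit 463) (nat_lit 438) (nat_lit 299)) (XT.lf (nat_lit 0) (nat_lit 4015939050) (nat_lit 380) (nat_lit 32887024438) (nat_lit 456) (nat_lit 15322293561) (nat_lit 196) (nat_lit 5) (nat_lit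 201) (nat_lit 5) (nat_lit 202) (nat_lit 5) (nat_lit 464) (nat_lit 438) (nat_lit 298)))))) (XT.nd (nat_lit 468) (nat_lit 2128) (nat_lit 0) (XT.nd (nat_lit 234) (nat_lit 988) (nat_lit 0) (XT.nd (nat_lit 78) (nat_lit 380) (nat_lit 0) (XT.lf (nat_lit 0) (nat_lit 761518068) (nat_lit 380) (nat_lit 51363143910) (nat_lit 76) (nat_lit 1652122473) (nat_lit 191) (nat_lit 5) (nat_lit 196) (nat_lit 5) (nat_lit 192) (nat_lit 5) (nat_lit 465) (nat_lit 438) (nat_lit 297)) (XT.nd (nat_lit 78) (nat_lit 0) (nat_lit 0) (XT.lf (nat_lit 0) (nat_lit 701050390) (nat_lit 380) (nat_lit 17470590865) (nat_lit 456) (nat_lit 37204525736) (nat_lit 186) (nat_lit 5) (nat_lit 191) (nat_lit 5) (nat_lit 192) (nat_lit 5) (nat_lit 466) (nat_lit 438) (nat_lit 296)) (XT.lf (nat_lit 0) (nat_lit 37164396949) (nat_lit 456) (nat_lit 790183809) (nat_lit 76) (nat_lit 19079574328) (nat_lit 186) (nat_lit 5) (nat_lit 192) (nat_lit 5) (nat_lit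 187) (nat_lit 5) (nat_lit 467) (nat_lit 438) (nat_lit 295)))) (XT.nd (nat_lit 78) (nat_lit 684) (nat_lit 0) (XT.lf (nat_lit 0) (nat_lit 56714360856) (nat_lit 304) (nat_lit 1110432025) (nat_lit 380) (nat_lit 928709838) (nat_lit 182) (nat_lit 5) (nat_lit 186) (nat_lit 5) (nat_lit 187) (nat_lit 5) (nat_lit 468) (nat_lit 438) (nat_lit 294)) (XT.nd (nat_lit 78) (nat_lit 304) (nat_lit 0) (XT.lf (nat_lit 0) (nat_lit 19515362138) (nat_lit 380) (nat_lit 3418588081) (nat_lit 76) (nat_lit 37591622109) (nat_lit 177) (nat_lit 5) (nat_lit 182) (nat_lit 5) (nat_lit 178) (nat_lit 5) (nat_lit 469) (nat_lit 438) (nat_lit 293)) (XT.lf (nat_lit 0) (nat_lit 41706849535) (nat_lit 380) (nat_lit 4553235449) (nat_lit 76) (nat_lit 16103552196) (nat_lit 173) (nat_lit 5) (nat_lit 178) (nat_lit 5) (nat_lit 174) (nat_lit 5) (nat_lit 470) (nat_lit 438) (nat_lit 292))))) (XT.nd (nat_lit 234) (nat_lit 1140) (nat_lit 0) (XT.nd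 (nat_lit 78) (nat_lit 608) (nat_lit 0) (XT.lf (nat_lit 0) (nat_lit 1537501706) (nat_lit 380) (nat_lit 5493509039) (nat_lit 76) (nat_lit 57237274675) (nat_lit 168) (nat_lit 5) (nat_lit 173) (nat_lit 5) (nat_lit 169) (nat_lit 5) (nat_lit 471) (nat_lit 438) (nat_lit 291)) (XT.nd (nat_lit 78) (nat_lit 304) (nat_lit 0) (XT.lf (nat_lit 0) (nat_lit 25376345618) (nat_lit 380) (nat_lit 6524074323) (nat_lit 76) (nat_lit 34332748988) (nat_lit 164) (nat_lit 5) (nat_lit 169) (nat_lit 5) (nat_lit 165) (nat_lit 5) (nat_lit 472) (nat_lit 438) (nat_lit 290)) (XT.lf (nat_lit 0) (nat_lit 51215584668) (nat_lit 380) (nat_lit 7262675053) (nat_lit 76) (nat_lit 9793783458) (nat_lit 160) (nat_lit 5) (nat_lit 165) (nat_lit 5) (nat_lit 161) (nat_lit 5) (nat_lit 473) (nat_lit 438) (nat_lit 289)))) (XT.nd (nat_lit 156) (nat_lit 532) (nat_lit 0) (XT.nd (nat_lit 78) (nat_lit 304) (nat_lit 0) (XT.lf (nat_lit 0) (nat_lit 8776879553)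 (nat_lit 304) (nat_lit 7931216392) (nat_lit 76) (nat_lit 53672544132) (nat_lit 156) (nat_lit 5) (nat_lit 160) (nat_lit 5) (nat_lit 157) (nat_lit 5) (nat_lit 474) (nat_lit 438) (nat_lit 288)) (XT.lf (nat_lit 0) (nat_lit 36512491857) (nat_lit 380) (nat_lit 8554892097) (nat_lit 76) (nat_lit 27493315895) (nat_lit 152) (nat_lit 5) (nat_lit 157) (nat_lit 5) (nat_lit 153) (nat_lit 5) (nat_lit 475) (nat_lit 438) (nat_lit 287))) (XT.nd (nat_lit 78) (nat_lit 304) (nat_lit 0) (XT.lf (nat_lit 0) (nat_lit 65971523493) (nat_lit 228) (nat_lit 545796825) (nat_lit 304) (nat_lit 8305969351) (nat_lit 149) (nat_lit 5) (nat_lit 152) (nat_lit 5) (nat_lit 153) (nat_lit 5) (nat_lit 476) (nat_lit 438) (nat_lit 286)) (XT.lf (nat_lit 0) (nat_lit 21613574527) (nat_lit 304) (nat_lit 9289508220) (nat_lit 76) (nat_lit 46254025368) (nat_lit 145) (nat_lit 5) (nat_lit 149) (nat_lit 5) (nat_lit 146) (nat_lit 5) (nat_lit 477) (nat_lit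 438) (nat_lit 285))))))) (XT.nd (nat_lit 1014) (nat_lit 608) (nat_lit 0) (XT.nd (nat_lit 468) (nat_lit 1444) (nat_lit 0) (XT.nd (nat_lit 234) (nat_lit 684) (nat_lit 0) (XT.nd (nat_lit 78) (nat_lit 532) (nat_lit 0) (XT.lf (nat_lit 0) (nat_lit 53789396377) (nat_lit 304) (nat_lit 9462195186) (nat_lit 76) (nat_lit 16325596483) (nat_lit 142) (nat_lit 5) (nat_lit 146) (nat_lit 5) (nat_lit 143) (nat_lit 5) (nat_lit 478) (nat_lit 438) (nat_lit 284)) (XT.nd (nat_lit 78) (nat_lit 228) (nat_lit 0) (XT.lf (nat_lit 0) (nat_lit 6464634928) (nat_lit 304) (nat_lit 9479179745) (nat_lit 76) (nat_lit 66139423329) (nat_lit 138) (nat_lit 5) (nat_lit 142) (nat_lit 5) (nat_lit 139) (nat_lit 5) (nat_lit 479) (nat_lit 438) (nat_lit 283)) (XT.lf (nat_lit 0) (nat_lit 40957511534) (nat_lit 304) (nat_lit 9550227759) (nat_lit 76) (nat_lit 34164356730) (nat_lit 135) (nat_lit 5) (nat_lit 139) (nat_lit 5) (nat_lit 136) (nat_lit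 5) (nat_lit 480) (nat_lit 438) (nat_lit 282)))) (XT.nd (nat_lit 78) (nat_lit 456) (nat_lit 0) (XT.lf (nat_lit 0) (nat_lit 78121988583) (nat_lit 228) (nat_lit 60991069) (nat_lit 304) (nat_lit 9177178957) (nat_lit 132) (nat_lit 5) (nat_lit 135) (nat_lit 5) (nat_lit 136) (nat_lit 5) (nat_lit 481) (nat_lit 438) (nat_lit 281)) (XT.nd (nat_lit 78) (nat_lit 228) (nat_lit 0) (XT.lf (nat_lit 0) (nat_lit 27958929524) (nat_lit 228) (nat_lit 9145193687) (nat_lit 76) (nat_lit 53028677884) (nat_lit 129) (nat_lit 5) (nat_lit 132) (nat_lit 5) (nat_lit 130) (nat_lit 5) (nat_lit 482) (nat_lit 438) (nat_lit 280)) (XT.lf (nat_lit 0) (nat_lit 67830725372) (nat_lit 304) (nat_lit 8749439523) (nat_lit 76) (nat_lit 16429124597) (nat_lit 126) (nat_lit 5) (nat_lit 130) (nat_lit 5) (nat_lit 127) (nat_lit 5) (nat_lit 483) (nat_lit 438) (nat_lit 279))))) (XT.nd (nat_lit 234) (nat_lit 760) (nat_lit 0) (XT.nd (nat_lit 78) (nat_lit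 456) (nat_lit 0) (XT.lf (nat_lit 0) (nat_lit 14724398546) (nat_lit 228) (nat_lit 8300564176) (nat_lit 76) (nat_lit 72960961359) (nat_lit 123) (nat_lit 5) (nat_lit 126) (nat_lit 5) (nat_lit 124) (nat_lit 5) (nat_lit 484) (nat_lit 438) (nat_lit 278)) (XT.nd (nat_lit 78) (nat_lit 228) (nat_lit 0) (XT.lf (nat_lit 0) (nat_lit 57406627377) (nat_lit 304) (nat_lit 7862554059) (nat_lit 76) (nat_lit 33795584774) (nat_lit 120) (nat_lit 5) (nat_lit 124) (nat_lit 5) (nat_lit 121) (nat_lit 5) (nat_lit 485) (nat_lit 438) (nat_lit 277)) (XT.lf (nat_lit 0) (nat_lit 1170474843) (nat_lit 228) (nat_lit 7093270863) (nat_lit 76) (nat_lit 93996518249) (nat_lit 117) (nat_lit 5) (nat_lit 120) (nat_lit 5) (nat_lit 118) (nat_lit 5) (nat_lit 486) (nat_lit 438) (nat_lit 276)))) (XT.nd (nat_lit 156) (nat_lit 380) (nat_lit 0) (XT.nd (nat_lit 78) (nat_lit 152) (nat_lit 0) (XT.lf (nat_lit 0) (nat_lit 46832546030) (nat_lit 304)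 (nat_lit 6668101444) (nat_lit 76) (nat_lit 52055908041) (nat_lit 114) (nat_lit 5) (nat_lit 118) (nat_lit 5) (nat_lit 115) (nat_lit 5) (nat_lit 487) (nat_lit 438) (nat_lit 275)) (XT.lf (nat_lit 0) (nat_lit 95995275856) (nat_lit 228) (nat_lit 5824891048) (nat_lit 76) (nat_lit 7160968158) (nat_lit 112) (nat_lit 5) (nat_lit 115) (nat_lit 5) (nat_lit 113) (nat_lit 5) (nat_lit 488) (nat_lit 438) (nat_lit 274))) (XT.nd (nat_lit 78) (nat_lit 152) (nat_lit 0) (XT.lf (nat_lit 0) (nat_lit 36013215670) (nat_lit 228) (nat_lit 5289317899) (nat_lit 76) (nat_lit 71214572787) (nat_lit 109) (nat_lit 5) (nat_lit 112) (nat_lit 5) (nat_lit 110) (nat_lit 5) (nat_lit 489) (nat_lit 438) (nat_lit 273)) (XT.lf (nat_lit 0) (nat_lit 88556457515) (nat_lit 228) (nat_lit 4543660915) (nat_lit 76) (nat_lit 23085017233) (nat_lit 107) (nat_lit 5) (nat_lit 110) (nat_lit 5) (nat_lit 108) (nat_lit 5) (nat_lit 490) (nat_lit 438) (nat_lit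 272)))))) (XT.nd (nat_lit 58656) (nat_lit 0) (nat_lit 15200) (XT.nd (nat_lit 58422) (nat_lit 0) (nat_lit 15960) (XT.nd (nat_lit 78) (nat_lit 380) (nat_lit 0) (XT.lf (nat_lit 0) (nat_lit 24832014308) (nat_lit 228) (nat_lit 3888607519) (nat_lit 76) (nat_lit 91260992820) (nat_lit 104) (nat_lit 5) (nat_lit 107) (nat_lit 5) (nat_lit 105) (nat_lit 5) (nat_lit 491) (nat_lit 438) (nat_lit 271)) (XT.nd (nat_lit 78) (nat_lit 228) (nat_lit 0) (XT.lf (nat_lit 0) (nat_lit 80946232108) (nat_lit 228) (nat_lit 3344070909) (nat_lit 76) (nat_lit 39621351249) (nat_lit 102) (nat_lit 5) (nat_lit 105) (nat_lit 5) (nat_lit 103) (nat_lit 5) (nat_lit 492) (nat_lit 438) (nat_lit 270)) (XT.lf (nat_lit 0) (nat_lit 13146645656) (nat_lit 228) (nat_lit 2675995529) (nat_lit 76) (nat_lit 112165659187) (nat_lit 99) (nat_lit 5) (nat_lit 102) (nat_lit 5) (nat_lit 100) (nat_lit 5) (nat_lit 493) (nat_lit 438) (nat_lit 269)))) (XT.nd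 (nat_lit 78) (nat_lit 0) (nat_lit 76) (XT.lf (nat_lit 0) (nat_lit 6387617612) (nat_lit 1292) (nat_lit 3627871883) (nat_lit 1292) (nat_lit 3627871883) (nat_lit 309) (nat_lit 3) (nat_lit 326) (nat_lit 3) (nat_lit 326) (nat_lit 5) (nat_lit 439) (nat_lit 439) (nat_lit 322)) (XT.nd (nat_lit 78) (nat_lit 0) (nat_lit 0) (XT.lf (nat_lit 0) (nat_lit 13410352149) (nat_lit 1216) (nat_lit 12377141528) (nat_lit 1292) (nat_lit 2171911707) (nat_lit 310) (nat_lit 5) (nat_lit 326) (nat_lit 5) (nat_lit 327) (nat_lit 5) (nat_lit 440) (nat_lit 439) (nat_lit 321)) (XT.lf (nat_lit 76) (nat_lit 11057999161) (nat_lit 0) (nat_lit 3393880159) (nat_lit 1292) (nat_lit 14202604046) (nat_lit 311) (nat_lit 5) (nat_lit 310) (nat_lit 5) (nat_lit 327) (nat_lit 5) (nat_lit 441) (nat_lit 439) (nat_lit 320))))) (XT.nd (nat_lit 234) (nat_lit 912) (nat_lit 0) (XT.nd (nat_lit 78) (nat_lit 0) (nat_lit 76) (XT.lf (nat_lit 76) (nat_lit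 6469293196) (nat_lit 0) (nat_lit 9451628373) (nat_lit 1292) (nat_lit 13452131330) (nat_lit 312) (nat_lit 5) (nat_lit 311) (nat_lit 5) (nat_lit 328) (nat_lit 5) (nat_lit 442) (nat_lit 439) (nat_lit 319)) (XT.nd (nat_lit 78) (nat_lit 0) (nat_lit 76) (XT.lf (nat_lit 76) (nat_lit 1842167284) (nat_lit 0) (nat_lit 15983947695) (nat_lit 1292) (nat_lit 12290555736) (nat_lit 313) (nat_lit 5) (nat_lit 312) (nat_lit 5) (nat_lit 329) (nat_lit 5) (nat_lit 443) (nat_lit 439) (nat_lit 318)) (XT.lf (nat_lit 0) (nat_lit 20226141695) (nat_lit 1216) (nat_lit 2763807071) (nat_lit 1292) (nat_lit 7895534185) (nat_lit 313) (nat_lit 5) (nat_lit 329) (nat_lit 5) (nat_lit 330) (nat_lit 5) (nat_lit 444) (nat_lit 439) (nat_lit 317)))) (XT.nd (nat_lit 156) (nat_lit 1140) (nat_lit 0) (XT.nd (nat_lit 78) (nat_lit 0) (nat_lit 0) (XT.lf (nat_lit 0) (nat_lit 23145224215) (nat_lit 1216) (nat_lit 7362057718) (nat_lit 1292) (nat_lit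 1173482935) (nat_lit 314) (nat_lit 5) (nat_lit 330) (nat_lit 5) (nat_lit 331) (nat_lit 5) (nat_lit 445) (nat_lit 439) (nat_lit 316)) (XT.lf (nat_lit 76) (nat_lit 20459658264) (nat_lit 0) (nat_lit 6200724948) (nat_lit 1292) (nat_lit 5841924668) (nat_lit 315) (nat_lit 5) (nat_lit 314) (nat_lit 5) (nat_lit 331) (nat_lit 5) (nat_lit 446) (nat_lit 439) (nat_lit 315))) (XT.nd (nat_lit 78) (nat_lit 1216) (nat_lit 0) (XT.lf (nat_lit 76) (nat_lit 16595535119) (nat_lit 0) (nat_lit 14170545751) (nat_lit 1292) (nat_lit 2586404389) (nat_lit 316) (nat_lit 5) (nat_lit 315) (nat_lit 5) (nat_lit 332) (nat_lit 5) (nat_lit 447) (nat_lit 439) (nat_lit 314)) (XT.lf (nat_lit 0) (nat_lit 1232909662) (nat_lit 1292) (nat_lit 21499241585) (nat_lit 1368) (nat_lit 11500263423) (nat_lit 299) (nat_lit 5) (nat_lit 316) (nat_lit 5) (nat_lit 317) (nat_lit 5) (nat_lit 448) (nat_lit 439) (nat_lit 313))))))))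
noncomputable def xc105 : XT := (XT.nd (nat_lit 2028) (nat_lit 4408) (nat_lit 0) (XT.nd (nat_lit 1014) (nat_lit 4408) (nat_lit 0) (XT.nd (nat_lit 468) (nat_lit 3648) (nat_lit 0) (XT.nd (nat_lit 234) (nat_lit 1140) (nat_lit 0) (XT.nd (nat_lit 78) (nat_lit 1444) (nat_lit 0) (XT.lf (nat_lit 0) (nat_lit 5618208836) (nat_lit 1292) (nat_lit 26281451474) (nat_lit 76) (nat_lit 3243057256) (nat_lit 300) (nat_lit 5) (nat_lit 317) (nat_lit 5) (nat_lit 301) (nat_lit 5) (nat_lit 449) (nat_lit 439) (nat_lit 312)) (XT.nd (nat_lit 78) (nat_lit 608) (nat_lit 0) (XT.lf (nat_lit 0) (nat_lit 4956718549) (nat_lit 836) (nat_lit 5760407627) (nat_lit 912) (nat_lit 25366579372) (nat_lit 289) (nat_lit 5) (nat_lit 300) (nat_lit 5) (nat_lit 301) (nat_lit 5) (nat_lit 450) (nat_lit 439) (nat_lit 311)) (XT.lf (nat_lit 0) (nat_lit 1046078640) (nat_lit 608) (nat_lit 15510655968) (nat_lit 684) (nat_lit 20500436472) (nat_lit 281)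 (nat_lit 5) (nat_lit 289) (nat_lit 5) (nat_lit 290) (nat_lit 5) (nat_lit 451) (nat_lit 439) (nat_lit 310)))) (XT.nd (nat_lit 78) (nat_lit 1140) (nat_lit 0) (XT.lf (nat_lit 0) (nat_lit 23179306603) (nat_lit 684) (nat_lit 2773339902) (nat_lit 76) (nat_lit 12111934376) (nat_lit 281) (nat_lit 5) (nat_lit 290) (nat_lit 5) (nat_lit 282) (nat_lit 5) (nat_lit 452) (nat_lit 439) (nat_lit 309)) (XT.nd (nat_lit 78) (nat_lit 532) (nat_lit 0) (XT.lf (nat_lit 0) (nat_lit 30616711875) (nat_lit 684) (nat_lit 6527105480) (nat_lit 76) (nat_lit 1964033138) (nat_lit 273) (nat_lit 5) (nat_lit 282) (nat_lit 5) (nat_lit 274) (nat_lit 5) (nat_lit 453) (nat_lit 439) (nat_lit 308)) (XT.lf (nat_lit 0) (nat_lit 29873440034) (nat_lit 532) (nat_lit 9125219381) (nat_lit 608) (nat_lit 1187444452) (nat_lit 266) (nat_lit 5) (nat_lit 273) (nat_lit 5) (nat_lit 274) (nat_lit 5) (nat_lit 454) (nat_lit 439) (nat_lit 307))))) (XT.nd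 (nat_lit 234) (nat_lit 1900) (nat_lit 0) (XT.nd (nat_lit 78) (nat_lit 1064) (nat_lit 0) (XT.lf (nat_lit 0) (nat_lit 6879866461) (nat_lit 684) (nat_lit 14125404691) (nat_lit 76) (nat_lit 20295382813) (nat_lit 257) (nat_lit 5) (nat_lit 266) (nat_lit 5) (nat_lit 258) (nat_lit 5) (nat_lit 455) (nat_lit 439) (nat_lit 306)) (XT.nd (nat_lit 78) (nat_lit 532) (nat_lit 0) (XT.lf (nat_lit 0) (nat_lit 15843147838) (nat_lit 608) (nat_lit 17887138517) (nat_lit 76) (nat_lit 8724778002) (nat_lit 250) (nat_lit 5) (nat_lit 258) (nat_lit 5) (nat_lit 251) (nat_lit 5) (nat_lit 456) (nat_lit 439) (nat_lit 305)) (XT.lf (nat_lit 0) (nat_lit 22039627946) (nat_lit 532) (nat_lit 3780939873) (nat_lit 608) (nat_lit 17829648584) (nat_lit 243) (nat_lit 5) (nat_lit 250) (nat_lit 5) (nat_lit 251) (nat_lit 5) (nat_lit 457) (nat_lit 439) (nat_lit 304)))) (XT.nd (nat_lit 156) (nat_lit 912) (nat_lit 0) (XT.nd (nat_lit 78) (nat_lit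 532) (nat_lit 0) (XT.lf (nat_lit 0) (nat_lit 19545310093) (nat_lit 456) (nat_lit 17386754974) (nat_lit 532) (nat_lit 7954005148) (nat_lit 237) (nat_lit 5) (nat_lit 243) (nat_lit 5) (nat_lit 244) (nat_lit 5) (nat_lit 458) (nat_lit 439) (nat_lit 303)) (XT.lf (nat_lit 0) (nat_lit 2932461376) (nat_lit 532) (nat_lit 29007327650) (nat_lit 76) (nat_lit 14226306226) (nat_lit 230) (nat_lit 5) (nat_lit 237) (nat_lit 5) (nat_lit 231) (nat_lit 5) (nat_lit 459) (nat_lit 439) (nat_lit 302))) (XT.nd (nat_lit 78) (nat_lit 456) (nat_lit 0) (XT.lf (nat_lit 0) (nat_lit 14778105555) (nat_lit 532) (nat_lit 32654434133) (nat_lit 76) (nat_lit 57838928) (nat_lit 224) (nat_lit 5) (nat_lit 231) (nat_lit 5) (nat_lit 225) (nat_lit 5) (nat_lit 460) (nat_lit 439) (nat_lit 301)) (XT.lf (nat_lit 0) (nat_lit 12519473705) (nat_lit 456) (nat_lit 15436697301) (nat_lit 532) (nat_lit 20902501264) (nat_lit 218) (nat_lit 5) (nat_lit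 224) (nat_lit 5) (nat_lit 225) (nat_lit 5) (nat_lit 461) (nat_lit 439) (nat_lit 300)))))) (XT.nd (nat_lit 468) (nat_lit 1976) (nat_lit 0) (XT.nd (nat_lit 234) (nat_lit 1140) (nat_lit 0) (XT.nd (nat_lit 78) (nat_lit 912) (nat_lit 0) (XT.lf (nat_lit 0) (nat_lit 10368518924) (nat_lit 380) (nat_lit 32034317820) (nat_lit 456) (nat_lit 7874253233) (nat_lit 213) (nat_lit 5) (nat_lit 218) (nat_lit 5) (nat_lit 219) (nat_lit 5) (nat_lit 462) (nat_lit 439) (nat_lit 299)) (XT.nd (nat_lit 78) (nat_lit 380) (nat_lit 0) (XT.lf (nat_lit 0) (nat_lit 6321929501) (nat_lit 532) (nat_lit 43407651513) (nat_lit 76) (nat_lit 2016279461) (nat_lit 206) (nat_lit 5) (nat_lit 213) (nat_lit 5) (nat_lit 207) (nat_lit 5) (nat_lit 463) (nat_lit 439) (nat_lit 298)) (XT.lf (nat_lit 0) (nat_lit 6265974171) (nat_lit 380) (nat_lit 15595292554) (nat_lit 456) (nat_lit 31400578223) (nat_lit 201) (nat_lit 5) (nat_lit 206) (nat_lit 5) (nat_lit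 207) (nat_lit 5) (nat_lit 464) (nat_lit 439) (nat_lit 297)))) (XT.nd (nat_lit 78) (nat_lit 760) (nat_lit 0) (XT.lf (nat_lit 0) (nat_lit 4371481848) (nat_lit 380) (nat_lit 34490343238) (nat_lit 456) (nat_lit 15971276166) (nat_lit 196) (nat_lit 5) (nat_lit 201) (nat_lit 5) (nat_lit 202) (nat_lit 5) (nat_lit 465) (nat_lit 439) (nat_lit 296)) (XT.nd (nat_lit 78) (nat_lit 380) (nat_lit 0) (XT.lf (nat_lit 0) (nat_lit 910838560) (nat_lit 380) (nat_lit 53775832802) (nat_lit 76) (nat_lit 1775608275) (nat_lit 191) (nat_lit 5) (nat_lit 196) (nat_lit 5) (nat_lit 192) (nat_lit 5) (nat_lit 466) (nat_lit 439) (nat_lit 295)) (XT.lf (nat_lit 0) (nat_lit 887114746) (nat_lit 380) (nat_lit 18300507417) (nat_lit 456) (nat_lit 38954124831) (nat_lit 186) (nat_lit 5) (nat_lit 191) (nat_lit 5) (nat_lit 192) (nat_lit 5) (nat_lit 467) (nat_lit 439) (nat_lit 294))))) (XT.nd (nat_lit 234) (nat_lit 1292) (nat_lit 0) (XT.nd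 (nat_lit 78) (nat_lit 684) (nat_lit 0) (XT.lf (nat_lit 0) (nat_lit 39125300682) (nat_lit 456) (nat_lit 683196859) (nat_lit 76) (nat_lit 20074278705) (nat_lit 186) (nat_lit 5) (nat_lit 192) (nat_lit 5) (nat_lit 187) (nat_lit 5) (nat_lit 468) (nat_lit 439) (nat_lit 293)) (XT.nd (nat_lit 78) (nat_lit 380) (nat_lit 0) (XT.lf (nat_lit 0) (nat_lit 59692375757) (nat_lit 304) (nat_lit 1122818789) (nat_lit 380) (nat_lit 873002660) (nat_lit 182) (nat_lit 5) (nat_lit 186) (nat_lit 5) (nat_lit 187) (nat_lit 5) (nat_lit 469) (nat_lit 439) (nat_lit 292)) (XT.lf (nat_lit 0) (nat_lit 20588275510) (nat_lit 380) (nat_lit 3446868349) (nat_lit 76) (nat_lit 39513787377) (nat_lit 177) (nat_lit 5) (nat_lit 182) (nat_lit 5) (nat_lit 178) (nat_lit 5) (nat_lit 470) (nat_lit 439) (nat_lit 291)))) (XT.nd (nat_lit 156) (nat_lit 608) (nat_lit 0) (XT.nd (nat_lit 78) (nat_lit 380) (nat_lit 0) (XT.lf (nat_lit 0) (nat_lit 43886473006)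 (nat_lit 380) (nat_lit 4639946230) (nat_lit 76) (nat_lit 16952566277) (nat_lit 173) (nat_lit 5) (nat_lit 178) (nat_lit 5) (nat_lit 174) (nat_lit 5) (nat_lit 471) (nat_lit 439) (nat_lit 290)) (XT.lf (nat_lit 0) (nat_lit 1706391097) (nat_lit 380) (nat_lit 5629437854) (nat_lit 76) (nat_lit 60143105599) (nat_lit 168) (nat_lit 5) (nat_lit 173) (nat_lit 5) (nat_lit 169) (nat_lit 5) (nat_lit 472) (nat_lit 439) (nat_lit 289))) (XT.nd (nat_lit 78) (nat_lit 304) (nat_lit 0) (XT.lf (nat_lit 0) (nat_lit 26734531713) (nat_lit 380) (nat_lit 6713276868) (nat_lit 76) (nat_lit 36094333242) (nat_lit 164) (nat_lit 5) (nat_lit 169) (nat_lit 5) (nat_lit 165) (nat_lit 5) (nat_lit 473) (nat_lit 439) (nat_lit 288)) (XT.lf (nat_lit 0) (nat_lit 53863204979) (nat_lit 380) (nat_lit 7490587434) (nat_lit 76) (nat_lit 10329243418) (nat_lit 160) (nat_lit 5) (nat_lit 165) (nat_lit 5) (nat_lit 161) (nat_lit 5) (nat_lit 474) (nat_lit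 439) (nat_lit 287))))))) (XT.nd (nat_lit 1014) (nat_lit 1140) (nat_lit 0) (XT.nd (nat_lit 468) (nat_lit 1596) (nat_lit 0) (XT.nd (nat_lit 234) (nat_lit 836) (nat_lit 0) (XT.nd (nat_lit 78) (nat_lit 532) (nat_lit 0) (XT.lf (nat_lit 0) (nat_lit 9300527252) (nat_lit 304) (nat_lit 8194740221) (nat_lit 76) (nat_lit 56401856544) (nat_lit 156) (nat_lit 5) (nat_lit 160) (nat_lit 5) (nat_lit 157) (nat_lit 5) (nat_lit 475) (nat_lit 439) (nat_lit 286)) (XT.nd (nat_lit 78) (nat_lit 228) (nat_lit 0) (XT.lf (nat_lit 0) (nat_lit 38420577942) (nat_lit 380) (nat_lit 8851403064) (nat_lit 76) (nat_lit 28914276225) (nat_lit 152) (nat_lit 5) (nat_lit 157) (nat_lit 5) (nat_lit 153) (nat_lit 5) (nat_lit 476) (nat_lit 439) (nat_lit 285)) (XT.lf (nat_lit 0) (nat_lit 69397571520) (nat_lit 228) (nat_lit 525374907) (nat_lit 304) (nat_lit 8639111339) (nat_lit 149) (nat_lit 5) (nat_lit 152) (nat_lit 5) (nat_lit 153) (nat_lit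 5) (nat_lit 477) (nat_lit 439) (nat_lit 284)))) (XT.nd (nat_lit 78) (nat_lit 532) (nat_lit 0) (XT.lf (nat_lit 0) (nat_lit 22772632082) (nat_lit 304) (nat_lit 9626720319) (nat_lit 76) (nat_lit 48613256440) (nat_lit 145) (nat_lit 5) (nat_lit 149) (nat_lit 5) (nat_lit 146) (nat_lit 5) (nat_lit 478) (nat_lit 439) (nat_lit 283)) (XT.nd (nat_lit 78) (nat_lit 304) (nat_lit 0) (XT.lf (nat_lit 0) (nat_lit 56555160261) (nat_lit 304) (nat_lit 9809870707) (nat_lit 76) (nat_lit 17188724502) (nat_lit 142) (nat_lit 5) (nat_lit 146) (nat_lit 5) (nat_lit 143) (nat_lit 5) (nat_lit 479) (nat_lit 439) (nat_lit 282)) (XT.lf (nat_lit 0) (nat_lit 6862432837) (nat_lit 304) (nat_lit 9829813110) (nat_lit 76) (nat_lit 69492914052) (nat_lit 138) (nat_lit 5) (nat_lit 142) (nat_lit 5) (nat_lit 139) (nat_lit 5) (nat_lit 480) (nat_lit 439) (nat_lit 281))))) (XT.nd (nat_lit 234) (nat_lit 912) (nat_lit 0) (XT.nd (nat_lit 78) (nat_lit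 456) (nat_lit 0) (XT.lf (nat_lit 0) (nat_lit 43078011791) (nat_lit 304) (nat_lit 9906238629) (nat_lit 76) (nat_lit 35919268884) (nat_lit 135) (nat_lit 5) (nat_lit 139) (nat_lit 5) (nat_lit 136) (nat_lit 5) (nat_lit 481) (nat_lit 439) (nat_lit 280)) (XT.nd (nat_lit 78) (nat_lit 228) (nat_lit 0) (XT.lf (nat_lit 0) (nat_lit 82146105743) (nat_lit 228) (nat_lit 16323713) (nat_lit 304) (nat_lit 9563625412) (nat_lit 132) (nat_lit 5) (nat_lit 135) (nat_lit 5) (nat_lit 136) (nat_lit 5) (nat_lit 482) (nat_lit 439) (nat_lit 279)) (XT.lf (nat_lit 0) (nat_lit 29426064141) (nat_lit 228) (nat_lit 9484833562) (nat_lit 76) (nat_lit 55726465354) (nat_lit 129) (nat_lit 5) (nat_lit 132) (nat_lit 5) (nat_lit 130) (nat_lit 5) (nat_lit 483) (nat_lit 439) (nat_lit 278)))) (XT.nd (nat_lit 156) (nat_lit 456) (nat_lit 0) (XT.nd (nat_lit 78) (nat_lit 228) (nat_lit 0) (XT.lf (nat_lit 0) (nat_lit 71289707592) (nat_lit 304)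 (nat_lit 9071105415) (nat_lit 76) (nat_lit 17296915250) (nat_lit 126) (nat_lit 5) (nat_lit 130) (nat_lit 5) (nat_lit 127) (nat_lit 5) (nat_lit 484) (nat_lit 439) (nat_lit 277)) (XT.lf (nat_lit 0) (nat_lit 15526582868) (nat_lit 228) (nat_lit 8601790882) (nat_lit 76) (nat_lit 76654865448) (nat_lit 123) (nat_lit 5) (nat_lit 126) (nat_lit 5) (nat_lit 124) (nat_lit 5) (nat_lit 485) (nat_lit 439) (nat_lit 276))) (XT.nd (nat_lit 78) (nat_lit 228) (nat_lit 0) (XT.lf (nat_lit 0) (nat_lit 60341293014) (nat_lit 304) (nat_lit 8143672192) (nat_lit 76) (nat_lit 35531107234) (nat_lit 120) (nat_lit 5) (nat_lit 124) (nat_lit 5) (nat_lit 121) (nat_lit 5) (nat_lit 486) (nat_lit 439) (nat_lit 275)) (XT.lf (nat_lit 0) (nat_lit 1291934070) (nat_lit 228) (nat_lit 7337881130) (nat_lit 76) (nat_lit 98741571989) (nat_lit 117) (nat_lit 5) (nat_lit 120) (nat_lit 5) (nat_lit 118) (nat_lit 5) (nat_lit 487) (nat_lit 439) (nat_lit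 274)))))) (XT.nd (nat_lit 58812) (nat_lit 0) (nat_lit 15808) (XT.nd (nat_lit 234) (nat_lit 532) (nat_lit 0) (XT.nd (nat_lit 78) (nat_lit 380) (nat_lit 0) (XT.lf (nat_lit 0) (nat_lit 49235580995) (nat_lit 304) (nat_lit 6893218634) (nat_lit 76) (nat_lit 54703739623) (nat_lit 114) (nat_lit 5) (nat_lit 118) (nat_lit 5) (nat_lit 115) (nat_lit 5) (nat_lit 488) (nat_lit 439) (nat_lit 273)) (XT.nd (nat_lit 78) (nat_lit 228) (nat_lit 0) (XT.lf (nat_lit 0) (nat_lit 100854973423) (nat_lit 228) (nat_lit 6009604402) (nat_lit 76) (nat_lit 7563814256) (nat_lit 112) (nat_lit 5) (nat_lit 115) (nat_lit 5) (nat_lit 113) (nat_lit 5) (nat_lit 489) (nat_lit 439) (nat_lit 272)) (XT.lf (nat_lit 0) (nat_lit 37872527530) (nat_lit 228) (nat_lit 5449137427) (nat_lit 76) (nat_lit 74819535592) (nat_lit 109) (nat_lit 5) (nat_lit 112) (nat_lit 5) (nat_lit 110) (nat_lit 5) (nat_lit 490) (nat_lit 439) (nat_lit 271)))) (XT.nd (nat_lit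 156) (nat_lit 152) (nat_lit 0) (XT.nd (nat_lit 78) (nat_lit 228) (nat_lit 0) (XT.lf (nat_lit 0) (nat_lit 93041546404) (nat_lit 228) (nat_lit 4667921442) (nat_lit 76) (nat_lit 24283205103) (nat_lit 107) (nat_lit 5) (nat_lit 110) (nat_lit 5) (nat_lit 108) (nat_lit 5) (nat_lit 491) (nat_lit 439) (nat_lit 270)) (XT.lf (nat_lit 0) (nat_lit 26129665999) (nat_lit 228) (nat_lit 3981948703) (nat_lit 76) (nat_lit 95867397745) (nat_lit 104) (nat_lit 5) (nat_lit 107) (nat_lit 5) (nat_lit 105) (nat_lit 5) (nat_lit 492) (nat_lit 439) (nat_lit 269))) (XT.nd (nat_lit 58344) (nat_lit 0) (nat_lit 15732) (XT.lf (nat_lit 0) (nat_lit 85048291136) (nat_lit 228) (nat_lit 3411873520) (nat_lit 76) (nat_lit 41645428564) (nat_lit 102) (nat_lit 5) (nat_lit 105) (nat_lit 5) (nat_lit 103) (nat_lit 5) (nat_lit 493) (nat_lit 439) (nat_lit 268)) (XT.lf (nat_lit 0) (nat_lit 6849189006) (nat_lit 1292) (nat_lit 3736030787) (nat_lit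 1292) (nat_lit 3736030787) (nat_lit 309) (nat_lit 3) (nat_lit 326) (nat_lit 3) (nat_lit 326) (nat_lit 5) (nat_lit 440) (nat_lit 440) (nat_lit 320))))) (XT.nd (nat_lit 234) (nat_lit 0) (nat_lit 152) (XT.nd (nat_lit 78) (nat_lit 0) (nat_lit 0) (XT.lf (nat_lit 0) (nat_lit 14351827403) (nat_lit 1216) (nat_lit 12844287466) (nat_lit 1292) (nat_lit 2153107005) (nat_lit 310) (nat_lit 5) (nat_lit 326) (nat_lit 5) (nat_lit 327) (nat_lit 5) (nat_lit 441) (nat_lit 440) (nat_lit 319)) (XT.nd (nat_lit 78) (nat_lit 0) (nat_lit 76) (XT.lf (nat_lit 76) (nat_lit 11758261488) (nat_lit 0) (nat_lit 3675683236) (nat_lit 1292) (nat_lit 14645454809) (nat_lit 311) (nat_lit 5) (nat_lit 310) (nat_lit 5) (nat_lit 327) (nat_lit 5) (nat_lit 442) (nat_lit 440) (nat_lit 318)) (XT.lf (nat_lit 76) (nat_lit 6944527068) (nat_lit 0) (nat_lit 10019988790) (nat_lit 1292) (nat_lit 13869740519) (nat_lit 312) (nat_lit 5) (nat_lit 311)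 (nat_lit 5) (nat_lit 328) (nat_lit 5) (nat_lit 443) (nat_lit 440) (nat_lit 317)))) (XT.nd (nat_lit 156) (nat_lit 0) (nat_lit 152) (XT.nd (nat_lit 78) (nat_lit 0) (nat_lit 76) (XT.lf (nat_lit 76) (nat_lit 2089824359) (nat_lit 0) (nat_lit 16863974954) (nat_lit 1292) (nat_lit 12661591941) (nat_lit 313) (nat_lit 5) (nat_lit 312) (nat_lit 5) (nat_lit 329) (nat_lit 5) (nat_lit 444) (nat_lit 440) (nat_lit 316)) (XT.lf (nat_lit 0) (nat_lit 21461831255) (nat_lit 1216) (nat_lit 2746341524) (nat_lit 1292) (nat_lit 8214832236) (nat_lit 313) (nat_lit 5) (nat_lit 329) (nat_lit 5) (nat_lit 330) (nat_lit 5) (nat_lit 445) (nat_lit 440) (nat_lit 315))) (XT.nd (nat_lit 78) (nat_lit 0) (nat_lit 0) (XT.lf (nat_lit 0) (nat_lit 24517021598) (nat_lit 1216) (nat_lit 7571877599) (nat_lit 1292) (nat_lit 1169448201) (nat_lit 314) (nat_lit 5) (nat_lit 330) (nat_lit 5) (nat_lit 331) (nat_lit 5) (nat_lit 446) (nat_lit 440) (nat_lit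 314)) (XT.lf (nat_lit 76) (nat_lit 21636387031) (nat_lit 0) (nat_lit 6562813404) (nat_lit 1292) (nat_lit 5922030204) (nat_lit 315) (nat_lit 5) (nat_lit 314) (nat_lit 5) (nat_lit 331) (nat_lit 5) (nat_lit 447) (nat_lit 440) (nat_lit 313))))))))
noncomputable def xc106 : XT := (XT.nd (nat_lit 2028) (nat_lit 4636) (nat_lit 0) (XT.nd (nat_lit 1014) (nat_lit 4712) (nat_lit 0) (XT.nd (nat_lit 468) (nat_lit 3876) (nat_lit 0) (XT.nd (nat_lit 234) (nat_lit 1368) (nat_lit 0) (XT.nd (nat_lit 78) (nat_lit 1216) (nat_lit 0) (XT.lf (nat_lit 76) (nat_lit 17581151774) (nat_lit 0) (nat_lit 14920252793) (nat_lit 1292) (nat_lit 2512776564) (nat_lit 316) (nat_lit 5) (nat_lit 315) (nat_lit 5) (nat_lit 332) (nat_lit 5) (nat_lit 448) (nat_lit 440) (nat_lit 312)) (XT.nd (nat_lit 78) (nat_lit 0) (nat_lit 76) (XT.lf (nat_lit 0) (nat_lit 1485215735) (nat_lit 1292) (nat_lit 22412876949) (nat_lit 1368) (nat_lit 12040206441)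 (nat_lit 299) (nat_lit 5) (nat_lit 316) (nat_lit 5) (nat_lit 317) (nat_lit 5) (nat_lit 449) (nat_lit 440) (nat_lit 311)) (XT.lf (nat_lit 0) (nat_lit 6081953476) (nat_lit 1292) (nat_lit 27433059785) (nat_lit 76) (nat_lit 3379339480) (nat_lit 300) (nat_lit 5) (nat_lit 317) (nat_lit 5) (nat_lit 301) (nat_lit 5) (nat_lit 450) (nat_lit 440) (nat_lit 310)))) (XT.nd (nat_lit 78) (nat_lit 608) (nat_lit 0) (XT.lf (nat_lit 0) (nat_lit 5362361734) (nat_lit 836) (nat_lit 6066265499) (nat_lit 912) (nat_lit 26453979319) (nat_lit 289) (nat_lit 5) (nat_lit 300) (nat_lit 5) (nat_lit 301) (nat_lit 5) (nat_lit 451) (nat_lit 440) (nat_lit 309)) (XT.nd (nat_lit 78) (nat_lit 0) (nat_lit 0) (XT.lf (nat_lit 0) (nat_lit 1256965667) (nat_lit 608) (nat_lit 16296247482) (nat_lit 684) (nat_lit 21351743011) (nat_lit 281) (nat_lit 5) (nat_lit 289) (nat_lit 5) (nat_lit 290) (nat_lit 5) (nat_lit 452) (nat_lit 440) (nat_lit 308))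 (XT.lf (nat_lit 0) (nat_lit 24498791095) (nat_lit 684) (nat_lit 2756051412) (nat_lit 76) (nat_lit 12708138301) (nat_lit 281) (nat_lit 5) (nat_lit 290) (nat_lit 5) (nat_lit 282) (nat_lit 5) (nat_lit 453) (nat_lit 440) (nat_lit 307))))) (XT.nd (nat_lit 234) (nat_lit 2052) (nat_lit 0) (XT.nd (nat_lit 78) (nat_lit 1216) (nat_lit 0) (XT.lf (nat_lit 0) (nat_lit 32301851666) (nat_lit 684) (nat_lit 6697305495) (nat_lit 76) (nat_lit 2059443833) (nat_lit 273) (nat_lit 5) (nat_lit 282) (nat_lit 5) (nat_lit 274) (nat_lit 5) (nat_lit 454) (nat_lit 440) (nat_lit 306)) (XT.nd (nat_lit 78) (nat_lit 684) (nat_lit 0) (XT.lf (nat_lit 0) (nat_lit 31518791136) (nat_lit 532) (nat_lit 9578215660) (nat_lit 608) (nat_lit 1093937548) (nat_lit 266) (nat_lit 5) (nat_lit 273) (nat_lit 5) (nat_lit 274) (nat_lit 5) (nat_lit 455) (nat_lit 440) (nat_lit 305)) (XT.lf (nat_lit 0) (nat_lit 7368120036) (nat_lit 684) (nat_lit 14677155003)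 (nat_lit 76) (nat_lit 21316072459) (nat_lit 257) (nat_lit 5) (nat_lit 266) (nat_lit 5) (nat_lit 258) (nat_lit 5) (nat_lit 456) (nat_lit 440) (nat_lit 304)))) (XT.nd (nat_lit 156) (nat_lit 988) (nat_lit 0) (XT.nd (nat_lit 78) (nat_lit 532) (nat_lit 0) (XT.lf (nat_lit 0) (nat_lit 16774246920) (nat_lit 608) (nat_lit 18627337193) (nat_lit 76) (nat_lit 9172054395) (nat_lit 250) (nat_lit 5) (nat_lit 258) (nat_lit 5) (nat_lit 251) (nat_lit 5) (nat_lit 457) (nat_lit 440) (nat_lit 303)) (XT.lf (nat_lit 0) (nat_lit 23291348679) (nat_lit 532) (nat_lit 3954012336) (nat_lit 608) (nat_lit 18583342962) (nat_lit 243) (nat_lit 5) (nat_lit 250) (nat_lit 5) (nat_lit 251) (nat_lit 5) (nat_lit 458) (nat_lit 440) (nat_lit 302))) (XT.nd (nat_lit 78) (nat_lit 532) (nat_lit 0) (XT.lf (nat_lit 0) (nat_lit 20671781450) (nat_lit 456) (nat_lit 18235862425) (nat_lit 532) (nat_lit 8218850772) (nat_lit 237) (nat_lit 5) (nat_lit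 243) (nat_lit 5) (nat_lit 244) (nat_lit 5) (nat_lit 459) (nat_lit 440) (nat_lit 301)) (XT.lf (nat_lit 0) (nat_lit 3204772368) (nat_lit 532) (nat_lit 30306675634) (nat_lit 76) (nat_lit 14959172303) (nat_lit 230) (nat_lit 5) (nat_lit 237) (nat_lit 5) (nat_lit 231) (nat_lit 5) (nat_lit 460) (nat_lit 440) (nat_lit 300)))))) (XT.nd (nat_lit 468) (nat_lit 2128) (nat_lit 0) (XT.nd (nat_lit 234) (nat_lit 1292) (nat_lit 0) (XT.nd (nat_lit 78) (nat_lit 836) (nat_lit 0) (XT.lf (nat_lit 0) (nat_lit 15638369544) (nat_lit 532) (nat_lit 34137070185) (nat_lit 76) (nat_lit 85808416) (nat_lit 224) (nat_lit 5) (nat_lit 231) (nat_lit 5) (nat_lit 225) (nat_lit 5) (nat_lit 461) (nat_lit 440) (nat_lit 299)) (XT.nd (nat_lit 78) (nat_lit 380) (nat_lit 0) (XT.lf (nat_lit 0) (nat_lit 13291230869) (nat_lit 456) (nat_lit 16179729772) (nat_lit 532) (nat_lit 21827127581) (nat_lit 218) (nat_lit 5) (nat_lit 224) (nat_lit 5) (nat_lit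 225) (nat_lit 5) (nat_lit 462) (nat_lit 440) (nat_lit 298)) (XT.lf (nat_lit 0) (nat_lit 11031697393) (nat_lit 380) (nat_lit 33604346877) (nat_lit 456) (nat_lit 8151500399) (nat_lit 213) (nat_lit 5) (nat_lit 218) (nat_lit 5) (nat_lit 219) (nat_lit 5) (nat_lit 463) (nat_lit 440) (nat_lit 297)))) (XT.nd (nat_lit 78) (nat_lit 760) (nat_lit 0) (XT.lf (nat_lit 0) (nat_lit 6748468151) (nat_lit 532) (nat_lit 45432219115) (nat_lit 76) (nat_lit 2149145722) (nat_lit 206) (nat_lit 5) (nat_lit 213) (nat_lit 5) (nat_lit 207) (nat_lit 5) (nat_lit 464) (nat_lit 440) (nat_lit 296)) (XT.nd (nat_lit 78) (nat_lit 380) (nat_lit 0) (XT.lf (nat_lit 0) (nat_lit 6720908096) (nat_lit 380) (nat_lit 16339966473) (nat_lit 456) (nat_lit 32860859390) (nat_lit 201) (nat_lit 5) (nat_lit 206) (nat_lit 5) (nat_lit 207) (nat_lit 5) (nat_lit 465) (nat_lit 440) (nat_lit 295)) (XT.lf (nat_lit 0) (nat_lit 4730414983) (nat_lit 380) (nat_lit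 36177642784) (nat_lit 456) (nat_lit 16663597732) (nat_lit 196) (nat_lit 5) (nat_lit 201) (nat_lit 5) (nat_lit 202) (nat_lit 5) (nat_lit 466) (nat_lit 440) (nat_lit 294))))) (XT.nd (nat_lit 234) (nat_lit 1368) (nat_lit 0) (XT.nd (nat_lit 78) (nat_lit 380) (nat_lit 0) (XT.lf (nat_lit 0) (nat_lit 1057282609) (nat_lit 380) (nat_lit 56323610108) (nat_lit 76) (nat_lit 1901467761) (nat_lit 191) (nat_lit 5) (nat_lit 196) (nat_lit 5) (nat_lit 192) (nat_lit 5) (nat_lit 467) (nat_lit 440) (nat_lit 293)) (XT.nd (nat_lit 78) (nat_lit 0) (nat_lit 0) (XT.lf (nat_lit 0) (nat_lit 1068442670) (nat_lit 380) (nat_lit 19175974520) (nat_lit 456) (nat_lit 40801488949) (nat_lit 186) (nat_lit 5) (nat_lit 191) (nat_lit 5) (nat_lit 192) (nat_lit 5) (nat_lit 468) (nat_lit 440) (nat_lit 292)) (XT.lf (nat_lit 0) (nat_lit 41174703027) (nat_lit 456) (nat_lit 584480384) (nat_lit 76) (nat_lit 21114932016) (nat_lit 186) (nat_lit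 5) (nat_lit 192) (nat_lit 5) (nat_lit 187) (nat_lit 5) (nat_lit 469) (nat_lit 440) (nat_lit 291)))) (XT.nd (nat_lit 156) (nat_lit 684) (nat_lit 0) (XT.nd (nat_lit 78) (nat_lit 380) (nat_lit 0) (XT.lf (nat_lit 0) (nat_lit 62806061990) (nat_lit 304) (nat_lit 1139835160) (nat_lit 380) (nat_lit 824006380) (nat_lit 182) (nat_lit 5) (nat_lit 186) (nat_lit 5) (nat_lit 187) (nat_lit 5) (nat_lit 470) (nat_lit 440) (nat_lit 290)) (XT.lf (nat_lit 0) (nat_lit 21705802904) (nat_lit 380) (nat_lit 3489824795) (nat_lit 76) (nat_lit 41528101836) (nat_lit 177) (nat_lit 5) (nat_lit 182) (nat_lit 5) (nat_lit 178) (nat_lit 5) (nat_lit 471) (nat_lit 440) (nat_lit 289))) (XT.nd (nat_lit 78) (nat_lit 380) (nat_lit 0) (XT.lf (nat_lit 0) (nat_lit 46166312297) (nat_lit 380) (nat_lit 4744096837) (nat_lit 76) (nat_lit 17839955562) (nat_lit 173) (nat_lit 5) (nat_lit 178) (nat_lit 5) (nat_lit 174) (nat_lit 5) (nat_lit 472) (nat_lit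 440) (nat_lit 288)) (XT.lf (nat_lit 0) (nat_lit 1875170339) (nat_lit 380) (nat_lit 5785062456) (nat_lit 76) (nat_lit 63190140416) (nat_lit 168) (nat_lit 5) (nat_lit 173) (nat_lit 5) (nat_lit 169) (nat_lit 5) (nat_lit 473) (nat_lit 440) (nat_lit 287))))))) (XT.nd (nat_lit 1014) (nat_lit 1216) (nat_lit 0) (XT.nd (nat_lit 468) (nat_lit 1672) (nat_lit 0) (XT.nd (nat_lit 234) (nat_lit 836) (nat_lit 0) (XT.nd (nat_lit 78) (nat_lit 608) (nat_lit 0) (XT.lf (nat_lit 0) (nat_lit 28152318447) (nat_lit 380) (nat_lit 6924676611) (nat_lit 76) (nat_lit 37939817981) (nat_lit 164) (nat_lit 5) (nat_lit 169) (nat_lit 5) (nat_lit 165) (nat_lit 5) (nat_lit 474) (nat_lit 440) (nat_lit 286)) (XT.nd (nat_lit 78) (nat_lit 304) (nat_lit 0) (XT.lf (nat_lit 0) (nat_lit 56635132646) (nat_lit 380) (nat_lit 7742467036) (nat_lit 76) (nat_lit 10887221041) (nat_lit 160) (nat_lit 5) (nat_lit 165) (nat_lit 5) (nat_lit 161) (nat_lit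 5) (nat_lit 475) (nat_lit 440) (nat_lit 285)) (XT.lf (nat_lit 0) (nat_lit 9842473090) (nat_lit 304) (nat_lit 8483808759) (nat_lit 76) (nat_lit 59263387200) (nat_lit 156) (nat_lit 5) (nat_lit 160) (nat_lit 5) (nat_lit 157) (nat_lit 5) (nat_lit 476) (nat_lit 440) (nat_lit 284)))) (XT.nd (nat_lit 78) (nat_lit 532) (nat_lit 0) (XT.lf (nat_lit 0) (nat_lit 40416401844) (nat_lit 380) (nat_lit 9174940439) (nat_lit 76) (nat_lit 30401980545) (nat_lit 152) (nat_lit 5) (nat_lit 157) (nat_lit 5) (nat_lit 153) (nat_lit 5) (nat_lit 477) (nat_lit 440) (nat_lit 283)) (XT.nd (nat_lit 78) (nat_lit 304) (nat_lit 0) (XT.lf (nat_lit 0) (nat_lit 72983070823) (nat_lit 228) (nat_lit 508367680) (nat_lit 304) (nat_lit 8996548557) (nat_lit 149) (nat_lit 5) (nat_lit 152) (nat_lit 5) (nat_lit 153) (nat_lit 5) (nat_lit 478) (nat_lit 440) (nat_lit 282)) (XT.lf (nat_lit 0) (nat_lit 23982355594) (nat_lit 304) (nat_lit 9992624760)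 (nat_lit 76) (nat_lit 51086123166) (nat_lit 145) (nat_lit 5) (nat_lit 149) (nat_lit 5) (nat_lit 146) (nat_lit 5) (nat_lit 479) (nat_lit 440) (nat_lit 281))))) (XT.nd (nat_lit 234) (nat_lit 912) (nat_lit 0) (XT.nd (nat_lit 78) (nat_lit 532) (nat_lit 0) (XT.lf (nat_lit 0) (nat_lit 59452119241) (nat_lit 304) (nat_lit 10186591691) (nat_lit 76) (nat_lit 18090653420) (nat_lit 142) (nat_lit 5) (nat_lit 146) (nat_lit 5) (nat_lit 143) (nat_lit 5) (nat_lit 480) (nat_lit 440) (nat_lit 280)) (XT.nd (nat_lit 78) (nat_lit 228) (nat_lit 0) (XT.lf (nat_lit 0) (nat_lit 7273188187) (nat_lit 304) (nat_lit 10209443789) (nat_lit 76) (nat_lit 73009754364) (nat_lit 138) (nat_lit 5) (nat_lit 142) (nat_lit 5) (nat_lit 139) (nat_lit 5) (nat_lit 481) (nat_lit 440) (nat_lit 279)) (XT.lf (nat_lit 0) (nat_lit 45297785106) (nat_lit 304) (nat_lit 10291346009) (nat_lit 76) (nat_lit 37757585451) (nat_lit 135) (nat_lit 5) (nat_lit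 139) (nat_lit 5) (nat_lit 136) (nat_lit 5) (nat_lit 482) (nat_lit 440) (nat_lit 278)))) (XT.nd (nat_lit 156) (nat_lit 456) (nat_lit 0) (XT.nd (nat_lit 78) (nat_lit 228) (nat_lit 0) (XT.lf (nat_lit 0) (nat_lit 86334567127) (nat_lit 304) (nat_lit 9950236953) (nat_lit 76) (nat_lit 25630644) (nat_lit 132) (nat_lit 5) (nat_lit 136) (nat_lit 5) (nat_lit 133) (nat_lit 5) (nat_lit 483) (nat_lit 440) (nat_lit 277)) (XT.lf (nat_lit 0) (nat_lit 30960123033) (nat_lit 228) (nat_lit 9852390606) (nat_lit 76) (nat_lit 58554832681) (nat_lit 129) (nat_lit 5) (nat_lit 132) (nat_lit 5) (nat_lit 130) (nat_lit 5) (nat_lit 484) (nat_lit 440) (nat_lit 276))) (XT.nd (nat_lit 78) (nat_lit 228) (nat_lit 0) (XT.lf (nat_lit 0) (nat_lit 74915368438) (nat_lit 304) (nat_lit 9419621153) (nat_lit 76) (nat_lit 18203787700) (nat_lit 126) (nat_lit 5) (nat_lit 130) (nat_lit 5) (nat_lit 127) (nat_lit 5) (nat_lit 485) (nat_lit 440) (nat_lit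 275)) (XT.lf (nat_lit 0) (nat_lit 16362743661) (nat_lit 228) (nat_lit 8928659108) (nat_lit 76) (nat_lit 80529201483) (nat_lit 123) (nat_lit 5) (nat_lit 126) (nat_lit 5) (nat_lit 124) (nat_lit 5) (nat_lit 486) (nat_lit 440) (nat_lit 274)))))) (XT.nd (nat_lit 58968) (nat_lit 0) (nat_lit 15428) (XT.nd (nat_lit 234) (nat_lit 532) (nat_lit 0) (XT.nd (nat_lit 78) (nat_lit 456) (nat_lit 0) (XT.lf (nat_lit 0) (nat_lit 63416710743) (nat_lit 304) (nat_lit 8449259819) (nat_lit 76) (nat_lit 37349153045) (nat_lit 120) (nat_lit 5) (nat_lit 124) (nat_lit 5) (nat_lit 121) (nat_lit 5) (nat_lit 487) (nat_lit 440) (nat_lit 273)) (XT.nd (nat_lit 78) (nat_lit 228) (nat_lit 0) (XT.lf (nat_lit 0) (nat_lit 1413615115) (nat_lit 228) (nat_lit 7604953620) (nat_lit 76) (nat_lit 103719673562) (nat_lit 117) (nat_lit 5) (nat_lit 120) (nat_lit 5) (nat_lit 118) (nat_lit 5) (nat_lit 488) (nat_lit 440) (nat_lit 272)) (XT.lf (nat_lit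 0) (nat_lit 51753058607) (nat_lit 304) (nat_lit 7139659264) (nat_lit 76) (nat_lit 57479775747) (nat_lit 114) (nat_lit 5) (nat_lit 118) (nat_lit 5) (nat_lit 115) (nat_lit 5) (nat_lit 489) (nat_lit 440) (nat_lit 271)))) (XT.nd (nat_lit 156) (nat_lit 152) (nat_lit 0) (XT.nd (nat_lit 78) (nat_lit 228) (nat_lit 0) (XT.lf (nat_lit 0) (nat_lit 105952083793) (nat_lit 228) (nat_lit 6213457685) (nat_lit 76) (nat_lit 7982637793) (nat_lit 112) (nat_lit 5) (nat_lit 115) (nat_lit 5) (nat_lit 113) (nat_lit 5) (nat_lit 490) (nat_lit 440) (nat_lit 270)) (XT.lf (nat_lit 0) (nat_lit 39819352161) (nat_lit 228) (nat_lit 5626676960) (nat_lit 76) (nat_lit 78600634064) (nat_lit 109) (nat_lit 5) (nat_lit 112) (nat_lit 5) (nat_lit 110) (nat_lit 5) (nat_lit 491) (nat_lit 440) (nat_lit 269))) (XT.nd (nat_lit 58500) (nat_lit 0) (nat_lit 15352) (XT.lf (nat_lit 0) (nat_lit 97745565686) (nat_lit 228) (nat_lit 4807963756) (nat_lit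 76) (nat_lit 25537217520) (nat_lit 107) (nat_lit 5) (nat_lit 110) (nat_lit 5) (nat_lit 108) (nat_lit 5) (nat_lit 492) (nat_lit 440) (nat_lit 268)) (XT.lf (nat_lit 0) (nat_lit 7320619444) (nat_lit 1292) (nat_lit 3856406303) (nat_lit 1292) (nat_lit 3856406303) (nat_lit 309) (nat_lit 3) (nat_lit 326) (nat_lit 3) (nat_lit 326) (nat_lit 5) (nat_lit 441) (nat_lit 441) (nat_lit 318))))) (XT.nd (nat_lit 234) (nat_lit 0) (nat_lit 152) (XT.nd (nat_lit 78) (nat_lit 0) (nat_lit 0) (XT.lf (nat_lit 0) (nat_lit 15315185345) (nat_lit 1216) (nat_lit 13348895365) (nat_lit 1292) (nat_lit 2145206539) (nat_lit 310) (nat_lit 5) (nat_lit 326) (nat_lit 5) (nat_lit 327) (nat_lit 5) (nat_lit 442) (nat_lit 441) (nat_lit 317)) (XT.nd (nat_lit 78) (nat_lit 0) (nat_lit 76) (XT.lf (nat_lit 76) (nat_lit 12479836575) (nat_lit 0) (nat_lit 3961153629) (nat_lit 1292) (nat_lit 15135297220) (nat_lit 311) (nat_lit 5) (nat_lit 310) (nat_lit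 5) (nat_lit 327) (nat_lit 5) (nat_lit 443) (nat_lit 441) (nat_lit 316)) (XT.lf (nat_lit 76) (nat_lit 7429412571) (nat_lit 0) (nat_lit 10607862604) (nat_lit 1292) (nat_lit 14331937406) (nat_lit 312) (nat_lit 5) (nat_lit 311) (nat_lit 5) (nat_lit 328) (nat_lit 5) (nat_lit 444) (nat_lit 441) (nat_lit 315)))) (XT.nd (nat_lit 156) (nat_lit 0) (nat_lit 152) (XT.nd (nat_lit 78) (nat_lit 0) (nat_lit 76) (XT.lf (nat_lit 76) (nat_lit 2335402844) (nat_lit 0) (nat_lit 17780488779) (nat_lit 1292) (nat_lit 13073817495) (nat_lit 313) (nat_lit 5) (nat_lit 312) (nat_lit 5) (nat_lit 329) (nat_lit 5) (nat_lit 445) (nat_lit 441) (nat_lit 314)) (XT.lf (nat_lit 0) (nat_lit 22738444337) (nat_lit 1216) (nat_lit 2742474111) (nat_lit 1292) (nat_lit 8557112479) (nat_lit 313) (nat_lit 5) (nat_lit 329) (nat_lit 5) (nat_lit 330) (nat_lit 5) (nat_lit 446) (nat_lit 441) (nat_lit 313))) (XT.nd (nat_lit 78) (nat_lit 0) (nat_lit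 0) (XT.lf (nat_lit 0) (nat_lit 25937463311) (nat_lit 1216) (nat_lit 7806904128) (nat_lit 1292) (nat_lit 1171041807) (nat_lit 314) (nat_lit 5) (nat_lit 330) (nat_lit 5) (nat_lit 331) (nat_lit 5) (nat_lit 447) (nat_lit 441) (nat_lit 312)) (XT.lf (nat_lit 76) (nat_lit 22857658404) (nat_lit 0) (nat_lit 6938166963) (nat_lit 1292) (nat_lit 6025849901) (nat_lit 315) (nat_lit 5) (nat_lit 314) (nat_lit 5) (nat_lit 331) (nat_lit 5) (nat_lit 448) (nat_lit 441) (nat_lit 311))))))))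
noncomputable def xc107 : XT := (XT.nd (nat_lit 2028) (nat_lit 4484) (nat_lit 0) (XT.nd (nat_lit 1014) (nat_lit 4712) (nat_lit 0) (XT.nd (nat_lit 468) (nat_lit 3876) (nat_lit 0) (XT.nd (nat_lit 234) (nat_lit 1368) (nat_lit 0) (XT.nd (nat_lit 78) (nat_lit 1216) (nat_lit 0) (XT.lf (nat_lit 76) (nat_lit 18601560745) (nat_lit 0) (nat_lit 15703616683) (nat_lit 1292) (nat_lit 2454335532) (nat_lit 316) (nat_lit 5) (nat_lit 315) (nat_lit 5) (nat_lit 332) (nat_lit 5) (nat_lit 449) (nat_lit 441) (nat_lit 310)) (XT.nd (nat_lit 78) (nat_lit 0) (nat_lit 76) (XT.lf (nat_lit 0) (nat_lit 1732411297) (nat_lit 1292) (nat_lit 23387192710) (nat_lit 1368) (nat_lit 12610407099) (nat_lit 299) (nat_lit 5) (nat_lit 316) (nat_lit 5) (nat_lit 317) (nat_lit 5) (nat_lit 450) (nat_lit 441) (nat_lit 309)) (XT.lf (nat_lit 0) (nat_lit 6551887158) (nat_lit 1292) (nat_lit 28657352898) (nat_lit 76) (nat_lit 3524841022) (nat_lit 300)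 (nat_lit 5) (nat_lit 317) (nat_lit 5) (nat_lit 301) (nat_lit 5) (nat_lit 451) (nat_lit 441) (nat_lit 308)))) (XT.nd (nat_lit 78) (nat_lit 608) (nat_lit 0) (XT.lf (nat_lit 0) (nat_lit 5773615655) (nat_lit 836) (nat_lit 6385757904) (nat_lit 912) (nat_lit 27612570329) (nat_lit 289) (nat_lit 5) (nat_lit 300) (nat_lit 5) (nat_lit 301) (nat_lit 5) (nat_lit 452) (nat_lit 441) (nat_lit 307)) (XT.nd (nat_lit 78) (nat_lit 0) (nat_lit 0) (XT.lf (nat_lit 0) (nat_lit 1463653492) (nat_lit 608) (nat_lit 17120183408) (nat_lit 684) (nat_lit 22261765278) (nat_lit 281) (nat_lit 5) (nat_lit 289) (nat_lit 5) (nat_lit 290) (nat_lit 5) (nat_lit 453) (nat_lit 441) (nat_lit 306)) (XT.lf (nat_lit 0) (nat_lit 25869326261) (nat_lit 684) (nat_lit 2752397760) (nat_lit 76) (nat_lit 13335025675) (nat_lit 281) (nat_lit 5) (nat_lit 290) (nat_lit 5) (nat_lit 282) (nat_lit 5) (nat_lit 454) (nat_lit 441) (nat_lit 305))))) (XT.nd (nat_lit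 234) (nat_lit 2052) (nat_lit 0) (XT.nd (nat_lit 78) (nat_lit 1216) (nat_lit 0) (XT.lf (nat_lit 0) (nat_lit 34056902705) (nat_lit 684) (nat_lit 6890533346) (nat_lit 76) (nat_lit 2159884541) (nat_lit 273) (nat_lit 5) (nat_lit 282) (nat_lit 5) (nat_lit 274) (nat_lit 5) (nat_lit 455) (nat_lit 441) (nat_lit 304)) (XT.nd (nat_lit 78) (nat_lit 684) (nat_lit 0) (XT.lf (nat_lit 0) (nat_lit 33232308108) (nat_lit 532) (nat_lit 10054165273) (nat_lit 608) (nat_lit 1009968552) (nat_lit 266) (nat_lit 5) (nat_lit 273) (nat_lit 5) (nat_lit 274) (nat_lit 5) (nat_lit 456) (nat_lit 441) (nat_lit 303)) (XT.lf (nat_lit 0) (nat_lit 7867374338) (nat_lit 684) (nat_lit 15270858629) (nat_lit 76) (nat_lit 22387246155) (nat_lit 257) (nat_lit 5) (nat_lit 266) (nat_lit 5) (nat_lit 258) (nat_lit 5) (nat_lit 457) (nat_lit 441) (nat_lit 302)))) (XT.nd (nat_lit 156) (nat_lit 988) (nat_lit 0) (XT.nd (nat_lit 78) (nat_lit 532) (nat_lit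 0) (XT.lf (nat_lit 0) (nat_lit 17738983474) (nat_lit 608) (nat_lit 19418877975) (nat_lit 76) (nat_lit 9640668447) (nat_lit 250) (nat_lit 5) (nat_lit 258) (nat_lit 5) (nat_lit 251) (nat_lit 5) (nat_lit 458) (nat_lit 441) (nat_lit 301)) (XT.lf (nat_lit 0) (nat_lit 24591734104) (nat_lit 532) (nat_lit 4137223583) (nat_lit 608) (nat_lit 19387532286) (nat_lit 243) (nat_lit 5) (nat_lit 250) (nat_lit 5) (nat_lit 251) (nat_lit 5) (nat_lit 459) (nat_lit 441) (nat_lit 300))) (XT.nd (nat_lit 78) (nat_lit 532) (nat_lit 0) (XT.lf (nat_lit 0) (nat_lit 21840704629) (nat_lit 456) (nat_lit 19129306070) (nat_lit 532) (nat_lit 8509290242) (nat_lit 237) (nat_lit 5) (nat_lit 243) (nat_lit 5) (nat_lit 244) (nat_lit 5) (nat_lit 460) (nat_lit 441) (nat_lit 299)) (XT.lf (nat_lit 0) (nat_lit 3479013637) (nat_lit 532) (nat_lit 31685031277) (nat_lit 76) (nat_lit 15726678098) (nat_lit 230) (nat_lit 5) (nat_lit 237) (nat_lit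 5) (nat_lit 231) (nat_lit 5) (nat_lit 461) (nat_lit 441) (nat_lit 298)))))) (XT.nd (nat_lit 468) (nat_lit 2128) (nat_lit 0) (XT.nd (nat_lit 234) (nat_lit 1292) (nat_lit 0) (XT.nd (nat_lit 78) (nat_lit 836) (nat_lit 0) (XT.lf (nat_lit 0) (nat_lit 16530363949) (nat_lit 532) (nat_lit 35707791582) (nat_lit 76) (nat_lit 112844906) (nat_lit 224) (nat_lit 5) (nat_lit 231) (nat_lit 5) (nat_lit 225) (nat_lit 5) (nat_lit 462) (nat_lit 441) (nat_lit 297)) (XT.nd (nat_lit 78) (nat_lit 380) (nat_lit 0) (XT.lf (nat_lit 0) (nat_lit 14088022325) (nat_lit 456) (nat_lit 16962591640) (nat_lit 532) (nat_lit 22809188046) (nat_lit 218) (nat_lit 5) (nat_lit 224) (nat_lit 5) (nat_lit 225) (nat_lit 5) (nat_lit 463) (nat_lit 441) (nat_lit 296)) (XT.lf (nat_lit 0) (nat_lit 11714577068) (nat_lit 380) (nat_lit 35255823328) (nat_lit 456) (nat_lit 8453437780) (nat_lit 213) (nat_lit 5) (nat_lit 218) (nat_lit 5) (nat_lit 219)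 (nat_lit 5) (nat_lit 464) (nat_lit 441) (nat_lit 295)))) (XT.nd (nat_lit 78) (nat_lit 760) (nat_lit 0) (XT.lf (nat_lit 0) (nat_lit 7186065866) (nat_lit 532) (nat_lit 47571571592) (nat_lit 76) (nat_lit 2285675377) (nat_lit 206) (nat_lit 5) (nat_lit 213) (nat_lit 5) (nat_lit 207) (nat_lit 5) (nat_lit 465) (nat_lit 441) (nat_lit 294)) (XT.nd (nat_lit 78) (nat_lit 380) (nat_lit 0) (XT.lf (nat_lit 0) (nat_lit 7185420817) (nat_lit 380) (nat_lit 17125136489) (nat_lit 456) (nat_lit 34404357921) (nat_lit 201) (nat_lit 5) (nat_lit 206) (nat_lit 5) (nat_lit 207) (nat_lit 5) (nat_lit 466) (nat_lit 441) (nat_lit 293)) (XT.lf (nat_lit 0) (nat_lit 5094245522) (nat_lit 380) (nat_lit 37952767448) (nat_lit 456) (nat_lit 17400412773) (nat_lit 196) (nat_lit 5) (nat_lit 201) (nat_lit 5) (nat_lit 202) (nat_lit 5) (nat_lit 467) (nat_lit 441) (nat_lit 292))))) (XT.nd (nat_lit 234) (nat_lit 1368) (nat_lit 0) (XT.nd (nat_lit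 78) (nat_lit 380) (nat_lit 0) (XT.lf (nat_lit 0) (nat_lit 1201667937) (nat_lit 380) (nat_lit 59011886455) (nat_lit 76) (nat_lit 2030172961) (nat_lit 191) (nat_lit 5) (nat_lit 196) (nat_lit 5) (nat_lit 192) (nat_lit 5) (nat_lit 468) (nat_lit 441) (nat_lit 291)) (XT.nd (nat_lit 78) (nat_lit 0) (nat_lit 0) (XT.lf (nat_lit 0) (nat_lit 1246102615) (nat_lit 380) (nat_lit 20098892731) (nat_lit 456) (nat_lit 42750550132) (nat_lit 186) (nat_lit 5) (nat_lit 191) (nat_lit 5) (nat_lit 192) (nat_lit 5) (nat_lit 469) (nat_lit 441) (nat_lit 290)) (XT.lf (nat_lit 0) (nat_lit 43317916465) (nat_lit 456) (nat_lit 493181665) (nat_lit 76) (nat_lit 22204183719) (nat_lit 186) (nat_lit 5) (nat_lit 192) (nat_lit 5) (nat_lit 187) (nat_lit 5) (nat_lit 470) (nat_lit 441) (nat_lit 289)))) (XT.nd (nat_lit 156) (nat_lit 684) (nat_lit 0) (XT.nd (nat_lit 78) (nat_lit 380) (nat_lit 0) (XT.lf (nat_lit 0) (nat_lit 66063433067) (nat_lit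 304) (nat_lit 1161339781) (nat_lit 380) (nat_lit 781173672) (nat_lit 182) (nat_lit 5) (nat_lit 186) (nat_lit 5) (nat_lit 187) (nat_lit 5) (nat_lit 471) (nat_lit 441) (nat_lit 288)) (XT.lf (nat_lit 0) (nat_lit 22871014699) (nat_lit 380) (nat_lit 3546958238) (nat_lit 76) (nat_lit 43639541023) (nat_lit 177) (nat_lit 5) (nat_lit 182) (nat_lit 5) (nat_lit 178) (nat_lit 5) (nat_lit 472) (nat_lit 441) (nat_lit 287))) (XT.nd (nat_lit 78) (nat_lit 380) (nat_lit 0) (XT.lf (nat_lit 0) (nat_lit 48552193118) (nat_lit 380) (nat_lit 4865340949) (nat_lit 76) (nat_lit 18768017713) (nat_lit 173) (nat_lit 5) (nat_lit 178) (nat_lit 5) (nat_lit 174) (nat_lit 5) (nat_lit 473) (nat_lit 441) (nat_lit 286)) (XT.lf (nat_lit 0) (nat_lit 2044629253) (nat_lit 380) (nat_lit 5960168377) (nat_lit 76) (nat_lit 66385819353) (nat_lit 168) (nat_lit 5) (nat_lit 173) (nat_lit 5) (nat_lit 169) (nat_lit 5) (nat_lit 474) (nat_lit 441)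 (nat_lit 285))))))) (XT.nd (nat_lit 1014) (nat_lit 1064) (nat_lit 0) (XT.nd (nat_lit 468) (nat_lit 1672) (nat_lit 0) (XT.nd (nat_lit 234) (nat_lit 836) (nat_lit 0) (XT.nd (nat_lit 78) (nat_lit 608) (nat_lit 0) (XT.lf (nat_lit 0) (nat_lit 29633458313) (nat_lit 380) (nat_lit 7158199239) (nat_lit 76) (nat_lit 39873786728) (nat_lit 164) (nat_lit 5) (nat_lit 169) (nat_lit 5) (nat_lit 165) (nat_lit 5) (nat_lit 475) (nat_lit 441) (nat_lit 284)) (XT.nd (nat_lit 78) (nat_lit 304) (nat_lit 0) (XT.lf (nat_lit 0) (nat_lit 59538333649) (nat_lit 380) (nat_lit 8018343430) (nat_lit 76) (nat_lit 11469237833) (nat_lit 160) (nat_lit 5) (nat_lit 165) (nat_lit 5) (nat_lit 161) (nat_lit 5) (nat_lit 476) (nat_lit 441) (nat_lit 283)) (XT.lf (nat_lit 0) (nat_lit 10404364976) (nat_lit 304) (nat_lit 8798549335) (nat_lit 76) (nat_lit 62264141891) (nat_lit 156) (nat_lit 5) (nat_lit 160) (nat_lit 5) (nat_lit 157) (nat_lit 5)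 (nat_lit 477) (nat_lit 441) (nat_lit 282)))) (XT.nd (nat_lit 78) (nat_lit 532) (nat_lit 0) (XT.lf (nat_lit 0) (nat_lit 42505063210) (nat_lit 380) (nat_lit 9525721223) (nat_lit 76) (nat_lit 31960166202) (nat_lit 152) (nat_lit 5) (nat_lit 157) (nat_lit 5) (nat_lit 153) (nat_lit 5) (nat_lit 478) (nat_lit 441) (nat_lit 281)) (XT.nd (nat_lit 78) (nat_lit 304) (nat_lit 0) (XT.lf (nat_lit 0) (nat_lit 76737095772) (nat_lit 228) (nat_lit 494533482) (nat_lit 304) (nat_lit 9378785645) (nat_lit 149) (nat_lit 5) (nat_lit 152) (nat_lit 5) (nat_lit 153) (nat_lit 5) (nat_lit 479) (nat_lit 441) (nat_lit 280)) (XT.lf (nat_lit 0) (nat_lit 25245955829) (nat_lit 304) (nat_lit 10387556157) (nat_lit 76) (nat_lit 53678709508) (nat_lit 145) (nat_lit 5) (nat_lit 149) (nat_lit 5) (nat_lit 146) (nat_lit 5) (nat_lit 480) (nat_lit 441) (nat_lit 279))))) (XT.nd (nat_lit 234) (nat_lit 912) (nat_lit 0) (XT.nd (nat_lit 78) (nat_lit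 532) (nat_lit 0) (XT.lf (nat_lit 0) (nat_lit 62487492519) (nat_lit 304) (nat_lit 10592726217) (nat_lit 76) (nat_lit 19033728216) (nat_lit 142) (nat_lit 5) (nat_lit 146) (nat_lit 5) (nat_lit 143) (nat_lit 5) (nat_lit 481) (nat_lit 441) (nat_lit 278)) (XT.nd (nat_lit 78) (nat_lit 228) (nat_lit 0) (XT.lf (nat_lit 0) (nat_lit 7698193363) (nat_lit 304) (nat_lit 10618455684) (nat_lit 76) (nat_lit 76698513836) (nat_lit 138) (nat_lit 5) (nat_lit 142) (nat_lit 5) (nat_lit 139) (nat_lit 5) (nat_lit 482) (nat_lit 441) (nat_lit 277)) (XT.lf (nat_lit 0) (nat_lit 47622422866) (nat_lit 304) (nat_lit 10705954532) (nat_lit 76) (nat_lit 39683880255) (nat_lit 135) (nat_lit 5) (nat_lit 139) (nat_lit 5) (nat_lit 136) (nat_lit 5) (nat_lit 483) (nat_lit 441) (nat_lit 276)))) (XT.nd (nat_lit 156) (nat_lit 456) (nat_lit 0) (XT.nd (nat_lit 78) (nat_lit 228) (nat_lit 0) (XT.lf (nat_lit 0) (nat_lit 90709509503) (nat_lit 304)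 (nat_lit 10349295404) (nat_lit 76) (nat_lit 65402954) (nat_lit 132) (nat_lit 5) (nat_lit 136) (nat_lit 5) (nat_lit 133) (nat_lit 5) (nat_lit 484) (nat_lit 441) (nat_lit 275)) (XT.lf (nat_lit 0) (nat_lit 32565050440) (nat_lit 228) (nat_lit 10248244028) (nat_lit 76) (nat_lit 61520709516) (nat_lit 129) (nat_lit 5) (nat_lit 132) (nat_lit 5) (nat_lit 130) (nat_lit 5) (nat_lit 485) (nat_lit 441) (nat_lit 274))) (XT.nd (nat_lit 78) (nat_lit 228) (nat_lit 0) (XT.lf (nat_lit 0) (nat_lit 78716624811) (nat_lit 304) (nat_lit 9795328258) (nat_lit 76) (nat_lit 19152096529) (nat_lit 126) (nat_lit 5) (nat_lit 130) (nat_lit 5) (nat_lit 127) (nat_lit 5) (nat_lit 486) (nat_lit 441) (nat_lit 273)) (XT.lf (nat_lit 0) (nat_lit 17235149915) (nat_lit 228) (nat_lit 9281467285) (nat_lit 76) (nat_lit 84593387419) (nat_lit 123) (nat_lit 5) (nat_lit 126) (nat_lit 5) (nat_lit 124) (nat_lit 5) (nat_lit 487) (nat_lit 441) (nat_lit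 272)))))) (XT.nd (nat_lit 59046) (nat_lit 0) (nat_lit 15276) (XT.nd (nat_lit 234) (nat_lit 380) (nat_lit 0) (XT.nd (nat_lit 78) (nat_lit 456) (nat_lit 0) (XT.lf (nat_lit 0) (nat_lit 66640474241) (nat_lit 304) (nat_lit 8779572260) (nat_lit 76) (nat_lit 39254243758) (nat_lit 120) (nat_lit 5) (nat_lit 124) (nat_lit 5) (nat_lit 121) (nat_lit 5) (nat_lit 488) (nat_lit 441) (nat_lit 271)) (XT.nd (nat_lit 78) (nat_lit 228) (nat_lit 0) (XT.lf (nat_lit 0) (nat_lit 1536073050) (nat_lit 228) (nat_lit 7894660198) (nat_lit 76) (nat_lit 108942866285) (nat_lit 117) (nat_lit 5) (nat_lit 120) (nat_lit 5) (nat_lit 118) (nat_lit 5) (nat_lit 489) (nat_lit 441) (nat_lit 270)) (XT.lf (nat_lit 0) (nat_lit 54391231774) (nat_lit 304) (nat_lit 7407553519) (nat_lit 76) (nat_lit 60390815912) (nat_lit 114) (nat_lit 5) (nat_lit 118) (nat_lit 5) (nat_lit 115) (nat_lit 5) (nat_lit 490) (nat_lit 441) (nat_lit 269)))) (XT.nd (nat_lit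 58656) (nat_lit 0) (nat_lit 15200) (XT.nd (nat_lit 78) (nat_lit 228) (nat_lit 0) (XT.lf (nat_lit 0) (nat_lit 111298995647) (nat_lit 228) (nat_lit 6436487088) (nat_lit 76) (nat_lit 8418624853) (nat_lit 112) (nat_lit 5) (nat_lit 115) (nat_lit 5) (nat_lit 113) (nat_lit 5) (nat_lit 491) (nat_lit 441) (nat_lit 268)) (XT.lf (nat_lit 0) (nat_lit 41858572155) (nat_lit 228) (nat_lit 5821917983) (nat_lit 76) (nat_lit 82567057325) (nat_lit 109) (nat_lit 5) (nat_lit 112) (nat_lit 5) (nat_lit 110) (nat_lit 5) (nat_lit 492) (nat_lit 441) (nat_lit 267))) (XT.nd (nat_lit 78) (nat_lit 0) (nat_lit 76) (XT.lf (nat_lit 0) (nat_lit 7803630903) (nat_lit 1292) (nat_lit 3988976257) (nat_lit 1292) (nat_lit 3988976257) (nat_lit 309) (nat_lit 3) (nat_lit 326) (nat_lit 3) (nat_lit 326) (nat_lit 5) (nat_lit 442) (nat_lit 442) (nat_lit 316)) (XT.lf (nat_lit 0) (nat_lit 16303862138) (nat_lit 1216) (nat_lit 13891527004) (nat_lit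 1292) (nat_lit 2147654334) (nat_lit 310) (nat_lit 5) (nat_lit 326) (nat_lit 5) (nat_lit 327) (nat_lit 5) (nat_lit 443) (nat_lit 442) (nat_lit 315))))) (XT.nd (nat_lit 234) (nat_lit 0) (nat_lit 228) (XT.nd (nat_lit 78) (nat_lit 0) (nat_lit 76) (XT.lf (nat_lit 76) (nat_lit 13225063789) (nat_lit 0) (nat_lit 4251443719) (nat_lit 1292) (nat_lit 15672170626) (nat_lit 311) (nat_lit 5) (nat_lit 310) (nat_lit 5) (nat_lit 327) (nat_lit 5) (nat_lit 444) (nat_lit 442) (nat_lit 314)) (XT.nd (nat_lit 78) (nat_lit 0) (nat_lit 76) (XT.lf (nat_lit 76) (nat_lit 7925744105) (nat_lit 0) (nat_lit 11217053354) (nat_lit 1292) (nat_lit 14838747303) (nat_lit 312) (nat_lit 5) (nat_lit 311) (nat_lit 5) (nat_lit 328) (nat_lit 5) (nat_lit 445) (nat_lit 442) (nat_lit 313)) (XT.lf (nat_lit 76) (nat_lit 2580143297) (nat_lit 0) (nat_lit 18736012155) (nat_lit 1292) (nat_lit 13527187243) (nat_lit 313) (nat_lit 5) (nat_lit 312) (nat_lit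 5) (nat_lit 329) (nat_lit 5) (nat_lit 446) (nat_lit 442) (nat_lit 312)))) (XT.nd (nat_lit 156) (nat_lit 0) (nat_lit 76) (XT.nd (nat_lit 78) (nat_lit 0) (nat_lit 76) (XT.lf (nat_lit 0) (nat_lit 24059966572) (nat_lit 1216) (nat_lit 2751539322) (nat_lit 1292) (nat_lit 8922871624) (nat_lit 313) (nat_lit 5) (nat_lit 329) (nat_lit 5) (nat_lit 330) (nat_lit 5) (nat_lit 447) (nat_lit 442) (nat_lit 311)) (XT.lf (nat_lit 0) (nat_lit 27410835916) (nat_lit 1216) (nat_lit 8067029515) (nat_lit 1292) (nat_lit 1178003146) (nat_lit 314) (nat_lit 5) (nat_lit 330) (nat_lit 5) (nat_lit 331) (nat_lit 5) (nat_lit 448) (nat_lit 442) (nat_lit 310))) (XT.nd (nat_lit 78) (nat_lit 0) (nat_lit 76) (XT.lf (nat_lit 76) (nat_lit 24127028419) (nat_lit 0) (nat_lit 7327898793) (nat_lit 1292) (nat_lit 6152737125) (nat_lit 315) (nat_lit 5) (nat_lit 314) (nat_lit 5) (nat_lit 331) (nat_lit 5) (nat_lit 449) (nat_lit 442) (nat_lit 309))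 (XT.lf (nat_lit 76) (nat_lit 19659848653) (nat_lit 0) (nat_lit 16522676202) (nat_lit 1292) (nat_lit 2410086450) (nat_lit 316) (nat_lit 5) (nat_lit 315) (nat_lit 5) (nat_lit 332) (nat_lit 5) (nat_lit 450) (nat_lit 442) (nat_lit 308))))))))
noncomputable def xc108 : XT := (XT.nd (nat_lit 2028) (nat_lit 3952) (nat_lit 0) (XT.nd (nat_lit 1014) (nat_lit 4560) (nat_lit 0) (XT.nd (nat_lit 468) (nat_lit 3724) (nat_lit 0) (XT.nd (nat_lit 234) (nat_lit 1216) (nat_lit 0) (XT.nd (nat_lit 78) (nat_lit 760) (nat_lit 0) (XT.lf (nat_lit 0) (nat_lit 1975888801) (nat_lit 1292) (nat_lit 24423828458) (nat_lit 1368) (nat_lit 13212075152) (nat_lit 299) (nat_lit 5) (nat_lit 316) (nat_lit 5) (nat_lit 317) (nat_lit 5) (nat_lit 451) (nat_lit 442) (nat_lit 307)) (XT.nd (nat_lit 78) (nat_lit 836) (nat_lit 0) (XT.lf (nat_lit 0) (nat_lit 7029899664) (nat_lit 1292) (nat_lit 29956560792) (nat_lit 76) (nat_lit 3679799234) (nat_lit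 300) (nat_lit 5) (nat_lit 317) (nat_lit 5) (nat_lit 301) (nat_lit 5) (nat_lit 452) (nat_lit 442) (nat_lit 306)) (XT.lf (nat_lit 0) (nat_lit 6192124859) (nat_lit 836) (nat_lit 6719720747) (nat_lit 912) (nat_lit 28844348091) (nat_lit 289) (nat_lit 5) (nat_lit 300) (nat_lit 5) (nat_lit 301) (nat_lit 5) (nat_lit 453) (nat_lit 442) (nat_lit 305)))) (XT.nd (nat_lit 78) (nat_lit 608) (nat_lit 0) (XT.lf (nat_lit 0) (nat_lit 1667302871) (nat_lit 608) (nat_lit 17984467909) (nat_lit 684) (nat_lit 23231937547) (nat_lit 281) (nat_lit 5) (nat_lit 289) (nat_lit 5) (nat_lit 290) (nat_lit 5) (nat_lit 454) (nat_lit 442) (nat_lit 304)) (XT.nd (nat_lit 78) (nat_lit 608) (nat_lit 0) (XT.lf (nat_lit 0) (nat_lit 27294852086) (nat_lit 684) (nat_lit 2761712684) (nat_lit 76) (nat_lit 13994049483) (nat_lit 281) (nat_lit 5) (nat_lit 290) (nat_lit 5) (nat_lit 282) (nat_lit 5) (nat_lit 455) (nat_lit 442) (nat_lit 303)) (XT.lf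 (nat_lit 0) (nat_lit 35886694285) (nat_lit 684) (nat_lit 7106590695) (nat_lit 76) (nat_lit 2265582638) (nat_lit 273) (nat_lit 5) (nat_lit 282) (nat_lit 5) (nat_lit 274) (nat_lit 5) (nat_lit 456) (nat_lit 442) (nat_lit 302))))) (XT.nd (nat_lit 234) (nat_lit 1976) (nat_lit 0) (XT.nd (nat_lit 78) (nat_lit 1216) (nat_lit 0) (XT.lf (nat_lit 0) (nat_lit 35018710285) (nat_lit 532) (nat_lit 10554187668) (nat_lit 608) (nat_lit 934692944) (nat_lit 266) (nat_lit 5) (nat_lit 273) (nat_lit 5) (nat_lit 274) (nat_lit 5) (nat_lit 457) (nat_lit 442) (nat_lit 301)) (XT.nd (nat_lit 78) (nat_lit 532) (nat_lit 0) (XT.lf (nat_lit 0) (nat_lit 8379426322) (nat_lit 684) (nat_lit 15907277638) (nat_lit 76) (nat_lit 23511479277) (nat_lit 257) (nat_lit 5) (nat_lit 266) (nat_lit 5) (nat_lit 258) (nat_lit 5) (nat_lit 458) (nat_lit 442) (nat_lit 300)) (XT.lf (nat_lit 0) (nat_lit 18740240320) (nat_lit 608) (nat_lit 20262995499)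 (nat_lit 76) (nat_lit 10131782442) (nat_lit 250) (nat_lit 5) (nat_lit 258) (nat_lit 5) (nat_lit 251) (nat_lit 5) (nat_lit 459) (nat_lit 442) (nat_lit 299)))) (XT.nd (nat_lit 156) (nat_lit 988) (nat_lit 0) (XT.nd (nat_lit 78) (nat_lit 456) (nat_lit 0) (XT.lf (nat_lit 0) (nat_lit 25944511731) (nat_lit 532) (nat_lit 4330942477) (nat_lit 608) (nat_lit 20243550330) (nat_lit 243) (nat_lit 5) (nat_lit 250) (nat_lit 5) (nat_lit 251) (nat_lit 5) (nat_lit 460) (nat_lit 442) (nat_lit 298)) (XT.lf (nat_lit 0) (nat_lit 23055491885) (nat_lit 456) (nat_lit 20069127857) (nat_lit 532) (nat_lit 8825454919) (nat_lit 237) (nat_lit 5) (nat_lit 243) (nat_lit 5) (nat_lit 244) (nat_lit 5) (nat_lit 461) (nat_lit 442) (nat_lit 297))) (XT.nd (nat_lit 78) (nat_lit 456) (nat_lit 0) (XT.lf (nat_lit 0) (nat_lit 3756368084) (nat_lit 532) (nat_lit 33145039631) (nat_lit 76) (nat_lit 16530741872) (nat_lit 230) (nat_lit 5) (nat_lit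 237) (nat_lit 5) (nat_lit 231) (nat_lit 5) (nat_lit 462) (nat_lit 442) (nat_lit 296)) (XT.lf (nat_lit 0) (nat_lit 17456724259) (nat_lit 532) (nat_lit 37369705323) (nat_lit 76) (nat_lit 139118506) (nat_lit 224) (nat_lit 5) (nat_lit 231) (nat_lit 5) (nat_lit 225) (nat_lit 5) (nat_lit 463) (nat_lit 442) (nat_lit 295)))))) (XT.nd (nat_lit 468) (nat_lit 2052) (nat_lit 0) (XT.nd (nat_lit 234) (nat_lit 1140) (nat_lit 0) (XT.nd (nat_lit 78) (nat_lit 912) (nat_lit 0) (XT.lf (nat_lit 0) (nat_lit 14912359870) (nat_lit 456) (nat_lit 17787025422) (nat_lit 532) (nat_lit 23850512831) (nat_lit 218) (nat_lit 5) (nat_lit 224) (nat_lit 5) (nat_lit 225) (nat_lit 5) (nat_lit 464) (nat_lit 442) (nat_lit 294)) (XT.nd (nat_lit 78) (nat_lit 532) (nat_lit 0) (XT.lf (nat_lit 0) (nat_lit 12419394180) (nat_lit 380) (nat_lit 36992545658) (nat_lit 456) (nat_lit 8780293217) (nat_lit 213) (nat_lit 5) (nat_lit 218) (nat_lit 5)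 (nat_lit 219) (nat_lit 5) (nat_lit 465) (nat_lit 442) (nat_lit 293)) (XT.lf (nat_lit 0) (nat_lit 7636230209) (nat_lit 532) (nat_lit 49830187832) (nat_lit 76) (nat_lit 2426328643) (nat_lit 206) (nat_lit 5) (nat_lit 213) (nat_lit 5) (nat_lit 207) (nat_lit 5) (nat_lit 466) (nat_lit 442) (nat_lit 292)))) (XT.nd (nat_lit 78) (nat_lit 760) (nat_lit 0) (XT.lf (nat_lit 0) (nat_lit 7661215501) (nat_lit 380) (nat_lit 17952524101) (nat_lit 456) (nat_lit 36034286077) (nat_lit 201) (nat_lit 5) (nat_lit 206) (nat_lit 5) (nat_lit 207) (nat_lit 5) (nat_lit 467) (nat_lit 442) (nat_lit 291)) (XT.nd (nat_lit 78) (nat_lit 380) (nat_lit 0) (XT.lf (nat_lit 0) (nat_lit 5464431531) (nat_lit 380) (nat_lit 39819786796) (nat_lit 456) (nat_lit 18183027656) (nat_lit 196) (nat_lit 5) (nat_lit 201) (nat_lit 5) (nat_lit 202) (nat_lit 5) (nat_lit 468) (nat_lit 442) (nat_lit 290)) (XT.lf (nat_lit 0) (nat_lit 1344763759) (nat_lit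 380) (nat_lit 61846467936) (nat_lit 76) (nat_lit 2162186654) (nat_lit 191) (nat_lit 5) (nat_lit 196) (nat_lit 5) (nat_lit 192) (nat_lit 5) (nat_lit 469) (nat_lit 442) (nat_lit 289))))) (XT.nd (nat_lit 234) (nat_lit 1368) (nat_lit 0) (XT.nd (nat_lit 78) (nat_lit 304) (nat_lit 0) (XT.lf (nat_lit 0) (nat_lit 1421095103) (nat_lit 380) (nat_lit 21071292682) (nat_lit 456) (nat_lit 44805525925) (nat_lit 186) (nat_lit 5) (nat_lit 191) (nat_lit 5) (nat_lit 192) (nat_lit 5) (nat_lit 470) (nat_lit 442) (nat_lit 288)) (XT.nd (nat_lit 78) (nat_lit 304) (nat_lit 0) (XT.lf (nat_lit 0) (nat_lit 45560436585) (nat_lit 456) (nat_lit 408523073) (nat_lit 76) (nat_lit 23344783021) (nat_lit 186) (nat_lit 5) (nat_lit 192) (nat_lit 5) (nat_lit 187) (nat_lit 5) (nat_lit 471) (nat_lit 442) (nat_lit 287)) (XT.lf (nat_lit 0) (nat_lit 69472788827) (nat_lit 304) (nat_lit 1187218890) (nat_lit 380) (nat_lit 744011923) (nat_lit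 182) (nat_lit 5) (nat_lit 186) (nat_lit 5) (nat_lit 187) (nat_lit 5) (nat_lit 472) (nat_lit 442) (nat_lit 286)))) (XT.nd (nat_lit 156) (nat_lit 684) (nat_lit 0) (XT.nd (nat_lit 78) (nat_lit 304) (nat_lit 0) (XT.lf (nat_lit 0) (nat_lit 24087056726) (nat_lit 380) (nat_lit 3617859168) (nat_lit 76) (nat_lit 45853295031) (nat_lit 177) (nat_lit 5) (nat_lit 182) (nat_lit 5) (nat_lit 178) (nat_lit 5) (nat_lit 473) (nat_lit 442) (nat_lit 285)) (XT.lf (nat_lit 0) (nat_lit 51050156703) (nat_lit 380) (nat_lit 5003428196) (nat_lit 76) (nat_lit 19739130049) (nat_lit 173) (nat_lit 5) (nat_lit 178) (nat_lit 5) (nat_lit 174) (nat_lit 5) (nat_lit 474) (nat_lit 442) (nat_lit 284))) (XT.nd (nat_lit 78) (nat_lit 304) (nat_lit 0) (XT.lf (nat_lit 0) (nat_lit 2215523207) (nat_lit 380) (nat_lit 6154641919) (nat_lit 76) (nat_lit 69737919315) (nat_lit 168) (nat_lit 5) (nat_lit 173) (nat_lit 5) (nat_lit 169) (nat_lit 5) (nat_lit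 475) (nat_lit 442) (nat_lit 283)) (XT.lf (nat_lit 0) (nat_lit 31181819614) (nat_lit 380) (nat_lit 7413876817) (nat_lit 76) (nat_lit 41901016062) (nat_lit 164) (nat_lit 5) (nat_lit 169) (nat_lit 5) (nat_lit 165) (nat_lit 5) (nat_lit 476) (nat_lit 442) (nat_lit 282))))))) (XT.nd (nat_lit 1014) (nat_lit 608) (nat_lit 0) (XT.nd (nat_lit 468) (nat_lit 1672) (nat_lit 0) (XT.nd (nat_lit 234) (nat_lit 760) (nat_lit 0) (XT.nd (nat_lit 78) (nat_lit 608) (nat_lit 0) (XT.lf (nat_lit 0) (nat_lit 62580052481) (nat_lit 380) (nat_lit 8318356332) (nat_lit 76) (nat_lit 12076854590) (nat_lit 160) (nat_lit 5) (nat_lit 165) (nat_lit 5) (nat_lit 161) (nat_lit 5) (nat_lit 477) (nat_lit 442) (nat_lit 281)) (XT.nd (nat_lit 78) (nat_lit 304) (nat_lit 0) (XT.lf (nat_lit 0) (nat_lit 10987865067) (nat_lit 304) (nat_lit 9139202551) (nat_lit 76) (nat_lit 65411439990) (nat_lit 156) (nat_lit 5) (nat_lit 160) (nat_lit 5) (nat_lit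 157) (nat_lit 5) (nat_lit 478) (nat_lit 442) (nat_lit 280)) (XT.lf (nat_lit 0) (nat_lit 44691850406) (nat_lit 380) (nat_lit 9904078723) (nat_lit 76) (nat_lit 33592720208) (nat_lit 152) (nat_lit 5) (nat_lit 157) (nat_lit 5) (nat_lit 153) (nat_lit 5) (nat_lit 479) (nat_lit 442) (nat_lit 279)))) (XT.nd (nat_lit 78) (nat_lit 532) (nat_lit 0) (XT.lf (nat_lit 0) (nat_lit 80669072019) (nat_lit 228) (nat_lit 483656906) (nat_lit 304) (nat_lit 9786418497) (nat_lit 149) (nat_lit 5) (nat_lit 152) (nat_lit 5) (nat_lit 153) (nat_lit 5) (nat_lit 480) (nat_lit 442) (nat_lit 278)) (XT.nd (nat_lit 78) (nat_lit 228) (nat_lit 0) (XT.lf (nat_lit 0) (nat_lit 26566741109) (nat_lit 304) (nat_lit 10811968122) (nat_lit 76) (nat_lit 56397366240) (nat_lit 145) (nat_lit 5) (nat_lit 149) (nat_lit 5) (nat_lit 146) (nat_lit 5) (nat_lit 481) (nat_lit 442) (nat_lit 277)) (XT.lf (nat_lit 0) (nat_lit 65668798952) (nat_lit 304) (nat_lit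 11028761568) (nat_lit 76) (nat_lit 20020373470) (nat_lit 142) (nat_lit 5) (nat_lit 146) (nat_lit 5) (nat_lit 143) (nat_lit 5) (nat_lit 482) (nat_lit 442) (nat_lit 276))))) (XT.nd (nat_lit 234) (nat_lit 912) (nat_lit 0) (XT.nd (nat_lit 78) (nat_lit 456) (nat_lit 0) (XT.lf (nat_lit 0) (nat_lit 8138745450) (nat_lit 304) (nat_lit 11057350989) (nat_lit 76) (nat_lit 80568153137) (nat_lit 138) (nat_lit 5) (nat_lit 142) (nat_lit 5) (nat_lit 139) (nat_lit 5) (nat_lit 483) (nat_lit 442) (nat_lit 275)) (XT.nd (nat_lit 78) (nat_lit 228) (nat_lit 0) (XT.lf (nat_lit 0) (nat_lit 50057737664) (nat_lit 304) (nat_lit 11150586701) (nat_lit 76) (nat_lit 41702918286) (nat_lit 135) (nat_lit 5) (nat_lit 139) (nat_lit 5) (nat_lit 136) (nat_lit 5) (nat_lit 484) (nat_lit 442) (nat_lit 274)) (XT.lf (nat_lit 0) (nat_lit 95297786810) (nat_lit 304) (nat_lit 10777460042) (nat_lit 76) (nat_lit 103585372) (nat_lit 132) (nat_lit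 5) (nat_lit 136) (nat_lit 5) (nat_lit 133) (nat_lit 5) (nat_lit 485) (nat_lit 442) (nat_lit 273)))) (XT.nd (nat_lit 156) (nat_lit 456) (nat_lit 0) (XT.nd (nat_lit 78) (nat_lit 228) (nat_lit 0) (XT.lf (nat_lit 0) (nat_lit 34244932218) (nat_lit 228) (nat_lit 10672886517) (nat_lit 76) (nat_lit 64631334744) (nat_lit 129) (nat_lit 5) (nat_lit 132) (nat_lit 5) (nat_lit 130) (nat_lit 5) (nat_lit 486) (nat_lit 442) (nat_lit 272)) (XT.lf (nat_lit 0) (nat_lit 82702785259) (nat_lit 304) (nat_lit 10198678388) (nat_lit 76) (nat_lit 20144276815) (nat_lit 126) (nat_lit 5) (nat_lit 130) (nat_lit 5) (nat_lit 127) (nat_lit 5) (nat_lit 487) (nat_lit 442) (nat_lit 271))) (XT.nd (nat_lit 78) (nat_lit 228) (nat_lit 0) (XT.lf (nat_lit 0) (nat_lit 18146131057) (nat_lit 228) (nat_lit 9660620216) (nat_lit 76) (nat_lit 88857275258) (nat_lit 123) (nat_lit 5) (nat_lit 126) (nat_lit 5) (nat_lit 124) (nat_lit 5) (nat_lit 488)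 (nat_lit 442) (nat_lit 270)) (XT.lf (nat_lit 0) (nat_lit 70020505175) (nat_lit 304) (nat_lit 9134967607) (nat_lit 76) (nat_lit 41251090242) (nat_lit 120) (nat_lit 5) (nat_lit 124) (nat_lit 5) (nat_lit 121) (nat_lit 5) (nat_lit 489) (nat_lit 442) (nat_lit 269)))))) (XT.nd (nat_lit 59124) (nat_lit 0) (nat_lit 14212) (XT.nd (nat_lit 58812) (nat_lit 0) (nat_lit 14972) (XT.nd (nat_lit 78) (nat_lit 380) (nat_lit 0) (XT.lf (nat_lit 0) (nat_lit 1659840131) (nat_lit 228) (nat_lit 8207269759) (nat_lit 76) (nat_lit 114423759301) (nat_lit 117) (nat_lit 5) (nat_lit 120) (nat_lit 5) (nat_lit 118) (nat_lit 5) (nat_lit 490) (nat_lit 442) (nat_lit 268)) (XT.nd (nat_lit 78) (nat_lit 152) (nat_lit 0) (XT.lf (nat_lit 0) (nat_lit 57156616707) (nat_lit 304) (nat_lit 7697125110) (nat_lit 76) (nat_lit 63443963399) (nat_lit 114) (nat_lit 5) (nat_lit 118) (nat_lit 5) (nat_lit 115) (nat_lit 5) (nat_lit 491) (nat_lit 442)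 (nat_lit 267)) (XT.lf (nat_lit 0) (nat_lit 116908668934) (nat_lit 228) (nat_lit 6678816223) (nat_lit 76) (nat_lit 8872984821) (nat_lit 112) (nat_lit 5) (nat_lit 115) (nat_lit 5) (nat_lit 113) (nat_lit 5) (nat_lit 492) (nat_lit 442) (nat_lit 266)))) (XT.nd (nat_lit 156) (nat_lit 0) (nat_lit 76) (XT.nd (nat_lit 78) (nat_lit 0) (nat_lit 76) (XT.lf (nat_lit 0) (nat_lit 8299917199) (nat_lit 1292) (nat_lit 4133776217) (nat_lit 1292) (nat_lit 4133776217) (nat_lit 309) (nat_lit 3) (nat_lit 326) (nat_lit 3) (nat_lit 326) (nat_lit 5) (nat_lit 443) (nat_lit 443) (nat_lit 314)) (XT.lf (nat_lit 0) (nat_lit 17321248012) (nat_lit 1216) (nat_lit 14472894168) (nat_lit 1292) (nat_lit 2159968994) (nat_lit 310) (nat_lit 5) (nat_lit 326) (nat_lit 5) (nat_lit 327) (nat_lit 5) (nat_lit 444) (nat_lit 443) (nat_lit 313))) (XT.nd (nat_lit 78) (nat_lit 0) (nat_lit 76) (XT.lf (nat_lit 76) (nat_lit 13996281047) (nat_lit 0)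 (nat_lit 4547673418) (nat_lit 1292) (nat_lit 16256331124) (nat_lit 311) (nat_lit 5) (nat_lit 310) (nat_lit 5) (nat_lit 327) (nat_lit 5) (nat_lit 445) (nat_lit 443) (nat_lit 312)) (XT.lf (nat_lit 76) (nat_lit 8435283833) (nat_lit 0) (nat_lit 11849377784) (nat_lit 1292) (nat_lit 15390401699) (nat_lit 312) (nat_lit 5) (nat_lit 311) (nat_lit 5) (nat_lit 328) (nat_lit 5) (nat_lit 446) (nat_lit 443) (nat_lit 311))))) (XT.nd (nat_lit 234) (nat_lit 988) (nat_lit 0) (XT.nd (nat_lit 78) (nat_lit 0) (nat_lit 76) (XT.lf (nat_lit 76) (nat_lit 2825223305) (nat_lit 0) (nat_lit 19733129259) (nat_lit 1292) (nat_lit 14021849437) (nat_lit 313) (nat_lit 5) (nat_lit 312) (nat_lit 5) (nat_lit 329) (nat_lit 5) (nat_lit 447) (nat_lit 443) (nat_lit 310)) (XT.nd (nat_lit 78) (nat_lit 0) (nat_lit 76) (XT.lf (nat_lit 0) (nat_lit 25430402558) (nat_lit 1216) (nat_lit 2772963459) (nat_lit 1292) (nat_lit 9312691868) (nat_lit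 313) (nat_lit 5) (nat_lit 329) (nat_lit 5) (nat_lit 330) (nat_lit 5) (nat_lit 448) (nat_lit 443) (nat_lit 309)) (XT.lf (nat_lit 0) (nat_lit 28941467907) (nat_lit 1216) (nat_lit 8352267776) (nat_lit 1292) (nat_lit 1190108972) (nat_lit 314) (nat_lit 5) (nat_lit 330) (nat_lit 5) (nat_lit 331) (nat_lit 5) (nat_lit 449) (nat_lit 443) (nat_lit 308)))) (XT.nd (nat_lit 156) (nat_lit 1140) (nat_lit 0) (XT.nd (nat_lit 78) (nat_lit 0) (nat_lit 76) (XT.lf (nat_lit 76) (nat_lit 25448107363) (nat_lit 0) (nat_lit 7733135892) (nat_lit 1292) (nat_lit 6302183258) (nat_lit 315) (nat_lit 5) (nat_lit 314) (nat_lit 5) (nat_lit 331) (nat_lit 5) (nat_lit 450) (nat_lit 443) (nat_lit 307)) (XT.lf (nat_lit 76) (nat_lit 20759131218) (nat_lit 0) (nat_lit 17379538979) (nat_lit 1292) (nat_lit 2379147816) (nat_lit 316) (nat_lit 5) (nat_lit 315) (nat_lit 5) (nat_lit 332) (nat_lit 5) (nat_lit 451) (nat_lit 443) (nat_lit 306)))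 (XT.nd (nat_lit 78) (nat_lit 0) (nat_lit 76) (XT.lf (nat_lit 0) (nat_lit 2216957109) (nat_lit 1292) (nat_lit 25524635402) (nat_lit 1368) (nat_lit 13846509021) (nat_lit 299) (nat_lit 5) (nat_lit 316) (nat_lit 5) (nat_lit 317) (nat_lit 5) (nat_lit 452) (nat_lit 443) (nat_lit 305)) (XT.lf (nat_lit 0) (nat_lit 7517828341) (nat_lit 1292) (nat_lit 31333155497) (nat_lit 76) (nat_lit 3844484127) (nat_lit 300) (nat_lit 5) (nat_lit 317) (nat_lit 5) (nat_lit 301) (nat_lit 5) (nat_lit 453) (nat_lit 443) (nat_lit 304))))))))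
noncomputable def xc109 : XT := (XT.nd (nat_lit 2028) (nat_lit 3192) (nat_lit 0) (XT.nd (nat_lit 1014) (nat_lit 4332) (nat_lit 0) (XT.nd (nat_lit 468) (nat_lit 3344) (nat_lit 0) (XT.nd (nat_lit 234) (nat_lit 1824) (nat_lit 0) (XT.nd (nat_lit 78) (nat_lit 608) (nat_lit 0) (XT.lf (nat_lit 0) (nat_lit 6619489307) (nat_lit 836) (nat_lit 7069017394) (nat_lit 912) (nat_lit 30151553474) (nat_lit 289) (nat_lit 5) (nat_lit 300) (nat_lit 5) (nat_lit 301) (nat_lit 5) (nat_lit 454) (nat_lit 443) (nat_lit 303)) (XT.nd (nat_lit 78) (nat_lit 0) (nat_lit 0) (XT.lf (nat_lit 0) (nat_lit 1869005162) (nat_lit 608) (nat_lit 18891197273) (nat_lit 684) (nat_lit 24263905404) (nat_lit 281) (nat_lit 5) (nat_lit 289) (nat_lit 5) (nat_lit 290) (nat_lit 5) (nat_lit 455) (nat_lit 443) (nat_lit 302)) (XT.lf (nat_lit 0) (nat_lit 28779376560) (nat_lit 684) (nat_lit 2783421934) (nat_lit 76) (nat_lit 14686742910) (nat_lit 281) (nat_lit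 5) (nat_lit 290) (nat_lit 5) (nat_lit 282) (nat_lit 5) (nat_lit 456) (nat_lit 443) (nat_lit 301)))) (XT.nd (nat_lit 78) (nat_lit 1216) (nat_lit 0) (XT.lf (nat_lit 0) (nat_lit 37796173166) (nat_lit 684) (nat_lit 7345394770) (nat_lit 76) (nat_lit 2376779111) (nat_lit 273) (nat_lit 5) (nat_lit 282) (nat_lit 5) (nat_lit 274) (nat_lit 5) (nat_lit 457) (nat_lit 443) (nat_lit 300)) (XT.nd (nat_lit 78) (nat_lit 684) (nat_lit 0) (XT.lf (nat_lit 0) (nat_lit 36882831079) (nat_lit 532) (nat_lit 11079460889) (nat_lit 608) (nat_lit 867346833) (nat_lit 266) (nat_lit 5) (nat_lit 273) (nat_lit 5) (nat_lit 274) (nat_lit 5) (nat_lit 458) (nat_lit 443) (nat_lit 299)) (XT.lf (nat_lit 0) (nat_lit 8906046859) (nat_lit 684) (nat_lit 16587336375) (nat_lit 76) (nat_lit 24691471212) (nat_lit 257) (nat_lit 5) (nat_lit 266) (nat_lit 5) (nat_lit 258) (nat_lit 5) (nat_lit 459) (nat_lit 443) (nat_lit 298))))) (XT.nd (nat_lit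 234) (nat_lit 1824) (nat_lit 0) (XT.nd (nat_lit 78) (nat_lit 988) (nat_lit 0) (XT.lf (nat_lit 0) (nat_lit 19780932764) (nat_lit 608) (nat_lit 21161110014) (nat_lit 76) (nat_lit 10646607911) (nat_lit 250) (nat_lit 5) (nat_lit 258) (nat_lit 5) (nat_lit 251) (nat_lit 5) (nat_lit 460) (nat_lit 443) (nat_lit 297)) (XT.nd (nat_lit 78) (nat_lit 456) (nat_lit 0) (XT.lf (nat_lit 0) (nat_lit 27353475115) (nat_lit 532) (nat_lit 4535569160) (nat_lit 608) (nat_lit 21152908281) (nat_lit 243) (nat_lit 5) (nat_lit 250) (nat_lit 5) (nat_lit 251) (nat_lit 5) (nat_lit 461) (nat_lit 443) (nat_lit 296)) (XT.lf (nat_lit 0) (nat_lit 24319606184) (nat_lit 456) (nat_lit 21057488091) (nat_lit 532) (nat_lit 9167589492) (nat_lit 237) (nat_lit 5) (nat_lit 243) (nat_lit 5) (nat_lit 244) (nat_lit 5) (nat_lit 462) (nat_lit 443) (nat_lit 295)))) (XT.nd (nat_lit 156) (nat_lit 836) (nat_lit 0) (XT.nd (nat_lit 78) (nat_lit 456) (nat_lit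 0) (XT.lf (nat_lit 0) (nat_lit 4037976752) (nat_lit 532) (nat_lit 34689599358) (nat_lit 76) (nat_lit 17373360478) (nat_lit 230) (nat_lit 5) (nat_lit 237) (nat_lit 5) (nat_lit 231) (nat_lit 5) (nat_lit 463) (nat_lit 443) (nat_lit 294)) (XT.lf (nat_lit 0) (nat_lit 18420120210) (nat_lit 532) (nat_lit 39126194363) (nat_lit 76) (nat_lit 164787679) (nat_lit 224) (nat_lit 5) (nat_lit 231) (nat_lit 5) (nat_lit 225) (nat_lit 5) (nat_lit 464) (nat_lit 443) (nat_lit 293))) (XT.nd (nat_lit 78) (nat_lit 380) (nat_lit 0) (XT.lf (nat_lit 0) (nat_lit 15766763740) (nat_lit 456) (nat_lit 18654883903) (nat_lit 532) (nat_lit 24953120453) (nat_lit 218) (nat_lit 5) (nat_lit 224) (nat_lit 5) (nat_lit 225) (nat_lit 5) (nat_lit 465) (nat_lit 443) (nat_lit 292)) (XT.lf (nat_lit 0) (nat_lit 13148380450) (nat_lit 380) (nat_lit 38818527738) (nat_lit 456) (nat_lit 9132399532) (nat_lit 213) (nat_lit 5) (nat_lit 218) (nat_lit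 5) (nat_lit 219) (nat_lit 5) (nat_lit 466) (nat_lit 443) (nat_lit 291)))))) (XT.nd (nat_lit 468) (nat_lit 2280) (nat_lit 0) (XT.nd (nat_lit 234) (nat_lit 760) (nat_lit 0) (XT.nd (nat_lit 78) (nat_lit 760) (nat_lit 0) (XT.lf (nat_lit 0) (nat_lit 8100455371) (nat_lit 532) (nat_lit 52212887845) (nat_lit 76) (nat_lit 2571562985) (nat_lit 206) (nat_lit 5) (nat_lit 213) (nat_lit 5) (nat_lit 207) (nat_lit 5) (nat_lit 467) (nat_lit 443) (nat_lit 290)) (XT.nd (nat_lit 78) (nat_lit 380) (nat_lit 0) (XT.lf (nat_lit 0) (nat_lit 8149966655) (nat_lit 380) (nat_lit 18823965079) (nat_lit 456) (nat_lit 37754104924) (nat_lit 201) (nat_lit 5) (nat_lit 206) (nat_lit 5) (nat_lit 207) (nat_lit 5) (nat_lit 468) (nat_lit 443) (nat_lit 289)) (XT.lf (nat_lit 0) (nat_lit 5842391186) (nat_lit 380) (nat_lit 41783003778) (nat_lit 456) (nat_lit 19012899441) (nat_lit 196) (nat_lit 5) (nat_lit 201) (nat_lit 5) (nat_lit 202) (nat_lit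 5) (nat_lit 469) (nat_lit 443) (nat_lit 288)))) (XT.nd (nat_lit 78) (nat_lit 380) (nat_lit 0) (XT.lf (nat_lit 0) (nat_lit 1487296663) (nat_lit 380) (nat_lit 64833564265) (nat_lit 76) (nat_lit 2297964961) (nat_lit 191) (nat_lit 5) (nat_lit 196) (nat_lit 5) (nat_lit 192) (nat_lit 5) (nat_lit 470) (nat_lit 443) (nat_lit 287)) (XT.nd (nat_lit 78) (nat_lit 0) (nat_lit 0) (XT.lf (nat_lit 0) (nat_lit 1594360612) (nat_lit 380) (nat_lit 22095338327) (nat_lit 456) (nat_lit 46970925383) (nat_lit 186) (nat_lit 5) (nat_lit 191) (nat_lit 5) (nat_lit 192) (nat_lit 5) (nat_lit 471) (nat_lit 443) (nat_lit 286)) (XT.lf (nat_lit 0) (nat_lit 47907958910) (nat_lit 456) (nat_lit 329794872) (nat_lit 76) (nat_lit 24539586902) (nat_lit 186) (nat_lit 5) (nat_lit 192) (nat_lit 5) (nat_lit 187) (nat_lit 5) (nat_lit 472) (nat_lit 443) (nat_lit 285))))) (XT.nd (nat_lit 234) (nat_lit 1292) (nat_lit 0) (XT.nd (nat_lit 78) (nat_lit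 684) (nat_lit 0) (XT.lf (nat_lit 0) (nat_lit 73042740383) (nat_lit 304) (nat_lit 1217384479) (nat_lit 380) (nat_lit 712078340) (nat_lit 182) (nat_lit 5) (nat_lit 186) (nat_lit 5) (nat_lit 187) (nat_lit 5) (nat_lit 473) (nat_lit 443) (nat_lit 284)) (XT.nd (nat_lit 78) (nat_lit 304) (nat_lit 0) (XT.lf (nat_lit 0) (nat_lit 25357161301) (nat_lit 380) (nat_lit 3702201576) (nat_lit 76) (nat_lit 48174782420) (nat_lit 177) (nat_lit 5) (nat_lit 182) (nat_lit 5) (nat_lit 178) (nat_lit 5) (nat_lit 474) (nat_lit 443) (nat_lit 283)) (XT.lf (nat_lit 0) (nat_lit 53666477626) (nat_lit 380) (nat_lit 5158198427) (nat_lit 76) (nat_lit 20755756801) (nat_lit 173) (nat_lit 5) (nat_lit 178) (nat_lit 5) (nat_lit 174) (nat_lit 5) (nat_lit 475) (nat_lit 443) (nat_lit 282)))) (XT.nd (nat_lit 156) (nat_lit 608) (nat_lit 0) (XT.nd (nat_lit 78) (nat_lit 304) (nat_lit 0) (XT.lf (nat_lit 0) (nat_lit 2388578271) (nat_lit 380)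 (nat_lit 6368464829) (nat_lit 76) (nat_lit 73254574006) (nat_lit 168) (nat_lit 5) (nat_lit 173) (nat_lit 5) (nat_lit 169) (nat_lit 5) (nat_lit 476) (nat_lit 443) (nat_lit 281)) (XT.lf (nat_lit 0) (nat_lit 32801398925) (nat_lit 380) (nat_lit 7691842873) (nat_lit 76) (nat_lit 44026488632) (nat_lit 164) (nat_lit 5) (nat_lit 169) (nat_lit 5) (nat_lit 165) (nat_lit 5) (nat_lit 477) (nat_lit 443) (nat_lit 280))) (XT.nd (nat_lit 78) (nat_lit 304) (nat_lit 0) (XT.lf (nat_lit 0) (nat_lit 65767832565) (nat_lit 380) (nat_lit 8642751002) (nat_lit 76) (nat_lit 12711676790) (nat_lit 160) (nat_lit 5) (nat_lit 165) (nat_lit 5) (nat_lit 161) (nat_lit 5) (nat_lit 478) (nat_lit 443) (nat_lit 279)) (XT.lf (nat_lit 0) (nat_lit 11594656817) (nat_lit 304) (nat_lit 9506118006) (nat_lit 76) (nat_lit 68712933535) (nat_lit 156) (nat_lit 5) (nat_lit 160) (nat_lit 5) (nat_lit 157) (nat_lit 5) (nat_lit 479) (nat_lit 443) (nat_lit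 278))))))) (XT.nd (nat_lit 59670) (nat_lit 0) (nat_lit 12692) (XT.nd (nat_lit 468) (nat_lit 1596) (nat_lit 0) (XT.nd (nat_lit 234) (nat_lit 760) (nat_lit 0) (XT.nd (nat_lit 78) (nat_lit 532) (nat_lit 0) (XT.lf (nat_lit 0) (nat_lit 46982256110) (nat_lit 380) (nat_lit 10310458568) (nat_lit 76) (nat_lit 35303690182) (nat_lit 152) (nat_lit 5) (nat_lit 157) (nat_lit 5) (nat_lit 153) (nat_lit 5) (nat_lit 480) (nat_lit 443) (nat_lit 277)) (XT.nd (nat_lit 78) (nat_lit 304) (nat_lit 0) (XT.lf (nat_lit 0) (nat_lit 84788803587) (nat_lit 228) (nat_lit 475546555) (nat_lit 304) (nat_lit 10220132683) (nat_lit 149) (nat_lit 5) (nat_lit 152) (nat_lit 5) (nat_lit 153) (nat_lit 5) (nat_lit 481) (nat_lit 443) (nat_lit 276)) (XT.lf (nat_lit 0) (nat_lit 27948128041) (nat_lit 304) (nat_lit 11266429709) (nat_lit 76) (nat_lit 59248727754) (nat_lit 145) (nat_lit 5) (nat_lit 149) (nat_lit 5) (nat_lit 146) (nat_lit 5) (nat_lit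 482) (nat_lit 443) (nat_lit 275)))) (XT.nd (nat_lit 78) (nat_lit 532) (nat_lit 0) (XT.lf (nat_lit 0) (nat_lit 69003877726) (nat_lit 304) (nat_lit 11495300816) (nat_lit 76) (nat_lit 21053100846) (nat_lit 142) (nat_lit 5) (nat_lit 146) (nat_lit 5) (nat_lit 143) (nat_lit 5) (nat_lit 483) (nat_lit 443) (nat_lit 274)) (XT.nd (nat_lit 78) (nat_lit 228) (nat_lit 0) (XT.lf (nat_lit 0) (nat_lit 8596152036) (nat_lit 304) (nat_lit 11526746902) (nat_lit 76) (nat_lit 84628047061) (nat_lit 138) (nat_lit 5) (nat_lit 142) (nat_lit 5) (nat_lit 139) (nat_lit 5) (nat_lit 484) (nat_lit 443) (nat_lit 273)) (XT.lf (nat_lit 0) (nat_lit 52609779789) (nat_lit 304) (nat_lit 11625879703) (nat_lit 76) (nat_lit 43819668753) (nat_lit 135) (nat_lit 5) (nat_lit 139) (nat_lit 5) (nat_lit 136) (nat_lit 5) (nat_lit 485) (nat_lit 443) (nat_lit 272))))) (XT.nd (nat_lit 234) (nat_lit 912) (nat_lit 0) (XT.nd (nat_lit 78) (nat_lit 456)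 (nat_lit 0) (XT.lf (nat_lit 0) (nat_lit 100110568969) (nat_lit 304) (nat_lit 11235335191) (nat_lit 76) (nat_lit 140431099) (nat_lit 132) (nat_lit 5) (nat_lit 136) (nat_lit 5) (nat_lit 133) (nat_lit 5) (nat_lit 486) (nat_lit 443) (nat_lit 271)) (XT.nd (nat_lit 78) (nat_lit 228) (nat_lit 0) (XT.lf (nat_lit 0) (nat_lit 36004008087) (nat_lit 228) (nat_lit 11126921126) (nat_lit 76) (nat_lit 67894275405) (nat_lit 129) (nat_lit 5) (nat_lit 132) (nat_lit 5) (nat_lit 130) (nat_lit 5) (nat_lit 487) (nat_lit 443) (nat_lit 270)) (XT.lf (nat_lit 0) (nat_lit 86883574596) (nat_lit 304) (nat_lit 10630230191) (nat_lit 76) (nat_lit 21182851618) (nat_lit 126) (nat_lit 5) (nat_lit 130) (nat_lit 5) (nat_lit 127) (nat_lit 5) (nat_lit 488) (nat_lit 443) (nat_lit 269)))) (XT.nd (nat_lit 156) (nat_lit 456) (nat_lit 0) (XT.nd (nat_lit 78) (nat_lit 228) (nat_lit 0) (XT.lf (nat_lit 0) (nat_lit 19098084909) (nat_lit 228) (nat_lit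 10066625890) (nat_lit 76) (nat_lit 93331176181) (nat_lit 123) (nat_lit 5) (nat_lit 126) (nat_lit 5) (nat_lit 124) (nat_lit 5) (nat_lit 489) (nat_lit 443) (nat_lit 268)) (XT.lf (nat_lit 0) (nat_lit 73565074399) (nat_lit 304) (nat_lit 9515903501) (nat_lit 76) (nat_lit 43344605566) (nat_lit 120) (nat_lit 5) (nat_lit 124) (nat_lit 5) (nat_lit 121) (nat_lit 5) (nat_lit 490) (nat_lit 443) (nat_lit 267))) (XT.nd (nat_lit 78) (nat_lit 228) (nat_lit 0) (XT.lf (nat_lit 0) (nat_lit 1785429351) (nat_lit 228) (nat_lit 8543144858) (nat_lit 76) (nat_lit 120175559240) (nat_lit 117) (nat_lit 5) (nat_lit 120) (nat_lit 5) (nat_lit 118) (nat_lit 5) (nat_lit 491) (nat_lit 443) (nat_lit 266)) (XT.lf (nat_lit 0) (nat_lit 60056010666) (nat_lit 304) (nat_lit 8008687864) (nat_lit 76) (nat_lit 66646643828) (nat_lit 114) (nat_lit 5) (nat_lit 118) (nat_lit 5) (nat_lit 115) (nat_lit 5) (nat_lit 492) (nat_lit 443) (nat_lit 265))))))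 (XT.nd (nat_lit 546) (nat_lit 2128) (nat_lit 0) (XT.nd (nat_lit 234) (nat_lit 0) (nat_lit 152) (XT.nd (nat_lit 78) (nat_lit 0) (nat_lit 76) (XT.lf (nat_lit 0) (nat_lit 8811153196) (nat_lit 1292) (nat_lit 4290896907) (nat_lit 1292) (nat_lit 4290896907) (nat_lit 309) (nat_lit 3) (nat_lit 326) (nat_lit 3) (nat_lit 326) (nat_lit 5) (nat_lit 444) (nat_lit 444) (nat_lit 312)) (XT.nd (nat_lit 78) (nat_lit 0) (nat_lit 0) (XT.lf (nat_lit 0) (nat_lit 18370705213) (nat_lit 1216) (nat_lit 15093854806) (nat_lit 1292) (nat_lit 2181737915) (nat_lit 310) (nat_lit 5) (nat_lit 326) (nat_lit 5) (nat_lit 327) (nat_lit 5) (nat_lit 445) (nat_lit 444) (nat_lit 311)) (XT.lf (nat_lit 76) (nat_lit 14795835751) (nat_lit 0) (nat_lit 4850936920) (nat_lit 1292) (nat_lit 16888242436) (nat_lit 311) (nat_lit 5) (nat_lit 310) (nat_lit 5) (nat_lit 327) (nat_lit 5) (nat_lit 446) (nat_lit 444) (nat_lit 310)))) (XT.nd (nat_lit 156)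 (nat_lit 0) (nat_lit 152) (XT.nd (nat_lit 78) (nat_lit 0) (nat_lit 76) (XT.lf (nat_lit 76) (nat_lit 8959771402) (nat_lit 0) (nat_lit 12506673669) (nat_lit 1292) (nat_lit 15987329521) (nat_lit 312) (nat_lit 5) (nat_lit 311) (nat_lit 5) (nat_lit 328) (nat_lit 5) (nat_lit 447) (nat_lit 444) (nat_lit 309)) (XT.lf (nat_lit 76) (nat_lit 3071765961) (nat_lit 0) (nat_lit 20774494562) (nat_lit 1292) (nat_lit 14558137222) (nat_lit 313) (nat_lit 5) (nat_lit 312) (nat_lit 5) (nat_lit 329) (nat_lit 5) (nat_lit 448) (nat_lit 444) (nat_lit 308))) (XT.nd (nat_lit 78) (nat_lit 0) (nat_lit 76) (XT.lf (nat_lit 0) (nat_lit 26853793578) (nat_lit 1216) (nat_lit 2806257592) (nat_lit 1292) (nat_lit 9727239535) (nat_lit 313) (nat_lit 5) (nat_lit 329) (nat_lit 5) (nat_lit 330) (nat_lit 5) (nat_lit 449) (nat_lit 444) (nat_lit 307)) (XT.lf (nat_lit 0) (nat_lit 30533747828) (nat_lit 1216) (nat_lit 8662748997) (nat_lit 1292)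 (nat_lit 1207170581) (nat_lit 314) (nat_lit 5) (nat_lit 330) (nat_lit 5) (nat_lit 331) (nat_lit 5) (nat_lit 450) (nat_lit 444) (nat_lit 306))))) (XT.nd (nat_lit 234) (nat_lit 1368) (nat_lit 0) (XT.nd (nat_lit 78) (nat_lit 1140) (nat_lit 0) (XT.lf (nat_lit 76) (nat_lit 26824573977) (nat_lit 0) (nat_lit 8155023671) (nat_lit 1292) (nat_lit 6473808772) (nat_lit 315) (nat_lit 5) (nat_lit 314) (nat_lit 5) (nat_lit 331) (nat_lit 5) (nat_lit 451) (nat_lit 444) (nat_lit 305)) (XT.nd (nat_lit 78) (nat_lit 1216) (nat_lit 0) (XT.lf (nat_lit 76) (nat_lit 21902566356) (nat_lit 0) (nat_lit 18276388006) (nat_lit 1292) (nat_lit 2360741982) (nat_lit 316) (nat_lit 5) (nat_lit 315) (nat_lit 5) (nat_lit 332) (nat_lit 5) (nat_lit 452) (nat_lit 444) (nat_lit 304)) (XT.lf (nat_lit 0) (nat_lit 2456851556) (nat_lit 1292) (nat_lit 26691674902) (nat_lit 1368) (nat_lit 14515097612) (nat_lit 299) (nat_lit 5) (nat_lit 316) (nat_lit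 5) (nat_lit 317) (nat_lit 5) (nat_lit 453) (nat_lit 444) (nat_lit 303)))) (XT.nd (nat_lit 156) (nat_lit 608) (nat_lit 0) (XT.nd (nat_lit 78) (nat_lit 836) (nat_lit 0) (XT.lf (nat_lit 0) (nat_lit 8017469141) (nat_lit 1292) (nat_lit 32789851064) (nat_lit 76) (nat_lit 4019198067) (nat_lit 300) (nat_lit 5) (nat_lit 317) (nat_lit 5) (nat_lit 301) (nat_lit 5) (nat_lit 454) (nat_lit 444) (nat_lit 302)) (XT.lf (nat_lit 0) (nat_lit 7057273936) (nat_lit 836) (nat_lit 7434541380) (nat_lit 912) (nat_lit 31536671265) (nat_lit 289) (nat_lit 5) (nat_lit 300) (nat_lit 5) (nat_lit 301) (nat_lit 5) (nat_lit 455) (nat_lit 444) (nat_lit 301))) (XT.nd (nat_lit 78) (nat_lit 0) (nat_lit 0) (XT.lf (nat_lit 0) (nat_lit 2069790700) (nat_lit 608) (nat_lit 19842565271) (nat_lit 684) (nat_lit 25359523332) (nat_lit 281) (nat_lit 5) (nat_lit 289) (nat_lit 5) (nat_lit 290) (nat_lit 5) (nat_lit 456) (nat_lit 444) (nat_lit 300))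 (XT.lf (nat_lit 0) (nat_lit 30326991075) (nat_lit 684) (nat_lit 2817036220) (nat_lit 76) (nat_lit 15414722643) (nat_lit 281) (nat_lit 5) (nat_lit 290) (nat_lit 5) (nat_lit 282) (nat_lit 5) (nat_lit 457) (nat_lit 444) (nat_lit 299))))))))
noncomputable def xc110 : XT := (XT.nd (nat_lit 2028) (nat_lit 2128) (nat_lit 0) (XT.nd (nat_lit 1014) (nat_lit 3876) (nat_lit 0) (XT.nd (nat_lit 468) (nat_lit 3116) (nat_lit 0) (XT.nd (nat_lit 234) (nat_lit 1520) (nat_lit 0) (XT.nd (nat_lit 78) (nat_lit 1216) (nat_lit 0) (XT.lf (nat_lit 0) (nat_lit 39790420979) (nat_lit 684) (nat_lit 7606972483) (nat_lit 76) (nat_lit 2493729035) (nat_lit 273) (nat_lit 5) (nat_lit 282) (nat_lit 5) (nat_lit 274) (nat_lit 5) (nat_lit 458) (nat_lit 444) (nat_lit 298)) (XT.nd (nat_lit 78) (nat_lit 684) (nat_lit 0) (XT.lf (nat_lit 0) (nat_lit 38829635018) (nat_lit 532) (nat_lit 11631224263) (nat_lit 608) (nat_lit 807239564) (nat_lit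 266) (nat_lit 5) (nat_lit 273) (nat_lit 5) (nat_lit 274) (nat_lit 5) (nat_lit 459) (nat_lit 444) (nat_lit 297)) (XT.lf (nat_lit 0) (nat_lit 9448990218) (nat_lit 684) (nat_lit 17312118028) (nat_lit 76) (nat_lit 25930052004) (nat_lit 257) (nat_lit 5) (nat_lit 266) (nat_lit 5) (nat_lit 258) (nat_lit 5) (nat_lit 460) (nat_lit 444) (nat_lit 296)))) (XT.nd (nat_lit 78) (nat_lit 988) (nat_lit 0) (XT.lf (nat_lit 0) (nat_lit 20864020607) (nat_lit 608) (nat_lit 22114825143) (nat_lit 76) (nat_lit 11186408917) (nat_lit 250) (nat_lit 5) (nat_lit 258) (nat_lit 5) (nat_lit 251) (nat_lit 5) (nat_lit 461) (nat_lit 444) (nat_lit 295)) (XT.nd (nat_lit 78) (nat_lit 456) (nat_lit 0) (XT.lf (nat_lit 0) (nat_lit 28822498347) (nat_lit 532) (nat_lit 4751535427) (nat_lit 608) (nat_lit 22117293319) (nat_lit 243) (nat_lit 5) (nat_lit 250) (nat_lit 5) (nat_lit 251) (nat_lit 5) (nat_lit 462) (nat_lit 444) (nat_lit 294)) (XT.lf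 (nat_lit 0) (nat_lit 25636574887) (nat_lit 456) (nat_lit 22096669833) (nat_lit 532) (nat_lit 9536047722) (nat_lit 237) (nat_lit 5) (nat_lit 243) (nat_lit 5) (nat_lit 244) (nat_lit 5) (nat_lit 463) (nat_lit 444) (nat_lit 293))))) (XT.nd (nat_lit 234) (nat_lit 1672) (nat_lit 0) (XT.nd (nat_lit 78) (nat_lit 912) (nat_lit 0) (XT.lf (nat_lit 0) (nat_lit 4324946123) (nat_lit 532) (nat_lit 36321864130) (nat_lit 76) (nat_lit 18256614909) (nat_lit 230) (nat_lit 5) (nat_lit 237) (nat_lit 5) (nat_lit 231) (nat_lit 5) (nat_lit 464) (nat_lit 444) (nat_lit 292)) (XT.nd (nat_lit 78) (nat_lit 456) (nat_lit 0) (XT.lf (nat_lit 0) (nat_lit 19423266574) (nat_lit 532) (nat_lit 40980920203) (nat_lit 76) (nat_lit 190000530) (nat_lit 224) (nat_lit 5) (nat_lit 231) (nat_lit 5) (nat_lit 225) (nat_lit 5) (nat_lit 465) (nat_lit 444) (nat_lit 291)) (XT.lf (nat_lit 0) (nat_lit 16653773924) (nat_lit 456) (nat_lit 19568133504)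 (nat_lit 532) (nat_lit 26119218182) (nat_lit 218) (nat_lit 5) (nat_lit 224) (nat_lit 5) (nat_lit 225) (nat_lit 5) (nat_lit 466) (nat_lit 444) (nat_lit 290)))) (XT.nd (nat_lit 156) (nat_lit 760) (nat_lit 0) (XT.nd (nat_lit 78) (nat_lit 532) (nat_lit 0) (XT.lf (nat_lit 0) (nat_lit 13903773678) (nat_lit 380) (nat_lit 40738007228) (nat_lit 456) (nat_lit 9510191076) (nat_lit 213) (nat_lit 5) (nat_lit 218) (nat_lit 5) (nat_lit 219) (nat_lit 5) (nat_lit 467) (nat_lit 444) (nat_lit 289)) (XT.lf (nat_lit 0) (nat_lit 8580229750) (nat_lit 532) (nat_lit 54724838924) (nat_lit 76) (nat_lit 2721835384) (nat_lit 206) (nat_lit 5) (nat_lit 213) (nat_lit 5) (nat_lit 207) (nat_lit 5) (nat_lit 468) (nat_lit 444) (nat_lit 288))) (XT.nd (nat_lit 78) (nat_lit 380) (nat_lit 0) (XT.lf (nat_lit 0) (nat_lit 8653329277) (nat_lit 380) (nat_lit 19741412560) (nat_lit 456) (nat_lit 39567528578) (nat_lit 201) (nat_lit 5) (nat_lit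 206) (nat_lit 5) (nat_lit 207) (nat_lit 5) (nat_lit 469) (nat_lit 444) (nat_lit 287)) (XT.lf (nat_lit 0) (nat_lit 6229511271) (nat_lit 380) (nat_lit 43846963619) (nat_lit 456) (nat_lit 19891635481) (nat_lit 196) (nat_lit 5) (nat_lit 201) (nat_lit 5) (nat_lit 202) (nat_lit 5) (nat_lit 470) (nat_lit 444) (nat_lit 286)))))) (XT.nd (nat_lit 468) (nat_lit 2128) (nat_lit 0) (XT.nd (nat_lit 234) (nat_lit 988) (nat_lit 0) (XT.nd (nat_lit 78) (nat_lit 380) (nat_lit 0) (XT.lf (nat_lit 0) (nat_lit 1629956023) (nat_lit 380) (nat_lit 67979798426) (nat_lit 76) (nat_lit 2437959785) (nat_lit 191) (nat_lit 5) (nat_lit 196) (nat_lit 5) (nat_lit 192) (nat_lit 5) (nat_lit 471) (nat_lit 444) (nat_lit 285)) (XT.nd (nat_lit 78) (nat_lit 0) (nat_lit 0) (XT.lf (nat_lit 0) (nat_lit 1766786811) (nat_lit 380) (nat_lit 23173330650) (nat_lit 456) (nat_lit 49251556154) (nat_lit 186) (nat_lit 5) (nat_lit 191) (nat_lit 5) (nat_lit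 192) (nat_lit 5) (nat_lit 472) (nat_lit 444) (nat_lit 284)) (XT.lf (nat_lit 0) (nat_lit 50366395854) (nat_lit 456) (nat_lit 256348694) (nat_lit 76) (nat_lit 25791568271) (nat_lit 186) (nat_lit 5) (nat_lit 192) (nat_lit 5) (nat_lit 187) (nat_lit 5) (nat_lit 473) (nat_lit 444) (nat_lit 283)))) (XT.nd (nat_lit 78) (nat_lit 684) (nat_lit 0) (XT.lf (nat_lit 0) (nat_lit 76782235329) (nat_lit 304) (nat_lit 1251772655) (nat_lit 380) (nat_lit 684975518) (nat_lit 182) (nat_lit 5) (nat_lit 186) (nat_lit 5) (nat_lit 187) (nat_lit 5) (nat_lit 474) (nat_lit 444) (nat_lit 282)) (XT.nd (nat_lit 78) (nat_lit 304) (nat_lit 0) (XT.lf (nat_lit 0) (nat_lit 26684658132) (nat_lit 380) (nat_lit 3799737460) (nat_lit 76) (nat_lit 50609664522) (nat_lit 177) (nat_lit 5) (nat_lit 182) (nat_lit 5) (nat_lit 178) (nat_lit 5) (nat_lit 475) (nat_lit 444) (nat_lit 281)) (XT.lf (nat_lit 0) (nat_lit 56407681859) (nat_lit 380) (nat_lit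 5329576667) (nat_lit 76) (nat_lit 21820456431) (nat_lit 173) (nat_lit 5) (nat_lit 178) (nat_lit 5) (nat_lit 174) (nat_lit 5) (nat_lit 476) (nat_lit 444) (nat_lit 280))))) (XT.nd (nat_lit 234) (nat_lit 1140) (nat_lit 0) (XT.nd (nat_lit 78) (nat_lit 608) (nat_lit 0) (XT.lf (nat_lit 0) (nat_lit 2564495986) (nat_lit 380) (nat_lit 6601709671) (nat_lit 76) (nat_lit 76944294747) (nat_lit 168) (nat_lit 5) (nat_lit 173) (nat_lit 5) (nat_lit 169) (nat_lit 5) (nat_lit 477) (nat_lit 444) (nat_lit 279)) (XT.nd (nat_lit 78) (nat_lit 304) (nat_lit 0) (XT.lf (nat_lit 0) (nat_lit 34496333570) (nat_lit 380) (nat_lit 7992328182) (nat_lit 76) (nat_lit 46255406503) (nat_lit 164) (nat_lit 5) (nat_lit 169) (nat_lit 5) (nat_lit 165) (nat_lit 5) (nat_lit 478) (nat_lit 444) (nat_lit 278)) (XT.lf (nat_lit 0) (nat_lit 69109537082) (nat_lit 380) (nat_lit 8991874360) (nat_lit 76) (nat_lit 13375359922) (nat_lit 160) (nat_lit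 5) (nat_lit 165) (nat_lit 5) (nat_lit 161) (nat_lit 5) (nat_lit 479) (nat_lit 444) (nat_lit 277)))) (XT.nd (nat_lit 156) (nat_lit 532) (nat_lit 0) (XT.nd (nat_lit 78) (nat_lit 304) (nat_lit 0) (XT.lf (nat_lit 0) (nat_lit 12226451787) (nat_lit 304) (nat_lit 9899750735) (nat_lit 76) (nat_lit 72176626965) (nat_lit 156) (nat_lit 5) (nat_lit 160) (nat_lit 5) (nat_lit 157) (nat_lit 5) (nat_lit 480) (nat_lit 444) (nat_lit 276)) (XT.lf (nat_lit 0) (nat_lit 49381993119) (nat_lit 380) (nat_lit 10745415427) (nat_lit 76) (nat_lit 37097295521) (nat_lit 152) (nat_lit 5) (nat_lit 157) (nat_lit 5) (nat_lit 153) (nat_lit 5) (nat_lit 481) (nat_lit 444) (nat_lit 275))) (XT.nd (nat_lit 78) (nat_lit 304) (nat_lit 0) (XT.lf (nat_lit 0) (nat_lit 89106500425) (nat_lit 228) (nat_lit 470033001) (nat_lit 304) (nat_lit 10680702365) (nat_lit 149) (nat_lit 5) (nat_lit 152) (nat_lit 5) (nat_lit 153) (nat_lit 5) (nat_lit 482)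 (nat_lit 444) (nat_lit 274)) (XT.lf (nat_lit 0) (nat_lit 29393652245) (nat_lit 304) (nat_lit 11751622561) (nat_lit 76) (nat_lit 62239729405) (nat_lit 145) (nat_lit 5) (nat_lit 149) (nat_lit 5) (nat_lit 146) (nat_lit 5) (nat_lit 483) (nat_lit 444) (nat_lit 273))))))) (XT.nd (nat_lit 59748) (nat_lit 0) (nat_lit 10108) (XT.nd (nat_lit 468) (nat_lit 684) (nat_lit 0) (XT.nd (nat_lit 234) (nat_lit 684) (nat_lit 0) (XT.nd (nat_lit 78) (nat_lit 532) (nat_lit 0) (XT.lf (nat_lit 0) (nat_lit 72500909550) (nat_lit 304) (nat_lit 11993060116) (nat_lit 76) (nat_lit 22134516615) (nat_lit 142) (nat_lit 5) (nat_lit 146) (nat_lit 5) (nat_lit 143) (nat_lit 5) (nat_lit 484) (nat_lit 444) (nat_lit 272)) (XT.nd (nat_lit 78) (nat_lit 228) (nat_lit 0) (XT.lf (nat_lit 0) (nat_lit 9071736794) (nat_lit 304) (nat_lit 12027373013) (nat_lit 76) (nat_lit 88888008387) (nat_lit 138) (nat_lit 5) (nat_lit 142) (nat_lit 5) (nat_lit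 139) (nat_lit 5) (nat_lit 485) (nat_lit 444) (nat_lit 271)) (XT.lf (nat_lit 0) (nat_lit 55284854032) (nat_lit 304) (nat_lit 12132582909) (nat_lit 76) (nat_lit 46039318451) (nat_lit 135) (nat_lit 5) (nat_lit 139) (nat_lit 5) (nat_lit 136) (nat_lit 5) (nat_lit 486) (nat_lit 444) (nat_lit 270)))) (XT.nd (nat_lit 78) (nat_lit 456) (nat_lit 0) (XT.lf (nat_lit 0) (nat_lit 105159537615) (nat_lit 304) (nat_lit 11723634510) (nat_lit 76) (nat_lit 176175064) (nat_lit 132) (nat_lit 5) (nat_lit 136) (nat_lit 5) (nat_lit 133) (nat_lit 5) (nat_lit 487) (nat_lit 444) (nat_lit 269)) (XT.nd (nat_lit 78) (nat_lit 228) (nat_lit 0) (XT.lf (nat_lit 0) (nat_lit 37846684008) (nat_lit 228) (nat_lit 11611058822) (nat_lit 76) (nat_lit 71317446250) (nat_lit 129) (nat_lit 5) (nat_lit 132) (nat_lit 5) (nat_lit 130) (nat_lit 5) (nat_lit 488) (nat_lit 444) (nat_lit 268)) (XT.lf (nat_lit 0) (nat_lit 91269159290) (nat_lit 304)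 (nat_lit 11090646811) (nat_lit 76) (nat_lit 22270439515) (nat_lit 126) (nat_lit 5) (nat_lit 130) (nat_lit 5) (nat_lit 127) (nat_lit 5) (nat_lit 489) (nat_lit 444) (nat_lit 267))))) (XT.nd (nat_lit 58968) (nat_lit 0) (nat_lit 14592) (XT.nd (nat_lit 78) (nat_lit 456) (nat_lit 0) (XT.lf (nat_lit 0) (nat_lit 20093485570) (nat_lit 228) (nat_lit 10500092934) (nat_lit 76) (nat_lit 98025886609) (nat_lit 123) (nat_lit 5) (nat_lit 126) (nat_lit 5) (nat_lit 124) (nat_lit 5) (nat_lit 490) (nat_lit 444) (nat_lit 266)) (XT.nd (nat_lit 78) (nat_lit 228) (nat_lit 0) (XT.lf (nat_lit 0) (nat_lit 77282823778) (nat_lit 304) (nat_lit 9922934517) (nat_lit 76) (nat_lit 45539918214) (nat_lit 120) (nat_lit 5) (nat_lit 124) (nat_lit 5) (nat_lit 121) (nat_lit 5) (nat_lit 491) (nat_lit 444) (nat_lit 265)) (XT.lf (nat_lit 0) (nat_lit 1913337748) (nat_lit 228) (nat_lit 8902738936) (nat_lit 76) (nat_lit 126212103165) (nat_lit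 117) (nat_lit 5) (nat_lit 120) (nat_lit 5) (nat_lit 118) (nat_lit 5) (nat_lit 492) (nat_lit 444) (nat_lit 264)))) (XT.nd (nat_lit 156) (nat_lit 0) (nat_lit 76) (XT.nd (nat_lit 78) (nat_lit 0) (nat_lit 76) (XT.lf (nat_lit 0) (nat_lit 9339003496) (nat_lit 1292) (nat_lit 4460482005) (nat_lit 1292) (nat_lit 4460482005) (nat_lit 309) (nat_lit 3) (nat_lit 326) (nat_lit 3) (nat_lit 326) (nat_lit 5) (nat_lit 445) (nat_lit 445) (nat_lit 310)) (XT.lf (nat_lit 0) (nat_lit 19455584963) (nat_lit 1216) (nat_lit 15755410068) (nat_lit 1292) (nat_lit 2212612085) (nat_lit 310) (nat_lit 5) (nat_lit 326) (nat_lit 5) (nat_lit 327) (nat_lit 5) (nat_lit 446) (nat_lit 445) (nat_lit 309))) (XT.nd (nat_lit 78) (nat_lit 0) (nat_lit 76) (XT.lf (nat_lit 76) (nat_lit 15626095250) (nat_lit 0) (nat_lit 5162309010) (nat_lit 1292) (nat_lit 17568568168) (nat_lit 311) (nat_lit 5) (nat_lit 310) (nat_lit 5) (nat_lit 327) (nat_lit 5)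 (nat_lit 447) (nat_lit 445) (nat_lit 308)) (XT.lf (nat_lit 76) (nat_lit 9500933102) (nat_lit 0) (nat_lit 13190807349) (nat_lit 1292) (nat_lit 16630149728) (nat_lit 312) (nat_lit 5) (nat_lit 311) (nat_lit 5) (nat_lit 328) (nat_lit 5) (nat_lit 448) (nat_lit 445) (nat_lit 307)))))) (XT.nd (nat_lit 546) (nat_lit 3724) (nat_lit 0) (XT.nd (nat_lit 234) (nat_lit 988) (nat_lit 0) (XT.nd (nat_lit 78) (nat_lit 0) (nat_lit 76) (XT.lf (nat_lit 76) (nat_lit 3320847675) (nat_lit 0) (nat_lit 21862841821) (nat_lit 1292) (nat_lit 15136561374) (nat_lit 313) (nat_lit 5) (nat_lit 312) (nat_lit 5) (nat_lit 329) (nat_lit 5) (nat_lit 449) (nat_lit 445) (nat_lit 306)) (XT.nd (nat_lit 78) (nat_lit 0) (nat_lit 76) (XT.lf (nat_lit 0) (nat_lit 28334234632) (nat_lit 1216) (nat_lit 2851011252) (nat_lit 1292) (nat_lit 10167264163) (nat_lit 313) (nat_lit 5) (nat_lit 329) (nat_lit 5) (nat_lit 330) (nat_lit 5) (nat_lit 450) (nat_lit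 445) (nat_lit 305)) (XT.lf (nat_lit 0) (nat_lit 32192141819) (nat_lit 1216) (nat_lit 8998714413) (nat_lit 1292) (nat_lit 1229031297) (nat_lit 314) (nat_lit 5) (nat_lit 330) (nat_lit 5) (nat_lit 331) (nat_lit 5) (nat_lit 451) (nat_lit 445) (nat_lit 304)))) (XT.nd (nat_lit 156) (nat_lit 1140) (nat_lit 0) (XT.nd (nat_lit 78) (nat_lit 0) (nat_lit 76) (XT.lf (nat_lit 76) (nat_lit 28260189293) (nat_lit 0) (nat_lit 8594730396) (nat_lit 1292) (nat_lit 6667355311) (nat_lit 315) (nat_lit 5) (nat_lit 314) (nat_lit 5) (nat_lit 331) (nat_lit 5) (nat_lit 452) (nat_lit 445) (nat_lit 303)) (XT.lf (nat_lit 76) (nat_lit 23093366854) (nat_lit 0) (nat_lit 19215488203) (nat_lit 1292) (nat_lit 2354186586) (nat_lit 316) (nat_lit 5) (nat_lit 315) (nat_lit 5) (nat_lit 332) (nat_lit 5) (nat_lit 453) (nat_lit 445) (nat_lit 302))) (XT.nd (nat_lit 78) (nat_lit 0) (nat_lit 76) (XT.lf (nat_lit 0) (nat_lit 2696743197) (nat_lit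 1292) (nat_lit 27927218038) (nat_lit 1368) (nat_lit 15219322460) (nat_lit 299) (nat_lit 5) (nat_lit 316) (nat_lit 5) (nat_lit 317) (nat_lit 5) (nat_lit 454) (nat_lit 445) (nat_lit 301)) (XT.lf (nat_lit 0) (nat_lit 8530586936) (nat_lit 1292) (nat_lit 34329604653) (nat_lit 76) (nat_lit 4204275642) (nat_lit 300) (nat_lit 5) (nat_lit 317) (nat_lit 5) (nat_lit 301) (nat_lit 5) (nat_lit 455) (nat_lit 445) (nat_lit 300))))) (XT.nd (nat_lit 234) (nat_lit 2356) (nat_lit 0) (XT.nd (nat_lit 78) (nat_lit 608) (nat_lit 0) (XT.lf (nat_lit 0) (nat_lit 7507017600) (nat_lit 836) (nat_lit 7817219121) (nat_lit 912) (nat_lit 33002430103) (nat_lit 289) (nat_lit 5) (nat_lit 300) (nat_lit 5) (nat_lit 301) (nat_lit 5) (nat_lit 456) (nat_lit 445) (nat_lit 299)) (XT.nd (nat_lit 78) (nat_lit 0) (nat_lit 0) (XT.lf (nat_lit 0) (nat_lit 2270636499) (nat_lit 608) (nat_lit 20840868714) (nat_lit 684) (nat_lit 26520853383) (nat_lit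 281) (nat_lit 5) (nat_lit 289) (nat_lit 5) (nat_lit 290) (nat_lit 5) (nat_lit 457) (nat_lit 445) (nat_lit 298)) (XT.lf (nat_lit 0) (nat_lit 31941885470) (nat_lit 684) (nat_lit 2862144891) (nat_lit 76) (nat_lit 16179692414) (nat_lit 281) (nat_lit 5) (nat_lit 290) (nat_lit 5) (nat_lit 282) (nat_lit 5) (nat_lit 458) (nat_lit 445) (nat_lit 297)))) (XT.nd (nat_lit 156) (nat_lit 1216) (nat_lit 0) (XT.nd (nat_lit 78) (nat_lit 532) (nat_lit 0) (XT.lf (nat_lit 0) (nat_lit 41874671419) (nat_lit 684) (nat_lit 7891455323) (nat_lit 76) (nat_lit 2616702078) (nat_lit 273) (nat_lit 5) (nat_lit 282) (nat_lit 5) (nat_lit 274) (nat_lit 5) (nat_lit 459) (nat_lit 445) (nat_lit 296)) (XT.lf (nat_lit 0) (nat_lit 40864234579) (nat_lit 532) (nat_lit 12210781240) (nat_lit 608) (nat_lit 753747021) (nat_lit 266) (nat_lit 5) (nat_lit 273) (nat_lit 5) (nat_lit 274) (nat_lit 5) (nat_lit 460) (nat_lit 445) (nat_lit 295))) (XT.nd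 (nat_lit 78) (nat_lit 532) (nat_lit 0) (XT.lf (nat_lit 0) (nat_lit 10010003010) (nat_lit 684) (nat_lit 18082862101) (nat_lit 76) (nat_lit 27230189281) (nat_lit 257) (nat_lit 5) (nat_lit 266) (nat_lit 5) (nat_lit 258) (nat_lit 5) (nat_lit 461) (nat_lit 445) (nat_lit 294)) (XT.lf (nat_lit 0) (nat_lit 21992519782) (nat_lit 608) (nat_lit 23125926607) (nat_lit 76) (nat_lit 11752505426) (nat_lit 250) (nat_lit 5) (nat_lit 258) (nat_lit 5) (nat_lit 251) (nat_lit 5) (nat_lit 462) (nat_lit 445) (nat_lit 293))))))))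
noncomputable def xc111 : XT := (XT.nd (nat_lit 2028) (nat_lit 912) (nat_lit 0) (XT.nd (nat_lit 1014) (nat_lit 3800) (nat_lit 0) (XT.nd (nat_lit 468) (nat_lit 2356) (nat_lit 0) (XT.nd (nat_lit 234) (nat_lit 1292) (nat_lit 0) (XT.nd (nat_lit 78) (nat_lit 988) (nat_lit 0) (XT.lf (nat_lit 0) (nat_lit 30355550227) (nat_lit 532) (nat_lit 4979305223) (nat_lit 608) (nat_lit 23138568074) (nat_lit 243) (nat_lit 5) (nat_lit 250) (nat_lit 5) (nat_lit 251) (nat_lit 5) (nat_lit 463) (nat_lit 445) (nat_lit 292)) (XT.nd (nat_lit 78) (nat_lit 532) (nat_lit 0) (XT.lf (nat_lit 0) (nat_lit 27010003082) (nat_lit 456) (nat_lit 23189083677) (nat_lit 532) (nat_lit 9931288888) (nat_lit 237) (nat_lit 5) (nat_lit 243) (nat_lit 5) (nat_lit 244) (nat_lit 5) (nat_lit 464) (nat_lit 445) (nat_lit 291)) (XT.lf (nat_lit 0) (nat_lit 4618354911) (nat_lit 532) (nat_lit 38045245140) (nat_lit 76) (nat_lit 19182675955) (nat_lit 230)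 (nat_lit 5) (nat_lit 237) (nat_lit 5) (nat_lit 231) (nat_lit 5) (nat_lit 465) (nat_lit 445) (nat_lit 290)))) (XT.nd (nat_lit 78) (nat_lit 836) (nat_lit 0) (XT.lf (nat_lit 0) (nat_lit 20468933623) (nat_lit 532) (nat_lit 42937826642) (nat_lit 76) (nat_lit 214895992) (nat_lit 224) (nat_lit 5) (nat_lit 231) (nat_lit 5) (nat_lit 225) (nat_lit 5) (nat_lit 466) (nat_lit 445) (nat_lit 289)) (XT.nd (nat_lit 78) (nat_lit 380) (nat_lit 0) (XT.lf (nat_lit 0) (nat_lit 17575961029) (nat_lit 456) (nat_lit 20528858008) (nat_lit 532) (nat_lit 27351203314) (nat_lit 218) (nat_lit 5) (nat_lit 224) (nat_lit 5) (nat_lit 225) (nat_lit 5) (nat_lit 467) (nat_lit 445) (nat_lit 288)) (XT.lf (nat_lit 0) (nat_lit 14687827854) (nat_lit 380) (nat_lit 42755454623) (nat_lit 456) (nat_lit 9914200918) (nat_lit 213) (nat_lit 5) (nat_lit 218) (nat_lit 5) (nat_lit 219) (nat_lit 5) (nat_lit 468) (nat_lit 445) (nat_lit 287))))) (XT.nd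 (nat_lit 234) (nat_lit 1064) (nat_lit 0) (XT.nd (nat_lit 78) (nat_lit 760) (nat_lit 0) (XT.lf (nat_lit 0) (nat_lit 9077043152) (nat_lit 532) (nat_lit 57371563126) (nat_lit 76) (nat_lit 2877604478) (nat_lit 206) (nat_lit 5) (nat_lit 213) (nat_lit 5) (nat_lit 207) (nat_lit 5) (nat_lit 469) (nat_lit 445) (nat_lit 286)) (XT.nd (nat_lit 78) (nat_lit 380) (nat_lit 0) (XT.lf (nat_lit 0) (nat_lit 9172947477) (nat_lit 380) (nat_lit 20706940536) (nat_lit 456) (nat_lit 41478529412) (nat_lit 201) (nat_lit 5) (nat_lit 206) (nat_lit 5) (nat_lit 207) (nat_lit 5) (nat_lit 470) (nat_lit 445) (nat_lit 285)) (XT.lf (nat_lit 0) (nat_lit 6627155111) (nat_lit 380) (nat_lit 46016463413) (nat_lit 456) (nat_lit 20820993735) (nat_lit 196) (nat_lit 5) (nat_lit 201) (nat_lit 5) (nat_lit 202) (nat_lit 5) (nat_lit 471) (nat_lit 445) (nat_lit 284)))) (XT.nd (nat_lit 156) (nat_lit 304) (nat_lit 0) (XT.nd (nat_lit 78) (nat_lit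 380) (nat_lit 0) (XT.lf (nat_lit 0) (nat_lit 1773398974) (nat_lit 380) (nat_lit 71292217779) (nat_lit 76) (nat_lit 2582621109) (nat_lit 191) (nat_lit 5) (nat_lit 196) (nat_lit 5) (nat_lit 192) (nat_lit 5) (nat_lit 472) (nat_lit 445) (nat_lit 283)) (XT.lf (nat_lit 0) (nat_lit 1939215192) (nat_lit 380) (nat_lit 24307711838) (nat_lit 456) (nat_lit 51652532602) (nat_lit 186) (nat_lit 5) (nat_lit 191) (nat_lit 5) (nat_lit 192) (nat_lit 5) (nat_lit 473) (nat_lit 445) (nat_lit 282))) (XT.nd (nat_lit 78) (nat_lit 304) (nat_lit 0) (XT.lf (nat_lit 0) (nat_lit 52941893876) (nat_lit 456) (nat_lit 187591596) (nat_lit 76) (nat_lit 27103824256) (nat_lit 186) (nat_lit 5) (nat_lit 192) (nat_lit 5) (nat_lit 187) (nat_lit 5) (nat_lit 474) (nat_lit 445) (nat_lit 281)) (XT.lf (nat_lit 0) (nat_lit 80700583311) (nat_lit 304) (nat_lit 1290342197) (nat_lit 380) (nat_lit 662347434) (nat_lit 182) (nat_lit 5) (nat_lit 186)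 (nat_lit 5) (nat_lit 187) (nat_lit 5) (nat_lit 475) (nat_lit 445) (nat_lit 280)))))) (XT.nd (nat_lit 468) (nat_lit 1824) (nat_lit 0) (XT.nd (nat_lit 234) (nat_lit 912) (nat_lit 0) (XT.nd (nat_lit 78) (nat_lit 684) (nat_lit 0) (XT.lf (nat_lit 0) (nat_lit 28072985157) (nat_lit 380) (nat_lit 3910291956) (nat_lit 76) (nat_lit 53163860203) (nat_lit 177) (nat_lit 5) (nat_lit 182) (nat_lit 5) (nat_lit 178) (nat_lit 5) (nat_lit 476) (nat_lit 445) (nat_lit 279)) (XT.nd (nat_lit 78) (nat_lit 380) (nat_lit 0) (XT.lf (nat_lit 0) (nat_lit 59280565137) (nat_lit 380) (nat_lit 5517568714) (nat_lit 76) (nat_lit 22935889040) (nat_lit 173) (nat_lit 5) (nat_lit 178) (nat_lit 5) (nat_lit 174) (nat_lit 5) (nat_lit 477) (nat_lit 445) (nat_lit 278)) (XT.lf (nat_lit 0) (nat_lit 2743957794) (nat_lit 380) (nat_lit 6854535835) (nat_lit 76) (nat_lit 80815992061) (nat_lit 168) (nat_lit 5) (nat_lit 173) (nat_lit 5) (nat_lit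 169) (nat_lit 5) (nat_lit 478) (nat_lit 445) (nat_lit 277)))) (XT.nd (nat_lit 78) (nat_lit 608) (nat_lit 0) (XT.lf (nat_lit 0) (nat_lit 36270914148) (nat_lit 380) (nat_lit 8315657213) (nat_lit 76) (nat_lit 48593204891) (nat_lit 164) (nat_lit 5) (nat_lit 169) (nat_lit 5) (nat_lit 165) (nat_lit 5) (nat_lit 479) (nat_lit 445) (nat_lit 276)) (XT.nd (nat_lit 78) (nat_lit 304) (nat_lit 0) (XT.lf (nat_lit 0) (nat_lit 72613370298) (nat_lit 380) (nat_lit 9366171758) (nat_lit 76) (nat_lit 14069614805) (nat_lit 160) (nat_lit 5) (nat_lit 165) (nat_lit 5) (nat_lit 161) (nat_lit 5) (nat_lit 480) (nat_lit 445) (nat_lit 275)) (XT.lf (nat_lit 0) (nat_lit 12884996261) (nat_lit 304) (nat_lit 10320658297) (nat_lit 76) (nat_lit 75810897545) (nat_lit 156) (nat_lit 5) (nat_lit 160) (nat_lit 5) (nat_lit 157) (nat_lit 5) (nat_lit 481) (nat_lit 445) (nat_lit 274))))) (XT.nd (nat_lit 234) (nat_lit 988) (nat_lit 0) (XT.nd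 (nat_lit 78) (nat_lit 532) (nat_lit 0) (XT.lf (nat_lit 0) (nat_lit 51897010419) (nat_lit 380) (nat_lit 11209610398) (nat_lit 76) (nat_lit 38977938827) (nat_lit 152) (nat_lit 5) (nat_lit 157) (nat_lit 5) (nat_lit 153) (nat_lit 5) (nat_lit 482) (nat_lit 445) (nat_lit 273)) (XT.nd (nat_lit 78) (nat_lit 304) (nat_lit 0) (XT.lf (nat_lit 0) (nat_lit 93632806543) (nat_lit 228) (nat_lit 466966958) (nat_lit 304) (nat_lit 11168989681) (nat_lit 149) (nat_lit 5) (nat_lit 152) (nat_lit 5) (nat_lit 153) (nat_lit 5) (nat_lit 483) (nat_lit 445) (nat_lit 272)) (XT.lf (nat_lit 0) (nat_lit 30906979122) (nat_lit 304) (nat_lit 12268338715) (nat_lit 76) (nat_lit 65377625411) (nat_lit 145) (nat_lit 5) (nat_lit 149) (nat_lit 5) (nat_lit 146) (nat_lit 5) (nat_lit 484) (nat_lit 445) (nat_lit 271)))) (XT.nd (nat_lit 156) (nat_lit 456) (nat_lit 0) (XT.nd (nat_lit 78) (nat_lit 304) (nat_lit 0) (XT.lf (nat_lit 0) (nat_lit 76168438418)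 (nat_lit 304) (nat_lit 12522866644) (nat_lit 76) (nat_lit 23267329273) (nat_lit 142) (nat_lit 5) (nat_lit 146) (nat_lit 5) (nat_lit 143) (nat_lit 5) (nat_lit 485) (nat_lit 445) (nat_lit 270)) (XT.lf (nat_lit 0) (nat_lit 9566844863) (nat_lit 304) (nat_lit 12560069342) (nat_lit 76) (nat_lit 93358312636) (nat_lit 138) (nat_lit 5) (nat_lit 142) (nat_lit 5) (nat_lit 139) (nat_lit 5) (nat_lit 486) (nat_lit 445) (nat_lit 269))) (XT.nd (nat_lit 78) (nat_lit 228) (nat_lit 0) (XT.lf (nat_lit 0) (nat_lit 58089536873) (nat_lit 304) (nat_lit 12671556020) (nat_lit 76) (nat_lit 48367285516) (nat_lit 135) (nat_lit 5) (nat_lit 139) (nat_lit 5) (nat_lit 136) (nat_lit 5) (nat_lit 487) (nat_lit 445) (nat_lit 268)) (XT.lf (nat_lit 0) (nat_lit 110456916036) (nat_lit 304) (nat_lit 12243179102) (nat_lit 76) (nat_lit 211035891) (nat_lit 132) (nat_lit 5) (nat_lit 136) (nat_lit 5) (nat_lit 133) (nat_lit 5) (nat_lit 488)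 (nat_lit 445) (nat_lit 267))))))) (XT.nd (nat_lit 59826) (nat_lit 0) (nat_lit 7448) (XT.nd (nat_lit 59280) (nat_lit 0) (nat_lit 14440) (XT.nd (nat_lit 234) (nat_lit 228) (nat_lit 0) (XT.nd (nat_lit 78) (nat_lit 456) (nat_lit 0) (XT.lf (nat_lit 0) (nat_lit 39777544755) (nat_lit 228) (nat_lit 12126116653) (nat_lit 76) (nat_lit 74909129967) (nat_lit 129) (nat_lit 5) (nat_lit 132) (nat_lit 5) (nat_lit 130) (nat_lit 5) (nat_lit 489) (nat_lit 445) (nat_lit 266)) (XT.nd (nat_lit 78) (nat_lit 228) (nat_lit 0) (XT.lf (nat_lit 0) (nat_lit 95870173684) (nat_lit 304) (nat_lit 11580693990) (nat_lit 76) (nat_lit 23409762231) (nat_lit 126) (nat_lit 5) (nat_lit 130) (nat_lit 5) (nat_lit 127) (nat_lit 5) (nat_lit 490) (nat_lit 445) (nat_lit 265)) (XT.lf (nat_lit 0) (nat_lit 21134891292) (nat_lit 228) (nat_lit 10961728645) (nat_lit 76) (nat_lit 102952715288) (nat_lit 123) (nat_lit 5) (nat_lit 126) (nat_lit 5) (nat_lit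 124) (nat_lit 5) (nat_lit 491) (nat_lit 445) (nat_lit 264)))) (XT.nd (nat_lit 58890) (nat_lit 0) (nat_lit 14364) (XT.lf (nat_lit 0) (nat_lit 81182788695) (nat_lit 304) (nat_lit 10356710123) (nat_lit 76) (nat_lit 47842385662) (nat_lit 120) (nat_lit 5) (nat_lit 124) (nat_lit 5) (nat_lit 121) (nat_lit 5) (nat_lit 492) (nat_lit 445) (nat_lit 263)) (XT.nd (nat_lit 78) (nat_lit 0) (nat_lit 76) (XT.lf (nat_lit 0) (nat_lit 9885130670) (nat_lit 1292) (nat_lit 4642726290) (nat_lit 1292) (nat_lit 4642726290) (nat_lit 309) (nat_lit 3) (nat_lit 326) (nat_lit 3) (nat_lit 326) (nat_lit 5) (nat_lit 446) (nat_lit 446) (nat_lit 308)) (XT.lf (nat_lit 0) (nat_lit 20579243567) (nat_lit 1216) (nat_lit 16458702133) (nat_lit 1292) (nat_lit 2252301442) (nat_lit 310) (nat_lit 5) (nat_lit 326) (nat_lit 5) (nat_lit 327) (nat_lit 5) (nat_lit 447) (nat_lit 446) (nat_lit 307))))) (XT.nd (nat_lit 234) (nat_lit 0) (nat_lit 228)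 (XT.nd (nat_lit 78) (nat_lit 0) (nat_lit 76) (XT.lf (nat_lit 76) (nat_lit 16489456893) (nat_lit 0) (nat_lit 5482850985) (nat_lit 1292) (nat_lit 18298165384) (nat_lit 311) (nat_lit 5) (nat_lit 310) (nat_lit 5) (nat_lit 327) (nat_lit 5) (nat_lit 448) (nat_lit 446) (nat_lit 306)) (XT.nd (nat_lit 78) (nat_lit 0) (nat_lit 76) (XT.lf (nat_lit 76) (nat_lit 10060490534) (nat_lit 0) (nat_lit 13903681047) (nat_lit 1292) (nat_lit 17319665133) (nat_lit 312) (nat_lit 5) (nat_lit 311) (nat_lit 5) (nat_lit 328) (nat_lit 5) (nat_lit 449) (nat_lit 446) (nat_lit 305)) (XT.lf (nat_lit 76) (nat_lit 3573505402) (nat_lit 0) (nat_lit 23000993010) (nat_lit 1292) (nat_lit 15757804218) (nat_lit 313) (nat_lit 5) (nat_lit 312) (nat_lit 5) (nat_lit 329) (nat_lit 5) (nat_lit 450) (nat_lit 446) (nat_lit 304)))) (XT.nd (nat_lit 156) (nat_lit 0) (nat_lit 76) (XT.nd (nat_lit 78) (nat_lit 0) (nat_lit 76) (XT.lf (nat_lit 0) (nat_lit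 29875890922) (nat_lit 1216) (nat_lit 2906886785) (nat_lit 1292) (nat_lit 10633598029) (nat_lit 313) (nat_lit 5) (nat_lit 329) (nat_lit 5) (nat_lit 330) (nat_lit 5) (nat_lit 451) (nat_lit 446) (nat_lit 303)) (XT.lf (nat_lit 0) (nat_lit 33921210679) (nat_lit 1216) (nat_lit 9360512234) (nat_lit 1292) (nat_lit 1255564211) (nat_lit 314) (nat_lit 5) (nat_lit 330) (nat_lit 5) (nat_lit 331) (nat_lit 5) (nat_lit 452) (nat_lit 446) (nat_lit 302))) (XT.nd (nat_lit 78) (nat_lit 0) (nat_lit 76) (XT.lf (nat_lit 76) (nat_lit 29758810203) (nat_lit 0) (nat_lit 9053451534) (nat_lit 1292) (nat_lit 6882678724) (nat_lit 315) (nat_lit 5) (nat_lit 314) (nat_lit 5) (nat_lit 331) (nat_lit 5) (nat_lit 453) (nat_lit 446) (nat_lit 301)) (XT.lf (nat_lit 76) (nat_lit 24334812684) (nat_lit 0) (nat_lit 20199193041) (nat_lit 1292) (nat_lit 2358886850) (nat_lit 316) (nat_lit 5) (nat_lit 315) (nat_lit 5) (nat_lit 332) (nat_lit 5)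 (nat_lit 454) (nat_lit 446) (nat_lit 300)))))) (XT.nd (nat_lit 546) (nat_lit 3648) (nat_lit 0) (XT.nd (nat_lit 234) (nat_lit 1748) (nat_lit 0) (XT.nd (nat_lit 78) (nat_lit 760) (nat_lit 0) (XT.lf (nat_lit 0) (nat_lit 2937747307) (nat_lit 1292) (nat_lit 29233746189) (nat_lit 1368) (nat_lit 15960760209) (nat_lit 299) (nat_lit 5) (nat_lit 316) (nat_lit 5) (nat_lit 317) (nat_lit 5) (nat_lit 455) (nat_lit 446) (nat_lit 299)) (XT.nd (nat_lit 78) (nat_lit 836) (nat_lit 0) (XT.lf (nat_lit 0) (nat_lit 9058925206) (nat_lit 1292) (nat_lit 35955618705) (nat_lit 76) (nat_lit 4400083684) (nat_lit 300) (nat_lit 5) (nat_lit 317) (nat_lit 5) (nat_lit 301) (nat_lit 5) (nat_lit 456) (nat_lit 446) (nat_lit 298)) (XT.lf (nat_lit 0) (nat_lit 7970241466) (nat_lit 836) (nat_lit 8218012659) (nat_lit 912) (nat_lit 34551803559) (nat_lit 289) (nat_lit 5) (nat_lit 300) (nat_lit 5) (nat_lit 301) (nat_lit 5) (nat_lit 457) (nat_lit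 446) (nat_lit 297)))) (XT.nd (nat_lit 156) (nat_lit 1140) (nat_lit 0) (XT.nd (nat_lit 78) (nat_lit 0) (nat_lit 0) (XT.lf (nat_lit 0) (nat_lit 2472473325) (nat_lit 608) (nat_lit 21888513219) (nat_lit 684) (nat_lit 27750164881) (nat_lit 281) (nat_lit 5) (nat_lit 289) (nat_lit 5) (nat_lit 290) (nat_lit 5) (nat_lit 458) (nat_lit 446) (nat_lit 296)) (XT.lf (nat_lit 0) (nat_lit 33628362819) (nat_lit 684) (nat_lit 2918410286) (nat_lit 76) (nat_lit 16983446775) (nat_lit 281) (nat_lit 5) (nat_lit 290) (nat_lit 5) (nat_lit 282) (nat_lit 5) (nat_lit 459) (nat_lit 446) (nat_lit 295))) (XT.nd (nat_lit 78) (nat_lit 532) (nat_lit 0) (XT.lf (nat_lit 0) (nat_lit 44054327341) (nat_lit 684) (nat_lit 8199074998) (nat_lit 76) (nat_lit 2745983071) (nat_lit 273) (nat_lit 5) (nat_lit 282) (nat_lit 5) (nat_lit 274) (nat_lit 5) (nat_lit 460) (nat_lit 446) (nat_lit 294)) (XT.lf (nat_lit 0) (nat_lit 42991906907) (nat_lit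 532) (nat_lit 12819502400) (nat_lit 608) (nat_lit 706305554) (nat_lit 266) (nat_lit 5) (nat_lit 273) (nat_lit 5) (nat_lit 274) (nat_lit 5) (nat_lit 461) (nat_lit 446) (nat_lit 293))))) (XT.nd (nat_lit 234) (nat_lit 1900) (nat_lit 0) (XT.nd (nat_lit 78) (nat_lit 1064) (nat_lit 0) (XT.lf (nat_lit 0) (nat_lit 10590832667) (nat_lit 684) (nat_lit 18900962731) (nat_lit 76) (nat_lit 28594995503) (nat_lit 257) (nat_lit 5) (nat_lit 266) (nat_lit 5) (nat_lit 258) (nat_lit 5) (nat_lit 462) (nat_lit 446) (nat_lit 292)) (XT.nd (nat_lit 78) (nat_lit 532) (nat_lit 0) (XT.lf (nat_lit 0) (nat_lit 23169513703) (nat_lit 608) (nat_lit 24196381855) (nat_lit 76) (nat_lit 12346276786) (nat_lit 250) (nat_lit 5) (nat_lit 258) (nat_lit 5) (nat_lit 251) (nat_lit 5) (nat_lit 463) (nat_lit 446) (nat_lit 291)) (XT.lf (nat_lit 0) (nat_lit 31956708203) (nat_lit 532) (nat_lit 5219375267) (nat_lit 608) (nat_lit 24218770935) (nat_lit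 243) (nat_lit 5) (nat_lit 250) (nat_lit 5) (nat_lit 251) (nat_lit 5) (nat_lit 464) (nat_lit 446) (nat_lit 290)))) (XT.nd (nat_lit 156) (nat_lit 912) (nat_lit 0) (XT.nd (nat_lit 78) (nat_lit 532) (nat_lit 0) (XT.lf (nat_lit 0) (nat_lit 28443586638) (nat_lit 456) (nat_lit 24337272874) (nat_lit 532) (nat_lit 10353874901) (nat_lit 237) (nat_lit 5) (nat_lit 243) (nat_lit 5) (nat_lit 244) (nat_lit 5) (nat_lit 465) (nat_lit 446) (nat_lit 289)) (XT.lf (nat_lit 0) (nat_lit 4919260395) (nat_lit 532) (nat_lit 39863414702) (nat_lit 76) (nat_lit 20153810026) (nat_lit 230) (nat_lit 5) (nat_lit 237) (nat_lit 5) (nat_lit 231) (nat_lit 5) (nat_lit 466) (nat_lit 446) (nat_lit 288))) (XT.nd (nat_lit 78) (nat_lit 456) (nat_lit 0) (XT.lf (nat_lit 0) (nat_lit 21559957376) (nat_lit 532) (nat_lit 45001144666) (nat_lit 76) (nat_lit 239604905) (nat_lit 224) (nat_lit 5) (nat_lit 231) (nat_lit 5) (nat_lit 225) (nat_lit 5)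 (nat_lit 467) (nat_lit 446) (nat_lit 287)) (XT.lf (nat_lit 0) (nat_lit 18535936777) (nat_lit 456) (nat_lit 21539262658) (nat_lit 532) (nat_lit 28651665269) (nat_lit 218) (nat_lit 5) (nat_lit 224) (nat_lit 5) (nat_lit 225) (nat_lit 5) (nat_lit 468) (nat_lit 446) (nat_lit 286))))))))
noncomputable def xc112 : XT := (XT.nd (nat_lit 60996) (nat_lit 0) (nat_lit 4560) (XT.nd (nat_lit 1014) (nat_lit 2584) (nat_lit 0) (XT.nd (nat_lit 468) (nat_lit 1976) (nat_lit 0) (XT.nd (nat_lit 234) (nat_lit 1140) (nat_lit 0) (XT.nd (nat_lit 78) (nat_lit 912) (nat_lit 0) (XT.lf (nat_lit 0) (nat_lit 15502822868) (nat_lit 380) (nat_lit 44875582939) (nat_lit 456) (nat_lit 10345058618) (nat_lit 213) (nat_lit 5) (nat_lit 218) (nat_lit 5) (nat_lit 219) (nat_lit 5) (nat_lit 469) (nat_lit 446) (nat_lit 285)) (XT.nd (nat_lit 78) (nat_lit 380) (nat_lit 0) (XT.lf (nat_lit 0) (nat_lit 9592393645) (nat_lit 532) (nat_lit 60158946049)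 (nat_lit 76) (nat_lit 3039332615) (nat_lit 206) (nat_lit 5) (nat_lit 213) (nat_lit 5) (nat_lit 207) (nat_lit 5) (nat_lit 470) (nat_lit 446) (nat_lit 284)) (XT.lf (nat_lit 0) (nat_lit 9710462640) (nat_lit 380) (nat_lit 21722747743) (nat_lit 456) (nat_lit 43491344232) (nat_lit 201) (nat_lit 5) (nat_lit 206) (nat_lit 5) (nat_lit 207) (nat_lit 5) (nat_lit 471) (nat_lit 446) (nat_lit 283)))) (XT.nd (nat_lit 78) (nat_lit 760) (nat_lit 0) (XT.lf (nat_lit 0) (nat_lit 7036670034) (nat_lit 380) (nat_lit 48296562422) (nat_lit 456) (nat_lit 21802883765) (nat_lit 196) (nat_lit 5) (nat_lit 201) (nat_lit 5) (nat_lit 202) (nat_lit 5) (nat_lit 472) (nat_lit 446) (nat_lit 282)) (XT.nd (nat_lit 78) (nat_lit 380) (nat_lit 0) (XT.lf (nat_lit 0) (nat_lit 1918254999) (nat_lit 380) (nat_lit 74778306610) (nat_lit 76) (nat_lit 2732399179) (nat_lit 191) (nat_lit 5) (nat_lit 196) (nat_lit 5) (nat_lit 192) (nat_lit 5) (nat_lit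 473) (nat_lit 446) (nat_lit 281)) (XT.lf (nat_lit 0) (nat_lit 2112447190) (nat_lit 380) (nat_lit 25501069905) (nat_lit 456) (nat_lit 54179284982) (nat_lit 186) (nat_lit 5) (nat_lit 191) (nat_lit 5) (nat_lit 192) (nat_lit 5) (nat_lit 474) (nat_lit 446) (nat_lit 280))))) (XT.nd (nat_lit 234) (nat_lit 1292) (nat_lit 0) (XT.nd (nat_lit 78) (nat_lit 684) (nat_lit 0) (XT.lf (nat_lit 0) (nat_lit 55640850910) (nat_lit 456) (nat_lit 122980670) (nat_lit 76) (nat_lit 28479584695) (nat_lit 186) (nat_lit 5) (nat_lit 192) (nat_lit 5) (nat_lit 187) (nat_lit 5) (nat_lit 475) (nat_lit 446) (nat_lit 279)) (XT.nd (nat_lit 78) (nat_lit 380) (nat_lit 0) (XT.lf (nat_lit 0) (nat_lit 84807482059) (nat_lit 304) (nat_lit 1333073283) (nat_lit 380) (nat_lit 643875817) (nat_lit 182) (nat_lit 5) (nat_lit 186) (nat_lit 5) (nat_lit 187) (nat_lit 5) (nat_lit 476) (nat_lit 446) (nat_lit 278)) (XT.lf (nat_lit 0) (nat_lit 29525699375)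 (nat_lit 380) (nat_lit 4033759047) (nat_lit 76) (nat_lit 55843561109) (nat_lit 177) (nat_lit 5) (nat_lit 182) (nat_lit 5) (nat_lit 178) (nat_lit 5) (nat_lit 477) (nat_lit 446) (nat_lit 277)))) (XT.nd (nat_lit 156) (nat_lit 608) (nat_lit 0) (XT.nd (nat_lit 78) (nat_lit 380) (nat_lit 0) (XT.lf (nat_lit 0) (nat_lit 62292211703) (nat_lit 380) (nat_lit 5722257321) (nat_lit 76) (nat_lit 24104823889) (nat_lit 173) (nat_lit 5) (nat_lit 178) (nat_lit 5) (nat_lit 174) (nat_lit 5) (nat_lit 478) (nat_lit 446) (nat_lit 276)) (XT.lf (nat_lit 0) (nat_lit 2927629160) (nat_lit 380) (nat_lit 7127186147) (nat_lit 76) (nat_lit 84878998083) (nat_lit 168) (nat_lit 5) (nat_lit 173) (nat_lit 5) (nat_lit 169) (nat_lit 5) (nat_lit 479) (nat_lit 446) (nat_lit 275))) (XT.nd (nat_lit 78) (nat_lit 304) (nat_lit 0) (XT.lf (nat_lit 0) (nat_lit 38129597179) (nat_lit 380) (nat_lit 8662245172) (nat_lit 76) (nat_lit 51045566326)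 (nat_lit 164) (nat_lit 5) (nat_lit 169) (nat_lit 5) (nat_lit 165) (nat_lit 5) (nat_lit 480) (nat_lit 446) (nat_lit 274)) (XT.lf (nat_lit 0) (nat_lit 76287899458) (nat_lit 380) (nat_lit 9766184364) (nat_lit 76) (nat_lit 14796212902) (nat_lit 160) (nat_lit 5) (nat_lit 165) (nat_lit 5) (nat_lit 161) (nat_lit 5) (nat_lit 481) (nat_lit 446) (nat_lit 273)))))) (XT.nd (nat_lit 468) (nat_lit 912) (nat_lit 0) (XT.nd (nat_lit 234) (nat_lit 836) (nat_lit 0) (XT.nd (nat_lit 78) (nat_lit 532) (nat_lit 0) (XT.lf (nat_lit 0) (nat_lit 13572077717) (nat_lit 304) (nat_lit 10769498491) (nat_lit 76) (nat_lit 79624516555) (nat_lit 156) (nat_lit 5) (nat_lit 160) (nat_lit 5) (nat_lit 157) (nat_lit 5) (nat_lit 482) (nat_lit 446) (nat_lit 272)) (XT.nd (nat_lit 78) (nat_lit 228) (nat_lit 0) (XT.lf (nat_lit 0) (nat_lit 54533509598) (nat_lit 380) (nat_lit 11703809014) (nat_lit 76) (nat_lit 40950217655) (nat_lit 152) (nat_lit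 5) (nat_lit 157) (nat_lit 5) (nat_lit 153) (nat_lit 5) (nat_lit 483) (nat_lit 446) (nat_lit 271)) (XT.lf (nat_lit 0) (nat_lit 98378828817) (nat_lit 228) (nat_lit 466217625) (nat_lit 304) (nat_lit 11685944560) (nat_lit 149) (nat_lit 5) (nat_lit 152) (nat_lit 5) (nat_lit 153) (nat_lit 5) (nat_lit 484) (nat_lit 446) (nat_lit 270)))) (XT.nd (nat_lit 78) (nat_lit 532) (nat_lit 0) (XT.lf (nat_lit 0) (nat_lit 32491914712) (nat_lit 304) (nat_lit 12817479031) (nat_lit 76) (nat_lit 68670007394) (nat_lit 145) (nat_lit 5) (nat_lit 149) (nat_lit 5) (nat_lit 146) (nat_lit 5) (nat_lit 485) (nat_lit 446) (nat_lit 269)) (XT.nd (nat_lit 78) (nat_lit 304) (nat_lit 0) (XT.lf (nat_lit 0) (nat_lit 80015394027) (nat_lit 304) (nat_lit 13085657162) (nat_lit 76) (nat_lit 24454357258) (nat_lit 142) (nat_lit 5) (nat_lit 146) (nat_lit 5) (nat_lit 143) (nat_lit 5) (nat_lit 486) (nat_lit 446) (nat_lit 268)) (XT.lf (nat_lit 0)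 (nat_lit 10082848085) (nat_lit 304) (nat_lit 13125784989) (nat_lit 76) (nat_lit 98049723805) (nat_lit 138) (nat_lit 5) (nat_lit 142) (nat_lit 5) (nat_lit 139) (nat_lit 5) (nat_lit 487) (nat_lit 446) (nat_lit 267))))) (XT.nd (nat_lit 234) (nat_lit 228) (nat_lit 0) (XT.nd (nat_lit 78) (nat_lit 456) (nat_lit 0) (XT.lf (nat_lit 0) (nat_lit 61030694116) (nat_lit 304) (nat_lit 13243767803) (nat_lit 76) (nat_lit 50809233596) (nat_lit 135) (nat_lit 5) (nat_lit 139) (nat_lit 5) (nat_lit 136) (nat_lit 5) (nat_lit 488) (nat_lit 446) (nat_lit 266)) (XT.nd (nat_lit 78) (nat_lit 228) (nat_lit 0) (XT.lf (nat_lit 0) (nat_lit 116015500196) (nat_lit 304) (nat_lit 12794896212) (nat_lit 76) (nat_lit 245217684) (nat_lit 132) (nat_lit 5) (nat_lit 136) (nat_lit 5) (nat_lit 133) (nat_lit 5) (nat_lit 489) (nat_lit 446) (nat_lit 265)) (XT.lf (nat_lit 0) (nat_lit 41801366706) (nat_lit 228) (nat_lit 12673016489) (nat_lit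 76) (nat_lit 78677998171) (nat_lit 129) (nat_lit 5) (nat_lit 132) (nat_lit 5) (nat_lit 130) (nat_lit 5) (nat_lit 490) (nat_lit 446) (nat_lit 264)))) (XT.nd (nat_lit 59124) (nat_lit 0) (nat_lit 13984) (XT.nd (nat_lit 59046) (nat_lit 0) (nat_lit 13908) (XT.lf (nat_lit 0) (nat_lit 100697747157) (nat_lit 304) (nat_lit 12101238748) (nat_lit 76) (nat_lit 24603652375) (nat_lit 126) (nat_lit 5) (nat_lit 130) (nat_lit 5) (nat_lit 127) (nat_lit 5) (nat_lit 491) (nat_lit 446) (nat_lit 263)) (XT.lf (nat_lit 0) (nat_lit 10451203075) (nat_lit 1292) (nat_lit 4837874109) (nat_lit 1292) (nat_lit 4837874109) (nat_lit 309) (nat_lit 3) (nat_lit 326) (nat_lit 3) (nat_lit 326) (nat_lit 5) (nat_lit 447) (nat_lit 447) (nat_lit 306))) (XT.nd (nat_lit 78) (nat_lit 0) (nat_lit 0) (XT.lf (nat_lit 0) (nat_lit 21745057769) (nat_lit 1216) (nat_lit 17205012806) (nat_lit 1292) (nat_lit 2300570712) (nat_lit 310) (nat_lit 5) (nat_lit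 326) (nat_lit 5) (nat_lit 327) (nat_lit 5) (nat_lit 448) (nat_lit 447) (nat_lit 305)) (XT.lf (nat_lit 76) (nat_lit 17388357748) (nat_lit 0) (nat_lit 5813616233) (nat_lit 1292) (nat_lit 19078079374) (nat_lit 311) (nat_lit 5) (nat_lit 310) (nat_lit 5) (nat_lit 327) (nat_lit 5) (nat_lit 449) (nat_lit 447) (nat_lit 304))))))) (XT.nd (nat_lit 1014) (nat_lit 6080) (nat_lit 0) (XT.nd (nat_lit 468) (nat_lit 3420) (nat_lit 0) (XT.nd (nat_lit 234) (nat_lit 0) (nat_lit 228) (XT.nd (nat_lit 78) (nat_lit 0) (nat_lit 76) (XT.lf (nat_lit 76) (nat_lit 10640168826) (nat_lit 0) (nat_lit 14647240002) (nat_lit 1292) (nat_lit 18056857386) (nat_lit 312) (nat_lit 5) (nat_lit 311) (nat_lit 5) (nat_lit 328) (nat_lit 5) (nat_lit 450) (nat_lit 447) (nat_lit 303)) (XT.nd (nat_lit 78) (nat_lit 0) (nat_lit 76) (XT.lf (nat_lit 76) (nat_lit 3830743342) (nat_lit 0) (nat_lit 24191867239) (nat_lit 1292) (nat_lit 16422714634) (nat_lit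 313) (nat_lit 5) (nat_lit 312) (nat_lit 5) (nat_lit 329) (nat_lit 5) (nat_lit 451) (nat_lit 447) (nat_lit 302)) (XT.lf (nat_lit 0) (nat_lit 31483013865) (nat_lit 1216) (nat_lit 2973614317) (nat_lit 1292) (nat_lit 11127156079) (nat_lit 313) (nat_lit 5) (nat_lit 329) (nat_lit 5) (nat_lit 330) (nat_lit 5) (nat_lit 452) (nat_lit 447) (nat_lit 301)))) (XT.nd (nat_lit 78) (nat_lit 0) (nat_lit 0) (XT.lf (nat_lit 0) (nat_lit 35725626558) (nat_lit 1216) (nat_lit 9748594173) (nat_lit 1292) (nat_lit 1286670176) (nat_lit 314) (nat_lit 5) (nat_lit 330) (nat_lit 5) (nat_lit 331) (nat_lit 5) (nat_lit 453) (nat_lit 447) (nat_lit 300)) (XT.nd (nat_lit 78) (nat_lit 0) (nat_lit 76) (XT.lf (nat_lit 76) (nat_lit 31324402816) (nat_lit 0) (nat_lit 9532414013) (nat_lit 1292) (nat_lit 7119742952) (nat_lit 315) (nat_lit 5) (nat_lit 314) (nat_lit 5) (nat_lit 331) (nat_lit 5) (nat_lit 454) (nat_lit 447) (nat_lit 299)) (XT.lf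 (nat_lit 76) (nat_lit 25630263057) (nat_lit 0) (nat_lit 21229951267) (nat_lit 1292) (nat_lit 2374328638) (nat_lit 316) (nat_lit 5) (nat_lit 315) (nat_lit 5) (nat_lit 332) (nat_lit 5) (nat_lit 455) (nat_lit 447) (nat_lit 298))))) (XT.nd (nat_lit 234) (nat_lit 1748) (nat_lit 0) (XT.nd (nat_lit 78) (nat_lit 760) (nat_lit 0) (XT.lf (nat_lit 0) (nat_lit 3180931226) (nat_lit 1292) (nat_lit 30613952545) (nat_lit 1368) (nat_lit 16741085409) (nat_lit 299) (nat_lit 5) (nat_lit 316) (nat_lit 5) (nat_lit 317) (nat_lit 5) (nat_lit 456) (nat_lit 447) (nat_lit 297)) (XT.nd (nat_lit 78) (nat_lit 836) (nat_lit 0) (XT.lf (nat_lit 0) (nat_lit 9604215161) (nat_lit 1292) (nat_lit 37671344147) (nat_lit 76) (nat_lit 4607021438) (nat_lit 300) (nat_lit 5) (nat_lit 317) (nat_lit 5) (nat_lit 301) (nat_lit 5) (nat_lit 457) (nat_lit 447) (nat_lit 296)) (XT.lf (nat_lit 0) (nat_lit 8448456928) (nat_lit 836) (nat_lit 8637922437)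 (nat_lit 912) (nat_lit 36188012287) (nat_lit 289) (nat_lit 5) (nat_lit 300) (nat_lit 5) (nat_lit 301) (nat_lit 5) (nat_lit 458) (nat_lit 447) (nat_lit 295)))) (XT.nd (nat_lit 156) (nat_lit 1140) (nat_lit 0) (XT.nd (nat_lit 78) (nat_lit 0) (nat_lit 0) (XT.lf (nat_lit 0) (nat_lit 2676192231) (nat_lit 608) (nat_lit 22988019214) (nat_lit 684) (nat_lit 29049935102) (nat_lit 281) (nat_lit 5) (nat_lit 289) (nat_lit 5) (nat_lit 290) (nat_lit 5) (nat_lit 459) (nat_lit 447) (nat_lit 294)) (XT.lf (nat_lit 0) (nat_lit 35390854045) (nat_lit 684) (nat_lit 2985562683) (nat_lit 76) (nat_lit 17827875115) (nat_lit 281) (nat_lit 5) (nat_lit 290) (nat_lit 5) (nat_lit 282) (nat_lit 5) (nat_lit 460) (nat_lit 447) (nat_lit 293))) (XT.nd (nat_lit 78) (nat_lit 532) (nat_lit 0) (XT.lf (nat_lit 0) (nat_lit 46334977813) (nat_lit 684) (nat_lit 8530159731) (nat_lit 76) (nat_lit 2881872599) (nat_lit 273) (nat_lit 5) (nat_lit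 282) (nat_lit 5) (nat_lit 274) (nat_lit 5) (nat_lit 461) (nat_lit 447) (nat_lit 292)) (XT.lf (nat_lit 0) (nat_lit 45218110505) (nat_lit 532) (nat_lit 13458828630) (nat_lit 608) (nat_lit 664406484) (nat_lit 266) (nat_lit 5) (nat_lit 273) (nat_lit 5) (nat_lit 274) (nat_lit 5) (nat_lit 462) (nat_lit 447) (nat_lit 291)))))) (XT.nd (nat_lit 468) (nat_lit 2888) (nat_lit 0) (XT.nd (nat_lit 234) (nat_lit 1444) (nat_lit 0) (XT.nd (nat_lit 78) (nat_lit 1064) (nat_lit 0) (XT.lf (nat_lit 0) (nat_lit 11193235530) (nat_lit 684) (nat_lit 19767967807) (nat_lit 76) (nat_lit 30027735536) (nat_lit 257) (nat_lit 5) (nat_lit 266) (nat_lit 5) (nat_lit 258) (nat_lit 5) (nat_lit 463) (nat_lit 447) (nat_lit 290)) (XT.nd (nat_lit 78) (nat_lit 532) (nat_lit 0) (XT.lf (nat_lit 0) (nat_lit 24398164383) (nat_lit 608) (nat_lit 25328340556) (nat_lit 76) (nat_lit 12969165309) (nat_lit 250) (nat_lit 5) (nat_lit 258) (nat_lit 5)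 (nat_lit 251) (nat_lit 5) (nat_lit 464) (nat_lit 447) (nat_lit 289)) (XT.lf (nat_lit 0) (nat_lit 33630172153) (nat_lit 532) (nat_lit 5472275807) (nat_lit 608) (nat_lit 25360117153) (nat_lit 243) (nat_lit 5) (nat_lit 250) (nat_lit 5) (nat_lit 251) (nat_lit 5) (nat_lit 465) (nat_lit 447) (nat_lit 288)))) (XT.nd (nat_lit 78) (nat_lit 988) (nat_lit 0) (XT.lf (nat_lit 0) (nat_lit 29941125064) (nat_lit 456) (nat_lit 25543918843) (nat_lit 532) (nat_lit 10804468029) (nat_lit 237) (nat_lit 5) (nat_lit 243) (nat_lit 5) (nat_lit 244) (nat_lit 5) (nat_lit 466) (nat_lit 447) (nat_lit 287)) (XT.nd (nat_lit 78) (nat_lit 456) (nat_lit 0) (XT.lf (nat_lit 0) (nat_lit 5228704357) (nat_lit 532) (nat_lit 41780310883) (nat_lit 76) (nat_lit 21172385128) (nat_lit 230) (nat_lit 5) (nat_lit 237) (nat_lit 5) (nat_lit 231) (nat_lit 5) (nat_lit 467) (nat_lit 447) (nat_lit 286)) (XT.lf (nat_lit 0) (nat_lit 22699249640) (nat_lit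 532) (nat_lit 47175398445) (nat_lit 76) (nat_lit 264251012) (nat_lit 224) (nat_lit 5) (nat_lit 231) (nat_lit 5) (nat_lit 225) (nat_lit 5) (nat_lit 468) (nat_lit 447) (nat_lit 285))))) (XT.nd (nat_lit 234) (nat_lit 1520) (nat_lit 0) (XT.nd (nat_lit 78) (nat_lit 912) (nat_lit 0) (XT.lf (nat_lit 0) (nat_lit 19536364179) (nat_lit 456) (nat_lit 22601678625) (nat_lit 532) (nat_lit 30023388477) (nat_lit 218) (nat_lit 5) (nat_lit 224) (nat_lit 5) (nat_lit 225) (nat_lit 5) (nat_lit 469) (nat_lit 447) (nat_lit 284)) (XT.nd (nat_lit 78) (nat_lit 532) (nat_lit 0) (XT.lf (nat_lit 0) (nat_lit 16351073871) (nat_lit 380) (nat_lit 47103358082) (nat_lit 456) (nat_lit 10803488559) (nat_lit 213) (nat_lit 5) (nat_lit 218) (nat_lit 5) (nat_lit 219) (nat_lit 5) (nat_lit 470) (nat_lit 447) (nat_lit 283)) (XT.lf (nat_lit 0) (nat_lit 10127794130) (nat_lit 532) (nat_lit 63093246881) (nat_lit 76) (nat_lit 3207487829) (nat_lit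 206) (nat_lit 5) (nat_lit 213) (nat_lit 5) (nat_lit 207) (nat_lit 5) (nat_lit 471) (nat_lit 447) (nat_lit 282)))) (XT.nd (nat_lit 156) (nat_lit 760) (nat_lit 0) (XT.nd (nat_lit 78) (nat_lit 380) (nat_lit 0) (XT.lf (nat_lit 0) (nat_lit 10267521180) (nat_lit 380) (nat_lit 22791161938) (nat_lit 456) (nat_lit 45610481376) (nat_lit 201) (nat_lit 5) (nat_lit 206) (nat_lit 5) (nat_lit 207) (nat_lit 5) (nat_lit 472) (nat_lit 447) (nat_lit 281)) (XT.lf (nat_lit 0) (nat_lit 7459394391) (nat_lit 380) (nat_lit 50692593118) (nat_lit 456) (nat_lit 22839368402) (nat_lit 196) (nat_lit 5) (nat_lit 201) (nat_lit 5) (nat_lit 202) (nat_lit 5) (nat_lit 473) (nat_lit 447) (nat_lit 280))) (XT.nd (nat_lit 78) (nat_lit 380) (nat_lit 0) (XT.lf (nat_lit 0) (nat_lit 2065130177) (nat_lit 380) (nat_lit 78446000119) (nat_lit 76) (nat_lit 2887746589) (nat_lit 191) (nat_lit 5) (nat_lit 196) (nat_lit 5) (nat_lit 192) (nat_lit 5)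 (nat_lit 474) (nat_lit 447) (nat_lit 279)) (XT.lf (nat_lit 0) (nat_lit 2287249812) (nat_lit 380) (nat_lit 26756143787) (nat_lit 456) (nat_lit 56837569641) (nat_lit 186) (nat_lit 5) (nat_lit 191) (nat_lit 5) (nat_lit 192) (nat_lit 5) (nat_lit 475) (nat_lit 447) (nat_lit 278))))))))
noncomputable def xc113 : XT := (XT.nd (nat_lit 61074) (nat_lit 0) (nat_lit 2052) (XT.nd (nat_lit 1014) (nat_lit 684) (nat_lit 0) (XT.nd (nat_lit 468) (nat_lit 1976) (nat_lit 0) (XT.nd (nat_lit 234) (nat_lit 988) (nat_lit 0) (XT.nd (nat_lit 78) (nat_lit 684) (nat_lit 0) (XT.lf (nat_lit 0) (nat_lit 58469934127) (nat_lit 456) (nat_lit 62018133) (nat_lit 76) (nat_lit 29922220825) (nat_lit 186) (nat_lit 5) (nat_lit 192) (nat_lit 5) (nat_lit 187) (nat_lit 5) (nat_lit 476) (nat_lit 447) (nat_lit 277)) (XT.nd (nat_lit 78) (nat_lit 380) (nat_lit 0) (XT.lf (nat_lit 0) (nat_lit 89113043992) (nat_lit 304) (nat_lit 1379966381) (nat_lit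 380) (nat_lit 629276874) (nat_lit 182) (nat_lit 5) (nat_lit 186) (nat_lit 5) (nat_lit 187) (nat_lit 5) (nat_lit 477) (nat_lit 447) (nat_lit 276)) (XT.lf (nat_lit 0) (nat_lit 31046487709) (nat_lit 380) (nat_lit 4170097786) (nat_lit 76) (nat_lit 58655247459) (nat_lit 177) (nat_lit 5) (nat_lit 182) (nat_lit 5) (nat_lit 178) (nat_lit 5) (nat_lit 478) (nat_lit 447) (nat_lit 275)))) (XT.nd (nat_lit 78) (nat_lit 684) (nat_lit 0) (XT.lf (nat_lit 0) (nat_lit 65450013497) (nat_lit 380) (nat_lit 5943798914) (nat_lit 76) (nat_lit 25330147076) (nat_lit 173) (nat_lit 5) (nat_lit 178) (nat_lit 5) (nat_lit 174) (nat_lit 5) (nat_lit 479) (nat_lit 447) (nat_lit 274)) (XT.nd (nat_lit 78) (nat_lit 304) (nat_lit 0) (XT.lf (nat_lit 0) (nat_lit 3116163432) (nat_lit 380) (nat_lit 7419984021) (nat_lit 76) (nat_lit 89143089864) (nat_lit 168) (nat_lit 5) (nat_lit 173) (nat_lit 5) (nat_lit 169) (nat_lit 5) (nat_lit 480) (nat_lit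 447) (nat_lit 273)) (XT.lf (nat_lit 0) (nat_lit 40077017922) (nat_lit 380) (nat_lit 9032595616) (nat_lit 76) (nat_lit 53618435292) (nat_lit 164) (nat_lit 5) (nat_lit 169) (nat_lit 5) (nat_lit 165) (nat_lit 5) (nat_lit 481) (nat_lit 447) (nat_lit 272))))) (XT.nd (nat_lit 234) (nat_lit 1064) (nat_lit 0) (XT.nd (nat_lit 78) (nat_lit 608) (nat_lit 0) (XT.lf (nat_lit 0) (nat_lit 80142077330) (nat_lit 380) (nat_lit 10192547114) (nat_lit 76) (nat_lit 15556991672) (nat_lit 160) (nat_lit 5) (nat_lit 165) (nat_lit 5) (nat_lit 161) (nat_lit 5) (nat_lit 482) (nat_lit 447) (nat_lit 271)) (XT.nd (nat_lit 78) (nat_lit 304) (nat_lit 0) (XT.lf (nat_lit 0) (nat_lit 14289531164) (nat_lit 304) (nat_lit 11247027637) (nat_lit 76) (nat_lit 83626671302) (nat_lit 156) (nat_lit 5) (nat_lit 160) (nat_lit 5) (nat_lit 157) (nat_lit 5) (nat_lit 483) (nat_lit 447) (nat_lit 270)) (XT.lf (nat_lit 0) (nat_lit 57297961637) (nat_lit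 380) (nat_lit 12228879823) (nat_lit 76) (nat_lit 43018936598) (nat_lit 152) (nat_lit 5) (nat_lit 157) (nat_lit 5) (nat_lit 153) (nat_lit 5) (nat_lit 484) (nat_lit 447) (nat_lit 269)))) (XT.nd (nat_lit 156) (nat_lit 532) (nat_lit 0) (XT.nd (nat_lit 78) (nat_lit 304) (nat_lit 0) (XT.lf (nat_lit 0) (nat_lit 103356166582) (nat_lit 228) (nat_lit 467671200) (nat_lit 304) (nat_lit 12232604958) (nat_lit 149) (nat_lit 5) (nat_lit 152) (nat_lit 5) (nat_lit 153) (nat_lit 5) (nat_lit 485) (nat_lit 447) (nat_lit 268)) (XT.lf (nat_lit 0) (nat_lit 34152416692) (nat_lit 304) (nat_lit 13400052193) (nat_lit 76) (nat_lit 72124823603) (nat_lit 145) (nat_lit 5) (nat_lit 149) (nat_lit 5) (nat_lit 146) (nat_lit 5) (nat_lit 486) (nat_lit 447) (nat_lit 267))) (XT.nd (nat_lit 78) (nat_lit 304) (nat_lit 0) (XT.lf (nat_lit 0) (nat_lit 84051114918) (nat_lit 304) (nat_lit 13682477150) (nat_lit 76) (nat_lit 25698536819) (nat_lit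 142) (nat_lit 5) (nat_lit 146) (nat_lit 5) (nat_lit 143) (nat_lit 5) (nat_lit 487) (nat_lit 447) (nat_lit 266)) (XT.lf (nat_lit 0) (nat_lit 10621150108) (nat_lit 304) (nat_lit 13725577349) (nat_lit 76) (nat_lit 102973521140) (nat_lit 138) (nat_lit 5) (nat_lit 142) (nat_lit 5) (nat_lit 139) (nat_lit 5) (nat_lit 488) (nat_lit 447) (nat_lit 265)))))) (XT.nd (nat_lit 59514) (nat_lit 0) (nat_lit 12920) (XT.nd (nat_lit 59280) (nat_lit 0) (nat_lit 13680) (XT.nd (nat_lit 78) (nat_lit 456) (nat_lit 0) (XT.lf (nat_lit 0) (nat_lit 64115499024) (nat_lit 304) (nat_lit 13850295406) (nat_lit 76) (nat_lit 53371086480) (nat_lit 135) (nat_lit 5) (nat_lit 139) (nat_lit 5) (nat_lit 136) (nat_lit 5) (nat_lit 489) (nat_lit 447) (nat_lit 264)) (XT.nd (nat_lit 78) (nat_lit 228) (nat_lit 0) (XT.lf (nat_lit 0) (nat_lit 121848690950) (nat_lit 304) (nat_lit 13379818488) (nat_lit 76) (nat_lit 278911674) (nat_lit 132) (nat_lit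 5) (nat_lit 136) (nat_lit 5) (nat_lit 133) (nat_lit 5) (nat_lit 490) (nat_lit 447) (nat_lit 263)) (XT.lf (nat_lit 0) (nat_lit 43923130926) (nat_lit 228) (nat_lit 13252784324) (nat_lit 76) (nat_lit 82633133187) (nat_lit 129) (nat_lit 5) (nat_lit 132) (nat_lit 5) (nat_lit 130) (nat_lit 5) (nat_lit 491) (nat_lit 447) (nat_lit 262)))) (XT.nd (nat_lit 78) (nat_lit 0) (nat_lit 76) (XT.lf (nat_lit 0) (nat_lit 11038902341) (nat_lit 1292) (nat_lit 5046218159) (nat_lit 1292) (nat_lit 5046218159) (nat_lit 309) (nat_lit 3) (nat_lit 326) (nat_lit 3) (nat_lit 326) (nat_lit 5) (nat_lit 448) (nat_lit 448) (nat_lit 304)) (XT.nd (nat_lit 78) (nat_lit 0) (nat_lit 0) (XT.lf (nat_lit 0) (nat_lit 22956439477) (nat_lit 1216) (nat_lit 17995762826) (nat_lit 1292) (nat_lit 2357235708) (nat_lit 310) (nat_lit 5) (nat_lit 326) (nat_lit 5) (nat_lit 327) (nat_lit 5) (nat_lit 449) (nat_lit 448) (nat_lit 303)) (XT.lf (nat_lit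 76) (nat_lit 18325284034) (nat_lit 0) (nat_lit 6155655501) (nat_lit 1292) (nat_lit 19909539553) (nat_lit 311) (nat_lit 5) (nat_lit 310) (nat_lit 5) (nat_lit 327) (nat_lit 5) (nat_lit 450) (nat_lit 448) (nat_lit 302))))) (XT.nd (nat_lit 234) (nat_lit 912) (nat_lit 0) (XT.nd (nat_lit 78) (nat_lit 0) (nat_lit 76) (XT.lf (nat_lit 76) (nat_lit 11241704492) (nat_lit 0) (nat_lit 15423479464) (nat_lit 1292) (nat_lit 18842883018) (nat_lit 312) (nat_lit 5) (nat_lit 311) (nat_lit 5) (nat_lit 328) (nat_lit 5) (nat_lit 451) (nat_lit 448) (nat_lit 301)) (XT.nd (nat_lit 78) (nat_lit 0) (nat_lit 76) (XT.lf (nat_lit 76) (nat_lit 4093539166) (nat_lit 0) (nat_lit 25438489697) (nat_lit 1292) (nat_lit 17132304067) (nat_lit 313) (nat_lit 5) (nat_lit 312) (nat_lit 5) (nat_lit 329) (nat_lit 5) (nat_lit 452) (nat_lit 448) (nat_lit 300)) (XT.lf (nat_lit 0) (nat_lit 33159956756) (nat_lit 1216) (nat_lit 3050987272) (nat_lit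 1292) (nat_lit 11648936240) (nat_lit 313) (nat_lit 5) (nat_lit 329) (nat_lit 5) (nat_lit 330) (nat_lit 5) (nat_lit 453) (nat_lit 448) (nat_lit 299)))) (XT.nd (nat_lit 156) (nat_lit 1140) (nat_lit 0) (XT.nd (nat_lit 78) (nat_lit 0) (nat_lit 0) (XT.lf (nat_lit 0) (nat_lit 37610189378) (nat_lit 1216) (nat_lit 10163512613) (nat_lit 1292) (nat_lit 1322276024) (nat_lit 314) (nat_lit 5) (nat_lit 330) (nat_lit 5) (nat_lit 331) (nat_lit 5) (nat_lit 454) (nat_lit 448) (nat_lit 298)) (XT.lf (nat_lit 76) (nat_lit 32961055704) (nat_lit 0) (nat_lit 10032880431) (nat_lit 1292) (nat_lit 7378614718) (nat_lit 315) (nat_lit 5) (nat_lit 314) (nat_lit 5) (nat_lit 331) (nat_lit 5) (nat_lit 455) (nat_lit 448) (nat_lit 297))) (XT.nd (nat_lit 78) (nat_lit 1216) (nat_lit 0) (XT.lf (nat_lit 76) (nat_lit 26983168263) (nat_lit 0) (nat_lit 22310313750) (nat_lit 1292) (nat_lit 2400072232) (nat_lit 316) (nat_lit 5) (nat_lit 315)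 (nat_lit 5) (nat_lit 332) (nat_lit 5) (nat_lit 456) (nat_lit 448) (nat_lit 296)) (XT.lf (nat_lit 0) (nat_lit 3427321600) (nat_lit 1292) (nat_lit 32070744545) (nat_lit 1368) (nat_lit 17562073638) (nat_lit 299) (nat_lit 5) (nat_lit 316) (nat_lit 5) (nat_lit 317) (nat_lit 5) (nat_lit 457) (nat_lit 448) (nat_lit 295))))))) (XT.nd (nat_lit 1014) (nat_lit 4712) (nat_lit 0) (XT.nd (nat_lit 468) (nat_lit 3648) (nat_lit 0) (XT.nd (nat_lit 234) (nat_lit 1140) (nat_lit 0) (XT.nd (nat_lit 78) (nat_lit 1444) (nat_lit 0) (XT.lf (nat_lit 0) (nat_lit 10168184372) (nat_lit 1292) (nat_lit 39480484603) (nat_lit 76) (nat_lit 4825520872) (nat_lit 300) (nat_lit 5) (nat_lit 317) (nat_lit 5) (nat_lit 301) (nat_lit 5) (nat_lit 458) (nat_lit 448) (nat_lit 294)) (XT.nd (nat_lit 78) (nat_lit 608) (nat_lit 0) (XT.lf (nat_lit 0) (nat_lit 8943173098) (nat_lit 836) (nat_lit 9077990119) (nat_lit 912) (nat_lit 37914527232) (nat_lit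 289) (nat_lit 5) (nat_lit 300) (nat_lit 5) (nat_lit 301) (nat_lit 5) (nat_lit 459) (nat_lit 448) (nat_lit 293)) (XT.lf (nat_lit 0) (nat_lit 2882650585) (nat_lit 608) (nat_lit 24142028189) (nat_lit 684) (nat_lit 30422850884) (nat_lit 281) (nat_lit 5) (nat_lit 289) (nat_lit 5) (nat_lit 290) (nat_lit 5) (nat_lit 460) (nat_lit 448) (nat_lit 292)))) (XT.nd (nat_lit 78) (nat_lit 1140) (nat_lit 0) (XT.lf (nat_lit 0) (nat_lit 37233932425) (nat_lit 684) (nat_lit 3063395812) (nat_lit 76) (nat_lit 18714965923) (nat_lit 281) (nat_lit 5) (nat_lit 290) (nat_lit 5) (nat_lit 282) (nat_lit 5) (nat_lit 461) (nat_lit 448) (nat_lit 291)) (XT.nd (nat_lit 78) (nat_lit 532) (nat_lit 0) (XT.lf (nat_lit 0) (nat_lit 48722415234) (nat_lit 684) (nat_lit 8885131194) (nat_lit 76) (nat_lit 3024687658) (nat_lit 273) (nat_lit 5) (nat_lit 282) (nat_lit 5) (nat_lit 274) (nat_lit 5) (nat_lit 462) (nat_lit 448) (nat_lit 290)) (XT.lf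 (nat_lit 0) (nat_lit 47548501974) (nat_lit 532) (nat_lit 14130274469) (nat_lit 608) (nat_lit 627591119) (nat_lit 266) (nat_lit 5) (nat_lit 273) (nat_lit 5) (nat_lit 274) (nat_lit 5) (nat_lit 463) (nat_lit 448) (nat_lit 289))))) (XT.nd (nat_lit 234) (nat_lit 1900) (nat_lit 0) (XT.nd (nat_lit 78) (nat_lit 1064) (nat_lit 0) (XT.lf (nat_lit 0) (nat_lit 11818984590) (nat_lit 684) (nat_lit 20685578841) (nat_lit 76) (nat_lit 31531834564) (nat_lit 257) (nat_lit 5) (nat_lit 266) (nat_lit 5) (nat_lit 258) (nat_lit 5) (nat_lit 464) (nat_lit 448) (nat_lit 288)) (XT.nd (nat_lit 78) (nat_lit 532) (nat_lit 0) (XT.lf (nat_lit 0) (nat_lit 25681723391) (nat_lit 608) (nat_lit 26524135913) (nat_lit 76) (nat_lit 13622679978) (nat_lit 250) (nat_lit 5) (nat_lit 258) (nat_lit 5) (nat_lit 251) (nat_lit 5) (nat_lit 465) (nat_lit 448) (nat_lit 287)) (XT.lf (nat_lit 0) (nat_lit 35380278075) (nat_lit 532) (nat_lit 5738571481)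 (nat_lit 608) (nat_lit 26565000717) (nat_lit 243) (nat_lit 5) (nat_lit 250) (nat_lit 5) (nat_lit 251) (nat_lit 5) (nat_lit 466) (nat_lit 448) (nat_lit 286)))) (XT.nd (nat_lit 156) (nat_lit 912) (nat_lit 0) (XT.nd (nat_lit 78) (nat_lit 532) (nat_lit 0) (XT.lf (nat_lit 0) (nat_lit 31506534238) (nat_lit 456) (nat_lit 26811847053) (nat_lit 532) (nat_lit 11283829192) (nat_lit 237) (nat_lit 5) (nat_lit 243) (nat_lit 5) (nat_lit 244) (nat_lit 5) (nat_lit 467) (nat_lit 448) (nat_lit 285)) (XT.lf (nat_lit 0) (nat_lit 5547718660) (nat_lit 532) (nat_lit 43800143159) (nat_lit 76) (nat_lit 22240877039) (nat_lit 230) (nat_lit 5) (nat_lit 237) (nat_lit 5) (nat_lit 231) (nat_lit 5) (nat_lit 468) (nat_lit 448) (nat_lit 284))) (XT.nd (nat_lit 78) (nat_lit 456) (nat_lit 0) (XT.lf (nat_lit 0) (nat_lit 23889807946) (nat_lit 532) (nat_lit 49465412400) (nat_lit 76) (nat_lit 288951874) (nat_lit 224) (nat_lit 5) (nat_lit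 231) (nat_lit 5) (nat_lit 225) (nat_lit 5) (nat_lit 469) (nat_lit 448) (nat_lit 283)) (XT.lf (nat_lit 0) (nat_lit 20579967479) (nat_lit 456) (nat_lit 23718567848) (nat_lit 532) (nat_lit 31469356037) (nat_lit 218) (nat_lit 5) (nat_lit 224) (nat_lit 5) (nat_lit 225) (nat_lit 5) (nat_lit 470) (nat_lit 448) (nat_lit 282)))))) (XT.nd (nat_lit 546) (nat_lit 2280) (nat_lit 0) (XT.nd (nat_lit 234) (nat_lit 1140) (nat_lit 0) (XT.nd (nat_lit 78) (nat_lit 912) (nat_lit 0) (XT.lf (nat_lit 0) (nat_lit 17234940363) (nat_lit 380) (nat_lit 49444009882) (nat_lit 456) (nat_lit 11290308801) (nat_lit 213) (nat_lit 5) (nat_lit 218) (nat_lit 5) (nat_lit 219) (nat_lit 5) (nat_lit 471) (nat_lit 448) (nat_lit 281)) (XT.nd (nat_lit 78) (nat_lit 380) (nat_lit 0) (XT.lf (nat_lit 0) (nat_lit 10684778669) (nat_lit 532) (nat_lit 66181109706) (nat_lit 76) (nat_lit 3382545742) (nat_lit 206) (nat_lit 5) (nat_lit 213) (nat_lit 5)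 (nat_lit 207) (nat_lit 5) (nat_lit 472) (nat_lit 448) (nat_lit 280)) (XT.lf (nat_lit 0) (nat_lit 10845781964) (nat_lit 380) (nat_lit 23914644577) (nat_lit 456) (nat_lit 47840728738) (nat_lit 201) (nat_lit 5) (nat_lit 206) (nat_lit 5) (nat_lit 207) (nat_lit 5) (nat_lit 473) (nat_lit 448) (nat_lit 279)))) (XT.nd (nat_lit 156) (nat_lit 380) (nat_lit 0) (XT.nd (nat_lit 78) (nat_lit 380) (nat_lit 0) (XT.lf (nat_lit 0) (nat_lit 7896664205) (nat_lit 380) (nat_lit 53210172956) (nat_lit 456) (nat_lit 23932666026) (nat_lit 196) (nat_lit 5) (nat_lit 201) (nat_lit 5) (nat_lit 202) (nat_lit 5) (nat_lit 474) (nat_lit 448) (nat_lit 278)) (XT.lf (nat_lit 0) (nat_lit 2214611110) (nat_lit 380) (nat_lit 82303699834) (nat_lit 76) (nat_lit 3049120269) (nat_lit 191) (nat_lit 5) (nat_lit 196) (nat_lit 5) (nat_lit 192) (nat_lit 5) (nat_lit 475) (nat_lit 448) (nat_lit 277))) (XT.nd (nat_lit 78) (nat_lit 0) (nat_lit 0)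 (XT.lf (nat_lit 0) (nat_lit 2464360840) (nat_lit 380) (nat_lit 28075828878) (nat_lit 456) (nat_lit 59633480239) (nat_lit 186) (nat_lit 5) (nat_lit 191) (nat_lit 5) (nat_lit 192) (nat_lit 5) (nat_lit 476) (nat_lit 448) (nat_lit 276)) (XT.lf (nat_lit 0) (nat_lit 61436098108) (nat_lit 456) (nat_lit 4246867) (nat_lit 76) (nat_lit 31435254220) (nat_lit 186) (nat_lit 5) (nat_lit 192) (nat_lit 5) (nat_lit 187) (nat_lit 5) (nat_lit 477) (nat_lit 448) (nat_lit 275))))) (XT.nd (nat_lit 234) (nat_lit 1292) (nat_lit 0) (XT.nd (nat_lit 78) (nat_lit 684) (nat_lit 0) (XT.lf (nat_lit 0) (nat_lit 93627823476) (nat_lit 304) (nat_lit 1431041285) (nat_lit 380) (nat_lit 618298328) (nat_lit 182) (nat_lit 5) (nat_lit 186) (nat_lit 5) (nat_lit 187) (nat_lit 5) (nat_lit 478) (nat_lit 448) (nat_lit 274)) (XT.nd (nat_lit 78) (nat_lit 304) (nat_lit 0) (XT.lf (nat_lit 0) (nat_lit 32639177958) (nat_lit 380) (nat_lit 4319329013)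 (nat_lit 76) (nat_lit 61605704431) (nat_lit 177) (nat_lit 5) (nat_lit 182) (nat_lit 5) (nat_lit 178) (nat_lit 5) (nat_lit 479) (nat_lit 448) (nat_lit 273)) (XT.lf (nat_lit 0) (nat_lit 68761689872) (nat_lit 380) (nat_lit 6182420811) (nat_lit 76) (nat_lit 26614869389) (nat_lit 173) (nat_lit 5) (nat_lit 178) (nat_lit 5) (nat_lit 174) (nat_lit 5) (nat_lit 480) (nat_lit 448) (nat_lit 272)))) (XT.nd (nat_lit 156) (nat_lit 608) (nat_lit 0) (XT.nd (nat_lit 78) (nat_lit 304) (nat_lit 0) (XT.lf (nat_lit 0) (nat_lit 3310205448) (nat_lit 380) (nat_lit 7733331128) (nat_lit 76) (nat_lit 93618513633) (nat_lit 168) (nat_lit 5) (nat_lit 173) (nat_lit 5) (nat_lit 169) (nat_lit 5) (nat_lit 481) (nat_lit 448) (nat_lit 271)) (XT.lf (nat_lit 0) (nat_lit 42118003406) (nat_lit 380) (nat_lit 9427298580) (nat_lit 76) (nat_lit 56318033382) (nat_lit 164) (nat_lit 5) (nat_lit 169) (nat_lit 5) (nat_lit 165) (nat_lit 5) (nat_lit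 482) (nat_lit 448) (nat_lit 270))) (XT.nd (nat_lit 78) (nat_lit 304) (nat_lit 0) (XT.lf (nat_lit 0) (nat_lit 84185265458) (nat_lit 380) (nat_lit 10645987197) (nat_lit 76) (nat_lit 16353859963) (nat_lit 160) (nat_lit 5) (nat_lit 165) (nat_lit 5) (nat_lit 161) (nat_lit 5) (nat_lit 483) (nat_lit 448) (nat_lit 269)) (XT.lf (nat_lit 0) (nat_lit 15039245420) (nat_lit 304) (nat_lit 11754099401) (nat_lit 76) (nat_lit 87826988014) (nat_lit 156) (nat_lit 5) (nat_lit 160) (nat_lit 5) (nat_lit 157) (nat_lit 5) (nat_lit 484) (nat_lit 448) (nat_lit 268))))))))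
noncomputable def xc114 : XT := (XT.nd (nat_lit 61152) (nat_lit 0) (nat_lit 228) (XT.nd (nat_lit 60138) (nat_lit 0) (nat_lit 8436) (XT.nd (nat_lit 468) (nat_lit 228) (nat_lit 0) (XT.nd (nat_lit 234) (nat_lit 760) (nat_lit 0) (XT.nd (nat_lit 78) (nat_lit 532) (nat_lit 0) (XT.lf (nat_lit 0) (nat_lit 60197124173) (nat_lit 380) (nat_lit 12785793527) (nat_lit 76) (nat_lit 45189119764) (nat_lit 152) (nat_lit 5) (nat_lit 157) (nat_lit 5) (nat_lit 153) (nat_lit 5) (nat_lit 485) (nat_lit 448) (nat_lit 267)) (XT.nd (nat_lit 78) (nat_lit 304) (nat_lit 0) (XT.lf (nat_lit 0) (nat_lit 108576942099) (nat_lit 228) (nat_lit 471229538) (nat_lit 304) (nat_lit 12810097491) (nat_lit 149) (nat_lit 5) (nat_lit 152) (nat_lit 5) (nat_lit 153) (nat_lit 5) (nat_lit 486) (nat_lit 448) (nat_lit 266)) (XT.lf (nat_lit 0) (nat_lit 35892605549) (nat_lit 304) (nat_lit 14017174268) (nat_lit 76) (nat_lit 75750398878) (nat_lit 145)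 (nat_lit 5) (nat_lit 149) (nat_lit 5) (nat_lit 146) (nat_lit 5) (nat_lit 487) (nat_lit 448) (nat_lit 265)))) (XT.nd (nat_lit 78) (nat_lit 532) (nat_lit 0) (XT.lf (nat_lit 0) (nat_lit 88285372424) (nat_lit 304) (nat_lit 14314480491) (nat_lit 76) (nat_lit 27002930052) (nat_lit 142) (nat_lit 5) (nat_lit 146) (nat_lit 5) (nat_lit 143) (nat_lit 5) (nat_lit 488) (nat_lit 448) (nat_lit 264)) (XT.nd (nat_lit 78) (nat_lit 228) (nat_lit 0) (XT.lf (nat_lit 0) (nat_lit 11183191394) (nat_lit 304) (nat_lit 14360611873) (nat_lit 76) (nat_lit 108141527033) (nat_lit 138) (nat_lit 5) (nat_lit 142) (nat_lit 5) (nat_lit 139) (nat_lit 5) (nat_lit 489) (nat_lit 448) (nat_lit 263)) (XT.lf (nat_lit 0) (nat_lit 67351451030) (nat_lit 304) (nat_lit 14492324201) (nat_lit 76) (nat_lit 56059043258) (nat_lit 135) (nat_lit 5) (nat_lit 139) (nat_lit 5) (nat_lit 136) (nat_lit 5) (nat_lit 490) (nat_lit 448) (nat_lit 262))))) (XT.nd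 (nat_lit 59358) (nat_lit 0) (nat_lit 13528) (XT.nd (nat_lit 59202) (nat_lit 0) (nat_lit 13452) (XT.lf (nat_lit 0) (nat_lit 127970527533) (nat_lit 304) (nat_lit 13999083757) (nat_lit 76) (nat_lit 312297716) (nat_lit 132) (nat_lit 5) (nat_lit 136) (nat_lit 5) (nat_lit 133) (nat_lit 5) (nat_lit 491) (nat_lit 448) (nat_lit 261)) (XT.nd (nat_lit 78) (nat_lit 0) (nat_lit 76) (XT.lf (nat_lit 0) (nat_lit 11649930554) (nat_lit 1292) (nat_lit 5268098541) (nat_lit 1292) (nat_lit 5268098541) (nat_lit 309) (nat_lit 3) (nat_lit 326) (nat_lit 3) (nat_lit 326) (nat_lit 5) (nat_lit 449) (nat_lit 449) (nat_lit 302)) (XT.lf (nat_lit 0) (nat_lit 24216849950) (nat_lit 1216) (nat_lit 18832511856) (nat_lit 1292) (nat_lit 2422160043) (nat_lit 310) (nat_lit 5) (nat_lit 326) (nat_lit 5) (nat_lit 327) (nat_lit 5) (nat_lit 450) (nat_lit 449) (nat_lit 301)))) (XT.nd (nat_lit 156) (nat_lit 0) (nat_lit 152) (XT.nd (nat_lit 78)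 (nat_lit 0) (nat_lit 76) (XT.lf (nat_lit 76) (nat_lit 19302780344) (nat_lit 0) (nat_lit 6510021910) (nat_lit 1292) (nat_lit 20793956403) (nat_lit 311) (nat_lit 5) (nat_lit 310) (nat_lit 5) (nat_lit 327) (nat_lit 5) (nat_lit 451) (nat_lit 449) (nat_lit 300)) (XT.lf (nat_lit 76) (nat_lit 11866852958) (nat_lit 0) (nat_lit 16234451590) (nat_lit 1292) (nat_lit 19679070492) (nat_lit 312) (nat_lit 5) (nat_lit 311) (nat_lit 5) (nat_lit 328) (nat_lit 5) (nat_lit 452) (nat_lit 449) (nat_lit 299))) (XT.nd (nat_lit 78) (nat_lit 0) (nat_lit 76) (XT.lf (nat_lit 76) (nat_lit 4362849827) (nat_lit 0) (nat_lit 26744000664) (nat_lit 1292) (nat_lit 17887743488) (nat_lit 313) (nat_lit 5) (nat_lit 312) (nat_lit 5) (nat_lit 329) (nat_lit 5) (nat_lit 453) (nat_lit 449) (nat_lit 298)) (XT.lf (nat_lit 0) (nat_lit 34911190147) (nat_lit 1216) (nat_lit 3138858394) (nat_lit 1292) (nat_lit 12200020111) (nat_lit 313) (nat_lit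 5) (nat_lit 329) (nat_lit 5) (nat_lit 330) (nat_lit 5) (nat_lit 454) (nat_lit 449) (nat_lit 297)))))) (XT.nd (nat_lit 468) (nat_lit 3496) (nat_lit 0) (XT.nd (nat_lit 234) (nat_lit 1900) (nat_lit 0) (XT.nd (nat_lit 78) (nat_lit 0) (nat_lit 0) (XT.lf (nat_lit 0) (nat_lit 39579843058) (nat_lit 1216) (nat_lit 10605918386) (nat_lit 1292) (nat_lit 1362332990) (nat_lit 314) (nat_lit 5) (nat_lit 330) (nat_lit 5) (nat_lit 331) (nat_lit 5) (nat_lit 455) (nat_lit 449) (nat_lit 296)) (XT.nd (nat_lit 78) (nat_lit 0) (nat_lit 76) (XT.lf (nat_lit 76) (nat_lit 34672993067) (nat_lit 0) (nat_lit 10556153221) (nat_lit 1292) (nat_lit 7659458940) (nat_lit 315) (nat_lit 5) (nat_lit 314) (nat_lit 5) (nat_lit 331) (nat_lit 5) (nat_lit 456) (nat_lit 449) (nat_lit 295)) (XT.lf (nat_lit 76) (nat_lit 28397081373) (nat_lit 0) (nat_lit 23442940476) (nat_lit 1292) (nat_lit 2435746739) (nat_lit 316) (nat_lit 5) (nat_lit 315)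 (nat_lit 5) (nat_lit 332) (nat_lit 5) (nat_lit 457) (nat_lit 449) (nat_lit 294)))) (XT.nd (nat_lit 78) (nat_lit 760) (nat_lit 0) (XT.lf (nat_lit 0) (nat_lit 3677911094) (nat_lit 1292) (nat_lit 33607247190) (nat_lit 1368) (nat_lit 18425604947) (nat_lit 299) (nat_lit 5) (nat_lit 316) (nat_lit 5) (nat_lit 317) (nat_lit 5) (nat_lit 458) (nat_lit 449) (nat_lit 293)) (XT.nd (nat_lit 78) (nat_lit 836) (nat_lit 0) (XT.lf (nat_lit 0) (nat_lit 10752564977) (nat_lit 1292) (nat_lit 41387001577) (nat_lit 76) (nat_lit 5056047130) (nat_lit 300) (nat_lit 5) (nat_lit 317) (nat_lit 5) (nat_lit 301) (nat_lit 5) (nat_lit 459) (nat_lit 449) (nat_lit 292)) (XT.lf (nat_lit 0) (nat_lit 9455903927) (nat_lit 836) (nat_lit 9539301471) (nat_lit 912) (nat_lit 39735073848) (nat_lit 289) (nat_lit 5) (nat_lit 300) (nat_lit 5) (nat_lit 301) (nat_lit 5) (nat_lit 460) (nat_lit 449) (nat_lit 291))))) (XT.nd (nat_lit 234) (nat_lit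 2280) (nat_lit 0) (XT.nd (nat_lit 78) (nat_lit 608) (nat_lit 0) (XT.lf (nat_lit 0) (nat_lit 3092677666) (nat_lit 608) (nat_lit 25353309202) (nat_lit 684) (nat_lit 31871811139) (nat_lit 281) (nat_lit 5) (nat_lit 289) (nat_lit 5) (nat_lit 290) (nat_lit 5) (nat_lit 461) (nat_lit 449) (nat_lit 290)) (XT.nd (nat_lit 78) (nat_lit 608) (nat_lit 0) (XT.lf (nat_lit 0) (nat_lit 39162328073) (nat_lit 684) (nat_lit 3151762878) (nat_lit 76) (nat_lit 19646811319) (nat_lit 281) (nat_lit 5) (nat_lit 290) (nat_lit 5) (nat_lit 282) (nat_lit 5) (nat_lit 462) (nat_lit 449) (nat_lit 289)) (XT.lf (nat_lit 0) (nat_lit 51222652577) (nat_lit 684) (nat_lit 9264502018) (nat_lit 76) (nat_lit 3174762339) (nat_lit 273) (nat_lit 5) (nat_lit 282) (nat_lit 5) (nat_lit 274) (nat_lit 5) (nat_lit 463) (nat_lit 449) (nat_lit 288)))) (XT.nd (nat_lit 156) (nat_lit 1064) (nat_lit 0) (XT.nd (nat_lit 78) (nat_lit 684) (nat_lit 0) (XT.lf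 (nat_lit 0) (nat_lit 49988952872) (nat_lit 532) (nat_lit 14835431647) (nat_lit 608) (nat_lit 595446241) (nat_lit 266) (nat_lit 5) (nat_lit 273) (nat_lit 5) (nat_lit 274) (nat_lit 5) (nat_lit 464) (nat_lit 449) (nat_lit 287)) (XT.lf (nat_lit 0) (nat_lit 12469876934) (nat_lit 684) (nat_lit 21655651563) (nat_lit 76) (nat_lit 33110886385) (nat_lit 257) (nat_lit 5) (nat_lit 266) (nat_lit 5) (nat_lit 258) (nat_lit 5) (nat_lit 465) (nat_lit 449) (nat_lit 286))) (XT.nd (nat_lit 78) (nat_lit 532) (nat_lit 0) (XT.lf (nat_lit 0) (nat_lit 27023542703) (nat_lit 608) (nat_lit 27786286771) (nat_lit 76) (nat_lit 14308400283) (nat_lit 250) (nat_lit 5) (nat_lit 258) (nat_lit 5) (nat_lit 251) (nat_lit 5) (nat_lit 466) (nat_lit 449) (nat_lit 285)) (XT.lf (nat_lit 0) (nat_lit 37211511766) (nat_lit 532) (nat_lit 6018862308) (nat_lit 608) (nat_lit 27835996971) (nat_lit 243) (nat_lit 5) (nat_lit 250) (nat_lit 5) (nat_lit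 251) (nat_lit 5) (nat_lit 467) (nat_lit 449) (nat_lit 284))))))) (XT.nd (nat_lit 1014) (nat_lit 3192) (nat_lit 0) (XT.nd (nat_lit 468) (nat_lit 2204) (nat_lit 0) (XT.nd (nat_lit 234) (nat_lit 1368) (nat_lit 0) (XT.nd (nat_lit 78) (nat_lit 988) (nat_lit 0) (XT.lf (nat_lit 0) (nat_lit 33143859064) (nat_lit 456) (nat_lit 28144033299) (nat_lit 532) (nat_lit 11792816808) (nat_lit 237) (nat_lit 5) (nat_lit 243) (nat_lit 5) (nat_lit 244) (nat_lit 5) (nat_lit 468) (nat_lit 449) (nat_lit 283)) (XT.nd (nat_lit 78) (nat_lit 456) (nat_lit 0) (XT.lf (nat_lit 0) (nat_lit 5877330521) (nat_lit 532) (nat_lit 45927399054) (nat_lit 76) (nat_lit 23361875679) (nat_lit 230) (nat_lit 5) (nat_lit 237) (nat_lit 5) (nat_lit 231) (nat_lit 5) (nat_lit 469) (nat_lit 449) (nat_lit 282)) (XT.lf (nat_lit 0) (nat_lit 25134725395) (nat_lit 532) (nat_lit 51876319331) (nat_lit 76) (nat_lit 313819704) (nat_lit 224) (nat_lit 5) (nat_lit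 231) (nat_lit 5) (nat_lit 225) (nat_lit 5) (nat_lit 470) (nat_lit 449) (nat_lit 281)))) (XT.nd (nat_lit 78) (nat_lit 912) (nat_lit 0) (XT.lf (nat_lit 0) (nat_lit 21669541899) (nat_lit 456) (nat_lit 24892528251) (nat_lit 532) (nat_lit 32992754121) (nat_lit 218) (nat_lit 5) (nat_lit 224) (nat_lit 5) (nat_lit 225) (nat_lit 5) (nat_lit 471) (nat_lit 449) (nat_lit 280)) (XT.nd (nat_lit 78) (nat_lit 532) (nat_lit 0) (XT.lf (nat_lit 0) (nat_lit 18156835045) (nat_lit 380) (nat_lit 51903043842) (nat_lit 456) (nat_lit 11806430422) (nat_lit 213) (nat_lit 5) (nat_lit 218) (nat_lit 5) (nat_lit 219) (nat_lit 5) (nat_lit 472) (nat_lit 449) (nat_lit 279)) (XT.lf (nat_lit 0) (nat_lit 11264908607) (nat_lit 532) (nat_lit 69429576058) (nat_lit 76) (nat_lit 3564991417) (nat_lit 206) (nat_lit 5) (nat_lit 213) (nat_lit 5) (nat_lit 207) (nat_lit 5) (nat_lit 473) (nat_lit 449) (nat_lit 278))))) (XT.nd (nat_lit 234) (nat_lit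 1064) (nat_lit 0) (XT.nd (nat_lit 78) (nat_lit 760) (nat_lit 0) (XT.lf (nat_lit 0) (nat_lit 11446923420) (nat_lit 380) (nat_lit 25095795892) (nat_lit 456) (nat_lit 50187162721) (nat_lit 201) (nat_lit 5) (nat_lit 206) (nat_lit 5) (nat_lit 207) (nat_lit 5) (nat_lit 474) (nat_lit 449) (nat_lit 277)) (XT.nd (nat_lit 78) (nat_lit 380) (nat_lit 0) (XT.lf (nat_lit 0) (nat_lit 8349819497) (nat_lit 380) (nat_lit 55855216915) (nat_lit 456) (nat_lit 25085153481) (nat_lit 196) (nat_lit 5) (nat_lit 201) (nat_lit 5) (nat_lit 202) (nat_lit 5) (nat_lit 475) (nat_lit 449) (nat_lit 276)) (XT.lf (nat_lit 0) (nat_lit 2367268580) (nat_lit 380) (nat_lit 86360290457) (nat_lit 76) (nat_lit 3216983403) (nat_lit 191) (nat_lit 5) (nat_lit 196) (nat_lit 5) (nat_lit 192) (nat_lit 5) (nat_lit 476) (nat_lit 449) (nat_lit 275)))) (XT.nd (nat_lit 156) (nat_lit 380) (nat_lit 0) (XT.nd (nat_lit 78) (nat_lit 304) (nat_lit 0) (XT.lf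 (nat_lit 0) (nat_lit 2644493654) (nat_lit 380) (nat_lit 29463183044) (nat_lit 456) (nat_lit 62573460026) (nat_lit 186) (nat_lit 5) (nat_lit 191) (nat_lit 5) (nat_lit 192) (nat_lit 5) (nat_lit 477) (nat_lit 449) (nat_lit 274)) (XT.lf (nat_lit 0) (nat_lit 51763740) (nat_lit 304) (nat_lit 64495337335) (nat_lit 380) (nat_lit 32971099848) (nat_lit 182) (nat_lit 5) (nat_lit 186) (nat_lit 5) (nat_lit 187) (nat_lit 5) (nat_lit 478) (nat_lit 449) (nat_lit 273))) (XT.nd (nat_lit 78) (nat_lit 380) (nat_lit 0) (XT.lf (nat_lit 0) (nat_lit 98362844839) (nat_lit 304) (nat_lit 1486336282) (nat_lit 380) (nat_lit 610716747) (nat_lit 182) (nat_lit 5) (nat_lit 186) (nat_lit 5) (nat_lit 187) (nat_lit 5) (nat_lit 479) (nat_lit 449) (nat_lit 272)) (XT.lf (nat_lit 0) (nat_lit 34307749885) (nat_lit 380) (nat_lit 4481532504) (nat_lit 76) (nat_lit 64702039176) (nat_lit 177) (nat_lit 5) (nat_lit 182) (nat_lit 5) (nat_lit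 178) (nat_lit 5) (nat_lit 480) (nat_lit 449) (nat_lit 271)))))) (XT.nd (nat_lit 546) (nat_lit 1064) (nat_lit 0) (XT.nd (nat_lit 234) (nat_lit 1140) (nat_lit 0) (XT.nd (nat_lit 78) (nat_lit 684) (nat_lit 0) (XT.lf (nat_lit 0) (nat_lit 72235307881) (nat_lit 380) (nat_lit 6438418905) (nat_lit 76) (nat_lit 27962134364) (nat_lit 173) (nat_lit 5) (nat_lit 178) (nat_lit 5) (nat_lit 174) (nat_lit 5) (nat_lit 481) (nat_lit 449) (nat_lit 270)) (XT.nd (nat_lit 78) (nat_lit 304) (nat_lit 0) (XT.lf (nat_lit 0) (nat_lit 3510394944) (nat_lit 380) (nat_lit 8067705536) (nat_lit 76) (nat_lit 98316010086) (nat_lit 168) (nat_lit 5) (nat_lit 173) (nat_lit 5) (nat_lit 169) (nat_lit 5) (nat_lit 482) (nat_lit 449) (nat_lit 269)) (XT.lf (nat_lit 0) (nat_lit 44257585742) (nat_lit 380) (nat_lit 9847029209) (nat_lit 76) (nat_lit 59150875029) (nat_lit 164) (nat_lit 5) (nat_lit 169) (nat_lit 5) (nat_lit 165) (nat_lit 5) (nat_lit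 483) (nat_lit 449) (nat_lit 268)))) (XT.nd (nat_lit 156) (nat_lit 532) (nat_lit 0) (XT.nd (nat_lit 78) (nat_lit 304) (nat_lit 0) (XT.lf (nat_lit 0) (nat_lit 88427258220) (nat_lit 380) (nat_lit 11127323044) (nat_lit 76) (nat_lit 17188803489) (nat_lit 160) (nat_lit 5) (nat_lit 165) (nat_lit 5) (nat_lit 161) (nat_lit 5) (nat_lit 484) (nat_lit 449) (nat_lit 267)) (XT.lf (nat_lit 0) (nat_lit 15823169322) (nat_lit 304) (nat_lit 12291664128) (nat_lit 76) (nat_lit 92235555688) (nat_lit 156) (nat_lit 5) (nat_lit 160) (nat_lit 5) (nat_lit 157) (nat_lit 5) (nat_lit 485) (nat_lit 449) (nat_lit 266))) (XT.nd (nat_lit 78) (nat_lit 228) (nat_lit 0) (XT.lf (nat_lit 0) (nat_lit 63238059251) (nat_lit 380) (nat_lit 13375622626) (nat_lit 76) (nat_lit 47466023676) (nat_lit 152) (nat_lit 5) (nat_lit 157) (nat_lit 5) (nat_lit 153) (nat_lit 5) (nat_lit 486) (nat_lit 449) (nat_lit 265)) (XT.lf (nat_lit 0) (nat_lit 114053832004)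 (nat_lit 228) (nat_lit 476808955) (nat_lit 304) (nat_lit 13419638453) (nat_lit 149) (nat_lit 5) (nat_lit 152) (nat_lit 5) (nat_lit 153) (nat_lit 5) (nat_lit 487) (nat_lit 449) (nat_lit 264))))) (XT.nd (nat_lit 234) (nat_lit 228) (nat_lit 0) (XT.nd (nat_lit 78) (nat_lit 532) (nat_lit 0) (XT.lf (nat_lit 0) (nat_lit 37716775983) (nat_lit 304) (nat_lit 14670068777) (nat_lit 76) (nat_lit 79555455415) (nat_lit 145) (nat_lit 5) (nat_lit 149) (nat_lit 5) (nat_lit 146) (nat_lit 5) (nat_lit 488) (nat_lit 449) (nat_lit 263)) (XT.nd (nat_lit 78) (nat_lit 304) (nat_lit 0) (XT.lf (nat_lit 0) (nat_lit 92728395477) (nat_lit 304) (nat_lit 14982929670) (nat_lit 76) (nat_lit 28370733146) (nat_lit 142) (nat_lit 5) (nat_lit 146) (nat_lit 5) (nat_lit 143) (nat_lit 5) (nat_lit 489) (nat_lit 449) (nat_lit 262)) (XT.lf (nat_lit 0) (nat_lit 11770454166) (nat_lit 304) (nat_lit 15032162337) (nat_lit 76) (nat_lit 113566136117)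 (nat_lit 138) (nat_lit 5) (nat_lit 142) (nat_lit 5) (nat_lit 139) (nat_lit 5) (nat_lit 490) (nat_lit 449) (nat_lit 261)))) (XT.nd (nat_lit 59358) (nat_lit 0) (nat_lit 13300) (XT.nd (nat_lit 59280) (nat_lit 0) (nat_lit 13224) (XT.lf (nat_lit 0) (nat_lit 70746395060) (nat_lit 304) (nat_lit 15171148143) (nat_lit 76) (nat_lit 58879594018) (nat_lit 135) (nat_lit 5) (nat_lit 139) (nat_lit 5) (nat_lit 136) (nat_lit 5) (nat_lit 491) (nat_lit 449) (nat_lit 260)) (XT.lf (nat_lit 0) (nat_lit 12286017190) (nat_lit 1292) (nat_lit 5503902083) (nat_lit 1292) (nat_lit 5503902083) (nat_lit 309) (nat_lit 3) (nat_lit 326) (nat_lit 3) (nat_lit 326) (nat_lit 5) (nat_lit 450) (nat_lit 450) (nat_lit 300))) (XT.nd (nat_lit 78) (nat_lit 0) (nat_lit 0) (XT.lf (nat_lit 0) (nat_lit 25529813534) (nat_lit 1216) (nat_lit 19716959116) (nat_lit 1292) (nat_lit 2495252216) (nat_lit 310) (nat_lit 5) (nat_lit 326) (nat_lit 5) (nat_lit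 327) (nat_lit 5) (nat_lit 451) (nat_lit 450) (nat_lit 299)) (XT.lf (nat_lit 76) (nat_lit 20323458688) (nat_lit 0) (nat_lit 6877775734) (nat_lit 1292) (nat_lit 21732919414) (nat_lit 311) (nat_lit 5) (nat_lit 310) (nat_lit 5) (nat_lit 327) (nat_lit 5) (nat_lit 452) (nat_lit 450) (nat_lit 298))))))))
noncomputable def xc115 : XT := (XT.nd (nat_lit 2028) (nat_lit 3648) (nat_lit 0) (XT.nd (nat_lit 1014) (nat_lit 6080) (nat_lit 0) (XT.nd (nat_lit 468) (nat_lit 3420) (nat_lit 0) (XT.nd (nat_lit 234) (nat_lit 0) (nat_lit 228) (XT.nd (nat_lit 78) (nat_lit 0) (nat_lit 76) (XT.lf (nat_lit 76) (nat_lit 12517395826) (nat_lit 0) (nat_lit 17082272266) (nat_lit 1292) (nat_lit 20566918187) (nat_lit 312) (nat_lit 5) (nat_lit 311) (nat_lit 5) (nat_lit 328) (nat_lit 5) (nat_lit 453) (nat_lit 450) (nat_lit 297)) (XT.nd (nat_lit 78) (nat_lit 0) (nat_lit 76) (XT.lf (nat_lit 76) (nat_lit 4639616992) (nat_lit 0) (nat_lit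 28111664627) (nat_lit 1292) (nat_lit 18690361246) (nat_lit 313) (nat_lit 5) (nat_lit 312) (nat_lit 5) (nat_lit 329) (nat_lit 5) (nat_lit 454) (nat_lit 450) (nat_lit 296)) (XT.lf (nat_lit 0) (nat_lit 36741317049) (nat_lit 1216) (nat_lit 3237136242) (nat_lit 1292) (nat_lit 12781574003) (nat_lit 313) (nat_lit 5) (nat_lit 329) (nat_lit 5) (nat_lit 330) (nat_lit 5) (nat_lit 455) (nat_lit 450) (nat_lit 295)))) (XT.nd (nat_lit 78) (nat_lit 0) (nat_lit 0) (XT.lf (nat_lit 0) (nat_lit 41639691638) (nat_lit 1216) (nat_lit 11076559106) (nat_lit 1292) (nat_lit 1406815322) (nat_lit 314) (nat_lit 5) (nat_lit 330) (nat_lit 5) (nat_lit 331) (nat_lit 5) (nat_lit 456) (nat_lit 450) (nat_lit 294)) (XT.nd (nat_lit 78) (nat_lit 0) (nat_lit 76) (XT.lf (nat_lit 76) (nat_lit 36464587916) (nat_lit 0) (nat_lit 11103578812) (nat_lit 1292) (nat_lit 7962534823) (nat_lit 315) (nat_lit 5) (nat_lit 314) (nat_lit 5) (nat_lit 331)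 (nat_lit 5) (nat_lit 457) (nat_lit 450) (nat_lit 293)) (XT.lf (nat_lit 76) (nat_lit 29875669861) (nat_lit 0) (nat_lit 24630607716) (nat_lit 1292) (nat_lit 2481045093) (nat_lit 316) (nat_lit 5) (nat_lit 315) (nat_lit 5) (nat_lit 332) (nat_lit 5) (nat_lit 458) (nat_lit 450) (nat_lit 292))))) (XT.nd (nat_lit 234) (nat_lit 1748) (nat_lit 0) (XT.nd (nat_lit 78) (nat_lit 760) (nat_lit 0) (XT.lf (nat_lit 0) (nat_lit 3933664619) (nat_lit 1292) (nat_lit 35226807207) (nat_lit 1368) (nat_lit 19333667622) (nat_lit 299) (nat_lit 5) (nat_lit 316) (nat_lit 5) (nat_lit 317) (nat_lit 5) (nat_lit 459) (nat_lit 450) (nat_lit 291)) (XT.nd (nat_lit 78) (nat_lit 836) (nat_lit 0) (XT.lf (nat_lit 0) (nat_lit 11359101512) (nat_lit 1292) (nat_lit 43395120583) (nat_lit 76) (nat_lit 5299099115) (nat_lit 300) (nat_lit 5) (nat_lit 317) (nat_lit 5) (nat_lit 301) (nat_lit 5) (nat_lit 460) (nat_lit 450) (nat_lit 290)) (XT.lf (nat_lit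 0) (nat_lit 9988175020) (nat_lit 836) (nat_lit 10022989307) (nat_lit 912) (nat_lit 41653637295) (nat_lit 289) (nat_lit 5) (nat_lit 300) (nat_lit 5) (nat_lit 301) (nat_lit 5) (nat_lit 461) (nat_lit 450) (nat_lit 289)))) (XT.nd (nat_lit 156) (nat_lit 1140) (nat_lit 0) (XT.nd (nat_lit 78) (nat_lit 0) (nat_lit 0) (XT.lf (nat_lit 0) (nat_lit 3307079850) (nat_lit 608) (nat_lit 26624765687) (nat_lit 684) (nat_lit 33399930233) (nat_lit 281) (nat_lit 5) (nat_lit 289) (nat_lit 5) (nat_lit 290) (nat_lit 5) (nat_lit 462) (nat_lit 450) (nat_lit 288)) (XT.lf (nat_lit 0) (nat_lit 41180942461) (nat_lit 684) (nat_lit 3250573039) (nat_lit 76) (nat_lit 20625611840) (nat_lit 281) (nat_lit 5) (nat_lit 290) (nat_lit 5) (nat_lit 282) (nat_lit 5) (nat_lit 463) (nat_lit 450) (nat_lit 287))) (XT.nd (nat_lit 78) (nat_lit 532) (nat_lit 0) (XT.lf (nat_lit 0) (nat_lit 53841940835) (nat_lit 684) (nat_lit 9668873844) (nat_lit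 76) (nat_lit 3332448572) (nat_lit 273) (nat_lit 5) (nat_lit 282) (nat_lit 5) (nat_lit 274) (nat_lit 5) (nat_lit 464) (nat_lit 450) (nat_lit 286)) (XT.lf (nat_lit 0) (nat_lit 52545566773) (nat_lit 532) (nat_lit 15575972802) (nat_lit 608) (nat_lit 567600018) (nat_lit 266) (nat_lit 5) (nat_lit 273) (nat_lit 5) (nat_lit 274) (nat_lit 5) (nat_lit 465) (nat_lit 450) (nat_lit 285)))))) (XT.nd (nat_lit 468) (nat_lit 2888) (nat_lit 0) (XT.nd (nat_lit 234) (nat_lit 1444) (nat_lit 0) (XT.nd (nat_lit 78) (nat_lit 1064) (nat_lit 0) (XT.lf (nat_lit 0) (nat_lit 13147740953) (nat_lit 684) (nat_lit 22680197208) (nat_lit 76) (nat_lit 34768662080) (nat_lit 257) (nat_lit 5) (nat_lit 266) (nat_lit 5) (nat_lit 258) (nat_lit 5) (nat_lit 466) (nat_lit 450) (nat_lit 284)) (XT.nd (nat_lit 78) (nat_lit 532) (nat_lit 0) (XT.lf (nat_lit 0) (nat_lit 28427085500) (nat_lit 608) (nat_lit 29117500486) (nat_lit 76) (nat_lit 15027980212)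 (nat_lit 250) (nat_lit 5) (nat_lit 258) (nat_lit 5) (nat_lit 251) (nat_lit 5) (nat_lit 467) (nat_lit 450) (nat_lit 283)) (XT.lf (nat_lit 0) (nat_lit 39128522535) (nat_lit 532) (nat_lit 6313784791) (nat_lit 608) (nat_lit 29175865953) (nat_lit 243) (nat_lit 5) (nat_lit 250) (nat_lit 5) (nat_lit 251) (nat_lit 5) (nat_lit 468) (nat_lit 450) (nat_lit 282)))) (XT.nd (nat_lit 78) (nat_lit 988) (nat_lit 0) (XT.lf (nat_lit 0) (nat_lit 34857286133) (nat_lit 456) (nat_lit 29543610378) (nat_lit 532) (nat_lit 12332386134) (nat_lit 237) (nat_lit 5) (nat_lit 243) (nat_lit 5) (nat_lit 244) (nat_lit 5) (nat_lit 469) (nat_lit 450) (nat_lit 281)) (XT.nd (nat_lit 78) (nat_lit 456) (nat_lit 0) (XT.lf (nat_lit 0) (nat_lit 6218567503) (nat_lit 532) (nat_lit 48166851760) (nat_lit 76) (nat_lit 24538091720) (nat_lit 230) (nat_lit 5) (nat_lit 237) (nat_lit 5) (nat_lit 231) (nat_lit 5) (nat_lit 470) (nat_lit 450) (nat_lit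 280)) (XT.lf (nat_lit 0) (nat_lit 26437200486) (nat_lit 532) (nat_lit 54413569593) (nat_lit 76) (nat_lit 338962151) (nat_lit 224) (nat_lit 5) (nat_lit 231) (nat_lit 5) (nat_lit 225) (nat_lit 5) (nat_lit 471) (nat_lit 450) (nat_lit 279))))) (XT.nd (nat_lit 234) (nat_lit 1520) (nat_lit 0) (XT.nd (nat_lit 78) (nat_lit 912) (nat_lit 0) (XT.lf (nat_lit 0) (nat_lit 22807963254) (nat_lit 456) (nat_lit 26126299344) (nat_lit 532) (nat_lit 34596977117) (nat_lit 218) (nat_lit 5) (nat_lit 224) (nat_lit 5) (nat_lit 225) (nat_lit 5) (nat_lit 472) (nat_lit 450) (nat_lit 278)) (XT.nd (nat_lit 78) (nat_lit 532) (nat_lit 0) (XT.lf (nat_lit 0) (nat_lit 19119232500) (nat_lit 380) (nat_lit 54486253600) (nat_lit 456) (nat_lit 12352857322) (nat_lit 213) (nat_lit 5) (nat_lit 218) (nat_lit 5) (nat_lit 219) (nat_lit 5) (nat_lit 473) (nat_lit 450) (nat_lit 277)) (XT.lf (nat_lit 0) (nat_lit 11869778532) (nat_lit 532) (nat_lit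 72846098731) (nat_lit 76) (nat_lit 3755321158) (nat_lit 206) (nat_lit 5) (nat_lit 213) (nat_lit 5) (nat_lit 207) (nat_lit 5) (nat_lit 474) (nat_lit 450) (nat_lit 276)))) (XT.nd (nat_lit 156) (nat_lit 760) (nat_lit 0) (XT.nd (nat_lit 78) (nat_lit 380) (nat_lit 0) (XT.lf (nat_lit 0) (nat_lit 12072650414) (nat_lit 380) (nat_lit 26337360367) (nat_lit 456) (nat_lit 52655158087) (nat_lit 201) (nat_lit 5) (nat_lit 206) (nat_lit 5) (nat_lit 207) (nat_lit 5) (nat_lit 475) (nat_lit 450) (nat_lit 275)) (XT.lf (nat_lit 0) (nat_lit 8820210319) (nat_lit 380) (nat_lit 58633950833) (nat_lit 456) (nat_lit 26299369572) (nat_lit 196) (nat_lit 5) (nat_lit 201) (nat_lit 5) (nat_lit 202) (nat_lit 5) (nat_lit 476) (nat_lit 450) (nat_lit 274))) (XT.nd (nat_lit 78) (nat_lit 380) (nat_lit 0) (XT.lf (nat_lit 0) (nat_lit 2523660958) (nat_lit 380) (nat_lit 90625158160) (nat_lit 76) (nat_lit 3391807286) (nat_lit 191) (nat_lit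 5) (nat_lit 196) (nat_lit 5) (nat_lit 192) (nat_lit 5) (nat_lit 477) (nat_lit 450) (nat_lit 273)) (XT.lf (nat_lit 0) (nat_lit 2828341714) (nat_lit 380) (nat_lit 30921433101) (nat_lit 456) (nat_lit 65664315137) (nat_lit 186) (nat_lit 5) (nat_lit 191) (nat_lit 5) (nat_lit 192) (nat_lit 5) (nat_lit 478) (nat_lit 450) (nat_lit 272))))))) (XT.nd (nat_lit 60294) (nat_lit 0) (nat_lit 10868) (XT.nd (nat_lit 468) (nat_lit 1976) (nat_lit 0) (XT.nd (nat_lit 234) (nat_lit 988) (nat_lit 0) (XT.nd (nat_lit 78) (nat_lit 380) (nat_lit 0) (XT.lf (nat_lit 0) (nat_lit 105428298) (nat_lit 304) (nat_lit 67704621281) (nat_lit 380) (nat_lit 34582991509) (nat_lit 182) (nat_lit 5) (nat_lit 186) (nat_lit 5) (nat_lit 187) (nat_lit 5) (nat_lit 479) (nat_lit 450) (nat_lit 271)) (XT.nd (nat_lit 78) (nat_lit 380) (nat_lit 0) (XT.lf (nat_lit 0) (nat_lit 103329631243) (nat_lit 304) (nat_lit 1545907458) (nat_lit 380) (nat_lit 606335126)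 (nat_lit 182) (nat_lit 5) (nat_lit 186) (nat_lit 5) (nat_lit 187) (nat_lit 5) (nat_lit 480) (nat_lit 450) (nat_lit 270)) (XT.lf (nat_lit 0) (nat_lit 36056346475) (nat_lit 380) (nat_lit 4656844541) (nat_lit 76) (nat_lit 67951698525) (nat_lit 177) (nat_lit 5) (nat_lit 182) (nat_lit 5) (nat_lit 178) (nat_lit 5) (nat_lit 481) (nat_lit 450) (nat_lit 269)))) (XT.nd (nat_lit 78) (nat_lit 684) (nat_lit 0) (XT.lf (nat_lit 0) (nat_lit 75879303221) (nat_lit 380) (nat_lit 6712155772) (nat_lit 76) (nat_lit 29375226574) (nat_lit 173) (nat_lit 5) (nat_lit 178) (nat_lit 5) (nat_lit 174) (nat_lit 5) (nat_lit 482) (nat_lit 450) (nat_lit 268)) (XT.nd (nat_lit 78) (nat_lit 304) (nat_lit 0) (XT.lf (nat_lit 0) (nat_lit 3717369770) (nat_lit 380) (nat_lit 8423660293) (nat_lit 76) (nat_lit 103246840769) (nat_lit 168) (nat_lit 5) (nat_lit 173) (nat_lit 5) (nat_lit 169) (nat_lit 5) (nat_lit 483) (nat_lit 450) (nat_lit 267))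 (XT.lf (nat_lit 0) (nat_lit 46501015746) (nat_lit 380) (nat_lit 10292546837) (nat_lit 76) (nat_lit 62123783840) (nat_lit 164) (nat_lit 5) (nat_lit 169) (nat_lit 5) (nat_lit 165) (nat_lit 5) (nat_lit 484) (nat_lit 450) (nat_lit 266))))) (XT.nd (nat_lit 234) (nat_lit 1064) (nat_lit 0) (XT.nd (nat_lit 78) (nat_lit 608) (nat_lit 0) (XT.lf (nat_lit 0) (nat_lit 92878307743) (nat_lit 380) (nat_lit 11637463788) (nat_lit 76) (nat_lit 18063890401) (nat_lit 160) (nat_lit 5) (nat_lit 165) (nat_lit 5) (nat_lit 161) (nat_lit 5) (nat_lit 485) (nat_lit 450) (nat_lit 265)) (XT.nd (nat_lit 78) (nat_lit 304) (nat_lit 0) (XT.lf (nat_lit 0) (nat_lit 16643317930) (nat_lit 304) (nat_lit 12860768656) (nat_lit 76) (nat_lit 96862950954) (nat_lit 156) (nat_lit 5) (nat_lit 160) (nat_lit 5) (nat_lit 157) (nat_lit 5) (nat_lit 486) (nat_lit 450) (nat_lit 264)) (XT.lf (nat_lit 0) (nat_lit 66428151664) (nat_lit 380) (nat_lit 13999541555)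 (nat_lit 76) (nat_lit 49855150641) (nat_lit 152) (nat_lit 5) (nat_lit 157) (nat_lit 5) (nat_lit 153) (nat_lit 5) (nat_lit 487) (nat_lit 450) (nat_lit 263)))) (XT.nd (nat_lit 156) (nat_lit 532) (nat_lit 0) (XT.nd (nat_lit 78) (nat_lit 304) (nat_lit 0) (XT.lf (nat_lit 0) (nat_lit 119800099840) (nat_lit 228) (nat_lit 484339144) (nat_lit 304) (nat_lit 14062535193) (nat_lit 149) (nat_lit 5) (nat_lit 152) (nat_lit 5) (nat_lit 153) (nat_lit 5) (nat_lit 488) (nat_lit 450) (nat_lit 262)) (XT.lf (nat_lit 0) (nat_lit 39629408574) (nat_lit 304) (nat_lit 15360067270) (nat_lit 76) (nat_lit 83549134393) (nat_lit 145) (nat_lit 5) (nat_lit 149) (nat_lit 5) (nat_lit 146) (nat_lit 5) (nat_lit 489) (nat_lit 450) (nat_lit 261))) (XT.nd (nat_lit 78) (nat_lit 304) (nat_lit 0) (XT.lf (nat_lit 0) (nat_lit 97390896367) (nat_lit 304) (nat_lit 15689196475) (nat_lit 76) (nat_lit 29805284853) (nat_lit 142) (nat_lit 5) (nat_lit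 146) (nat_lit 5) (nat_lit 143) (nat_lit 5) (nat_lit 490) (nat_lit 450) (nat_lit 260)) (XT.lf (nat_lit 0) (nat_lit 12384467308) (nat_lit 304) (nat_lit 15741611605) (nat_lit 76) (nat_lit 119260345627) (nat_lit 138) (nat_lit 5) (nat_lit 142) (nat_lit 5) (nat_lit 139) (nat_lit 5) (nat_lit 491) (nat_lit 450) (nat_lit 259)))))) (XT.nd (nat_lit 546) (nat_lit 2128) (nat_lit 0) (XT.nd (nat_lit 234) (nat_lit 0) (nat_lit 152) (XT.nd (nat_lit 78) (nat_lit 0) (nat_lit 76) (XT.lf (nat_lit 0) (nat_lit 12948925859) (nat_lit 1292) (nat_lit 5754061918) (nat_lit 1292) (nat_lit 5754061918) (nat_lit 309) (nat_lit 3) (nat_lit 326) (nat_lit 3) (nat_lit 326) (nat_lit 5) (nat_lit 451) (nat_lit 451) (nat_lit 298)) (XT.nd (nat_lit 78) (nat_lit 0) (nat_lit 0) (XT.lf (nat_lit 0) (nat_lit 26898931047) (nat_lit 1216) (nat_lit 20650944639) (nat_lit 1292) (nat_lit 2576463055) (nat_lit 310) (nat_lit 5) (nat_lit 326) (nat_lit 5)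 (nat_lit 327) (nat_lit 5) (nat_lit 452) (nat_lit 451) (nat_lit 297)) (XT.lf (nat_lit 76) (nat_lit 21390007429) (nat_lit 0) (nat_lit 7259988992) (nat_lit 1292) (nat_lit 22728195943) (nat_lit 311) (nat_lit 5) (nat_lit 310) (nat_lit 5) (nat_lit 327) (nat_lit 5) (nat_lit 453) (nat_lit 451) (nat_lit 296)))) (XT.nd (nat_lit 156) (nat_lit 0) (nat_lit 152) (XT.nd (nat_lit 78) (nat_lit 0) (nat_lit 76) (XT.lf (nat_lit 76) (nat_lit 13195147903) (nat_lit 0) (nat_lit 17969127918) (nat_lit 1292) (nat_lit 21508093275) (nat_lit 312) (nat_lit 5) (nat_lit 311) (nat_lit 5) (nat_lit 328) (nat_lit 5) (nat_lit 454) (nat_lit 451) (nat_lit 295)) (XT.lf (nat_lit 76) (nat_lit 4924772148) (nat_lit 0) (nat_lit 29544879540) (nat_lit 1292) (nat_lit 19541641742) (nat_lit 313) (nat_lit 5) (nat_lit 312) (nat_lit 5) (nat_lit 329) (nat_lit 5) (nat_lit 455) (nat_lit 451) (nat_lit 294))) (XT.nd (nat_lit 78) (nat_lit 0) (nat_lit 76)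 (XT.lf (nat_lit 0) (nat_lit 38655088022) (nat_lit 1216) (nat_lit 3345782105) (nat_lit 1292) (nat_lit 13394850334) (nat_lit 313) (nat_lit 5) (nat_lit 329) (nat_lit 5) (nat_lit 330) (nat_lit 5) (nat_lit 456) (nat_lit 451) (nat_lit 293)) (XT.lf (nat_lit 0) (nat_lit 43795015383) (nat_lit 1216) (nat_lit 11576278036) (nat_lit 1292) (nat_lit 1455719065) (nat_lit 314) (nat_lit 5) (nat_lit 330) (nat_lit 5) (nat_lit 331) (nat_lit 5) (nat_lit 457) (nat_lit 451) (nat_lit 292))))) (XT.nd (nat_lit 234) (nat_lit 1368) (nat_lit 0) (XT.nd (nat_lit 78) (nat_lit 1140) (nat_lit 0) (XT.lf (nat_lit 76) (nat_lit 38340375312) (nat_lit 0) (nat_lit 11676551794) (nat_lit 1292) (nat_lit 8288192571) (nat_lit 315) (nat_lit 5) (nat_lit 314) (nat_lit 5) (nat_lit 331) (nat_lit 5) (nat_lit 458) (nat_lit 451) (nat_lit 291)) (XT.nd (nat_lit 78) (nat_lit 1216) (nat_lit 0) (XT.lf (nat_lit 76) (nat_lit 31422727203) (nat_lit 0) (nat_lit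 25876215395) (nat_lit 1292) (nat_lit 2535719584) (nat_lit 316) (nat_lit 5) (nat_lit 315) (nat_lit 5) (nat_lit 332) (nat_lit 5) (nat_lit 459) (nat_lit 451) (nat_lit 290)) (XT.lf (nat_lit 0) (nat_lit 4195525148) (nat_lit 1292) (nat_lit 36932998051) (nat_lit 1368) (nat_lit 20288362276) (nat_lit 299) (nat_lit 5) (nat_lit 316) (nat_lit 5) (nat_lit 317) (nat_lit 5) (nat_lit 460) (nat_lit 451) (nat_lit 289)))) (XT.nd (nat_lit 156) (nat_lit 608) (nat_lit 0) (XT.nd (nat_lit 78) (nat_lit 836) (nat_lit 0) (XT.lf (nat_lit 0) (nat_lit 11989558435) (nat_lit 1292) (nat_lit 45509338225) (nat_lit 76) (nat_lit 5555210196) (nat_lit 300) (nat_lit 5) (nat_lit 317) (nat_lit 5) (nat_lit 301) (nat_lit 5) (nat_lit 461) (nat_lit 451) (nat_lit 288)) (XT.lf (nat_lit 0) (nat_lit 10541530161) (nat_lit 836) (nat_lit 10530236516) (nat_lit 912) (nat_lit 43674468597) (nat_lit 289) (nat_lit 5) (nat_lit 300) (nat_lit 5) (nat_lit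 301) (nat_lit 5) (nat_lit 462) (nat_lit 451) (nat_lit 287))) (XT.nd (nat_lit 78) (nat_lit 0) (nat_lit 0) (XT.lf (nat_lit 0) (nat_lit 3526645453) (nat_lit 608) (nat_lit 27959442542) (nat_lit 684) (nat_lit 35010542197) (nat_lit 281) (nat_lit 5) (nat_lit 289) (nat_lit 5) (nat_lit 290) (nat_lit 5) (nat_lit 463) (nat_lit 451) (nat_lit 286)) (XT.lf (nat_lit 0) (nat_lit 43294863039) (nat_lit 684) (nat_lit 3359788329) (nat_lit 76) (nat_lit 21653681507) (nat_lit 281) (nat_lit 5) (nat_lit 290) (nat_lit 5) (nat_lit 282) (nat_lit 5) (nat_lit 464) (nat_lit 451) (nat_lit 285))))))))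
noncomputable def xc116 : XT := (XT.nd (nat_lit 61464) (nat_lit 0) (nat_lit 3876) (XT.nd (nat_lit 1014) (nat_lit 3876) (nat_lit 0) (XT.nd (nat_lit 468) (nat_lit 3116) (nat_lit 0) (XT.nd (nat_lit 234) (nat_lit 1520) (nat_lit 0) (XT.nd (nat_lit 78) (nat_lit 1216) (nat_lit 0) (XT.lf (nat_lit 0) (nat_lit 56586786746) (nat_lit 684) (nat_lit 10098935880) (nat_lit 76) (nat_lit 3498116911) (nat_lit 273) (nat_lit 5) (nat_lit 282) (nat_lit 5) (nat_lit 274) (nat_lit 5) (nat_lit 465) (nat_lit 451) (nat_lit 284)) (XT.nd (nat_lit 78) (nat_lit 684) (nat_lit 0) (XT.lf (nat_lit 0) (nat_lit 55224696593) (nat_lit 532) (nat_lit 16353655408) (nat_lit 608) (nat_lit 543718309) (nat_lit 266) (nat_lit 5) (nat_lit 273) (nat_lit 5) (nat_lit 274) (nat_lit 5) (nat_lit 466) (nat_lit 451) (nat_lit 283)) (XT.lf (nat_lit 0) (nat_lit 13854443349) (nat_lit 684) (nat_lit 23761384453) (nat_lit 76) (nat_lit 36509119108) (nat_lit 257)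 (nat_lit 5) (nat_lit 266) (nat_lit 5) (nat_lit 258) (nat_lit 5) (nat_lit 467) (nat_lit 451) (nat_lit 282)))) (XT.nd (nat_lit 78) (nat_lit 988) (nat_lit 0) (XT.lf (nat_lit 0) (nat_lit 29895936974) (nat_lit 608) (nat_lit 30520676533) (nat_lit 76) (nat_lit 15783152388) (nat_lit 250) (nat_lit 5) (nat_lit 258) (nat_lit 5) (nat_lit 251) (nat_lit 5) (nat_lit 468) (nat_lit 451) (nat_lit 281)) (XT.nd (nat_lit 78) (nat_lit 456) (nat_lit 0) (XT.lf (nat_lit 0) (nat_lit 41136137034) (nat_lit 532) (nat_lit 6624013140) (nat_lit 608) (nat_lit 30587556423) (nat_lit 243) (nat_lit 5) (nat_lit 250) (nat_lit 5) (nat_lit 251) (nat_lit 5) (nat_lit 469) (nat_lit 451) (nat_lit 280)) (XT.lf (nat_lit 0) (nat_lit 36651156442) (nat_lit 456) (nat_lit 31013875172) (nat_lit 532) (nat_lit 12903589101) (nat_lit 237) (nat_lit 5) (nat_lit 243) (nat_lit 5) (nat_lit 244) (nat_lit 5) (nat_lit 470) (nat_lit 451) (nat_lit 279))))) (XT.nd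 (nat_lit 234) (nat_lit 1672) (nat_lit 0) (XT.nd (nat_lit 78) (nat_lit 912) (nat_lit 0) (XT.lf (nat_lit 0) (nat_lit 6572462279) (nat_lit 532) (nat_lit 50523568728) (nat_lit 76) (nat_lit 25772363432) (nat_lit 230) (nat_lit 5) (nat_lit 237) (nat_lit 5) (nat_lit 231) (nat_lit 5) (nat_lit 471) (nat_lit 451) (nat_lit 278)) (XT.nd (nat_lit 78) (nat_lit 456) (nat_lit 0) (XT.lf (nat_lit 0) (nat_lit 27800546970) (nat_lit 532) (nat_lit 57082941311) (nat_lit 76) (nat_lit 364483012) (nat_lit 224) (nat_lit 5) (nat_lit 231) (nat_lit 5) (nat_lit 225) (nat_lit 5) (nat_lit 472) (nat_lit 451) (nat_lit 277)) (XT.lf (nat_lit 0) (nat_lit 23998197480) (nat_lit 456) (nat_lit 27422768216) (nat_lit 532) (nat_lit 36285633492) (nat_lit 218) (nat_lit 5) (nat_lit 224) (nat_lit 5) (nat_lit 225) (nat_lit 5) (nat_lit 473) (nat_lit 451) (nat_lit 276)))) (XT.nd (nat_lit 156) (nat_lit 760) (nat_lit 0) (XT.nd (nat_lit 78) (nat_lit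 532) (nat_lit 0) (XT.lf (nat_lit 0) (nat_lit 20124677757) (nat_lit 380) (nat_lit 57199734140) (nat_lit 456) (nat_lit 12930686473) (nat_lit 213) (nat_lit 5) (nat_lit 218) (nat_lit 5) (nat_lit 219) (nat_lit 5) (nat_lit 474) (nat_lit 451) (nat_lit 275)) (XT.lf (nat_lit 0) (nat_lit 12501022101) (nat_lit 532) (nat_lit 76438556838) (nat_lit 76) (nat_lit 3954044286) (nat_lit 206) (nat_lit 5) (nat_lit 213) (nat_lit 5) (nat_lit 207) (nat_lit 5) (nat_lit 475) (nat_lit 451) (nat_lit 274))) (XT.nd (nat_lit 78) (nat_lit 380) (nat_lit 0) (XT.lf (nat_lit 0) (nat_lit 12724700916) (nat_lit 380) (nat_lit 27642232631) (nat_lit 456) (nat_lit 55250398739) (nat_lit 201) (nat_lit 5) (nat_lit 206) (nat_lit 5) (nat_lit 207) (nat_lit 5) (nat_lit 476) (nat_lit 451) (nat_lit 273)) (XT.lf (nat_lit 0) (nat_lit 9309202556) (nat_lit 380) (nat_lit 61552925538) (nat_lit 456) (nat_lit 27578019153) (nat_lit 196) (nat_lit 5) (nat_lit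 201) (nat_lit 5) (nat_lit 202) (nat_lit 5) (nat_lit 477) (nat_lit 451) (nat_lit 272)))))) (XT.nd (nat_lit 468) (nat_lit 2128) (nat_lit 0) (XT.nd (nat_lit 234) (nat_lit 684) (nat_lit 0) (XT.nd (nat_lit 78) (nat_lit 684) (nat_lit 0) (XT.lf (nat_lit 0) (nat_lit 2684337383) (nat_lit 380) (nat_lit 95108210336) (nat_lit 76) (nat_lit 3574073127) (nat_lit 191) (nat_lit 5) (nat_lit 196) (nat_lit 5) (nat_lit 192) (nat_lit 5) (nat_lit 478) (nat_lit 451) (nat_lit 271)) (XT.nd (nat_lit 78) (nat_lit 304) (nat_lit 0) (XT.lf (nat_lit 0) (nat_lit 3016582724) (nat_lit 380) (nat_lit 32453981767) (nat_lit 456) (nat_lit 68913228951) (nat_lit 186) (nat_lit 5) (nat_lit 191) (nat_lit 5) (nat_lit 192) (nat_lit 5) (nat_lit 479) (nat_lit 451) (nat_lit 270)) (XT.lf (nat_lit 0) (nat_lit 157027486) (nat_lit 304) (nat_lit 71075808880) (nat_lit 380) (nat_lit 36278886363) (nat_lit 182) (nat_lit 5) (nat_lit 186) (nat_lit 5) (nat_lit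 187) (nat_lit 5) (nat_lit 480) (nat_lit 451) (nat_lit 269)))) (XT.nd (nat_lit 78) (nat_lit 684) (nat_lit 0) (XT.lf (nat_lit 0) (nat_lit 108540234495) (nat_lit 304) (nat_lit 1609828102) (nat_lit 380) (nat_lit 604980718) (nat_lit 182) (nat_lit 5) (nat_lit 186) (nat_lit 5) (nat_lit 187) (nat_lit 5) (nat_lit 481) (nat_lit 451) (nat_lit 268)) (XT.nd (nat_lit 78) (nat_lit 304) (nat_lit 0) (XT.lf (nat_lit 0) (nat_lit 37889285428) (nat_lit 380) (nat_lit 4845455848) (nat_lit 76) (nat_lit 71362487433) (nat_lit 177) (nat_lit 5) (nat_lit 182) (nat_lit 5) (nat_lit 178) (nat_lit 5) (nat_lit 482) (nat_lit 451) (nat_lit 267)) (XT.lf (nat_lit 0) (nat_lit 79702501892) (nat_lit 380) (nat_lit 7004059181) (nat_lit 76) (nat_lit 30857580185) (nat_lit 173) (nat_lit 5) (nat_lit 178) (nat_lit 5) (nat_lit 174) (nat_lit 5) (nat_lit 483) (nat_lit 451) (nat_lit 266))))) (XT.nd (nat_lit 234) (nat_lit 1140) (nat_lit 0) (XT.nd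 (nat_lit 78) (nat_lit 608) (nat_lit 0) (XT.lf (nat_lit 0) (nat_lit 3931768942) (nat_lit 380) (nat_lit 8801822427) (nat_lit 76) (nat_lit 108422815622) (nat_lit 168) (nat_lit 5) (nat_lit 173) (nat_lit 5) (nat_lit 169) (nat_lit 5) (nat_lit 484) (nat_lit 451) (nat_lit 265)) (XT.nd (nat_lit 78) (nat_lit 304) (nat_lit 0) (XT.lf (nat_lit 0) (nat_lit 48853776935) (nat_lit 380) (nat_lit 10764694512) (nat_lit 76) (nat_lit 65243909594) (nat_lit 164) (nat_lit 5) (nat_lit 169) (nat_lit 5) (nat_lit 165) (nat_lit 5) (nat_lit 485) (nat_lit 451) (nat_lit 264)) (XT.lf (nat_lit 0) (nat_lit 97549149761) (nat_lit 380) (nat_lit 12177409169) (nat_lit 76) (nat_lit 18981276974) (nat_lit 160) (nat_lit 5) (nat_lit 165) (nat_lit 5) (nat_lit 161) (nat_lit 5) (nat_lit 486) (nat_lit 451) (nat_lit 263)))) (XT.nd (nat_lit 156) (nat_lit 532) (nat_lit 0) (XT.nd (nat_lit 78) (nat_lit 304) (nat_lit 0) (XT.lf (nat_lit 0) (nat_lit 17501778739)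 (nat_lit 304) (nat_lit 13462556587) (nat_lit 76) (nat_lit 101720264018) (nat_lit 156) (nat_lit 5) (nat_lit 160) (nat_lit 5) (nat_lit 157) (nat_lit 5) (nat_lit 487) (nat_lit 451) (nat_lit 262)) (XT.lf (nat_lit 0) (nat_lit 69775127910) (nat_lit 380) (nat_lit 14658827293) (nat_lit 76) (nat_lit 52362262623) (nat_lit 152) (nat_lit 5) (nat_lit 157) (nat_lit 5) (nat_lit 153) (nat_lit 5) (nat_lit 488) (nat_lit 451) (nat_lit 261))) (XT.nd (nat_lit 78) (nat_lit 304) (nat_lit 0) (XT.lf (nat_lit 0) (nat_lit 125829629763) (nat_lit 228) (nat_lit 493762215) (nat_lit 304) (nat_lit 14740187865) (nat_lit 149) (nat_lit 5) (nat_lit 152) (nat_lit 5) (nat_lit 153) (nat_lit 5) (nat_lit 489) (nat_lit 451) (nat_lit 260)) (XT.lf (nat_lit 0) (nat_lit 41635181762) (nat_lit 304) (nat_lit 16088610364) (nat_lit 76) (nat_lit 87741018512) (nat_lit 145) (nat_lit 5) (nat_lit 149) (nat_lit 5) (nat_lit 146) (nat_lit 5) (nat_lit 490)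 (nat_lit 451) (nat_lit 259))))))) (XT.nd (nat_lit 1014) (nat_lit 6460) (nat_lit 0) (XT.nd (nat_lit 468) (nat_lit 2128) (nat_lit 0) (XT.nd (nat_lit 234) (nat_lit 0) (nat_lit 152) (XT.nd (nat_lit 78) (nat_lit 0) (nat_lit 76) (XT.lf (nat_lit 0) (nat_lit 13640460867) (nat_lit 1292) (nat_lit 6019057286) (nat_lit 1292) (nat_lit 6019057286) (nat_lit 309) (nat_lit 3) (nat_lit 326) (nat_lit 3) (nat_lit 326) (nat_lit 5) (nat_lit 452) (nat_lit 452) (nat_lit 296)) (XT.nd (nat_lit 78) (nat_lit 0) (nat_lit 0) (XT.lf (nat_lit 0) (nat_lit 28327892871) (nat_lit 1216) (nat_lit 21636451116) (nat_lit 1292) (nat_lit 2665783467) (nat_lit 310) (nat_lit 5) (nat_lit 326) (nat_lit 5) (nat_lit 327) (nat_lit 5) (nat_lit 453) (nat_lit 452) (nat_lit 295)) (XT.lf (nat_lit 76) (nat_lit 22505200142) (nat_lit 0) (nat_lit 7657749866) (nat_lit 1292) (nat_lit 23781730963) (nat_lit 311) (nat_lit 5) (nat_lit 310) (nat_lit 5) (nat_lit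 327) (nat_lit 5) (nat_lit 454) (nat_lit 452) (nat_lit 294)))) (XT.nd (nat_lit 78) (nat_lit 0) (nat_lit 76) (XT.lf (nat_lit 76) (nat_lit 13901964061) (nat_lit 0) (nat_lit 18897282307) (nat_lit 1292) (nat_lit 22504431435) (nat_lit 312) (nat_lit 5) (nat_lit 311) (nat_lit 5) (nat_lit 328) (nat_lit 5) (nat_lit 455) (nat_lit 452) (nat_lit 293)) (XT.nd (nat_lit 78) (nat_lit 0) (nat_lit 76) (XT.lf (nat_lit 76) (nat_lit 5219241420) (nat_lit 0) (nat_lit 31047186267) (nat_lit 1292) (nat_lit 20443224904) (nat_lit 313) (nat_lit 5) (nat_lit 312) (nat_lit 5) (nat_lit 329) (nat_lit 5) (nat_lit 456) (nat_lit 452) (nat_lit 292)) (XT.lf (nat_lit 0) (nat_lit 40657416228) (nat_lit 1216) (nat_lit 3464807310) (nat_lit 1292) (nat_lit 14041189341) (nat_lit 313) (nat_lit 5) (nat_lit 329) (nat_lit 5) (nat_lit 330) (nat_lit 5) (nat_lit 457) (nat_lit 452) (nat_lit 291))))) (XT.nd (nat_lit 234) (nat_lit 2508) (nat_lit 0) (XT.nd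 (nat_lit 78) (nat_lit 0) (nat_lit 0) (XT.lf (nat_lit 0) (nat_lit 46051286935) (nat_lit 1216) (nat_lit 12106013458) (nat_lit 1292) (nat_lit 1509061007) (nat_lit 314) (nat_lit 5) (nat_lit 330) (nat_lit 5) (nat_lit 331) (nat_lit 5) (nat_lit 458) (nat_lit 452) (nat_lit 290)) (XT.nd (nat_lit 78) (nat_lit 0) (nat_lit 76) (XT.lf (nat_lit 76) (nat_lit 40305065734) (nat_lit 0) (nat_lit 12276519103) (nat_lit 1292) (nat_lit 8636870687) (nat_lit 315) (nat_lit 5) (nat_lit 314) (nat_lit 5) (nat_lit 331) (nat_lit 5) (nat_lit 459) (nat_lit 452) (nat_lit 289)) (XT.lf (nat_lit 76) (nat_lit 33042184515) (nat_lit 0) (nat_lit 27182794685) (nat_lit 1292) (nat_lit 2599577887) (nat_lit 316) (nat_lit 5) (nat_lit 315) (nat_lit 5) (nat_lit 332) (nat_lit 5) (nat_lit 460) (nat_lit 452) (nat_lit 288)))) (XT.nd (nat_lit 156) (nat_lit 1368) (nat_lit 0) (XT.nd (nat_lit 78) (nat_lit 0) (nat_lit 76) (XT.lf (nat_lit 0) (nat_lit 4464419136)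 (nat_lit 1292) (nat_lit 38729625716) (nat_lit 1368) (nat_lit 21291906260) (nat_lit 299) (nat_lit 5) (nat_lit 316) (nat_lit 5) (nat_lit 317) (nat_lit 5) (nat_lit 461) (nat_lit 452) (nat_lit 287)) (XT.lf (nat_lit 0) (nat_lit 12645727375) (nat_lit 1292) (nat_lit 47734430182) (nat_lit 76) (nat_lit 5824949051) (nat_lit 300) (nat_lit 5) (nat_lit 317) (nat_lit 5) (nat_lit 301) (nat_lit 5) (nat_lit 462) (nat_lit 452) (nat_lit 286))) (XT.nd (nat_lit 78) (nat_lit 608) (nat_lit 0) (XT.lf (nat_lit 0) (nat_lit 11117537636) (nat_lit 836) (nat_lit 11062279175) (nat_lit 912) (nat_lit 45802091743) (nat_lit 289) (nat_lit 5) (nat_lit 300) (nat_lit 5) (nat_lit 301) (nat_lit 5) (nat_lit 463) (nat_lit 452) (nat_lit 285)) (XT.lf (nat_lit 0) (nat_lit 3752149254) (nat_lit 608) (nat_lit 29360533554) (nat_lit 684) (nat_lit 36707205771) (nat_lit 281) (nat_lit 5) (nat_lit 289) (nat_lit 5) (nat_lit 290) (nat_lit 5) (nat_lit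 464) (nat_lit 452) (nat_lit 284)))))) (XT.nd (nat_lit 546) (nat_lit 3116) (nat_lit 0) (XT.nd (nat_lit 234) (nat_lit 2204) (nat_lit 0) (XT.nd (nat_lit 78) (nat_lit 1140) (nat_lit 0) (XT.lf (nat_lit 0) (nat_lit 45509378032) (nat_lit 684) (nat_lit 3479420954) (nat_lit 76) (nat_lit 22733453178) (nat_lit 281) (nat_lit 5) (nat_lit 290) (nat_lit 5) (nat_lit 282) (nat_lit 5) (nat_lit 465) (nat_lit 452) (nat_lit 283)) (XT.nd (nat_lit 78) (nat_lit 532) (nat_lit 0) (XT.lf (nat_lit 0) (nat_lit 59463970863) (nat_lit 684) (nat_lit 10555463940) (nat_lit 76) (nat_lit 3672157369) (nat_lit 273) (nat_lit 5) (nat_lit 282) (nat_lit 5) (nat_lit 274) (nat_lit 5) (nat_lit 466) (nat_lit 452) (nat_lit 282)) (XT.lf (nat_lit 0) (nat_lit 58032962244) (nat_lit 532) (nat_lit 17170325903) (nat_lit 608) (nat_lit 523501314) (nat_lit 266) (nat_lit 5) (nat_lit 273) (nat_lit 5) (nat_lit 274) (nat_lit 5) (nat_lit 467) (nat_lit 452)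 (nat_lit 281)))) (XT.nd (nat_lit 156) (nat_lit 988) (nat_lit 0) (XT.nd (nat_lit 78) (nat_lit 532) (nat_lit 0) (XT.lf (nat_lit 0) (nat_lit 14591895991) (nat_lit 684) (nat_lit 24901542006) (nat_lit 76) (nat_lit 38336410822) (nat_lit 257) (nat_lit 5) (nat_lit 266) (nat_lit 5) (nat_lit 258) (nat_lit 5) (nat_lit 468) (nat_lit 452) (nat_lit 280)) (XT.lf (nat_lit 0) (nat_lit 31433815182) (nat_lit 608) (nat_lit 31998910833) (nat_lit 76) (nat_lit 16575732380) (nat_lit 250) (nat_lit 5) (nat_lit 258) (nat_lit 5) (nat_lit 251) (nat_lit 5) (nat_lit 469) (nat_lit 452) (nat_lit 279))) (XT.nd (nat_lit 78) (nat_lit 456) (nat_lit 0) (XT.lf (nat_lit 0) (nat_lit 43239373248) (nat_lit 532) (nat_lit 6950260607) (nat_lit 608) (nat_lit 32074210591) (nat_lit 243) (nat_lit 5) (nat_lit 250) (nat_lit 5) (nat_lit 251) (nat_lit 5) (nat_lit 470) (nat_lit 452) (nat_lit 278)) (XT.lf (nat_lit 0) (nat_lit 38529978211) (nat_lit 456)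 (nat_lit 32558296164) (nat_lit 532) (nat_lit 13507574598) (nat_lit 237) (nat_lit 5) (nat_lit 243) (nat_lit 5) (nat_lit 244) (nat_lit 5) (nat_lit 471) (nat_lit 452) (nat_lit 277))))) (XT.nd (nat_lit 234) (nat_lit 1672) (nat_lit 0) (XT.nd (nat_lit 78) (nat_lit 912) (nat_lit 0) (XT.lf (nat_lit 0) (nat_lit 6940057184) (nat_lit 532) (nat_lit 53002921205) (nat_lit 76) (nat_lit 27067663805) (nat_lit 230) (nat_lit 5) (nat_lit 237) (nat_lit 5) (nat_lit 231) (nat_lit 5) (nat_lit 472) (nat_lit 452) (nat_lit 276)) (XT.nd (nat_lit 78) (nat_lit 456) (nat_lit 0) (XT.lf (nat_lit 0) (nat_lit 29228203761) (nat_lit 532) (nat_lit 59890551632) (nat_lit 76) (nat_lit 390482904) (nat_lit 224) (nat_lit 5) (nat_lit 231) (nat_lit 5) (nat_lit 225) (nat_lit 5) (nat_lit 473) (nat_lit 452) (nat_lit 275)) (XT.lf (nat_lit 0) (nat_lit 25243310133) (nat_lit 456) (nat_lit 28784975929) (nat_lit 532) (nat_lit 38062552373) (nat_lit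 218) (nat_lit 5) (nat_lit 224) (nat_lit 5) (nat_lit 225) (nat_lit 5) (nat_lit 474) (nat_lit 452) (nat_lit 274)))) (XT.nd (nat_lit 156) (nat_lit 760) (nat_lit 0) (XT.nd (nat_lit 78) (nat_lit 532) (nat_lit 0) (XT.lf (nat_lit 0) (nat_lit 21175794757) (nat_lit 380) (nat_lit 60049895777) (nat_lit 456) (nat_lit 13541108584) (nat_lit 213) (nat_lit 5) (nat_lit 218) (nat_lit 5) (nat_lit 219) (nat_lit 5) (nat_lit 475) (nat_lit 452) (nat_lit 273)) (XT.lf (nat_lit 0) (nat_lit 13160317780) (nat_lit 532) (nat_lit 80215272136) (nat_lit 76) (nat_lit 4161684886) (nat_lit 206) (nat_lit 5) (nat_lit 213) (nat_lit 5) (nat_lit 207) (nat_lit 5) (nat_lit 476) (nat_lit 452) (nat_lit 272))) (XT.nd (nat_lit 78) (nat_lit 380) (nat_lit 0) (XT.lf (nat_lit 0) (nat_lit 13404852497) (nat_lit 380) (nat_lit 29013463760) (nat_lit 456) (nat_lit 57978889422) (nat_lit 201) (nat_lit 5) (nat_lit 206) (nat_lit 5) (nat_lit 207) (nat_lit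 5) (nat_lit 477) (nat_lit 452) (nat_lit 271)) (XT.lf (nat_lit 0) (nat_lit 9818183519) (nat_lit 380) (nat_lit 64619031826) (nat_lit 456) (nat_lit 28923977801) (nat_lit 196) (nat_lit 5) (nat_lit 201) (nat_lit 5) (nat_lit 202) (nat_lit 5) (nat_lit 478) (nat_lit 452) (nat_lit 270))))))))
noncomputable def xc117 : XT := (XT.nd (nat_lit 61542) (nat_lit 0) (nat_lit 228) (XT.nd (nat_lit 60528) (nat_lit 0) (nat_lit 10032) (XT.nd (nat_lit 468) (nat_lit 1824) (nat_lit 0) (XT.nd (nat_lit 234) (nat_lit 684) (nat_lit 0) (XT.nd (nat_lit 78) (nat_lit 684) (nat_lit 0) (XT.lf (nat_lit 0) (nat_lit 2849840762) (nat_lit 380) (nat_lit 99819896833) (nat_lit 76) (nat_lit 3764273814) (nat_lit 191) (nat_lit 5) (nat_lit 196) (nat_lit 5) (nat_lit 192) (nat_lit 5) (nat_lit 479) (nat_lit 452) (nat_lit 269)) (XT.nd (nat_lit 78) (nat_lit 304) (nat_lit 0) (XT.lf (nat_lit 0) (nat_lit 3209882540) (nat_lit 380) (nat_lit 34064415106)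 (nat_lit 456) (nat_lit 72327777526) (nat_lit 186) (nat_lit 5) (nat_lit 191) (nat_lit 5) (nat_lit 192) (nat_lit 5) (nat_lit 480) (nat_lit 452) (nat_lit 268)) (XT.lf (nat_lit 0) (nat_lit 206899517) (nat_lit 304) (nat_lit 74616861487) (nat_lit 380) (nat_lit 38062667667) (nat_lit 182) (nat_lit 5) (nat_lit 186) (nat_lit 5) (nat_lit 187) (nat_lit 5) (nat_lit 481) (nat_lit 452) (nat_lit 267)))) (XT.nd (nat_lit 78) (nat_lit 684) (nat_lit 0) (XT.lf (nat_lit 0) (nat_lit 114007265893) (nat_lit 304) (nat_lit 1678188234) (nat_lit 380) (nat_lit 606503074) (nat_lit 182) (nat_lit 5) (nat_lit 186) (nat_lit 5) (nat_lit 187) (nat_lit 5) (nat_lit 482) (nat_lit 452) (nat_lit 266)) (XT.nd (nat_lit 78) (nat_lit 304) (nat_lit 0) (XT.lf (nat_lit 0) (nat_lit 39811070905) (nat_lit 380) (nat_lit 5047609893) (nat_lit 76) (nat_lit 74942588206) (nat_lit 177) (nat_lit 5) (nat_lit 182) (nat_lit 5) (nat_lit 178) (nat_lit 5) (nat_lit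 483) (nat_lit 452) (nat_lit 265)) (XT.lf (nat_lit 0) (nat_lit 83714142643) (nat_lit 380) (nat_lit 7314620980) (nat_lit 76) (nat_lit 32412787796) (nat_lit 173) (nat_lit 5) (nat_lit 178) (nat_lit 5) (nat_lit 174) (nat_lit 5) (nat_lit 484) (nat_lit 452) (nat_lit 264))))) (XT.nd (nat_lit 234) (nat_lit 836) (nat_lit 0) (XT.nd (nat_lit 78) (nat_lit 608) (nat_lit 0) (XT.lf (nat_lit 0) (nat_lit 4154235560) (nat_lit 380) (nat_lit 9202892342) (nat_lit 76) (nat_lit 113856321768) (nat_lit 168) (nat_lit 5) (nat_lit 173) (nat_lit 5) (nat_lit 169) (nat_lit 5) (nat_lit 485) (nat_lit 452) (nat_lit 263)) (XT.nd (nat_lit 78) (nat_lit 304) (nat_lit 0) (XT.lf (nat_lit 0) (nat_lit 51321599933) (nat_lit 380) (nat_lit 11264398927) (nat_lit 76) (nat_lit 68518745946) (nat_lit 164) (nat_lit 5) (nat_lit 169) (nat_lit 5) (nat_lit 165) (nat_lit 5) (nat_lit 486) (nat_lit 452) (nat_lit 262)) (XT.lf (nat_lit 0) (nat_lit 102451030498)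 (nat_lit 380) (nat_lit 12748249869) (nat_lit 76) (nat_lit 19943213432) (nat_lit 160) (nat_lit 5) (nat_lit 165) (nat_lit 5) (nat_lit 161) (nat_lit 5) (nat_lit 487) (nat_lit 452) (nat_lit 261)))) (XT.nd (nat_lit 156) (nat_lit 228) (nat_lit 0) (XT.nd (nat_lit 78) (nat_lit 304) (nat_lit 0) (XT.lf (nat_lit 0) (nat_lit 18400717937) (nat_lit 304) (nat_lit 14098268996) (nat_lit 76) (nat_lit 106819125760) (nat_lit 156) (nat_lit 5) (nat_lit 160) (nat_lit 5) (nat_lit 157) (nat_lit 5) (nat_lit 488) (nat_lit 452) (nat_lit 260)) (XT.lf (nat_lit 0) (nat_lit 73287075836) (nat_lit 380) (nat_lit 15354860413) (nat_lit 76) (nat_lit 54993395663) (nat_lit 152) (nat_lit 5) (nat_lit 157) (nat_lit 5) (nat_lit 153) (nat_lit 5) (nat_lit 489) (nat_lit 452) (nat_lit 259))) (XT.nd (nat_lit 59592) (nat_lit 0) (nat_lit 12160) (XT.lf (nat_lit 0) (nat_lit 132156961528) (nat_lit 228) (nat_lit 505031836) (nat_lit 304) (nat_lit 15454091509)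 (nat_lit 149) (nat_lit 5) (nat_lit 152) (nat_lit 5) (nat_lit 153) (nat_lit 5) (nat_lit 490) (nat_lit 452) (nat_lit 258)) (XT.lf (nat_lit 0) (nat_lit 14362473675) (nat_lit 1292) (nat_lit 6299413573) (nat_lit 1292) (nat_lit 6299413573) (nat_lit 309) (nat_lit 3) (nat_lit 326) (nat_lit 3) (nat_lit 326) (nat_lit 5) (nat_lit 453) (nat_lit 453) (nat_lit 294)))))) (XT.nd (nat_lit 468) (nat_lit 2204) (nat_lit 0) (XT.nd (nat_lit 234) (nat_lit 0) (nat_lit 152) (XT.nd (nat_lit 78) (nat_lit 0) (nat_lit 0) (XT.lf (nat_lit 0) (nat_lit 29820491842) (nat_lit 1216) (nat_lit 22675606320) (nat_lit 1292) (nat_lit 2763242490) (nat_lit 310) (nat_lit 5) (nat_lit 326) (nat_lit 5) (nat_lit 327) (nat_lit 5) (nat_lit 454) (nat_lit 453) (nat_lit 293)) (XT.nd (nat_lit 78) (nat_lit 0) (nat_lit 76) (XT.lf (nat_lit 76) (nat_lit 23671904450) (nat_lit 0) (nat_lit 8072166997) (nat_lit 1292) (nat_lit 24895647645) (nat_lit 311) (nat_lit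 5) (nat_lit 310) (nat_lit 5) (nat_lit 327) (nat_lit 5) (nat_lit 455) (nat_lit 453) (nat_lit 292)) (XT.lf (nat_lit 76) (nat_lit 14639745948) (nat_lit 0) (nat_lit 19869083379) (nat_lit 1292) (nat_lit 23557937357) (nat_lit 312) (nat_lit 5) (nat_lit 311) (nat_lit 5) (nat_lit 328) (nat_lit 5) (nat_lit 456) (nat_lit 453) (nat_lit 291)))) (XT.nd (nat_lit 78) (nat_lit 0) (nat_lit 76) (XT.lf (nat_lit 76) (nat_lit 5523950125) (nat_lit 0) (nat_lit 32622278233) (nat_lit 1292) (nat_lit 21396906397) (nat_lit 313) (nat_lit 5) (nat_lit 312) (nat_lit 5) (nat_lit 329) (nat_lit 5) (nat_lit 457) (nat_lit 453) (nat_lit 290)) (XT.nd (nat_lit 78) (nat_lit 0) (nat_lit 76) (XT.lf (nat_lit 0) (nat_lit 42753392532) (nat_lit 1216) (nat_lit 3594270896) (nat_lit 1292) (nat_lit 14722021134) (nat_lit 313) (nat_lit 5) (nat_lit 329) (nat_lit 5) (nat_lit 330) (nat_lit 5) (nat_lit 458) (nat_lit 453) (nat_lit 289)) (XT.lf (nat_lit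 0) (nat_lit 48414187592) (nat_lit 1216) (nat_lit 12666798502) (nat_lit 1292) (nat_lit 1566877765) (nat_lit 314) (nat_lit 5) (nat_lit 330) (nat_lit 5) (nat_lit 331) (nat_lit 5) (nat_lit 459) (nat_lit 453) (nat_lit 288))))) (XT.nd (nat_lit 234) (nat_lit 1368) (nat_lit 0) (XT.nd (nat_lit 78) (nat_lit 1140) (nat_lit 0) (XT.lf (nat_lit 76) (nat_lit 42363558617) (nat_lit 0) (nat_lit 12904984260) (nat_lit 1292) (nat_lit 9009093802) (nat_lit 315) (nat_lit 5) (nat_lit 314) (nat_lit 5) (nat_lit 331) (nat_lit 5) (nat_lit 460) (nat_lit 453) (nat_lit 287)) (XT.nd (nat_lit 78) (nat_lit 1216) (nat_lit 0) (XT.lf (nat_lit 76) (nat_lit 34738122269) (nat_lit 0) (nat_lit 28553515843) (nat_lit 1292) (nat_lit 2672479524) (nat_lit 316) (nat_lit 5) (nat_lit 315) (nat_lit 5) (nat_lit 332) (nat_lit 5) (nat_lit 461) (nat_lit 453) (nat_lit 286)) (XT.lf (nat_lit 0) (nat_lit 4741261618) (nat_lit 1292) (nat_lit 40620735358)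 (nat_lit 1368) (nat_lit 22346638418) (nat_lit 299) (nat_lit 5) (nat_lit 316) (nat_lit 5) (nat_lit 317) (nat_lit 5) (nat_lit 462) (nat_lit 453) (nat_lit 285)))) (XT.nd (nat_lit 156) (nat_lit 608) (nat_lit 0) (XT.nd (nat_lit 78) (nat_lit 836) (nat_lit 0) (XT.lf (nat_lit 0) (nat_lit 13329434168) (nat_lit 1292) (nat_lit 50075460122) (nat_lit 76) (nat_lit 6108920626) (nat_lit 300) (nat_lit 5) (nat_lit 317) (nat_lit 5) (nat_lit 301) (nat_lit 5) (nat_lit 463) (nat_lit 453) (nat_lit 284)) (XT.lf (nat_lit 0) (nat_lit 11717796347) (nat_lit 836) (nat_lit 11620409763) (nat_lit 912) (nat_lit 48041311719) (nat_lit 289) (nat_lit 5) (nat_lit 300) (nat_lit 5) (nat_lit 301) (nat_lit 5) (nat_lit 464) (nat_lit 453) (nat_lit 283))) (XT.nd (nat_lit 78) (nat_lit 0) (nat_lit 0) (XT.lf (nat_lit 0) (nat_lit 3984356743) (nat_lit 608) (nat_lit 30831389152) (nat_lit 684) (nat_lit 38493710245) (nat_lit 281) (nat_lit 5) (nat_lit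 289) (nat_lit 5) (nat_lit 290) (nat_lit 5) (nat_lit 465) (nat_lit 453) (nat_lit 282)) (XT.lf (nat_lit 0) (nat_lit 47829991460) (nat_lit 684) (nat_lit 3609530966) (nat_lit 76) (nat_lit 23867484200) (nat_lit 281) (nat_lit 5) (nat_lit 290) (nat_lit 5) (nat_lit 282) (nat_lit 5) (nat_lit 466) (nat_lit 453) (nat_lit 281))))))) (XT.nd (nat_lit 1014) (nat_lit 3344) (nat_lit 0) (XT.nd (nat_lit 468) (nat_lit 3116) (nat_lit 0) (XT.nd (nat_lit 234) (nat_lit 1520) (nat_lit 0) (XT.nd (nat_lit 78) (nat_lit 1216) (nat_lit 0) (XT.lf (nat_lit 0) (nat_lit 62480566032) (nat_lit 684) (nat_lit 11039319917) (nat_lit 76) (nat_lit 3854980305) (nat_lit 273) (nat_lit 5) (nat_lit 282) (nat_lit 5) (nat_lit 274) (nat_lit 5) (nat_lit 467) (nat_lit 453) (nat_lit 280)) (XT.nd (nat_lit 78) (nat_lit 684) (nat_lit 0) (XT.lf (nat_lit 0) (nat_lit 60977268698) (nat_lit 532) (nat_lit 18027924034) (nat_lit 608) (nat_lit 506680541) (nat_lit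 266) (nat_lit 5) (nat_lit 273) (nat_lit 5) (nat_lit 274) (nat_lit 5) (nat_lit 468) (nat_lit 453) (nat_lit 279)) (XT.lf (nat_lit 0) (nat_lit 15362062650) (nat_lit 684) (nat_lit 26103161810) (nat_lit 76) (nat_lit 40254896450) (nat_lit 257) (nat_lit 5) (nat_lit 266) (nat_lit 5) (nat_lit 258) (nat_lit 5) (nat_lit 469) (nat_lit 453) (nat_lit 278)))) (XT.nd (nat_lit 78) (nat_lit 988) (nat_lit 0) (XT.lf (nat_lit 0) (nat_lit 33044582004) (nat_lit 608) (nat_lit 33555500795) (nat_lit 76) (nat_lit 17407623192) (nat_lit 250) (nat_lit 5) (nat_lit 258) (nat_lit 5) (nat_lit 251) (nat_lit 5) (nat_lit 470) (nat_lit 453) (nat_lit 277)) (XT.nd (nat_lit 78) (nat_lit 456) (nat_lit 0) (XT.lf (nat_lit 0) (nat_lit 45443454711) (nat_lit 532) (nat_lit 7293280949) (nat_lit 608) (nat_lit 33639169508) (nat_lit 243) (nat_lit 5) (nat_lit 250) (nat_lit 5) (nat_lit 251) (nat_lit 5) (nat_lit 471) (nat_lit 453) (nat_lit 276)) (XT.lf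 (nat_lit 0) (nat_lit 40498439885) (nat_lit 456) (nat_lit 34180521389) (nat_lit 532) (nat_lit 14145589193) (nat_lit 237) (nat_lit 5) (nat_lit 243) (nat_lit 5) (nat_lit 244) (nat_lit 5) (nat_lit 472) (nat_lit 453) (nat_lit 275))))) (XT.nd (nat_lit 234) (nat_lit 1672) (nat_lit 0) (XT.nd (nat_lit 78) (nat_lit 912) (nat_lit 0) (XT.lf (nat_lit 0) (nat_lit 7322408608) (nat_lit 532) (nat_lit 55610594740) (nat_lit 76) (nat_lit 28427107948) (nat_lit 230) (nat_lit 5) (nat_lit 237) (nat_lit 5) (nat_lit 231) (nat_lit 5) (nat_lit 473) (nat_lit 453) (nat_lit 274)) (XT.nd (nat_lit 78) (nat_lit 456) (nat_lit 0) (XT.lf (nat_lit 0) (nat_lit 30723744962) (nat_lit 532) (nat_lit 62842869014) (nat_lit 76) (nat_lit 417059875) (nat_lit 224) (nat_lit 5) (nat_lit 231) (nat_lit 5) (nat_lit 225) (nat_lit 5) (nat_lit 474) (nat_lit 453) (nat_lit 273)) (XT.lf (nat_lit 0) (nat_lit 26546475892) (nat_lit 456) (nat_lit 30216124319)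 (nat_lit 532) (nat_lit 39931790836) (nat_lit 218) (nat_lit 5) (nat_lit 224) (nat_lit 5) (nat_lit 225) (nat_lit 5) (nat_lit 475) (nat_lit 453) (nat_lit 272)))) (XT.nd (nat_lit 156) (nat_lit 760) (nat_lit 0) (XT.nd (nat_lit 78) (nat_lit 532) (nat_lit 0) (XT.lf (nat_lit 0) (nat_lit 22275294800) (nat_lit 380) (nat_lit 63043478937) (nat_lit 456) (nat_lit 14185409171) (nat_lit 213) (nat_lit 5) (nat_lit 218) (nat_lit 5) (nat_lit 219) (nat_lit 5) (nat_lit 476) (nat_lit 453) (nat_lit 271)) (XT.lf (nat_lit 0) (nat_lit 13849394508) (nat_lit 532) (nat_lit 84185026632) (nat_lit 76) (nat_lit 4378783540) (nat_lit 206) (nat_lit 5) (nat_lit 213) (nat_lit 5) (nat_lit 207) (nat_lit 5) (nat_lit 477) (nat_lit 453) (nat_lit 270))) (XT.nd (nat_lit 78) (nat_lit 380) (nat_lit 0) (XT.lf (nat_lit 0) (nat_lit 14114928714) (nat_lit 380) (nat_lit 30454268011) (nat_lit 456) (nat_lit 60846968357) (nat_lit 201) (nat_lit 5) (nat_lit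 206) (nat_lit 5) (nat_lit 207) (nat_lit 5) (nat_lit 478) (nat_lit 453) (nat_lit 269)) (XT.lf (nat_lit 0) (nat_lit 10348567375) (nat_lit 380) (nat_lit 67839516308) (nat_lit 456) (nat_lit 30340297044) (nat_lit 196) (nat_lit 5) (nat_lit 201) (nat_lit 5) (nat_lit 202) (nat_lit 5) (nat_lit 479) (nat_lit 453) (nat_lit 268)))))) (XT.nd (nat_lit 546) (nat_lit 1216) (nat_lit 0) (XT.nd (nat_lit 234) (nat_lit 1064) (nat_lit 0) (XT.nd (nat_lit 78) (nat_lit 684) (nat_lit 0) (XT.lf (nat_lit 0) (nat_lit 3020710586) (nat_lit 380) (nat_lit 104771232699) (nat_lit 76) (nat_lit 3962915650) (nat_lit 191) (nat_lit 5) (nat_lit 196) (nat_lit 5) (nat_lit 192) (nat_lit 5) (nat_lit 480) (nat_lit 453) (nat_lit 267)) (XT.nd (nat_lit 78) (nat_lit 304) (nat_lit 0) (XT.lf (nat_lit 0) (nat_lit 3408898825) (nat_lit 380) (nat_lit 35756510465) (nat_lit 456) (nat_lit 75915946110) (nat_lit 186) (nat_lit 5) (nat_lit 191) (nat_lit 5)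 (nat_lit 192) (nat_lit 5) (nat_lit 481) (nat_lit 453) (nat_lit 266)) (XT.lf (nat_lit 0) (nat_lit 255358468) (nat_lit 304) (nat_lit 78336150968) (nat_lit 380) (nat_lit 39938442308) (nat_lit 182) (nat_lit 5) (nat_lit 186) (nat_lit 5) (nat_lit 187) (nat_lit 5) (nat_lit 482) (nat_lit 453) (nat_lit 265)))) (XT.nd (nat_lit 156) (nat_lit 684) (nat_lit 0) (XT.nd (nat_lit 78) (nat_lit 380) (nat_lit 0) (XT.lf (nat_lit 0) (nat_lit 119743928211) (nat_lit 304) (nat_lit 1751094223) (nat_lit 380) (nat_lit 610772283) (nat_lit 182) (nat_lit 5) (nat_lit 186) (nat_lit 5) (nat_lit 187) (nat_lit 5) (nat_lit 483) (nat_lit 453) (nat_lit 264)) (XT.lf (nat_lit 0) (nat_lit 41826405589) (nat_lit 380) (nat_lit 5263601501) (nat_lit 76) (nat_lit 78700580565) (nat_lit 177) (nat_lit 5) (nat_lit 182) (nat_lit 5) (nat_lit 178) (nat_lit 5) (nat_lit 484) (nat_lit 453) (nat_lit 263))) (XT.nd (nat_lit 78) (nat_lit 380) (nat_lit 0)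 (XT.lf (nat_lit 0) (nat_lit 87923900257) (nat_lit 380) (nat_lit 7644396328) (nat_lit 76) (nat_lit 34044609591) (nat_lit 173) (nat_lit 5) (nat_lit 178) (nat_lit 5) (nat_lit 174) (nat_lit 5) (nat_lit 485) (nat_lit 453) (nat_lit 262)) (XT.lf (nat_lit 0) (nat_lit 4385419601) (nat_lit 380) (nat_lit 9627643575) (nat_lit 76) (nat_lit 119560353607) (nat_lit 168) (nat_lit 5) (nat_lit 173) (nat_lit 5) (nat_lit 169) (nat_lit 5) (nat_lit 486) (nat_lit 453) (nat_lit 261))))) (XT.nd (nat_lit 234) (nat_lit 304) (nat_lit 0) (XT.nd (nat_lit 78) (nat_lit 608) (nat_lit 0) (XT.lf (nat_lit 0) (nat_lit 53910477345) (nat_lit 380) (nat_lit 11792670747) (nat_lit 76) (nat_lit 71956148888) (nat_lit 164) (nat_lit 5) (nat_lit 169) (nat_lit 5) (nat_lit 165) (nat_lit 5) (nat_lit 487) (nat_lit 453) (nat_lit 260)) (XT.nd (nat_lit 78) (nat_lit 304) (nat_lit 0) (XT.lf (nat_lit 0) (nat_lit 107595734630) (nat_lit 380) (nat_lit 13351168251)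 (nat_lit 76) (nat_lit 20952049940) (nat_lit 160) (nat_lit 5) (nat_lit 165) (nat_lit 5) (nat_lit 161) (nat_lit 5) (nat_lit 488) (nat_lit 453) (nat_lit 259)) (XT.lf (nat_lit 0) (nat_lit 19342386723) (nat_lit 304) (nat_lit 14769245555) (nat_lit 76) (nat_lit 112171736053) (nat_lit 156) (nat_lit 5) (nat_lit 160) (nat_lit 5) (nat_lit 157) (nat_lit 5) (nat_lit 489) (nat_lit 453) (nat_lit 258)))) (XT.nd (nat_lit 59748) (nat_lit 0) (nat_lit 12008) (XT.nd (nat_lit 59670) (nat_lit 0) (nat_lit 11932) (XT.lf (nat_lit 0) (nat_lit 76972465030) (nat_lit 380) (nat_lit 16089126568) (nat_lit 76) (nat_lit 57754874888) (nat_lit 152) (nat_lit 5) (nat_lit 157) (nat_lit 5) (nat_lit 153) (nat_lit 5) (nat_lit 490) (nat_lit 453) (nat_lit 257)) (XT.lf (nat_lit 0) (nat_lit 15116869254) (nat_lit 1292) (nat_lit 6595702548) (nat_lit 1292) (nat_lit 6595702548) (nat_lit 309) (nat_lit 3) (nat_lit 326) (nat_lit 3) (nat_lit 326) (nat_lit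 5) (nat_lit 454) (nat_lit 454) (nat_lit 292))) (XT.nd (nat_lit 78) (nat_lit 0) (nat_lit 0) (XT.lf (nat_lit 0) (nat_lit 31380636005) (nat_lit 1216) (nat_lit 23770686090) (nat_lit 1292) (nat_lit 2868905612) (nat_lit 310) (nat_lit 5) (nat_lit 326) (nat_lit 5) (nat_lit 327) (nat_lit 5) (nat_lit 455) (nat_lit 454) (nat_lit 291)) (XT.lf (nat_lit 76) (nat_lit 24893090875) (nat_lit 0) (nat_lit 8504373657) (nat_lit 1292) (nat_lit 26072248743) (nat_lit 311) (nat_lit 5) (nat_lit 310) (nat_lit 5) (nat_lit 327) (nat_lit 5) (nat_lit 456) (nat_lit 454) (nat_lit 290))))))))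
noncomputable def xc118 : XT := (XT.nd (nat_lit 2028) (nat_lit 2280) (nat_lit 0) (XT.nd (nat_lit 1014) (nat_lit 6080) (nat_lit 0) (XT.nd (nat_lit 468) (nat_lit 3420) (nat_lit 0) (XT.nd (nat_lit 234) (nat_lit 0) (nat_lit 228) (XT.nd (nat_lit 78) (nat_lit 0) (nat_lit 76) (XT.lf (nat_lit 76) (nat_lit 15410448606) (nat_lit 0) (nat_lit 20886970160) (nat_lit 1292) (nat_lit 24670786016) (nat_lit 312) (nat_lit 5) (nat_lit 311) (nat_lit 5) (nat_lit 328) (nat_lit 5) (nat_lit 457) (nat_lit 454) (nat_lit 289)) (XT.nd (nat_lit 78) (nat_lit 0) (nat_lit 76) (XT.lf (nat_lit 76) (nat_lit 5839827118) (nat_lit 0) (nat_lit 34274011331) (nat_lit 1292) (nat_lit 22404638564) (nat_lit 313) (nat_lit 5) (nat_lit 312) (nat_lit 5) (nat_lit 329) (nat_lit 5) (nat_lit 458) (nat_lit 454) (nat_lit 288)) (XT.lf (nat_lit 0) (nat_lit 44948300701) (nat_lit 1216) (nat_lit 3734277611) (nat_lit 1292) (nat_lit 15438868066) (nat_lit 313)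 (nat_lit 5) (nat_lit 329) (nat_lit 5) (nat_lit 330) (nat_lit 5) (nat_lit 459) (nat_lit 454) (nat_lit 287)))) (XT.nd (nat_lit 78) (nat_lit 0) (nat_lit 0) (XT.lf (nat_lit 0) (nat_lit 50889623784) (nat_lit 1216) (nat_lit 13259761440) (nat_lit 1292) (nat_lit 1629225017) (nat_lit 314) (nat_lit 5) (nat_lit 330) (nat_lit 5) (nat_lit 331) (nat_lit 5) (nat_lit 460) (nat_lit 454) (nat_lit 286)) (XT.nd (nat_lit 78) (nat_lit 0) (nat_lit 76) (XT.lf (nat_lit 76) (nat_lit 44520956137) (nat_lit 0) (nat_lit 13563511660) (nat_lit 1292) (nat_lit 9405471014) (nat_lit 315) (nat_lit 5) (nat_lit 314) (nat_lit 5) (nat_lit 331) (nat_lit 5) (nat_lit 461) (nat_lit 454) (nat_lit 285)) (XT.lf (nat_lit 76) (nat_lit 36514782149) (nat_lit 0) (nat_lit 29991696329) (nat_lit 1292) (nat_lit 2754332745) (nat_lit 316) (nat_lit 5) (nat_lit 315) (nat_lit 5) (nat_lit 332) (nat_lit 5) (nat_lit 462) (nat_lit 454) (nat_lit 284))))) (XT.nd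 (nat_lit 234) (nat_lit 1748) (nat_lit 0) (XT.nd (nat_lit 78) (nat_lit 760) (nat_lit 0) (XT.lf (nat_lit 0) (nat_lit 5026961002) (nat_lit 1292) (nat_lit 42610618708) (nat_lit 1368) (nat_lit 23455024165) (nat_lit 299) (nat_lit 5) (nat_lit 316) (nat_lit 5) (nat_lit 317) (nat_lit 5) (nat_lit 463) (nat_lit 454) (nat_lit 283)) (XT.nd (nat_lit 78) (nat_lit 836) (nat_lit 0) (XT.lf (nat_lit 0) (nat_lit 14042545717) (nat_lit 1292) (nat_lit 52537789529) (nat_lit 76) (nat_lit 6407767222) (nat_lit 300) (nat_lit 5) (nat_lit 317) (nat_lit 5) (nat_lit 301) (nat_lit 5) (nat_lit 464) (nat_lit 454) (nat_lit 282)) (XT.lf (nat_lit 0) (nat_lit 12343941792) (nat_lit 836) (nat_lit 12205980482) (nat_lit 912) (nat_lit 50397223463) (nat_lit 289) (nat_lit 5) (nat_lit 300) (nat_lit 5) (nat_lit 301) (nat_lit 5) (nat_lit 465) (nat_lit 454) (nat_lit 281)))) (XT.nd (nat_lit 156) (nat_lit 1140) (nat_lit 0) (XT.nd (nat_lit 78) (nat_lit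 0) (nat_lit 0) (XT.lf (nat_lit 0) (nat_lit 4224028119) (nat_lit 608) (nat_lit 32375524524) (nat_lit 684) (nat_lit 40374082094) (nat_lit 281) (nat_lit 5) (nat_lit 289) (nat_lit 5) (nat_lit 290) (nat_lit 5) (nat_lit 466) (nat_lit 454) (nat_lit 280)) (XT.lf (nat_lit 0) (nat_lit 50262438450) (nat_lit 684) (nat_lit 3750224263) (nat_lit 76) (nat_lit 25058462368) (nat_lit 281) (nat_lit 5) (nat_lit 290) (nat_lit 5) (nat_lit 282) (nat_lit 5) (nat_lit 467) (nat_lit 454) (nat_lit 279))) (XT.nd (nat_lit 78) (nat_lit 532) (nat_lit 0) (XT.lf (nat_lit 0) (nat_lit 65643956353) (nat_lit 684) (nat_lit 11551451699) (nat_lit 76) (nat_lit 4047017364) (nat_lit 273) (nat_lit 5) (nat_lit 282) (nat_lit 5) (nat_lit 274) (nat_lit 5) (nat_lit 468) (nat_lit 454) (nat_lit 278)) (XT.lf (nat_lit 0) (nat_lit 64064824506) (nat_lit 532) (nat_lit 18928487434) (nat_lit 608) (nat_lit 493016076) (nat_lit 266) (nat_lit 5) (nat_lit 273)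 (nat_lit 5) (nat_lit 274) (nat_lit 5) (nat_lit 469) (nat_lit 454) (nat_lit 277)))))) (XT.nd (nat_lit 468) (nat_lit 2888) (nat_lit 0) (XT.nd (nat_lit 234) (nat_lit 1444) (nat_lit 0) (XT.nd (nat_lit 78) (nat_lit 1064) (nat_lit 0) (XT.lf (nat_lit 0) (nat_lit 16166965655) (nat_lit 684) (nat_lit 27368902851) (nat_lit 76) (nat_lit 42269151556) (nat_lit 257) (nat_lit 5) (nat_lit 266) (nat_lit 5) (nat_lit 258) (nat_lit 5) (nat_lit 470) (nat_lit 454) (nat_lit 276)) (XT.nd (nat_lit 78) (nat_lit 532) (nat_lit 0) (XT.lf (nat_lit 0) (nat_lit 34732254245) (nat_lit 608) (nat_lit 35193951046) (nat_lit 76) (nat_lit 18280819945) (nat_lit 250) (nat_lit 5) (nat_lit 258) (nat_lit 5) (nat_lit 251) (nat_lit 5) (nat_lit 471) (nat_lit 454) (nat_lit 275)) (XT.lf (nat_lit 0) (nat_lit 47753824999) (nat_lit 532) (nat_lit 7653869996) (nat_lit 608) (nat_lit 35285979128) (nat_lit 243) (nat_lit 5) (nat_lit 250) (nat_lit 5) (nat_lit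 251) (nat_lit 5) (nat_lit 472) (nat_lit 454) (nat_lit 274)))) (XT.nd (nat_lit 78) (nat_lit 988) (nat_lit 0) (XT.lf (nat_lit 0) (nat_lit 42561423343) (nat_lit 456) (nat_lit 35884386838) (nat_lit 532) (nat_lit 14818978282) (nat_lit 237) (nat_lit 5) (nat_lit 243) (nat_lit 5) (nat_lit 244) (nat_lit 5) (nat_lit 473) (nat_lit 454) (nat_lit 273)) (XT.nd (nat_lit 78) (nat_lit 456) (nat_lit 0) (XT.lf (nat_lit 0) (nat_lit 7720591227) (nat_lit 532) (nat_lit 58352600645) (nat_lit 76) (nat_lit 29853960809) (nat_lit 230) (nat_lit 5) (nat_lit 237) (nat_lit 5) (nat_lit 231) (nat_lit 5) (nat_lit 474) (nat_lit 454) (nat_lit 272)) (XT.lf (nat_lit 0) (nat_lit 32290890045) (nat_lit 532) (nat_lit 65946726569) (nat_lit 76) (nat_lit 444309990) (nat_lit 224) (nat_lit 5) (nat_lit 231) (nat_lit 5) (nat_lit 225) (nat_lit 5) (nat_lit 475) (nat_lit 454) (nat_lit 271))))) (XT.nd (nat_lit 234) (nat_lit 1520) (nat_lit 0) (XT.nd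 (nat_lit 78) (nat_lit 912) (nat_lit 0) (XT.lf (nat_lit 0) (nat_lit 27910988125) (nat_lit 456) (nat_lit 31719583228) (nat_lit 532) (nat_lit 41897641914) (nat_lit 218) (nat_lit 5) (nat_lit 224) (nat_lit 5) (nat_lit 225) (nat_lit 5) (nat_lit 476) (nat_lit 454) (nat_lit 270)) (XT.nd (nat_lit 78) (nat_lit 532) (nat_lit 0) (XT.lf (nat_lit 0) (nat_lit 23425984988) (nat_lit 380) (nat_lit 66187569774) (nat_lit 456) (nat_lit 14864970023) (nat_lit 213) (nat_lit 5) (nat_lit 218) (nat_lit 5) (nat_lit 219) (nat_lit 5) (nat_lit 477) (nat_lit 454) (nat_lit 269)) (XT.lf (nat_lit 0) (nat_lit 14570037329) (nat_lit 532) (nat_lit 88357081492) (nat_lit 76) (nat_lit 4605899051) (nat_lit 206) (nat_lit 5) (nat_lit 213) (nat_lit 5) (nat_lit 207) (nat_lit 5) (nat_lit 478) (nat_lit 454) (nat_lit 268)))) (XT.nd (nat_lit 156) (nat_lit 760) (nat_lit 0) (XT.nd (nat_lit 78) (nat_lit 380) (nat_lit 0) (XT.lf (nat_lit 0) (nat_lit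 14856805392) (nat_lit 380) (nat_lit 31968029995) (nat_lit 456) (nat_lit 63861320824) (nat_lit 201) (nat_lit 5) (nat_lit 206) (nat_lit 5) (nat_lit 207) (nat_lit 5) (nat_lit 479) (nat_lit 454) (nat_lit 267)) (XT.lf (nat_lit 0) (nat_lit 10901800443) (nat_lit 380) (nat_lit 71221998146) (nat_lit 456) (nat_lit 31830210177) (nat_lit 196) (nat_lit 5) (nat_lit 201) (nat_lit 5) (nat_lit 202) (nat_lit 5) (nat_lit 480) (nat_lit 454) (nat_lit 266))) (XT.nd (nat_lit 78) (nat_lit 380) (nat_lit 0) (XT.lf (nat_lit 0) (nat_lit 3197485605) (nat_lit 380) (nat_lit 109973822475) (nat_lit 76) (nat_lit 4170520068) (nat_lit 191) (nat_lit 5) (nat_lit 196) (nat_lit 5) (nat_lit 192) (nat_lit 5) (nat_lit 481) (nat_lit 454) (nat_lit 265)) (XT.lf (nat_lit 0) (nat_lit 3614284500) (nat_lit 380) (nat_lit 37534244926) (nat_lit 456) (nat_lit 79686146778) (nat_lit 186) (nat_lit 5) (nat_lit 191) (nat_lit 5) (nat_lit 192) (nat_lit 5)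 (nat_lit 482) (nat_lit 454) (nat_lit 264))))))) (XT.nd (nat_lit 60684) (nat_lit 0) (nat_lit 6612) (XT.nd (nat_lit 468) (nat_lit 608) (nat_lit 0) (XT.nd (nat_lit 234) (nat_lit 988) (nat_lit 0) (XT.nd (nat_lit 78) (nat_lit 380) (nat_lit 0) (XT.lf (nat_lit 0) (nat_lit 302696889) (nat_lit 304) (nat_lit 82242479066) (nat_lit 380) (nat_lit 41910549238) (nat_lit 182) (nat_lit 5) (nat_lit 186) (nat_lit 5) (nat_lit 187) (nat_lit 5) (nat_lit 483) (nat_lit 454) (nat_lit 263)) (XT.nd (nat_lit 78) (nat_lit 380) (nat_lit 0) (XT.lf (nat_lit 0) (nat_lit 125764048905) (nat_lit 304) (nat_lit 1828668506) (nat_lit 380) (nat_lit 617677387) (nat_lit 182) (nat_lit 5) (nat_lit 186) (nat_lit 5) (nat_lit 187) (nat_lit 5) (nat_lit 484) (nat_lit 454) (nat_lit 262)) (XT.lf (nat_lit 0) (nat_lit 43940203092) (nat_lit 380) (nat_lit 5493775783) (nat_lit 76) (nat_lit 82645462608) (nat_lit 177) (nat_lit 5) (nat_lit 182) (nat_lit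 5) (nat_lit 178) (nat_lit 5) (nat_lit 485) (nat_lit 454) (nat_lit 261)))) (XT.nd (nat_lit 78) (nat_lit 684) (nat_lit 0) (XT.lf (nat_lit 0) (nat_lit 92341909765) (nat_lit 380) (nat_lit 7994003264) (nat_lit 76) (nat_lit 35756982841) (nat_lit 173) (nat_lit 5) (nat_lit 178) (nat_lit 5) (nat_lit 174) (nat_lit 5) (nat_lit 486) (nat_lit 454) (nat_lit 260)) (XT.nd (nat_lit 78) (nat_lit 304) (nat_lit 0) (XT.lf (nat_lit 0) (nat_lit 4625980617) (nat_lit 380) (nat_lit 10076922911) (nat_lit 76) (nat_lit 125548544303) (nat_lit 168) (nat_lit 5) (nat_lit 173) (nat_lit 5) (nat_lit 169) (nat_lit 5) (nat_lit 487) (nat_lit 454) (nat_lit 259)) (XT.lf (nat_lit 0) (nat_lit 56626679140) (nat_lit 380) (nat_lit 12350605303) (nat_lit 76) (nat_lit 75564356009) (nat_lit 164) (nat_lit 5) (nat_lit 169) (nat_lit 5) (nat_lit 165) (nat_lit 5) (nat_lit 488) (nat_lit 454) (nat_lit 258))))) (XT.nd (nat_lit 59904) (nat_lit 0) (nat_lit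 11704) (XT.nd (nat_lit 78) (nat_lit 304) (nat_lit 0) (XT.lf (nat_lit 0) (nat_lit 112995614428) (nat_lit 380) (nat_lit 13987439488) (nat_lit 76) (nat_lit 22010242765) (nat_lit 160) (nat_lit 5) (nat_lit 165) (nat_lit 5) (nat_lit 161) (nat_lit 5) (nat_lit 489) (nat_lit 454) (nat_lit 257)) (XT.nd (nat_lit 59748) (nat_lit 0) (nat_lit 11628) (XT.lf (nat_lit 0) (nat_lit 20329127728) (nat_lit 304) (nat_lit 15476926074) (nat_lit 76) (nat_lit 117790893382) (nat_lit 156) (nat_lit 5) (nat_lit 160) (nat_lit 5) (nat_lit 157) (nat_lit 5) (nat_lit 490) (nat_lit 454) (nat_lit 256)) (XT.lf (nat_lit 0) (nat_lit 15905612395) (nat_lit 1292) (nat_lit 6908542819) (nat_lit 1292) (nat_lit 6908542819) (nat_lit 309) (nat_lit 3) (nat_lit 326) (nat_lit 3) (nat_lit 326) (nat_lit 5) (nat_lit 455) (nat_lit 455) (nat_lit 290)))) (XT.nd (nat_lit 156) (nat_lit 0) (nat_lit 76) (XT.nd (nat_lit 78) (nat_lit 0) (nat_lit 0) (XT.lf (nat_lit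 0) (nat_lit 33012361294) (nat_lit 1216) (nat_lit 24924117858) (nat_lit 1292) (nat_lit 2982873339) (nat_lit 310) (nat_lit 5) (nat_lit 326) (nat_lit 5) (nat_lit 327) (nat_lit 5) (nat_lit 456) (nat_lit 455) (nat_lit 289)) (XT.lf (nat_lit 76) (nat_lit 26171841748) (nat_lit 0) (nat_lit 8955531850) (nat_lit 1292) (nat_lit 27314018746) (nat_lit 311) (nat_lit 5) (nat_lit 310) (nat_lit 5) (nat_lit 327) (nat_lit 5) (nat_lit 457) (nat_lit 455) (nat_lit 288))) (XT.nd (nat_lit 78) (nat_lit 0) (nat_lit 76) (XT.lf (nat_lit 76) (nat_lit 16216087009) (nat_lit 0) (nat_lit 21953479769) (nat_lit 1292) (nat_lit 25845324674) (nat_lit 312) (nat_lit 5) (nat_lit 311) (nat_lit 5) (nat_lit 328) (nat_lit 5) (nat_lit 458) (nat_lit 455) (nat_lit 287)) (XT.lf (nat_lit 76) (nat_lit 6167808938) (nat_lit 0) (nat_lit 36006414108) (nat_lit 1292) (nat_lit 23468532031) (nat_lit 313) (nat_lit 5) (nat_lit 312) (nat_lit 5) (nat_lit 329)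 (nat_lit 5) (nat_lit 459) (nat_lit 455) (nat_lit 286)))))) (XT.nd (nat_lit 546) (nat_lit 3496) (nat_lit 0) (XT.nd (nat_lit 234) (nat_lit 1824) (nat_lit 0) (XT.nd (nat_lit 78) (nat_lit 0) (nat_lit 76) (XT.lf (nat_lit 0) (nat_lit 47247632780) (nat_lit 1216) (nat_lit 3884976227) (nat_lit 1292) (nat_lit 16193347410) (nat_lit 313) (nat_lit 5) (nat_lit 329) (nat_lit 5) (nat_lit 330) (nat_lit 5) (nat_lit 460) (nat_lit 455) (nat_lit 285)) (XT.nd (nat_lit 78) (nat_lit 0) (nat_lit 0) (XT.lf (nat_lit 0) (nat_lit 53483743806) (nat_lit 1216) (nat_lit 13886126395) (nat_lit 1292) (nat_lit 1696176847) (nat_lit 314) (nat_lit 5) (nat_lit 330) (nat_lit 5) (nat_lit 331) (nat_lit 5) (nat_lit 461) (nat_lit 455) (nat_lit 284)) (XT.lf (nat_lit 76) (nat_lit 46782577268) (nat_lit 0) (nat_lit 14253730951) (nat_lit 1292) (nat_lit 9826694697) (nat_lit 315) (nat_lit 5) (nat_lit 314) (nat_lit 5) (nat_lit 331) (nat_lit 5) (nat_lit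 462) (nat_lit 455) (nat_lit 283)))) (XT.nd (nat_lit 156) (nat_lit 760) (nat_lit 0) (XT.nd (nat_lit 78) (nat_lit 1216) (nat_lit 0) (XT.lf (nat_lit 76) (nat_lit 38376579095) (nat_lit 0) (nat_lit 31500809211) (nat_lit 1292) (nat_lit 2845091782) (nat_lit 316) (nat_lit 5) (nat_lit 315) (nat_lit 5) (nat_lit 332) (nat_lit 5) (nat_lit 463) (nat_lit 455) (nat_lit 282)) (XT.lf (nat_lit 0) (nat_lit 5322423613) (nat_lit 1292) (nat_lit 44703822279) (nat_lit 1368) (nat_lit 24619660931) (nat_lit 299) (nat_lit 5) (nat_lit 316) (nat_lit 5) (nat_lit 317) (nat_lit 5) (nat_lit 464) (nat_lit 455) (nat_lit 281))) (XT.nd (nat_lit 78) (nat_lit 836) (nat_lit 0) (XT.lf (nat_lit 0) (nat_lit 14786976714) (nat_lit 1292) (nat_lit 55127088438) (nat_lit 76) (nat_lit 6722169701) (nat_lit 300) (nat_lit 5) (nat_lit 317) (nat_lit 5) (nat_lit 301) (nat_lit 5) (nat_lit 465) (nat_lit 455) (nat_lit 280)) (XT.lf (nat_lit 0) (nat_lit 12997651922)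 (nat_lit 836) (nat_lit 12820406699) (nat_lit 912) (nat_lit 52875221741) (nat_lit 289) (nat_lit 5) (nat_lit 300) (nat_lit 5) (nat_lit 301) (nat_lit 5) (nat_lit 466) (nat_lit 455) (nat_lit 279))))) (XT.nd (nat_lit 234) (nat_lit 2280) (nat_lit 0) (XT.nd (nat_lit 78) (nat_lit 608) (nat_lit 0) (XT.lf (nat_lit 0) (nat_lit 4471922076) (nat_lit 608) (nat_lit 33996628110) (nat_lit 684) (nat_lit 42352592399) (nat_lit 281) (nat_lit 5) (nat_lit 289) (nat_lit 5) (nat_lit 290) (nat_lit 5) (nat_lit 467) (nat_lit 455) (nat_lit 278)) (XT.nd (nat_lit 78) (nat_lit 608) (nat_lit 0) (XT.lf (nat_lit 0) (nat_lit 52812700887) (nat_lit 684) (nat_lit 3901650893) (nat_lit 76) (nat_lit 26309212206) (nat_lit 281) (nat_lit 5) (nat_lit 290) (nat_lit 5) (nat_lit 282) (nat_lit 5) (nat_lit 468) (nat_lit 455) (nat_lit 277)) (XT.lf (nat_lit 0) (nat_lit 68961856682) (nat_lit 684) (nat_lit 12092893479) (nat_lit 76) (nat_lit 4248722467)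 (nat_lit 273) (nat_lit 5) (nat_lit 282) (nat_lit 5) (nat_lit 274) (nat_lit 5) (nat_lit 469) (nat_lit 455) (nat_lit 276)))) (XT.nd (nat_lit 156) (nat_lit 1064) (nat_lit 0) (XT.nd (nat_lit 78) (nat_lit 684) (nat_lit 0) (XT.lf (nat_lit 0) (nat_lit 67303160855) (nat_lit 532) (nat_lit 19874156430) (nat_lit 608) (nat_lit 482294098) (nat_lit 266) (nat_lit 5) (nat_lit 273) (nat_lit 5) (nat_lit 274) (nat_lit 5) (nat_lit 470) (nat_lit 455) (nat_lit 275)) (XT.lf (nat_lit 0) (nat_lit 17008692506) (nat_lit 684) (nat_lit 28701595568) (nat_lit 76) (nat_lit 44383979005) (nat_lit 257) (nat_lit 5) (nat_lit 266) (nat_lit 5) (nat_lit 258) (nat_lit 5) (nat_lit 471) (nat_lit 455) (nat_lit 274))) (XT.nd (nat_lit 78) (nat_lit 532) (nat_lit 0) (XT.lf (nat_lit 0) (nat_lit 36501014931) (nat_lit 608) (nat_lit 36917979855) (nat_lit 76) (nat_lit 19197414770) (nat_lit 250) (nat_lit 5) (nat_lit 258) (nat_lit 5) (nat_lit 251)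 (nat_lit 5) (nat_lit 472) (nat_lit 455) (nat_lit 273)) (XT.lf (nat_lit 0) (nat_lit 50176162554) (nat_lit 532) (nat_lit 8032867349) (nat_lit 608) (nat_lit 37018397037) (nat_lit 243) (nat_lit 5) (nat_lit 250) (nat_lit 5) (nat_lit 251) (nat_lit 5) (nat_lit 473) (nat_lit 455) (nat_lit 272))))))))
noncomputable def xc119 : XT := (XT.nd (nat_lit 61776) (nat_lit 0) (nat_lit 608) (XT.nd (nat_lit 1014) (nat_lit 1292) (nat_lit 0) (XT.nd (nat_lit 468) (nat_lit 2204) (nat_lit 0) (XT.nd (nat_lit 234) (nat_lit 1368) (nat_lit 0) (XT.nd (nat_lit 78) (nat_lit 988) (nat_lit 0) (XT.lf (nat_lit 0) (nat_lit 44724017379) (nat_lit 456) (nat_lit 37673925345) (nat_lit 532) (nat_lit 15529187630) (nat_lit 237) (nat_lit 5) (nat_lit 243) (nat_lit 5) (nat_lit 244) (nat_lit 5) (nat_lit 474) (nat_lit 455) (nat_lit 271)) (XT.nd (nat_lit 78) (nat_lit 456) (nat_lit 0) (XT.lf (nat_lit 0) (nat_lit 8135702140) (nat_lit 532) (nat_lit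 61235288425) (nat_lit 76) (nat_lit 31351645211) (nat_lit 230) (nat_lit 5) (nat_lit 237) (nat_lit 5) (nat_lit 231) (nat_lit 5) (nat_lit 475) (nat_lit 455) (nat_lit 270)) (XT.lf (nat_lit 0) (nat_lit 33933514216) (nat_lit 532) (nat_lit 69209336462) (nat_lit 76) (nat_lit 472327867) (nat_lit 224) (nat_lit 5) (nat_lit 231) (nat_lit 5) (nat_lit 225) (nat_lit 5) (nat_lit 476) (nat_lit 455) (nat_lit 269)))) (XT.nd (nat_lit 78) (nat_lit 912) (nat_lit 0) (XT.lf (nat_lit 0) (nat_lit 29340268540) (nat_lit 456) (nat_lit 33298898165) (nat_lit 532) (nat_lit 43964643317) (nat_lit 218) (nat_lit 5) (nat_lit 224) (nat_lit 5) (nat_lit 225) (nat_lit 5) (nat_lit 477) (nat_lit 455) (nat_lit 268)) (XT.nd (nat_lit 78) (nat_lit 532) (nat_lit 0) (XT.lf (nat_lit 0) (nat_lit 24630776707) (nat_lit 380) (nat_lit 69489616644) (nat_lit 456) (nat_lit 15581271035) (nat_lit 213) (nat_lit 5) (nat_lit 218) (nat_lit 5) (nat_lit 219)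 (nat_lit 5) (nat_lit 478) (nat_lit 455) (nat_lit 267)) (XT.lf (nat_lit 0) (nat_lit 15324093024) (nat_lit 532) (nat_lit 92741197270) (nat_lit 76) (nat_lit 4843610180) (nat_lit 206) (nat_lit 5) (nat_lit 213) (nat_lit 5) (nat_lit 207) (nat_lit 5) (nat_lit 479) (nat_lit 455) (nat_lit 266))))) (XT.nd (nat_lit 234) (nat_lit 1064) (nat_lit 0) (XT.nd (nat_lit 78) (nat_lit 760) (nat_lit 0) (XT.lf (nat_lit 0) (nat_lit 15632416857) (nat_lit 380) (nat_lit 33558312296) (nat_lit 456) (nat_lit 67028993712) (nat_lit 201) (nat_lit 5) (nat_lit 206) (nat_lit 5) (nat_lit 207) (nat_lit 5) (nat_lit 480) (nat_lit 455) (nat_lit 265)) (XT.nd (nat_lit 78) (nat_lit 380) (nat_lit 0) (XT.lf (nat_lit 0) (nat_lit 11479366382) (nat_lit 380) (nat_lit 74774486736) (nat_lit 456) (nat_lit 33397138626) (nat_lit 196) (nat_lit 5) (nat_lit 201) (nat_lit 5) (nat_lit 202) (nat_lit 5) (nat_lit 481) (nat_lit 455) (nat_lit 264)) (XT.lf (nat_lit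 0) (nat_lit 3380706360) (nat_lit 380) (nat_lit 115439886062) (nat_lit 76) (nat_lit 4387625333) (nat_lit 191) (nat_lit 5) (nat_lit 196) (nat_lit 5) (nat_lit 192) (nat_lit 5) (nat_lit 482) (nat_lit 455) (nat_lit 263)))) (XT.nd (nat_lit 156) (nat_lit 380) (nat_lit 0) (XT.nd (nat_lit 78) (nat_lit 304) (nat_lit 0) (XT.lf (nat_lit 0) (nat_lit 3826691000) (nat_lit 380) (nat_lit 39401804281) (nat_lit 456) (nat_lit 83647237213) (nat_lit 186) (nat_lit 5) (nat_lit 191) (nat_lit 5) (nat_lit 192) (nat_lit 5) (nat_lit 483) (nat_lit 455) (nat_lit 262)) (XT.lf (nat_lit 0) (nat_lit 349188195) (nat_lit 304) (nat_lit 86345097850) (nat_lit 380) (nat_lit 43983568595) (nat_lit 182) (nat_lit 5) (nat_lit 186) (nat_lit 5) (nat_lit 187) (nat_lit 5) (nat_lit 484) (nat_lit 455) (nat_lit 261))) (XT.nd (nat_lit 78) (nat_lit 380) (nat_lit 0) (XT.lf (nat_lit 0) (nat_lit 132082114647) (nat_lit 304) (nat_lit 1911049389) (nat_lit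 380) (nat_lit 627124966) (nat_lit 182) (nat_lit 5) (nat_lit 186) (nat_lit 5) (nat_lit 187) (nat_lit 5) (nat_lit 485) (nat_lit 455) (nat_lit 260)) (XT.lf (nat_lit 0) (nat_lit 46157600751) (nat_lit 380) (nat_lit 5738527344) (nat_lit 76) (nat_lit 86786672713) (nat_lit 177) (nat_lit 5) (nat_lit 182) (nat_lit 5) (nat_lit 178) (nat_lit 5) (nat_lit 486) (nat_lit 455) (nat_lit 259)))))) (XT.nd (nat_lit 60216) (nat_lit 0) (nat_lit 11400) (XT.nd (nat_lit 234) (nat_lit 304) (nat_lit 0) (XT.nd (nat_lit 78) (nat_lit 684) (nat_lit 0) (XT.lf (nat_lit 0) (nat_lit 96978791644) (nat_lit 380) (nat_lit 8364122583) (nat_lit 76) (nat_lit 37554031775) (nat_lit 173) (nat_lit 5) (nat_lit 178) (nat_lit 5) (nat_lit 174) (nat_lit 5) (nat_lit 487) (nat_lit 455) (nat_lit 258)) (XT.nd (nat_lit 78) (nat_lit 304) (nat_lit 0) (XT.lf (nat_lit 0) (nat_lit 4876590337) (nat_lit 380) (nat_lit 10551650832) (nat_lit 76) (nat_lit 131835198744)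 (nat_lit 168) (nat_lit 5) (nat_lit 173) (nat_lit 5) (nat_lit 169) (nat_lit 5) (nat_lit 488) (nat_lit 455) (nat_lit 257)) (XT.lf (nat_lit 0) (nat_lit 59476768588) (nat_lit 380) (nat_lit 12939383657) (nat_lit 76) (nat_lit 79352006623) (nat_lit 164) (nat_lit 5) (nat_lit 169) (nat_lit 5) (nat_lit 165) (nat_lit 5) (nat_lit 489) (nat_lit 455) (nat_lit 256)))) (XT.nd (nat_lit 59826) (nat_lit 0) (nat_lit 11324) (XT.lf (nat_lit 0) (nat_lit 118663620154) (nat_lit 380) (nat_lit 14658433071) (nat_lit 76) (nat_lit 23120360643) (nat_lit 160) (nat_lit 5) (nat_lit 165) (nat_lit 5) (nat_lit 161) (nat_lit 5) (nat_lit 490) (nat_lit 455) (nat_lit 255)) (XT.nd (nat_lit 78) (nat_lit 0) (nat_lit 76) (XT.lf (nat_lit 0) (nat_lit 16730733993) (nat_lit 1292) (nat_lit 7238600477) (nat_lit 1292) (nat_lit 7238600477) (nat_lit 309) (nat_lit 3) (nat_lit 326) (nat_lit 3) (nat_lit 326) (nat_lit 5) (nat_lit 456) (nat_lit 456) (nat_lit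 288)) (XT.lf (nat_lit 0) (nat_lit 34719844201) (nat_lit 1216) (nat_lit 26138484716) (nat_lit 1292) (nat_lit 3105279996) (nat_lit 310) (nat_lit 5) (nat_lit 326) (nat_lit 5) (nat_lit 327) (nat_lit 5) (nat_lit 457) (nat_lit 456) (nat_lit 287))))) (XT.nd (nat_lit 234) (nat_lit 0) (nat_lit 228) (XT.nd (nat_lit 78) (nat_lit 0) (nat_lit 76) (XT.lf (nat_lit 76) (nat_lit 27511360211) (nat_lit 0) (nat_lit 9426836343) (nat_lit 1292) (nat_lit 28623626772) (nat_lit 311) (nat_lit 5) (nat_lit 310) (nat_lit 5) (nat_lit 327) (nat_lit 5) (nat_lit 458) (nat_lit 456) (nat_lit 286)) (XT.nd (nat_lit 78) (nat_lit 0) (nat_lit 76) (XT.lf (nat_lit 76) (nat_lit 17058742583) (nat_lit 0) (nat_lit 23071254528) (nat_lit 1292) (nat_lit 27084075586) (nat_lit 312) (nat_lit 5) (nat_lit 311) (nat_lit 5) (nat_lit 328) (nat_lit 5) (nat_lit 459) (nat_lit 456) (nat_lit 285)) (XT.lf (nat_lit 76) (nat_lit 6508843796) (nat_lit 0) (nat_lit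 37823698269) (nat_lit 1292) (nat_lit 24590857987) (nat_lit 313) (nat_lit 5) (nat_lit 312) (nat_lit 5) (nat_lit 329) (nat_lit 5) (nat_lit 460) (nat_lit 456) (nat_lit 284)))) (XT.nd (nat_lit 156) (nat_lit 0) (nat_lit 76) (XT.nd (nat_lit 78) (nat_lit 0) (nat_lit 76) (XT.lf (nat_lit 0) (nat_lit 49657104709) (nat_lit 1216) (nat_lit 4046558131) (nat_lit 1292) (nat_lit 16987174363) (nat_lit 313) (nat_lit 5) (nat_lit 329) (nat_lit 5) (nat_lit 330) (nat_lit 5) (nat_lit 461) (nat_lit 456) (nat_lit 283)) (XT.lf (nat_lit 0) (nat_lit 56202954880) (nat_lit 1216) (nat_lit 14547214467) (nat_lit 1292) (nat_lit 1767825217) (nat_lit 314) (nat_lit 5) (nat_lit 330) (nat_lit 5) (nat_lit 331) (nat_lit 5) (nat_lit 462) (nat_lit 456) (nat_lit 282))) (XT.nd (nat_lit 78) (nat_lit 0) (nat_lit 76) (XT.lf (nat_lit 76) (nat_lit 49153972184) (nat_lit 0) (nat_lit 14977341496) (nat_lit 1292) (nat_lit 10273539757) (nat_lit 315)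 (nat_lit 5) (nat_lit 314) (nat_lit 5) (nat_lit 331) (nat_lit 5) (nat_lit 463) (nat_lit 456) (nat_lit 281)) (XT.lf (nat_lit 76) (nat_lit 40328113572) (nat_lit 0) (nat_lit 33084491909) (nat_lit 1292) (nat_lit 2944754442) (nat_lit 316) (nat_lit 5) (nat_lit 315) (nat_lit 5) (nat_lit 332) (nat_lit 5) (nat_lit 464) (nat_lit 456) (nat_lit 280))))))) (XT.nd (nat_lit 1014) (nat_lit 4256) (nat_lit 0) (XT.nd (nat_lit 468) (nat_lit 3724) (nat_lit 0) (XT.nd (nat_lit 234) (nat_lit 1216) (nat_lit 0) (XT.nd (nat_lit 78) (nat_lit 760) (nat_lit 0) (XT.lf (nat_lit 0) (nat_lit 5628558000) (nat_lit 1292) (nat_lit 46905156374) (nat_lit 1368) (nat_lit 25843283939) (nat_lit 299) (nat_lit 5) (nat_lit 316) (nat_lit 5) (nat_lit 317) (nat_lit 5) (nat_lit 465) (nat_lit 456) (nat_lit 279)) (XT.nd (nat_lit 78) (nat_lit 836) (nat_lit 0) (XT.lf (nat_lit 0) (nat_lit 15564696262) (nat_lit 1292) (nat_lit 57849347108) (nat_lit 76)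 (nat_lit 7052848814) (nat_lit 300) (nat_lit 5) (nat_lit 317) (nat_lit 5) (nat_lit 301) (nat_lit 5) (nat_lit 466) (nat_lit 456) (nat_lit 278)) (XT.lf (nat_lit 0) (nat_lit 13680652922) (nat_lit 836) (nat_lit 13465170519) (nat_lit 912) (nat_lit 55481011948) (nat_lit 289) (nat_lit 5) (nat_lit 300) (nat_lit 5) (nat_lit 301) (nat_lit 5) (nat_lit 467) (nat_lit 456) (nat_lit 277)))) (XT.nd (nat_lit 78) (nat_lit 608) (nat_lit 0) (XT.lf (nat_lit 0) (nat_lit 4728799406) (nat_lit 608) (nat_lit 35698570500) (nat_lit 684) (nat_lit 44433765058) (nat_lit 281) (nat_lit 5) (nat_lit 289) (nat_lit 5) (nat_lit 290) (nat_lit 5) (nat_lit 468) (nat_lit 456) (nat_lit 276)) (XT.nd (nat_lit 78) (nat_lit 608) (nat_lit 0) (XT.lf (nat_lit 0) (nat_lit 55487023473) (nat_lit 684) (nat_lit 4064003658) (nat_lit 76) (nat_lit 27622701587) (nat_lit 281) (nat_lit 5) (nat_lit 290) (nat_lit 5) (nat_lit 282) (nat_lit 5) (nat_lit 469) (nat_lit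 456) (nat_lit 275)) (XT.lf (nat_lit 0) (nat_lit 72442332746) (nat_lit 684) (nat_lit 12664766447) (nat_lit 76) (nat_lit 4460572862) (nat_lit 273) (nat_lit 5) (nat_lit 282) (nat_lit 5) (nat_lit 274) (nat_lit 5) (nat_lit 470) (nat_lit 456) (nat_lit 274))))) (XT.nd (nat_lit 234) (nat_lit 1976) (nat_lit 0) (XT.nd (nat_lit 78) (nat_lit 1216) (nat_lit 0) (XT.lf (nat_lit 0) (nat_lit 70700151209) (nat_lit 532) (nat_lit 20867179104) (nat_lit 608) (nat_lit 474324647) (nat_lit 266) (nat_lit 5) (nat_lit 273) (nat_lit 5) (nat_lit 274) (nat_lit 5) (nat_lit 471) (nat_lit 456) (nat_lit 273)) (XT.nd (nat_lit 78) (nat_lit 532) (nat_lit 0) (XT.lf (nat_lit 0) (nat_lit 17889402478) (nat_lit 684) (nat_lit 30104246843) (nat_lit 76) (nat_lit 46604420469) (nat_lit 257) (nat_lit 5) (nat_lit 266) (nat_lit 5) (nat_lit 258) (nat_lit 5) (nat_lit 472) (nat_lit 456) (nat_lit 272)) (XT.lf (nat_lit 0) (nat_lit 38355224837) (nat_lit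 608) (nat_lit 38731526247) (nat_lit 76) (nat_lit 20159601904) (nat_lit 250) (nat_lit 5) (nat_lit 258) (nat_lit 5) (nat_lit 251) (nat_lit 5) (nat_lit 473) (nat_lit 456) (nat_lit 271)))) (XT.nd (nat_lit 156) (nat_lit 988) (nat_lit 0) (XT.nd (nat_lit 78) (nat_lit 456) (nat_lit 0) (XT.lf (nat_lit 0) (nat_lit 52716395902) (nat_lit 532) (nat_lit 8431158203) (nat_lit 608) (nat_lit 38840399838) (nat_lit 243) (nat_lit 5) (nat_lit 250) (nat_lit 5) (nat_lit 251) (nat_lit 5) (nat_lit 474) (nat_lit 456) (nat_lit 270)) (XT.lf (nat_lit 0) (nat_lit 46991531509) (nat_lit 456) (nat_lit 39553375958) (nat_lit 532) (nat_lit 16277765319) (nat_lit 237) (nat_lit 5) (nat_lit 243) (nat_lit 5) (nat_lit 244) (nat_lit 5) (nat_lit 475) (nat_lit 456) (nat_lit 269))) (XT.nd (nat_lit 78) (nat_lit 456) (nat_lit 0) (XT.lf (nat_lit 0) (nat_lit 8568864889) (nat_lit 532) (nat_lit 64265359194) (nat_lit 76) (nat_lit 32923750248) (nat_lit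 230) (nat_lit 5) (nat_lit 237) (nat_lit 5) (nat_lit 231) (nat_lit 5) (nat_lit 476) (nat_lit 456) (nat_lit 268)) (XT.lf (nat_lit 0) (nat_lit 35655659015) (nat_lit 532) (nat_lit 72638305385) (nat_lit 76) (nat_lit 501207188) (nat_lit 224) (nat_lit 5) (nat_lit 231) (nat_lit 5) (nat_lit 225) (nat_lit 5) (nat_lit 477) (nat_lit 456) (nat_lit 267)))))) (XT.nd (nat_lit 546) (nat_lit 1368) (nat_lit 0) (XT.nd (nat_lit 234) (nat_lit 1520) (nat_lit 0) (XT.nd (nat_lit 78) (nat_lit 912) (nat_lit 0) (XT.lf (nat_lit 0) (nat_lit 30837876987) (nat_lit 456) (nat_lit 34957798425) (nat_lit 532) (nat_lit 46137586873) (nat_lit 218) (nat_lit 5) (nat_lit 224) (nat_lit 5) (nat_lit 225) (nat_lit 5) (nat_lit 478) (nat_lit 456) (nat_lit 266)) (XT.nd (nat_lit 78) (nat_lit 532) (nat_lit 0) (XT.lf (nat_lit 0) (nat_lit 25892694199) (nat_lit 380) (nat_lit 72957447482) (nat_lit 456) (nat_lit 16335892419) (nat_lit 213) (nat_lit 5)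 (nat_lit 218) (nat_lit 5) (nat_lit 219) (nat_lit 5) (nat_lit 479) (nat_lit 456) (nat_lit 265)) (XT.lf (nat_lit 0) (nat_lit 16113475751) (nat_lit 532) (nat_lit 97347655504) (nat_lit 76) (nat_lit 5092517380) (nat_lit 206) (nat_lit 5) (nat_lit 213) (nat_lit 5) (nat_lit 207) (nat_lit 5) (nat_lit 480) (nat_lit 456) (nat_lit 264)))) (XT.nd (nat_lit 156) (nat_lit 760) (nat_lit 0) (XT.nd (nat_lit 78) (nat_lit 380) (nat_lit 0) (XT.lf (nat_lit 0) (nat_lit 16443762140) (nat_lit 380) (nat_lit 35228863559) (nat_lit 456) (nat_lit 70357411060) (nat_lit 201) (nat_lit 5) (nat_lit 206) (nat_lit 5) (nat_lit 207) (nat_lit 5) (nat_lit 481) (nat_lit 456) (nat_lit 263)) (XT.lf (nat_lit 0) (nat_lit 12082791316) (nat_lit 380) (nat_lit 78505400355) (nat_lit 456) (nat_lit 35044698905) (nat_lit 196) (nat_lit 5) (nat_lit 201) (nat_lit 5) (nat_lit 202) (nat_lit 5) (nat_lit 482) (nat_lit 456) (nat_lit 262))) (XT.nd (nat_lit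 78) (nat_lit 380) (nat_lit 0) (XT.lf (nat_lit 0) (nat_lit 3570917620) (nat_lit 380) (nat_lit 121182286227) (nat_lit 76) (nat_lit 4614788242) (nat_lit 191) (nat_lit 5) (nat_lit 196) (nat_lit 5) (nat_lit 192) (nat_lit 5) (nat_lit 483) (nat_lit 456) (nat_lit 261)) (XT.lf (nat_lit 0) (nat_lit 4046771378) (nat_lit 380) (nat_lit 41363592553) (nat_lit 456) (nat_lit 87808540656) (nat_lit 186) (nat_lit 5) (nat_lit 191) (nat_lit 5) (nat_lit 192) (nat_lit 5) (nat_lit 484) (nat_lit 456) (nat_lit 260))))) (XT.nd (nat_lit 234) (nat_lit 684) (nat_lit 0) (XT.nd (nat_lit 78) (nat_lit 380) (nat_lit 0) (XT.lf (nat_lit 0) (nat_lit 395088839) (nat_lit 304) (nat_lit 90653731273) (nat_lit 380) (nat_lit 46162331510) (nat_lit 182) (nat_lit 5) (nat_lit 186) (nat_lit 5) (nat_lit 187) (nat_lit 5) (nat_lit 485) (nat_lit 456) (nat_lit 259)) (XT.nd (nat_lit 78) (nat_lit 380) (nat_lit 0) (XT.lf (nat_lit 0) (nat_lit 138713307269)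 (nat_lit 304) (nat_lit 1998390935) (nat_lit 380) (nat_lit 639037866) (nat_lit 182) (nat_lit 5) (nat_lit 186) (nat_lit 5) (nat_lit 187) (nat_lit 5) (nat_lit 486) (nat_lit 456) (nat_lit 258)) (XT.lf (nat_lit 0) (nat_lit 48483972856) (nat_lit 380) (nat_lit 5998299764) (nat_lit 76) (nat_lit 91134112448) (nat_lit 177) (nat_lit 5) (nat_lit 182) (nat_lit 5) (nat_lit 178) (nat_lit 5) (nat_lit 487) (nat_lit 456) (nat_lit 257)))) (XT.nd (nat_lit 60060) (nat_lit 0) (nat_lit 10716) (XT.nd (nat_lit 78) (nat_lit 380) (nat_lit 0) (XT.lf (nat_lit 0) (nat_lit 101845678066) (nat_lit 380) (nat_lit 8755498014) (nat_lit 76) (nat_lit 39440077847) (nat_lit 173) (nat_lit 5) (nat_lit 178) (nat_lit 5) (nat_lit 174) (nat_lit 5) (nat_lit 488) (nat_lit 456) (nat_lit 256)) (XT.lf (nat_lit 0) (nat_lit 5137935219) (nat_lit 380) (nat_lit 11052822285) (nat_lit 76) (nat_lit 138435328047) (nat_lit 168) (nat_lit 5) (nat_lit 173) (nat_lit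 5) (nat_lit 169) (nat_lit 5) (nat_lit 489) (nat_lit 456) (nat_lit 255))) (XT.nd (nat_lit 78) (nat_lit 0) (nat_lit 76) (XT.lf (nat_lit 0) (nat_lit 17594337339) (nat_lit 1292) (nat_lit 7586589926) (nat_lit 1292) (nat_lit 7586589926) (nat_lit 309) (nat_lit 3) (nat_lit 326) (nat_lit 3) (nat_lit 326) (nat_lit 5) (nat_lit 457) (nat_lit 457) (nat_lit 286)) (XT.lf (nat_lit 0) (nat_lit 36507414500) (nat_lit 1216) (nat_lit 27416530009) (nat_lit 1292) (nat_lit 3236292739) (nat_lit 310) (nat_lit 5) (nat_lit 326) (nat_lit 5) (nat_lit 327) (nat_lit 5) (nat_lit 458) (nat_lit 457) (nat_lit 285))))))))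
noncomputable def xc120 : XT := (XT.nd (nat_lit 2028) (nat_lit 1368) (nat_lit 0) (XT.nd (nat_lit 1014) (nat_lit 6232) (nat_lit 0) (XT.nd (nat_lit 468) (nat_lit 2812) (nat_lit 0) (XT.nd (nat_lit 234) (nat_lit 0) (nat_lit 228) (XT.nd (nat_lit 78) (nat_lit 0) (nat_lit 76) (XT.lf (nat_lit 76) (nat_lit 28914979355) (nat_lit 0) (nat_lit 9919518660) (nat_lit 1292) (nat_lit 30003930187) (nat_lit 311) (nat_lit 5) (nat_lit 310) (nat_lit 5) (nat_lit 327) (nat_lit 5) (nat_lit 459) (nat_lit 457) (nat_lit 284)) (XT.nd (nat_lit 78) (nat_lit 0) (nat_lit 76) (XT.lf (nat_lit 76) (nat_lit 17940569710) (nat_lit 0) (nat_lit 24243049247) (nat_lit 1292) (nat_lit 28389739390) (nat_lit 312) (nat_lit 5) (nat_lit 311) (nat_lit 5) (nat_lit 328) (nat_lit 5) (nat_lit 460) (nat_lit 457) (nat_lit 283)) (XT.lf (nat_lit 76) (nat_lit 6863895430) (nat_lit 0) (nat_lit 39730269537) (nat_lit 1292) (nat_lit 25774051096) (nat_lit 313)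 (nat_lit 5) (nat_lit 312) (nat_lit 5) (nat_lit 329) (nat_lit 5) (nat_lit 461) (nat_lit 457) (nat_lit 282)))) (XT.nd (nat_lit 78) (nat_lit 0) (nat_lit 76) (XT.lf (nat_lit 0) (nat_lit 52182672226) (nat_lit 1216) (nat_lit 4219256190) (nat_lit 1292) (nat_lit 17822165357) (nat_lit 313) (nat_lit 5) (nat_lit 329) (nat_lit 5) (nat_lit 330) (nat_lit 5) (nat_lit 462) (nat_lit 457) (nat_lit 281)) (XT.nd (nat_lit 78) (nat_lit 0) (nat_lit 0) (XT.lf (nat_lit 0) (nat_lit 59053940614) (nat_lit 1216) (nat_lit 15244445261) (nat_lit 1292) (nat_lit 1844279542) (nat_lit 314) (nat_lit 5) (nat_lit 330) (nat_lit 5) (nat_lit 331) (nat_lit 5) (nat_lit 463) (nat_lit 457) (nat_lit 280)) (XT.lf (nat_lit 76) (nat_lit 51640937054) (nat_lit 0) (nat_lit 15736116959) (nat_lit 1292) (nat_lit 10746863298) (nat_lit 315) (nat_lit 5) (nat_lit 314) (nat_lit 5) (nat_lit 331) (nat_lit 5) (nat_lit 464) (nat_lit 457) (nat_lit 279))))) (XT.nd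 (nat_lit 234) (nat_lit 1976) (nat_lit 0) (XT.nd (nat_lit 78) (nat_lit 1216) (nat_lit 0) (XT.lf (nat_lit 76) (nat_lit 42374184123) (nat_lit 0) (nat_lit 34746555268) (nat_lit 1292) (nat_lit 3053360030) (nat_lit 316) (nat_lit 5) (nat_lit 315) (nat_lit 5) (nat_lit 332) (nat_lit 5) (nat_lit 465) (nat_lit 457) (nat_lit 278)) (XT.nd (nat_lit 78) (nat_lit 0) (nat_lit 76) (XT.lf (nat_lit 0) (nat_lit 5946279059) (nat_lit 1292) (nat_lit 49219704878) (nat_lit 1368) (nat_lit 27128772364) (nat_lit 299) (nat_lit 5) (nat_lit 316) (nat_lit 5) (nat_lit 317) (nat_lit 5) (nat_lit 466) (nat_lit 457) (nat_lit 277)) (XT.lf (nat_lit 0) (nat_lit 16377734442) (nat_lit 1292) (nat_lit 60710888611) (nat_lit 76) (nat_lit 7400566654) (nat_lit 300) (nat_lit 5) (nat_lit 317) (nat_lit 5) (nat_lit 301) (nat_lit 5) (nat_lit 467) (nat_lit 457) (nat_lit 276)))) (XT.nd (nat_lit 156) (nat_lit 608) (nat_lit 0) (XT.nd (nat_lit 78) (nat_lit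 608) (nat_lit 0) (XT.lf (nat_lit 0) (nat_lit 14394724937) (nat_lit 836) (nat_lit 14141824497) (nat_lit 912) (nat_lit 58220621838) (nat_lit 289) (nat_lit 5) (nat_lit 300) (nat_lit 5) (nat_lit 301) (nat_lit 5) (nat_lit 468) (nat_lit 457) (nat_lit 275)) (XT.lf (nat_lit 0) (nat_lit 4995426430) (nat_lit 608) (nat_lit 37485413750) (nat_lit 684) (nat_lit 46622385773) (nat_lit 281) (nat_lit 5) (nat_lit 289) (nat_lit 5) (nat_lit 290) (nat_lit 5) (nat_lit 469) (nat_lit 457) (nat_lit 274))) (XT.nd (nat_lit 78) (nat_lit 608) (nat_lit 0) (XT.lf (nat_lit 0) (nat_lit 58291930239) (nat_lit 684) (nat_lit 4237516966) (nat_lit 76) (nat_lit 29002048703) (nat_lit 281) (nat_lit 5) (nat_lit 290) (nat_lit 5) (nat_lit 282) (nat_lit 5) (nat_lit 470) (nat_lit 457) (nat_lit 273)) (XT.lf (nat_lit 0) (nat_lit 76093821928) (nat_lit 684) (nat_lit 13268279866) (nat_lit 76) (nat_lit 4683070232) (nat_lit 273) (nat_lit 5) (nat_lit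 282) (nat_lit 5) (nat_lit 274) (nat_lit 5) (nat_lit 471) (nat_lit 457) (nat_lit 272)))))) (XT.nd (nat_lit 468) (nat_lit 2964) (nat_lit 0) (XT.nd (nat_lit 234) (nat_lit 1520) (nat_lit 0) (XT.nd (nat_lit 78) (nat_lit 1216) (nat_lit 0) (XT.lf (nat_lit 0) (nat_lit 74264031614) (nat_lit 532) (nat_lit 21909916609) (nat_lit 608) (nat_lit 468939604) (nat_lit 266) (nat_lit 5) (nat_lit 273) (nat_lit 5) (nat_lit 274) (nat_lit 5) (nat_lit 472) (nat_lit 457) (nat_lit 271)) (XT.nd (nat_lit 78) (nat_lit 532) (nat_lit 0) (XT.lf (nat_lit 0) (nat_lit 18811333233) (nat_lit 684) (nat_lit 31580045576) (nat_lit 76) (nat_lit 48935768489) (nat_lit 257) (nat_lit 5) (nat_lit 266) (nat_lit 5) (nat_lit 258) (nat_lit 5) (nat_lit 473) (nat_lit 457) (nat_lit 270)) (XT.lf (nat_lit 0) (nat_lit 40299434297) (nat_lit 608) (nat_lit 40638757796) (nat_lit 76) (nat_lit 21169683040) (nat_lit 250) (nat_lit 5) (nat_lit 258) (nat_lit 5)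 (nat_lit 251) (nat_lit 5) (nat_lit 474) (nat_lit 457) (nat_lit 269)))) (XT.nd (nat_lit 78) (nat_lit 988) (nat_lit 0) (XT.lf (nat_lit 0) (nat_lit 55380719298) (nat_lit 532) (nat_lit 8849675285) (nat_lit 608) (nat_lit 40756191213) (nat_lit 243) (nat_lit 5) (nat_lit 250) (nat_lit 5) (nat_lit 251) (nat_lit 5) (nat_lit 475) (nat_lit 457) (nat_lit 268)) (XT.nd (nat_lit 78) (nat_lit 532) (nat_lit 0) (XT.lf (nat_lit 0) (nat_lit 49369510134) (nat_lit 456) (nat_lit 41527193821) (nat_lit 532) (nat_lit 17066364067) (nat_lit 237) (nat_lit 5) (nat_lit 243) (nat_lit 5) (nat_lit 244) (nat_lit 5) (nat_lit 476) (nat_lit 457) (nat_lit 267)) (XT.lf (nat_lit 0) (nat_lit 9021233433) (nat_lit 532) (nat_lit 67449880077) (nat_lit 76) (nat_lit 34574040052) (nat_lit 230) (nat_lit 5) (nat_lit 237) (nat_lit 5) (nat_lit 231) (nat_lit 5) (nat_lit 477) (nat_lit 457) (nat_lit 266))))) (XT.nd (nat_lit 234) (nat_lit 1672) (nat_lit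 0) (XT.nd (nat_lit 78) (nat_lit 836) (nat_lit 0) (XT.lf (nat_lit 0) (nat_lit 37461543179) (nat_lit 532) (nat_lit 76241651129) (nat_lit 76) (nat_lit 531041178) (nat_lit 224) (nat_lit 5) (nat_lit 231) (nat_lit 5) (nat_lit 225) (nat_lit 5) (nat_lit 478) (nat_lit 457) (nat_lit 265)) (XT.nd (nat_lit 78) (nat_lit 380) (nat_lit 0) (XT.lf (nat_lit 0) (nat_lit 32407521422) (nat_lit 456) (nat_lit 36700205672) (nat_lit 532) (nat_lit 48421528702) (nat_lit 218) (nat_lit 5) (nat_lit 224) (nat_lit 5) (nat_lit 225) (nat_lit 5) (nat_lit 479) (nat_lit 457) (nat_lit 264)) (XT.lf (nat_lit 0) (nat_lit 27214883246) (nat_lit 380) (nat_lit 76599288116) (nat_lit 456) (nat_lit 17130517274) (nat_lit 213) (nat_lit 5) (nat_lit 218) (nat_lit 5) (nat_lit 219) (nat_lit 5) (nat_lit 480) (nat_lit 457) (nat_lit 263)))) (XT.nd (nat_lit 156) (nat_lit 760) (nat_lit 0) (XT.nd (nat_lit 78) (nat_lit 380) (nat_lit 0) (XT.lf (nat_lit 0)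 (nat_lit 16940172737) (nat_lit 532) (nat_lit 102187281699) (nat_lit 76) (nat_lit 5353244556) (nat_lit 206) (nat_lit 5) (nat_lit 213) (nat_lit 5) (nat_lit 207) (nat_lit 5) (nat_lit 481) (nat_lit 457) (nat_lit 262)) (XT.lf (nat_lit 0) (nat_lit 17292911190) (nat_lit 380) (nat_lit 36983627052) (nat_lit 456) (nat_lit 73854390603) (nat_lit 201) (nat_lit 5) (nat_lit 206) (nat_lit 5) (nat_lit 207) (nat_lit 5) (nat_lit 482) (nat_lit 457) (nat_lit 261))) (XT.nd (nat_lit 78) (nat_lit 380) (nat_lit 0) (XT.lf (nat_lit 0) (nat_lit 12713648899) (nat_lit 380) (nat_lit 82423585821) (nat_lit 456) (nat_lit 36776710130) (nat_lit 196) (nat_lit 5) (nat_lit 201) (nat_lit 5) (nat_lit 202) (nat_lit 5) (nat_lit 483) (nat_lit 457) (nat_lit 260)) (XT.lf (nat_lit 0) (nat_lit 3768670704) (nat_lit 380) (nat_lit 127214557783) (nat_lit 76) (nat_lit 4852585834) (nat_lit 191) (nat_lit 5) (nat_lit 196) (nat_lit 5) (nat_lit 192) (nat_lit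 5) (nat_lit 484) (nat_lit 457) (nat_lit 259))))))) (XT.nd (nat_lit 60996) (nat_lit 0) (nat_lit 4332) (XT.nd (nat_lit 60450) (nat_lit 0) (nat_lit 10412) (XT.nd (nat_lit 234) (nat_lit 684) (nat_lit 0) (XT.nd (nat_lit 78) (nat_lit 304) (nat_lit 0) (XT.lf (nat_lit 0) (nat_lit 4275183260) (nat_lit 380) (nat_lit 43424242074) (nat_lit 456) (nat_lit 92179867084) (nat_lit 186) (nat_lit 5) (nat_lit 191) (nat_lit 5) (nat_lit 192) (nat_lit 5) (nat_lit 485) (nat_lit 457) (nat_lit 258)) (XT.nd (nat_lit 78) (nat_lit 0) (nat_lit 0) (XT.lf (nat_lit 0) (nat_lit 440640319) (nat_lit 304) (nat_lit 95178597910) (nat_lit 380) (nat_lit 48451930612) (nat_lit 182) (nat_lit 5) (nat_lit 186) (nat_lit 5) (nat_lit 187) (nat_lit 5) (nat_lit 486) (nat_lit 457) (nat_lit 257)) (XT.lf (nat_lit 0) (nat_lit 145673541240) (nat_lit 304) (nat_lit 2090862932) (nat_lit 380) (nat_lit 653354070) (nat_lit 182) (nat_lit 5) (nat_lit 186) (nat_lit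 5) (nat_lit 187) (nat_lit 5) (nat_lit 487) (nat_lit 457) (nat_lit 256)))) (XT.nd (nat_lit 78) (nat_lit 304) (nat_lit 0) (XT.lf (nat_lit 0) (nat_lit 50924944349) (nat_lit 380) (nat_lit 6273585321) (nat_lit 76) (nat_lit 95698170542) (nat_lit 177) (nat_lit 5) (nat_lit 182) (nat_lit 5) (nat_lit 178) (nat_lit 5) (nat_lit 488) (nat_lit 457) (nat_lit 255)) (XT.nd (nat_lit 60060) (nat_lit 0) (nat_lit 10336) (XT.lf (nat_lit 0) (nat_lit 106954240282) (nat_lit 380) (nat_lit 9168936681) (nat_lit 76) (nat_lit 41419650431) (nat_lit 173) (nat_lit 5) (nat_lit 178) (nat_lit 5) (nat_lit 174) (nat_lit 5) (nat_lit 489) (nat_lit 457) (nat_lit 254)) (XT.lf (nat_lit 0) (nat_lit 18498604453) (nat_lit 1292) (nat_lit 7953274910) (nat_lit 1292) (nat_lit 7953274910) (nat_lit 309) (nat_lit 3) (nat_lit 326) (nat_lit 3) (nat_lit 326) (nat_lit 5) (nat_lit 458) (nat_lit 458) (nat_lit 284))))) (XT.nd (nat_lit 234) (nat_lit 0) (nat_lit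 152) (XT.nd (nat_lit 78) (nat_lit 0) (nat_lit 0) (XT.lf (nat_lit 0) (nat_lit 38379568071) (nat_lit 1216) (nat_lit 28761162456) (nat_lit 1292) (nat_lit 3376110772) (nat_lit 310) (nat_lit 5) (nat_lit 326) (nat_lit 5) (nat_lit 327) (nat_lit 5) (nat_lit 459) (nat_lit 458) (nat_lit 283)) (XT.nd (nat_lit 78) (nat_lit 0) (nat_lit 76) (XT.lf (nat_lit 76) (nat_lit 30386171529) (nat_lit 0) (nat_lit 10434851055) (nat_lit 1292) (nat_lit 31457978919) (nat_lit 311) (nat_lit 5) (nat_lit 310) (nat_lit 5) (nat_lit 327) (nat_lit 5) (nat_lit 460) (nat_lit 458) (nat_lit 282)) (XT.lf (nat_lit 76) (nat_lit 18863802275) (nat_lit 0) (nat_lit 25471738663) (nat_lit 1292) (nat_lit 29765199172) (nat_lit 312) (nat_lit 5) (nat_lit 311) (nat_lit 5) (nat_lit 328) (nat_lit 5) (nat_lit 461) (nat_lit 458) (nat_lit 281)))) (XT.nd (nat_lit 156) (nat_lit 0) (nat_lit 152) (XT.nd (nat_lit 78) (nat_lit 0) (nat_lit 76) (XT.lf (nat_lit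 76) (nat_lit 7233946840) (nat_lit 0) (nat_lit 41730738890) (nat_lit 1292) (nat_lit 27020713023) (nat_lit 313) (nat_lit 5) (nat_lit 312) (nat_lit 5) (nat_lit 329) (nat_lit 5) (nat_lit 462) (nat_lit 458) (nat_lit 280)) (XT.lf (nat_lit 0) (nat_lit 54830547135) (nat_lit 1216) (nat_lit 4403343854) (nat_lit 1292) (nat_lit 18700241674) (nat_lit 313) (nat_lit 5) (nat_lit 329) (nat_lit 5) (nat_lit 330) (nat_lit 5) (nat_lit 463) (nat_lit 458) (nat_lit 279))) (XT.nd (nat_lit 78) (nat_lit 0) (nat_lit 0) (XT.lf (nat_lit 0) (nat_lit 62043678906) (nat_lit 1216) (nat_lit 15979338789) (nat_lit 1292) (nat_lit 1925666366) (nat_lit 314) (nat_lit 5) (nat_lit 330) (nat_lit 5) (nat_lit 331) (nat_lit 5) (nat_lit 464) (nat_lit 458) (nat_lit 278)) (XT.lf (nat_lit 76) (nat_lit 54249529269) (nat_lit 0) (nat_lit 16531910007) (nat_lit 1292) (nat_lit 11247604697) (nat_lit 315) (nat_lit 5) (nat_lit 314) (nat_lit 5) (nat_lit 331)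 (nat_lit 5) (nat_lit 465) (nat_lit 458) (nat_lit 277)))))) (XT.nd (nat_lit 468) (nat_lit 3876) (nat_lit 0) (XT.nd (nat_lit 234) (nat_lit 1368) (nat_lit 0) (XT.nd (nat_lit 78) (nat_lit 1216) (nat_lit 0) (XT.lf (nat_lit 76) (nat_lit 44519800243) (nat_lit 0) (nat_lit 36490993022) (nat_lit 1292) (nat_lit 3170987547) (nat_lit 316) (nat_lit 5) (nat_lit 315) (nat_lit 5) (nat_lit 332) (nat_lit 5) (nat_lit 466) (nat_lit 458) (nat_lit 276)) (XT.nd (nat_lit 78) (nat_lit 0) (nat_lit 76) (XT.lf (nat_lit 0) (nat_lit 6276511976) (nat_lit 1292) (nat_lit 51652835869) (nat_lit 1368) (nat_lit 28479155860) (nat_lit 299) (nat_lit 5) (nat_lit 316) (nat_lit 5) (nat_lit 317) (nat_lit 5) (nat_lit 467) (nat_lit 458) (nat_lit 275)) (XT.lf (nat_lit 0) (nat_lit 17228188844) (nat_lit 1292) (nat_lit 63718382382) (nat_lit 76) (nat_lit 7766128230) (nat_lit 300) (nat_lit 5) (nat_lit 317) (nat_lit 5) (nat_lit 301) (nat_lit 5) (nat_lit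 468) (nat_lit 458) (nat_lit 274)))) (XT.nd (nat_lit 78) (nat_lit 608) (nat_lit 0) (XT.lf (nat_lit 0) (nat_lit 15141707777) (nat_lit 836) (nat_lit 14851995497) (nat_lit 912) (nat_lit 61100414192) (nat_lit 289) (nat_lit 5) (nat_lit 300) (nat_lit 5) (nat_lit 301) (nat_lit 5) (nat_lit 469) (nat_lit 458) (nat_lit 273)) (XT.nd (nat_lit 78) (nat_lit 0) (nat_lit 0) (XT.lf (nat_lit 0) (nat_lit 5272578299) (nat_lit 608) (nat_lit 39361421149) (nat_lit 684) (nat_lit 48923511830) (nat_lit 281) (nat_lit 5) (nat_lit 289) (nat_lit 5) (nat_lit 290) (nat_lit 5) (nat_lit 470) (nat_lit 458) (nat_lit 272)) (XT.lf (nat_lit 0) (nat_lit 61234241575) (nat_lit 684) (nat_lit 4422465944) (nat_lit 76) (nat_lit 30450529402) (nat_lit 281) (nat_lit 5) (nat_lit 290) (nat_lit 5) (nat_lit 282) (nat_lit 5) (nat_lit 471) (nat_lit 458) (nat_lit 271))))) (XT.nd (nat_lit 234) (nat_lit 2052) (nat_lit 0) (XT.nd (nat_lit 78) (nat_lit 1216)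 (nat_lit 0) (XT.lf (nat_lit 0) (nat_lit 79925154788) (nat_lit 684) (nat_lit 13904732496) (nat_lit 76) (nat_lit 4916741864) (nat_lit 273) (nat_lit 5) (nat_lit 282) (nat_lit 5) (nat_lit 274) (nat_lit 5) (nat_lit 472) (nat_lit 458) (nat_lit 270)) (XT.nd (nat_lit 78) (nat_lit 684) (nat_lit 0) (XT.lf (nat_lit 0) (nat_lit 78003421716) (nat_lit 532) (nat_lit 23004848767) (nat_lit 608) (nat_lit 465990869) (nat_lit 266) (nat_lit 5) (nat_lit 273) (nat_lit 5) (nat_lit 274) (nat_lit 5) (nat_lit 473) (nat_lit 458) (nat_lit 269)) (XT.lf (nat_lit 0) (nat_lit 19776807497) (nat_lit 684) (nat_lit 33132368845) (nat_lit 76) (nat_lit 51383579133) (nat_lit 257) (nat_lit 5) (nat_lit 266) (nat_lit 5) (nat_lit 258) (nat_lit 5) (nat_lit 474) (nat_lit 458) (nat_lit 268)))) (XT.nd (nat_lit 156) (nat_lit 988) (nat_lit 0) (XT.nd (nat_lit 78) (nat_lit 532) (nat_lit 0) (XT.lf (nat_lit 0) (nat_lit 42338395325) (nat_lit 608) (nat_lit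 42644079121) (nat_lit 76) (nat_lit 22230072897) (nat_lit 250) (nat_lit 5) (nat_lit 258) (nat_lit 5) (nat_lit 251) (nat_lit 5) (nat_lit 475) (nat_lit 458) (nat_lit 267)) (XT.lf (nat_lit 0) (nat_lit 58175608870) (nat_lit 532) (nat_lit 9289400928) (nat_lit 608) (nat_lit 42770210645) (nat_lit 243) (nat_lit 5) (nat_lit 250) (nat_lit 5) (nat_lit 251) (nat_lit 5) (nat_lit 476) (nat_lit 458) (nat_lit 266))) (XT.nd (nat_lit 78) (nat_lit 532) (nat_lit 0) (XT.lf (nat_lit 0) (nat_lit 51863747138) (nat_lit 456) (nat_lit 43600060601) (nat_lit 532) (nat_lit 17896743933) (nat_lit 237) (nat_lit 5) (nat_lit 243) (nat_lit 5) (nat_lit 244) (nat_lit 5) (nat_lit 477) (nat_lit 458) (nat_lit 265)) (XT.lf (nat_lit 0) (nat_lit 9493996057) (nat_lit 532) (nat_lit 70796299635) (nat_lit 76) (nat_lit 36306462954) (nat_lit 230) (nat_lit 5) (nat_lit 237) (nat_lit 5) (nat_lit 231) (nat_lit 5) (nat_lit 478) (nat_lit 458) (nat_lit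 264))))))))
noncomputable def xc121 : XT := (XT.nd (nat_lit 62088) (nat_lit 0) (nat_lit 380) (XT.nd (nat_lit 61074) (nat_lit 0) (nat_lit 7296) (XT.nd (nat_lit 468) (nat_lit 1444) (nat_lit 0) (XT.nd (nat_lit 234) (nat_lit 1292) (nat_lit 0) (XT.nd (nat_lit 78) (nat_lit 836) (nat_lit 0) (XT.lf (nat_lit 0) (nat_lit 39355573819) (nat_lit 532) (nat_lit 80027820285) (nat_lit 76) (nat_lit 561923060) (nat_lit 224) (nat_lit 5) (nat_lit 231) (nat_lit 5) (nat_lit 225) (nat_lit 5) (nat_lit 479) (nat_lit 458) (nat_lit 263)) (XT.nd (nat_lit 78) (nat_lit 380) (nat_lit 0) (XT.lf (nat_lit 0) (nat_lit 34053068091) (nat_lit 456) (nat_lit 38530243009) (nat_lit 532) (nat_lit 50821800136) (nat_lit 218) (nat_lit 5) (nat_lit 224) (nat_lit 5) (nat_lit 225) (nat_lit 5) (nat_lit 480) (nat_lit 458) (nat_lit 262)) (XT.lf (nat_lit 0) (nat_lit 28600620005) (nat_lit 380) (nat_lit 80423781555) (nat_lit 456) (nat_lit 17966934506)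 (nat_lit 213) (nat_lit 5) (nat_lit 218) (nat_lit 5) (nat_lit 219) (nat_lit 5) (nat_lit 481) (nat_lit 458) (nat_lit 261)))) (XT.nd (nat_lit 78) (nat_lit 760) (nat_lit 0) (XT.lf (nat_lit 0) (nat_lit 17806250034) (nat_lit 532) (nat_lit 107271469748) (nat_lit 76) (nat_lit 5626440849) (nat_lit 206) (nat_lit 5) (nat_lit 213) (nat_lit 5) (nat_lit 207) (nat_lit 5) (nat_lit 482) (nat_lit 458) (nat_lit 260)) (XT.nd (nat_lit 78) (nat_lit 380) (nat_lit 0) (XT.lf (nat_lit 0) (nat_lit 18182011120) (nat_lit 380) (nat_lit 38826749733) (nat_lit 456) (nat_lit 77528161371) (nat_lit 201) (nat_lit 5) (nat_lit 206) (nat_lit 5) (nat_lit 207) (nat_lit 5) (nat_lit 483) (nat_lit 458) (nat_lit 259)) (XT.lf (nat_lit 0) (nat_lit 13373565374) (nat_lit 380) (nat_lit 86538339215) (nat_lit 456) (nat_lit 38597202126) (nat_lit 196) (nat_lit 5) (nat_lit 201) (nat_lit 5) (nat_lit 202) (nat_lit 5) (nat_lit 484) (nat_lit 458) (nat_lit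 258))))) (XT.nd (nat_lit 234) (nat_lit 380) (nat_lit 0) (XT.nd (nat_lit 78) (nat_lit 684) (nat_lit 0) (XT.lf (nat_lit 0) (nat_lit 3974525738) (nat_lit 380) (nat_lit 133550938502) (nat_lit 76) (nat_lit 5101617102) (nat_lit 191) (nat_lit 5) (nat_lit 196) (nat_lit 5) (nat_lit 192) (nat_lit 5) (nat_lit 485) (nat_lit 458) (nat_lit 257)) (XT.nd (nat_lit 78) (nat_lit 304) (nat_lit 0) (XT.lf (nat_lit 0) (nat_lit 4512591687) (nat_lit 380) (nat_lit 45588624150) (nat_lit 456) (nat_lit 96771535627) (nat_lit 186) (nat_lit 5) (nat_lit 191) (nat_lit 5) (nat_lit 192) (nat_lit 5) (nat_lit 486) (nat_lit 458) (nat_lit 256)) (XT.lf (nat_lit 0) (nat_lit 486071009) (nat_lit 304) (nat_lit 99930434901) (nat_lit 380) (nat_lit 50857731248) (nat_lit 182) (nat_lit 5) (nat_lit 186) (nat_lit 5) (nat_lit 187) (nat_lit 5) (nat_lit 487) (nat_lit 458) (nat_lit 255)))) (XT.nd (nat_lit 60216) (nat_lit 0) (nat_lit 10032) (XT.nd (nat_lit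 78) (nat_lit 380) (nat_lit 0) (XT.lf (nat_lit 0) (nat_lit 152979502753) (nat_lit 304) (nat_lit 2188650932) (nat_lit 380) (nat_lit 670025684) (nat_lit 182) (nat_lit 5) (nat_lit 186) (nat_lit 5) (nat_lit 187) (nat_lit 5) (nat_lit 488) (nat_lit 458) (nat_lit 254)) (XT.lf (nat_lit 0) (nat_lit 53486405036) (nat_lit 380) (nat_lit 6564924967) (nat_lit 76) (nat_lit 100489747977) (nat_lit 177) (nat_lit 5) (nat_lit 182) (nat_lit 5) (nat_lit 178) (nat_lit 5) (nat_lit 489) (nat_lit 458) (nat_lit 253))) (XT.nd (nat_lit 78) (nat_lit 0) (nat_lit 76) (XT.lf (nat_lit 0) (nat_lit 19445802473) (nat_lit 1292) (nat_lit 8339469710) (nat_lit 1292) (nat_lit 8339469710) (nat_lit 309) (nat_lit 3) (nat_lit 326) (nat_lit 3) (nat_lit 326) (nat_lit 5) (nat_lit 459) (nat_lit 459) (nat_lit 282)) (XT.lf (nat_lit 0) (nat_lit 40340979896) (nat_lit 1216) (nat_lit 30175461801) (nat_lit 1292) (nat_lit 3524964742) (nat_lit 310) (nat_lit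 5) (nat_lit 326) (nat_lit 5) (nat_lit 327) (nat_lit 5) (nat_lit 460) (nat_lit 459) (nat_lit 281)))))) (XT.nd (nat_lit 468) (nat_lit 2812) (nat_lit 0) (XT.nd (nat_lit 234) (nat_lit 0) (nat_lit 228) (XT.nd (nat_lit 78) (nat_lit 0) (nat_lit 76) (XT.lf (nat_lit 76) (nat_lit 31928557843) (nat_lit 0) (nat_lit 10974150489) (nat_lit 1292) (nat_lit 32989020471) (nat_lit 311) (nat_lit 5) (nat_lit 310) (nat_lit 5) (nat_lit 327) (nat_lit 5) (nat_lit 461) (nat_lit 459) (nat_lit 280)) (XT.nd (nat_lit 78) (nat_lit 0) (nat_lit 76) (XT.lf (nat_lit 76) (nat_lit 19830760261) (nat_lit 0) (nat_lit 26760325101) (nat_lit 1292) (nat_lit 31213525173) (nat_lit 312) (nat_lit 5) (nat_lit 311) (nat_lit 5) (nat_lit 328) (nat_lit 5) (nat_lit 462) (nat_lit 459) (nat_lit 279)) (XT.lf (nat_lit 76) (nat_lit 7620003945) (nat_lit 0) (nat_lit 43829934227) (nat_lit 1292) (nat_lit 28333616586) (nat_lit 313) (nat_lit 5) (nat_lit 312)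 (nat_lit 5) (nat_lit 329) (nat_lit 5) (nat_lit 463) (nat_lit 459) (nat_lit 278)))) (XT.nd (nat_lit 78) (nat_lit 0) (nat_lit 76) (XT.lf (nat_lit 0) (nat_lit 57607213991) (nat_lit 1216) (nat_lit 4599134498) (nat_lit 1292) (nat_lit 19623433395) (nat_lit 313) (nat_lit 5) (nat_lit 329) (nat_lit 5) (nat_lit 330) (nat_lit 5) (nat_lit 464) (nat_lit 459) (nat_lit 277)) (XT.nd (nat_lit 78) (nat_lit 0) (nat_lit 0) (XT.lf (nat_lit 0) (nat_lit 65179460367) (nat_lit 1216) (nat_lit 16753517761) (nat_lit 1292) (nat_lit 2012129137) (nat_lit 314) (nat_lit 5) (nat_lit 330) (nat_lit 5) (nat_lit 331) (nat_lit 5) (nat_lit 465) (nat_lit 459) (nat_lit 276)) (XT.lf (nat_lit 76) (nat_lit 56986083158) (nat_lit 0) (nat_lit 17366657162) (nat_lit 1292) (nat_lit 11776786051) (nat_lit 315) (nat_lit 5) (nat_lit 314) (nat_lit 5) (nat_lit 331) (nat_lit 5) (nat_lit 466) (nat_lit 459) (nat_lit 275))))) (XT.nd (nat_lit 234) (nat_lit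 1976) (nat_lit 0) (XT.nd (nat_lit 78) (nat_lit 1216) (nat_lit 0) (XT.lf (nat_lit 76) (nat_lit 46770195620) (nat_lit 0) (nat_lit 38321991643) (nat_lit 1292) (nat_lit 3297754172) (nat_lit 316) (nat_lit 5) (nat_lit 315) (nat_lit 5) (nat_lit 332) (nat_lit 5) (nat_lit 467) (nat_lit 459) (nat_lit 274)) (XT.nd (nat_lit 78) (nat_lit 0) (nat_lit 76) (XT.lf (nat_lit 0) (nat_lit 6620196046) (nat_lit 1292) (nat_lit 54210213033) (nat_lit 1368) (nat_lit 29897621479) (nat_lit 299) (nat_lit 5) (nat_lit 316) (nat_lit 5) (nat_lit 317) (nat_lit 5) (nat_lit 468) (nat_lit 459) (nat_lit 273)) (XT.lf (nat_lit 0) (nat_lit 18118231103) (nat_lit 1292) (nat_lit 66878858726) (nat_lit 76) (nat_lit 8150383160) (nat_lit 300) (nat_lit 5) (nat_lit 317) (nat_lit 5) (nat_lit 301) (nat_lit 5) (nat_lit 469) (nat_lit 459) (nat_lit 272)))) (XT.nd (nat_lit 156) (nat_lit 608) (nat_lit 0) (XT.nd (nat_lit 78) (nat_lit 608) (nat_lit 0) (XT.lf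 (nat_lit 0) (nat_lit 15923506629) (nat_lit 836) (nat_lit 15597388719) (nat_lit 912) (nat_lit 64127100447) (nat_lit 289) (nat_lit 5) (nat_lit 300) (nat_lit 5) (nat_lit 301) (nat_lit 5) (nat_lit 470) (nat_lit 459) (nat_lit 271)) (XT.lf (nat_lit 0) (nat_lit 5561042177) (nat_lit 608) (nat_lit 41331067455) (nat_lit 684) (nat_lit 51342482676) (nat_lit 281) (nat_lit 5) (nat_lit 289) (nat_lit 5) (nat_lit 290) (nat_lit 5) (nat_lit 471) (nat_lit 459) (nat_lit 270))) (XT.nd (nat_lit 78) (nat_lit 608) (nat_lit 0) (XT.lf (nat_lit 0) (nat_lit 64321091815) (nat_lit 684) (nat_lit 4619165775) (nat_lit 76) (nat_lit 31971584910) (nat_lit 281) (nat_lit 5) (nat_lit 290) (nat_lit 5) (nat_lit 282) (nat_lit 5) (nat_lit 472) (nat_lit 459) (nat_lit 269)) (XT.lf (nat_lit 0) (nat_lit 83945577393) (nat_lit 684) (nat_lit 14575514370) (nat_lit 76) (nat_lit 5162141877) (nat_lit 273) (nat_lit 5) (nat_lit 282) (nat_lit 5) (nat_lit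 274) (nat_lit 5) (nat_lit 473) (nat_lit 459) (nat_lit 268))))))) (XT.nd (nat_lit 1014) (nat_lit 684) (nat_lit 0) (XT.nd (nat_lit 468) (nat_lit 2964) (nat_lit 0) (XT.nd (nat_lit 234) (nat_lit 1520) (nat_lit 0) (XT.nd (nat_lit 78) (nat_lit 1216) (nat_lit 0) (XT.lf (nat_lit 0) (nat_lit 81927346563) (nat_lit 532) (nat_lit 24154579937) (nat_lit 608) (nat_lit 465348721) (nat_lit 266) (nat_lit 5) (nat_lit 273) (nat_lit 5) (nat_lit 274) (nat_lit 5) (nat_lit 474) (nat_lit 459) (nat_lit 267)) (XT.nd (nat_lit 78) (nat_lit 532) (nat_lit 0) (XT.lf (nat_lit 0) (nat_lit 20788239801) (nat_lit 684) (nat_lit 34764788638) (nat_lit 76) (nat_lit 53953685272) (nat_lit 257) (nat_lit 5) (nat_lit 266) (nat_lit 5) (nat_lit 258) (nat_lit 5) (nat_lit 475) (nat_lit 459) (nat_lit 266)) (XT.lf (nat_lit 0) (nat_lit 44477074105) (nat_lit 608) (nat_lit 44752141068) (nat_lit 76) (nat_lit 23343305072) (nat_lit 250) (nat_lit 5) (nat_lit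 258) (nat_lit 5) (nat_lit 251) (nat_lit 5) (nat_lit 476) (nat_lit 459) (nat_lit 265)))) (XT.nd (nat_lit 78) (nat_lit 988) (nat_lit 0) (XT.lf (nat_lit 0) (nat_lit 61107839297) (nat_lit 532) (nat_lit 9751369278) (nat_lit 608) (nat_lit 44887142830) (nat_lit 243) (nat_lit 5) (nat_lit 250) (nat_lit 5) (nat_lit 251) (nat_lit 5) (nat_lit 477) (nat_lit 459) (nat_lit 264)) (XT.nd (nat_lit 78) (nat_lit 532) (nat_lit 0) (XT.lf (nat_lit 0) (nat_lit 54480300932) (nat_lit 456) (nat_lit 45776895458) (nat_lit 532) (nat_lit 18770775382) (nat_lit 237) (nat_lit 5) (nat_lit 243) (nat_lit 5) (nat_lit 244) (nat_lit 5) (nat_lit 478) (nat_lit 459) (nat_lit 263)) (XT.lf (nat_lit 0) (nat_lit 9988379262) (nat_lit 532) (nat_lit 74312464325) (nat_lit 76) (nat_lit 38125161068) (nat_lit 230) (nat_lit 5) (nat_lit 237) (nat_lit 5) (nat_lit 231) (nat_lit 5) (nat_lit 479) (nat_lit 459) (nat_lit 262))))) (XT.nd (nat_lit 234) (nat_lit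 1672) (nat_lit 0) (XT.nd (nat_lit 78) (nat_lit 836) (nat_lit 0) (XT.lf (nat_lit 0) (nat_lit 41342357935) (nat_lit 532) (nat_lit 84005707081) (nat_lit 76) (nat_lit 593946491) (nat_lit 224) (nat_lit 5) (nat_lit 231) (nat_lit 5) (nat_lit 225) (nat_lit 5) (nat_lit 480) (nat_lit 459) (nat_lit 261)) (XT.nd (nat_lit 78) (nat_lit 380) (nat_lit 0) (XT.lf (nat_lit 0) (nat_lit 35778551971) (nat_lit 456) (nat_lit 40452244550) (nat_lit 532) (nat_lit 53344019392) (nat_lit 218) (nat_lit 5) (nat_lit 224) (nat_lit 5) (nat_lit 225) (nat_lit 5) (nat_lit 481) (nat_lit 459) (nat_lit 260)) (XT.lf (nat_lit 0) (nat_lit 30053320027) (nat_lit 380) (nat_lit 84440008304) (nat_lit 456) (nat_lit 18847042110) (nat_lit 213) (nat_lit 5) (nat_lit 218) (nat_lit 5) (nat_lit 219) (nat_lit 5) (nat_lit 482) (nat_lit 459) (nat_lit 259)))) (XT.nd (nat_lit 156) (nat_lit 760) (nat_lit 0) (XT.nd (nat_lit 78) (nat_lit 380) (nat_lit 0) (XT.lf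 (nat_lit 0) (nat_lit 18713858372) (nat_lit 532) (nat_lit 112612207829) (nat_lit 76) (nat_lit 5912782452) (nat_lit 206) (nat_lit 5) (nat_lit 213) (nat_lit 5) (nat_lit 207) (nat_lit 5) (nat_lit 483) (nat_lit 459) (nat_lit 258)) (XT.lf (nat_lit 0) (nat_lit 19113292511) (nat_lit 380) (nat_lit 40762591827) (nat_lit 456) (nat_lit 81387382354) (nat_lit 201) (nat_lit 5) (nat_lit 206) (nat_lit 5) (nat_lit 207) (nat_lit 5) (nat_lit 484) (nat_lit 459) (nat_lit 257))) (XT.nd (nat_lit 78) (nat_lit 380) (nat_lit 0) (XT.lf (nat_lit 0) (nat_lit 14064224621) (nat_lit 380) (nat_lit 90859427697) (nat_lit 456) (nat_lit 40510424127) (nat_lit 196) (nat_lit 5) (nat_lit 201) (nat_lit 5) (nat_lit 202) (nat_lit 5) (nat_lit 485) (nat_lit 459) (nat_lit 256)) (XT.lf (nat_lit 0) (nat_lit 4189053838) (nat_lit 380) (nat_lit 140206401826) (nat_lit 76) (nat_lit 5362504739) (nat_lit 191) (nat_lit 5) (nat_lit 196) (nat_lit 5) (nat_lit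 192) (nat_lit 5) (nat_lit 486) (nat_lit 459) (nat_lit 255)))))) (XT.nd (nat_lit 60684) (nat_lit 0) (nat_lit 8892) (XT.nd (nat_lit 60372) (nat_lit 0) (nat_lit 9652) (XT.nd (nat_lit 78) (nat_lit 304) (nat_lit 0) (XT.lf (nat_lit 0) (nat_lit 4759671850) (nat_lit 380) (nat_lit 47861860320) (nat_lit 456) (nat_lit 101594398293) (nat_lit 186) (nat_lit 5) (nat_lit 191) (nat_lit 5) (nat_lit 192) (nat_lit 5) (nat_lit 487) (nat_lit 459) (nat_lit 254)) (XT.nd (nat_lit 78) (nat_lit 0) (nat_lit 0) (XT.lf (nat_lit 0) (nat_lit 531597846) (nat_lit 304) (nat_lit 104920523173) (nat_lit 380) (nat_lit 53385383439) (nat_lit 182) (nat_lit 5) (nat_lit 186) (nat_lit 5) (nat_lit 187) (nat_lit 5) (nat_lit 488) (nat_lit 459) (nat_lit 253)) (XT.lf (nat_lit 0) (nat_lit 160648690545) (nat_lit 304) (nat_lit 2291956361) (nat_lit 380) (nat_lit 689018043) (nat_lit 182) (nat_lit 5) (nat_lit 186) (nat_lit 5) (nat_lit 187) (nat_lit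 5) (nat_lit 489) (nat_lit 459) (nat_lit 252)))) (XT.nd (nat_lit 156) (nat_lit 0) (nat_lit 76) (XT.nd (nat_lit 78) (nat_lit 0) (nat_lit 76) (XT.lf (nat_lit 0) (nat_lit 20438290145) (nat_lit 1292) (nat_lit 8746040524) (nat_lit 1292) (nat_lit 8746040524) (nat_lit 309) (nat_lit 3) (nat_lit 326) (nat_lit 3) (nat_lit 326) (nat_lit 5) (nat_lit 460) (nat_lit 460) (nat_lit 280)) (XT.lf (nat_lit 0) (nat_lit 42396517254) (nat_lit 1216) (nat_lit 31662684979) (nat_lit 1292) (nat_lit 3683116319) (nat_lit 310) (nat_lit 5) (nat_lit 326) (nat_lit 5) (nat_lit 327) (nat_lit 5) (nat_lit 461) (nat_lit 460) (nat_lit 279))) (XT.nd (nat_lit 78) (nat_lit 0) (nat_lit 76) (XT.lf (nat_lit 76) (nat_lit 33545917923) (nat_lit 0) (nat_lit 11538782623) (nat_lit 1292) (nat_lit 34600505604) (nat_lit 311) (nat_lit 5) (nat_lit 310) (nat_lit 5) (nat_lit 327) (nat_lit 5) (nat_lit 462) (nat_lit 460) (nat_lit 278)) (XT.lf (nat_lit 76)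 (nat_lit 20843856436) (nat_lit 0) (nat_lit 28111946350) (nat_lit 1292) (nat_lit 32737980155) (nat_lit 312) (nat_lit 5) (nat_lit 311) (nat_lit 5) (nat_lit 328) (nat_lit 5) (nat_lit 463) (nat_lit 460) (nat_lit 277))))) (XT.nd (nat_lit 234) (nat_lit 988) (nat_lit 0) (XT.nd (nat_lit 78) (nat_lit 0) (nat_lit 76) (XT.lf (nat_lit 76) (nat_lit 8023099165) (nat_lit 0) (nat_lit 46032912473) (nat_lit 1292) (nat_lit 29715710488) (nat_lit 313) (nat_lit 5) (nat_lit 312) (nat_lit 5) (nat_lit 329) (nat_lit 5) (nat_lit 464) (nat_lit 460) (nat_lit 276)) (XT.nd (nat_lit 78) (nat_lit 0) (nat_lit 76) (XT.lf (nat_lit 0) (nat_lit 60519447253) (nat_lit 1216) (nat_lit 4806980975) (nat_lit 1292) (nat_lit 20593883647) (nat_lit 313) (nat_lit 5) (nat_lit 329) (nat_lit 5) (nat_lit 330) (nat_lit 5) (nat_lit 465) (nat_lit 460) (nat_lit 275)) (XT.lf (nat_lit 0) (nat_lit 68468907322) (nat_lit 1216) (nat_lit 17568710232) (nat_lit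 1292) (nat_lit 2103828068) (nat_lit 314) (nat_lit 5) (nat_lit 330) (nat_lit 5) (nat_lit 331) (nat_lit 5) (nat_lit 466) (nat_lit 460) (nat_lit 274)))) (XT.nd (nat_lit 156) (nat_lit 1140) (nat_lit 0) (XT.nd (nat_lit 78) (nat_lit 0) (nat_lit 76) (XT.lf (nat_lit 76) (nat_lit 59857226250) (nat_lit 0) (nat_lit 18242383812) (nat_lit 1292) (nat_lit 12335512991) (nat_lit 315) (nat_lit 5) (nat_lit 314) (nat_lit 5) (nat_lit 331) (nat_lit 5) (nat_lit 467) (nat_lit 460) (nat_lit 273)) (XT.lf (nat_lit 76) (nat_lit 49130841785) (nat_lit 0) (nat_lit 40243940631) (nat_lit 1292) (nat_lit 3433813987) (nat_lit 316) (nat_lit 5) (nat_lit 315) (nat_lit 5) (nat_lit 332) (nat_lit 5) (nat_lit 468) (nat_lit 460) (nat_lit 272))) (XT.nd (nat_lit 78) (nat_lit 0) (nat_lit 76) (XT.lf (nat_lit 0) (nat_lit 6978288362) (nat_lit 1292) (nat_lit 56897807922) (nat_lit 1368) (nat_lit 31387520989) (nat_lit 299) (nat_lit 5) (nat_lit 316)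 (nat_lit 5) (nat_lit 317) (nat_lit 5) (nat_lit 469) (nat_lit 460) (nat_lit 271)) (XT.lf (nat_lit 0) (nat_lit 19050113467) (nat_lit 1292) (nat_lit 70199724316) (nat_lit 76) (nat_lit 8554227506) (nat_lit 300) (nat_lit 5) (nat_lit 317) (nat_lit 5) (nat_lit 301) (nat_lit 5) (nat_lit 470) (nat_lit 460) (nat_lit 270))))))))
noncomputable def xc122 : XT := (XT.nd (nat_lit 62322) (nat_lit 0) (nat_lit 380) (XT.nd (nat_lit 1014) (nat_lit 2052) (nat_lit 0) (XT.nd (nat_lit 468) (nat_lit 3344) (nat_lit 0) (XT.nd (nat_lit 234) (nat_lit 1824) (nat_lit 0) (XT.nd (nat_lit 78) (nat_lit 608) (nat_lit 0) (XT.lf (nat_lit 0) (nat_lit 16742097800) (nat_lit 836) (nat_lit 16379791893) (nat_lit 912) (nat_lit 67307755283) (nat_lit 289) (nat_lit 5) (nat_lit 300) (nat_lit 5) (nat_lit 301) (nat_lit 5) (nat_lit 471) (nat_lit 460) (nat_lit 269)) (XT.nd (nat_lit 78) (nat_lit 0) (nat_lit 0) (XT.lf (nat_lit 0) (nat_lit 5861620330)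 (nat_lit 608) (nat_lit 43399049625) (nat_lit 684) (nat_lit 53884931303) (nat_lit 281) (nat_lit 5) (nat_lit 289) (nat_lit 5) (nat_lit 290) (nat_lit 5) (nat_lit 472) (nat_lit 460) (nat_lit 268)) (XT.lf (nat_lit 0) (nat_lit 67559947460) (nat_lit 684) (nat_lit 4827971261) (nat_lit 76) (nat_lit 33568829950) (nat_lit 281) (nat_lit 5) (nat_lit 290) (nat_lit 5) (nat_lit 282) (nat_lit 5) (nat_lit 473) (nat_lit 460) (nat_lit 267)))) (XT.nd (nat_lit 78) (nat_lit 1216) (nat_lit 0) (XT.lf (nat_lit 0) (nat_lit 88164774507) (nat_lit 684) (nat_lit 15282108908) (nat_lit 76) (nat_lit 5419852527) (nat_lit 273) (nat_lit 5) (nat_lit 282) (nat_lit 5) (nat_lit 274) (nat_lit 5) (nat_lit 474) (nat_lit 460) (nat_lit 266)) (XT.nd (nat_lit 78) (nat_lit 684) (nat_lit 0) (XT.lf (nat_lit 0) (nat_lit 86045259252) (nat_lit 532) (nat_lit 25361845199) (nat_lit 608) (nat_lit 466900337) (nat_lit 266) (nat_lit 5) (nat_lit 273) (nat_lit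 5) (nat_lit 274) (nat_lit 5) (nat_lit 475) (nat_lit 460) (nat_lit 265)) (XT.lf (nat_lit 0) (nat_lit 21848143337) (nat_lit 684) (nat_lit 36481079183) (nat_lit 76) (nat_lit 56652210518) (nat_lit 257) (nat_lit 5) (nat_lit 266) (nat_lit 5) (nat_lit 258) (nat_lit 5) (nat_lit 476) (nat_lit 460) (nat_lit 264))))) (XT.nd (nat_lit 234) (nat_lit 1824) (nat_lit 0) (XT.nd (nat_lit 78) (nat_lit 988) (nat_lit 0) (XT.lf (nat_lit 0) (nat_lit 46720663877) (nat_lit 608) (nat_lit 46967850608) (nat_lit 76) (nat_lit 24512038154) (nat_lit 250) (nat_lit 5) (nat_lit 258) (nat_lit 5) (nat_lit 251) (nat_lit 5) (nat_lit 477) (nat_lit 460) (nat_lit 263)) (XT.nd (nat_lit 78) (nat_lit 456) (nat_lit 0) (XT.lf (nat_lit 0) (nat_lit 64184501087) (nat_lit 532) (nat_lit 10236668628) (nat_lit 608) (nat_lit 47111927773) (nat_lit 243) (nat_lit 5) (nat_lit 250) (nat_lit 5) (nat_lit 251) (nat_lit 5) (nat_lit 478) (nat_lit 460) (nat_lit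 262)) (XT.lf (nat_lit 0) (nat_lit 57225510025) (nat_lit 456) (nat_lit 48062866605) (nat_lit 532) (nat_lit 19690442724) (nat_lit 237) (nat_lit 5) (nat_lit 243) (nat_lit 5) (nat_lit 244) (nat_lit 5) (nat_lit 479) (nat_lit 460) (nat_lit 261)))) (XT.nd (nat_lit 156) (nat_lit 836) (nat_lit 0) (XT.nd (nat_lit 78) (nat_lit 456) (nat_lit 0) (XT.lf (nat_lit 0) (nat_lit 10505651652) (nat_lit 532) (nat_lit 78006636030) (nat_lit 76) (nat_lit 40034480314) (nat_lit 230) (nat_lit 5) (nat_lit 237) (nat_lit 5) (nat_lit 231) (nat_lit 5) (nat_lit 480) (nat_lit 460) (nat_lit 260)) (XT.lf (nat_lit 0) (nat_lit 43426714313) (nat_lit 532) (nat_lit 88184673416) (nat_lit 76) (nat_lit 627205972) (nat_lit 224) (nat_lit 5) (nat_lit 231) (nat_lit 5) (nat_lit 225) (nat_lit 5) (nat_lit 481) (nat_lit 460) (nat_lit 259))) (XT.nd (nat_lit 78) (nat_lit 380) (nat_lit 0) (XT.lf (nat_lit 0) (nat_lit 37588187483) (nat_lit 456) (nat_lit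 42470765522) (nat_lit 532) (nat_lit 55994104035) (nat_lit 218) (nat_lit 5) (nat_lit 224) (nat_lit 5) (nat_lit 225) (nat_lit 5) (nat_lit 482) (nat_lit 460) (nat_lit 258)) (XT.lf (nat_lit 0) (nat_lit 31576547499) (nat_lit 380) (nat_lit 88657507741) (nat_lit 456) (nat_lit 19772850795) (nat_lit 213) (nat_lit 5) (nat_lit 218) (nat_lit 5) (nat_lit 219) (nat_lit 5) (nat_lit 483) (nat_lit 460) (nat_lit 257)))))) (XT.nd (nat_lit 60762) (nat_lit 0) (nat_lit 9424) (XT.nd (nat_lit 234) (nat_lit 760) (nat_lit 0) (XT.nd (nat_lit 78) (nat_lit 760) (nat_lit 0) (XT.lf (nat_lit 0) (nat_lit 19665239125) (nat_lit 532) (nat_lit 118222105833) (nat_lit 76) (nat_lit 6212974463) (nat_lit 206) (nat_lit 5) (nat_lit 213) (nat_lit 5) (nat_lit 207) (nat_lit 5) (nat_lit 484) (nat_lit 460) (nat_lit 256)) (XT.nd (nat_lit 78) (nat_lit 380) (nat_lit 0) (XT.lf (nat_lit 0) (nat_lit 20089075807) (nat_lit 380) (nat_lit 42795736934)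 (nat_lit 456) (nat_lit 85441162279) (nat_lit 201) (nat_lit 5) (nat_lit 206) (nat_lit 5) (nat_lit 207) (nat_lit 5) (nat_lit 485) (nat_lit 460) (nat_lit 255)) (XT.lf (nat_lit 0) (nat_lit 14787373249) (nat_lit 380) (nat_lit 95397112480) (nat_lit 456) (nat_lit 42520854081) (nat_lit 196) (nat_lit 5) (nat_lit 201) (nat_lit 5) (nat_lit 202) (nat_lit 5) (nat_lit 486) (nat_lit 460) (nat_lit 254)))) (XT.nd (nat_lit 78) (nat_lit 380) (nat_lit 0) (XT.lf (nat_lit 0) (nat_lit 4412839241) (nat_lit 380) (nat_lit 147196691440) (nat_lit 76) (nat_lit 5635896898) (nat_lit 191) (nat_lit 5) (nat_lit 196) (nat_lit 5) (nat_lit 192) (nat_lit 5) (nat_lit 487) (nat_lit 460) (nat_lit 253)) (XT.nd (nat_lit 60372) (nat_lit 0) (nat_lit 9348) (XT.lf (nat_lit 0) (nat_lit 5017111751) (nat_lit 380) (nat_lit 50249334255) (nat_lit 456) (nat_lit 106659865043) (nat_lit 186) (nat_lit 5) (nat_lit 191) (nat_lit 5) (nat_lit 192) (nat_lit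 5) (nat_lit 488) (nat_lit 460) (nat_lit 252)) (XT.lf (nat_lit 0) (nat_lit 21478524424) (nat_lit 1292) (nat_lit 9173907020) (nat_lit 1292) (nat_lit 9173907020) (nat_lit 309) (nat_lit 3) (nat_lit 326) (nat_lit 3) (nat_lit 326) (nat_lit 5) (nat_lit 461) (nat_lit 461) (nat_lit 278))))) (XT.nd (nat_lit 234) (nat_lit 0) (nat_lit 152) (XT.nd (nat_lit 78) (nat_lit 0) (nat_lit 0) (XT.lf (nat_lit 0) (nat_lit 44551253197) (nat_lit 1216) (nat_lit 33226272822) (nat_lit 1292) (nat_lit 3850857930) (nat_lit 310) (nat_lit 5) (nat_lit 326) (nat_lit 5) (nat_lit 327) (nat_lit 5) (nat_lit 462) (nat_lit 461) (nat_lit 277)) (XT.nd (nat_lit 78) (nat_lit 0) (nat_lit 76) (XT.lf (nat_lit 76) (nat_lit 35242199931) (nat_lit 0) (nat_lit 12130165844) (nat_lit 1292) (nat_lit 36296094703) (nat_lit 311) (nat_lit 5) (nat_lit 310) (nat_lit 5) (nat_lit 327) (nat_lit 5) (nat_lit 463) (nat_lit 461) (nat_lit 276)) (XT.lf (nat_lit 76)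 (nat_lit 21905603145) (nat_lit 0) (nat_lit 29529883797) (nat_lit 1292) (nat_lit 34342025398) (nat_lit 312) (nat_lit 5) (nat_lit 311) (nat_lit 5) (nat_lit 328) (nat_lit 5) (nat_lit 464) (nat_lit 461) (nat_lit 275)))) (XT.nd (nat_lit 156) (nat_lit 0) (nat_lit 152) (XT.nd (nat_lit 78) (nat_lit 0) (nat_lit 76) (XT.lf (nat_lit 76) (nat_lit 8444294960) (nat_lit 0) (nat_lit 48344972186) (nat_lit 1292) (nat_lit 31170124649) (nat_lit 313) (nat_lit 5) (nat_lit 312) (nat_lit 5) (nat_lit 329) (nat_lit 5) (nat_lit 465) (nat_lit 461) (nat_lit 274)) (XT.lf (nat_lit 0) (nat_lit 63574328968) (nat_lit 1216) (nat_lit 5027275376) (nat_lit 1292) (nat_lit 21613853188) (nat_lit 313) (nat_lit 5) (nat_lit 329) (nat_lit 5) (nat_lit 330) (nat_lit 5) (nat_lit 466) (nat_lit 461) (nat_lit 273))) (XT.nd (nat_lit 78) (nat_lit 0) (nat_lit 0) (XT.lf (nat_lit 0) (nat_lit 71919993447) (nat_lit 1216) (nat_lit 18426752621) (nat_lit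 1292) (nat_lit 2200940083) (nat_lit 314) (nat_lit 5) (nat_lit 330) (nat_lit 5) (nat_lit 331) (nat_lit 5) (nat_lit 467) (nat_lit 461) (nat_lit 272)) (XT.lf (nat_lit 76) (nat_lit 62869896120) (nat_lit 0) (nat_lit 19161209390) (nat_lit 1292) (nat_lit 12924975839) (nat_lit 315) (nat_lit 5) (nat_lit 314) (nat_lit 5) (nat_lit 331) (nat_lit 5) (nat_lit 468) (nat_lit 461) (nat_lit 271))))))) (XT.nd (nat_lit 1014) (nat_lit 2964) (nat_lit 0) (XT.nd (nat_lit 468) (nat_lit 3876) (nat_lit 0) (XT.nd (nat_lit 234) (nat_lit 1368) (nat_lit 0) (XT.nd (nat_lit 78) (nat_lit 1216) (nat_lit 0) (XT.lf (nat_lit 76) (nat_lit 51607462228) (nat_lit 0) (nat_lit 42261443247) (nat_lit 1292) (nat_lit 3579356937) (nat_lit 316) (nat_lit 5) (nat_lit 315) (nat_lit 5) (nat_lit 332) (nat_lit 5) (nat_lit 469) (nat_lit 461) (nat_lit 270)) (XT.nd (nat_lit 78) (nat_lit 0) (nat_lit 76) (XT.lf (nat_lit 0) (nat_lit 7351767419) (nat_lit 1292)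 (nat_lit 59721913045) (nat_lit 1368) (nat_lit 32952378613) (nat_lit 299) (nat_lit 5) (nat_lit 316) (nat_lit 5) (nat_lit 317) (nat_lit 5) (nat_lit 470) (nat_lit 461) (nat_lit 269)) (XT.lf (nat_lit 0) (nat_lit 20026175429) (nat_lit 1292) (nat_lit 73688778697) (nat_lit 76) (nat_lit 8978605718) (nat_lit 300) (nat_lit 5) (nat_lit 317) (nat_lit 5) (nat_lit 301) (nat_lit 5) (nat_lit 471) (nat_lit 461) (nat_lit 268)))) (XT.nd (nat_lit 78) (nat_lit 608) (nat_lit 0) (XT.lf (nat_lit 0) (nat_lit 17599534518) (nat_lit 836) (nat_lit 17201079664) (nat_lit 912) (nat_lit 70649832220) (nat_lit 289) (nat_lit 5) (nat_lit 300) (nat_lit 5) (nat_lit 301) (nat_lit 5) (nat_lit 472) (nat_lit 461) (nat_lit 267)) (XT.nd (nat_lit 78) (nat_lit 0) (nat_lit 0) (XT.lf (nat_lit 0) (nat_lit 6175133132) (nat_lit 608) (nat_lit 45570298068) (nat_lit 684) (nat_lit 56556796457) (nat_lit 281) (nat_lit 5) (nat_lit 289) (nat_lit 5) (nat_lit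 290) (nat_lit 5) (nat_lit 473) (nat_lit 461) (nat_lit 266)) (XT.lf (nat_lit 0) (nat_lit 70958626061) (nat_lit 684) (nat_lit 5049276578) (nat_lit 76) (nat_lit 35246061284) (nat_lit 281) (nat_lit 5) (nat_lit 290) (nat_lit 5) (nat_lit 282) (nat_lit 5) (nat_lit 474) (nat_lit 461) (nat_lit 265))))) (XT.nd (nat_lit 234) (nat_lit 2052) (nat_lit 0) (XT.nd (nat_lit 78) (nat_lit 1216) (nat_lit 0) (XT.lf (nat_lit 0) (nat_lit 92592893727) (nat_lit 684) (nat_lit 16026095369) (nat_lit 76) (nat_lit 5690485567) (nat_lit 273) (nat_lit 5) (nat_lit 282) (nat_lit 5) (nat_lit 274) (nat_lit 5) (nat_lit 475) (nat_lit 461) (nat_lit 264)) (XT.nd (nat_lit 78) (nat_lit 684) (nat_lit 0) (XT.lf (nat_lit 0) (nat_lit 90367064493) (nat_lit 532) (nat_lit 26629516838) (nat_lit 608) (nat_lit 470548466) (nat_lit 266) (nat_lit 5) (nat_lit 273) (nat_lit 5) (nat_lit 274) (nat_lit 5) (nat_lit 476) (nat_lit 461) (nat_lit 263)) (XT.lf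 (nat_lit 0) (nat_lit 22959136940) (nat_lit 684) (nat_lit 38285224853) (nat_lit 76) (nat_lit 59485583839) (nat_lit 257) (nat_lit 5) (nat_lit 266) (nat_lit 5) (nat_lit 258) (nat_lit 5) (nat_lit 477) (nat_lit 461) (nat_lit 262)))) (XT.nd (nat_lit 156) (nat_lit 988) (nat_lit 0) (XT.nd (nat_lit 78) (nat_lit 532) (nat_lit 0) (XT.lf (nat_lit 0) (nat_lit 49074598266) (nat_lit 608) (nat_lit 49296381448) (nat_lit 76) (nat_lit 25739062128) (nat_lit 250) (nat_lit 5) (nat_lit 258) (nat_lit 5) (nat_lit 251) (nat_lit 5) (nat_lit 478) (nat_lit 461) (nat_lit 261)) (XT.lf (nat_lit 0) (nat_lit 67413018501) (nat_lit 532) (nat_lit 10746443907) (nat_lit 608) (nat_lit 49449771602) (nat_lit 243) (nat_lit 5) (nat_lit 250) (nat_lit 5) (nat_lit 251) (nat_lit 5) (nat_lit 479) (nat_lit 461) (nat_lit 260))) (XT.nd (nat_lit 78) (nat_lit 532) (nat_lit 0) (XT.lf (nat_lit 0) (nat_lit 60106009152) (nat_lit 456) (nat_lit 50463403471)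 (nat_lit 532) (nat_lit 20657847920) (nat_lit 237) (nat_lit 5) (nat_lit 243) (nat_lit 5) (nat_lit 244) (nat_lit 5) (nat_lit 480) (nat_lit 461) (nat_lit 259)) (XT.lf (nat_lit 0) (nat_lit 11047127819) (nat_lit 532) (nat_lit 81887510678) (nat_lit 76) (nat_lit 42038980922) (nat_lit 230) (nat_lit 5) (nat_lit 237) (nat_lit 5) (nat_lit 231) (nat_lit 5) (nat_lit 481) (nat_lit 461) (nat_lit 258)))))) (XT.nd (nat_lit 60918) (nat_lit 0) (nat_lit 8968) (XT.nd (nat_lit 234) (nat_lit 1672) (nat_lit 0) (XT.nd (nat_lit 78) (nat_lit 836) (nat_lit 0) (XT.lf (nat_lit 0) (nat_lit 45613685839) (nat_lit 532) (nat_lit 92574570108) (nat_lit 76) (nat_lit 661797251) (nat_lit 224) (nat_lit 5) (nat_lit 231) (nat_lit 5) (nat_lit 225) (nat_lit 5) (nat_lit 482) (nat_lit 461) (nat_lit 257)) (XT.nd (nat_lit 78) (nat_lit 380) (nat_lit 0) (XT.lf (nat_lit 0) (nat_lit 39486379545) (nat_lit 456) (nat_lit 44590592909) (nat_lit 532) (nat_lit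 58778284224) (nat_lit 218) (nat_lit 5) (nat_lit 224) (nat_lit 5) (nat_lit 225) (nat_lit 5) (nat_lit 483) (nat_lit 461) (nat_lit 256)) (XT.lf (nat_lit 0) (nat_lit 33174024734) (nat_lit 380) (nat_lit 93086300609) (nat_lit 456) (nat_lit 20746487964) (nat_lit 213) (nat_lit 5) (nat_lit 218) (nat_lit 5) (nat_lit 219) (nat_lit 5) (nat_lit 484) (nat_lit 461) (nat_lit 255)))) (XT.nd (nat_lit 156) (nat_lit 760) (nat_lit 0) (XT.nd (nat_lit 78) (nat_lit 380) (nat_lit 0) (XT.lf (nat_lit 0) (nat_lit 20662730409) (nat_lit 532) (nat_lit 124114424378) (nat_lit 76) (nat_lit 6527752791) (nat_lit 206) (nat_lit 5) (nat_lit 213) (nat_lit 5) (nat_lit 207) (nat_lit 5) (nat_lit 485) (nat_lit 461) (nat_lit 254)) (XT.lf (nat_lit 0) (nat_lit 21111777825) (nat_lit 380) (nat_lit 44931002708) (nat_lit 456) (nat_lit 89699080535) (nat_lit 201) (nat_lit 5) (nat_lit 206) (nat_lit 5) (nat_lit 207) (nat_lit 5) (nat_lit 486) (nat_lit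 461) (nat_lit 253))) (XT.nd (nat_lit 78) (nat_lit 380) (nat_lit 0) (XT.lf (nat_lit 0) (nat_lit 15544825717) (nat_lit 380) (nat_lit 100162173001) (nat_lit 456) (nat_lit 44633208575) (nat_lit 196) (nat_lit 5) (nat_lit 201) (nat_lit 5) (nat_lit 202) (nat_lit 5) (nat_lit 487) (nat_lit 461) (nat_lit 252)) (XT.lf (nat_lit 0) (nat_lit 4646481394) (nat_lit 380) (nat_lit 154538357778) (nat_lit 76) (nat_lit 5922468997) (nat_lit 191) (nat_lit 5) (nat_lit 196) (nat_lit 5) (nat_lit 192) (nat_lit 5) (nat_lit 488) (nat_lit 461) (nat_lit 251))))) (XT.nd (nat_lit 234) (nat_lit 0) (nat_lit 152) (XT.nd (nat_lit 78) (nat_lit 0) (nat_lit 76) (XT.lf (nat_lit 0) (nat_lit 22569067219) (nat_lit 1292) (nat_lit 9624044068) (nat_lit 1292) (nat_lit 9624044068) (nat_lit 309) (nat_lit 3) (nat_lit 326) (nat_lit 3) (nat_lit 326) (nat_lit 5) (nat_lit 462) (nat_lit 462) (nat_lit 276)) (XT.nd (nat_lit 78) (nat_lit 0) (nat_lit 0)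 (XT.lf (nat_lit 0) (nat_lit 46810480329) (nat_lit 1216) (nat_lit 34869857298) (nat_lit 1292) (nat_lit 4028512659) (nat_lit 310) (nat_lit 5) (nat_lit 326) (nat_lit 5) (nat_lit 327) (nat_lit 5) (nat_lit 463) (nat_lit 462) (nat_lit 275)) (XT.lf (nat_lit 76) (nat_lit 37021530891) (nat_lit 0) (nat_lit 12749775352) (nat_lit 1292) (nat_lit 38079664806) (nat_lit 311) (nat_lit 5) (nat_lit 310) (nat_lit 5) (nat_lit 327) (nat_lit 5) (nat_lit 464) (nat_lit 462) (nat_lit 274)))) (XT.nd (nat_lit 156) (nat_lit 0) (nat_lit 152) (XT.nd (nat_lit 78) (nat_lit 0) (nat_lit 76) (XT.lf (nat_lit 76) (nat_lit 23018619255) (nat_lit 0) (nat_lit 31017570848) (nat_lit 1292) (nat_lit 36029327334) (nat_lit 312) (nat_lit 5) (nat_lit 311) (nat_lit 5) (nat_lit 328) (nat_lit 5) (nat_lit 465) (nat_lit 462) (nat_lit 273)) (XT.lf (nat_lit 76) (nat_lit 8884687339) (nat_lit 0) (nat_lit 50771666683) (nat_lit 1292) (nat_lit 32700176130)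 (nat_lit 313) (nat_lit 5) (nat_lit 312) (nat_lit 5) (nat_lit 329) (nat_lit 5) (nat_lit 466) (nat_lit 462) (nat_lit 272))) (XT.nd (nat_lit 78) (nat_lit 0) (nat_lit 76) (XT.lf (nat_lit 0) (nat_lit 66779267052) (nat_lit 1216) (nat_lit 5260448989) (nat_lit 1292) (nat_lit 22685725311) (nat_lit 313) (nat_lit 5) (nat_lit 329) (nat_lit 5) (nat_lit 330) (nat_lit 5) (nat_lit 467) (nat_lit 462) (nat_lit 271)) (XT.lf (nat_lit 0) (nat_lit 75541064103) (nat_lit 1216) (nat_lit 19329593089) (nat_lit 1292) (nat_lit 2303658844) (nat_lit 314) (nat_lit 5) (nat_lit 330) (nat_lit 5) (nat_lit 331) (nat_lit 5) (nat_lit 468) (nat_lit 462) (nat_lit 270))))))))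
noncomputable def xc123 : XT := (XT.nd (nat_lit 62478) (nat_lit 0) (nat_lit 380) (XT.nd (nat_lit 1014) (nat_lit 3116) (nat_lit 0) (XT.nd (nat_lit 468) (nat_lit 3344) (nat_lit 0) (XT.nd (nat_lit 234) (nat_lit 1368) (nat_lit 0) (XT.nd (nat_lit 78) (nat_lit 1140) (nat_lit 0) (XT.lf (nat_lit 76) (nat_lit 66031357872) (nat_lit 0) (nat_lit 20125352750) (nat_lit 1292) (nat_lit 13546451115) (nat_lit 315) (nat_lit 5) (nat_lit 314) (nat_lit 5) (nat_lit 331) (nat_lit 5) (nat_lit 469) (nat_lit 462) (nat_lit 269)) (XT.nd (nat_lit 78) (nat_lit 1216) (nat_lit 0) (XT.lf (nat_lit 76) (nat_lit 54206046998) (nat_lit 0) (nat_lit 44379327730) (nat_lit 1292) (nat_lit 3734608004) (nat_lit 316) (nat_lit 5) (nat_lit 315) (nat_lit 5) (nat_lit 332) (nat_lit 5) (nat_lit 470) (nat_lit 462) (nat_lit 268)) (XT.lf (nat_lit 0) (nat_lit 7741636640) (nat_lit 1292) (nat_lit 62689155842) (nat_lit 1368) (nat_lit 34595899199) (nat_lit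 299) (nat_lit 5) (nat_lit 316) (nat_lit 5) (nat_lit 317) (nat_lit 5) (nat_lit 471) (nat_lit 462) (nat_lit 267)))) (XT.nd (nat_lit 78) (nat_lit 1444) (nat_lit 0) (XT.lf (nat_lit 0) (nat_lit 21048850449) (nat_lit 1292) (nat_lit 77354231842) (nat_lit 76) (nat_lit 9424512726) (nat_lit 300) (nat_lit 5) (nat_lit 317) (nat_lit 5) (nat_lit 301) (nat_lit 5) (nat_lit 472) (nat_lit 462) (nat_lit 266)) (XT.nd (nat_lit 78) (nat_lit 608) (nat_lit 0) (XT.lf (nat_lit 0) (nat_lit 18497952810) (nat_lit 836) (nat_lit 18063218160) (nat_lit 912) (nat_lit 74161180224) (nat_lit 289) (nat_lit 5) (nat_lit 300) (nat_lit 5) (nat_lit 301) (nat_lit 5) (nat_lit 473) (nat_lit 462) (nat_lit 265)) (XT.lf (nat_lit 0) (nat_lit 6502422021) (nat_lit 608) (nat_lit 47849988446) (nat_lit 684) (nat_lit 59364335680) (nat_lit 281) (nat_lit 5) (nat_lit 289) (nat_lit 5) (nat_lit 290) (nat_lit 5) (nat_lit 474) (nat_lit 462) (nat_lit 264)))))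 (XT.nd (nat_lit 234) (nat_lit 2204) (nat_lit 0) (XT.nd (nat_lit 78) (nat_lit 1140) (nat_lit 0) (XT.lf (nat_lit 0) (nat_lit 74525315847) (nat_lit 684) (nat_lit 5283515241) (nat_lit 76) (nat_lit 37007266693) (nat_lit 281) (nat_lit 5) (nat_lit 290) (nat_lit 5) (nat_lit 282) (nat_lit 5) (nat_lit 475) (nat_lit 462) (nat_lit 263)) (XT.nd (nat_lit 78) (nat_lit 532) (nat_lit 0) (XT.lf (nat_lit 0) (nat_lit 97240570608) (nat_lit 684) (nat_lit 16809151625) (nat_lit 76) (nat_lit 5974683690) (nat_lit 273) (nat_lit 5) (nat_lit 282) (nat_lit 5) (nat_lit 274) (nat_lit 5) (nat_lit 476) (nat_lit 462) (nat_lit 262)) (XT.lf (nat_lit 0) (nat_lit 94903143139) (nat_lit 532) (nat_lit 27960611163) (nat_lit 608) (nat_lit 476210230) (nat_lit 266) (nat_lit 5) (nat_lit 273) (nat_lit 5) (nat_lit 274) (nat_lit 5) (nat_lit 477) (nat_lit 462) (nat_lit 261)))) (XT.nd (nat_lit 156) (nat_lit 988) (nat_lit 0) (XT.nd (nat_lit 78) (nat_lit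 532) (nat_lit 0) (XT.lf (nat_lit 0) (nat_lit 24123952233) (nat_lit 684) (nat_lit 40181428692) (nat_lit 76) (nat_lit 62460554910) (nat_lit 257) (nat_lit 5) (nat_lit 266) (nat_lit 5) (nat_lit 258) (nat_lit 5) (nat_lit 478) (nat_lit 462) (nat_lit 260)) (XT.lf (nat_lit 0) (nat_lit 51544565090) (nat_lit 608) (nat_lit 51743185381) (nat_lit 76) (nat_lit 27027305091) (nat_lit 250) (nat_lit 5) (nat_lit 258) (nat_lit 5) (nat_lit 251) (nat_lit 5) (nat_lit 479) (nat_lit 462) (nat_lit 259))) (XT.nd (nat_lit 78) (nat_lit 456) (nat_lit 0) (XT.lf (nat_lit 0) (nat_lit 70801168165) (nat_lit 532) (nat_lit 11281899298) (nat_lit 608) (nat_lit 51906158086) (nat_lit 243) (nat_lit 5) (nat_lit 250) (nat_lit 5) (nat_lit 251) (nat_lit 5) (nat_lit 480) (nat_lit 462) (nat_lit 258)) (XT.lf (nat_lit 0) (nat_lit 63128746005) (nat_lit 456) (nat_lit 52984209505) (nat_lit 532) (nat_lit 21675214746) (nat_lit 237) (nat_lit 5) (nat_lit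 243) (nat_lit 5) (nat_lit 244) (nat_lit 5) (nat_lit 481) (nat_lit 462) (nat_lit 257)))))) (XT.nd (nat_lit 468) (nat_lit 380) (nat_lit 0) (XT.nd (nat_lit 234) (nat_lit 1292) (nat_lit 0) (XT.nd (nat_lit 78) (nat_lit 912) (nat_lit 0) (XT.lf (nat_lit 0) (nat_lit 11614172269) (nat_lit 532) (nat_lit 85964238000) (nat_lit 76) (nat_lit 44143448420) (nat_lit 230) (nat_lit 5) (nat_lit 237) (nat_lit 5) (nat_lit 231) (nat_lit 5) (nat_lit 482) (nat_lit 462) (nat_lit 256)) (XT.nd (nat_lit 78) (nat_lit 456) (nat_lit 0) (XT.lf (nat_lit 0) (nat_lit 47908552272) (nat_lit 532) (nat_lit 97185759403) (nat_lit 76) (nat_lit 697817709) (nat_lit 224) (nat_lit 5) (nat_lit 231) (nat_lit 5) (nat_lit 225) (nat_lit 5) (nat_lit 483) (nat_lit 462) (nat_lit 255)) (XT.lf (nat_lit 0) (nat_lit 41477734974) (nat_lit 456) (nat_lit 46816756668) (nat_lit 532) (nat_lit 61703116791) (nat_lit 218) (nat_lit 5) (nat_lit 224) (nat_lit 5) (nat_lit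 225) (nat_lit 5) (nat_lit 484) (nat_lit 462) (nat_lit 254)))) (XT.nd (nat_lit 78) (nat_lit 912) (nat_lit 0) (XT.lf (nat_lit 0) (nat_lit 34849641944) (nat_lit 380) (nat_lit 97736912674) (nat_lit 456) (nat_lit 21770202049) (nat_lit 213) (nat_lit 5) (nat_lit 218) (nat_lit 5) (nat_lit 219) (nat_lit 5) (nat_lit 485) (nat_lit 462) (nat_lit 253)) (XT.nd (nat_lit 78) (nat_lit 380) (nat_lit 0) (XT.lf (nat_lit 0) (nat_lit 21708773350) (nat_lit 532) (nat_lit 130303105465) (nat_lit 76) (nat_lit 6857886104) (nat_lit 206) (nat_lit 5) (nat_lit 213) (nat_lit 5) (nat_lit 207) (nat_lit 5) (nat_lit 486) (nat_lit 462) (nat_lit 252)) (XT.lf (nat_lit 0) (nat_lit 22183918397) (nat_lit 380) (nat_lit 47173452096) (nat_lit 456) (nat_lit 94171209294) (nat_lit 201) (nat_lit 5) (nat_lit 206) (nat_lit 5) (nat_lit 207) (nat_lit 5) (nat_lit 487) (nat_lit 462) (nat_lit 251))))) (XT.nd (nat_lit 60684) (nat_lit 0) (nat_lit 8664)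 (XT.nd (nat_lit 60528) (nat_lit 0) (nat_lit 8588) (XT.lf (nat_lit 0) (nat_lit 16338469548) (nat_lit 380) (nat_lit 105165932351) (nat_lit 456) (nat_lit 46852453394) (nat_lit 196) (nat_lit 5) (nat_lit 201) (nat_lit 5) (nat_lit 202) (nat_lit 5) (nat_lit 488) (nat_lit 462) (nat_lit 250)) (XT.nd (nat_lit 78) (nat_lit 0) (nat_lit 76) (XT.lf (nat_lit 0) (nat_lit 23712592301) (nat_lit 1292) (nat_lit 10097483638) (nat_lit 1292) (nat_lit 10097483638) (nat_lit 309) (nat_lit 3) (nat_lit 326) (nat_lit 3) (nat_lit 326) (nat_lit 5) (nat_lit 463) (nat_lit 463) (nat_lit 274)) (XT.lf (nat_lit 0) (nat_lit 49179724955) (nat_lit 1216) (nat_lit 36597269286) (nat_lit 1292) (nat_lit 4216434285) (nat_lit 310) (nat_lit 5) (nat_lit 326) (nat_lit 5) (nat_lit 327) (nat_lit 5) (nat_lit 464) (nat_lit 463) (nat_lit 273)))) (XT.nd (nat_lit 156) (nat_lit 0) (nat_lit 152) (XT.nd (nat_lit 78) (nat_lit 0) (nat_lit 76) (XT.lf (nat_lit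 76) (nat_lit 38888227356) (nat_lit 0) (nat_lit 13399147308) (nat_lit 1292) (nat_lit 39955317315) (nat_lit 311) (nat_lit 5) (nat_lit 310) (nat_lit 5) (nat_lit 327) (nat_lit 5) (nat_lit 465) (nat_lit 463) (nat_lit 272)) (XT.lf (nat_lit 76) (nat_lit 24185637250) (nat_lit 0) (nat_lit 32578601646) (nat_lit 1292) (nat_lit 37803764826) (nat_lit 312) (nat_lit 5) (nat_lit 311) (nat_lit 5) (nat_lit 328) (nat_lit 5) (nat_lit 466) (nat_lit 463) (nat_lit 271))) (XT.nd (nat_lit 78) (nat_lit 0) (nat_lit 76) (XT.lf (nat_lit 76) (nat_lit 9345409352) (nat_lit 0) (nat_lit 53318817715) (nat_lit 1292) (nat_lit 34309375639) (nat_lit 313) (nat_lit 5) (nat_lit 312) (nat_lit 5) (nat_lit 329) (nat_lit 5) (nat_lit 467) (nat_lit 463) (nat_lit 270)) (XT.lf (nat_lit 0) (nat_lit 70142014201) (nat_lit 1216) (nat_lit 5506972430) (nat_lit 1292) (nat_lit 23812011089) (nat_lit 313) (nat_lit 5) (nat_lit 329) (nat_lit 5) (nat_lit 330)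 (nat_lit 5) (nat_lit 468) (nat_lit 463) (nat_lit 269))))))) (XT.nd (nat_lit 1014) (nat_lit 3192) (nat_lit 0) (XT.nd (nat_lit 468) (nat_lit 3496) (nat_lit 0) (XT.nd (nat_lit 234) (nat_lit 1900) (nat_lit 0) (XT.nd (nat_lit 78) (nat_lit 0) (nat_lit 0) (XT.lf (nat_lit 0) (nat_lit 79340857429) (nat_lit 1216) (nat_lit 20279295272) (nat_lit 1292) (nat_lit 2412194853) (nat_lit 314) (nat_lit 5) (nat_lit 330) (nat_lit 5) (nat_lit 331) (nat_lit 5) (nat_lit 469) (nat_lit 463) (nat_lit 268)) (XT.nd (nat_lit 78) (nat_lit 0) (nat_lit 76) (XT.lf (nat_lit 76) (nat_lit 69349222315) (nat_lit 0) (nat_lit 21137137748) (nat_lit 1292) (nat_lit 14201303362) (nat_lit 315) (nat_lit 5) (nat_lit 314) (nat_lit 5) (nat_lit 331) (nat_lit 5) (nat_lit 470) (nat_lit 463) (nat_lit 267)) (XT.lf (nat_lit 76) (nat_lit 56932867859) (nat_lit 0) (nat_lit 46602659034) (nat_lit 1292) (nat_lit 3899826586) (nat_lit 316) (nat_lit 5) (nat_lit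 315) (nat_lit 5) (nat_lit 332) (nat_lit 5) (nat_lit 471) (nat_lit 463) (nat_lit 266)))) (XT.nd (nat_lit 78) (nat_lit 760) (nat_lit 0) (XT.lf (nat_lit 0) (nat_lit 8148927861) (nat_lit 1292) (nat_lit 65806513539) (nat_lit 1368) (nat_lit 36321976839) (nat_lit 299) (nat_lit 5) (nat_lit 316) (nat_lit 5) (nat_lit 317) (nat_lit 5) (nat_lit 472) (nat_lit 463) (nat_lit 265)) (XT.nd (nat_lit 78) (nat_lit 836) (nat_lit 0) (XT.lf (nat_lit 0) (nat_lit 22120672788) (nat_lit 1292) (nat_lit 81204722762) (nat_lit 76) (nat_lit 9892996161) (nat_lit 300) (nat_lit 5) (nat_lit 317) (nat_lit 5) (nat_lit 301) (nat_lit 5) (nat_lit 473) (nat_lit 463) (nat_lit 264)) (XT.lf (nat_lit 0) (nat_lit 19439577496) (nat_lit 836) (nat_lit 18968269783) (nat_lit 912) (nat_lit 77850061361) (nat_lit 289) (nat_lit 5) (nat_lit 300) (nat_lit 5) (nat_lit 301) (nat_lit 5) (nat_lit 474) (nat_lit 463) (nat_lit 263))))) (XT.nd (nat_lit 234) (nat_lit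 2280) (nat_lit 0) (XT.nd (nat_lit 78) (nat_lit 608) (nat_lit 0) (XT.lf (nat_lit 0) (nat_lit 6844352403) (nat_lit 608) (nat_lit 50243554059) (nat_lit 684) (nat_lit 62314139222) (nat_lit 281) (nat_lit 5) (nat_lit 289) (nat_lit 5) (nat_lit 290) (nat_lit 5) (nat_lit 475) (nat_lit 463) (nat_lit 262)) (XT.nd (nat_lit 78) (nat_lit 608) (nat_lit 0) (XT.lf (nat_lit 0) (nat_lit 78268596137) (nat_lit 684) (nat_lit 5531160240) (nat_lit 76) (nat_lit 38856634423) (nat_lit 281) (nat_lit 5) (nat_lit 290) (nat_lit 5) (nat_lit 282) (nat_lit 5) (nat_lit 476) (nat_lit 463) (nat_lit 261)) (XT.lf (nat_lit 0) (nat_lit 102118954870) (nat_lit 684) (nat_lit 17633057268) (nat_lit 76) (nat_lit 6273122042) (nat_lit 273) (nat_lit 5) (nat_lit 282) (nat_lit 5) (nat_lit 274) (nat_lit 5) (nat_lit 477) (nat_lit 463) (nat_lit 260)))) (XT.nd (nat_lit 156) (nat_lit 1064) (nat_lit 0) (XT.nd (nat_lit 78) (nat_lit 684) (nat_lit 0) (XT.lf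 (nat_lit 0) (nat_lit 99664377777) (nat_lit 532) (nat_lit 29358295675) (nat_lit 608) (nat_lit 483816063) (nat_lit 266) (nat_lit 5) (nat_lit 273) (nat_lit 5) (nat_lit 274) (nat_lit 5) (nat_lit 478) (nat_lit 463) (nat_lit 259)) (XT.lf (nat_lit 0) (nat_lit 25345440951) (nat_lit 684) (nat_lit 42174121528) (nat_lit 76) (nat_lit 65584210209) (nat_lit 257) (nat_lit 5) (nat_lit 266) (nat_lit 5) (nat_lit 258) (nat_lit 5) (nat_lit 479) (nat_lit 463) (nat_lit 258))) (XT.nd (nat_lit 78) (nat_lit 532) (nat_lit 0) (XT.lf (nat_lit 0) (nat_lit 54136520702) (nat_lit 608) (nat_lit 54314004388) (nat_lit 76) (nat_lit 28379840283) (nat_lit 250) (nat_lit 5) (nat_lit 258) (nat_lit 5) (nat_lit 251) (nat_lit 5) (nat_lit 480) (nat_lit 463) (nat_lit 257)) (XT.lf (nat_lit 0) (nat_lit 74357098445) (nat_lit 532) (nat_lit 11844301016) (nat_lit 608) (nat_lit 54486860916) (nat_lit 243) (nat_lit 5) (nat_lit 250) (nat_lit 5) (nat_lit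 251) (nat_lit 5) (nat_lit 481) (nat_lit 463) (nat_lit 256)))))) (XT.nd (nat_lit 61074) (nat_lit 0) (nat_lit 8208) (XT.nd (nat_lit 234) (nat_lit 1748) (nat_lit 0) (XT.nd (nat_lit 78) (nat_lit 988) (nat_lit 0) (XT.lf (nat_lit 0) (nat_lit 66300998630) (nat_lit 456) (nat_lit 55631275636) (nat_lit 532) (nat_lit 22744893334) (nat_lit 237) (nat_lit 5) (nat_lit 243) (nat_lit 5) (nat_lit 244) (nat_lit 5) (nat_lit 482) (nat_lit 463) (nat_lit 255)) (XT.nd (nat_lit 78) (nat_lit 456) (nat_lit 0) (XT.lf (nat_lit 0) (nat_lit 12208203384) (nat_lit 532) (nat_lit 90246442452) (nat_lit 76) (nat_lit 46352905150) (nat_lit 230) (nat_lit 5) (nat_lit 237) (nat_lit 5) (nat_lit 231) (nat_lit 5) (nat_lit 483) (nat_lit 463) (nat_lit 254)) (XT.lf (nat_lit 0) (nat_lit 50316843505) (nat_lit 532) (nat_lit 102029138793) (nat_lit 76) (nat_lit 735366730) (nat_lit 224) (nat_lit 5) (nat_lit 231) (nat_lit 5) (nat_lit 225) (nat_lit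 5) (nat_lit 484) (nat_lit 463) (nat_lit 253)))) (XT.nd (nat_lit 156) (nat_lit 912) (nat_lit 0) (XT.nd (nat_lit 78) (nat_lit 380) (nat_lit 0) (XT.lf (nat_lit 0) (nat_lit 43567074287) (nat_lit 456) (nat_lit 49154541544) (nat_lit 532) (nat_lit 64775500165) (nat_lit 218) (nat_lit 5) (nat_lit 224) (nat_lit 5) (nat_lit 225) (nat_lit 5) (nat_lit 485) (nat_lit 463) (nat_lit 252)) (XT.lf (nat_lit 0) (nat_lit 36607467328) (nat_lit 380) (nat_lit 102620399608) (nat_lit 456) (nat_lit 22846367196) (nat_lit 213) (nat_lit 5) (nat_lit 218) (nat_lit 5) (nat_lit 219) (nat_lit 5) (nat_lit 486) (nat_lit 463) (nat_lit 251))) (XT.nd (nat_lit 78) (nat_lit 380) (nat_lit 0) (XT.lf (nat_lit 0) (nat_lit 22805918520) (nat_lit 532) (nat_lit 136802804836) (nat_lit 76) (nat_lit 7204177845) (nat_lit 206) (nat_lit 5) (nat_lit 213) (nat_lit 5) (nat_lit 207) (nat_lit 5) (nat_lit 487) (nat_lit 463) (nat_lit 250)) (XT.lf (nat_lit 0)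 (nat_lit 23308127179) (nat_lit 380) (nat_lit 49528405202) (nat_lit 456) (nat_lit 98868136863) (nat_lit 201) (nat_lit 5) (nat_lit 206) (nat_lit 5) (nat_lit 207) (nat_lit 5) (nat_lit 488) (nat_lit 463) (nat_lit 249))))) (XT.nd (nat_lit 234) (nat_lit 0) (nat_lit 152) (XT.nd (nat_lit 78) (nat_lit 0) (nat_lit 76) (XT.lf (nat_lit 0) (nat_lit 24911892412) (nat_lit 1292) (nat_lit 10595316882) (nat_lit 1292) (nat_lit 10595316882) (nat_lit 309) (nat_lit 3) (nat_lit 326) (nat_lit 3) (nat_lit 326) (nat_lit 5) (nat_lit 464) (nat_lit 464) (nat_lit 272)) (XT.nd (nat_lit 78) (nat_lit 0) (nat_lit 0) (XT.lf (nat_lit 0) (nat_lit 51664761643) (nat_lit 1216) (nat_lit 38412546922) (nat_lit 1292) (nat_lit 4415007467) (nat_lit 310) (nat_lit 5) (nat_lit 326) (nat_lit 5) (nat_lit 327) (nat_lit 5) (nat_lit 465) (nat_lit 464) (nat_lit 271)) (XT.lf (nat_lit 76) (nat_lit 40846806453) (nat_lit 0) (nat_lit 14079883076) (nat_lit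 1292) (nat_lit 41927386372) (nat_lit 311) (nat_lit 5) (nat_lit 310) (nat_lit 5) (nat_lit 327) (nat_lit 5) (nat_lit 466) (nat_lit 464) (nat_lit 270)))) (XT.nd (nat_lit 156) (nat_lit 0) (nat_lit 152) (XT.nd (nat_lit 78) (nat_lit 0) (nat_lit 76) (XT.lf (nat_lit 76) (nat_lit 25409510525) (nat_lit 0) (nat_lit 34216740123) (nat_lit 1292) (nat_lit 39669437082) (nat_lit 312) (nat_lit 5) (nat_lit 311) (nat_lit 5) (nat_lit 328) (nat_lit 5) (nat_lit 467) (nat_lit 464) (nat_lit 269)) (XT.lf (nat_lit 76) (nat_lit 9827634601) (nat_lit 0) (nat_lit 55992529755) (nat_lit 1292) (nat_lit 36001434626) (nat_lit 313) (nat_lit 5) (nat_lit 312) (nat_lit 5) (nat_lit 329) (nat_lit 5) (nat_lit 468) (nat_lit 464) (nat_lit 268))) (XT.nd (nat_lit 78) (nat_lit 0) (nat_lit 76) (XT.lf (nat_lit 0) (nat_lit 73670687516) (nat_lit 1216) (nat_lit 5767355966) (nat_lit 1292) (nat_lit 24995354967) (nat_lit 313) (nat_lit 5) (nat_lit 329)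 (nat_lit 5) (nat_lit 330) (nat_lit 5) (nat_lit 469) (nat_lit 464) (nat_lit 267)) (XT.lf (nat_lit 0) (nat_lit 83328526261) (nat_lit 1216) (nat_lit 21278042373) (nat_lit 1292) (nat_lit 2526775632) (nat_lit 314) (nat_lit 5) (nat_lit 330) (nat_lit 5) (nat_lit 331) (nat_lit 5) (nat_lit 470) (nat_lit 464) (nat_lit 266))))))))
noncomputable def xc124 : XT := (XT.nd (nat_lit 62712) (nat_lit 0) (nat_lit 380) (XT.nd (nat_lit 1014) (nat_lit 1824) (nat_lit 0) (XT.nd (nat_lit 468) (nat_lit 3344) (nat_lit 0) (XT.nd (nat_lit 234) (nat_lit 1368) (nat_lit 0) (XT.nd (nat_lit 78) (nat_lit 1140) (nat_lit 0) (XT.lf (nat_lit 76) (nat_lit 72831464881) (nat_lit 0) (nat_lit 22198999045) (nat_lit 1292) (nat_lit 14890987297) (nat_lit 315) (nat_lit 5) (nat_lit 314) (nat_lit 5) (nat_lit 331) (nat_lit 5) (nat_lit 471) (nat_lit 464) (nat_lit 265)) (XT.nd (nat_lit 78) (nat_lit 1216) (nat_lit 0) (XT.lf (nat_lit 76) (nat_lit 59794494029)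 (nat_lit 0) (nat_lit 48936751094) (nat_lit 1292) (nat_lit 4075306063) (nat_lit 316) (nat_lit 5) (nat_lit 315) (nat_lit 5) (nat_lit 332) (nat_lit 5) (nat_lit 472) (nat_lit 464) (nat_lit 264)) (XT.lf (nat_lit 0) (nat_lit 8574704765) (nat_lit 1292) (nat_lit 69081328925) (nat_lit 1368) (nat_lit 38134703962) (nat_lit 299) (nat_lit 5) (nat_lit 316) (nat_lit 5) (nat_lit 317) (nat_lit 5) (nat_lit 473) (nat_lit 464) (nat_lit 263)))) (XT.nd (nat_lit 78) (nat_lit 1444) (nat_lit 0) (XT.lf (nat_lit 0) (nat_lit 23244284493) (nat_lit 1292) (nat_lit 85249339243) (nat_lit 76) (nat_lit 10385158711) (nat_lit 300) (nat_lit 5) (nat_lit 317) (nat_lit 5) (nat_lit 301) (nat_lit 5) (nat_lit 474) (nat_lit 464) (nat_lit 262)) (XT.nd (nat_lit 78) (nat_lit 608) (nat_lit 0) (XT.lf (nat_lit 0) (nat_lit 20426728293) (nat_lit 836) (nat_lit 19918398206) (nat_lit 912) (nat_lit 81725169531) (nat_lit 289) (nat_lit 5) (nat_lit 300)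 (nat_lit 5) (nat_lit 301) (nat_lit 5) (nat_lit 475) (nat_lit 464) (nat_lit 261)) (XT.lf (nat_lit 0) (nat_lit 7201816536) (nat_lit 608) (nat_lit 52756698828) (nat_lit 684) (nat_lit 65413144829) (nat_lit 281) (nat_lit 5) (nat_lit 289) (nat_lit 5) (nat_lit 290) (nat_lit 5) (nat_lit 476) (nat_lit 464) (nat_lit 260))))) (XT.nd (nat_lit 234) (nat_lit 2204) (nat_lit 0) (XT.nd (nat_lit 78) (nat_lit 1140) (nat_lit 0) (XT.lf (nat_lit 0) (nat_lit 82197458595) (nat_lit 684) (nat_lit 5792724363) (nat_lit 76) (nat_lit 40798563101) (nat_lit 281) (nat_lit 5) (nat_lit 290) (nat_lit 5) (nat_lit 282) (nat_lit 5) (nat_lit 477) (nat_lit 464) (nat_lit 259)) (XT.nd (nat_lit 78) (nat_lit 532) (nat_lit 0) (XT.lf (nat_lit 0) (nat_lit 107239737744) (nat_lit 684) (nat_lit 18499697036) (nat_lit 76) (nat_lit 6586509816) (nat_lit 273) (nat_lit 5) (nat_lit 282) (nat_lit 5) (nat_lit 274) (nat_lit 5) (nat_lit 478) (nat_lit 464)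 (nat_lit 258)) (XT.lf (nat_lit 0) (nat_lit 104662179414) (nat_lit 532) (nat_lit 30825896585) (nat_lit 608) (nat_lit 493308744) (nat_lit 266) (nat_lit 5) (nat_lit 273) (nat_lit 5) (nat_lit 274) (nat_lit 5) (nat_lit 479) (nat_lit 464) (nat_lit 257)))) (XT.nd (nat_lit 156) (nat_lit 988) (nat_lit 0) (XT.nd (nat_lit 78) (nat_lit 532) (nat_lit 0) (XT.lf (nat_lit 0) (nat_lit 26626582484) (nat_lit 684) (nat_lit 44267971734) (nat_lit 76) (nat_lit 68863989929) (nat_lit 257) (nat_lit 5) (nat_lit 266) (nat_lit 5) (nat_lit 258) (nat_lit 5) (nat_lit 480) (nat_lit 464) (nat_lit 256)) (XT.lf (nat_lit 0) (nat_lit 56856704884) (nat_lit 608) (nat_lit 57014883508) (nat_lit 76) (nat_lit 29799893465) (nat_lit 250) (nat_lit 5) (nat_lit 258) (nat_lit 5) (nat_lit 251) (nat_lit 5) (nat_lit 481) (nat_lit 464) (nat_lit 255))) (XT.nd (nat_lit 78) (nat_lit 456) (nat_lit 0) (XT.lf (nat_lit 0) (nat_lit 78089349622) (nat_lit 532)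 (nat_lit 12434980241) (nat_lit 608) (nat_lit 57197956727) (nat_lit 243) (nat_lit 5) (nat_lit 250) (nat_lit 5) (nat_lit 251) (nat_lit 5) (nat_lit 482) (nat_lit 464) (nat_lit 254)) (XT.lf (nat_lit 0) (nat_lit 69630393526) (nat_lit 456) (nat_lit 58410894435) (nat_lit 532) (nat_lit 23869365076) (nat_lit 237) (nat_lit 5) (nat_lit 243) (nat_lit 5) (nat_lit 244) (nat_lit 5) (nat_lit 483) (nat_lit 464) (nat_lit 253)))))) (XT.nd (nat_lit 61152) (nat_lit 0) (nat_lit 7372) (XT.nd (nat_lit 234) (nat_lit 380) (nat_lit 0) (XT.nd (nat_lit 78) (nat_lit 912) (nat_lit 0) (XT.lf (nat_lit 0) (nat_lit 12830697455) (nat_lit 532) (nat_lit 94744245348) (nat_lit 76) (nat_lit 48672622344) (nat_lit 230) (nat_lit 5) (nat_lit 237) (nat_lit 5) (nat_lit 231) (nat_lit 5) (nat_lit 484) (nat_lit 464) (nat_lit 252)) (XT.nd (nat_lit 78) (nat_lit 456) (nat_lit 0) (XT.lf (nat_lit 0) (nat_lit 52844353363) (nat_lit 532) (nat_lit 107116166182)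 (nat_lit 76) (nat_lit 774546075) (nat_lit 224) (nat_lit 5) (nat_lit 231) (nat_lit 5) (nat_lit 225) (nat_lit 5) (nat_lit 485) (nat_lit 464) (nat_lit 251)) (XT.lf (nat_lit 0) (nat_lit 45759443933) (nat_lit 456) (nat_lit 51609499498) (nat_lit 532) (nat_lit 68002690169) (nat_lit 218) (nat_lit 5) (nat_lit 224) (nat_lit 5) (nat_lit 225) (nat_lit 5) (nat_lit 486) (nat_lit 464) (nat_lit 250)))) (XT.nd (nat_lit 60762) (nat_lit 0) (nat_lit 7296) (XT.lf (nat_lit 0) (nat_lit 38451757507) (nat_lit 380) (nat_lit 107748373150) (nat_lit 456) (nat_lit 23977488317) (nat_lit 213) (nat_lit 5) (nat_lit 218) (nat_lit 5) (nat_lit 219) (nat_lit 5) (nat_lit 487) (nat_lit 464) (nat_lit 249)) (XT.nd (nat_lit 78) (nat_lit 0) (nat_lit 76) (XT.lf (nat_lit 0) (nat_lit 26169886576) (nat_lit 1292) (nat_lit 11118696388) (nat_lit 1292) (nat_lit 11118696388) (nat_lit 309) (nat_lit 3) (nat_lit 326) (nat_lit 3) (nat_lit 326) (nat_lit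 5) (nat_lit 465) (nat_lit 465) (nat_lit 270)) (XT.lf (nat_lit 0) (nat_lit 54271628242) (nat_lit 1216) (nat_lit 40319944491) (nat_lit 1292) (nat_lit 4624648060) (nat_lit 310) (nat_lit 5) (nat_lit 326) (nat_lit 5) (nat_lit 327) (nat_lit 5) (nat_lit 466) (nat_lit 465) (nat_lit 269))))) (XT.nd (nat_lit 234) (nat_lit 0) (nat_lit 228) (XT.nd (nat_lit 78) (nat_lit 0) (nat_lit 76) (XT.lf (nat_lit 76) (nat_lit 42901997324) (nat_lit 0) (nat_lit 14793653558) (nat_lit 1292) (nat_lit 44000447927) (nat_lit 311) (nat_lit 5) (nat_lit 310) (nat_lit 5) (nat_lit 327) (nat_lit 5) (nat_lit 467) (nat_lit 465) (nat_lit 268)) (XT.nd (nat_lit 78) (nat_lit 0) (nat_lit 76) (XT.lf (nat_lit 76) (nat_lit 26693220892) (nat_lit 0) (nat_lit 35935929415) (nat_lit 1292) (nat_lit 41630672214) (nat_lit 312) (nat_lit 5) (nat_lit 311) (nat_lit 5) (nat_lit 328) (nat_lit 5) (nat_lit 468) (nat_lit 465) (nat_lit 267)) (XT.lf (nat_lit 76)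 (nat_lit 10332580758) (nat_lit 0) (nat_lit 58799204909) (nat_lit 1292) (nat_lit 37780272984) (nat_lit 313) (nat_lit 5) (nat_lit 312) (nat_lit 5) (nat_lit 329) (nat_lit 5) (nat_lit 469) (nat_lit 465) (nat_lit 266)))) (XT.nd (nat_lit 156) (nat_lit 0) (nat_lit 76) (XT.nd (nat_lit 78) (nat_lit 0) (nat_lit 76) (XT.lf (nat_lit 0) (nat_lit 77373788880) (nat_lit 1216) (nat_lit 6042149989) (nat_lit 1292) (nat_lit 26238540695) (nat_lit 313) (nat_lit 5) (nat_lit 329) (nat_lit 5) (nat_lit 330) (nat_lit 5) (nat_lit 470) (nat_lit 465) (nat_lit 265)) (XT.lf (nat_lit 0) (nat_lit 87513660928) (nat_lit 1216) (nat_lit 22328141624) (nat_lit 1292) (nat_lit 2647645965) (nat_lit 314) (nat_lit 5) (nat_lit 330) (nat_lit 5) (nat_lit 331) (nat_lit 5) (nat_lit 471) (nat_lit 465) (nat_lit 264))) (XT.nd (nat_lit 78) (nat_lit 0) (nat_lit 76) (XT.lf (nat_lit 76) (nat_lit 76486445337) (nat_lit 0) (nat_lit 23313488144) (nat_lit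 1292) (nat_lit 15617050283) (nat_lit 315) (nat_lit 5) (nat_lit 314) (nat_lit 5) (nat_lit 331) (nat_lit 5) (nat_lit 472) (nat_lit 465) (nat_lit 263)) (XT.lf (nat_lit 76) (nat_lit 62797808550) (nat_lit 0) (nat_lit 51387179677) (nat_lit 1292) (nat_lit 4261373540) (nat_lit 316) (nat_lit 5) (nat_lit 315) (nat_lit 5) (nat_lit 332) (nat_lit 5) (nat_lit 473) (nat_lit 465) (nat_lit 262))))))) (XT.nd (nat_lit 1014) (nat_lit 456) (nat_lit 0) (XT.nd (nat_lit 468) (nat_lit 3724) (nat_lit 0) (XT.nd (nat_lit 234) (nat_lit 1216) (nat_lit 0) (XT.nd (nat_lit 78) (nat_lit 760) (nat_lit 0) (XT.lf (nat_lit 0) (nat_lit 9020066318) (nat_lit 1292) (nat_lit 72521327081) (nat_lit 1368) (nat_lit 40038380912) (nat_lit 299) (nat_lit 5) (nat_lit 316) (nat_lit 5) (nat_lit 317) (nat_lit 5) (nat_lit 474) (nat_lit 465) (nat_lit 261)) (XT.nd (nat_lit 78) (nat_lit 836) (nat_lit 0) (XT.lf (nat_lit 0) (nat_lit 24422442542) (nat_lit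 1292) (nat_lit 89497638716) (nat_lit 76) (nat_lit 10902160630) (nat_lit 300) (nat_lit 5) (nat_lit 317) (nat_lit 5) (nat_lit 301) (nat_lit 5) (nat_lit 475) (nat_lit 465) (nat_lit 260)) (XT.lf (nat_lit 0) (nat_lit 21461826089) (nat_lit 836) (nat_lit 20915873612) (nat_lit 912) (nat_lit 85795650323) (nat_lit 289) (nat_lit 5) (nat_lit 300) (nat_lit 5) (nat_lit 301) (nat_lit 5) (nat_lit 476) (nat_lit 465) (nat_lit 259)))) (XT.nd (nat_lit 78) (nat_lit 608) (nat_lit 0) (XT.lf (nat_lit 0) (nat_lit 7575736400) (nat_lit 608) (nat_lit 55395410927) (nat_lit 684) (nat_lit 68668653450) (nat_lit 281) (nat_lit 5) (nat_lit 289) (nat_lit 5) (nat_lit 290) (nat_lit 5) (nat_lit 477) (nat_lit 465) (nat_lit 258)) (XT.nd (nat_lit 78) (nat_lit 608) (nat_lit 0) (XT.lf (nat_lit 0) (nat_lit 86321329394) (nat_lit 684) (nat_lit 6068760681) (nat_lit 76) (nat_lit 42837672170) (nat_lit 281) (nat_lit 5) (nat_lit 290) (nat_lit 5)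 (nat_lit 282) (nat_lit 5) (nat_lit 478) (nat_lit 465) (nat_lit 257)) (XT.lf (nat_lit 0) (nat_lit 112615180533) (nat_lit 684) (nat_lit 19411064567) (nat_lit 76) (nat_lit 6915591924) (nat_lit 273) (nat_lit 5) (nat_lit 282) (nat_lit 5) (nat_lit 274) (nat_lit 5) (nat_lit 479) (nat_lit 465) (nat_lit 256))))) (XT.nd (nat_lit 234) (nat_lit 1976) (nat_lit 0) (XT.nd (nat_lit 78) (nat_lit 1216) (nat_lit 0) (XT.lf (nat_lit 0) (nat_lit 109908515368) (nat_lit 532) (nat_lit 32366906721) (nat_lit 608) (nat_lit 504642552) (nat_lit 266) (nat_lit 5) (nat_lit 273) (nat_lit 5) (nat_lit 274) (nat_lit 5) (nat_lit 480) (nat_lit 465) (nat_lit 255)) (XT.nd (nat_lit 78) (nat_lit 532) (nat_lit 0) (XT.lf (nat_lit 0) (nat_lit 27970491640) (nat_lit 684) (nat_lit 46467895607) (nat_lit 76) (nat_lit 72307705716) (nat_lit 257) (nat_lit 5) (nat_lit 266) (nat_lit 5) (nat_lit 258) (nat_lit 5) (nat_lit 481) (nat_lit 465) (nat_lit 254))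 (XT.lf (nat_lit 0) (nat_lit 59711656362) (nat_lit 608) (nat_lit 59852184510) (nat_lit 76) (nat_lit 31290850648) (nat_lit 250) (nat_lit 5) (nat_lit 258) (nat_lit 5) (nat_lit 251) (nat_lit 5) (nat_lit 482) (nat_lit 465) (nat_lit 253)))) (XT.nd (nat_lit 156) (nat_lit 988) (nat_lit 0) (XT.nd (nat_lit 78) (nat_lit 456) (nat_lit 0) (XT.lf (nat_lit 0) (nat_lit 82006874932) (nat_lit 532) (nat_lit 13055336215) (nat_lit 608) (nat_lit 60045838932) (nat_lit 243) (nat_lit 5) (nat_lit 250) (nat_lit 5) (nat_lit 251) (nat_lit 5) (nat_lit 483) (nat_lit 465) (nat_lit 252)) (XT.lf (nat_lit 0) (nat_lit 73124924509) (nat_lit 456) (nat_lit 61329674999) (nat_lit 532) (nat_lit 25051247911) (nat_lit 237) (nat_lit 5) (nat_lit 243) (nat_lit 5) (nat_lit 244) (nat_lit 5) (nat_lit 484) (nat_lit 465) (nat_lit 251))) (XT.nd (nat_lit 78) (nat_lit 456) (nat_lit 0) (XT.lf (nat_lit 0) (nat_lit 13483192783) (nat_lit 532) (nat_lit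 99468288248) (nat_lit 76) (nat_lit 51108132768) (nat_lit 230) (nat_lit 5) (nat_lit 237) (nat_lit 5) (nat_lit 231) (nat_lit 5) (nat_lit 485) (nat_lit 465) (nat_lit 250)) (XT.lf (nat_lit 0) (nat_lit 55497153963) (nat_lit 532) (nat_lit 112458886462) (nat_lit 76) (nat_lit 815460234) (nat_lit 224) (nat_lit 5) (nat_lit 231) (nat_lit 5) (nat_lit 225) (nat_lit 5) (nat_lit 486) (nat_lit 465) (nat_lit 249)))))) (XT.nd (nat_lit 61308) (nat_lit 0) (nat_lit 4788) (XT.nd (nat_lit 60996) (nat_lit 0) (nat_lit 6992) (XT.nd (nat_lit 60840) (nat_lit 0) (nat_lit 6916) (XT.lf (nat_lit 0) (nat_lit 48060128992) (nat_lit 456) (nat_lit 54187462797) (nat_lit 532) (nat_lit 71392316738) (nat_lit 218) (nat_lit 5) (nat_lit 224) (nat_lit 5) (nat_lit 225) (nat_lit 5) (nat_lit 487) (nat_lit 465) (nat_lit 248)) (XT.nd (nat_lit 78) (nat_lit 0) (nat_lit 76) (XT.lf (nat_lit 0) (nat_lit 27489627655) (nat_lit 1292) (nat_lit 11668838611)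 (nat_lit 1292) (nat_lit 11668838611) (nat_lit 309) (nat_lit 3) (nat_lit 326) (nat_lit 3) (nat_lit 326) (nat_lit 5) (nat_lit 466) (nat_lit 466) (nat_lit 268)) (XT.lf (nat_lit 0) (nat_lit 57006641415) (nat_lit 1216) (nat_lit 42323941918) (nat_lit 1292) (nat_lit 4845803565) (nat_lit 310) (nat_lit 5) (nat_lit 326) (nat_lit 5) (nat_lit 327) (nat_lit 5) (nat_lit 467) (nat_lit 466) (nat_lit 267)))) (XT.nd (nat_lit 156) (nat_lit 0) (nat_lit 152) (XT.nd (nat_lit 78) (nat_lit 0) (nat_lit 76) (XT.lf (nat_lit 76) (nat_lit 45058753016) (nat_lit 0) (nat_lit 15542203655) (nat_lit 1292) (nat_lit 46179329495) (nat_lit 311) (nat_lit 5) (nat_lit 310) (nat_lit 5) (nat_lit 327) (nat_lit 5) (nat_lit 468) (nat_lit 466) (nat_lit 266)) (XT.lf (nat_lit 76) (nat_lit 28039886327) (nat_lit 0) (nat_lit 37740301655) (nat_lit 1292) (nat_lit 43692036463) (nat_lit 312) (nat_lit 5) (nat_lit 311) (nat_lit 5) (nat_lit 328) (nat_lit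 5) (nat_lit 469) (nat_lit 466) (nat_lit 265))) (XT.nd (nat_lit 78) (nat_lit 0) (nat_lit 76) (XT.lf (nat_lit 76) (nat_lit 10861513131) (nat_lit 0) (nat_lit 61745558502) (nat_lit 1292) (nat_lit 39650027338) (nat_lit 313) (nat_lit 5) (nat_lit 312) (nat_lit 5) (nat_lit 329) (nat_lit 5) (nat_lit 470) (nat_lit 466) (nat_lit 264)) (XT.lf (nat_lit 0) (nat_lit 81260226159) (nat_lit 1216) (nat_lit 6331945675) (nat_lit 1292) (nat_lit 27544497643) (nat_lit 313) (nat_lit 5) (nat_lit 329) (nat_lit 5) (nat_lit 330) (nat_lit 5) (nat_lit 471) (nat_lit 466) (nat_lit 263))))) (XT.nd (nat_lit 234) (nat_lit 2508) (nat_lit 0) (XT.nd (nat_lit 78) (nat_lit 0) (nat_lit 0) (XT.lf (nat_lit 0) (nat_lit 91906313002) (nat_lit 1216) (nat_lit 23432029097) (nat_lit 1292) (nat_lit 2775068220) (nat_lit 314) (nat_lit 5) (nat_lit 330) (nat_lit 5) (nat_lit 331) (nat_lit 5) (nat_lit 472) (nat_lit 466) (nat_lit 262)) (XT.nd (nat_lit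 78) (nat_lit 0) (nat_lit 76) (XT.lf (nat_lit 76) (nat_lit 80322928340) (nat_lit 0) (nat_lit 24483279691) (nat_lit 1292) (nat_lit 16381135106) (nat_lit 315) (nat_lit 5) (nat_lit 314) (nat_lit 5) (nat_lit 331) (nat_lit 5) (nat_lit 473) (nat_lit 466) (nat_lit 261)) (XT.lf (nat_lit 76) (nat_lit 65950025345) (nat_lit 0) (nat_lit 53959795829) (nat_lit 1292) (nat_lit 4458389767) (nat_lit 316) (nat_lit 5) (nat_lit 315) (nat_lit 5) (nat_lit 332) (nat_lit 5) (nat_lit 474) (nat_lit 466) (nat_lit 260)))) (XT.nd (nat_lit 156) (nat_lit 1368) (nat_lit 0) (XT.nd (nat_lit 78) (nat_lit 0) (nat_lit 76) (XT.lf (nat_lit 0) (nat_lit 9486150190) (nat_lit 1292) (nat_lit 76134633080) (nat_lit 1368) (nat_lit 42037526037) (nat_lit 299) (nat_lit 5) (nat_lit 316) (nat_lit 5) (nat_lit 317) (nat_lit 5) (nat_lit 475) (nat_lit 466) (nat_lit 259)) (XT.lf (nat_lit 0) (nat_lit 25658026187) (nat_lit 1292) (nat_lit 93959670321) (nat_lit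 76) (nat_lit 11445222389) (nat_lit 300) (nat_lit 5) (nat_lit 317) (nat_lit 5) (nat_lit 301) (nat_lit 5) (nat_lit 476) (nat_lit 466) (nat_lit 258))) (XT.nd (nat_lit 78) (nat_lit 608) (nat_lit 0) (XT.lf (nat_lit 0) (nat_lit 22547399371) (nat_lit 836) (nat_lit 21963078173) (nat_lit 912) (nat_lit 90071122014) (nat_lit 289) (nat_lit 5) (nat_lit 300) (nat_lit 5) (nat_lit 301) (nat_lit 5) (nat_lit 477) (nat_lit 466) (nat_lit 257)) (XT.lf (nat_lit 0) (nat_lit 7967066564) (nat_lit 608) (nat_lit 58165977081) (nat_lit 684) (nat_lit 72088345877) (nat_lit 281) (nat_lit 5) (nat_lit 289) (nat_lit 5) (nat_lit 290) (nat_lit 5) (nat_lit 478) (nat_lit 466) (nat_lit 256))))))))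
noncomputable def xc125 : XT := (XT.nd (nat_lit 62868) (nat_lit 0) (nat_lit 988) (XT.nd (nat_lit 61854) (nat_lit 0) (nat_lit 2508) (XT.nd (nat_lit 468) (nat_lit 1444) (nat_lit 0) (XT.nd (nat_lit 234) (nat_lit 1748) (nat_lit 0) (XT.nd (nat_lit 78) (nat_lit 1140) (nat_lit 0) (XT.lf (nat_lit 0) (nat_lit 90650092344) (nat_lit 684) (nat_lit 6359863206) (nat_lit 76) (nat_lit 44978812842) (nat_lit 281) (nat_lit 5) (nat_lit 290) (nat_lit 5) (nat_lit 282) (nat_lit 5) (nat_lit 479) (nat_lit 466) (nat_lit 255)) (XT.nd (nat_lit 78) (nat_lit 532) (nat_lit 0) (XT.lf (nat_lit 0) (nat_lit 118258144458) (nat_lit 684) (nat_lit 20369266484) (nat_lit 76) (nat_lit 7261150766) (nat_lit 273) (nat_lit 5) (nat_lit 282) (nat_lit 5) (nat_lit 274) (nat_lit 5) (nat_lit 480) (nat_lit 466) (nat_lit 254)) (XT.lf (nat_lit 0) (nat_lit 115415938400) (nat_lit 532) (nat_lit 33984993832) (nat_lit 608) (nat_lit 517782499) (nat_lit 266)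 (nat_lit 5) (nat_lit 273) (nat_lit 5) (nat_lit 274) (nat_lit 5) (nat_lit 481) (nat_lit 466) (nat_lit 253)))) (XT.nd (nat_lit 78) (nat_lit 1064) (nat_lit 0) (XT.lf (nat_lit 0) (nat_lit 29380426681) (nat_lit 684) (nat_lit 48779068426) (nat_lit 76) (nat_lit 75923559292) (nat_lit 257) (nat_lit 5) (nat_lit 266) (nat_lit 5) (nat_lit 258) (nat_lit 5) (nat_lit 482) (nat_lit 466) (nat_lit 252)) (XT.nd (nat_lit 78) (nat_lit 532) (nat_lit 0) (XT.lf (nat_lit 0) (nat_lit 62708228960) (nat_lit 608) (nat_lit 62832600380) (nat_lit 76) (nat_lit 32856266206) (nat_lit 250) (nat_lit 5) (nat_lit 258) (nat_lit 5) (nat_lit 251) (nat_lit 5) (nat_lit 483) (nat_lit 466) (nat_lit 251)) (XT.lf (nat_lit 0) (nat_lit 86119062513) (nat_lit 532) (nat_lit 13706839499) (nat_lit 608) (nat_lit 63037232347) (nat_lit 243) (nat_lit 5) (nat_lit 250) (nat_lit 5) (nat_lit 251) (nat_lit 5) (nat_lit 484) (nat_lit 466) (nat_lit 250))))) (XT.nd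 (nat_lit 61074) (nat_lit 0) (nat_lit 6460) (XT.nd (nat_lit 78) (nat_lit 988) (nat_lit 0) (XT.lf (nat_lit 0) (nat_lit 76792972373) (nat_lit 456) (nat_lit 64394558606) (nat_lit 532) (nat_lit 26293301989) (nat_lit 237) (nat_lit 5) (nat_lit 243) (nat_lit 5) (nat_lit 244) (nat_lit 5) (nat_lit 485) (nat_lit 466) (nat_lit 249)) (XT.nd (nat_lit 78) (nat_lit 456) (nat_lit 0) (XT.lf (nat_lit 0) (nat_lit 14167293879) (nat_lit 532) (nat_lit 104429757656) (nat_lit 76) (nat_lit 53665243994) (nat_lit 230) (nat_lit 5) (nat_lit 237) (nat_lit 5) (nat_lit 231) (nat_lit 5) (nat_lit 486) (nat_lit 466) (nat_lit 248)) (XT.lf (nat_lit 0) (nat_lit 58281610692) (nat_lit 532) (nat_lit 118069959558) (nat_lit 76) (nat_lit 858216787) (nat_lit 224) (nat_lit 5) (nat_lit 231) (nat_lit 5) (nat_lit 225) (nat_lit 5) (nat_lit 487) (nat_lit 466) (nat_lit 247)))) (XT.nd (nat_lit 156) (nat_lit 0) (nat_lit 76) (XT.nd (nat_lit 78) (nat_lit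 0) (nat_lit 76) (XT.lf (nat_lit 0) (nat_lit 28874310172) (nat_lit 1292) (nat_lit 12247026485) (nat_lit 1292) (nat_lit 12247026485) (nat_lit 309) (nat_lit 3) (nat_lit 326) (nat_lit 3) (nat_lit 326) (nat_lit 5) (nat_lit 467) (nat_lit 467) (nat_lit 266)) (XT.lf (nat_lit 0) (nat_lit 59876412725) (nat_lit 1216) (nat_lit 44429254844) (nat_lit 1292) (nat_lit 5078953700) (nat_lit 310) (nat_lit 5) (nat_lit 326) (nat_lit 5) (nat_lit 327) (nat_lit 5) (nat_lit 468) (nat_lit 467) (nat_lit 265))) (XT.nd (nat_lit 78) (nat_lit 0) (nat_lit 76) (XT.lf (nat_lit 76) (nat_lit 47322262844) (nat_lit 0) (nat_lit 16327356847) (nat_lit 1292) (nat_lit 48469120616) (nat_lit 311) (nat_lit 5) (nat_lit 310) (nat_lit 5) (nat_lit 327) (nat_lit 5) (nat_lit 469) (nat_lit 467) (nat_lit 264)) (XT.lf (nat_lit 76) (nat_lit 29452768980) (nat_lit 0) (nat_lit 39634188184) (nat_lit 1292) (nat_lit 45858344080) (nat_lit 312) (nat_lit 5) (nat_lit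 311) (nat_lit 5) (nat_lit 328) (nat_lit 5) (nat_lit 470) (nat_lit 467) (nat_lit 263)))))) (XT.nd (nat_lit 468) (nat_lit 3192) (nat_lit 0) (XT.nd (nat_lit 234) (nat_lit 988) (nat_lit 0) (XT.nd (nat_lit 78) (nat_lit 0) (nat_lit 76) (XT.lf (nat_lit 76) (nat_lit 11415748276) (nat_lit 0) (nat_lit 64838635383) (nat_lit 1292) (nat_lit 41615059956) (nat_lit 313) (nat_lit 5) (nat_lit 312) (nat_lit 5) (nat_lit 329) (nat_lit 5) (nat_lit 471) (nat_lit 467) (nat_lit 262)) (XT.nd (nat_lit 78) (nat_lit 0) (nat_lit 76) (XT.lf (nat_lit 0) (nat_lit 85339335276) (nat_lit 1216) (nat_lit 6637375781) (nat_lit 1292) (nat_lit 28916307481) (nat_lit 313) (nat_lit 5) (nat_lit 329) (nat_lit 5) (nat_lit 330) (nat_lit 5) (nat_lit 472) (nat_lit 467) (nat_lit 261)) (XT.lf (nat_lit 0) (nat_lit 96517020062) (nat_lit 1216) (nat_lit 24592274899) (nat_lit 1292) (nat_lit 2909322725) (nat_lit 314) (nat_lit 5) (nat_lit 330) (nat_lit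 5) (nat_lit 331) (nat_lit 5) (nat_lit 473) (nat_lit 467) (nat_lit 260)))) (XT.nd (nat_lit 78) (nat_lit 1140) (nat_lit 0) (XT.lf (nat_lit 76) (nat_lit 84350104903) (nat_lit 0) (nat_lit 25711178043) (nat_lit 1292) (nat_lit 17184983072) (nat_lit 315) (nat_lit 5) (nat_lit 314) (nat_lit 5) (nat_lit 331) (nat_lit 5) (nat_lit 474) (nat_lit 467) (nat_lit 259)) (XT.nd (nat_lit 78) (nat_lit 1216) (nat_lit 0) (XT.lf (nat_lit 76) (nat_lit 69258706991) (nat_lit 0) (nat_lit 56660739968) (nat_lit 1292) (nat_lit 4666749210) (nat_lit 316) (nat_lit 5) (nat_lit 315) (nat_lit 5) (nat_lit 332) (nat_lit 5) (nat_lit 475) (nat_lit 467) (nat_lit 258)) (XT.lf (nat_lit 0) (nat_lit 9974136210) (nat_lit 1292) (nat_lit 79929790717) (nat_lit 1368) (nat_lit 44136886310) (nat_lit 299) (nat_lit 5) (nat_lit 316) (nat_lit 5) (nat_lit 317) (nat_lit 5) (nat_lit 476) (nat_lit 467) (nat_lit 257))))) (XT.nd (nat_lit 234) (nat_lit 1824)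 (nat_lit 0) (XT.nd (nat_lit 78) (nat_lit 1444) (nat_lit 0) (XT.lf (nat_lit 0) (nat_lit 26954044519) (nat_lit 1292) (nat_lit 98645998209) (nat_lit 76) (nat_lit 12015627478) (nat_lit 300) (nat_lit 5) (nat_lit 317) (nat_lit 5) (nat_lit 301) (nat_lit 5) (nat_lit 477) (nat_lit 467) (nat_lit 256)) (XT.nd (nat_lit 78) (nat_lit 608) (nat_lit 0) (XT.lf (nat_lit 0) (nat_lit 23686090862) (nat_lit 836) (nat_lit 23062511791) (nat_lit 912) (nat_lit 94561697774) (nat_lit 289) (nat_lit 5) (nat_lit 300) (nat_lit 5) (nat_lit 301) (nat_lit 5) (nat_lit 478) (nat_lit 467) (nat_lit 255)) (XT.lf (nat_lit 0) (nat_lit 8376797075) (nat_lit 608) (nat_lit 61074997575) (nat_lit 684) (nat_lit 75680300364) (nat_lit 281) (nat_lit 5) (nat_lit 289) (nat_lit 5) (nat_lit 290) (nat_lit 5) (nat_lit 479) (nat_lit 467) (nat_lit 254)))) (XT.nd (nat_lit 156) (nat_lit 1216) (nat_lit 0) (XT.nd (nat_lit 78) (nat_lit 608) (nat_lit 0) (XT.lf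 (nat_lit 0) (nat_lit 95194113042) (nat_lit 684) (nat_lit 6666667695) (nat_lit 76) (nat_lit 47227079620) (nat_lit 281) (nat_lit 5) (nat_lit 290) (nat_lit 5) (nat_lit 282) (nat_lit 5) (nat_lit 480) (nat_lit 467) (nat_lit 253)) (XT.lf (nat_lit 0) (nat_lit 124182121884) (nat_lit 684) (nat_lit 21376526805) (nat_lit 76) (nat_lit 7624008073) (nat_lit 273) (nat_lit 5) (nat_lit 282) (nat_lit 5) (nat_lit 274) (nat_lit 5) (nat_lit 481) (nat_lit 467) (nat_lit 252))) (XT.nd (nat_lit 78) (nat_lit 684) (nat_lit 0) (XT.lf (nat_lit 0) (nat_lit 121197617191) (nat_lit 532) (nat_lit 35684009306) (nat_lit 608) (nat_lit 532703659) (nat_lit 266) (nat_lit 5) (nat_lit 273) (nat_lit 5) (nat_lit 274) (nat_lit 5) (nat_lit 482) (nat_lit 467) (nat_lit 251)) (XT.lf (nat_lit 0) (nat_lit 30859797638) (nat_lit 684) (nat_lit 51206936167) (nat_lit 76) (nat_lit 79720162010) (nat_lit 257) (nat_lit 5) (nat_lit 266) (nat_lit 5) (nat_lit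 258) (nat_lit 5) (nat_lit 483) (nat_lit 467) (nat_lit 250))))))) (XT.nd (nat_lit 62010) (nat_lit 0) (nat_lit 456) (XT.nd (nat_lit 61464) (nat_lit 0) (nat_lit 4712) (XT.nd (nat_lit 61230) (nat_lit 0) (nat_lit 5472) (XT.nd (nat_lit 78) (nat_lit 988) (nat_lit 0) (XT.lf (nat_lit 0) (nat_lit 65853608463) (nat_lit 608) (nat_lit 65963170667) (nat_lit 76) (nat_lit 34499871376) (nat_lit 250) (nat_lit 5) (nat_lit 258) (nat_lit 5) (nat_lit 251) (nat_lit 5) (nat_lit 484) (nat_lit 467) (nat_lit 249)) (XT.nd (nat_lit 78) (nat_lit 456) (nat_lit 0) (XT.lf (nat_lit 0) (nat_lit 90435758346) (nat_lit 532) (nat_lit 14391035417) (nat_lit 608) (nat_lit 66179208674) (nat_lit 243) (nat_lit 5) (nat_lit 250) (nat_lit 5) (nat_lit 251) (nat_lit 5) (nat_lit 485) (nat_lit 467) (nat_lit 248)) (XT.lf (nat_lit 0) (nat_lit 80643325426) (nat_lit 456) (nat_lit 67612835160) (nat_lit 532) (nat_lit 27598435736) (nat_lit 237) (nat_lit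 5) (nat_lit 243) (nat_lit 5) (nat_lit 244) (nat_lit 5) (nat_lit 486) (nat_lit 467) (nat_lit 247)))) (XT.nd (nat_lit 78) (nat_lit 0) (nat_lit 76) (XT.lf (nat_lit 0) (nat_lit 30327278411) (nat_lit 1292) (nat_lit 12854612226) (nat_lit 1292) (nat_lit 12854612226) (nat_lit 309) (nat_lit 3) (nat_lit 326) (nat_lit 3) (nat_lit 326) (nat_lit 5) (nat_lit 468) (nat_lit 468) (nat_lit 264)) (XT.nd (nat_lit 78) (nat_lit 0) (nat_lit 0) (XT.lf (nat_lit 0) (nat_lit 62887865324) (nat_lit 1216) (nat_lit 46640845324) (nat_lit 1292) (nat_lit 5324611097) (nat_lit 310) (nat_lit 5) (nat_lit 326) (nat_lit 5) (nat_lit 327) (nat_lit 5) (nat_lit 469) (nat_lit 468) (nat_lit 263)) (XT.lf (nat_lit 76) (nat_lit 49697965263) (nat_lit 0) (nat_lit 17151019937) (nat_lit 1292) (nat_lit 50875184035) (nat_lit 311) (nat_lit 5) (nat_lit 310) (nat_lit 5) (nat_lit 327) (nat_lit 5) (nat_lit 470) (nat_lit 468) (nat_lit 262))))) (XT.nd (nat_lit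 234) (nat_lit 912) (nat_lit 0) (XT.nd (nat_lit 78) (nat_lit 0) (nat_lit 76) (XT.lf (nat_lit 76) (nat_lit 30935283471) (nat_lit 0) (nat_lit 41622130197) (nat_lit 1292) (nat_lit 48134667900) (nat_lit 312) (nat_lit 5) (nat_lit 311) (nat_lit 5) (nat_lit 328) (nat_lit 5) (nat_lit 471) (nat_lit 468) (nat_lit 261)) (XT.nd (nat_lit 78) (nat_lit 0) (nat_lit 76) (XT.lf (nat_lit 76) (nat_lit 11996657674) (nat_lit 0) (nat_lit 68085826975) (nat_lit 1292) (nat_lit 43679968283) (nat_lit 313) (nat_lit 5) (nat_lit 312) (nat_lit 5) (nat_lit 329) (nat_lit 5) (nat_lit 472) (nat_lit 468) (nat_lit 260)) (XT.lf (nat_lit 0) (nat_lit 89620903228) (nat_lit 1216) (nat_lit 6959115610) (nat_lit 1292) (nat_lit 30357211250) (nat_lit 313) (nat_lit 5) (nat_lit 329) (nat_lit 5) (nat_lit 330) (nat_lit 5) (nat_lit 473) (nat_lit 468) (nat_lit 259)))) (XT.nd (nat_lit 156) (nat_lit 1140) (nat_lit 0) (XT.nd (nat_lit 78) (nat_lit 0) (nat_lit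 0) (XT.lf (nat_lit 0) (nat_lit 101356831526) (nat_lit 1216) (nat_lit 25811588731) (nat_lit 1292) (nat_lit 3050708221) (nat_lit 314) (nat_lit 5) (nat_lit 330) (nat_lit 5) (nat_lit 331) (nat_lit 5) (nat_lit 474) (nat_lit 468) (nat_lit 258)) (XT.lf (nat_lit 76) (nat_lit 88577614816) (nat_lit 0) (nat_lit 27000124126) (nat_lit 1292) (nat_lit 18030437405) (nat_lit 315) (nat_lit 5) (nat_lit 314) (nat_lit 5) (nat_lit 331) (nat_lit 5) (nat_lit 475) (nat_lit 468) (nat_lit 257))) (XT.nd (nat_lit 78) (nat_lit 1216) (nat_lit 0) (XT.lf (nat_lit 76) (nat_lit 72731783274) (nat_lit 0) (nat_lit 59496456647) (nat_lit 1292) (nat_lit 4886880281) (nat_lit 316) (nat_lit 5) (nat_lit 315) (nat_lit 5) (nat_lit 332) (nat_lit 5) (nat_lit 476) (nat_lit 468) (nat_lit 256)) (XT.lf (nat_lit 0) (nat_lit 10485249832) (nat_lit 1292) (nat_lit 83915782277) (nat_lit 1368) (nat_lit 46341448514) (nat_lit 299) (nat_lit 5) (nat_lit 316)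 (nat_lit 5) (nat_lit 317) (nat_lit 5) (nat_lit 477) (nat_lit 468) (nat_lit 255)))))) (XT.nd (nat_lit 546) (nat_lit 1064) (nat_lit 0) (XT.nd (nat_lit 234) (nat_lit 1824) (nat_lit 0) (XT.nd (nat_lit 78) (nat_lit 1444) (nat_lit 0) (XT.lf (nat_lit 0) (nat_lit 28313644272) (nat_lit 1292) (nat_lit 103567726121) (nat_lit 76) (nat_lit 12614725378) (nat_lit 300) (nat_lit 5) (nat_lit 317) (nat_lit 5) (nat_lit 301) (nat_lit 5) (nat_lit 478) (nat_lit 468) (nat_lit 254)) (XT.nd (nat_lit 78) (nat_lit 608) (nat_lit 0) (XT.lf (nat_lit 0) (nat_lit 24880664360) (nat_lit 836) (nat_lit 24216798116) (nat_lit 912) (nat_lit 99278009111) (nat_lit 289) (nat_lit 5) (nat_lit 300) (nat_lit 5) (nat_lit 301) (nat_lit 5) (nat_lit 479) (nat_lit 468) (nat_lit 253)) (XT.lf (nat_lit 0) (nat_lit 8805956369) (nat_lit 608) (nat_lit 64129402002) (nat_lit 684) (nat_lit 79453011248) (nat_lit 281) (nat_lit 5) (nat_lit 289) (nat_lit 5)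 (nat_lit 290) (nat_lit 5) (nat_lit 480) (nat_lit 468) (nat_lit 252)))) (XT.nd (nat_lit 156) (nat_lit 1216) (nat_lit 0) (XT.nd (nat_lit 78) (nat_lit 608) (nat_lit 0) (XT.lf (nat_lit 0) (nat_lit 99964264120) (nat_lit 684) (nat_lit 6989852625) (nat_lit 76) (nat_lit 49587822386) (nat_lit 281) (nat_lit 5) (nat_lit 290) (nat_lit 5) (nat_lit 282) (nat_lit 5) (nat_lit 481) (nat_lit 468) (nat_lit 251)) (XT.lf (nat_lit 0) (nat_lit 130401268979) (nat_lit 684) (nat_lit 22435191691) (nat_lit 76) (nat_lit 8005026861) (nat_lit 273) (nat_lit 5) (nat_lit 282) (nat_lit 5) (nat_lit 274) (nat_lit 5) (nat_lit 482) (nat_lit 468) (nat_lit 250))) (XT.nd (nat_lit 78) (nat_lit 684) (nat_lit 0) (XT.lf (nat_lit 0) (nat_lit 127267368229) (nat_lit 532) (nat_lit 37467997329) (nat_lit 608) (nat_lit 549390575) (nat_lit 266) (nat_lit 5) (nat_lit 273) (nat_lit 5) (nat_lit 274) (nat_lit 5) (nat_lit 483) (nat_lit 468) (nat_lit 249))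 (XT.lf (nat_lit 0) (nat_lit 32412174934) (nat_lit 684) (nat_lit 53757227937) (nat_lit 76) (nat_lit 83706555374) (nat_lit 257) (nat_lit 5) (nat_lit 266) (nat_lit 5) (nat_lit 258) (nat_lit 5) (nat_lit 484) (nat_lit 468) (nat_lit 248))))) (XT.nd (nat_lit 61308) (nat_lit 0) (nat_lit 5092) (XT.nd (nat_lit 78) (nat_lit 532) (nat_lit 0) (XT.lf (nat_lit 0) (nat_lit 69155330206) (nat_lit 608) (nat_lit 69251297697) (nat_lit 76) (nat_lit 36225583185) (nat_lit 250) (nat_lit 5) (nat_lit 258) (nat_lit 5) (nat_lit 251) (nat_lit 5) (nat_lit 485) (nat_lit 468) (nat_lit 247)) (XT.nd (nat_lit 61152) (nat_lit 0) (nat_lit 5016) (XT.lf (nat_lit 0) (nat_lit 94967290216) (nat_lit 532) (nat_lit 15109547681) (nat_lit 608) (nat_lit 69479202859) (nat_lit 243) (nat_lit 5) (nat_lit 250) (nat_lit 5) (nat_lit 251) (nat_lit 5) (nat_lit 486) (nat_lit 468) (nat_lit 246)) (XT.lf (nat_lit 0) (nat_lit 31852034830) (nat_lit 1292) (nat_lit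 13493020312) (nat_lit 1292) (nat_lit 13493020312) (nat_lit 309) (nat_lit 3) (nat_lit 326) (nat_lit 3) (nat_lit 326) (nat_lit 5) (nat_lit 469) (nat_lit 469) (nat_lit 262)))) (XT.nd (nat_lit 156) (nat_lit 0) (nat_lit 76) (XT.nd (nat_lit 78) (nat_lit 0) (nat_lit 0) (XT.lf (nat_lit 0) (nat_lit 66048251300) (nat_lit 1216) (nat_lit 48963933156) (nat_lit 1292) (nat_lit 5583322115) (nat_lit 310) (nat_lit 5) (nat_lit 326) (nat_lit 5) (nat_lit 327) (nat_lit 5) (nat_lit 470) (nat_lit 469) (nat_lit 261)) (XT.lf (nat_lit 76) (nat_lit 52191561282) (nat_lit 0) (nat_lit 18015187937) (nat_lit 1292) (nat_lit 53403167625) (nat_lit 311) (nat_lit 5) (nat_lit 310) (nat_lit 5) (nat_lit 327) (nat_lit 5) (nat_lit 471) (nat_lit 469) (nat_lit 260))) (XT.nd (nat_lit 78) (nat_lit 0) (nat_lit 76) (XT.lf (nat_lit 76) (nat_lit 32491005506) (nat_lit 0) (nat_lit 43708889863) (nat_lit 1292) (nat_lit 50526350607) (nat_lit 312) (nat_lit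 5) (nat_lit 311) (nat_lit 5) (nat_lit 328) (nat_lit 5) (nat_lit 472) (nat_lit 469) (nat_lit 259)) (XT.lf (nat_lit 76) (nat_lit 12605671497) (nat_lit 0) (nat_lit 71494889139) (nat_lit 1292) (nat_lit 45849595115) (nat_lit 313) (nat_lit 5) (nat_lit 312) (nat_lit 5) (nat_lit 329) (nat_lit 5) (nat_lit 473) (nat_lit 469) (nat_lit 258))))))))
noncomputable def xc126 : XT := (XT.nd (nat_lit 63180) (nat_lit 0) (nat_lit 1216) (XT.nd (nat_lit 62166) (nat_lit 0) (nat_lit 2356) (XT.nd (nat_lit 468) (nat_lit 3724) (nat_lit 0) (XT.nd (nat_lit 234) (nat_lit 1064) (nat_lit 0) (XT.nd (nat_lit 78) (nat_lit 0) (nat_lit 76) (XT.lf (nat_lit 0) (nat_lit 94115192097) (nat_lit 1216) (nat_lit 7297884126) (nat_lit 1292) (nat_lit 31870616842) (nat_lit 313) (nat_lit 5) (nat_lit 329) (nat_lit 5) (nat_lit 330) (nat_lit 5) (nat_lit 474) (nat_lit 469) (nat_lit 257)) (XT.nd (nat_lit 78) (nat_lit 0) (nat_lit 0) (XT.lf (nat_lit 0)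 (nat_lit 106437335653) (nat_lit 1216) (nat_lit 27092825843) (nat_lit 1292) (nat_lit 3199542371) (nat_lit 314) (nat_lit 5) (nat_lit 330) (nat_lit 5) (nat_lit 331) (nat_lit 5) (nat_lit 475) (nat_lit 469) (nat_lit 256)) (XT.lf (nat_lit 76) (nat_lit 93015570085) (nat_lit 0) (nat_lit 28353202606) (nat_lit 1292) (nat_lit 18919446966) (nat_lit 315) (nat_lit 5) (nat_lit 314) (nat_lit 5) (nat_lit 331) (nat_lit 5) (nat_lit 476) (nat_lit 469) (nat_lit 255)))) (XT.nd (nat_lit 78) (nat_lit 1216) (nat_lit 0) (XT.lf (nat_lit 76) (nat_lit 76377570562) (nat_lit 0) (nat_lit 62473710028) (nat_lit 1292) (nat_lit 5119245709) (nat_lit 316) (nat_lit 5) (nat_lit 315) (nat_lit 5) (nat_lit 332) (nat_lit 5) (nat_lit 477) (nat_lit 469) (nat_lit 254)) (XT.nd (nat_lit 78) (nat_lit 0) (nat_lit 76) (XT.lf (nat_lit 0) (nat_lit 11020765667) (nat_lit 1292) (nat_lit 88102049418) (nat_lit 1368) (nat_lit 48656450997) (nat_lit 299)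 (nat_lit 5) (nat_lit 316) (nat_lit 5) (nat_lit 317) (nat_lit 5) (nat_lit 478) (nat_lit 469) (nat_lit 253)) (XT.lf (nat_lit 0) (nat_lit 29740117893) (nat_lit 1292) (nat_lit 108736523313) (nat_lit 76) (nat_lit 13243934687) (nat_lit 300) (nat_lit 5) (nat_lit 317) (nat_lit 5) (nat_lit 301) (nat_lit 5) (nat_lit 479) (nat_lit 469) (nat_lit 252))))) (XT.nd (nat_lit 234) (nat_lit 2356) (nat_lit 0) (XT.nd (nat_lit 78) (nat_lit 608) (nat_lit 0) (XT.lf (nat_lit 0) (nat_lit 26134011822) (nat_lit 836) (nat_lit 25428690842) (nat_lit 912) (nat_lit 104231230608) (nat_lit 289) (nat_lit 5) (nat_lit 300) (nat_lit 5) (nat_lit 301) (nat_lit 5) (nat_lit 480) (nat_lit 469) (nat_lit 251)) (XT.nd (nat_lit 78) (nat_lit 0) (nat_lit 0) (XT.lf (nat_lit 0) (nat_lit 9255614224) (nat_lit 608) (nat_lit 67336465797) (nat_lit 684) (nat_lit 83415408628) (nat_lit 281) (nat_lit 5) (nat_lit 289) (nat_lit 5) (nat_lit 290) (nat_lit 5)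 (nat_lit 481) (nat_lit 469) (nat_lit 250)) (XT.lf (nat_lit 0) (nat_lit 104971951635) (nat_lit 684) (nat_lit 7330140309) (nat_lit 76) (nat_lit 52066659115) (nat_lit 281) (nat_lit 5) (nat_lit 290) (nat_lit 5) (nat_lit 282) (nat_lit 5) (nat_lit 482) (nat_lit 469) (nat_lit 249)))) (XT.nd (nat_lit 156) (nat_lit 1216) (nat_lit 0) (XT.nd (nat_lit 78) (nat_lit 532) (nat_lit 0) (XT.lf (nat_lit 0) (nat_lit 136930439912) (nat_lit 684) (nat_lit 23547734537) (nat_lit 76) (nat_lit 8405113473) (nat_lit 273) (nat_lit 5) (nat_lit 282) (nat_lit 5) (nat_lit 274) (nat_lit 5) (nat_lit 483) (nat_lit 469) (nat_lit 248)) (XT.lf (nat_lit 0) (nat_lit 133639689183) (nat_lit 532) (nat_lit 39341204504) (nat_lit 608) (nat_lit 567836732) (nat_lit 266) (nat_lit 5) (nat_lit 273) (nat_lit 5) (nat_lit 274) (nat_lit 5) (nat_lit 484) (nat_lit 469) (nat_lit 247))) (XT.nd (nat_lit 78) (nat_lit 532) (nat_lit 0) (XT.lf (nat_lit 0) (nat_lit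 34041298341) (nat_lit 684) (nat_lit 56435969118) (nat_lit 76) (nat_lit 87892232588) (nat_lit 257) (nat_lit 5) (nat_lit 266) (nat_lit 5) (nat_lit 258) (nat_lit 5) (nat_lit 485) (nat_lit 469) (nat_lit 246)) (XT.lf (nat_lit 0) (nat_lit 72621297460) (nat_lit 608) (nat_lit 72704763712) (nat_lit 76) (nat_lit 38037513810) (nat_lit 250) (nat_lit 5) (nat_lit 258) (nat_lit 5) (nat_lit 251) (nat_lit 5) (nat_lit 486) (nat_lit 469) (nat_lit 245)))))) (XT.nd (nat_lit 468) (nat_lit 2128) (nat_lit 0) (XT.nd (nat_lit 234) (nat_lit 0) (nat_lit 152) (XT.nd (nat_lit 78) (nat_lit 0) (nat_lit 76) (XT.lf (nat_lit 0) (nat_lit 33452248815) (nat_lit 1292) (nat_lit 14163750670) (nat_lit 1292) (nat_lit 14163750670) (nat_lit 309) (nat_lit 3) (nat_lit 326) (nat_lit 3) (nat_lit 326) (nat_lit 5) (nat_lit 470) (nat_lit 470) (nat_lit 260)) (XT.nd (nat_lit 78) (nat_lit 0) (nat_lit 0) (XT.lf (nat_lit 0) (nat_lit 69365169724) (nat_lit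 1216) (nat_lit 51404007879) (nat_lit 1292) (nat_lit 5855667780) (nat_lit 310) (nat_lit 5) (nat_lit 326) (nat_lit 5) (nat_lit 327) (nat_lit 5) (nat_lit 471) (nat_lit 470) (nat_lit 259)) (XT.lf (nat_lit 76) (nat_lit 54809028468) (nat_lit 0) (nat_lit 18921949152) (nat_lit 1292) (nat_lit 56059017061) (nat_lit 311) (nat_lit 5) (nat_lit 310) (nat_lit 5) (nat_lit 327) (nat_lit 5) (nat_lit 472) (nat_lit 470) (nat_lit 258)))) (XT.nd (nat_lit 78) (nat_lit 0) (nat_lit 76) (XT.lf (nat_lit 76) (nat_lit 34123680825) (nat_lit 0) (nat_lit 45899461935) (nat_lit 1292) (nat_lit 53039016719) (nat_lit 312) (nat_lit 5) (nat_lit 311) (nat_lit 5) (nat_lit 328) (nat_lit 5) (nat_lit 473) (nat_lit 470) (nat_lit 257)) (XT.nd (nat_lit 78) (nat_lit 0) (nat_lit 76) (XT.lf (nat_lit 76) (nat_lit 13244282453) (nat_lit 0) (nat_lit 75073960865) (nat_lit 1292) (nat_lit 48129039421) (nat_lit 313) (nat_lit 5) (nat_lit 312) (nat_lit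 5) (nat_lit 329) (nat_lit 5) (nat_lit 474) (nat_lit 470) (nat_lit 256)) (XT.lf (nat_lit 0) (nat_lit 98832964135) (nat_lit 1216) (nat_lit 7654445212) (nat_lit 1292) (nat_lit 33460106894) (nat_lit 313) (nat_lit 5) (nat_lit 329) (nat_lit 5) (nat_lit 330) (nat_lit 5) (nat_lit 475) (nat_lit 470) (nat_lit 255))))) (XT.nd (nat_lit 234) (nat_lit 2508) (nat_lit 0) (XT.nd (nat_lit 78) (nat_lit 0) (nat_lit 0) (XT.lf (nat_lit 0) (nat_lit 111770687742) (nat_lit 1216) (nat_lit 28438993372) (nat_lit 1292) (nat_lit 3356162337) (nat_lit 314) (nat_lit 5) (nat_lit 330) (nat_lit 5) (nat_lit 331) (nat_lit 5) (nat_lit 476) (nat_lit 470) (nat_lit 254)) (XT.nd (nat_lit 78) (nat_lit 0) (nat_lit 76) (XT.lf (nat_lit 76) (nat_lit 97674579454) (nat_lit 0) (nat_lit 29773649378) (nat_lit 1292) (nat_lit 19854070282) (nat_lit 315) (nat_lit 5) (nat_lit 314) (nat_lit 5) (nat_lit 331) (nat_lit 5) (nat_lit 477) (nat_lit 470) (nat_lit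 253)) (XT.lf (nat_lit 76) (nat_lit 80204792061) (nat_lit 0) (nat_lit 65599600109) (nat_lit 1292) (nat_lit 5364343065) (nat_lit 316) (nat_lit 5) (nat_lit 315) (nat_lit 5) (nat_lit 332) (nat_lit 5) (nat_lit 478) (nat_lit 470) (nat_lit 252)))) (XT.nd (nat_lit 156) (nat_lit 1368) (nat_lit 0) (XT.nd (nat_lit 78) (nat_lit 0) (nat_lit 76) (XT.lf (nat_lit 0) (nat_lit 11582011065) (nat_lit 1292) (nat_lit 92498515179) (nat_lit 1368) (nat_lit 51087396048) (nat_lit 299) (nat_lit 5) (nat_lit 316) (nat_lit 5) (nat_lit 317) (nat_lit 5) (nat_lit 479) (nat_lit 470) (nat_lit 251)) (XT.lf (nat_lit 0) (nat_lit 31236911912) (nat_lit 1292) (nat_lit 114164651869) (nat_lit 76) (nat_lit 13904746423) (nat_lit 300) (nat_lit 5) (nat_lit 317) (nat_lit 5) (nat_lit 301) (nat_lit 5) (nat_lit 480) (nat_lit 470) (nat_lit 250))) (XT.nd (nat_lit 78) (nat_lit 608) (nat_lit 0) (XT.lf (nat_lit 0) (nat_lit 27449160707) (nat_lit 836)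 (nat_lit 26701080324) (nat_lit 912) (nat_lit 109433106009) (nat_lit 289) (nat_lit 5) (nat_lit 300) (nat_lit 5) (nat_lit 301) (nat_lit 5) (nat_lit 481) (nat_lit 470) (nat_lit 249)) (XT.lf (nat_lit 0) (nat_lit 9726884765) (nat_lit 608) (nat_lit 70703827585) (nat_lit 684) (nat_lit 87576879121) (nat_lit 281) (nat_lit 5) (nat_lit 289) (nat_lit 5) (nat_lit 290) (nat_lit 5) (nat_lit 482) (nat_lit 470) (nat_lit 248))))))) (XT.nd (nat_lit 62322) (nat_lit 0) (nat_lit 532) (XT.nd (nat_lit 61776) (nat_lit 0) (nat_lit 2508) (XT.nd (nat_lit 61542) (nat_lit 0) (nat_lit 3268) (XT.nd (nat_lit 78) (nat_lit 1140) (nat_lit 0) (XT.lf (nat_lit 0) (nat_lit 110229142694) (nat_lit 684) (nat_lit 7688298166) (nat_lit 76) (nat_lit 54669489223) (nat_lit 281) (nat_lit 5) (nat_lit 290) (nat_lit 5) (nat_lit 282) (nat_lit 5) (nat_lit 483) (nat_lit 470) (nat_lit 247)) (XT.nd (nat_lit 78) (nat_lit 532) (nat_lit 0) (XT.lf (nat_lit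 0) (nat_lit 143785222663) (nat_lit 684) (nat_lit 24716761410) (nat_lit 76) (nat_lit 8825219731) (nat_lit 273) (nat_lit 5) (nat_lit 282) (nat_lit 5) (nat_lit 274) (nat_lit 5) (nat_lit 484) (nat_lit 470) (nat_lit 246)) (XT.lf (nat_lit 0) (nat_lit 140329793862) (nat_lit 532) (nat_lit 41308089952) (nat_lit 608) (nat_lit 588044104) (nat_lit 266) (nat_lit 5) (nat_lit 273) (nat_lit 5) (nat_lit 274) (nat_lit 5) (nat_lit 485) (nat_lit 470) (nat_lit 245)))) (XT.nd (nat_lit 78) (nat_lit 0) (nat_lit 76) (XT.lf (nat_lit 0) (nat_lit 35131765785) (nat_lit 1292) (nat_lit 14868382052) (nat_lit 1292) (nat_lit 14868382052) (nat_lit 309) (nat_lit 3) (nat_lit 326) (nat_lit 3) (nat_lit 326) (nat_lit 5) (nat_lit 471) (nat_lit 471) (nat_lit 258)) (XT.nd (nat_lit 78) (nat_lit 0) (nat_lit 0) (XT.lf (nat_lit 0) (nat_lit 72846585453) (nat_lit 1216) (nat_lit 53966841438) (nat_lit 1292) (nat_lit 6142264828) (nat_lit 310) (nat_lit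 5) (nat_lit 326) (nat_lit 5) (nat_lit 327) (nat_lit 5) (nat_lit 472) (nat_lit 471) (nat_lit 257)) (XT.lf (nat_lit 76) (nat_lit 57556635557) (nat_lit 0) (nat_lit 19873490435) (nat_lit 1292) (nat_lit 58848989280) (nat_lit 311) (nat_lit 5) (nat_lit 310) (nat_lit 5) (nat_lit 327) (nat_lit 5) (nat_lit 473) (nat_lit 471) (nat_lit 256))))) (XT.nd (nat_lit 234) (nat_lit 912) (nat_lit 0) (XT.nd (nat_lit 78) (nat_lit 0) (nat_lit 76) (XT.lf (nat_lit 76) (nat_lit 35837234521) (nat_lit 0) (nat_lit 48199085897) (nat_lit 1292) (nat_lit 55678585316) (nat_lit 312) (nat_lit 5) (nat_lit 311) (nat_lit 5) (nat_lit 328) (nat_lit 5) (nat_lit 474) (nat_lit 471) (nat_lit 255)) (XT.nd (nat_lit 78) (nat_lit 0) (nat_lit 76) (XT.lf (nat_lit 76) (nat_lit 13914049757) (nat_lit 0) (nat_lit 78831583870) (nat_lit 1292) (nat_lit 50523667855) (nat_lit 313) (nat_lit 5) (nat_lit 312) (nat_lit 5) (nat_lit 329) (nat_lit 5) (nat_lit 475)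 (nat_lit 471) (nat_lit 254)) (XT.lf (nat_lit 0) (nat_lit 103785507973) (nat_lit 1216) (nat_lit 8029609087) (nat_lit 1292) (nat_lit 35129447124) (nat_lit 313) (nat_lit 5) (nat_lit 329) (nat_lit 5) (nat_lit 330) (nat_lit 5) (nat_lit 476) (nat_lit 471) (nat_lit 253)))) (XT.nd (nat_lit 156) (nat_lit 1140) (nat_lit 0) (XT.nd (nat_lit 78) (nat_lit 0) (nat_lit 0) (XT.lf (nat_lit 0) (nat_lit 117369639640) (nat_lit 1216) (nat_lit 29853257087) (nat_lit 1292) (nat_lit 3520925418) (nat_lit 314) (nat_lit 5) (nat_lit 330) (nat_lit 5) (nat_lit 331) (nat_lit 5) (nat_lit 477) (nat_lit 471) (nat_lit 252)) (XT.lf (nat_lit 76) (nat_lit 102565774064) (nat_lit 0) (nat_lit 31264859414) (nat_lit 1292) (nat_lit 20836479888) (nat_lit 315) (nat_lit 5) (nat_lit 314) (nat_lit 5) (nat_lit 331) (nat_lit 5) (nat_lit 478) (nat_lit 471) (nat_lit 251))) (XT.nd (nat_lit 78) (nat_lit 1216) (nat_lit 0) (XT.lf (nat_lit 76) (nat_lit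 84222598985) (nat_lit 0) (nat_lit 68881579733) (nat_lit 1292) (nat_lit 5622705407) (nat_lit 316) (nat_lit 5) (nat_lit 315) (nat_lit 5) (nat_lit 332) (nat_lit 5) (nat_lit 479) (nat_lit 471) (nat_lit 250)) (XT.lf (nat_lit 0) (nat_lit 12170369772) (nat_lit 1292) (nat_lit 97115607187) (nat_lit 1368) (nat_lit 53640062903) (nat_lit 299) (nat_lit 5) (nat_lit 316) (nat_lit 5) (nat_lit 317) (nat_lit 5) (nat_lit 480) (nat_lit 471) (nat_lit 249)))))) (XT.nd (nat_lit 61932) (nat_lit 0) (nat_lit 2812) (XT.nd (nat_lit 234) (nat_lit 608) (nat_lit 0) (XT.nd (nat_lit 78) (nat_lit 1444) (nat_lit 0) (XT.lf (nat_lit 0) (nat_lit 32807635625) (nat_lit 1292) (nat_lit 119864995474) (nat_lit 76) (nat_lit 14598727510) (nat_lit 300) (nat_lit 5) (nat_lit 317) (nat_lit 5) (nat_lit 301) (nat_lit 5) (nat_lit 481) (nat_lit 471) (nat_lit 248)) (XT.nd (nat_lit 78) (nat_lit 608) (nat_lit 0) (XT.lf (nat_lit 0) (nat_lit 28829281594)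 (nat_lit 836) (nat_lit 28037000498) (nat_lit 912) (nat_lit 114895975704) (nat_lit 289) (nat_lit 5) (nat_lit 300) (nat_lit 5) (nat_lit 301) (nat_lit 5) (nat_lit 482) (nat_lit 471) (nat_lit 247)) (XT.lf (nat_lit 0) (nat_lit 10220929528) (nat_lit 608) (nat_lit 74239507398) (nat_lit 684) (nat_lit 91947287759) (nat_lit 281) (nat_lit 5) (nat_lit 289) (nat_lit 5) (nat_lit 290) (nat_lit 5) (nat_lit 483) (nat_lit 471) (nat_lit 246)))) (XT.nd (nat_lit 61542) (nat_lit 0) (nat_lit 2736) (XT.nd (nat_lit 78) (nat_lit 608) (nat_lit 0) (XT.lf (nat_lit 0) (nat_lit 115748394366) (nat_lit 684) (nat_lit 8065140142) (nat_lit 76) (nat_lit 57402507586) (nat_lit 281) (nat_lit 5) (nat_lit 290) (nat_lit 5) (nat_lit 282) (nat_lit 5) (nat_lit 484) (nat_lit 471) (nat_lit 245)) (XT.lf (nat_lit 0) (nat_lit 150981976546) (nat_lit 684) (nat_lit 25945016847) (nat_lit 76) (nat_lit 9266345194) (nat_lit 273) (nat_lit 5) (nat_lit 282)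 (nat_lit 5) (nat_lit 274) (nat_lit 5) (nat_lit 485) (nat_lit 471) (nat_lit 244))) (XT.nd (nat_lit 78) (nat_lit 0) (nat_lit 76) (XT.lf (nat_lit 0) (nat_lit 36894616686) (nat_lit 1292) (nat_lit 15608575620) (nat_lit 1292) (nat_lit 15608575620) (nat_lit 309) (nat_lit 3) (nat_lit 326) (nat_lit 3) (nat_lit 326) (nat_lit 5) (nat_lit 472) (nat_lit 472) (nat_lit 256)) (XT.lf (nat_lit 0) (nat_lit 76500848732) (nat_lit 1216) (nat_lit 56658501574) (nat_lit 1292) (nat_lit 6443766875) (nat_lit 310) (nat_lit 5) (nat_lit 326) (nat_lit 5) (nat_lit 327) (nat_lit 5) (nat_lit 473) (nat_lit 472) (nat_lit 255))))) (XT.nd (nat_lit 234) (nat_lit 0) (nat_lit 228) (XT.nd (nat_lit 78) (nat_lit 0) (nat_lit 76) (XT.lf (nat_lit 76) (nat_lit 60440957735) (nat_lit 0) (nat_lit 20872102667) (nat_lit 1292) (nat_lit 61779666740) (nat_lit 311) (nat_lit 5) (nat_lit 310) (nat_lit 5) (nat_lit 327) (nat_lit 5) (nat_lit 474) (nat_lit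 472) (nat_lit 254)) (XT.nd (nat_lit 78) (nat_lit 0) (nat_lit 76) (XT.lf (nat_lit 76) (nat_lit 37635780741) (nat_lit 0) (nat_lit 50613258663) (nat_lit 1292) (nat_lit 58451283526) (nat_lit 312) (nat_lit 5) (nat_lit 311) (nat_lit 5) (nat_lit 328) (nat_lit 5) (nat_lit 475) (nat_lit 472) (nat_lit 253)) (XT.lf (nat_lit 76) (nat_lit 14616603202) (nat_lit 0) (nat_lit 82776723119) (nat_lit 1292) (nat_lit 53039126952) (nat_lit 313) (nat_lit 5) (nat_lit 312) (nat_lit 5) (nat_lit 329) (nat_lit 5) (nat_lit 476) (nat_lit 472) (nat_lit 252)))) (XT.nd (nat_lit 156) (nat_lit 0) (nat_lit 76) (XT.nd (nat_lit 78) (nat_lit 0) (nat_lit 76) (XT.lf (nat_lit 0) (nat_lit 108984666031) (nat_lit 1216) (nat_lit 8424233863) (nat_lit 1292) (nat_lit 36882595113) (nat_lit 313) (nat_lit 5) (nat_lit 329) (nat_lit 5) (nat_lit 330) (nat_lit 5) (nat_lit 477) (nat_lit 472) (nat_lit 251)) (XT.lf (nat_lit 0) (nat_lit 123247570612) (nat_lit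 1216) (nat_lit 31338948555) (nat_lit 1292) (nat_lit 3694209751) (nat_lit 314) (nat_lit 5) (nat_lit 330) (nat_lit 5) (nat_lit 331) (nat_lit 5) (nat_lit 478) (nat_lit 472) (nat_lit 250))) (XT.nd (nat_lit 78) (nat_lit 0) (nat_lit 76) (XT.lf (nat_lit 76) (nat_lit 107700834320) (nat_lit 0) (nat_lit 32830394962) (nat_lit 1292) (nat_lit 21868967005) (nat_lit 315) (nat_lit 5) (nat_lit 314) (nat_lit 5) (nat_lit 331) (nat_lit 5) (nat_lit 479) (nat_lit 472) (nat_lit 249)) (XT.lf (nat_lit 76) (nat_lit 88440592716) (nat_lit 0) (nat_lit 72327472433) (nat_lit 1292) (nat_lit 5894902072) (nat_lit 316) (nat_lit 5) (nat_lit 315) (nat_lit 5) (nat_lit 332) (nat_lit 5) (nat_lit 480) (nat_lit 472) (nat_lit 248))))))))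
noncomputable def xc127 : XT := (XT.nd (nat_lit 186966) (nat_lit 0) (nat_lit 2128) (XT.nd (nat_lit 62556) (nat_lit 0) (nat_lit 608) (XT.nd (nat_lit 62010) (nat_lit 0) (nat_lit 2204) (XT.nd (nat_lit 234) (nat_lit 608) (nat_lit 0) (XT.nd (nat_lit 78) (nat_lit 760) (nat_lit 0) (XT.lf (nat_lit 0) (nat_lit 12787285679) (nat_lit 1292) (nat_lit 101964282104) (nat_lit 1368) (nat_lit 56320521426) (nat_lit 299) (nat_lit 5) (nat_lit 316) (nat_lit 5) (nat_lit 317) (nat_lit 5) (nat_lit 481) (nat_lit 472) (nat_lit 247)) (XT.nd (nat_lit 78) (nat_lit 836) (nat_lit 0) (XT.lf (nat_lit 0) (nat_lit 34456070121) (nat_lit 1292) (nat_lit 125851089703) (nat_lit 76) (nat_lit 15327524444) (nat_lit 300) (nat_lit 5) (nat_lit 317) (nat_lit 5) (nat_lit 301) (nat_lit 5) (nat_lit 482) (nat_lit 472) (nat_lit 246)) (XT.lf (nat_lit 0) (nat_lit 30277696107) (nat_lit 836) (nat_lit 29439636154) (nat_lit 912) (nat_lit 120632805686)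 (nat_lit 289) (nat_lit 5) (nat_lit 300) (nat_lit 5) (nat_lit 301) (nat_lit 5) (nat_lit 483) (nat_lit 472) (nat_lit 245)))) (XT.nd (nat_lit 61620) (nat_lit 0) (nat_lit 2128) (XT.lf (nat_lit 0) (nat_lit 10738960608) (nat_lit 608) (nat_lit 77951925793) (nat_lit 684) (nat_lit 96537001064) (nat_lit 281) (nat_lit 5) (nat_lit 289) (nat_lit 5) (nat_lit 290) (nat_lit 5) (nat_lit 484) (nat_lit 472) (nat_lit 244)) (XT.nd (nat_lit 78) (nat_lit 0) (nat_lit 76) (XT.lf (nat_lit 0) (nat_lit 38745027894) (nat_lit 1292) (nat_lit 16386078746) (nat_lit 1292) (nat_lit 16386078746) (nat_lit 309) (nat_lit 3) (nat_lit 326) (nat_lit 3) (nat_lit 326) (nat_lit 5) (nat_lit 473) (nat_lit 473) (nat_lit 254)) (XT.lf (nat_lit 0) (nat_lit 80336715664) (nat_lit 1216) (nat_lit 59485365939) (nat_lit 1292) (nat_lit 6760865701) (nat_lit 310) (nat_lit 5) (nat_lit 326) (nat_lit 5) (nat_lit 327) (nat_lit 5) (nat_lit 474) (nat_lit 473)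 (nat_lit 253))))) (XT.nd (nat_lit 234) (nat_lit 0) (nat_lit 228) (XT.nd (nat_lit 78) (nat_lit 0) (nat_lit 76) (XT.lf (nat_lit 76) (nat_lit 63468892606) (nat_lit 0) (nat_lit 21920186450) (nat_lit 1292) (nat_lit 64857972522) (nat_lit 311) (nat_lit 5) (nat_lit 310) (nat_lit 5) (nat_lit 327) (nat_lit 5) (nat_lit 475) (nat_lit 473) (nat_lit 252)) (XT.nd (nat_lit 78) (nat_lit 0) (nat_lit 76) (XT.lf (nat_lit 76) (nat_lit 39523632812) (nat_lit 0) (nat_lit 53147747875) (nat_lit 1292) (nat_lit 61363660804) (nat_lit 312) (nat_lit 5) (nat_lit 311) (nat_lit 5) (nat_lit 328) (nat_lit 5) (nat_lit 476) (nat_lit 473) (nat_lit 251)) (XT.lf (nat_lit 76) (nat_lit 15353647383) (nat_lit 0) (nat_lit 86918788350) (nat_lit 1292) (nat_lit 55681356046) (nat_lit 313) (nat_lit 5) (nat_lit 312) (nat_lit 5) (nat_lit 329) (nat_lit 5) (nat_lit 477) (nat_lit 473) (nat_lit 250)))) (XT.nd (nat_lit 156) (nat_lit 0) (nat_lit 76) (XT.nd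 (nat_lit 78) (nat_lit 0) (nat_lit 76) (XT.lf (nat_lit 0) (nat_lit 114442863195) (nat_lit 1216) (nat_lit 8839227254) (nat_lit 1292) (nat_lit 38723709569) (nat_lit 313) (nat_lit 5) (nat_lit 329) (nat_lit 5) (nat_lit 330) (nat_lit 5) (nat_lit 478) (nat_lit 473) (nat_lit 249)) (XT.lf (nat_lit 0) (nat_lit 129418519656) (nat_lit 1216) (nat_lit 32899572730) (nat_lit 1292) (nat_lit 3876415079) (nat_lit 314) (nat_lit 5) (nat_lit 330) (nat_lit 5) (nat_lit 331) (nat_lit 5) (nat_lit 479) (nat_lit 473) (nat_lit 248))) (XT.nd (nat_lit 78) (nat_lit 0) (nat_lit 76) (XT.lf (nat_lit 76) (nat_lit 113092018034) (nat_lit 0) (nat_lit 34473994146) (nat_lit 1292) (nat_lit 22953946532) (nat_lit 315) (nat_lit 5) (nat_lit 314) (nat_lit 5) (nat_lit 331) (nat_lit 5) (nat_lit 480) (nat_lit 473) (nat_lit 247)) (XT.lf (nat_lit 76) (nat_lit 92868848005) (nat_lit 0) (nat_lit 75945491146) (nat_lit 1292) (nat_lit 6181539598) (nat_lit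 316) (nat_lit 5) (nat_lit 315) (nat_lit 5) (nat_lit 332) (nat_lit 5) (nat_lit 481) (nat_lit 473) (nat_lit 246)))))) (XT.nd (nat_lit 62088) (nat_lit 0) (nat_lit 760) (XT.nd (nat_lit 61854) (nat_lit 0) (nat_lit 1520) (XT.nd (nat_lit 78) (nat_lit 760) (nat_lit 0) (XT.lf (nat_lit 0) (nat_lit 13434266669) (nat_lit 1292) (nat_lit 107056051363) (nat_lit 1368) (nat_lit 59135146478) (nat_lit 299) (nat_lit 5) (nat_lit 316) (nat_lit 5) (nat_lit 317) (nat_lit 5) (nat_lit 482) (nat_lit 473) (nat_lit 245)) (XT.nd (nat_lit 78) (nat_lit 836) (nat_lit 0) (XT.lf (nat_lit 0) (nat_lit 36186177676) (nat_lit 1292) (nat_lit 132137153898) (nat_lit 76) (nat_lit 16092867159) (nat_lit 300) (nat_lit 5) (nat_lit 317) (nat_lit 5) (nat_lit 301) (nat_lit 5) (nat_lit 483) (nat_lit 473) (nat_lit 244)) (XT.lf (nat_lit 0) (nat_lit 31797885159) (nat_lit 836) (nat_lit 30912330553) (nat_lit 912) (nat_lit 126657218031) (nat_lit 289)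 (nat_lit 5) (nat_lit 300) (nat_lit 5) (nat_lit 301) (nat_lit 5) (nat_lit 484) (nat_lit 473) (nat_lit 243)))) (XT.nd (nat_lit 78) (nat_lit 0) (nat_lit 76) (XT.lf (nat_lit 0) (nat_lit 40687431555) (nat_lit 1292) (nat_lit 17202729028) (nat_lit 1292) (nat_lit 17202729028) (nat_lit 309) (nat_lit 3) (nat_lit 326) (nat_lit 3) (nat_lit 326) (nat_lit 5) (nat_lit 474) (nat_lit 474) (nat_lit 252)) (XT.nd (nat_lit 78) (nat_lit 0) (nat_lit 0) (XT.lf (nat_lit 0) (nat_lit 84363369584) (nat_lit 1216) (nat_lit 62454136991) (nat_lit 1292) (nat_lit 7094292643) (nat_lit 310) (nat_lit 5) (nat_lit 326) (nat_lit 5) (nat_lit 327) (nat_lit 5) (nat_lit 475) (nat_lit 474) (nat_lit 251)) (XT.lf (nat_lit 76) (nat_lit 66647676904) (nat_lit 0) (nat_lit 23020258039) (nat_lit 1292) (nat_lit 68091186291) (nat_lit 311) (nat_lit 5) (nat_lit 310) (nat_lit 5) (nat_lit 327) (nat_lit 5) (nat_lit 476) (nat_lit 474) (nat_lit 250))))) (XT.nd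 (nat_lit 234) (nat_lit 912) (nat_lit 0) (XT.nd (nat_lit 78) (nat_lit 0) (nat_lit 76) (XT.lf (nat_lit 76) (nat_lit 41505313802) (nat_lit 0) (nat_lit 55808605816) (nat_lit 1292) (nat_lit 64422604027) (nat_lit 312) (nat_lit 5) (nat_lit 311) (nat_lit 5) (nat_lit 328) (nat_lit 5) (nat_lit 477) (nat_lit 474) (nat_lit 249)) (XT.nd (nat_lit 78) (nat_lit 0) (nat_lit 76) (XT.lf (nat_lit 76) (nat_lit 16126966051) (nat_lit 0) (nat_lit 91267656634) (nat_lit 1292) (nat_lit 58456600943) (nat_lit 313) (nat_lit 5) (nat_lit 312) (nat_lit 5) (nat_lit 329) (nat_lit 5) (nat_lit 478) (nat_lit 474) (nat_lit 248)) (XT.lf (nat_lit 0) (nat_lit 120173136842) (nat_lit 1216) (nat_lit 9275548433) (nat_lit 1292) (nat_lit 40657160082) (nat_lit 313) (nat_lit 5) (nat_lit 329) (nat_lit 5) (nat_lit 330) (nat_lit 5) (nat_lit 479) (nat_lit 474) (nat_lit 247)))) (XT.nd (nat_lit 156) (nat_lit 1140) (nat_lit 0) (XT.nd (nat_lit 78) (nat_lit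 0) (nat_lit 0) (XT.lf (nat_lit 0) (nat_lit 135897219346) (nat_lit 1216) (nat_lit 34538815990) (nat_lit 1292) (nat_lit 4067963580) (nat_lit 314) (nat_lit 5) (nat_lit 330) (nat_lit 5) (nat_lit 331) (nat_lit 5) (nat_lit 480) (nat_lit 474) (nat_lit 246)) (XT.lf (nat_lit 76) (nat_lit 118752189909) (nat_lit 0) (nat_lit 36199579962) (nat_lit 1292) (nat_lit 24093962386) (nat_lit 315) (nat_lit 5) (nat_lit 314) (nat_lit 5) (nat_lit 331) (nat_lit 5) (nat_lit 481) (nat_lit 474) (nat_lit 245))) (XT.nd (nat_lit 78) (nat_lit 1216) (nat_lit 0) (XT.lf (nat_lit 76) (nat_lit 97517937257) (nat_lit 0) (nat_lit 79744257850) (nat_lit 1292) (nat_lit 6483262766) (nat_lit 316) (nat_lit 5) (nat_lit 315) (nat_lit 5) (nat_lit 332) (nat_lit 5) (nat_lit 482) (nat_lit 474) (nat_lit 244)) (XT.lf (nat_lit 0) (nat_lit 14112888579) (nat_lit 1292) (nat_lit 112403008265) (nat_lit 1368) (nat_lit 62090633037) (nat_lit 299) (nat_lit 5)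 (nat_lit 316) (nat_lit 5) (nat_lit 317) (nat_lit 5) (nat_lit 483) (nat_lit 474) (nat_lit 243))))))) (XT.nd (nat_lit 62868) (nat_lit 0) (nat_lit 0) (XT.nd (nat_lit 468) (nat_lit 0) (nat_lit 0) (XT.nd (nat_lit 234) (nat_lit 0) (nat_lit 152) (XT.nd (nat_lit 78) (nat_lit 0) (nat_lit 76) (XT.lf (nat_lit 0) (nat_lit 42726476390) (nat_lit 1292) (nat_lit 18060458536) (nat_lit 1292) (nat_lit 18060458536) (nat_lit 309) (nat_lit 3) (nat_lit 326) (nat_lit 3) (nat_lit 326) (nat_lit 5) (nat_lit 475) (nat_lit 475) (nat_lit 250)) (XT.nd (nat_lit 78) (nat_lit 0) (nat_lit 0) (XT.lf (nat_lit 0) (nat_lit 88590443403) (nat_lit 1216) (nat_lit 65571857677) (nat_lit 1292) (nat_lit 7444820116) (nat_lit 310) (nat_lit 5) (nat_lit 326) (nat_lit 5) (nat_lit 327) (nat_lit 5) (nat_lit 476) (nat_lit 475) (nat_lit 249)) (XT.lf (nat_lit 76) (nat_lit 69984903986) (nat_lit 0) (nat_lit 24174955536) (nat_lit 1292) (nat_lit 71486961155)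 (nat_lit 311) (nat_lit 5) (nat_lit 310) (nat_lit 5) (nat_lit 327) (nat_lit 5) (nat_lit 477) (nat_lit 475) (nat_lit 248)))) (XT.nd (nat_lit 78) (nat_lit 0) (nat_lit 76) (XT.lf (nat_lit 76) (nat_lit 43585567565) (nat_lit 0) (nat_lit 58602183995) (nat_lit 1292) (nat_lit 67635353442) (nat_lit 312) (nat_lit 5) (nat_lit 311) (nat_lit 5) (nat_lit 328) (nat_lit 5) (nat_lit 478) (nat_lit 475) (nat_lit 247)) (XT.nd (nat_lit 78) (nat_lit 0) (nat_lit 76) (XT.lf (nat_lit 76) (nat_lit 16938426644) (nat_lit 0) (nat_lit 95833696034) (nat_lit 1292) (nat_lit 61371428355) (nat_lit 313) (nat_lit 5) (nat_lit 312) (nat_lit 5) (nat_lit 329) (nat_lit 5) (nat_lit 479) (nat_lit 475) (nat_lit 246)) (XT.lf (nat_lit 0) (nat_lit 126189168277) (nat_lit 1216) (nat_lit 9734210041) (nat_lit 1292) (nat_lit 42687537392) (nat_lit 313) (nat_lit 5) (nat_lit 329) (nat_lit 5) (nat_lit 330) (nat_lit 5) (nat_lit 480) (nat_lit 475) (nat_lit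 245))))) (XT.nd (nat_lit 62088) (nat_lit 380) (nat_lit 0) (XT.nd (nat_lit 78) (nat_lit 0) (nat_lit 0) (XT.lf (nat_lit 0) (nat_lit 142699131295) (nat_lit 1216) (nat_lit 36260554634) (nat_lit 1292) (nat_lit 4269300758) (nat_lit 314) (nat_lit 5) (nat_lit 330) (nat_lit 5) (nat_lit 331) (nat_lit 5) (nat_lit 481) (nat_lit 475) (nat_lit 244)) (XT.nd (nat_lit 78) (nat_lit 0) (nat_lit 76) (XT.lf (nat_lit 76) (nat_lit 124694852442) (nat_lit 0) (nat_lit 38011269717) (nat_lit 1292) (nat_lit 25291693184) (nat_lit 315) (nat_lit 5) (nat_lit 314) (nat_lit 5) (nat_lit 331) (nat_lit 5) (nat_lit 482) (nat_lit 475) (nat_lit 243)) (XT.lf (nat_lit 76) (nat_lit 102398955980) (nat_lit 0) (nat_lit 83732824163) (nat_lit 1292) (nat_lit 6800755779) (nat_lit 316) (nat_lit 5) (nat_lit 315) (nat_lit 5) (nat_lit 332) (nat_lit 5) (nat_lit 483) (nat_lit 475) (nat_lit 242)))) (XT.nd (nat_lit 156) (nat_lit 0) (nat_lit 76) (XT.nd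 (nat_lit 78) (nat_lit 0) (nat_lit 76) (XT.lf (nat_lit 0) (nat_lit 44867038991) (nat_lit 1292) (nat_lit 18961298294) (nat_lit 1292) (nat_lit 18961298294) (nat_lit 309) (nat_lit 3) (nat_lit 326) (nat_lit 3) (nat_lit 326) (nat_lit 5) (nat_lit 476) (nat_lit 476) (nat_lit 248)) (XT.lf (nat_lit 0) (nat_lit 93028042978) (nat_lit 1216) (nat_lit 68845927963) (nat_lit 1292) (nat_lit 7813263245) (nat_lit 310) (nat_lit 5) (nat_lit 326) (nat_lit 5) (nat_lit 327) (nat_lit 5) (nat_lit 477) (nat_lit 476) (nat_lit 247))) (XT.nd (nat_lit 78) (nat_lit 0) (nat_lit 76) (XT.lf (nat_lit 76) (nat_lit 73488542143) (nat_lit 0) (nat_lit 25387045350) (nat_lit 1292) (nat_lit 75053341457) (nat_lit 311) (nat_lit 5) (nat_lit 310) (nat_lit 5) (nat_lit 327) (nat_lit 5) (nat_lit 478) (nat_lit 476) (nat_lit 246)) (XT.lf (nat_lit 76) (nat_lit 45769370271) (nat_lit 0) (nat_lit 61535148423) (nat_lit 1292) (nat_lit 71009519494) (nat_lit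 312) (nat_lit 5) (nat_lit 311) (nat_lit 5) (nat_lit 328) (nat_lit 5) (nat_lit 479) (nat_lit 476) (nat_lit 245)))))) (XT.nd (nat_lit 62556) (nat_lit 0) (nat_lit 0) (XT.nd (nat_lit 62244) (nat_lit 228) (nat_lit 0) (XT.nd (nat_lit 78) (nat_lit 0) (nat_lit 76) (XT.lf (nat_lit 76) (nat_lit 17789984974) (nat_lit 0) (nat_lit 100627790421) (nat_lit 1292) (nat_lit 64432741147) (nat_lit 313) (nat_lit 5) (nat_lit 312) (nat_lit 5) (nat_lit 329) (nat_lit 5) (nat_lit 480) (nat_lit 476) (nat_lit 244)) (XT.nd (nat_lit 78) (nat_lit 0) (nat_lit 76) (XT.lf (nat_lit 0) (nat_lit 132505315663) (nat_lit 1216) (nat_lit 10216280350) (nat_lit 1292) (nat_lit 44819664199) (nat_lit 313) (nat_lit 5) (nat_lit 329) (nat_lit 5) (nat_lit 330) (nat_lit 5) (nat_lit 481) (nat_lit 476) (nat_lit 243)) (XT.lf (nat_lit 0) (nat_lit 149840483308) (nat_lit 1216) (nat_lit 38068863857) (nat_lit 1292) (nat_lit 4480896408) (nat_lit 314) (nat_lit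 5) (nat_lit 330) (nat_lit 5) (nat_lit 331) (nat_lit 5) (nat_lit 482) (nat_lit 476) (nat_lit 242)))) (XT.nd (nat_lit 156) (nat_lit 0) (nat_lit 76) (XT.nd (nat_lit 78) (nat_lit 0) (nat_lit 76) (XT.lf (nat_lit 0) (nat_lit 47114235641) (nat_lit 1292) (nat_lit 19907383010) (nat_lit 1292) (nat_lit 19907383010) (nat_lit 309) (nat_lit 3) (nat_lit 326) (nat_lit 3) (nat_lit 326) (nat_lit 5) (nat_lit 477) (nat_lit 477) (nat_lit 246)) (XT.lf (nat_lit 0) (nat_lit 97686771572) (nat_lit 1216) (nat_lit 72284122232) (nat_lit 1292) (nat_lit 8200481621) (nat_lit 310) (nat_lit 5) (nat_lit 326) (nat_lit 5) (nat_lit 327) (nat_lit 5) (nat_lit 478) (nat_lit 477) (nat_lit 245))) (XT.nd (nat_lit 78) (nat_lit 0) (nat_lit 76) (XT.lf (nat_lit 76) (nat_lit 77166953793) (nat_lit 0) (nat_lit 26659428943) (nat_lit 1292) (nat_lit 78798781540) (nat_lit 311) (nat_lit 5) (nat_lit 310) (nat_lit 5) (nat_lit 327) (nat_lit 5) (nat_lit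 479) (nat_lit 477) (nat_lit 244)) (XT.lf (nat_lit 76) (nat_lit 48061942485) (nat_lit 0) (nat_lit 64614495620) (nat_lit 1292) (nat_lit 74553100575) (nat_lit 312) (nat_lit 5) (nat_lit 311) (nat_lit 5) (nat_lit 328) (nat_lit 5) (nat_lit 480) (nat_lit 477) (nat_lit 243))))) (XT.nd (nat_lit 62322) (nat_lit 0) (nat_lit 76) (XT.nd (nat_lit 78) (nat_lit 228) (nat_lit 0) (XT.lf (nat_lit 76) (nat_lit 18683690117) (nat_lit 0) (nat_lit 105661365507) (nat_lit 1292) (nat_lit 67647794417) (nat_lit 313) (nat_lit 5) (nat_lit 312) (nat_lit 5) (nat_lit 329) (nat_lit 5) (nat_lit 481) (nat_lit 477) (nat_lit 242)) (XT.nd (nat_lit 62166) (nat_lit 304) (nat_lit 0) (XT.lf (nat_lit 0) (nat_lit 139136648541) (nat_lit 1216) (nat_lit 10722885576) (nat_lit 1292) (nat_lit 47058606535) (nat_lit 313) (nat_lit 5) (nat_lit 329) (nat_lit 5) (nat_lit 330) (nat_lit 5) (nat_lit 482) (nat_lit 477) (nat_lit 241)) (XT.lf (nat_lit 0) (nat_lit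 49473434680) (nat_lit 1292) (nat_lit 20900956062) (nat_lit 1292) (nat_lit 20900956062) (nat_lit 309) (nat_lit 3) (nat_lit 326) (nat_lit 3) (nat_lit 326) (nat_lit 5) (nat_lit 478) (nat_lit 478) (nat_lit 244)))) (XT.nd (nat_lit 156) (nat_lit 0) (nat_lit 0) (XT.nd (nat_lit 78) (nat_lit 0) (nat_lit 0) (XT.lf (nat_lit 0) (nat_lit 102577755452) (nat_lit 1216) (nat_lit 75894607592) (nat_lit 1292) (nat_lit 8607381179) (nat_lit 310) (nat_lit 5) (nat_lit 326) (nat_lit 5) (nat_lit 327) (nat_lit 5) (nat_lit 479) (nat_lit 478) (nat_lit 243)) (XT.lf (nat_lit 76) (nat_lit 81028915580) (nat_lit 0) (nat_lit 27995149892) (nat_lit 1292) (nat_lit 82732165525) (nat_lit 311) (nat_lit 5) (nat_lit 310) (nat_lit 5) (nat_lit 327) (nat_lit 5) (nat_lit 480) (nat_lit 478) (nat_lit 242))) (XT.nd (nat_lit 62400) (nat_lit 76) (nat_lit 0) (XT.lf (nat_lit 76) (nat_lit 50468761785) (nat_lit 0) (nat_lit 67847569404) (nat_lit 1292)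 (nat_lit 78274501732) (nat_lit 312) (nat_lit 5) (nat_lit 311) (nat_lit 5) (nat_lit 328) (nat_lit 5) (nat_lit 481) (nat_lit 478) (nat_lit 241)) (XT.lf (nat_lit 0) (nat_lit 107712670709) (nat_lit 1216) (nat_lit 79685963139) (nat_lit 1292) (nat_lit 9034916204) (nat_lit 310) (nat_lit 5) (nat_lit 326) (nat_lit 5) (nat_lit 327) (nat_lit 5) (nat_lit 480) (nat_lit 479) (nat_lit 241))))))))

set_option maxRecDepth 10000000 in
noncomputable def Tp : PT := (PT.nd (nat_lit 12823044) (PT.nd (nat_lit 11949522) (PT.nd (nat_lit 10887864) (PT.nd (nat_lit 9701406) (PT.nd (nat_lit 8827338) pc0 pc1) (PT.nd (nat_lit 686868) pc2 pc3)) (PT.nd (nat_lit 686478) (PT.nd (nat_lit 374556) pc4 pc5) (PT.nd (nat_lit 187746) pc6 pc7))) (PT.nd (nat_lit 560898) (PT.nd (nat_lit 311766) (PT.nd (nat_lit 186732) pc8 pc9) (PT.nd (nat_lit 124722) pc10 pc11)) (PT.nd (nat_lit 126438) (PT.nd (nat_lit 63258) pc12 pc13) (PT.nd (nat_lit 123396)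 pc14 pc15)))) (PT.nd (nat_lit 501228) (PT.nd (nat_lit 249834) (PT.nd (nat_lit 125190) (PT.nd (nat_lit 62634) pc16 pc17) (PT.nd (nat_lit 62400) pc18 pc19)) (PT.nd (nat_lit 123786) (PT.nd (nat_lit 61932) pc20 pc21) (PT.nd (nat_lit 62634) pc22 pc23))) (PT.nd (nat_lit 620178) (PT.nd (nat_lit 250068) (PT.nd (nat_lit 122148) pc24 pc25) (PT.nd (nat_lit 183144) pc26 pc27)) (PT.nd (nat_lit 380952) (PT.nd (nat_lit 187278) pc28 pc29) (PT.nd (nat_lit 242424) pc30 pc31)))))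

set_option maxRecDepth 10000000 in
noncomputable def Tx : XT := (XT.nd (nat_lit 21968622) (nat_lit 0) (nat_lit 228) XT.nil (XT.nd (nat_lit 7995858) (nat_lit 0) (nat_lit 0) (XT.nd (nat_lit 3620214) (nat_lit 0) (nat_lit 2964) (XT.nd (nat_lit 2494362) (nat_lit 0) (nat_lit 1444) (XT.nd (nat_lit 1745406) (nat_lit 0) (nat_lit 608) (XT.nd (nat_lit 1185912) (nat_lit 0) (nat_lit 304) (XT.nd (nat_lit 811434) (nat_lit 0) (nat_lit 152) (XT.nd (nat_lit 561366) (nat_lit 0) (nat_lit 76) (XT.nd (nat_lit 374244) (nat_lit 0) (nat_lit 76) xc0 xc1) (XT.nd (nat_lit 125346) (nat_lit 0) (nat_lit 0) xc2 xc3)) (XT.nd (nat_lit 187902) (nat_lit 0) (nat_lit 0) (XT.nd (nat_lit 124020) (nat_lit 0) (nat_lit 0) xc4 xc5) (XT.nd (nat_lit 123162) (nat_lit 0) (nat_lit 152) xc6 xc7))) (XT.nd (nat_lit 310518) (nat_lit 0) (nat_lit 228) (XT.nd (nat_lit 126282) (nat_lit 0) (nat_lit 76) (XT.nd (nat_lit 63180) (nat_lit 0) (nat_lit 0) xc8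 xc9) (XT.nd (nat_lit 121602) (nat_lit 0) (nat_lit 0) xc10 xc11)) (XT.nd (nat_lit 124800) (nat_lit 0) (nat_lit 0) (XT.nd (nat_lit 62478) (nat_lit 0) (nat_lit 0) xc12 xc13) (XT.nd (nat_lit 62166) (nat_lit 0) (nat_lit 76) xc14 xc15)))) (XT.nd (nat_lit 377130) (nat_lit 0) (nat_lit 456) (XT.nd (nat_lit 189150) (nat_lit 0) (nat_lit 228) (XT.nd (nat_lit 65910) (nat_lit 0) (nat_lit 152) (XT.nd (nat_lit 4056) (nat_lit 152) (nat_lit 0) xc16 xc17) (XT.nd (nat_lit 61698) (nat_lit 0) (nat_lit 0) xc18 xc19)) (XT.nd (nat_lit 122694) (nat_lit 0) (nat_lit 152) (XT.nd (nat_lit 61386) (nat_lit 0) (nat_lit 76) xc20 xc21) (XT.nd (nat_lit 4134) (nat_lit 456) (nat_lit 0) xc22 xc23))) (XT.nd (nat_lit 186576) (nat_lit 0) (nat_lit 152) (XT.nd (nat_lit 121758) (nat_lit 0) (nat_lit 76) (XT.nd (nat_lit 60918) (nat_lit 0) (nat_lit 0) xc24 xc25) (XT.nd (nat_lit 4134) (nat_lit 912) (nat_lit 0) xc26 xc27)) (XT.nd (nat_lit 64662)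 (nat_lit 0) (nat_lit 76) (XT.nd (nat_lit 60528) (nat_lit 0) (nat_lit 532) xc28 xc29) (XT.nd (nat_lit 60372) (nat_lit 0) (nat_lit 0) xc30 xc31))))) (XT.nd (nat_lit 563706) (nat_lit 0) (nat_lit 608) (XT.nd (nat_lit 311064) (nat_lit 0) (nat_lit 304) (XT.nd (nat_lit 128154) (nat_lit 0) (nat_lit 76) (XT.nd (nat_lit 64116) (nat_lit 0) (nat_lit 0) (XT.nd (nat_lit 4056) (nat_lit 836) (nat_lit 0) xc32 xc33) (XT.nd (nat_lit 59904) (nat_lit 0) (nat_lit 2128) xc34 xc35)) (XT.nd (nat_lit 63882) (nat_lit 0) (nat_lit 76) (XT.nd (nat_lit 59748) (nat_lit 0) (nat_lit 380) xc36 xc37) (XT.nd (nat_lit 59592) (nat_lit 0) (nat_lit 76) xc38 xc39))) (XT.nd (nat_lit 126594) (nat_lit 0) (nat_lit 152) (XT.nd (nat_lit 63336) (nat_lit 0) (nat_lit 76) (XT.nd (nat_lit 4056) (nat_lit 2736) (nat_lit 0) xc40 xc41) (XT.nd (nat_lit 4134) (nat_lit 1444) (nat_lit 0) xc42 xc43)) (XT.nd (nat_lit 63102) (nat_lit 0) (nat_lit 76) (XT.nd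 (nat_lit 4134) (nat_lit 532) (nat_lit 0) xc44 xc45) (XT.nd (nat_lit 58812) (nat_lit 0) (nat_lit 5776) xc46 xc47)))) (XT.nd (nat_lit 252642) (nat_lit 0) (nat_lit 456) (XT.nd (nat_lit 126048) (nat_lit 0) (nat_lit 304) (XT.nd (nat_lit 62946) (nat_lit 0) (nat_lit 76) (XT.nd (nat_lit 58812) (nat_lit 0) (nat_lit 4560) xc48 xc49) (XT.nd (nat_lit 58968) (nat_lit 0) (nat_lit 3496) xc50 xc51)) (XT.nd (nat_lit 63258) (nat_lit 0) (nat_lit 76) (XT.nd (nat_lit 59124) (nat_lit 0) (nat_lit 1976) xc52 xc53) (XT.nd (nat_lit 59202) (nat_lit 0) (nat_lit 912) xc54 xc55))) (XT.nd (nat_lit 182130) (nat_lit 0) (nat_lit 228) (XT.nd (nat_lit 118560) (nat_lit 0) (nat_lit 152) (XT.nd (nat_lit 59202) (nat_lit 0) (nat_lit 76) xc56 xc57) (XT.nd (nat_lit 4134) (nat_lit 4864) (nat_lit 0) xc58 xc59)) (XT.nd (nat_lit 63648) (nat_lit 0) (nat_lit 152) (XT.nd (nat_lit 4134) (nat_lit 2660) (nat_lit 0) xc60 xc61) (XT.nd (nat_lit 4134)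 (nat_lit 912) (nat_lit 0) xc62 xc63)))))) (XT.nd (nat_lit 1374048) (nat_lit 0) (nat_lit 2736) (XT.nd (nat_lit 625326) (nat_lit 0) (nat_lit 1064) (XT.nd (nat_lit 311454) (nat_lit 0) (nat_lit 456) (XT.nd (nat_lit 127608) (nat_lit 0) (nat_lit 152) (XT.nd (nat_lit 63726) (nat_lit 0) (nat_lit 76) (XT.nd (nat_lit 59592) (nat_lit 0) (nat_lit 3800) xc64 xc65) (XT.nd (nat_lit 59748) (nat_lit 0) (nat_lit 1292) xc66 xc67)) (XT.nd (nat_lit 119730) (nat_lit 0) (nat_lit 228) (XT.nd (nat_lit 59826) (nat_lit 0) (nat_lit 152) xc68 xc69) (XT.nd (nat_lit 4134) (nat_lit 3268) (nat_lit 0) xc70 xc71))) (XT.nd (nat_lit 128544) (nat_lit 0) (nat_lit 304) (XT.nd (nat_lit 64194) (nat_lit 0) (nat_lit 152) (XT.nd (nat_lit 4056) (nat_lit 608) (nat_lit 0) xc72 xc73) (XT.nd (nat_lit 60216) (nat_lit 0) (nat_lit 1444) xc74 xc75)) (XT.nd (nat_lit 120744) (nat_lit 0) (nat_lit 228) (XT.nd (nat_lit 60372) (nat_lit 0) (nat_lit 76) xc76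 xc77) (XT.nd (nat_lit 4134) (nat_lit 1444) (nat_lit 0) xc78 xc79)))) (XT.nd (nat_lit 372528) (nat_lit 0) (nat_lit 684) (XT.nd (nat_lit 185874) (nat_lit 0) (nat_lit 304) (XT.nd (nat_lit 64584) (nat_lit 0) (nat_lit 76) (XT.nd (nat_lit 60450) (nat_lit 0) (nat_lit 1520) xc80 xc81) (XT.nd (nat_lit 60606) (nat_lit 0) (nat_lit 152) xc82 xc83)) (XT.nd (nat_lit 64896) (nat_lit 0) (nat_lit 152) (XT.nd (nat_lit 4134) (nat_lit 684) (nat_lit 0) xc84 xc85) (XT.nd (nat_lit 60840) (nat_lit 0) (nat_lit 76) xc86 xc87))) (XT.nd (nat_lit 187668) (nat_lit 0) (nat_lit 532) (XT.nd (nat_lit 65130) (nat_lit 0) (nat_lit 304) (XT.nd (nat_lit 4056) (nat_lit 2432) (nat_lit 0) xc88 xc89) (XT.nd (nat_lit 61230) (nat_lit 0) (nat_lit 76) xc90 xc91)) (XT.nd (nat_lit 65520) (nat_lit 0) (nat_lit 152) (XT.nd (nat_lit 4134) (nat_lit 1748) (nat_lit 0) xc92 xc93) (XT.nd (nat_lit 61464) (nat_lit 0) (nat_lit 152) xc94 xc95))))) (XT.nd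 (nat_lit 938886) (nat_lit 0) (nat_lit 3648) (XT.nd (nat_lit 437736) (nat_lit 0) (nat_lit 1596) (XT.nd (nat_lit 189228) (nat_lit 0) (nat_lit 912) (XT.nd (nat_lit 65676) (nat_lit 0) (nat_lit 152) (XT.nd (nat_lit 61542) (nat_lit 0) (nat_lit 1596) xc96 xc97) (XT.nd (nat_lit 61698) (nat_lit 0) (nat_lit 152) xc98 xc99)) (XT.nd (nat_lit 124098) (nat_lit 0) (nat_lit 304) (XT.nd (nat_lit 62010) (nat_lit 0) (nat_lit 152) xc100 xc101) (XT.nd (nat_lit 62166) (nat_lit 0) (nat_lit 228) xc102 xc103))) (XT.nd (nat_lit 249834) (nat_lit 0) (nat_lit 988) (XT.nd (nat_lit 124644) (nat_lit 0) (nat_lit 608) (XT.nd (nat_lit 62244) (nat_lit 0) (nat_lit 228) xc104 xc105) (XT.nd (nat_lit 62556) (nat_lit 0) (nat_lit 152) xc106 xc107)) (XT.nd (nat_lit 125502) (nat_lit 0) (nat_lit 380) (XT.nd (nat_lit 62712) (nat_lit 0) (nat_lit 152) xc108 xc109) (XT.nd (nat_lit 62868) (nat_lit 0) (nat_lit 228) xc110 xc111)))) (XT.nd (nat_lit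 686478) (nat_lit 0) (nat_lit 3572) (XT.nd (nat_lit 312078) (nat_lit 0) (nat_lit 1444) (XT.nd (nat_lit 126204) (nat_lit 0) (nat_lit 456) (XT.nd (nat_lit 63024) (nat_lit 0) (nat_lit 228) xc112 xc113) (XT.nd (nat_lit 122460) (nat_lit 0) (nat_lit 456) xc114 xc115)) (XT.nd (nat_lit 186810) (nat_lit 0) (nat_lit 836) (XT.nd (nat_lit 63570) (nat_lit 0) (nat_lit 304) xc116 xc117) (XT.nd (nat_lit 63804) (nat_lit 0) (nat_lit 304) xc118 xc119))) (XT.nd (nat_lit 438282) (nat_lit 0) (nat_lit 3040) (XT.nd (nat_lit 188370) (nat_lit 0) (nat_lit 988) (XT.nd (nat_lit 64038) (nat_lit 0) (nat_lit 304) xc120 xc121) (XT.nd (nat_lit 124800) (nat_lit 0) (nat_lit 760) xc122 xc123)) (XT.nd (nat_lit 312624) (nat_lit 0) (nat_lit 2812) (XT.nd (nat_lit 125580) (nat_lit 0) (nat_lit 836) xc124 xc125) (XT.nd (nat_lit 187980) (nat_lit 0) (nat_lit 2356) xc126 xc127))))))) XT.nil))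

set_option maxRecDepth 10000000 in
noncomputable def Te : XT := XT.nil

set_option maxRecDepth 10000000 in
noncomputable def Tz : ZL := (ZL.cons (nat_lit 76) (nat_lit 3) (nat_lit 236034941541369003752) (ZL.cons (nat_lit 152) (nat_lit 6) (nat_lit 460896908417651142338) (ZL.cons (nat_lit 532) (nat_lit 3) (nat_lit 214230208156546959570) (ZL.cons (nat_lit 608) (nat_lit 6) (nat_lit 418340154753035449074) (ZL.cons (nat_lit 760) (nat_lit 3) (nat_lit 204111321366968585543) (ZL.cons (nat_lit 836) (nat_lit 6) (nat_lit 398592553560431014380) (ZL.cons (nat_lit 912) (nat_lit 6) (nat_lit 389426958448770535726) (ZL.cons (nat_lit 988) (nat_lit 3) (nat_lit 194482747877916734719) (ZL.cons (nat_lit 1064) (nat_lit 6) (nat_lit 379803083581527033140) (ZL.cons (nat_lit 1140) (nat_lit 6) (nat_lit 371083501770430023488) (ZL.cons (nat_lit 1216) (nat_lit 3) (nat_lit 185322006745721170656) (ZL.cons (nat_lit 1292) (nat_lit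 6) (nat_lit 361927940868778163356) (ZL.cons (nat_lit 1368) (nat_lit 6) (nat_lit 353634113159671013136) (ZL.cons (nat_lit 1444) (nat_lit 3) (nat_lit 176607776446984229340) (ZL.cons (nat_lit 1520) (nat_lit 6) (nat_lit 344925594065108505402) (ZL.cons (nat_lit 1596) (nat_lit 6) (nat_lit 337038326384986732208) (ZL.cons (nat_lit 1672) (nat_lit 3) (nat_lit 168319848780254054459) (ZL.cons (nat_lit 1748) (nat_lit 6) (nat_lit 328756695320858870354) (ZL.cons (nat_lit 1824) (nat_lit 6) (nat_lit 321257818293209243906) (ZL.cons (nat_lit 1900) (nat_lit 3) (nat_lit 160439085896852896576) (ZL.cons (nat_lit 1976) (nat_lit 6) (nat_lit 313383997414177136134) (ZL.cons (nat_lit 2052) (nat_lit 6) (nat_lit 306256328909940688210) (ZL.cons (nat_lit 2128) (nat_lit 3) (nat_lit 152947380407587748509) (ZL.cons (nat_lit 2204) (nat_lit 6) (nat_lit 298772276980492417892) (ZL.cons (nat_lit 2280) (nat_lit 6) (nat_lit 291999587615283415234)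 (ZL.cons (nat_lit 2356) (nat_lit 3) (nat_lit 145827618524420188001) (ZL.cons (nat_lit 2432) (nat_lit 6) (nat_lit 284888263781813962442) (ZL.cons (nat_lit 2508) (nat_lit 6) (nat_lit 278455245338301209562) (ZL.cons (nat_lit 2584) (nat_lit 3) (nat_lit 139063646208939633718) (ZL.cons (nat_lit 2660) (nat_lit 6) (nat_lit 271700575972612819038) (ZL.cons (nat_lit 2736) (nat_lit 6) (nat_lit 265592812740192554274) (ZL.cons (nat_lit 2812) (nat_lit 3) (nat_lit 132640238312752495173) (ZL.cons (nat_lit 2888) (nat_lit 6) (nat_lit 259179661346151276272) (ZL.cons (nat_lit 2964) (nat_lit 6) (nat_lit 253383604383886548926) (ZL.cons (nat_lit 3040) (nat_lit 3) (nat_lit 126543070708758720211) (ZL.cons (nat_lit 3116) (nat_lit 6) (nat_lit 247297744573508585214) (ZL.cons (nat_lit 3192) (nat_lit 6) (nat_lit 241800688916877070514) (ZL.cons (nat_lit 3268) (nat_lit 3) (nat_lit 120758695426834197874) (ZL.cons (nat_lit 3344)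 (nat_lit 6) (nat_lit 236028780477413980080) (ZL.cons (nat_lit 3420) (nat_lit 6) (nat_lit 230818845324801875310) (ZL.cons (nat_lit 3496) (nat_lit 3) (nat_lit 115274518822777759196) (ZL.cons (nat_lit 3572) (nat_lit 6) (nat_lit 225348413414559165306) (ZL.cons (nat_lit 3648) (nat_lit 6) (nat_lit 220414525345779691406) (ZL.cons (nat_lit 3724) (nat_lit 3) (nat_lit 110078782825629675741) (ZL.cons (nat_lit 3800) (nat_lit 6) (nat_lit 215233942873561243812) (ZL.cons (nat_lit 3876) (nat_lit 6) (nat_lit 210565822170089370610) (ZL.cons (nat_lit 3952) (nat_lit 3) (nat_lit 105160549325749285341) (ZL.cons (nat_lit 4028) (nat_lit 6) (nat_lit 205664295431443903746) (ZL.cons (nat_lit 4104) (nat_lit 6) (nat_lit 201252445586682827128) (ZL.cons (nat_lit 4180) (nat_lit 3) (nat_lit 100509687784488651695) (ZL.cons (nat_lit 4256) (nat_lit 6) (nat_lit 197075044712823052554) (ZL.cons (nat_lit 4332) (nat_lit 6) (nat_lit 196620003249683696682)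 (ZL.cons (nat_lit 4408) (nat_lit 6) (nat_lit 192455703777564765512) (ZL.cons (nat_lit 4484) (nat_lit 3) (nat_lit 96116866166065466689) (ZL.cons (nat_lit 4560) (nat_lit 6) (nat_lit 188516562153877369568) (ZL.cons (nat_lit 4636) (nat_lit 6) (nat_lit 188083189331839887782) (ZL.cons (nat_lit 4712) (nat_lit 6) (nat_lit 184158492003571771692) (ZL.cons (nat_lit 4788) (nat_lit 3) (nat_lit 91973545313484061020) (ZL.cons (nat_lit 4864) (nat_lit 6) (nat_lit 180450295829878327688) (ZL.cons (nat_lit 4940) (nat_lit 6) (nat_lit 180037559808890249798) (ZL.cons (nat_lit 5016) (nat_lit 6) (nat_lit 176345288470896561830) (ZL.cons (nat_lit 5092) (nat_lit 3) (nat_lit 88071976913256066796) (ZL.cons (nat_lit 5168) (nat_lit 6) (nat_lit 172861485490753739836) (ZL.cons (nat_lit 5244) (nat_lit 6) (nat_lit 172468403566003189466) (ZL.cons (nat_lit 5320) (nat_lit 6) (nat_lit 169002157717219348504) (ZL.cons (nat_lit 5396) (nat_lit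 3) (nat_lit 84405205218426613186) (ZL.cons (nat_lit 5472) (nat_lit 6) (nat_lit 165736963313853982514) (ZL.cons (nat_lit 5548) (nat_lit 6) (nat_lit 165362599575996315494) (ZL.cons (nat_lit 5624) (nat_lit 6) (nat_lit 162665046083518126338) (ZL.cons (nat_lit 5700) (nat_lit 6) (nat_lit 162116761909954226092) (ZL.cons (nat_lit 5776) (nat_lit 3) (nat_lit 80967072726231340602) (ZL.cons (nat_lit 5852) (nat_lit 6) (nat_lit 159065169253807810334) (ZL.cons (nat_lit 5928) (nat_lit 6) (nat_lit 158708632360610032220) (ZL.cons (nat_lit 6004) (nat_lit 6) (nat_lit 156200555910756719614) (ZL.cons (nat_lit 6080) (nat_lit 6) (nat_lit 155678380507362528902) (ZL.cons (nat_lit 6156) (nat_lit 3) (nat_lit 77752230035828147838) (ZL.cons (nat_lit 6232) (nat_lit 6) (nat_lit 152836175007355296240) (ZL.cons (nat_lit 6308) (nat_lit 6) (nat_lit 152496616061452650416) (ZL.cons (nat_lit 6384) (nat_lit 6) (nat_lit 150175248704635936062)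 (ZL.cons (nat_lit 6460) (nat_lit 6) (nat_lit 149677938796641468720) (ZL.cons (nat_lit 6536) (nat_lit 3) (nat_lit 74756150143222528061) (ZL.cons (nat_lit 6612) (nat_lit 6) (nat_lit 147689266060388449892) (ZL.cons (nat_lit 6688) (nat_lit 6) (nat_lit 147041717140877962052) (ZL.cons (nat_lit 6764) (nat_lit 6) (nat_lit 146718327668589727936) (ZL.cons (nat_lit 6840) (nat_lit 6) (nat_lit 144581674375934122070) (ZL.cons (nat_lit 6916) (nat_lit 6) (nat_lit 144108045892129867456) (ZL.cons (nat_lit 6992) (nat_lit 3) (nat_lit 71975147465019022969) (ZL.cons (nat_lit 7068) (nat_lit 6) (nat_lit 142291953257131511056) (ZL.cons (nat_lit 7144) (nat_lit 6) (nat_lit 141675240000454855970) (ZL.cons (nat_lit 7220) (nat_lit 6) (nat_lit 141367250026847013954) (ZL.cons (nat_lit 7296) (nat_lit 6) (nat_lit 139414117598584514880) (ZL.cons (nat_lit 7372) (nat_lit 6) (nat_lit 138963042852104272392) (ZL.cons (nat_lit 7448) (nat_lit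 3) (nat_lit 69406401920294125947) (ZL.cons (nat_lit 7524) (nat_lit 6) (nat_lit 137319295061752486226) (ZL.cons (nat_lit 7600) (nat_lit 6) (nat_lit 136731949103012814718) (ZL.cons (nat_lit 7676) (nat_lit 6) (nat_lit 136438625318624393748) (ZL.cons (nat_lit 7752) (nat_lit 6) (nat_lit 135385784717252027086) (ZL.cons (nat_lit 7828) (nat_lit 6) (nat_lit 134668656651598613652) (ZL.cons (nat_lit 7904) (nat_lit 6) (nat_lit 134239061654950763662) (ZL.cons (nat_lit 7980) (nat_lit 3) (nat_lit 67047988441039181595) (ZL.cons (nat_lit 8056) (nat_lit 6) (nat_lit 132768252896786873480) (ZL.cons (nat_lit 8132) (nat_lit 6) (nat_lit 132208875793225281564) (ZL.cons (nat_lit 8208) (nat_lit 6) (nat_lit 131929519808093452072) (ZL.cons (nat_lit 8284) (nat_lit 6) (nat_lit 131026213067732804344) (ZL.cons (nat_lit 8360) (nat_lit 6) (nat_lit 130343233957586696308) (ZL.cons (nat_lit 8436) (nat_lit 6) (nat_lit 129934095865541124890)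 (ZL.cons (nat_lit 8512) (nat_lit 3) (nat_lit 64898912326640847935) (ZL.cons (nat_lit 8588) (nat_lit 6) (nat_lit 129438389450557706076) (ZL.cons (nat_lit 8664) (nat_lit 6) (nat_lit 128637694143664439834) (ZL.cons (nat_lit 8740) (nat_lit 6) (nat_lit 128104954045034352296) (ZL.cons (nat_lit 8816) (nat_lit 6) (nat_lit 127838900725861181350) (ZL.cons (nat_lit 8892) (nat_lit 6) (nat_lit 128001001512839733208) (ZL.cons (nat_lit 8968) (nat_lit 6) (nat_lit 127088195542377744862) (ZL.cons (nat_lit 9044) (nat_lit 6) (nat_lit 126437739247000499118) (ZL.cons (nat_lit 9120) (nat_lit 6) (nat_lit 126048083921242812052) (ZL.cons (nat_lit 9196) (nat_lit 3) (nat_lit 62959150907164535063) (ZL.cons (nat_lit 9272) (nat_lit 6) (nat_lit 125691048871342595454) (ZL.cons (nat_lit 9348) (nat_lit 6) (nat_lit 124928481912396627606) (ZL.cons (nat_lit 9424) (nat_lit 6) (nat_lit 124421110389891782334) (ZL.cons (nat_lit 9500) (nat_lit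 6) (nat_lit 124167726276393524288) (ZL.cons (nat_lit 9576) (nat_lit 6) (nat_lit 124442927590866050780) (ZL.cons (nat_lit 9652) (nat_lit 6) (nat_lit 123573588571378442832) (ZL.cons (nat_lit 9728) (nat_lit 6) (nat_lit 122954106385304875456) (ZL.cons (nat_lit 9804) (nat_lit 6) (nat_lit 122583006075059459204) (ZL.cons (nat_lit 9880) (nat_lit 3) (nat_lit 61229702034237471542) (ZL.cons (nat_lit 9956) (nat_lit 6) (nat_lit 123340859983613642870) (ZL.cons (nat_lit 10032) (nat_lit 6) (nat_lit 122369833287419711020) (ZL.cons (nat_lit 10108) (nat_lit 6) (nat_lit 121643579040804503544) (ZL.cons (nat_lit 10184) (nat_lit 6) (nat_lit 121160368066990365188) (ZL.cons (nat_lit 10260) (nat_lit 6) (nat_lit 120919049863658690862) (ZL.cons (nat_lit 10336) (nat_lit 6) (nat_lit 122382222079091913616) (ZL.cons (nat_lit 10412) (nat_lit 6) (nat_lit 121314349976511006620) (ZL.cons (nat_lit 10488) (nat_lit 6) (nat_lit 120486408053189475242)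 (ZL.cons (nat_lit 10564) (nat_lit 6) (nat_lit 119896425018833696786) (ZL.cons (nat_lit 10640) (nat_lit 6) (nat_lit 119542996151933300356) (ZL.cons (nat_lit 10716) (nat_lit 3) (nat_lit 59712639977593071075) (ZL.cons (nat_lit 10792) (nat_lit 6) (nat_lit 120404625583150166048) (ZL.cons (nat_lit 10868) (nat_lit 6) (nat_lit 119479838253441659524) (ZL.cons (nat_lit 10944) (nat_lit 6) (nat_lit 118788167542379557166) (ZL.cons (nat_lit 11020) (nat_lit 6) (nat_lit 118327966614937520636) (ZL.cons (nat_lit 11096) (nat_lit 6) (nat_lit 118098139754621640326) (ZL.cons (nat_lit 11172) (nat_lit 3) (nat_lit 58954815639000919652) (ZL.cons (nat_lit 11248) (nat_lit 6) (nat_lit 117978457500229926972) (ZL.cons (nat_lit 11324) (nat_lit 6) (nat_lit 118185100038871875900) (ZL.cons (nat_lit 11400) (nat_lit 6) (nat_lit 118530050899972071678) (ZL.cons (nat_lit 11476) (nat_lit 6) (nat_lit 119014131395104562392) (ZL.cons (nat_lit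 11552) (nat_lit 6) (nat_lit 119638494096876806356) (ZL.cons (nat_lit 11628) (nat_lit 6) (nat_lit 118621473046799752072) (ZL.cons (nat_lit 11704) (nat_lit 6) (nat_lit 117832956929350674568) (ZL.cons (nat_lit 11780) (nat_lit 6) (nat_lit 117271068325202314136) (ZL.cons (nat_lit 11856) (nat_lit 6) (nat_lit 116934469404344793726) (ZL.cons (nat_lit 11932) (nat_lit 3) (nat_lit 58411179370388035811) (ZL.cons (nat_lit 12008) (nat_lit 6) (nat_lit 116493286487343670884) (ZL.cons (nat_lit 12084) (nat_lit 6) (nat_lit 116634380242911250604) (ZL.cons (nat_lit 12160) (nat_lit 6) (nat_lit 116916903691559666186) (ZL.cons (nat_lit 12236) (nat_lit 6) (nat_lit 117341529508166651950) (ZL.cons (nat_lit 12312) (nat_lit 6) (nat_lit 117909268706581272150) (ZL.cons (nat_lit 12388) (nat_lit 6) (nat_lit 117028518868763646886) (ZL.cons (nat_lit 12464) (nat_lit 6) (nat_lit 116369784858228311308) (ZL.cons (nat_lit 12540) (nat_lit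 6) (nat_lit 115931498260664466996) (ZL.cons (nat_lit 12616) (nat_lit 6) (nat_lit 115712615536554104792) (ZL.cons (nat_lit 12692) (nat_lit 3) (nat_lit 57606606454472465742) (ZL.cons (nat_lit 12768) (nat_lit 6) (nat_lit 115285480442284423536) (ZL.cons (nat_lit 12844) (nat_lit 6) (nat_lit 115502455107858469910) (ZL.cons (nat_lit 12920) (nat_lit 6) (nat_lit 115864653512013675478) (ZL.cons (nat_lit 12996) (nat_lit 6) (nat_lit 116372938031902790728) (ZL.cons (nat_lit 13072) (nat_lit 6) (nat_lit 115621970300998907390) (ZL.cons (nat_lit 13148) (nat_lit 6) (nat_lit 115086838297048087932) (ZL.cons (nat_lit 13224) (nat_lit 6) (nat_lit 114766267896231401826) (ZL.cons (nat_lit 13300) (nat_lit 3) (nat_lit 57329747917844880863) (ZL.cons (nat_lit 13376) (nat_lit 6) (nat_lit 114135188970799426062) (ZL.cons (nat_lit 13452) (nat_lit 6) (nat_lit 114283337414145384768) (ZL.cons (nat_lit 13528) (nat_lit 6) (nat_lit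 114579987035226221128) (ZL.cons (nat_lit 13604) (nat_lit 6) (nat_lit 115025844142663556182) (ZL.cons (nat_lit 13680) (nat_lit 6) (nat_lit 114398478418344188964) (ZL.cons (nat_lit 13756) (nat_lit 6) (nat_lit 113981062611140527712) (ZL.cons (nat_lit 13832) (nat_lit 6) (nat_lit 113772602873892563710) (ZL.cons (nat_lit 13908) (nat_lit 3) (nat_lit 56590383519619218380) (ZL.cons (nat_lit 13984) (nat_lit 6) (nat_lit 113256647949244903414) (ZL.cons (nat_lit 14060) (nat_lit 6) (nat_lit 113484471348097652106) (ZL.cons (nat_lit 14136) (nat_lit 6) (nat_lit 113864779672460617952) (ZL.cons (nat_lit 14212) (nat_lit 6) (nat_lit 113355130144888408940) (ZL.cons (nat_lit 14288) (nat_lit 6) (nat_lit 113049825001253469792) (ZL.cons (nat_lit 14364) (nat_lit 3) (nat_lit 56474068662273572945) (ZL.cons (nat_lit 14440) (nat_lit 6) (nat_lit 112419942214431072318) (ZL.cons (nat_lit 14516) (nat_lit 6) (nat_lit 112575498079944328958)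 (ZL.cons (nat_lit 14592) (nat_lit 6) (nat_lit 112886980182079207136) (ZL.cons (nat_lit 14668) (nat_lit 6) (nat_lit 112489441318075720228) (ZL.cons (nat_lit 14744) (nat_lit 6) (nat_lit 112290908234982421180) (ZL.cons (nat_lit 14820) (nat_lit 3) (nat_lit 55885614026596214990) (ZL.cons (nat_lit 14896) (nat_lit 6) (nat_lit 111850903008699219966) (ZL.cons (nat_lit 14972) (nat_lit 6) (nat_lit 112090117577494606092) (ZL.cons (nat_lit 15048) (nat_lit 6) (nat_lit 111799350774032759284) (ZL.cons (nat_lit 15124) (nat_lit 3) (nat_lit 55851252683822892069) (ZL.cons (nat_lit 15200) (nat_lit 6) (nat_lit 111308960908002217728) (ZL.cons (nat_lit 15276) (nat_lit 6) (nat_lit 111472294566791137200) (ZL.cons (nat_lit 15352) (nat_lit 6) (nat_lit 111283215440035614294) (ZL.cons (nat_lit 15428) (nat_lit 3) (nat_lit 55474190719759164689) (ZL.cons (nat_lit 15504) (nat_lit 6) (nat_lit 111032040142800458864) (ZL.cons (nat_lit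 15580) (nat_lit 3) (nat_lit 55469903211215955552) (ZL.cons (nat_lit 15656) (nat_lit 6) (nat_lit 110768306080703545660) (ZL.cons (nat_lit 15732) (nat_lit 1) (nat_lit 18446744073709551617) ZL.nil))))))))))))))))))))))))))))))))))))))))))))))))))))))))))))))))))))))))))))))))))))))))))))))))))))))))))))))))))))))))))))))))))))))))))))))))))))))))))))))))))))))))))))))))))))))))))))))))))))))))))

noncomputable def vl : XL := ⟨(nat_lit 0), (nat_lit 76), (nat_lit 62043833), (nat_lit 152), (nat_lit 131217130), (nat_lit 76), (nat_lit 62043833), (nat_lit 1), (nat_lit 5), (nat_lit 2), (nat_lit 4), (nat_lit 1), (nat_lit 4), (nat_lit 0), (nat_lit 0), (nat_lit 0)⟩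

noncomputable def cp0 : Nat := (nat_lit 4296307138567816458752010508239397920428034954187139710928692188217328001832330186302166615843694381678488768131823922025229297083839905525573046848560414931911611495612442866708420190584385970087256238162743503428532353616044989033713049147123127473448325740789423120387234671848732831543299513523124541283462227975352293694593627869415873663658996422122380633971372265423098472167154954522844866905963656069503487989937026556201664942157463481713759453189725328604499437229135706117711727158419395950774167427287863208109061412822541737204541215647320832094704159926687048920198652385972543796267891670222890377943262479964407138180052273196716634945609788522244291293496030762134894751956690368445976383753585927433626628246404566584243020210629786814635662575596754149898271424908901834436802656544453454357474160856683765550408750441077312754385508398117829599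1915345957011286766947729991511853711520486692089753817446634611713784062965135344537164883994384904618443003429429849453318048933801531035346027035051172563350720489385077946307140320890038038978148811973309837984773409320202675843282108850255643885033399445751108831830290142220342206569175970903213014913500175903927130016005592688323655341577576778593707194346062084536656671838060404030411969181532183560033757931813273803157259851043852229271440175779830700537903394136854356380786107786571863888446694864906398379035165418375722814789425807932064486758865978362895973244725592959186272974964460942831561430547417430189488484497161547946478360229657560131871976170019487865976179670053964257407478831217047870171032849805642970868177012416296060350396335383030557653457201213389002537532786070093807893690403995881649430934529553277824611109922528439261466523595930226116487528111548058998211212697918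2569128310091851012462686056340559184650318185990748188575096122991155785229109281287103167651591362365557711975447319377328914696459679319993201398715195236904143367791531450673064169111120433619147994900288949156127776574926259345405257665187090798045006769945370521104018700957869851602349228790906295469469659131812515279045160150747042341921398034709297793640299895935064464341285299793175369360558387106097482806747379089571130150091899669318355121850920517864357854850069528328092138314546971394600123249327436065499838202683582002993035947988051650278860743476332967261666141200894722064863502523372162560048803184191037762319781264457659074872289996587581530744373736262875749533690217432469946869037709144299227769204727806358828729984420427928699227285700964472499200560099348599455130637307296776242417743424464403407845692019119478982342094899070966735715609891209474677575122218270206786977211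7437951336964256707759817029569770925028642635793070515116348667819602849689526904919821070054719557473088152492296360511850451837952502827520768209012539459466756762082469126503360328201559332087379081337738854199047706443597875388384636421847810073792797605301258678212521699328898602255281655086526400897558474756811641341309584518206267602911611748219727634014375271235122166671901379391759353397285102205555476731613720312396292008448104171307697450236431388475591179148030984071296850102015931784137052498512310361722682509232592018605035692124527767028589582271557501387702768076767454423573532340518274830160938208804443272161585185720196558422951860385158279549952403892528106606677715398058373332281973412993990394100459881016820228827053874852130637091156070210359956208832950239056786171890836479138161888402338733610987794259266948184009128851743692703465455623852678613647511951200428964995996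60442064019599076616143561915815514285721884510374379683993452726118316526761293402339597295457837474372601977148678826335062113333907617906431802474197664473842435312116276783481451499212284643053879386493667443600679800876724774651130829788417121039449483821434836661024281090069460545336664173932100831932506393915338931242920426841876051214432017178199298979250535925617865280544403569367960008617663231296131460405187622115134003009691391068967277386958890040746277712222124884660358677014446283768065928789880742974596407953492482116712335180485549016445477431175216534387450181755033007333490502228007008647751636691123278994691613093644492270868673371643993937517868118111737779996373011729239447418097291071361372104877567830655511179307368376540890358255590047124203375301198168458670713855386760457145904590775097494783909348414948118644940500276011565871711450596089625967256474385875146468395823750591772386528063215079268258322986803358981051969473608337381043397045067447020116699076495391668644068330268971681326313781057847131330800825064284804615152747834339231020325934817296835570221654400816603371008299010697661990368295126351562084147762477137920)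

noncomputable def cp1 : Nat := (nat_lit 4462103374227143114846950412668957069150215902174925226968020593013516254595646608144366009720129823281593420590656043756450409184575035331601917175280836277847292924987970344271312634844646750985188564192733038574472888645928664808526524186205456548584784410715031308325797807849359484334197270819797315339717189881269770064958817427317080056283478635651806244706022232558485225350759060566554972904492485298808550053816715486424640908764033994639312937370776791715758361781727641094230171142089602563649903854822161259503788575933663771135617290834698031532212361034291715091885479155568829459146586478749339287698902555325688740034485140907386780281878793603757601561648006726015507315195035020076973658046341334560367877493350994202015151213910187744692428319998278217273252878397337368061635480746740704005332082917041760853053071757979082858491087677218027429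3174122066980026491313165010858825195308500235271121595015494284311648121886850563010659470441929732905076083059132780606694665544690306320073069060081366941381365896879130131734890331436774348499297467135506703198953627181613685902733011684990157417125895312129743531470611113519395451281491291043110660219468340629095199933326565073162956156159886325944554225641381035316489343229848371773924322354841742500166884544456447781743673032059128138757198252331440396354484004089497721685305098405381557654929015529836730402039809791403637816229893696757630043895480133558281604537630049112547392622810159379694374091262287103475402401310681834658151388853974421685965555488201108449659433013443756913135713176085379842525351511419434446610877226872479802791025101008352958112864626484514892729677313838606235341731736586259347467754610269550847202041212425290428779705187269798984044383020187499588763292746157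1640857607022622522427291534154410393147658160324775552381956300892623483464400729364697742156230698951622488140742418709695631498234875534254475263911631917679917192155614704388139760508945748034328921824200834564478766095394129662837010952985005120921190807083689024318958686404543739240160692801930385245005547859990045200571555383208099096405373446507385163816270341619207323288417198949889056462260484727280962414785197798980118696265055146667412573388744315981284385634404443618125942527430831356507809909957095712182978191829510224811865808883862816117688544077156180309997990685968610741849834649979996264983465068013307464529543579858279782626634907672978476466066943557175432051801215980435816908675169001365550855512436403151753464888319087052643201868074857833913173934800285581059385323487455727043822639813787371472577156565558584324471642039680512539749423843026326454857792460160505622139940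7819646455359273247080519602747640993039872734669357094812729063956862764046392694577022042641656218412256956305063471922282816020932274865051302401532392902293935302276936108191264013594796096002362033193994935346616956771039962439734274623550759393118261196052985524971660989030812274925258018401770811578930306798417054924935535398149495858784793581356351451257857269701625750216916607034557234338082279109126760188049917503871407475841185810691543677461497754795530521592631652868428468625009800508766277738792355768842576236875652391301052580778495725760262117159000335224974575748115498065759136642893668929019757429881354719079282860217317814518951551477762731502629124879606074525642259867586389545116351891210683941370472426874921245754175617835558247213413414026746803367299753650939577237537030632258270396113832569472107625971254560924048921408836432931787880609355025145402004908434463809111658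6024350849667536905127256051478333522468978073536981266577801337485446621250218619776054619923739101470192358429497509688461493670732024514743089831935333270847315321898582255651784074632467962216455857883628609515890306383847937974230840854458254397788549327136794630696052136770086832764353513831149230058934136060366437104191578701868890413837789831591824472114319543245274816865646182785039387393016206001531532322870190386508911817062865677151032496574169844242085681348294470827928707190905484925776216128968362076213440748283748544289445613023961949872426804405726171671171266782447730696021272462604342164533278253060369979093720085769230324993930421780077642647434089441040982016771103550599402816235879673674572773752555632964561013847442202879720700847216922436433971423724309416076614953371977633063768076984572176417380874905644586934228106490584724126308962397299060777598942227154331803403165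4045068229835305856307131616894039239885212574258925147491754095023162142557308237657765741471186181598565920494408069393721930501448530156544137746300613330773539309708543923574986012965391149335461721802361994152778260157712142085766142055673438997988694587310344014863911575498853963309662700396301688027692005703648948980917219633461140450675415477149134173161293711620089896976452282682460896002073909724956584868990221266180128802773076907855496369108772013855536840838919721856486478644301713893413842307361515971915321733157895127827033069645820591127818006892337837960635306321793429850775055903365004133403321517742738409881909777920807087189557544931949322692771950305576260915216515525781637819914216819816114988052635637473756577687594757615985150133231646576786840488111286079191203121285049835653458159628128238019319514843854166168592520506659739261485983747202245673979601680533839412098908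5317722378602828267920370497957513561801002868343823318091634595850648816355739969380701044999439850058815222177401663938710802837067486192787895090915542451199045820327121894367113531417949222183172522777758009583428939032728559440157478338223730508704412271985364910459982871651390268325934858231721597399531463943586427291726661117794694983476564483955528727578966426883262198795807858049014728822110098148397624293222739349388041182589838737171768796254441440269967906359217882883701745196620794420406972880647649071887504323195503364609492015382646977920475852622930928434273920233066358622108892277824246784179620731541481865924438574838903514806638841565127284426696637833088490718880621453368399642626478031482653949889877060627210979453893639072983072540854152169353679637144367372153367040997635634328564319412085014828090037804465986361803936805690147306322675419824229541945443949233282694281943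2922304675421431034935119327973511465850268030845634611175661617920326255242950621823997796625922586223626704499848307355194712102801295282735143030220404783114751162966560648266131475768427453818728299543916828844908056166714846147089153560798621507539546011756484486097443349681803589884729553835654555906926918733150177144312118278024129427789690602024816809279910323355340170498283067449670447672549330260836012710764577287897870140336811699736329030118378354927787306293747665756765908825577883678529791404913380434883017126608196351696712207584605455947293622863071868929276207695000015066942248949099317528037923781206949596712489991512552335033491953926554286118890807555789107425077496958392516499087364871856577030776744044523573423012870397233663334470640015426291728129579726187785437194940052797723225308346699783664619467135077732251630421909810380009427120335908822001214712717909999368670665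4907954364983959974816909097711263215625925115414598141449863966073161337309480927010379904298855173425891628255695908607482594171734353433242076329660438354019800809383940018568770363038519906687822531413125623245652317055455769977285725122816211536010594732212887243218024367070877400619650979766930427601356017362369792909429866791997470421765843598053679030764683938704386439214526270971218039993850886213236878621900567046699016466887614956738547345677739626500550723666422740853053196714098291243555579362955148227503627569488251053964157408036153888730974044184006319965909111161999814219082351928716943438222995613595281217507539784863658221931899179217742331677615087273330114862027074623904966683465453917494566126973001805600533006405095597857769487307683861224132784608397097369830104875003552179215283149357055702231074403254628028634563283751626103068593393846920985337318935812358467110709891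7819442901456572677909876380812612958430097419094166702274733121094966916604504433621839118690729544386654864276080457708232252254262839172803274537551304076672450037032557427872437681416668102397851508366598594301632502562862805888550067520137383394872384168889849615331080675664904178513497576312073085216439936029362567845268618261439300394326791618957088351148412477525002041279611114330004583655915408303976007852545739170640083633171576486756766964913081632023383514167298921003003193792090430860712378043424957892574207044397539116771989571147598096472343596083801692215468846303161123336697665685694902026975087701472978230638444741620617447144844884281561264015833462791530755005710816088885837590495968182012809689573321293764277769934174250424873454400490493524257925150793142549986907714765356455712212533326055241311953696440906643057939447301053784898176175580978797389913829355066601262201975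79682786063299320743360749001311823562235997557399245802721965846862542492261056973438007573806503175619722973089989940519564130186703828426579869500103097345672237821357555847708349196801904264041534870831999616642604969356831988850227180475104567635286832589832035719219431232911275202644844310952946325050525557879541788087661407678026329876940540658641109985055159298871501093785542159429346451694241597143940040195584672448982746602641181236670499888776038813199098920536938077150053928182030211123862942284884334399889577037870598247632610055655445776402357135257117018140279972051455451310594196918452193472546705470485521024418415633696761462831693498417646993879622512788105763145855142307887025325410226677638548352549586288434963304220873151515765326864701892876213544826941633835712397980790386288716367690293060112179424633889974599135779238343693686824622050397919015091923195583159732108121165518812687572881451478851249004854358498392487632924845662346637407084127253738189944921043266050709794022949859187748292866189577718138523352107871909947342274954474857293936302775687486553809594711248446668296701227451018403734874013873327539378203663157645996654992655335244722302275936440072299777575810631993074881295012318533412403578022766662933867688550870054916814692024539031146387487607570586177908217146306465234594512778928635607252992)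

noncomputable def rc0 : Nat := (nat_lit 4462103374227143114846950412668957069150215902174925226968020593013516254595646608144366009720129823281593420590656043756450409184575035331601917175280836277847292924987970344271312634844646750985188564192733038574472888645928664808526524186205456548584784410715031308325797807849359484334197270819797315339717189881269770064958817427317080056283478635651806244706022232558485225350759060566554972904492485298808550053816715486424640908764033994639312937370776791715758361781727641094230171142089602563649903854822161259503788575933663771135617290834698031532212361034291715091885479155568829459146586478749339287698902555325688740034485140907386780281878793603757601561648006726015507315195035020076973658046341334560367877493350994202015151213910187744692428319998278217273252878397337368061635480746740704005332082917041760853053071757979082858491087677218027429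3174122066980026491313165010858825195308500235271121595015494284311648121886850563010659470441929732905076083059132780606694665544690306320073069060081366941381365896879130131734890331436774348499297467135506703198953627181613685902733011684990157417125895312129743531470611113519395451281491291043110660219468340629095199933326565073162956156159886325944554225641381035316489343229848371773924322354841742500166884544456447781743673032059128138757198252331440396354484004089497721685305098405381557654929015529836730402039809791403637816229893696757630043895480133558281604537630049112547392622810159379694374091262287103475402401310681834658151388853974421685965555488201108449659433013443756913135713176085379842525351511419434446610877226872479802791025101008352958112864626484514892729677313838606235341731736586259347467754610269550847202041212425290428779705187269798984044383020187499588763292746157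1640857607022622522427291534154410393147658160324775552381956300892623483464400729364697742156230698951622488140742418709695631498234875534254475263911631917679917192155614704388139760508945748034328921824200834564478766095394129662837010952985005120921190807083689024318958686404543739240160692801930385245005547859990045200571555383208099096405373446507385163816270341619207323288417198949889056462260484727280962414785197798980118696265055146667412573388744315981284385634404443618125942527430831356507809909957095712182978191829510224811865808883862816117688544077156180309997990685968610741849834649979996264983465068013307464529543579858279782626634907672978476466066943557175432051801215980435816908675169001365550855512436403151753464888319087052643201868074857833913173934800285581059385323487455727043822639813787371472577156565558584324471642039680512539749423843026326454857792460160505622139940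7819646455359273247080519602747640993039872734669357094812729063956862764046392694577022042641656218412256956305063471922282816020932274865051302401532392902293935302276936108191264013594796096002362033193994935346616956771039962439734274623550759393118261196052985524971660989030812274925258018401770811578930306798417054924935535398149495858784793581356351451257857269701625750216916607034557234338082279109126760188049917503871407475841185810691543677461497754795530521592631652868428468625009800508766277738792355768842576236875652391301052580778495725760262117159000335224974575748115498065759136642893668929019757429881354719079282860217317814518951551477762731502629124879606074525642259867586389545116351891210683941370472426874921245754175617835558247213413414026746803367299753650939577237537030632258270396113832569472107625971254560924048921408836432931787880609355025145402004908434463809111658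6024350849667536905127256051478333522468978073536981266577801337485446621250218619776054619923739101470192358429497509688461493670732024514743089831935333270847315321898582255651784074632467962216455857883628609515890306383847937974230840854458254397788549327136794630696052136770086832764353513831149230058934136060366437104191578701868890413837789831591824472114319543245274816865646182785039387393016206001531532322870190386508911817062865677151032496574169844242085681348294470827928707190905484925776216128968362076213440748283748544289445613023961949872426804405726171671171266782447730696021272462604342164533278253060369979093720085769230324993930421780077642647434089441040982016771103550599402816235879673674572773752555632964561013847442202879720700847216922436433971423724309416076614953371977633063768076984572176417380874905644586934228106490584724126308962397299060777598942227154331803403165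4045068229835305856307131616894039239885212574258925147491754095023162142557308237657765741471186181598565920494408069393721930501448530156544137746300613330773539309708543923574986012965391149335461721802361994152778260157712142085766142055673438997988694587310344014863911575498853963309662700396301688027692005703648948980917219633461140450675415477149134173161293711620089896976452282682460896002073909724956584868990221266180128802773076907855496369108772013855536840838919721856486478644301713893413842307361515971915321733157895127827033069645820591127818006892337837960635306321793429850775055903365004133403321517742738409881909777920807087189557544931949322692771950305576260915216515525781637819914216819816114988052635637473756577687594757615985150133231646576786840488111286079191203121285049835653458159628128238019319514843854166168592520506659739261485983747202245673979601680533839412098908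5317722378602828267920370497957513561801002868343823318091634595850648816355739969380701044999439850058815222177401663938710802837067486192787895090915542451199045820327121894367113531417949222183172522777758009583428939032728559440157478338223730508704412271985364910459982871651390268325934858231721597399531463943586427291726661117794694983476564483955528727578966426883262198795807858049014728822110098148397624293222739349388041182589838737171768796254441440269967906359217882883701745196620794420406972880647649071887504323195503364609492015382646977920475852622930928434273920233066358622108892277824246784179620731541481865924438574838903514806638841565127284426696637833088490718880621453368399642626478031482653949889877060627210979453893639072983072540854152169353679637144367372153367040997635634328564319412085014828090037804465986361803936805690147306322675419824229541945443949233282694281943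2922304675421431034935119327973511465850268030845634611175661617920326255242950621823997796625922586223626704499848307355194712102801295282735143030220404783114751162966560648266131475768427453818728299543916828844908056166714846147089153560798621507539546011756484486097443349681803589884729553835654555906926918733150177144312118278024129427789690602024816809279910323355340170498283067449670447672549330260836012710764577287897870140336811699736329030118378354927787306293747665756765908825577883678529791404913380434883017126608196351696712207584605455947293622863071868929276207695000015066942248949099317528037923781206949596712489991512552335033491953926554286118890807555789107425077496958392516499087364871856577030776744044523573423012870397233663334470640015426291728129579726187785437194940052797723225308346699783664619467135077732251630421909810380009427120335908822001214712717909999368670665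4907954364983959974816909097711263215625925115414598141449863966073161337309480927010379904298855173425891628255695908607482594171734353433242076329660438354019800809383940018568770363038519906687822531413125623245652317055455769977285725122816211536010594732212887243218024367070877400619650979766930427601356017362369792909429866791997470421765843598053679030764683938704386439214526270971218039993850886213236878621900567046699016466887614956738547345677739626500550723666422740853053196714098291243555579362955148227503627569488251053964157408036153888730974044184006319965909111161999814219082351928716943438222995613595281217507539784863658221931899179217742331677615087273330114862027074623904966683465453917494566126973001805600533006405095597857769487307683861224132784608397097369830104875003552179215283149357055702231074403254628028634563283751626103068593393846920985337318935812358467110709891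7819442901456572677909876380812612958430097419094166702274733121094966916604504433621839118690729544386654864276080457708232252254262839172803274537551304076672450037032557427872437681416668102397851508366598594301632502562862805888550067520137383394872384168889849615331080675664904178513497576312073085216439936029362567845268618261439300394326791618957088351148412477525002041279611114330004583655915408303976007852545739170640083633171576486756766964913081632023383514167298921003003193792090430860712378043424957892574207044397539116771989571147598096472343596083801692215468846303161123336697665685694902026975087701472978230638444741620617447144844884281561264015833462791530755005710816088885837590495968182012809689573321293764277769934174250424873454400490493524257925150793142549986907714765356455712212533326055241311953696440906643057939447301053784898176175580978797389913829355066601262201975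79682786063299320743360749001311823562235997557399245802721965846862542492261056973438007573806503175619722973089989940519564130186703828426579869500103097345672237821357555847708349196801904264041534870831999616642604969356831988850227180475104567635286832589832035719219431232911275202644844310952946325050525557879541788087661407678026329876940540658641109985055159298871501093785542159429346451694241597143940040195584672448982746602641181236670499888776038813199098920536938077150053928182030211123862942284884334399889577037870598247632610055655445776402357135257117018140279972051455451310594196918452193472546705470485521024418415633696761462831693498417646993879622512788105763145855142307887025325410226677638548352549586288434963304220873151515765326864701892876213544826941633835712397980790386288716367690293060112179424633889974599135779238343693686824622050397919015091923195583159732108121165518812687572881451478851249004854358498392487632924845662346637407084127253738189944921043266050709794022949859187748292866189577718138523352107871909947342274954474857293936302775687486553809594711248446668296701227451018403734874013873327539378203663157645996654992655335244722302275936440072299777575810631993074881295012318533412403578022766662933867688550870054916814692024539031146387487607570586177908217146306465234594512778928635607252992)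

end Vale.Agent.Lib.P154.PChain.BC.S5
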